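import Crest.Agent.R012.Lat_277

/-!
# Row 12: Abel summation for sums over a family with a counting function `c y + O(√y)`

`abel` : for a family `N : ι → ℝ`, `N i > 0`, with `|#{i : N i ≤ y} - c y| ≤ K √y` (all `y ≥ 0`)
and `F` differentiable on `(0,∞)` with integrable `|F' y| (y + √y)`,
`‖∑' i, F (N i) - c ∫_0^∞ F‖ ≤ K ∫_0^∞ ‖F' y‖ √y dy`.

`abel_prim` : the case of primary Eisenstein integers, `c = 2π/(9√3)`, `K = 70`.
-/

set_option autoImplicit false

noncomputable section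

open MeasureTheory Set Filter Topology

namespace Crest.Agent.R012.Abel663

open Crest.Agent.R012 Crest.Agent.R012.Eis

variable {E : Type*} [NormedAddCommGroup E] [NormedSpace ℝ E]

/-- Fundamental theorem of calculus on a half line. -/
lemma ftc_Ici [CompleteSpace E] {F F' : ℝ → E} {a : ℝ} (ha : 0 < a)
    (hF : ∀ y, 0 < y → HasDerivAt F (F' y) y) (hi : IntegrableOn F' (Ioi a))
    (h0 : Tendsto F atTop (𝓝 0)) : ∫ y in Ici a, F' y = - F a := by
  rw [integral_Ici_eq_integral_Ioi]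
  have h := integral_Ioi_of_hasDerivAt_of_tendsto (f := F) (f' := F') (m := 0) (a := a)
    (hF a ha).continuousAt.continuousWithinAt
    (fun x hx => hF x (ha.trans hx)) hi h0
  rw [h, zero_sub]

theorem abel [CompleteSpace E] {ι : Type*} [Countable ι] (N : ι → ℝ) (hN : ∀ i, 0 < N i)
    {c K : ℝ} (hfin : ∀ y : ℝ, {i | N i ≤ y}.Finite)
    (hcount : ∀ y : ℝ, 0 ≤ y → |(({i | N i ≤ y}.ncard : ℕ) : ℝ) - c * y| ≤ K * Real.sqrt y)
    (F F' : ℝ → E) (hF : ∀ y, 0 < y → HasDerivAt F (F' y) y)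
    (hFi : IntegrableOn F (Ioi 0))
    (h1 : IntegrableOn (fun y => y • F' y) (Ioi 0))
    (h2 : IntegrableOn (fun y => Real.sqrt y • F' y) (Ioi 0))
    (hinf : Tendsto F atTop (𝓝 0))
    (hinf1 : Tendsto (fun y : ℝ => y • F y) atTop (𝓝 0))
    (hzero1 : Tendsto (fun y : ℝ => y • F y) (𝓝[>] 0) (𝓝 0)) :
    Summable (fun i => ‖F (N i)‖) ∧
    ‖∑' i, F (N i) - c • ∫ y in Ioi (0 : ℝ), F y‖ ≤
      K * ∫ y in Ioi (0 : ℝ), ‖F' y‖ * Real.sqrt y := by
  classical
  -- the indicator functions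
  set g : ι → ℝ → E := fun i => (Ici (N i)).indicator F' with hg
  have hmeas : AEStronglyMeasurable F' (volume.restrict (Ioi 0)) := by
    have h3 : AEStronglyMeasurable (fun y : ℝ => y⁻¹ • (y • F' y)) (volume.restrict (Ioi 0)) :=
      (measurable_inv.aestronglyMeasurable).smul h1.aestronglyMeasurable
    refine h3.congr ?_
    filter_upwards [ae_restrict_mem measurableSet_Ioi] with y hy
    rw [smul_smul, inv_mul_cancel₀ (ne_of_gt hy), one_smul]
  have hIoi : ∀ a : ℝ, 0 < a → IntegrableOn F' (Ioi a) := by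
    intro a ha
    have h3 : IntegrableOn (fun y : ℝ => y • F' y) (Ioi a) :=
      h1.mono_set (Ioi_subset_Ioi ha.le)
    refine Integrable.mono' (h3.norm.const_mul a⁻¹)
      (hmeas.mono_measure (Measure.restrict_mono (Ioi_subset_Ioi ha.le) le_rfl)) ?_
    filter_upwards [ae_restrict_mem measurableSet_Ioi] with y hy
    have hy' : a < y := hy
    rw [norm_smul, Real.norm_of_nonneg (ha.trans hy').le, ← mul_assoc]
    refine le_mul_of_one_le_left (norm_nonneg _) ?_
    rw [inv_mul_eq_div, one_le_div ha]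
    exact hy'.le
  have hIci : ∀ i, IntegrableOn F' (Ici (N i)) := fun i => by
    rw [integrableOn_Ici_iff_integrableOn_Ioi]
    exact hIoi _ (hN i)
  have hsub : ∀ i, Ici (N i) ⊆ Ioi (0 : ℝ) := fun i y hy => lt_of_lt_of_le (hN i) hy
  have hgi : ∀ i, Integrable (g i) (volume.restrict (Ioi 0)) := by
    intro i
    rw [hg]
    rw [integrable_indicator_iff measurableSet_Ici]
    rw [IntegrableOn, Measure.restrict_restrict measurableSet_Ici,
      inter_eq_left.mpr (hsub i)]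
    exact hIci i
  have hgint : ∀ i, ∫ y in Ioi (0 : ℝ), g i y = - F (N i) := by
    intro i
    rw [hg]
    simp only
    rw [setIntegral_indicator measurableSet_Ici, inter_eq_right.mpr (hsub i)]
    exact ftc_Ici (hN i) hF (hIoi _ (hN i)) hinf
  -- pointwise sum
  have hpt : ∀ y : ℝ, HasSum (fun i => g i y) ((({i | N i ≤ y}.ncard : ℕ) : ℝ) • F' y) := by
    intro y
    have e : ∀ i ∉ (hfin y).toFinset, g i y = 0 := by
      intro i hi
      rw [Set.Finite.mem_toFinset, Set.mem_ofPred_eq] at hi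
      rw [hg]
      exact indicator_of_notMem (by simpa using hi) _
    have h3 : HasSum (fun i => g i y) (∑ i ∈ (hfin y).toFinset, g i y) :=
      hasSum_sum_of_ne_finset_zero e
    have e2 : ∑ i ∈ (hfin y).toFinset, g i y = (({i | N i ≤ y}.ncard : ℕ) : ℝ) • F' y := by
      rw [Finset.sum_congr rfl (g := fun _ => F' y)]
      · rw [Finset.sum_const, Set.ncard_eq_toFinset_card _ (hfin y), ← Nat.cast_smul_eq_nsmul ℝ]
      · intro i hi
        rw [Set.Finite.mem_toFinset, Set.mem_ofPred_eq] at hi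
        rw [hg]
        exact indicator_of_mem (by simpa using hi) _
    rwa [e2] at h3
  have hptn : ∀ y : ℝ, HasSum (fun i => ‖g i y‖) ((({i | N i ≤ y}.ncard : ℕ) : ℝ) * ‖F' y‖) := by
    intro y
    have e : ∀ i ∉ (hfin y).toFinset, ‖g i y‖ = 0 := by
      intro i hi
      rw [Set.Finite.mem_toFinset, Set.mem_ofPred_eq] at hi
      rw [hg, norm_eq_zero]
      exact indicator_of_notMem (by simpa using hi) _
    have h3 : HasSum (fun i => ‖g i y‖) (∑ i ∈ (hfin y).toFinset, ‖g i y‖) :=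
      hasSum_sum_of_ne_finset_zero e
    have e2 : ∑ i ∈ (hfin y).toFinset, ‖g i y‖ = (({i | N i ≤ y}.ncard : ℕ) : ℝ) * ‖F' y‖ := by
      rw [Finset.sum_congr rfl (g := fun _ => ‖F' y‖)]
      · rw [Finset.sum_const, Set.ncard_eq_toFinset_card _ (hfin y), nsmul_eq_mul]
      · intro i hi
        rw [Set.Finite.mem_toFinset, Set.mem_ofPred_eq] at hi
        rw [hg]
        congr 1
        exact indicator_of_mem (by simpa using hi) _
    rwa [e2] at h3
  -- domination
  have hdom : ∀ y : ℝ, 0 < y → ((({i | N i ≤ y}.ncard : ℕ) : ℝ) * ‖F' y‖) ≤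
      |c| * ‖y • F' y‖ + |K| * ‖Real.sqrt y • F' y‖ := by
    intro y hy
    have h3 := hcount y hy.le
    have h4 : (({i | N i ≤ y}.ncard : ℕ) : ℝ) ≤ |c| * y + |K| * Real.sqrt y := by
      have h5 := (abs_le.mp h3).2
      have h6 : c * y ≤ |c| * y := mul_le_mul_of_nonneg_right (le_abs_self c) hy.le
      have h7 : K * Real.sqrt y ≤ |K| * Real.sqrt y :=
        mul_le_mul_of_nonneg_right (le_abs_self K) (Real.sqrt_nonneg y)
      linarith
    calc ((({i | N i ≤ y}.ncard : ℕ) : ℝ) * ‖F' y‖)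
        ≤ (|c| * y + |K| * Real.sqrt y) * ‖F' y‖ :=
          mul_le_mul_of_nonneg_right h4 (norm_nonneg _)
      _ = |c| * ‖y • F' y‖ + |K| * ‖Real.sqrt y • F' y‖ := by
          rw [norm_smul, norm_smul, Real.norm_of_nonneg hy.le,
            Real.norm_of_nonneg (Real.sqrt_nonneg y)]
          ring
  have hdomI : Integrable (fun y => |c| * ‖y • F' y‖ + |K| * ‖Real.sqrt y • F' y‖)
      (volume.restrict (Ioi 0)) := (h1.norm.const_mul _).add (h2.norm.const_mul _)
  have hmn : AEStronglyMeasurable (fun y : ℝ => (({i | N i ≤ y}.ncard : ℕ) : ℝ))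
      (volume.restrict (Ioi 0)) := by
    have hmono : Monotone (fun y : ℝ => (({i | N i ≤ y}.ncard : ℕ) : ℝ)) := by
      intro y z hyz
      have : ({i | N i ≤ y}.ncard) ≤ ({i | N i ≤ z}.ncard) :=
        Set.ncard_le_ncard (fun i hi => le_trans hi hyz) (hfin z)
      show (({i | N i ≤ y}.ncard : ℕ) : ℝ) ≤ (({i | N i ≤ z}.ncard : ℕ) : ℝ)
      exact Nat.cast_le.mpr this
    exact hmono.measurable.aestronglyMeasurable
  -- summability of the integrals of norms
  have hsumn : Summable (fun i => ∫ y in Ioi (0 : ℝ), ‖g i y‖) := by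
    have hlt : ∑' i, ∫⁻ y in Ioi (0 : ℝ), ‖g i y‖ₑ ≠ ⊤ := by
      rw [← lintegral_tsum (fun i => (hgi i).aestronglyMeasurable.enorm)]
      have hle : ∫⁻ y in Ioi (0 : ℝ), ∑' i, ‖g i y‖ₑ ≤
          ∫⁻ y in Ioi (0 : ℝ), ‖|c| * ‖y • F' y‖ + |K| * ‖Real.sqrt y • F' y‖‖ₑ := by
        refine lintegral_mono_ae ?_
        filter_upwards [ae_restrict_mem measurableSet_Ioi] with y hy
        have h3 := (hptn y)
        have h4 : ∑' i, ‖g i y‖ₑ = ENNReal.ofReal ((({i | N i ≤ y}.ncard : ℕ) : ℝ) * ‖F' y‖) := by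
          rw [← h3.tsum_eq, ENNReal.ofReal_tsum_of_nonneg (fun i => norm_nonneg _) h3.summable]
          simp [ofReal_norm]
        rw [h4, ← ofReal_norm]
        refine ENNReal.ofReal_le_ofReal ?_
        refine (hdom y hy).trans ?_
        exact le_abs_self _
      refine ne_top_of_le_ne_top ?_ hle
      exact hdomI.2.ne
    have h5 := ENNReal.summable_toReal hlt
    refine h5.congr fun i => ?_
    rw [integral_norm_eq_lintegral_enorm (hgi i).aestronglyMeasurable]
  have hmain := hasSum_integral_of_summable_integral_norm (μ := volume.restrict (Ioi (0 : ℝ)))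
    (F := g) hgi hsumn
  have hsumF : Summable (fun i => ‖F (N i)‖) := by
    refine Summable.of_nonneg_of_le (fun i => norm_nonneg _) (fun i => ?_) hsumn
    have := hgint i
    calc ‖F (N i)‖ = ‖∫ y in Ioi (0 : ℝ), g i y‖ := by rw [this, norm_neg]
      _ ≤ _ := norm_integral_le_integral_norm _
  refine ⟨hsumF, ?_⟩
  have e1 : ∑' i, F (N i) = - ∫ y in Ioi (0 : ℝ), (({i | N i ≤ y}.ncard : ℕ) : ℝ) • F' y := by
    have e2 : (fun y => ∑' i, g i y) = fun y => (({i | N i ≤ y}.ncard : ℕ) : ℝ) • F' y := by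
      funext y; exact (hpt y).tsum_eq
    rw [e2] at hmain
    have e3 := hmain.tsum_eq
    rw [← e3]
    simp_rw [hgint]
    rw [tsum_neg, neg_neg]
  have e4 : ∫ y in Ioi (0 : ℝ), F y = - ∫ y in Ioi (0 : ℝ), y • F' y := by
    have h3 : ∫ y in Ioi (0 : ℝ), (F y + y • F' y) = 0 - (0 : ℝ) • F 0 := by
      refine integral_Ioi_of_hasDerivAt_of_tendsto (f := fun y : ℝ => y • F y) ?_ ?_
        (hFi.add h1) hinf1
      · rw [← continuousWithinAt_Ioi_iff_Ici, ContinuousWithinAt]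
        simpa using hzero1
      · intro x hx
        have h4 := (hasDerivAt_id x).smul (hF x hx)
        refine (h4.congr_deriv ?_).congr_of_eventuallyEq (Eventually.of_forall fun y => rfl)
        simp [add_comm]
    rw [integral_add hFi h1] at h3
    rw [zero_smul, sub_zero] at h3
    exact eq_neg_of_add_eq_zero_left h3
  have hcI : Integrable (fun y => c • (y • F' y)) (volume.restrict (Ioi 0)) := h1.smul c
  have hcardI : Integrable (fun y : ℝ => (({i | N i ≤ y}.ncard : ℕ) : ℝ) • F' y)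
      (volume.restrict (Ioi 0)) := by
    refine hdomI.mono' (hmn.smul hmeas) ?_
    filter_upwards [ae_restrict_mem measurableSet_Ioi] with y hy
    rw [norm_smul, Real.norm_of_nonneg (Nat.cast_nonneg _)]
    exact hdom y hy
  have e5 : ∑' i, F (N i) - c • ∫ y in Ioi (0 : ℝ), F y =
      - ∫ y in Ioi (0 : ℝ), ((({i | N i ≤ y}.ncard : ℕ) : ℝ) • F' y - c • (y • F' y)) := by
    rw [integral_sub hcardI hcI, integral_smul, e1, e4, smul_neg]
    abel
  rw [e5, norm_neg]
  calc ‖∫ y in Ioi (0 : ℝ), ((({i | N i ≤ y}.ncard : ℕ) : ℝ) • F' y - c • (y • F' y))‖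
      ≤ ∫ y in Ioi (0 : ℝ), K * (‖F' y‖ * Real.sqrt y) := by
        refine norm_integral_le_of_norm_le ?_ ?_
        · refine ((h2.norm).const_mul K).congr ?_
          filter_upwards [ae_restrict_mem measurableSet_Ioi] with y hy
          rw [norm_smul, Real.norm_of_nonneg (Real.sqrt_nonneg y)]
          ring
        · filter_upwards [ae_restrict_mem measurableSet_Ioi] with y hy
          have hy' : 0 < y := hy
          rw [smul_smul, ← sub_smul, norm_smul, Real.norm_eq_abs]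
          calc |(({i | N i ≤ y}.ncard : ℕ) : ℝ) - c * y| * ‖F' y‖
              ≤ (K * Real.sqrt y) * ‖F' y‖ :=
                mul_le_mul_of_nonneg_right (hcount y hy'.le) (norm_nonneg _)
            _ = K * (‖F' y‖ * Real.sqrt y) := by ring
    _ = K * ∫ y in Ioi (0 : ℝ), ‖F' y‖ * Real.sqrt y := integral_const_mul _ _

/-! ### Primary elements -/

/-- Primary elements of norm at most a real `y`. -/
lemma setOf_nm_le (y : ℝ) (hy : 0 ≤ y) :
    {i : {k : Eis // IsPrim k} | ((nm i.1 : ℕ) : ℝ) ≤ y} =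
      (Subtype.val ⁻¹' (primBall ⌊y⌋₊ : Set Eis)) := by
  ext i
  simp only [Set.mem_ofPred_eq, Set.mem_preimage, Finset.mem_coe, mem_primBall]
  rw [Nat.le_floor_iff hy]
  exact ⟨fun h => ⟨h, i.2⟩, fun h => h.1⟩

lemma finite_nm_le (y : ℝ) : {i : {k : Eis // IsPrim k} | ((nm i.1 : ℕ) : ℝ) ≤ y}.Finite := by
  rcases lt_or_ge y 0 with hy | hy
  · have : {i : {k : Eis // IsPrim k} | ((nm i.1 : ℕ) : ℝ) ≤ y} = ∅ := by
      ext i
      simp only [Set.mem_ofPred_eq, Set.mem_empty_iff_false, iff_false, not_le]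
      exact lt_of_lt_of_le hy (Nat.cast_nonneg _)
    rw [this]; exact Set.finite_empty
  · rw [setOf_nm_le y hy]
    exact Set.Finite.preimage Subtype.val_injective.injOn (Finset.finite_toSet _)

lemma ncard_nm_le (y : ℝ) (hy : 0 ≤ y) :
    {i : {k : Eis // IsPrim k} | ((nm i.1 : ℕ) : ℝ) ≤ y}.ncard = (primBall ⌊y⌋₊).card := by
  rw [setOf_nm_le y hy, ← Set.ncard_coe_finset,
    Set.ncard_preimage_of_injective_subset_range Subtype.val_injective]
  intro x hx
  rw [Finset.mem_coe, mem_primBall] at hx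
  exact ⟨⟨x, hx.2⟩, rfl⟩

/-- `#{k primary : nm k ≤ y} = 2π/(9√3) y + O(√y)`, uniformly for `y ≥ 0`. -/
theorem count_prim (y : ℝ) (hy : 0 ≤ y) :
    |(({i : {k : Eis // IsPrim k} | ((nm i.1 : ℕ) : ℝ) ≤ y}.ncard : ℕ) : ℝ) -
      2 * Real.pi / (9 * Real.sqrt 3) * y| ≤ 70 * Real.sqrt y := by
  rw [ncard_nm_le y hy]
  have hc0 : 0 ≤ 2 * Real.pi / (9 * Real.sqrt 3) := by positivity
  have hc1 : 2 * Real.pi / (9 * Real.sqrt 3) ≤ 1 := by
    rw [div_le_one (by positivity)]
    have h1 : (1 : ℝ) ≤ Real.sqrt 3 := by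
      rw [show (1 : ℝ) = Real.sqrt 1 by simp]
      exact Real.sqrt_le_sqrt (by norm_num)
    have h2 : Real.pi ≤ 4 := Real.pi_le_four
    linarith
  rcases lt_or_ge y 1 with h1 | h1
  · have h2 : ⌊y⌋₊ = 0 := Nat.floor_eq_zero.mpr h1
    have h3 : primBall 0 = ∅ := by
      ext x
      simp only [mem_primBall, Finset.notMem_empty, iff_false, not_and]
      intro h4 h5
      exact h5.ne_zero (nm_eq_zero.mp (Nat.le_zero.mp h4))
    rw [h2, h3, Finset.card_empty, Nat.cast_zero, zero_sub, abs_neg,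
      abs_of_nonneg (mul_nonneg hc0 hy)]
    have h4 : y ≤ Real.sqrt y := by
      rw [Real.le_sqrt hy hy]
      nlinarith
    have h5 := Real.sqrt_nonneg y
    nlinarith
  · have h := Lat277.card_primBall ⌊y⌋₊
    have h2 : ((⌊y⌋₊ : ℕ) : ℝ) ≤ y := Nat.floor_le hy
    have h3 : y < ((⌊y⌋₊ : ℕ) : ℝ) + 1 := Nat.lt_floor_add_one y
    have h4 : Real.sqrt ((⌊y⌋₊ : ℕ) : ℝ) ≤ Real.sqrt y := Real.sqrt_le_sqrt h2
    have h5 : (1 : ℝ) ≤ Real.sqrt y := by
      rw [show (1 : ℝ) = Real.sqrt 1 by simp]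
      exact Real.sqrt_le_sqrt h1
    rw [abs_le] at h ⊢
    have h6 : 2 * Real.pi / (9 * Real.sqrt 3) * ((⌊y⌋₊ : ℕ) : ℝ) ≤
        2 * Real.pi / (9 * Real.sqrt 3) * y := mul_le_mul_of_nonneg_left h2 hc0
    have h7 : 2 * Real.pi / (9 * Real.sqrt 3) * y ≤
        2 * Real.pi / (9 * Real.sqrt 3) * ((⌊y⌋₊ : ℕ) : ℝ) + 1 := by
      nlinarith
    constructor <;> nlinarith [h.1, h.2]

/-- Abel summation for radial sums over primary elements. -/
theorem abel_prim [CompleteSpace E] (F F' : ℝ → E) (hF : ∀ y, 0 < y → HasDerivAt F (F' y) y)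
    (hFi : IntegrableOn F (Ioi 0))
    (h1 : IntegrableOn (fun y => y • F' y) (Ioi 0))
    (h2 : IntegrableOn (fun y => Real.sqrt y • F' y) (Ioi 0))
    (hinf : Tendsto F atTop (𝓝 0))
    (hinf1 : Tendsto (fun y : ℝ => y • F y) atTop (𝓝 0))
    (hzero1 : Tendsto (fun y : ℝ => y • F y) (𝓝[>] 0) (𝓝 0)) :
    Summable (fun i : {k : Eis // IsPrim k} => ‖F (nm i.1)‖) ∧
    ‖∑' i : {k : Eis // IsPrim k}, F (nm i.1) -
        (2 * Real.pi / (9 * Real.sqrt 3)) • ∫ y in Ioi (0 : ℝ), F y‖ ≤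
      70 * ∫ y in Ioi (0 : ℝ), ‖F' y‖ * Real.sqrt y :=
  haveI : Countable Eis := inferInstance
  abel (fun i : {k : Eis // IsPrim k} => ((nm i.1 : ℕ) : ℝ))
    (fun i => by
      have : nm i.1 ≠ 0 := fun h => i.2.ne_zero (nm_eq_zero.mp h)
      positivity)
    finite_nm_le count_prim F F' hF hFi h1 h2 hinf hinf1 hzero1

end Crest.Agent.R012.Abel663
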