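import Mathlib

/-!
# Row 12: Abel summation, general form

`abel_main`: if `‖∑_{ν i ≤ Y} a i - κ Y‖ ≤ Er Y` then
`‖∑ a i * f (ν i) - κ ∫_0^∞ f‖ ≤ ∫_0^∞ Er t * ‖f' t‖ dt`.
The function `f` may be singular at `0`.
-/

set_option autoImplicit false

noncomputable section

open MeasureTheory Set Filter Topology

namespace Crest.Agent.R012.Abel705

variable {ι : Type*} [Countable ι]

/-- Data for Abel summation: `s Y` is the finite set of indices with `ν i ≤ Y`. -/
structure Data (a : ι → ℂ) (ν : ι → ℝ) (s : ℝ → Finset ι) (K : ℝ) : Prop where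
  pos : ∀ i, a i ≠ 0 → 0 < ν i
  mem : ∀ i, a i ≠ 0 → ∀ Y, i ∈ s Y ↔ ν i ≤ Y
  bound : ∀ Y, 0 < Y → ∑ i ∈ s Y, ‖a i‖ ≤ K * Y

variable {a : ι → ℂ} {ν : ι → ℝ} {s : ℝ → Finset ι} {K : ℝ}

lemma aesm_of_mul {g : ℝ → ℂ} (hg : IntegrableOn (fun t : ℝ => (t : ℂ) * g t) (Ioi 0)) :
    AEStronglyMeasurable g (volume.restrict (Ioi 0)) := by
  have h1 : AEStronglyMeasurable (fun t : ℝ => (t : ℂ)⁻¹ * ((t : ℂ) * g t))
      (volume.restrict (Ioi 0)) := by
    refine AEStronglyMeasurable.mul ?_ hg.aestronglyMeasurable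
    exact (Complex.measurable_ofReal.inv).aestronglyMeasurable
  refine h1.congr ?_
  filter_upwards [ae_restrict_mem measurableSet_Ioi] with t ht
  have : (t : ℂ) ≠ 0 := by
    have : (0 : ℝ) < t := ht
    exact_mod_cast this.ne'
  field_simp

lemma integrableOn_Ioi {g : ℝ → ℂ} (hg : IntegrableOn (fun t : ℝ => (t : ℂ) * g t) (Ioi 0))
    {y : ℝ} (hy : 0 < y) : IntegrableOn g (Ici y) := by
  have h1 : IntegrableOn (fun t : ℝ => (t : ℂ) * g t) (Ici y) :=
    hg.mono_set fun t (ht : y ≤ t) => lt_of_lt_of_le hy ht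
  have h2 : AEStronglyMeasurable g (volume.restrict (Ici y)) :=
    (aesm_of_mul hg).mono_measure
      (Measure.restrict_mono (fun t (ht : y ≤ t) => lt_of_lt_of_le hy ht) le_rfl)
  refine (h1.norm.const_mul y⁻¹).mono' h2 ?_
  filter_upwards [ae_restrict_mem measurableSet_Ici] with t ht
  have h3 : y ≤ t := ht
  rw [norm_mul, Complex.norm_real, Real.norm_of_nonneg (by linarith), ← mul_assoc]
  have h4 : 1 ≤ y⁻¹ * t := by
    rw [inv_mul_eq_div, le_div_iff₀ hy]; linarith
  nlinarith [norm_nonneg (g t)]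

omit [Countable ι] in
lemma sum_filter_le (h : Data a ν s K) (T : Finset ι) {t : ℝ} (ht : 0 < t) :
    ∑ i ∈ T, (if ν i ≤ t then ‖a i‖ else 0) ≤ K * t := by
  classical
  refine le_trans ?_ (h.bound t ht)
  rw [← Finset.sum_filter]
  have h1 : ∑ i ∈ T with ν i ≤ t, ‖a i‖ = ∑ i ∈ (T.filter (fun i => ν i ≤ t)).filter (fun i => a i ≠ 0), ‖a i‖ := by
    refine (Finset.sum_filter_of_ne fun i _ hi hi0 => ?_).symm
    exact hi (by rw [hi0, norm_zero])
  rw [h1]
  refine Finset.sum_le_sum_of_subset_of_nonneg ?_ fun _ _ _ => norm_nonneg _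
  intro i hi
  rw [Finset.mem_filter, Finset.mem_filter] at hi
  exact (h.mem i hi.2 t).mpr hi.1.2

/-- Convergence and the integral formula. -/
theorem hasSum_abel (h : Data a ν s K) {g : ℝ → ℂ}
    (hg : IntegrableOn (fun t : ℝ => (t : ℂ) * g t) (Ioi 0)) :
    HasSum (fun i => a i * ∫ t in Ioi (ν i), g t)
      (∫ t in Ioi (0 : ℝ), (∑ i ∈ s t, a i) * g t) ∧
    Summable (fun i => ‖a i * ∫ t in Ioi (ν i), g t‖) ∧
    IntegrableOn (fun t => (∑ i ∈ s t, a i) * g t) (Ioi 0) := by
  classical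
  set F : ι → ℝ → ℂ := fun i t => a i * (Ici (ν i)).indicator g t with hF
  have hint : ∀ i, Integrable (F i) (volume.restrict (Ioi 0)) := by
    intro i
    by_cases hi : a i = 0
    · simp only [hF, hi, zero_mul]; exact integrable_zero _ _ _
    · refine Integrable.const_mul ?_ _
      have h1 := integrableOn_Ioi hg (h.pos i hi)
      exact ((integrable_indicator_iff measurableSet_Ici).mpr h1).integrableOn
  have hFi : ∀ i, ∫ t in Ioi (0 : ℝ), F i t = a i * ∫ t in Ioi (ν i), g t := by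
    intro i
    by_cases hi : a i = 0
    · simp only [hF, hi, zero_mul, integral_zero]
    · simp only [hF]
      rw [integral_const_mul, integral_indicator measurableSet_Ici,
        Measure.restrict_restrict measurableSet_Ici]
      congr 1
      have h2 : Ici (ν i) ∩ Ioi 0 = Ici (ν i) := by
        apply inter_eq_left.mpr
        intro t (ht : ν i ≤ t)
        exact lt_of_lt_of_le (h.pos i hi) ht
      rw [h2, integral_Ici_eq_integral_Ioi]
  have hnF : ∀ i, ∀ t ∈ Ioi (0 : ℝ), ‖F i t‖ = (if ν i ≤ t then ‖a i‖ else 0) * ‖g t‖ := by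
    intro i t _
    simp only [hF, norm_mul]
    by_cases h3 : ν i ≤ t
    · rw [if_pos h3, indicator_of_mem (show t ∈ Ici (ν i) from h3)]
    · rw [if_neg h3, indicator_of_notMem (show t ∉ Ici (ν i) from h3)]; simp
  have hsum : Summable fun i => ∫ t in Ioi (0 : ℝ), ‖F i t‖ := by
    refine summable_of_sum_le (c := ∫ t in Ioi (0 : ℝ), K * ‖(t : ℂ) * g t‖)
      (fun i => integral_nonneg fun t => norm_nonneg _) fun T => ?_
    rw [← integral_finsetSum _ fun i _ => (hint i).norm]
    refine setIntegral_mono_on (integrable_finsetSum _ fun i _ => (hint i).norm)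
      (hg.norm.const_mul K) measurableSet_Ioi fun t ht => ?_
    have ht0 : (0 : ℝ) < t := ht
    rw [Finset.sum_congr rfl fun i _ => hnF i t ht, ← Finset.sum_mul, norm_mul, Complex.norm_real,
      Real.norm_of_nonneg ht0.le, ← mul_assoc]
    exact mul_le_mul_of_nonneg_right (sum_filter_le h T ht0) (norm_nonneg _)
  have hmain := hasSum_integral_of_summable_integral_norm hint hsum
  have htsum : ∀ t ∈ Ioi (0 : ℝ), ∑' i, F i t = (∑ i ∈ s t, a i) * g t := by
    intro t _
    rw [tsum_eq_sum (s := s t)]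
    · rw [Finset.sum_mul]
      refine Finset.sum_congr rfl fun i hi => ?_
      by_cases hi0 : a i = 0
      · simp [hF, hi0]
      · simp only [hF]
        rw [indicator_of_mem (show t ∈ Ici (ν i) from (h.mem i hi0 t).mp hi)]
    · intro i hi
      by_cases hi0 : a i = 0
      · simp [hF, hi0]
      · simp only [hF]
        rw [indicator_of_notMem (show t ∉ Ici (ν i) from fun h' => hi ((h.mem i hi0 t).mpr h')),
          mul_zero]
  refine ⟨?_, ?_, ?_⟩
  · rw [setIntegral_congr_fun measurableSet_Ioi htsum] at hmain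
    simpa only [hFi] using hmain
  · refine hsum.of_nonneg_of_le (fun i => norm_nonneg _) fun i => ?_
    rw [← hFi i]
    exact norm_integral_le_integral_norm _
  · have hm : AEStronglyMeasurable (fun t => ∑' i, F i t) (volume.restrict (Ioi (0 : ℝ))) :=
      AEStronglyMeasurable.tsum fun i => (hint i).aestronglyMeasurable
    have hm2 : AEStronglyMeasurable (fun t => (∑ i ∈ s t, a i) * g t)
        (volume.restrict (Ioi (0 : ℝ))) := by
      refine hm.congr ?_
      filter_upwards [ae_restrict_mem measurableSet_Ioi] with t ht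
      exact htsum t ht
    refine (hg.norm.const_mul K).mono' hm2 ?_
    filter_upwards [ae_restrict_mem measurableSet_Ioi] with t ht
    have ht0 : (0 : ℝ) < t := ht
    rw [norm_mul, norm_mul, Complex.norm_real, Real.norm_of_nonneg ht0.le, ← mul_assoc]
    exact mul_le_mul_of_nonneg_right ((norm_sum_le _ _).trans (h.bound t ht0)) (norm_nonneg _)

/-- Fubini: `∫_0^∞ ∫_y^∞ g = ∫_0^∞ t g(t) dt`. -/
theorem integral_tail {g : ℝ → ℂ} (hg : IntegrableOn (fun t : ℝ => (t : ℂ) * g t) (Ioi 0)) :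
    IntegrableOn (fun y => ∫ t in Ioi y, g t) (Ioi 0) ∧
    ∫ y in Ioi (0 : ℝ), ∫ t in Ioi y, g t = ∫ t in Ioi (0 : ℝ), (t : ℂ) * g t := by
  set μ : Measure ℝ := volume.restrict (Ioi 0) with hμ
  set H : ℝ × ℝ → ℂ := {p : ℝ × ℝ | p.1 < p.2}.indicator (fun p => g p.2) with hH
  have hmeas : MeasurableSet {p : ℝ × ℝ | p.1 < p.2} :=
    measurableSet_lt measurable_fst measurable_snd
  have h1 : AEStronglyMeasurable H (μ.prod μ) :=
    ((aesm_of_mul hg).comp_snd).indicator hmeas
  have hval : ∀ y t : ℝ, H (y, t) = (Iio t).indicator (fun _ => g t) y := by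
    intro y t
    simp only [hH, indicator, mem_ofPred_eq, mem_Iio]
  have hval2 : ∀ y t : ℝ, H (y, t) = (Ioi y).indicator g t := by
    intro y t
    simp only [hH, indicator, mem_ofPred_eq, mem_Ioi]
  have hvol : ∀ t : ℝ, 0 < t → μ (Iio t) = ENNReal.ofReal t := by
    intro t _
    rw [hμ, Measure.restrict_apply measurableSet_Iio]
    have : Iio t ∩ Ioi 0 = Ioo 0 t := by ext; simp [and_comm]
    rw [this, Real.volume_Ioo, sub_zero]
  have h2 : Integrable H (μ.prod μ) := by
    rw [integrable_prod_iff' h1]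
    constructor
    · rw [hμ]
      filter_upwards [ae_restrict_mem measurableSet_Ioi] with t ht
      have ht0 : (0 : ℝ) < t := ht
      simp only [hval]
      rw [integrable_indicator_iff measurableSet_Iio]
      refine integrableOn_const ?_ 
      have := hvol t ht0
      rw [hμ] at this
      rw [this]
      exact ENNReal.ofReal_ne_top
    · refine (hg.norm).congr ?_
      filter_upwards [ae_restrict_mem measurableSet_Ioi] with t ht
      have ht0 : (0 : ℝ) < t := ht
      have e : ∀ y, ‖H (y, t)‖ = (Iio t).indicator (fun _ => ‖g t‖) y := by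
        intro y
        rw [hval, norm_indicator_eq_indicator_norm]
      simp only [e]
      rw [integral_indicator measurableSet_Iio, integral_const, norm_mul, Complex.norm_real,
        Real.norm_of_nonneg ht0.le, measureReal_restrict_apply_univ, measureReal_def,
        hvol t ht0, ENNReal.toReal_ofReal ht0.le, smul_eq_mul]
  have h3 := integral_integral_swap (f := fun y t => H (y, t)) h2
  have h4 : ∀ y ∈ Ioi (0 : ℝ), ∫ t, H (y, t) ∂μ = ∫ t in Ioi y, g t := by
    intro y hy
    simp only [hval2]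
    rw [integral_indicator measurableSet_Ioi, hμ, Measure.restrict_restrict measurableSet_Ioi]
    congr 2
    exact inter_eq_left.mpr fun t (ht : y < t) => lt_trans hy ht
  constructor
  · have h5 := h2.integral_prod_left
    refine h5.congr ?_
    rw [hμ]
    filter_upwards [ae_restrict_mem measurableSet_Ioi] with y hy
    exact h4 y hy
  · have h6 : ∫ y in Ioi (0 : ℝ), ∫ t in Ioi y, g t = ∫ y, ∫ t, H (y, t) ∂μ ∂μ := by
      rw [hμ]
      refine setIntegral_congr_fun measurableSet_Ioi fun y hy => ?_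
      exact (h4 y hy).symm
    rw [h6, h3]
    rw [hμ]
    refine setIntegral_congr_fun measurableSet_Ioi fun t ht => ?_
    have ht0 : (0 : ℝ) < t := ht
    simp only [hval]
    rw [integral_indicator measurableSet_Iio, integral_const, measureReal_restrict_apply_univ,
      measureReal_def]
    have := hvol t ht0
    rw [hμ] at this
    rw [this, ENNReal.toReal_ofReal ht0.le, Complex.real_smul]

/-- **Abel summation.** -/
theorem abel_main (h : Data a ν s K) {κ : ℂ} {Er : ℝ → ℝ}
    (hEr : ∀ Y, 0 < Y → ‖∑ i ∈ s Y, a i - κ * Y‖ ≤ Er Y) {g f : ℝ → ℂ}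
    (hg : IntegrableOn (fun t : ℝ => (t : ℂ) * g t) (Ioi 0))
    (hg2 : IntegrableOn (fun t => Er t * ‖g t‖) (Ioi 0))
    (hf : ∀ y, 0 < y → f y = - ∫ t in Ioi y, g t) :
    Summable (fun i => ‖a i * f (ν i)‖) ∧ IntegrableOn f (Ioi 0) ∧
    ‖∑' i, a i * f (ν i) - κ * ∫ y in Ioi (0 : ℝ), f y‖ ≤ ∫ t in Ioi (0 : ℝ), Er t * ‖g t‖ := by
  obtain ⟨h1, h2, hA⟩ := hasSum_abel h hg
  obtain ⟨h3, h4⟩ := integral_tail hg
  have e1 : ∀ i, a i * f (ν i) = - (a i * ∫ t in Ioi (ν i), g t) := by
    intro i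
    by_cases hi : a i = 0
    · simp [hi]
    · rw [hf _ (h.pos i hi)]; ring
  have e2 : ∫ y in Ioi (0 : ℝ), f y = - ∫ t in Ioi (0 : ℝ), (t : ℂ) * g t := by
    rw [setIntegral_congr_fun measurableSet_Ioi fun y hy => hf y hy, integral_neg, h4]
  refine ⟨?_, ?_, ?_⟩
  · simpa only [e1, norm_neg] using h2
  · exact h3.neg.congr_fun (fun y hy => (hf y hy).symm) measurableSet_Ioi
  · simp only [e1]
    rw [tsum_neg, h1.tsum_eq, e2]
    have e3 : -(∫ t in Ioi (0 : ℝ), (∑ i ∈ s t, a i) * g t) -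
        κ * -∫ t in Ioi (0 : ℝ), (t : ℂ) * g t =
        - ∫ t in Ioi (0 : ℝ), ((∑ i ∈ s t, a i) - κ * t) * g t := by
      rw [← sub_eq_zero]
      have : ∫ t in Ioi (0 : ℝ), ((∑ i ∈ s t, a i) - κ * t) * g t =
          (∫ t in Ioi (0 : ℝ), (∑ i ∈ s t, a i) * g t) - κ * ∫ t in Ioi (0 : ℝ), (t : ℂ) * g t := by
        rw [← integral_const_mul, ← integral_sub hA (hg.const_mul κ)]
        refine setIntegral_congr_fun measurableSet_Ioi fun t _ => ?_
        ring
      rw [this]; ring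
    rw [e3, norm_neg]
    refine norm_integral_le_of_norm_le hg2 ?_
    filter_upwards [ae_restrict_mem measurableSet_Ioi] with t ht
    rw [norm_mul]
    exact mul_le_mul_of_nonneg_right (hEr t ht) (norm_nonneg _)

/-- Abel summation for a function with a derivative, tending to `0` at infinity. -/
theorem abel_deriv (h : Data a ν s K) {κ : ℂ} {Er : ℝ → ℝ}
    (hEr : ∀ Y, 0 < Y → ‖∑ i ∈ s Y, a i - κ * Y‖ ≤ Er Y) {f f' : ℝ → ℂ}
    (hf : ∀ y, 0 < y → HasDerivAt f (f' y) y) (h0 : Tendsto f atTop (𝓝 0))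
    (hg : IntegrableOn (fun t : ℝ => (t : ℂ) * f' t) (Ioi 0))
    (hg2 : IntegrableOn (fun t => Er t * ‖f' t‖) (Ioi 0)) :
    Summable (fun i => ‖a i * f (ν i)‖) ∧ IntegrableOn f (Ioi 0) ∧
    ‖∑' i, a i * f (ν i) - κ * ∫ y in Ioi (0 : ℝ), f y‖ ≤ ∫ t in Ioi (0 : ℝ), Er t * ‖f' t‖ := by
  refine abel_main h hEr hg hg2 fun y hy => ?_
  have h1 := integral_Ioi_of_hasDerivAt_of_tendsto'
    (fun x (hx : y ≤ x) => hf x (lt_of_lt_of_le hy hx))
    ((integrableOn_Ioi hg hy).mono_set Ioi_subset_Ici_self) h0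
  rw [h1]; ring

omit [Countable ι] in
/-- Sharp cut-off: `∑_{ν i ≤ Y} a i * f (ν i)`, for `f` possibly singular at `0`. -/
theorem abel_sharp [Countable ι] (h : Data a ν s K) {κ : ℂ} {Er : ℝ → ℝ}
    (hEr : ∀ Y, 0 < Y → ‖∑ i ∈ s Y, a i - κ * Y‖ ≤ Er Y) {f f' : ℝ → ℂ}
    {Y : ℝ} (hY : 0 < Y)
    (hf : ∀ y, 0 < y → HasDerivAt f (f' y) y)
    (hfc : ContinuousOn f' (Ioc 0 Y))
    (hg : IntegrableOn (fun t : ℝ => (t : ℂ) * f' t) (Ioc 0 Y))
    (hg2 : IntegrableOn (fun t => Er t * ‖f' t‖) (Ioc 0 Y)) :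
    ‖∑ i ∈ s Y, a i * f (ν i) - κ * ∫ y in Ioc 0 Y, f y‖ ≤
      (∫ t in Ioc 0 Y, Er t * ‖f' t‖) + Er Y * ‖f Y‖ := by
  classical
  set g : ℝ → ℂ := (Ioc 0 Y).indicator f' with hgdef
  set F : ℝ → ℂ := fun y => - ∫ t in Ioi y, g t with hF
  have hgi : IntegrableOn (fun t : ℝ => (t : ℂ) * g t) (Ioi 0) := by
    have e : (fun t : ℝ => (t : ℂ) * g t) = (Ioc 0 Y).indicator (fun t : ℝ => (t : ℂ) * f' t) := by
      ext t
      simp only [hgdef, indicator]
      split_ifs <;> simp
    rw [e]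
    exact ((integrable_indicator_iff measurableSet_Ioc).mpr hg).integrableOn
  have hgi2 : IntegrableOn (fun t => Er t * ‖g t‖) (Ioi 0) := by
    have e : (fun t => Er t * ‖g t‖) = (Ioc 0 Y).indicator (fun t => Er t * ‖f' t‖) := by
      ext t
      simp only [hgdef, indicator]
      split_ifs <;> simp
    rw [e]
    exact ((integrable_indicator_iff measurableSet_Ioc).mpr hg2).integrableOn
  obtain ⟨_, h2, h3⟩ := abel_main h hEr hgi hgi2 (f := F) (fun y _ => rfl)
  have e1 : ∫ t in Ioi (0 : ℝ), Er t * ‖g t‖ = ∫ t in Ioc 0 Y, Er t * ‖f' t‖ := by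
    have e : (fun t => Er t * ‖g t‖) = (Ioc 0 Y).indicator (fun t => Er t * ‖f' t‖) := by
      ext t
      simp only [hgdef, indicator]
      split_ifs <;> simp
    rw [e, setIntegral_indicator measurableSet_Ioc]
    congr 2
    exact inter_eq_right.mpr fun t ht => ht.1
  -- values of `F`
  have hFv : ∀ y, 0 < y → F y = if y ≤ Y then f y - f Y else 0 := by
    intro y hy
    simp only [hF, hgdef]
    rw [setIntegral_indicator measurableSet_Ioc]
    split_ifs with hyY
    · have e2 : Ioi y ∩ Ioc 0 Y = Ioc y Y := by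
        ext t
        simp only [mem_inter_iff, mem_Ioi, mem_Ioc]
        constructor
        · rintro ⟨h1, _, h2⟩; exact ⟨h1, h2⟩
        · rintro ⟨h1, h2⟩; exact ⟨h1, hy.trans h1, h2⟩
      rw [e2, ← intervalIntegral.integral_of_le hyY]
      rw [intervalIntegral.integral_eq_sub_of_hasDerivAt]
      · ring
      · intro x hx
        rw [uIcc_of_le hyY] at hx
        exact hf x (lt_of_lt_of_le hy hx.1)
      · refine ContinuousOn.intervalIntegrable ?_
        rw [uIcc_of_le hyY]
        exact hfc.mono fun x hx => ⟨lt_of_lt_of_le hy hx.1, hx.2⟩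
    · have e2 : Ioi y ∩ Ioc 0 Y = ∅ := by
        ext t
        simp only [mem_inter_iff, mem_Ioi, mem_Ioc, mem_empty_iff_false, iff_false, not_and,
          not_le]
        intro h1 _
        push Not at hyY
        exact hyY.trans h1
      rw [e2]; simp
  have e3 : ∑' i, a i * F (ν i) = ∑ i ∈ s Y, a i * (f (ν i) - f Y) := by
    rw [tsum_eq_sum (s := s Y)]
    · refine Finset.sum_congr rfl fun i hi => ?_
      by_cases hi0 : a i = 0
      · simp [hi0]
      · rw [hFv _ (h.pos i hi0), if_pos ((h.mem i hi0 Y).mp hi)]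
    · intro i hi
      by_cases hi0 : a i = 0
      · simp [hi0]
      · rw [hFv _ (h.pos i hi0), if_neg (fun h' => hi ((h.mem i hi0 Y).mpr h')), mul_zero]
  have e4 : ∫ y in Ioi (0 : ℝ), F y = ∫ y in Ioc 0 Y, (f y - f Y) := by
    have e : ∀ y ∈ Ioi (0 : ℝ), F y = (Ioc 0 Y).indicator (fun y => f y - f Y) y := by
      intro y hy
      rw [hFv y hy]
      by_cases hyY : y ≤ Y
      · rw [if_pos hyY, indicator_of_mem (show y ∈ Ioc 0 Y from ⟨hy, hyY⟩)]
      · rw [if_neg hyY, indicator_of_notMem (fun h' : y ∈ Ioc 0 Y => hyY h'.2)]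
    rw [setIntegral_congr_fun measurableSet_Ioi e, setIntegral_indicator measurableSet_Ioc]
    congr 2
    exact inter_eq_right.mpr fun t ht => ht.1
  have hint : IntegrableOn (fun y => f y - f Y) (Ioc 0 Y) := by
    have := h2.mono_set (show Ioc 0 Y ⊆ Ioi 0 from fun t ht => ht.1)
    refine this.congr_fun (fun y hy => ?_) measurableSet_Ioc
    rw [hFv y hy.1, if_pos hy.2]
  have hfi : IntegrableOn f (Ioc 0 Y) := by
    have := hint.add (integrableOn_const (s := Ioc 0 Y) (C := f Y) (by simp))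
    refine this.congr_fun (fun y _ => ?_) measurableSet_Ioc
    simp
  have e5 : ∫ y in Ioc 0 Y, (f y - f Y) = (∫ y in Ioc 0 Y, f y) - Y * f Y := by
    rw [integral_sub hfi (integrableOn_const (by simp))]
    simp [hY.le]
  rw [e3, e4, e5, e1] at h3
  have e6 : ∑ i ∈ s Y, a i * f (ν i) - κ * ∫ y in Ioc 0 Y, f y =
      (∑ i ∈ s Y, a i * (f (ν i) - f Y) - κ * ((∫ y in Ioc 0 Y, f y) - Y * f Y)) +
      (∑ i ∈ s Y, a i - κ * Y) * f Y := by
    simp only [mul_sub, Finset.sum_sub_distrib, ← Finset.sum_mul]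
    ring
  rw [e6]
  refine (norm_add_le _ _).trans (add_le_add h3 ?_)
  rw [norm_mul]
  exact mul_le_mul_of_nonneg_right (hEr Y hY) (norm_nonneg _)

end Crest.Agent.R012.Abel705
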