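import Mathlib

/-!
# Row 12, part (MU): abstract unfolding

`G` a countable group acting measurably and measure-preservingly on `(X, μ)`.
A `G`-weight is a measurable `ρ : X → ℝ≥0∞` with `∑_{g ∈ G} ρ (g • x) = 1` for a.e. `x`.
The *quotient measure* is `ν = μ.withDensity ρ`  (`L²(G\X)` = automorphic functions in `L²(ν)`).

* `lintegral_unfold`, `integral_unfold` : `∫ (∑_g ψ (g • x)) dν = ∫ ψ dμ`
* `lintegral_indep`                     : independence of the weight
* `twisted_unfold`                      : `∫ Φ conj (P f) dν = ∫ Φ conj f dμ`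
* `tsum_rows`                           : sums over `G` with `1_D` = sums over rows `H\G`
* `strip_le`                            : `∫_S φ dμ ≤ m ∫ φ dν`
* `lintegral_subgroup`                  : `∫ φ dν' = [G : G'] ∫ φ dν`
* `IsWt.ofPos`                          : existence from a positive summable function
-/

set_option autoImplicit false

noncomputable section

open MeasureTheory ENNReal Filter

namespace Crest.Agent.R012.AU681

section basic

variable {G X : Type*} [Group G] [MulAction G X] [MeasurableSpace X]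

/-- `ρ` is a weight for the action of `G`. -/
structure IsWt (G : Type*) {X : Type*} [Group G] [MulAction G X] [MeasurableSpace X]
    (μ : Measure X) (ρ : X → ℝ≥0∞) : Prop where
  meas : Measurable ρ
  sum_one : ∀ᵐ x ∂μ, ∑' g : G, ρ (g • x) = 1

variable {μ : Measure X} {ρ : X → ℝ≥0∞}

lemma IsWt.le_one (h : IsWt G μ ρ) : ∀ᵐ x ∂μ, ρ x ≤ 1 := by
  filter_upwards [h.sum_one] with x hx
  calc ρ x = ρ ((1 : G) • x) := by rw [one_smul]
    _ ≤ ∑' g : G, ρ (g • x) := ENNReal.le_tsum (1 : G)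
    _ = 1 := hx

lemma IsWt.lt_top (h : IsWt G μ ρ) : ∀ᵐ x ∂μ, ρ x < ∞ := by
  filter_upwards [h.le_one] with x hx
  exact lt_of_le_of_lt hx one_lt_top

lemma IsWt.sum_inv (h : IsWt G μ ρ) : ∀ᵐ x ∂μ, ∑' g : G, ρ (g⁻¹ • x) = 1 := by
  filter_upwards [h.sum_one] with x hx
  rw [← hx]
  exact (Equiv.inv G).tsum_eq (fun g => ρ (g • x))

/-- The quotient measure. -/
abbrev nuM (μ : Measure X) (ρ : X → ℝ≥0∞) : Measure X := μ.withDensity ρ

variable [Countable G] [MeasurableConstSMul G X] [SMulInvariantMeasure G X μ]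

omit [Countable G] in
lemma lintegral_smul_mul (g : G) {ψ σ : X → ℝ≥0∞} :
    ∫⁻ x, ψ (g • x) * σ x ∂μ = ∫⁻ x, ψ x * σ (g⁻¹ • x) ∂μ := by
  have h := (measurePreserving_smul g μ).lintegral_comp_emb
    (MeasurableEquiv.smul g).measurableEmbedding (fun x => ψ x * σ (g⁻¹ • x))
  rw [← h]
  simp

/-- **Unfolding**, nonnegative version. -/
theorem lintegral_unfold (h : IsWt G μ ρ) {ψ : X → ℝ≥0∞} (hψ : Measurable ψ) :
    ∫⁻ x, (∑' g : G, ψ (g • x)) ∂(nuM μ ρ) = ∫⁻ x, ψ x ∂μ := by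
  have hm : ∀ g : G, Measurable fun x : X => ψ (g • x) := fun g => hψ.comp (measurable_const_smul g)
  rw [nuM, lintegral_withDensity_eq_lintegral_mul μ h.meas (Measurable.tsum hm)]
  have e1 : ∀ x, (ρ * fun x => ∑' g : G, ψ (g • x)) x = ∑' g : G, ψ (g • x) * ρ x := by
    intro x
    rw [Pi.mul_apply, mul_comm, ENNReal.tsum_mul_right]
  simp_rw [e1]
  have hm1 : ∀ g : G, AEMeasurable (fun x => ψ (g • x) * ρ x) μ := fun g =>
    ((hm g).mul h.meas).aemeasurable
  have hm2 : ∀ g : G, AEMeasurable (fun x => ψ x * ρ (g⁻¹ • x)) μ := fun g =>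
    (hψ.mul (h.meas.comp (measurable_const_smul g⁻¹))).aemeasurable
  rw [lintegral_tsum hm1]
  simp_rw [lintegral_smul_mul]
  rw [← lintegral_tsum hm2]
  apply lintegral_congr_ae
  filter_upwards [h.sum_inv] with x hx
  rw [ENNReal.tsum_mul_left, hx, mul_one]

/-- `∫ φ ρ' = ∫ φ ρ` for `G`-invariant `φ`. -/
theorem lintegral_indep {ρ' : X → ℝ≥0∞} (h : IsWt G μ ρ) (h' : IsWt G μ ρ') {φ : X → ℝ≥0∞}
    (hφ : Measurable φ) (hinv : ∀ (g : G) x, φ (g • x) = φ x) :
    ∫⁻ x, φ x ∂(nuM μ ρ') = ∫⁻ x, φ x ∂(nuM μ ρ) := by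
  have h1 := lintegral_unfold h (hφ.mul h'.meas)
  rw [nuM, lintegral_withDensity_eq_lintegral_mul μ h'.meas hφ]
  have e : ∫⁻ x, (ρ' * φ) x ∂μ = ∫⁻ x, (φ * ρ') x ∂μ := by rw [mul_comm]
  rw [e, ← h1]
  have hac : (nuM μ ρ) ≪ μ := withDensity_absolutelyContinuous μ ρ
  apply lintegral_congr_ae
  filter_upwards [hac.ae_le h'.sum_one] with x hx
  simp only [Pi.mul_apply, hinv]
  rw [ENNReal.tsum_mul_left, hx, mul_one]

/-- A `G`-invariant property holds `ν`-a.e. iff it holds `μ`-a.e. (for measurable sets). -/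
theorem ae_of_ae_nu (h : IsWt G μ ρ) {s : Set X} (hs : MeasurableSet s)
    (hinv : ∀ (g : G) x, g • x ∈ s ↔ x ∈ s) (hν : nuM μ ρ s = 0) : μ s = 0 := by
  have h1 := lintegral_unfold h (measurable_one.indicator hs : Measurable (s.indicator (1 : X → ℝ≥0∞)))
  rw [lintegral_indicator_one hs] at h1
  rw [← h1]
  have hm1 : ∀ g : G, Measurable (fun x => s.indicator (1 : X → ℝ≥0∞) (g • x)) := fun g =>
    (measurable_one.indicator hs).comp (measurable_const_smul g)
  rw [lintegral_eq_zero_iff (Measurable.tsum hm1)]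
  have hs' : ∀ᵐ x ∂(nuM μ ρ), x ∉ s := by
    rw [ae_iff]; simpa using hν
  filter_upwards [hs'] with x hx
  simp only [Pi.zero_apply, ENNReal.tsum_eq_zero]
  intro g
  rw [Set.indicator_of_notMem]
  rwa [hinv]

/-- **Strip inequality.** -/
theorem strip_le (h : IsWt G μ ρ) {φ : X → ℝ≥0∞} (hφ : Measurable φ)
    (hinv : ∀ (g : G) x, φ (g • x) = φ x) {S : Set X} (hS : MeasurableSet S) {m : ℝ≥0∞}
    (hm : ∀ᵐ x ∂μ, ∑' g : G, S.indicator (1 : X → ℝ≥0∞) (g • x) ≤ m) :
    ∫⁻ x in S, φ x ∂μ ≤ m * ∫⁻ x, φ x ∂(nuM μ ρ) := by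
  have h1 := lintegral_unfold h (hφ.indicator hS)
  rw [lintegral_indicator hS] at h1
  rw [← h1, ← lintegral_const_mul _ hφ]
  have hac : (nuM μ ρ) ≪ μ := withDensity_absolutelyContinuous μ ρ
  apply lintegral_mono_ae
  filter_upwards [hac.ae_le hm] with x hx
  have e : ∀ g : G, S.indicator φ (g • x) = φ x * S.indicator (1 : X → ℝ≥0∞) (g • x) := by
    intro g
    by_cases hg : g • x ∈ S
    · rw [Set.indicator_of_mem hg, Set.indicator_of_mem hg, hinv, Pi.one_apply, mul_one]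
    · rw [Set.indicator_of_notMem hg, Set.indicator_of_notMem hg, mul_zero]
  simp_rw [e]
  rw [ENNReal.tsum_mul_left, mul_comm]
  gcongr

/-- A general form: with `φ` only assumed a.e. invariant is not needed; here `∑ 1_S = m` exactly. -/
theorem strip_eq (h : IsWt G μ ρ) {φ : X → ℝ≥0∞} (hφ : Measurable φ)
    (hinv : ∀ (g : G) x, φ (g • x) = φ x) {S : Set X} (hS : MeasurableSet S) {m : ℝ≥0∞}
    (hm : ∀ᵐ x ∂μ, ∑' g : G, S.indicator (1 : X → ℝ≥0∞) (g • x) = m) :
    ∫⁻ x in S, φ x ∂μ = m * ∫⁻ x, φ x ∂(nuM μ ρ) := by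
  have h1 := lintegral_unfold h (hφ.indicator hS)
  rw [lintegral_indicator hS] at h1
  rw [← h1, ← lintegral_const_mul _ hφ]
  have hac : (nuM μ ρ) ≪ μ := withDensity_absolutelyContinuous μ ρ
  apply lintegral_congr_ae
  filter_upwards [hac.ae_le hm] with x hx
  have e : ∀ g : G, S.indicator φ (g • x) = φ x * S.indicator (1 : X → ℝ≥0∞) (g • x) := by
    intro g
    by_cases hg : g • x ∈ S
    · rw [Set.indicator_of_mem hg, Set.indicator_of_mem hg, hinv, Pi.one_apply, mul_one]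
    · rw [Set.indicator_of_notMem hg, Set.indicator_of_notMem hg, mul_zero]
  simp_rw [e]
  rw [ENNReal.tsum_mul_left, mul_comm, hx]

end basic

section bochner

variable {G X : Type*} [Group G] [MulAction G X] [MeasurableSpace X] {μ : Measure X}
  {ρ : X → ℝ≥0∞} [Countable G] [MeasurableConstSMul G X] [SMulInvariantMeasure G X μ]
variable {E : Type*} [NormedAddCommGroup E]

omit [Countable G] in
lemma aesm_smul {ψ : X → E} (hψ : AEStronglyMeasurable ψ μ) (g : G) :
    AEStronglyMeasurable (fun x => ψ (g • x)) μ :=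
  hψ.comp_measurePreserving (measurePreserving_smul g μ)

/-- total mass of the unfolded norm. -/
lemma lintegral_enorm_unfold (h : IsWt G μ ρ) {ψ : X → E} (hψ : AEStronglyMeasurable ψ μ) :
    ∫⁻ x, (∑' g : G, ‖ψ (g • x)‖ₑ) ∂(nuM μ ρ) = ∫⁻ x, ‖ψ x‖ₑ ∂μ := by
  obtain ⟨ψ', hm, hae⟩ : ∃ ψ' : X → ℝ≥0∞, Measurable ψ' ∧ (fun x => ‖ψ x‖ₑ) =ᵐ[μ] ψ' :=
    ⟨_, hψ.enorm.measurable_mk, hψ.enorm.ae_eq_mk⟩
  rw [lintegral_congr_ae hae, ← lintegral_unfold h hm]
  have hac : (nuM μ ρ) ≪ μ := withDensity_absolutelyContinuous μ ρ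
  apply lintegral_congr_ae
  have h1 : ∀ᵐ x ∂μ, ∀ g : G, ‖ψ (g • x)‖ₑ = ψ' (g • x) := by
    rw [ae_all_iff]
    intro g
    exact (measurePreserving_smul g μ).quasiMeasurePreserving.ae hae
  filter_upwards [hac.ae_le h1] with x hx
  simp_rw [hx]

/-- absolute summability a.e. -/
theorem ae_summable_unfold (h : IsWt G μ ρ) {ψ : X → E} (hψ : Integrable ψ μ) :
    ∀ᵐ x ∂(nuM μ ρ), Summable fun g : G => ‖ψ (g • x)‖ := by
  have h1 := lintegral_enorm_unfold h hψ.aestronglyMeasurable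
  have hac : (nuM μ ρ) ≪ μ := withDensity_absolutelyContinuous μ ρ
  have hm : AEMeasurable (fun x => ∑' g : G, ‖ψ (g • x)‖ₑ) (nuM μ ρ) :=
    (AEMeasurable.tsum fun g => (aesm_smul hψ.aestronglyMeasurable g).enorm).mono_ac hac
  have h2 : ∀ᵐ x ∂(nuM μ ρ), ∑' g : G, ‖ψ (g • x)‖ₑ < ∞ := by
    apply ae_lt_top' hm
    rw [h1]
    exact hψ.2.ne
  filter_upwards [h2] with x hx
  have h3 : ∑' g : G, ((‖ψ (g • x)‖₊ : NNReal) : ℝ≥0∞) ≠ ∞ := hx.ne
  exact ENNReal.tsum_coe_ne_top_iff_summable_coe.mp h3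

variable [NormedSpace ℝ E]

omit [Countable G] [MeasurableConstSMul G X] [SMulInvariantMeasure G X μ] in
lemma integral_nu (h : IsWt G μ ρ) (f : X → E) :
    ∫ x, f x ∂(nuM μ ρ) = ∫ x, (ρ x).toReal • f x ∂μ :=
  integral_withDensity_eq_integral_toReal_smul h.meas h.lt_top f

omit [Countable G] in
lemma integral_smul_nu (h : IsWt G μ ρ) (ψ : X → E) (g : G) :
    ∫ x, ψ (g • x) ∂(nuM μ ρ) = ∫ x, (ρ (g⁻¹ • x)).toReal • ψ x ∂μ := by
  rw [integral_nu h]
  have h1 := (measurePreserving_smul g μ).integral_comp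
    (MeasurableEquiv.smul g).measurableEmbedding (fun x => (ρ (g⁻¹ • x)).toReal • ψ x)
  rw [← h1]
  simp

/-- **Unfolding**, Bochner version. -/
theorem integral_unfold (h : IsWt G μ ρ) {ψ : X → E} (hψ : Integrable ψ μ) :
    ∫ x, (∑' g : G, ψ (g • x)) ∂(nuM μ ρ) = ∫ x, ψ x ∂μ := by
  have hac : (nuM μ ρ) ≪ μ := withDensity_absolutelyContinuous μ ρ
  have hm : ∀ g : G, AEStronglyMeasurable (fun x => ψ (g • x)) (nuM μ ρ) := fun g =>
    (aesm_smul hψ.aestronglyMeasurable g).mono_ac hac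
  rw [integral_tsum hm]
  · simp_rw [integral_smul_nu h]
    have hm2 : ∀ g : G, AEStronglyMeasurable (fun x => (ρ (g⁻¹ • x)).toReal • ψ x) μ := fun g =>
      ((h.meas.comp (measurable_const_smul g⁻¹)).ennreal_toReal.aestronglyMeasurable).smul
        hψ.aestronglyMeasurable
    rw [← integral_tsum hm2]
    · apply integral_congr_ae
      filter_upwards [h.sum_inv] with x hx
      have hle : ∀ g : G, ρ (g⁻¹ • x) ≠ ∞ := by
        intro g
        apply ne_top_of_le_ne_top one_ne_top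
        rw [← hx]
        exact ENNReal.le_tsum g
      have hs : HasSum (fun g : G => (ρ (g⁻¹ • x)).toReal) 1 := by
        have h5 := ENNReal.hasSum_toReal (f := fun g : G => ρ (g⁻¹ • x)) (by rw [hx]; exact one_ne_top)
        have h7 : ∑' g : G, (ρ (g⁻¹ • x)).toReal = 1 := by
          rw [← ENNReal.tsum_toReal_eq hle, hx]; rfl
        rwa [h7] at h5
      have h6 := hs.smul_const (ψ x)
      rw [one_smul] at h6
      exact h6.tsum_eq
    · have e : ∀ g : G, ∫⁻ x, ‖(ρ (g⁻¹ • x)).toReal • ψ x‖ₑ ∂μ ≤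
          ∫⁻ x, ‖ψ x‖ₑ * ρ (g⁻¹ • x) ∂μ := by
        intro g
        apply lintegral_mono
        intro x
        simp only
        rw [enorm_smul, mul_comm]
        gcongr
        rw [Real.enorm_of_nonneg ENNReal.toReal_nonneg]
        exact ENNReal.ofReal_toReal_le
      refine ne_top_of_le_ne_top ?_ (ENNReal.tsum_le_tsum e)
      have hm3 : ∀ g : G, AEMeasurable (fun x => ‖ψ x‖ₑ * ρ (g⁻¹ • x)) μ := fun g =>
        hψ.aestronglyMeasurable.enorm.mul
          (h.meas.comp (measurable_const_smul g⁻¹)).aemeasurable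
      rw [← lintegral_tsum hm3]
      have e2 : ∫⁻ x, ∑' g : G, ‖ψ x‖ₑ * ρ (g⁻¹ • x) ∂μ = ∫⁻ x, ‖ψ x‖ₑ ∂μ := by
        apply lintegral_congr_ae
        filter_upwards [h.sum_inv] with x hx
        rw [ENNReal.tsum_mul_left, hx, mul_one]
      rw [e2]
      exact hψ.2.ne
  · rw [← lintegral_tsum (fun g => (hm g).enorm), lintegral_enorm_unfold h hψ.aestronglyMeasurable]
    exact hψ.2.ne

omit [NormedSpace ℝ E] [Group G] [MulAction G X] [MeasurableConstSMul G X] in
lemma aesm_tsum [CompleteSpace E] {ν : Measure X} {f : G → X → E}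
    (hf : ∀ g, AEStronglyMeasurable (f g) ν) (hs : ∀ᵐ x ∂ν, Summable fun g => ‖f g x‖) :
    AEStronglyMeasurable (fun x => ∑' g, f g x) ν := by
  refine aestronglyMeasurable_of_tendsto_ae (atTop : Filter (Finset G))
    (f := fun s x => ∑ g ∈ s, f g x) (fun s => ?_) ?_
  · exact Finset.aestronglyMeasurable_fun_sum s fun g _ => hf g
  · filter_upwards [hs] with x hx
    exact hx.of_norm.hasSum

omit [NormedSpace ℝ E] in
theorem integrable_unfold [CompleteSpace E] (h : IsWt G μ ρ) {ψ : X → E} (hψ : Integrable ψ μ) :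
    Integrable (fun x => ∑' g : G, ψ (g • x)) (nuM μ ρ) := by
  have hac : (nuM μ ρ) ≪ μ := withDensity_absolutelyContinuous μ ρ
  have hm : ∀ g : G, AEStronglyMeasurable (fun x => ψ (g • x)) (nuM μ ρ) := fun g =>
    (aesm_smul hψ.aestronglyMeasurable g).mono_ac hac
  have hs := ae_summable_unfold h hψ
  refine ⟨aesm_tsum hm hs, ?_⟩
  refine lt_of_le_of_lt ?_ (lt_of_eq_of_lt (lintegral_enorm_unfold h hψ.aestronglyMeasurable) hψ.2)
  apply lintegral_mono_ae
  filter_upwards [hs] with x hx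
  exact enorm_tsum_le_tsum_enorm

end bochner

section twisted

variable {G X : Type*} [Group G] [MulAction G X] [MeasurableSpace X] {μ : Measure X}
  {ρ : X → ℝ≥0∞} [Countable G] [MeasurableConstSMul G X] [SMulInvariantMeasure G X μ]

/-- The Poincaré series `∑_g conj (κ g) f (g • x)`. -/
def poinc (κ : G → ℂ) (f : X → ℂ) (x : X) : ℂ := ∑' g : G, (starRingEnd ℂ) (κ g) * f (g • x)

omit [Countable G] [MeasurableSpace X] [MeasurableConstSMul G X] in
/-- transformation law: `P f (g • x) = κ g * P f x` for a unitary character `κ`. -/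
lemma poinc_smul {κ : G → ℂ} (hmul : ∀ a b, κ (a * b) = κ a * κ b) (hnorm : ∀ a, ‖κ a‖ = 1)
    (f : X → ℂ) (g : G) (x : X) : poinc κ f (g • x) = κ g * poinc κ f x := by
  unfold poinc
  rw [← (Equiv.mulRight g).tsum_eq (fun g' => (starRingEnd ℂ) (κ g') * f (g' • x)),
    ← tsum_mul_left]
  congr 1
  ext g'
  simp only [Equiv.coe_mulRight, hmul, map_mul, mul_smul]
  have h1 : κ g * (starRingEnd ℂ) (κ g) = 1 := by
    rw [Complex.mul_conj, Complex.normSq_eq_norm_sq, hnorm]; simp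
  calc (starRingEnd ℂ) (κ g') * f (g' • g • x)
      = (κ g * (starRingEnd ℂ) (κ g)) * ((starRingEnd ℂ) (κ g') * f (g' • g • x)) := by
        rw [h1, one_mul]
    _ = _ := by ring

/-- **Twisted unfolding.** -/
theorem twisted_unfold (h : IsWt G μ ρ) {κ : G → ℂ} {Φ f : X → ℂ}
    (hΦ : ∀ (g : G) x, Φ (g • x) = κ g * Φ x)
    (hint : Integrable (fun x => Φ x * (starRingEnd ℂ) (f x)) μ) :
    ∫ x, Φ x * (starRingEnd ℂ) (poinc κ f x) ∂(nuM μ ρ) =
      ∫ x, Φ x * (starRingEnd ℂ) (f x) ∂μ := by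
  rw [← integral_unfold h hint]
  congr 1
  ext x
  unfold poinc
  rw [Complex.conj_tsum, ← tsum_mul_left]
  congr 1
  ext g
  rw [hΦ, map_mul, Complex.conj_conj]
  ring

/-- integrability of the unfolded product. -/
theorem twisted_integrable (h : IsWt G μ ρ) {κ : G → ℂ} {Φ f : X → ℂ}
    (hΦ : ∀ (g : G) x, Φ (g • x) = κ g * Φ x)
    (hint : Integrable (fun x => Φ x * (starRingEnd ℂ) (f x)) μ) :
    Integrable (fun x => Φ x * (starRingEnd ℂ) (poinc κ f x)) (nuM μ ρ) := by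
  refine (integrable_unfold h hint).congr (Eventually.of_forall fun x => ?_)
  simp only [poinc]
  rw [Complex.conj_tsum, ← tsum_mul_left]
  congr 1
  ext g
  rw [hΦ, map_mul, Complex.conj_conj]
  ring

/-- a.e. absolute convergence of the Poincaré series of an integrable function. -/
theorem poinc_summable (h : IsWt G μ ρ) {κ : G → ℂ} (hnorm : ∀ a, ‖κ a‖ = 1) {f : X → ℂ}
    (hf : Integrable f μ) :
    ∀ᵐ x ∂(nuM μ ρ), Summable fun g : G => ‖(starRingEnd ℂ) (κ g) * f (g • x)‖ := by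
  filter_upwards [ae_summable_unfold h hf] with x hx
  simpa [hnorm] using hx

end twisted

section rows

variable {G X R : Type*} [Group G] [MulAction G X]

/-- Sums over the group with the indicator of a slab = sums over rows.
For every row `r` exactly one `g` with `row g = r` sends `x` into `D`. -/
theorem tsum_rows {M : Type*} [AddCommMonoid M] [TopologicalSpace M] {row : G → R} {D : Set X}
    {x : X} (hD : ∀ r : R, ∃! g : G, row g = r ∧ g • x ∈ D) (a : G → M) (b : R → M)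
    (hab : ∀ g, g • x ∈ D → a g = b (row g)) :
    ∑' g : G, Set.indicator {g : G | g • x ∈ D} a g = ∑' r : R, b r := by
  classical
  rw [← tsum_subtype]
  let e : {g : G | g • x ∈ D} ≃ R := Equiv.ofBijective (fun g => row g.1) (by
    constructor
    · intro g g' hgg
      obtain ⟨k, _, hk⟩ := hD (row g'.1)
      apply Subtype.ext
      rw [hk g.1 ⟨hgg, g.2⟩, hk g'.1 ⟨rfl, g'.2⟩]
    · intro r
      obtain ⟨k, hk, _⟩ := hD r
      exact ⟨⟨k, hk.2⟩, hk.1⟩)
  rw [← e.tsum_eq b]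
  congr 1
  ext g
  exact hab g.1 g.2

/-- Version for the Poincaré series: `f` supported in the slab `D` and given there by `F (row) `. -/
theorem poinc_rows {row : G → R} {D : Set X} {x : X}
    (hD : ∀ r : R, ∃! g : G, row g = r ∧ g • x ∈ D) (κ : G → ℂ) (F : X → ℂ)
    (κ' : R → ℂ) (F' : R → ℂ) (hκ : ∀ g, κ g = κ' (row g)) (hF : ∀ g, F (g • x) = F' (row g)) :
    poinc κ (D.indicator F) x = ∑' r : R, (starRingEnd ℂ) (κ' r) * F' r := by
  rw [← tsum_rows hD (fun g => (starRingEnd ℂ) (κ g) * F (g • x))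
    (fun r => (starRingEnd ℂ) (κ' r) * F' r) (fun g _ => by rw [hκ, hF])]
  unfold poinc
  congr 1
  ext g
  by_cases hg : g • x ∈ D
  · rw [Set.indicator_of_mem hg, Set.indicator_of_mem (show g ∈ {g : G | g • x ∈ D} from hg)]
  · rw [Set.indicator_of_notMem hg, Set.indicator_of_notMem
      (show g ∉ {g : G | g • x ∈ D} from hg), mul_zero]

end rows

section subgroup

variable {G X : Type*} [Group G] [MulAction G X] [MeasurableSpace X] {μ : Measure X}
  [Countable G] [MeasurableConstSMul G X] [SMulInvariantMeasure G X μ]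

omit [Countable G] in
/-- `(q, k) ↦ out q * k`. -/
def cosEquiv (K : Subgroup G) : (G ⧸ K) × K ≃ G :=
  Equiv.ofBijective (fun p => Quotient.out p.1 * (p.2 : G)) (by
    constructor
    · rintro ⟨q, k⟩ ⟨q', k'⟩ h
      simp only at h
      have hq : q = q' := by
        have h1 : ((Quotient.out q * (k : G) : G) : G ⧸ K) = ((Quotient.out q' * (k' : G) : G) : G ⧸ K) := by
          rw [h]
        rwa [QuotientGroup.mk_mul_of_mem _ k.2, QuotientGroup.mk_mul_of_mem _ k'.2,
          QuotientGroup.out_eq', QuotientGroup.out_eq'] at h1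
      subst hq
      have hk := mul_left_cancel h
      rw [Subtype.ext hk]
    · intro g
      have h1 : (Quotient.out (g : G ⧸ K))⁻¹ * g ∈ K := by
        rw [← QuotientGroup.eq]
        exact QuotientGroup.out_eq' _
      exact ⟨⟨(g : G ⧸ K), ⟨_, h1⟩⟩, by simp⟩)

/-- sum of a weight of a subgroup over the whole group = index. -/
lemma tsum_subgroup_wt {K : Subgroup G} {ρ' : X → ℝ≥0∞} (h' : IsWt K μ ρ') :
    ∀ᵐ x ∂μ, ∑' g : G, ρ' (g • x) = ∑' _ : G ⧸ K, (1 : ℝ≥0∞) := by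
  have h1 : ∀ᵐ x ∂μ, ∀ g : G, ∑' k : K, ρ' (k • (g • x)) = 1 := by
    rw [ae_all_iff]
    intro g
    exact (measurePreserving_smul g μ).quasiMeasurePreserving.ae h'.sum_one
  filter_upwards [h1] with x hx
  have e : ∑' g : G, ρ' (g • x) = ∑' g : G, ρ' (g⁻¹ • x) :=
    ((Equiv.inv G).tsum_eq (fun g => ρ' (g • x))).symm
  rw [e, ← (cosEquiv K).tsum_eq, ENNReal.tsum_prod']
  congr 1
  ext q
  rw [← hx (Quotient.out q)⁻¹, ← (Equiv.inv K).tsum_eq]
  congr 1
  ext k
  have e2 : cosEquiv K (q, Equiv.inv K k) = Quotient.out q * ((k : G))⁻¹ := rfl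
  rw [e2, mul_inv_rev, inv_inv, mul_smul]
  rfl

/-- `∫ φ dν_K = [G : K] ∫ φ dν_G` for `G`-invariant `φ` (index possibly infinite). -/
theorem lintegral_subgroup {K : Subgroup G} {ρ ρ' : X → ℝ≥0∞} (h : IsWt G μ ρ)
    (h' : IsWt K μ ρ') {φ : X → ℝ≥0∞} (hφ : Measurable φ) (hinv : ∀ (g : G) x, φ (g • x) = φ x) :
    ∫⁻ x, φ x ∂(nuM μ ρ') = (∑' _ : G ⧸ K, (1 : ℝ≥0∞)) * ∫⁻ x, φ x ∂(nuM μ ρ) := by
  have h1 := lintegral_unfold h (hφ.mul h'.meas)
  rw [nuM, lintegral_withDensity_eq_lintegral_mul μ h'.meas hφ]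
  have e : ∫⁻ x, (ρ' * φ) x ∂μ = ∫⁻ x, (φ * ρ') x ∂μ := by rw [mul_comm]
  rw [e, ← h1, ← lintegral_const_mul _ hφ]
  have hac : (nuM μ ρ) ≪ μ := withDensity_absolutelyContinuous μ ρ
  apply lintegral_congr_ae
  filter_upwards [hac.ae_le (tsum_subgroup_wt h')] with x hx
  simp only [Pi.mul_apply, hinv]
  rw [ENNReal.tsum_mul_left, hx, mul_comm]

omit [Countable G] in
lemma tsum_one_eq_index {K : Subgroup G} [K.FiniteIndex] :
    (∑' _ : G ⧸ K, (1 : ℝ≥0∞)) = K.index := by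
  have : Finite (G ⧸ K) := Subgroup.finite_quotient_of_finiteIndex
  have := Fintype.ofFinite (G ⧸ K)
  rw [tsum_fintype, Finset.sum_const, Finset.card_univ, nsmul_eq_mul, mul_one,
    Subgroup.index_eq_card, Nat.card_eq_fintype_card]

end subgroup

section existence

variable {G X : Type*} [Group G] [MulAction G X] [MeasurableSpace X] {μ : Measure X}
  [Countable G] [MeasurableConstSMul G X]

/-- The weight attached to a positive function. -/
def wtOf (G : Type*) {X : Type*} [Group G] [MulAction G X] (w : X → ℝ≥0∞) (x : X) : ℝ≥0∞ :=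
  w x / ∑' g : G, w (g • x)

/-- Existence of weights. -/
theorem IsWt.ofPos {w : X → ℝ≥0∞} (hw : Measurable w)
    (h0 : ∀ᵐ x ∂μ, ∑' g : G, w (g • x) ≠ 0) (h1 : ∀ᵐ x ∂μ, ∑' g : G, w (g • x) ≠ ∞) :
    IsWt G μ (wtOf G w) := by
  constructor
  · exact hw.div (Measurable.tsum fun g => hw.comp (measurable_const_smul g))
  · filter_upwards [h0, h1] with x hx0 hx1
    have e : ∀ g : G, wtOf G w (g • x) = w (g • x) * (∑' g : G, w (g • x))⁻¹ := by
      intro g
      rw [wtOf, div_eq_mul_inv]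
      congr 2
      rw [← (Equiv.mulRight g).tsum_eq (fun g' => w (g' • x))]
      congr 1
      ext g'
      rw [Equiv.coe_mulRight, mul_smul]
    simp_rw [e]
    rw [ENNReal.tsum_mul_right, ENNReal.mul_inv_cancel hx0 hx1]

end existence

end Crest.Agent.R012.AU681
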