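import Mathlib

/-!
# Row 12 (M): abstract unfolding

`G` a countable group acting on a measure space and preserving the measure, `w ≥ 0` a weight with
`∑ g, w (g x) = 1`.  Then `∫ w(x) ∑_g H(g x) dx = ∫ H` (`lunfold`, `unfold`).
Change of level (`wLevel`): a subgroup `G'` of finite index has the weight
`w' x = ∑_{γ ∈ G ⧸ G'} w (γ x)`, again `∑_{g ∈ G'} w' (g x) = 1`, and for `G`-invariant `φ ≥ 0`
`∫ φ w' = [G : G'] ∫ φ w`.
-/

set_option autoImplicit false
set_option linter.unusedSectionVars false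

noncomputable section

open MeasureTheory
open scoped ENNReal

namespace Crest.Agent.R012.AbsUnfold988

variable {G X : Type*} [Group G] [Countable G] [MulAction G X] [MeasurableSpace X]
  [MeasurableConstSMul G X] {μ : Measure X} [SMulInvariantMeasure G X μ]

lemma lintegral_smul_comp (g : G) (f : X → ℝ≥0∞) :
    ∫⁻ x, f (g • x) ∂μ = ∫⁻ x, f x ∂μ :=
  (measurePreserving_smul g μ).lintegral_comp_emb
    (MeasurableEquiv.smul g).measurableEmbedding f

lemma integral_smul_comp {E : Type*} [NormedAddCommGroup E] [NormedSpace ℝ E] (g : G) (f : X → E) :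
    ∫ x, f (g • x) ∂μ = ∫ x, f x ∂μ :=
  (measurePreserving_smul g μ).integral_comp
    (MeasurableEquiv.smul g).measurableEmbedding f

omit [Countable G] [MulAction G X] [MeasurableSpace X] [MeasurableConstSMul G X] in
lemma tsum_inv_eq {Y : Type*} [AddCommMonoid Y] [TopologicalSpace Y]
    (f : G → Y) : ∑' g : G, f g⁻¹ = ∑' g : G, f g :=
  (Equiv.inv G).tsum_eq f

/-- Unfolding for nonnegative functions. -/
theorem lunfold {w : X → ℝ≥0∞} (hwm : AEMeasurable w μ)
    (hw : ∀ᵐ x ∂μ, ∑' g : G, w (g • x) = 1) {H : X → ℝ≥0∞} (hH : AEMeasurable H μ) :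
    ∫⁻ x, w x * ∑' g : G, H (g • x) ∂μ = ∫⁻ x, H x ∂μ := by
  have hmp : ∀ g : G, MeasurePreserving (fun x : X => g • x) μ μ := fun g =>
    measurePreserving_smul g μ
  have e1 : ∀ x, w x * ∑' g : G, H (g • x) = ∑' g : G, w x * H (g • x) := fun x =>
    ENNReal.tsum_mul_left.symm
  simp_rw [e1]
  rw [lintegral_tsum]
  · have e2 : ∀ g : G, ∫⁻ x, w x * H (g • x) ∂μ = ∫⁻ x, w (g⁻¹ • x) * H x ∂μ := by
      intro g
      rw [← lintegral_smul_comp g (fun x => w (g⁻¹ • x) * H x)]
      simp
    simp_rw [e2]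
    rw [← lintegral_tsum]
    · apply lintegral_congr_ae
      filter_upwards [hw] with x hx
      rw [ENNReal.tsum_mul_right, tsum_inv_eq (fun g : G => w (g • x)), hx, one_mul]
    · intro g
      exact (hwm.comp_quasiMeasurePreserving (hmp g⁻¹).quasiMeasurePreserving).mul hH
  · intro g
    exact hwm.mul (hH.comp_quasiMeasurePreserving (hmp g).quasiMeasurePreserving)

lemma lintegral_tsum_withDensity {w : X → ℝ≥0∞} (hwm : AEMeasurable w μ)
    (hw : ∀ᵐ x ∂μ, ∑' g : G, w (g • x) = 1) {H : X → ℝ≥0∞} (hH : AEMeasurable H μ) :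
    ∑' g : G, ∫⁻ x, H (g • x) ∂(μ.withDensity w) = ∫⁻ x, H x ∂μ := by
  have hmp : ∀ g : G, MeasurePreserving (fun x : X => g • x) μ μ := fun g =>
    measurePreserving_smul g μ
  have hm : ∀ g : G, AEMeasurable (fun x => H (g • x)) μ := fun g =>
    hH.comp_quasiMeasurePreserving (hmp g).quasiMeasurePreserving
  rw [← lunfold hwm hw hH]
  simp_rw [← ENNReal.tsum_mul_left]
  have h1 : ∫⁻ x, ∑' g : G, w x * H (g • x) ∂μ = ∑' g : G, ∫⁻ x, w x * H (g • x) ∂μ :=
    lintegral_tsum (fun g => hwm.mul (hm g))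
  rw [h1]
  refine tsum_congr fun g => ?_
  rw [lintegral_withDensity_eq_lintegral_mul₀ hwm (hm g)]
  rfl

lemma w_le_one [Nonempty G] {w : X → ℝ≥0∞} {x : X} (hx : ∑' g : G, w (g • x) = 1) : w x ≤ 1 := by
  rw [← hx]
  have := ENNReal.le_tsum (f := fun g : G => w (g • x)) 1
  simpa using this

/-- Unfolding for integrable functions. -/
theorem unfold {w : X → ℝ≥0∞} (hwm : AEMeasurable w μ)
    (hw : ∀ᵐ x ∂μ, ∑' g : G, w (g • x) = 1) {H : X → ℂ} (hH : Integrable H μ) :
    ∫ x, ∑' g : G, H (g • x) ∂(μ.withDensity w) = ∫ x, H x ∂μ := by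
  have hmp : ∀ g : G, MeasurePreserving (fun x : X => g • x) μ μ := fun g =>
    measurePreserving_smul g μ
  have hlt : ∀ᵐ x ∂μ, w x < ∞ := by
    filter_upwards [hw] with x hx
    exact (w_le_one hx).trans_lt ENNReal.one_lt_top
  have hac : μ.withDensity w ≪ μ := withDensity_absolutelyContinuous μ w
  have hms : ∀ g : G, AEStronglyMeasurable (fun x => H (g • x)) μ := fun g =>
    hH.1.comp_quasiMeasurePreserving (hmp g).quasiMeasurePreserving
  rw [integral_tsum (fun g => (hms g).mono_ac hac)]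
  · have e2 : ∀ g : G, ∫ x, H (g • x) ∂(μ.withDensity w)
        = ∫ x, (w (g⁻¹ • x)).toReal • H x ∂μ := by
      intro g
      rw [integral_withDensity_eq_integral_toReal_smul₀ hwm hlt,
        ← integral_smul_comp g (fun x => (w (g⁻¹ • x)).toReal • H x)]
      simp
    simp_rw [e2]
    have hm2 : ∀ g : G, AEStronglyMeasurable (fun x => (w (g⁻¹ • x)).toReal • H x) μ := by
      intro g
      have : AEMeasurable (fun x => (w (g⁻¹ • x))) μ :=
        hwm.comp_quasiMeasurePreserving (hmp g⁻¹).quasiMeasurePreserving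
      exact (this.ennreal_toReal.aestronglyMeasurable).smul hH.1
    rw [← integral_tsum hm2]
    · apply integral_congr_ae
      filter_upwards [hw] with x hx
      have hx' : ∑' g : G, w (g⁻¹ • x) = 1 := by
        rw [tsum_inv_eq (fun g : G => w (g • x)), hx]
      have hne : ∀ g : G, w (g⁻¹ • x) ≠ ∞ := fun g h => by
        have h1 := ENNReal.le_tsum (f := fun g : G => w (g⁻¹ • x)) g
        rw [hx', h] at h1
        exact absurd h1 (by simp)
      have hs : Summable (fun g : G => (w (g⁻¹ • x)).toReal) :=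
        ENNReal.summable_toReal (by rw [hx']; exact ENNReal.one_ne_top)
      have hs1 : ∑' g : G, (w (g⁻¹ • x)).toReal = 1 := by
        rw [← ENNReal.tsum_toReal_eq hne, hx']; rfl
      rw [hs.tsum_smul_const, hs1, one_smul]
    · have : ∀ g : G, ∫⁻ x, ‖(w (g⁻¹ • x)).toReal • H x‖ₑ ∂μ
          = ∫⁻ x, ‖H (g • x)‖ₑ ∂(μ.withDensity w) := by
        intro g
        have h1 : AEMeasurable (fun x => ‖H (g • x)‖ₑ) μ := (hms g).enorm
        rw [lintegral_withDensity_eq_lintegral_mul₀ hwm h1,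
          ← lintegral_smul_comp g (fun x => ‖(w (g⁻¹ • x)).toReal • H x‖ₑ)]
        apply lintegral_congr_ae
        filter_upwards [hlt] with x hx
        simp only [inv_smul_smul, Pi.mul_apply, enorm_smul]
        congr 1
        rw [Real.enorm_eq_ofReal ENNReal.toReal_nonneg, ENNReal.ofReal_toReal hx.ne]
      simp_rw [this]
      rw [lintegral_tsum_withDensity hwm hw hH.1.enorm]
      exact hH.2.ne
  · rw [lintegral_tsum_withDensity hwm hw hH.1.enorm]
    exact hH.2.ne

/-! ### Change of level -/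

/-- `G ≃ (G ⧸ G') × G'`, `(i, g) ↦ out i * g`. -/
def cosetEquiv {G : Type*} [Group G] (G' : Subgroup G) : (G ⧸ G') × G' ≃ G where
  toFun p := (Quotient.out p.1 : G) * p.2
  invFun g := (QuotientGroup.mk g, ⟨(Quotient.out (QuotientGroup.mk g : G ⧸ G') : G)⁻¹ * g, by
    rw [← QuotientGroup.eq]
    exact QuotientGroup.out_eq' _⟩)
  left_inv := by
    rintro ⟨i, g⟩
    have h1 : (QuotientGroup.mk ((Quotient.out i : G) * g) : G ⧸ G') = i := by
      rw [QuotientGroup.mk_mul_of_mem _ g.2]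
      exact QuotientGroup.out_eq' i
    ext1
    · exact h1
    · apply Subtype.ext
      simp only
      rw [h1]
      group
  right_inv := by
    intro g
    simp

/-- The weight of a subgroup of finite index. -/
def wLevel (G' : Subgroup G) (w : X → ℝ≥0∞) (x : X) : ℝ≥0∞ :=
  ∑' i : G ⧸ G', w ((Quotient.out i : G) • x)

omit [Countable G] [MeasurableSpace X] [MeasurableConstSMul G X] in
theorem tsum_wLevel (G' : Subgroup G) (w : X → ℝ≥0∞) (x : X) :
    ∑' g : G', wLevel G' w (g • x) = ∑' g : G, w (g • x) := by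
  unfold wLevel
  rw [← (cosetEquiv G').tsum_eq (fun g : G => w (g • x)), ENNReal.tsum_prod', ENNReal.tsum_comm]
  refine tsum_congr fun i => tsum_congr fun g => ?_
  rw [Subgroup.smul_def, smul_smul]
  rfl

omit [Countable G] in
lemma measurable_wLevel [Countable G] (G' : Subgroup G) {w : X → ℝ≥0∞} (hwm : Measurable w) :
    Measurable (wLevel G' w) := by
  have : Countable (G ⧸ G') := Quotient.countable
  exact Measurable.tsum (fun i => hwm.comp (measurable_const_smul _))

theorem lintegral_wLevel (G' : Subgroup G) [Finite (G ⧸ G')] {w : X → ℝ≥0∞} (hwm : Measurable w)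
    {φ : X → ℝ≥0∞} (hφ : AEMeasurable φ μ) (hinv : ∀ (g : G) (x : X), φ (g • x) = φ x) :
    ∫⁻ x, wLevel G' w x * φ x ∂μ = (Nat.card (G ⧸ G') : ℝ≥0∞) * ∫⁻ x, w x * φ x ∂μ := by
  unfold wLevel
  have : Countable (G ⧸ G') := Quotient.countable
  simp_rw [← ENNReal.tsum_mul_right]
  rw [lintegral_tsum]
  · have : ∀ i : G ⧸ G', ∫⁻ x, w ((Quotient.out i : G) • x) * φ x ∂μ = ∫⁻ x, w x * φ x ∂μ := by
      intro i
      rw [← lintegral_smul_comp (Quotient.out i : G) (fun x => w x * φ x)]
      simp_rw [hinv]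
    simp_rw [this]
    have := Fintype.ofFinite (G ⧸ G')
    rw [tsum_fintype, Finset.sum_const, nsmul_eq_mul, Finset.card_univ, Nat.card_eq_fintype_card]
  · intro i
    exact (hwm.comp (measurable_const_smul _)).aemeasurable.mul hφ

/-- Level change as inequality for the integrals with respect to the weights. -/
theorem lintegral_withDensity_wLevel (G' : Subgroup G) [Finite (G ⧸ G')] {w : X → ℝ≥0∞}
    (hwm : Measurable w) {φ : X → ℝ≥0∞} (hφ : AEMeasurable φ μ)
    (hinv : ∀ (g : G) (x : X), φ (g • x) = φ x) :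
    ∫⁻ x, φ x ∂(μ.withDensity (wLevel G' w))
      = (Nat.card (G ⧸ G') : ℝ≥0∞) * ∫⁻ x, φ x ∂(μ.withDensity w) := by
  have h1 := lintegral_wLevel (μ := μ) G' hwm hφ hinv
  rw [lintegral_withDensity_eq_lintegral_mul₀ (measurable_wLevel G' hwm).aemeasurable hφ,
    lintegral_withDensity_eq_lintegral_mul₀ hwm.aemeasurable hφ]
  exact h1

end Crest.Agent.R012.AbsUnfold988
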