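import Crest.Agent.R012.Quot_666

/-!
# Row 12: the additive character `eC`, orthogonality modulo `c`

* `eC_add`, `eC_neg`, `norm_eC`, `eC_conj`, `eC_toC : eC (toC z) = 1`
* `sq3 = 1 + 2ω = √-3`
* `sumMod_eC` : `∑_{x mod c} e(r x / c) = N(c)` if `c ∣ √-3 r`, and `0` otherwise
* `sumMod_eC_of_coprime` : for `c` prime to `3`: `N(c)` if `c ∣ r`, `0` otherwise
-/

set_option autoImplicit false
set_option linter.unusedSimpArgs false
set_option linter.unusedVariables false

noncomputable section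

namespace Crest.Agent.R012

open Eis

lemma eC_eq (z : ℂ) : eC z = Complex.exp (((4 * Real.pi * z.re : ℝ) : ℂ) * Complex.I) := by
  unfold eC
  congr 1
  rw [Complex.add_conj]
  push_cast
  ring

@[simp] lemma norm_eC (z : ℂ) : ‖eC z‖ = 1 := by
  rw [eC_eq, Complex.norm_exp_ofReal_mul_I]

lemma eC_ne_zero (z : ℂ) : eC z ≠ 0 := by
  intro h; have := norm_eC z; rw [h, norm_zero] at this; exact zero_ne_one this

lemma eC_add (z w : ℂ) : eC (z + w) = eC z * eC w := by
  unfold eC
  rw [← Complex.exp_add, map_add]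
  congr 1; ring

@[simp] lemma eC_zero : eC 0 = 1 := by simp [eC]

lemma eC_neg (z : ℂ) : eC (-z) = (eC z)⁻¹ := by
  unfold eC
  rw [← Complex.exp_neg, map_neg]
  congr 1; ring

lemma eC_sub (z w : ℂ) : eC (z - w) = eC z / eC w := by
  rw [sub_eq_add_neg, eC_add, eC_neg, div_eq_mul_inv]

lemma star_eC (z : ℂ) : (starRingEnd ℂ) (eC z) = eC (-z) := by
  rw [eC_neg, Complex.inv_def, Complex.normSq_eq_norm_sq, norm_eC]; simp

lemma eC_conj (z : ℂ) : eC ((starRingEnd ℂ) z) = eC z := by
  unfold eC; rw [Complex.conj_conj, add_comm]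

lemma eC_int_mul (n : ℤ) (z : ℂ) : eC (n * z) = eC z ^ n := by
  unfold eC
  rw [← Complex.exp_int_mul, map_mul, map_intCast]
  congr 1; ring

lemma eC_sum {ι : Type*} (s : Finset ι) (f : ι → ℂ) : eC (∑ i ∈ s, f i) = ∏ i ∈ s, eC (f i) := by
  classical
  induction s using Finset.induction_on with
  | empty => simp
  | insert a s ha ih => rw [Finset.sum_insert ha, Finset.prod_insert ha, eC_add, ih]

/-- `eC z` in terms of `z + z̄ = t` being an integer. -/
lemma eC_eq_one_iff {z : ℂ} : eC z = 1 ↔ ∃ n : ℤ, 2 * z.re = n := by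
  unfold eC
  rw [Complex.exp_eq_one_iff, Complex.add_conj]
  have hpi : (2 * Real.pi * Complex.I : ℂ) ≠ 0 := Complex.two_pi_I_ne_zero
  constructor
  · rintro ⟨n, hn⟩
    refine ⟨n, ?_⟩
    have h1 : ((2 * z.re : ℝ) : ℂ) = n := by
      apply mul_left_cancel₀ hpi
      rw [hn]; ring
    exact_mod_cast h1
  · rintro ⟨n, hn⟩
    refine ⟨n, ?_⟩
    rw [hn]; push_cast; ring

/-- The trace of `z` to `ℤ`. -/
def trE (z : Eis) : ℤ := 2 * z.re - z.im

lemma two_re_toC (z : Eis) : 2 * (toC z).re = (trE z : ℤ) := by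
  rw [toC_re]; unfold trE; push_cast; ring

lemma toC_add_conj (z : Eis) : toC z + (starRingEnd ℂ) (toC z) = (trE z : ℂ) := by
  rw [Complex.add_conj, two_re_toC]; norm_cast

@[simp] lemma eC_toC (z : Eis) : eC (toC z) = 1 := eC_eq_one_iff.mpr ⟨_, two_re_toC z⟩

lemma toC_ne_zero {c : Eis} (hc : c ≠ 0) : toC c ≠ 0 := by rwa [Ne, toC_eq_zero]

/-- The function `x ↦ e(r x / c)` is periodic modulo `c`. -/
lemma pmod_eC (r c : Eis) : PMod c (fun x => eC (toC r * toC x / toC c)) := by
  intro x t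
  by_cases hc : c = 0
  · subst hc; simp
  · have h := toC_ne_zero hc
    have e : toC r * toC (x + c * t) / toC c = toC r * toC x / toC c + toC (r * t) := by
      rw [map_add, map_mul, map_mul]; field_simp
    beta_reduce
    rw [e, eC_add, eC_toC, mul_one]

lemma eC_congr_left {r s c : Eis} (h : c ∣ r - s) (x : Eis) :
    eC (toC r * toC x / toC c) = eC (toC s * toC x / toC c) := by
  have h1 := (pmod_eC x c).congr h
  beta_reduce at h1
  rw [mul_comm (toC r), h1, mul_comm (toC x)]

/-- `√-3 = 1 + 2ω`. -/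
def sq3 : Eis := ⟨1, 2⟩

@[simp] lemma sq3_re : sq3.re = 1 := rfl
@[simp] lemma sq3_im : sq3.im = 2 := rfl

lemma sq3_sq : sq3 ^ 2 = -3 := by
  rw [pow_two]; apply ext' <;> simp [re_mul', im_mul']

lemma sq3_eq : sq3 = w * lam := by
  apply ext' <;> simp [re_mul', im_mul']

lemma associated_lam_sq3 : Associated lam sq3 := by
  refine ⟨wU, ?_⟩
  rw [sq3_eq, wU_val]; ring

lemma sq3_ne_zero : sq3 ≠ 0 := by
  intro h; have := congrArg QuadraticAlgebra.re h; simp at this

lemma eC_toC_div_sq3 (s : Eis) : eC (toC s / toC sq3) = 1 := by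
  have h3 : toC sq3 ≠ 0 := toC_ne_zero sq3_ne_zero
  have e : toC s / toC sq3 = toC (s * sq3) / (-3) := by
    have h := congrArg toC sq3_sq
    have h' : toC sq3 ^ 2 = -3 := by
      rw [← map_pow, h, map_neg, map_ofNat]
    rw [map_mul, div_eq_div_iff h3 (by norm_num)]
    linear_combination (-toC s) * h'
  rw [e, eC_eq_one_iff]
  refine ⟨s.im, ?_⟩
  have : ((-3 : ℂ)) = ((-3 : ℝ) : ℂ) := by push_cast; rfl
  rw [this, Complex.div_ofReal_re]
  have h2 := two_re_toC (s * sq3)
  have h4 : trE (s * sq3) = -3 * s.im := by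
    unfold trE; rw [re_mul', im_mul']; simp; ring
  rw [h4] at h2
  push_cast at h2
  linarith

lemma dvd_of_eC_eq_one {r c : Eis} (hc : c ≠ 0)
    (h : ∀ x : Eis, eC (toC r * toC x / toC c) = 1) : c ∣ sq3 * r := by
  have hc' := toC_ne_zero hc
  set z : ℂ := toC r / toC c with hz
  obtain ⟨m, hm⟩ := eC_eq_one_iff.mp (h 1)
  obtain ⟨n, hn⟩ := eC_eq_one_iff.mp (h w)
  rw [map_one, mul_one, ← hz] at hm
  have e : toC r * toC w / toC c = z * wC := by rw [toC_w, hz]; ring
  rw [e] at hn
  refine ⟨⟨m + n, m⟩, ?_⟩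
  apply toC_injective
  rw [map_mul, map_mul]
  have h3 : Real.sqrt 3 * Real.sqrt 3 = 3 := Real.mul_self_sqrt (by norm_num)
  have hr : toC r = z * toC c := by rw [hz]; field_simp
  rw [hr]
  have key : toC sq3 * z = toC ⟨m + n, m⟩ := by
    have hn' : 2 * (z.re * (-1 / 2) - z.im * (Real.sqrt 3 / 2)) = n := by
      have : (z * wC).re = z.re * (-1 / 2) - z.im * (Real.sqrt 3 / 2) := by
        rw [Complex.mul_re]; rfl
      rw [← this, hn]
    apply Complex.ext
    · rw [Complex.mul_re, toC_re, toC_im, toC_re]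
      simp only [sq3_re, sq3_im]
      push_cast
      linear_combination hn' + hm / 2
    · rw [Complex.mul_im, toC_re, toC_im, toC_im]
      simp only [sq3_re, sq3_im]
      push_cast
      linear_combination Real.sqrt 3 / 2 * hm
  linear_combination toC c * key

lemma eC_eq_one_of_dvd {r c : Eis} (h : c ∣ sq3 * r) (x : Eis) :
    eC (toC r * toC x / toC c) = 1 := by
  by_cases hc : c = 0
  · subst hc; simp
  obtain ⟨t, ht⟩ := h
  have hc' := toC_ne_zero hc
  have h3 : toC sq3 ≠ 0 := toC_ne_zero sq3_ne_zero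
  have e : toC r * toC x / toC c = toC (t * x) / toC sq3 := by
    have h' := congrArg toC ht
    rw [map_mul, map_mul] at h'
    rw [div_eq_div_iff hc' h3, map_mul]
    linear_combination toC x * h'
  rw [e, eC_toC_div_sq3]

/-- Orthogonality of the additive characters modulo `c`. -/
lemma sumMod_eC {c : Eis} (hc : c ≠ 0) (r : Eis) :
    open Classical in
    sumMod c (fun x => eC (toC r * toC x / toC c)) = if c ∣ sq3 * r then (nm c : ℂ) else 0 := by
  classical
  split_ifs with h
  · rw [sumMod_congr (g := fun _ => (1 : ℂ)) (fun x => eC_eq_one_of_dvd h x), sumMod_const hc,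
      mul_one]
  · have : ∃ y : Eis, eC (toC r * toC y / toC c) ≠ 1 := by
      by_contra hcon
      push Not at hcon
      exact h (dvd_of_eC_eq_one hc hcon)
    obtain ⟨y, hy⟩ := this
    have h1 := sumMod_shift hc (pmod_eC r c) y
    have h2 : sumMod c (fun x => eC (toC r * toC (x + y) / toC c)) =
        eC (toC r * toC y / toC c) * sumMod c (fun x => eC (toC r * toC x / toC c)) := by
      rw [← sumMod_mul_left hc]
      refine sumMod_congr fun x => ?_
      rw [map_add, mul_add, add_div, eC_add, mul_comm]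
    rw [h2] at h1
    have h3 : (eC (toC r * toC y / toC c) - 1) *
        sumMod c (fun x => eC (toC r * toC x / toC c)) = 0 := by
      linear_combination h1
    rcases mul_eq_zero.mp h3 with h4 | h4
    · exact absurd (sub_eq_zero.mp h4) hy
    · exact h4

lemma dvd_sq3_mul_iff {c r : Eis} (hc : ¬ lam ∣ c) : c ∣ sq3 * r ↔ c ∣ r := by
  constructor
  · intro h
    have h1 : IsCoprime c sq3 :=
      (isCoprime_lam_iff.mpr hc).of_isCoprime_of_dvd_right associated_lam_sq3.symm.dvd
    exact h1.dvd_of_dvd_mul_left h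
  · intro h; exact h.mul_left _

lemma sumMod_eC_of_not_lam_dvd {c : Eis} (hc : ¬ lam ∣ c) (r : Eis) :
    open Classical in
    sumMod c (fun x => eC (toC r * toC x / toC c)) = if c ∣ r then (nm c : ℂ) else 0 := by
  classical
  have hc0 : c ≠ 0 := by rintro rfl; exact hc (dvd_zero _)
  rw [sumMod_eC hc0]
  simp only [dvd_sq3_mul_iff hc]

end Crest.Agent.R012
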