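import Crest.Agent.R012.Base_666

/-!
# Row 12 (X): counting primary residues mod `3c` prime to `c`

`prC c P e` = residues `q mod 3c` with a representative `d ≡ 1 (3)`, `e ∣ d`, `p ∤ d` for `p ∈ P`.
-/

set_option autoImplicit false

noncomputable section

namespace Crest.Agent.R012

open Eis

namespace Count852

/-- residues mod `3c` represented by primary `d` with `e ∣ d` and `p ∤ d` for all `p ∈ P`. -/
def resSet (c : Eis) (P : Finset Eis) (e : Eis) : Set (Eis ⧸ Ideal.span ({3 * c} : Set Eis)) :=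
  {q | ∃ d : Eis, Ideal.Quotient.mk _ d = q ∧ IsPrim d ∧ e ∣ d ∧ ∀ p ∈ P, ¬ p ∣ d}

lemma mk_eq_iff {c d d' : Eis} :
    (Ideal.Quotient.mk (Ideal.span ({c} : Set Eis)) d = Ideal.Quotient.mk _ d') ↔ c ∣ d - d' := by
  rw [Ideal.Quotient.eq, Ideal.mem_span_singleton]

lemma mem_resSet_iff {c : Eis} {P : Finset Eis} {e d : Eis} (he : e ∣ c) (hP : ∀ p ∈ P, p ∣ c) :
    Ideal.Quotient.mk (Ideal.span ({3 * c} : Set Eis)) d ∈ resSet c P e ↔
      IsPrim d ∧ e ∣ d ∧ ∀ p ∈ P, ¬ p ∣ d := by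
  constructor
  · rintro ⟨d', hd', h1, h2, h3⟩
    have h : 3 * c ∣ d' - d := mk_eq_iff.mp hd'
    have hc : c ∣ d' - d := (Dvd.intro_left _ rfl).trans h
    have h33 : (3 : Eis) ∣ d' - d := (Dvd.intro _ rfl).trans h
    refine ⟨?_, ?_, ?_⟩
    · have e1 : d - 1 = (d' - 1) - (d' - d) := by ring
      rw [IsPrim, e1]; exact dvd_sub h1 h33
    · have e1 : d = d' - (d' - d) := by ring
      rw [e1]; exact dvd_sub h2 (he.trans hc)
    · intro p hp hpd
      refine h3 p hp ?_
      have e1 : d' = d + (d' - d) := by ring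
      rw [e1]; exact dvd_add hpd ((hP p hp).trans hc)
  · rintro ⟨h1, h2, h3⟩
    exact ⟨d, rfl, h1, h2, h3⟩

/-- the base count -/
lemma ncard_resSet_empty (hcard : ∀ c : Eis, c ≠ 0 →
      Nat.card (Eis ⧸ Ideal.span ({c} : Set Eis)) = nm c)
    {e c' : Eis} (he : IsPrim e) (hc' : c' ≠ 0) :
    (resSet (e * c') ∅ e).ncard = nm c' := by
  classical
  rw [← hcard c' hc']
  set f : (Eis ⧸ Ideal.span ({c'} : Set Eis)) → (Eis ⧸ Ideal.span ({3 * (e * c')} : Set Eis)) :=
    fun q => Ideal.Quotient.mk _ (e * (1 + 3 * Quotient.out q)) with hf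
  have hinj : Function.Injective f := by
    intro q q' h
    rw [hf] at h
    simp only at h
    rw [mk_eq_iff] at h
    have e1 : e * (1 + 3 * Quotient.out q) - e * (1 + 3 * Quotient.out q') =
        3 * e * (Quotient.out q - Quotient.out q') := by ring
    have e2 : 3 * (e * c') = 3 * e * c' := by ring
    rw [e1, e2] at h
    have h3 : (3 * e : Eis) ≠ 0 := mul_ne_zero three_ne_zero' he.ne_zero
    have h4 : c' ∣ Quotient.out q - Quotient.out q' := (mul_dvd_mul_iff_left h3).mp h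
    have h5 := mk_eq_iff.mpr h4
    have h6 : ∀ q : (Eis ⧸ Ideal.span ({c'} : Set Eis)),
        Ideal.Quotient.mk (Ideal.span ({c'} : Set Eis)) (Quotient.out q) = q := fun q =>
      Ideal.Quotient.mk_out q
    rw [h6, h6] at h5
    exact h5
  have hrange : Set.range f = resSet (e * c') ∅ e := by
    ext q
    constructor
    · rintro ⟨s, rfl⟩
      refine ⟨e * (1 + 3 * Quotient.out s), rfl, ?_, Dvd.intro _ rfl, by simp⟩
      refine he.mul ?_
      simp [IsPrim]
    · rintro ⟨d, rfl, h1, ⟨y, rfl⟩, -⟩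
      have hy : IsPrim y := h1.of_mul_left he
      obtain ⟨s, hs⟩ := hy
      refine ⟨Ideal.Quotient.mk _ s, ?_⟩
      rw [hf]
      simp only
      rw [mk_eq_iff]
      have h7 : c' ∣ Quotient.out (Ideal.Quotient.mk (Ideal.span ({c'} : Set Eis)) s) - s := by
        rw [← mk_eq_iff]
        exact Ideal.Quotient.mk_out _
      obtain ⟨u, hu⟩ := h7
      refine ⟨u, ?_⟩
      have hs' : y = 1 + 3 * s := by linear_combination hs
      rw [hs']
      linear_combination (3 * e) * hu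
  rw [← hrange, ← Set.image_univ, Set.ncard_image_of_injective _ hinj, Set.ncard_univ]

/-- The count: `#{d mod 3c : d ≡ 1 (3), e ∣ d, p ∤ d (p ∈ P)} = N(c/e) ∏_{p ∈ P} (1 - 1/N(p))`. -/
theorem ncard_resSet (hcard : ∀ c : Eis, c ≠ 0 →
      Nat.card (Eis ⧸ Ideal.span ({c} : Set Eis)) = nm c)
    {c : Eis} (hc : c ≠ 0) (P : Finset Eis) :
    (∀ p ∈ P, p ∣ c ∧ Prime p ∧ IsPrim p) → ∀ e : Eis, IsPrim e → e ∣ c →
      (∀ p ∈ P, IsCoprime e p) → 
      ((resSet c P e).ncard : ℝ) = (nm c : ℝ) / nm e * ∏ p ∈ P, (1 - 1 / (nm p : ℝ)) := by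
  classical
  have hfin : ∀ (P : Finset Eis) (e : Eis), (resSet c P e).Finite := by
    intro P e
    have h1 : Nat.card (Eis ⧸ Ideal.span ({3 * c} : Set Eis)) ≠ 0 := by
      rw [hcard _ (mul_ne_zero three_ne_zero' hc)]
      exact (nm_pos.mpr (mul_ne_zero three_ne_zero' hc)).ne'
    have : Finite (Eis ⧸ Ideal.span ({3 * c} : Set Eis)) := Nat.finite_of_card_ne_zero h1
    exact Set.toFinite _
  induction P using Finset.induction_on with
  | empty =>
    intro _ e he hec _
    obtain ⟨c', rfl⟩ := hec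
    have hc' : c' ≠ 0 := right_ne_zero_of_mul hc
    rw [ncard_resSet_empty hcard he hc', nm_mul]
    have h1 : (nm e : ℝ) ≠ 0 := by
      exact_mod_cast (nm_pos.mpr he.ne_zero).ne'
    push_cast
    field_simp
    simp
  | insert p P hp ih =>
    intro hP e he hec hcop
    have hP' : ∀ p ∈ P, p ∣ c ∧ Prime p ∧ IsPrim p := fun q hq => hP q (Finset.mem_insert_of_mem hq)
    have hp1 := hP p (Finset.mem_insert_self p P)
    have hep : IsCoprime e p := hcop p (Finset.mem_insert_self p P)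
    -- split the set
    have hsplit : resSet c P e = resSet c (insert p P) e ∪ resSet c P (e * p) := by
      ext q
      obtain ⟨d, rfl⟩ := Ideal.Quotient.mk_surjective q
      have hepc : e * p ∣ c := hep.mul_dvd hec hp1.1
      rw [Set.mem_union, mem_resSet_iff hec (fun q hq => (hP' q hq).1),
        mem_resSet_iff hec (fun q hq => (hP q hq).1),
        mem_resSet_iff hepc (fun q hq => (hP' q hq).1)]
      constructor
      · rintro ⟨h1, h2, h3⟩
        by_cases hpd : p ∣ d
        · right; exact ⟨h1, hep.mul_dvd h2 hpd, h3⟩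
        · left
          refine ⟨h1, h2, ?_⟩
          intro r hr
          rcases Finset.mem_insert.mp hr with rfl | hr
          · exact hpd
          · exact h3 r hr
      · rintro (⟨h1, h2, h3⟩ | ⟨h1, h2, h3⟩)
        · exact ⟨h1, h2, fun r hr => h3 r (Finset.mem_insert_of_mem hr)⟩
        · exact ⟨h1, (Dvd.intro _ rfl).trans h2, h3⟩
    have hdisj : Disjoint (resSet c (insert p P) e) (resSet c P (e * p)) := by
      rw [Set.disjoint_left]
      intro q h1 h2
      obtain ⟨d, rfl⟩ := Ideal.Quotient.mk_surjective q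
      have hepc : e * p ∣ c := hep.mul_dvd hec hp1.1
      rw [mem_resSet_iff hec (fun q hq => (hP q hq).1)] at h1
      rw [mem_resSet_iff hepc (fun q hq => (hP' q hq).1)] at h2
      exact h1.2.2 p (Finset.mem_insert_self p P) ((Dvd.intro_left _ rfl).trans h2.2.1)
    have hcardsplit : (resSet c P e).ncard =
        (resSet c (insert p P) e).ncard + (resSet c P (e * p)).ncard := by
      rw [hsplit, Set.ncard_union_eq hdisj (hfin _ _) (hfin _ _)]
    have i1 := ih hP' e he hec (fun q hq => hcop q (Finset.mem_insert_of_mem hq))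
    have hcop2 : ∀ q ∈ P, IsCoprime (e * p) q := by
      intro q hq
      refine IsCoprime.mul_left (hcop q (Finset.mem_insert_of_mem hq)) ?_
      -- p and q are distinct primary primes
      have hq' := hP' q hq
      have hne : p ≠ q := by rintro rfl; exact hp hq
      refine (hp1.2.1.irreducible.coprime_iff_not_dvd).mpr ?_
      intro hpq
      have hassoc : Associated p q := hp1.2.1.irreducible.associated_of_dvd hq'.2.1.irreducible hpq
      exact hne (hp1.2.2.eq_of_associated hq'.2.2 hassoc)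
    have i2 := ih hP' (e * p) (he.mul hp1.2.2) (hep.mul_dvd hec hp1.1) hcop2
    have h1 : (nm e : ℝ) ≠ 0 := by exact_mod_cast (nm_pos.mpr he.ne_zero).ne'
    have h2 : (nm p : ℝ) ≠ 0 := by exact_mod_cast (nm_pos.mpr hp1.2.2.ne_zero).ne'
    have hcs : ((resSet c (insert p P) e).ncard : ℝ) =
        (resSet c P e).ncard - (resSet c P (e * p)).ncard := by
      rw [hcardsplit]; push_cast; ring
    rw [hcs, i1, i2, Finset.prod_insert hp, nm_mul]
    push_cast
    field_simp

/-- The primary primes dividing `c`. -/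
def pdiv (c : Eis) : Finset Eis :=
  open Classical in (primBall (nm c)).filter (fun p => Prime p ∧ p ∣ c)

lemma mem_pdiv {c p : Eis} (hc : c ≠ 0) : p ∈ pdiv c ↔ IsPrim p ∧ Prime p ∧ p ∣ c := by
  classical
  rw [pdiv, Finset.mem_filter, mem_primBall]
  constructor
  · rintro ⟨⟨-, h1⟩, h2, h3⟩; exact ⟨h1, h2, h3⟩
  · rintro ⟨h1, h2, h3⟩
    refine ⟨⟨?_, h1⟩, h2, h3⟩
    obtain ⟨t, rfl⟩ := h3
    rw [nm_mul]
    exact Nat.le_mul_of_pos_right _ (nm_pos.mpr (right_ne_zero_of_mul hc))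

lemma isCoprime_iff_pdiv {c d : Eis} (hc : c ≠ 0) (hd : IsPrim d) :
    IsCoprime c d ↔ ∀ p ∈ pdiv c, ¬ p ∣ d := by
  constructor
  · intro h p hp hpd
    rw [mem_pdiv hc] at hp
    exact hp.2.1.not_isUnit (h.isUnit_of_dvd' hp.2.2 hpd)
  · intro h
    refine isCoprime_of_prime_dvd (fun h0 => hc h0.1) ?_
    intro p hp hpc hpd
    have hl : ¬ lam ∣ p := fun h' => hd.not_lam_dvd (h'.trans hpd)
    have h1 : prim p ∈ pdiv c := by
      rw [mem_pdiv hc]
      exact ⟨prim_isPrim hl, (prim_associated p).prime hp, (prim_associated p).dvd_iff_dvd_left.mp hpc⟩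
    exact h _ h1 ((prim_associated p).dvd_iff_dvd_left.mp hpd)

/-- `ψ(c) = ∏_{p ∣ c primary} (1 - 1/N(p))`. -/
def psi (c : Eis) : ℝ := ∏ p ∈ pdiv c, (1 - 1 / (nm p : ℝ))

/-- `#{d mod 3c : d ≡ 1 (3), (d,c) = 1} = N(c) ψ(c)`. -/
theorem ncard_prim_coprime (hcard : ∀ c : Eis, c ≠ 0 →
      Nat.card (Eis ⧸ Ideal.span ({c} : Set Eis)) = nm c)
    {c : Eis} (hc : c ≠ 0) :
    (({q : Eis ⧸ Ideal.span ({3 * c} : Set Eis) |
        IsPrim (Quotient.out q) ∧ IsCoprime c (Quotient.out q)}.ncard : ℕ) : ℝ) =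
      nm c * psi c := by
  have h1 := ncard_resSet hcard hc (pdiv c) (fun p hp => by
    rw [mem_pdiv hc] at hp; exact ⟨hp.2.2, hp.2.1, hp.1⟩) 1 isPrim_one (one_dvd c)
    (fun p _ => isCoprime_one_left)
  rw [nm_one, Nat.cast_one, div_one] at h1
  rw [psi, ← h1]
  congr 2
  ext q
  have hq : Ideal.Quotient.mk (Ideal.span ({3 * c} : Set Eis)) (Quotient.out q) = q :=
    Ideal.Quotient.mk_out q
  have h2 := mem_resSet_iff (c := c) (P := pdiv c) (e := 1) (d := Quotient.out q) (one_dvd c)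
    (fun p hp => by rw [mem_pdiv hc] at hp; exact hp.2.2)
  rw [hq] at h2
  rw [h2]
  simp only [Set.mem_ofPred_eq, isUnit_one, IsUnit.dvd, true_and]
  constructor
  · rintro ⟨h3, h4⟩
    exact ⟨h3, (isCoprime_iff_pdiv hc h3).mp h4⟩
  · rintro ⟨h3, h4⟩
    exact ⟨h3, (isCoprime_iff_pdiv hc h3).mpr h4⟩

end Count852

end Crest.Agent.R012
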