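import Crest.Agent.R012.Quot_666
import Crest.Agent.R012.Count_852

/-!
# Row 12 (X): the character sums `S(c) = Σ_{d mod 3c, d ≡ 1 (3)} (c/d)_3`

Everything is deduced from the basic facts on `sy` collected in `SyFacts` (proved in `Sym_645`).

* `sy_shift`      : `(c/(d+ct)) = (c/d)` for `3 ∣ c`, `3 ∣ t`, `d` primary;
* `Ssum_eq_zero`  : `S(c) = 0` if `3 ∣ c` and `c` is not a cube;
* `Ssum_cube`     : `S(e^3) = N(e^3) ψ(e^3)`, `ψ(c) = ∏_{p ∣ c, p primary prime} (1 - 1/N(p))`;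
-/

set_option autoImplicit false

noncomputable section

namespace Crest.Agent.R012

open Eis

namespace CharSum852

/-- The facts on the cubic symbol which are used here. -/
structure SyFacts : Prop where
  mul_left : ∀ x y c : Eis, IsPrim c → sy (x * y) c = sy x c * sy y c
  mul_right : ∀ x c d : Eis, IsPrim c → IsPrim d → sy x (c * d) = sy x c * sy x d
  congr : ∀ x y c : Eis, IsPrim c → c ∣ x - y → sy x c = sy y c
  eq_zero : ∀ x c : Eis, IsPrim c → (sy x c = 0 ↔ ¬ IsCoprime x c)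
  cube : ∀ x c : Eis, IsPrim c → IsCoprime x c → sy x c ^ 3 = 1
  recip : ∀ a b : Eis, IsPrim a → IsPrim b → sy a b = sy b a
  unit9 : ∀ u d d' : Eis, IsUnit u → IsPrim d → IsPrim d' → (9 : Eis) ∣ d - d' → sy u d = sy u d'
  lam9 : ∀ d d' : Eis, IsPrim d → IsPrim d' → (9 : Eis) ∣ d - d' → sy lam d = sy lam d'
  nontriv : ∀ h : Eis, h ≠ 0 → (¬ ∃ e, h = e ^ 3) → ∃ b, IsPrim b ∧ IsCoprime h b ∧ sy h b ≠ 1

/-- Every non-zero `c` is `lam^k * u * m` with `u` a unit and `m` primary. -/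
lemma exists_decomp {c : Eis} (hc : c ≠ 0) :
    ∃ (k : ℕ) (u m : Eis), IsUnit u ∧ IsPrim m ∧ c = lam ^ k * (u * m) := by
  obtain ⟨m, hcm, hm⟩ := (FiniteMultiplicity.of_not_isUnit prime_lam.not_isUnit
    hc).exists_eq_pow_mul_and_not_dvd
  obtain ⟨u, hu⟩ := exists_unit_mul_isPrim hm
  set k := multiplicity lam c
  refine ⟨k, ((u⁻¹ : Eisˣ) : Eis), u * m, (u⁻¹).isUnit, hu, ?_⟩
  rw [← mul_assoc ((u⁻¹ : Eisˣ) : Eis), Units.inv_mul, one_mul]
  exact hcm

lemma isPrim_add {d s : Eis} (hd : IsPrim d) (hs : (3 : Eis) ∣ s) : IsPrim (d + s) := by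
  have e : d + s - 1 = (d - 1) + s := by ring
  rw [IsPrim, e]; exact dvd_add hd hs

variable (H : SyFacts)
include H

lemma sy_pow_left (x c : Eis) (hc : IsPrim c) (k : ℕ) (h1 : sy 1 c = 1) :
    sy (x ^ k) c = sy x c ^ k := by
  induction k with
  | zero => simpa using h1
  | succ k ih => rw [pow_succ, H.mul_left _ _ _ hc, ih, pow_succ]

lemma sy_one_left (c : Eis) (hc : IsPrim c) : sy 1 c = 1 := by
  have h1 : sy 1 c ≠ 0 := by
    intro h
    rw [H.eq_zero 1 c hc] at h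
    exact h isCoprime_one_left
  have h2 := H.mul_left 1 1 c hc
  rw [mul_one] at h2
  exact (mul_left_cancel₀ h1 (by rw [mul_one, ← h2]))

/-- `(c/d)` depends on `d` only modulo `9` and modulo the primary part of `c`. -/
lemma sy_congr_right {c d d' : Eis} (hd : IsPrim d) (hd' : IsPrim d') (h9 : (9 : Eis) ∣ d - d')
    (hc : c ∣ d - d') : sy c d = sy c d' := by
  by_cases hc0 : c = 0
  · subst hc0
    have : d = d' := by
      have := zero_dvd_iff.mp hc
      linear_combination this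
    rw [this]
  obtain ⟨k, u, m, hu, hm, rfl⟩ := exists_decomp hc0
  rw [H.mul_left _ _ _ hd, H.mul_left _ _ _ hd', H.mul_left _ _ _ hd, H.mul_left _ _ _ hd',
    sy_pow_left H _ _ hd _ (sy_one_left H _ hd), sy_pow_left H _ _ hd' _ (sy_one_left H _ hd'),
    H.lam9 d d' hd hd' h9, H.unit9 u d d' hu hd hd' h9, H.recip m d hm hd, H.recip m d' hm hd']
  have hmd : m ∣ d - d' := (Dvd.intro_left _ rfl).trans ((Dvd.intro_left _ rfl).trans hc)
  rw [H.congr d d' m hm hmd]

/-- `(c/(d+ct)) = (c/d)` for `3 ∣ c`, `3 ∣ t`. -/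
lemma sy_shift {c d t : Eis} (hc : (3 : Eis) ∣ c) (hd : IsPrim d) (ht : (3 : Eis) ∣ t) :
    sy c (d + c * t) = sy c d := by
  have h9 : (9 : Eis) ∣ c * t := by
    have : (9 : Eis) = 3 * 3 := by norm_num
    rw [this]; exact mul_dvd_mul hc ht
  have h3 : (3 : Eis) ∣ c * t := Dvd.dvd.mul_right hc _
  refine sy_congr_right H (isPrim_add hd h3) hd ?_ ?_
  · simpa using h9
  · simp

/-- the summand of `S(c)`. -/
def fS (c d : Eis) : ℂ := open Classical in if IsPrim d then sy c d else 0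

lemma fS_periodic {c : Eis} (hc : (3 : Eis) ∣ c) : PMod (3 * c) (fS c) := by
  intro x t
  unfold fS
  have h3 : IsPrim (x + 3 * c * t) ↔ IsPrim x := by
    constructor
    · intro h
      have := isPrim_add (s := -(3 * c * t)) h (by
        rw [dvd_neg, mul_assoc]; exact Dvd.intro _ rfl)
      simpa using this
    · intro h
      exact isPrim_add h (by rw [mul_assoc]; exact Dvd.intro _ rfl)
  by_cases hx : IsPrim x
  · rw [if_pos hx, if_pos (h3.mpr hx)]
    have e : x + 3 * c * t = x + c * (3 * t) := by ring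
    rw [e]
    exact sy_shift H hc hx (Dvd.intro _ rfl)
  · rw [if_neg hx, if_neg (fun h => hx (h3.mp h))]

/-- `S(c) = Σ_{d mod 3c, d ≡ 1 (3)} (c/d)_3`. -/
def Ssum (c : Eis) : ℂ := sumMod (3 * c) (fS c)

lemma fS_mul {c b x : Eis} (hb : IsPrim b) : fS c (b * x) = sy c b * fS c x := by
  unfold fS
  by_cases hx : IsPrim x
  · rw [if_pos hx, if_pos (hb.mul hx), H.mul_right c b x hb hx]
  · rw [if_neg hx, if_neg (fun h => hx (h.of_mul_left hb)), mul_zero]

/-- `S(c) = 0` if `3 ∣ c` and `c` is not a cube. -/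
theorem Ssum_eq_zero {c : Eis} (hc0 : c ≠ 0) (hc : (3 : Eis) ∣ c) (hn : ¬ ∃ e, c = e ^ 3) :
    Ssum c = 0 := by
  obtain ⟨b, hb, hcop, hne⟩ := H.nontriv c hc0 hn
  have h3c : (3 * c : Eis) ≠ 0 := mul_ne_zero three_ne_zero' hc0
  have hcop3 : IsCoprime b (3 * c) := hb.isCoprime_three.mul_right hcop.symm
  have h1 := sumMod_mul_coprime h3c (fS_periodic H hc) hcop3
  have h2 : sumMod (3 * c) (fun x => fS c (b * x)) = sy c b * Ssum c := by
    rw [Ssum, ← sumMod_mul_left h3c]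
    exact sumMod_congr fun x => fS_mul H hb
  rw [h2] at h1
  have h3 : (sy c b - 1) * Ssum c = 0 := by
    rw [sub_mul, one_mul, h1, Ssum, sub_self]
  rcases mul_eq_zero.mp h3 with h | h
  · exact absurd (sub_eq_zero.mp h) hne
  · exact h

lemma fS_cube {e d : Eis} : fS (e ^ 3) d =
    open Classical in if IsPrim d ∧ IsCoprime (e ^ 3) d then 1 else 0 := by
  classical
  unfold fS
  by_cases hd : IsPrim d
  · rw [if_pos hd, sy_pow_left H _ _ hd _ (sy_one_left H _ hd)]
    by_cases hc : IsCoprime (e ^ 3) d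
    · have he : IsCoprime e d := (IsCoprime.pow_left_iff (by norm_num)).mp hc
      rw [if_pos ⟨hd, hc⟩, H.cube e d hd he]
    · have he : ¬ IsCoprime e d := fun h => hc h.pow_left
      rw [if_neg (fun h => hc h.2), (H.eq_zero e d hd).mpr he]
      norm_num
  · rw [if_neg hd, if_neg (fun h => hd h.1)]

/-- `S(e^3) = N(e^3) ψ(e^3)`. -/
theorem Ssum_cube {e : Eis} (he : e ≠ 0) :
    Ssum (e ^ 3) = ((nm (e ^ 3) * Count852.psi (e ^ 3) : ℝ) : ℂ) := by
  classical
  have hc : (e ^ 3 : Eis) ≠ 0 := pow_ne_zero _ he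
  have h3c : (3 * e ^ 3 : Eis) ≠ 0 := mul_ne_zero three_ne_zero' hc
  rw [← Count852.ncard_prim_coprime (fun c _ => card_QE c) hc, Ssum]
  have hfin := finite_QE h3c
  let _ := Fintype.ofFinite (QE (3 * e ^ 3))
  unfold sumMod
  rw [finsum_eq_sum_of_fintype]
  simp_rw [fS_cube H]
  rw [Finset.sum_ite, Finset.sum_const_zero, add_zero, Finset.sum_const, nsmul_eq_mul, mul_one,
    ← Set.ncard_coe_finset]
  push_cast
  congr 3
  ext q
  simp

end CharSum852

end Crest.Agent.R012
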