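import Crest.Agent.R012.LS2Spec_381
import Crest.Agent.R012.CharSum_852

/-!
# Row 12 (CR-B): bilinear sums of Gauss sums

From the cubic large sieve `LS2.Final` (hypothesis), the basic facts `CharSum852.SyFacts` on the
cubic symbol and the basic facts `GFacts` on `G`:

* `bil_ls`   : `Σ_{c ∈ S} ‖Σ_{d ∈ T} b d * sy c d‖² ≤ K (CD)^ε (C + D + (CD)^(2/3)) Σ ‖b d‖²`
* `bil_G`    : `‖Σ_{c ∈ S, d ∈ T} g c * h d * G (c*d)‖ ≤ sqrt (K (CD)^ε (..)) ‖g‖ ‖h‖`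
* `bil_sy`, `bil_sy_conj` : the same with `sy c d`, `conj (sy c d)`
* `tupS P γ j F = Σ_{(p₁..pⱼ) ∈ P^j} Π γ(pᵢ) F(Π pᵢ)`, `tup_G`: power saving for
  `F n = G n * sy r n`.
-/

set_option autoImplicit false

noncomputable section

open Finset
open scoped ComplexConjugate

namespace Crest.Agent.R012.BilG811

open Eis

/-- The facts on the normalised Gauss sums that are used. -/
structure GFacts : Prop where
  mul : ∀ c d : Eis, IsPrim c → IsPrim d → IsCoprime c d → G (c * d) = G c * G d * conj (sy c d)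
  nonsq : ∀ c : Eis, IsPrim c → ¬ Squarefree c → G c = 0
  norm_le : ∀ c : Eis, IsPrim c → ‖G c‖ ≤ 1

/-- `C + D + (CD)^(2/3)` with the `ε`-factor. -/
def hbB (ε K C D : ℝ) : ℝ := K * (C * D) ^ ε * (C + D + (C * D) ^ ((2 : ℝ) / 3))

lemma hbB_nonneg {ε K C D : ℝ} (hK : 0 ≤ K) (hC : 0 ≤ C) (hD : 0 ≤ D) : 0 ≤ hbB ε K C D := by
  unfold hbB; positivity

/-- A finite set of squarefree primary elements of norm at most `X`. -/
def Sq (X : ℝ) (S : Finset Eis) : Prop := ∀ n ∈ S, IsPrim n ∧ Squarefree n ∧ (nm n : ℝ) ≤ X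

lemma Sq.subset {X : ℝ} (hX : 0 ≤ X) {S : Finset Eis} (h : Sq X S) : S ⊆ LS2.S X := by
  intro n hn
  rw [LS2.mem_S hX]
  exact ⟨(h n hn).2.2, (h n hn).1, (h n hn).2.1⟩

/-- large sieve for arbitrary finite sets -/
theorem bil_ls (HL : LS2.Final) {ε : ℝ} (hε : 0 < ε) :
    ∃ K : ℝ, 0 < K ∧ ∀ C D : ℝ, 1 ≤ C → 1 ≤ D → ∀ S T : Finset Eis, Sq C S → Sq D T →
      ∀ b : Eis → ℂ, ∑ c ∈ S, ‖∑ d ∈ T, b d * sy c d‖ ^ 2 ≤
        hbB ε K C D * ∑ d ∈ T, ‖b d‖ ^ 2 := by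
  classical
  obtain ⟨K, hK, hHB⟩ := HL ε hε
  refine ⟨K, hK, fun C D hC hD S T hS hT b => ?_⟩
  have hTs : T ⊆ LS2.S D := hT.subset (by linarith)
  have hSs : S ⊆ LS2.S C := hS.subset (by linarith)
  have h := hHB C D hC hD (fun d => if d ∈ T then b d else 0)
  have e1 : ∀ m : Eis, ∑ n ∈ LS2.S D, (if n ∈ T then b n else 0) * sy m n =
      ∑ d ∈ T, b d * sy m d := by
    intro m
    rw [← Finset.sum_subset hTs]
    · apply Finset.sum_congr rfl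
      intro d hd; rw [if_pos hd]
    · intro d _ hd; rw [if_neg hd, zero_mul]
  have e2 : ∑ n ∈ LS2.S D, ‖(if n ∈ T then b n else 0)‖ ^ 2 = ∑ d ∈ T, ‖b d‖ ^ 2 := by
    rw [← Finset.sum_subset hTs]
    · apply Finset.sum_congr rfl
      intro d hd; rw [if_pos hd]
    · intro d _ hd; rw [if_neg hd]; simp
  simp only [e1, e2] at h
  refine le_trans ?_ h
  exact Finset.sum_le_sum_of_subset_of_nonneg hSs (fun _ _ _ => by positivity)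

/-- Cauchy–Schwarz for a bilinear form. -/
lemma norm_bil_le (S : Finset Eis) (g : Eis → ℂ) (F : Eis → ℂ) {Q : ℝ}
    (hF : ∑ c ∈ S, ‖F c‖ ^ 2 ≤ Q) :
    ‖∑ c ∈ S, g c * F c‖ ≤ Real.sqrt (∑ c ∈ S, ‖g c‖ ^ 2) * Real.sqrt Q := by
  calc ‖∑ c ∈ S, g c * F c‖ ≤ ∑ c ∈ S, ‖g c‖ * ‖F c‖ := by
        refine (norm_sum_le _ _).trans (le_of_eq ?_)
        simp
    _ ≤ Real.sqrt (∑ c ∈ S, ‖g c‖ ^ 2) * Real.sqrt (∑ c ∈ S, ‖F c‖ ^ 2) :=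
        Real.sum_mul_le_sqrt_mul_sqrt _ _ _
    _ ≤ _ := by gcongr

/-- bilinear form in `sy c d` -/
theorem bil_sy (HL : LS2.Final) {ε : ℝ} (hε : 0 < ε) :
    ∃ K : ℝ, 0 < K ∧ ∀ C D : ℝ, 1 ≤ C → 1 ≤ D → ∀ S T : Finset Eis, Sq C S → Sq D T →
      ∀ g h : Eis → ℂ, ‖∑ c ∈ S, ∑ d ∈ T, g c * h d * sy c d‖ ≤
        Real.sqrt (∑ c ∈ S, ‖g c‖ ^ 2) * Real.sqrt (hbB ε K C D * ∑ d ∈ T, ‖h d‖ ^ 2) := by
  obtain ⟨K, hK, hls⟩ := bil_ls HL hε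
  refine ⟨K, hK, fun C D hC hD S T hS hT g h => ?_⟩
  have e : ∑ c ∈ S, ∑ d ∈ T, g c * h d * sy c d = ∑ c ∈ S, g c * ∑ d ∈ T, h d * sy c d := by
    apply Finset.sum_congr rfl; intro c _
    rw [Finset.mul_sum]
    apply Finset.sum_congr rfl; intro d _; ring
  rw [e]
  exact norm_bil_le S g _ (hls C D hC hD S T hS hT h)

/-- bilinear form in `conj (sy c d)` -/
theorem bil_sy_conj (HL : LS2.Final) {ε : ℝ} (hε : 0 < ε) :
    ∃ K : ℝ, 0 < K ∧ ∀ C D : ℝ, 1 ≤ C → 1 ≤ D → ∀ S T : Finset Eis, Sq C S → Sq D T →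
      ∀ g h : Eis → ℂ, ‖∑ c ∈ S, ∑ d ∈ T, g c * h d * conj (sy c d)‖ ≤
        Real.sqrt (∑ c ∈ S, ‖g c‖ ^ 2) * Real.sqrt (hbB ε K C D * ∑ d ∈ T, ‖h d‖ ^ 2) := by
  obtain ⟨K, hK, hb⟩ := bil_sy HL hε
  refine ⟨K, hK, fun C D hC hD S T hS hT g h => ?_⟩
  have := hb C D hC hD S T hS hT (fun c => conj (g c)) (fun d => conj (h d))
  simp only [RCLike.norm_conj] at this
  refine le_trans (le_of_eq ?_) this
  rw [← RCLike.norm_conj]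
  congr 1
  simp only [map_sum, map_mul, Complex.conj_conj]

/-- `G (c d) = G c G d conj (sy c d)` for ALL primary `c`, `d` (both sides vanish if `c`, `d` are
not coprime). -/
lemma G_mul (H : CharSum852.SyFacts) (HG : GFacts) {c d : Eis} (hc : IsPrim c) (hd : IsPrim d) :
    G (c * d) = G c * G d * conj (sy c d) := by
  by_cases h : IsCoprime c d
  · exact HG.mul c d hc hd h
  · have h0 : sy c d = 0 := (H.eq_zero c d hd).2 h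
    have hsq : ¬ Squarefree (c * d) := by
      intro hs
      apply h
      exact (squarefree_mul_iff.mp hs).1.isCoprime
    rw [HG.nonsq _ (hc.mul hd) hsq, h0]
    simp

/-- **CR-B.** Bilinear form in `G (c d)`. -/
theorem bil_G (H : CharSum852.SyFacts) (HG : GFacts) (HL : LS2.Final) {ε : ℝ} (hε : 0 < ε) :
    ∃ K : ℝ, 0 < K ∧ ∀ C D : ℝ, 1 ≤ C → 1 ≤ D → ∀ S T : Finset Eis, Sq C S → Sq D T →
      ∀ g h : Eis → ℂ, ‖∑ c ∈ S, ∑ d ∈ T, g c * h d * G (c * d)‖ ≤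
        Real.sqrt (∑ c ∈ S, ‖g c‖ ^ 2) * Real.sqrt (hbB ε K C D * ∑ d ∈ T, ‖h d‖ ^ 2) := by
  obtain ⟨K, hK, hb⟩ := bil_sy_conj HL hε
  refine ⟨K, hK, fun C D hC hD S T hS hT g h => ?_⟩
  have h1 := hb C D hC hD S T hS hT (fun c => g c * G c) (fun d => h d * G d)
  have e : ∑ c ∈ S, ∑ d ∈ T, g c * h d * G (c * d) =
      ∑ c ∈ S, ∑ d ∈ T, (g c * G c) * (h d * G d) * conj (sy c d) := by
    apply Finset.sum_congr rfl; intro c hc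
    apply Finset.sum_congr rfl; intro d hd
    rw [G_mul H HG (hS c hc).1 (hT d hd).1]; ring
  rw [e]
  refine h1.trans ?_
  have hle : ∀ (U : Finset Eis) (X : ℝ) (f : Eis → ℂ), Sq X U →
      ∑ c ∈ U, ‖f c * G c‖ ^ 2 ≤ ∑ c ∈ U, ‖f c‖ ^ 2 := by
    intro U X f hU
    apply Finset.sum_le_sum
    intro c hc
    rw [norm_mul]
    have := HG.norm_le c (hU c hc).1
    have h0 := norm_nonneg (f c)
    have h2 : ‖f c‖ * ‖G c‖ ≤ ‖f c‖ := mul_le_of_le_one_right h0 this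
    gcongr
  have hh := hbB_nonneg (ε := ε) hK.le (by linarith : (0:ℝ) ≤ C) (by linarith : (0:ℝ) ≤ D)
  exact mul_le_mul (Real.sqrt_le_sqrt (hle S C g hS))
    (Real.sqrt_le_sqrt (mul_le_mul_of_nonneg_left (hle T D h hT) hh))
    (Real.sqrt_nonneg _) (Real.sqrt_nonneg _)

/-- twisted version, `r` arbitrary -/
theorem bil_G_tw (H : CharSum852.SyFacts) (HG : GFacts) (HL : LS2.Final) {ε : ℝ} (hε : 0 < ε) :
    ∃ K : ℝ, 0 < K ∧ ∀ C D : ℝ, 1 ≤ C → 1 ≤ D → ∀ S T : Finset Eis, Sq C S → Sq D T →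
      ∀ g h φ ψ : Eis → ℂ, (∀ c ∈ S, ‖φ c‖ ≤ 1) → (∀ d ∈ T, ‖ψ d‖ ≤ 1) →
      ‖∑ c ∈ S, ∑ d ∈ T, g c * h d * (G (c * d) * (φ c * ψ d))‖ ≤
        Real.sqrt (∑ c ∈ S, ‖g c‖ ^ 2) * Real.sqrt (hbB ε K C D * ∑ d ∈ T, ‖h d‖ ^ 2) := by
  obtain ⟨K, hK, hb⟩ := bil_G H HG HL hε
  refine ⟨K, hK, fun C D hC hD S T hS hT g h φ ψ hφ hψ => ?_⟩
  have h1 := hb C D hC hD S T hS hT (fun c => g c * φ c) (fun d => h d * ψ d)
  have e : ∑ c ∈ S, ∑ d ∈ T, g c * h d * (G (c * d) * (φ c * ψ d)) =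
      ∑ c ∈ S, ∑ d ∈ T, (g c * φ c) * (h d * ψ d) * G (c * d) := by
    apply Finset.sum_congr rfl; intro c _
    apply Finset.sum_congr rfl; intro d _; ring
  rw [e]
  refine h1.trans ?_
  have hle : ∀ (U : Finset Eis) (f φ : Eis → ℂ), (∀ c ∈ U, ‖φ c‖ ≤ 1) →
      ∑ c ∈ U, ‖f c * φ c‖ ^ 2 ≤ ∑ c ∈ U, ‖f c‖ ^ 2 := by
    intro U f φ hU
    apply Finset.sum_le_sum
    intro c hc
    rw [norm_mul]
    have h0 := norm_nonneg (f c)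
    have h2 : ‖f c‖ * ‖φ c‖ ≤ ‖f c‖ := mul_le_of_le_one_right h0 (hU c hc)
    gcongr
  have hh := hbB_nonneg (ε := ε) hK.le (by linarith : (0:ℝ) ≤ C) (by linarith : (0:ℝ) ≤ D)
  exact mul_le_mul (Real.sqrt_le_sqrt (hle S g φ hφ))
    (Real.sqrt_le_sqrt (mul_le_mul_of_nonneg_left (hle T h ψ hψ) hh))
    (Real.sqrt_nonneg _) (Real.sqrt_nonneg _)

end Crest.Agent.R012.BilG811
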