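import Crest.Agent.R012.Defs

/-!
# Row 12: the Möbius function on `Eis` (shared definition)

`muE n = (-1)^(number of prime factors)` if `n` is squarefree and `0` otherwise.
API: see `Mob_705.lean` (helper705).
-/

set_option autoImplicit false

noncomputable section

namespace Crest.Agent.R012

open Classical in
/-- The Möbius function on the Eisenstein integers. -/
def muE (n : Eis) : ℤ :=
  if Squarefree n then (-1) ^ Multiset.card (UniqueFactorizationMonoid.factors n) else 0

lemma muE_of_squarefree {n : Eis} (h : Squarefree n) :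
    muE n = (-1) ^ Multiset.card (UniqueFactorizationMonoid.factors n) := by
  rw [muE, if_pos h]

lemma muE_of_not_squarefree {n : Eis} (h : ¬ Squarefree n) : muE n = 0 := by
  rw [muE, if_neg h]

lemma muE_zero : muE 0 = 0 := muE_of_not_squarefree not_squarefree_zero

lemma abs_muE_le (n : Eis) : |muE n| ≤ 1 := by
  by_cases h : Squarefree n
  · rw [muE_of_squarefree h]; simp
  · rw [muE_of_not_squarefree h]; simp

lemma abs_muE_le_real (n : Eis) : |(muE n : ℝ)| ≤ 1 := by
  exact_mod_cast abs_muE_le n

lemma norm_muE_le (n : Eis) : ‖(muE n : ℂ)‖ ≤ 1 := by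
  have h : ((muE n : ℤ) : ℂ) = ((muE n : ℝ) : ℂ) := by push_cast; rfl
  rw [h, Complex.norm_real]
  exact abs_muE_le_real n

end Crest.Agent.R012
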