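import Crest.Agent.R012.Sym5_645
import Crest.Agent.R012.CharSum_852

/-!
# Row 12, R2 (6): nontriviality of `b ↦ (h/b)` for non-cubes `h`; the instances
`SyFacts` (852); `SyAPI` (695) is in `SymK_645`.
-/

set_option autoImplicit false

noncomputable section

open Crest.Agent.R012 Crest.Agent.R012.Eis

namespace Crest.Agent.R012.Sym645

lemma wC_ne_one : wC ≠ 1 := by
  intro h
  have := congrArg Complex.re h
  simp [wC] at this
  norm_num at this

lemma wC_sq_ne_one : wC ^ 2 ≠ 1 := by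
  intro h
  have h3 := wC_cube
  rw [pow_succ, h, one_mul] at h3
  exact wC_ne_one h3

lemma wC_pow_ne_one {n : ℕ} (h : ¬ 3 ∣ n) : wC ^ n ≠ 1 := by
  have : n % 3 = 1 ∨ n % 3 = 2 := by omega
  rcases this with h | h
  · rw [wC_pow_mod n 1 (by omega), pow_one]; exact wC_ne_one
  · rw [wC_pow_mod n 2 (by omega)]; exact wC_sq_ne_one

lemma wC_zpow_ne_one {n : ℤ} (h : ¬ (3 : ℤ) ∣ n) : wC ^ n ≠ 1 := by
  have : n % 3 = 1 ∨ n % 3 = 2 := by omega
  rcases this with h | h
  · rw [wC_zpow_mod n 1 (by omega), zpow_one]; exact wC_ne_one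
  · rw [wC_zpow_mod n 2 (by omega)]
    exact_mod_cast wC_sq_ne_one

lemma cube_or (h : Eis) : h = 0 ∨ (∃ e, Associated (e ^ 3) h) ∨
    ∃ (p : Eis) (n : ℕ) (b : Eis), Prime p ∧ h = p ^ n * b ∧ ¬ p ∣ b ∧ ¬ 3 ∣ n := by
  refine UniqueFactorizationMonoid.induction_on_coprime h ?_ ?_ ?_ ?_
  · exact Or.inl rfl
  · intro x hx
    exact Or.inr (Or.inl ⟨1, by simpa using (associated_one_iff_isUnit.2 hx).symm⟩)
  · intro p i hp
    by_cases hi : 3 ∣ i
    · obtain ⟨j, rfl⟩ := hi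
      refine Or.inr (Or.inl ⟨p ^ j, ?_⟩)
      rw [← pow_mul, mul_comm]
    · refine Or.inr (Or.inr ⟨p, i, 1, hp, by simp, ?_, hi⟩)
      intro h1
      exact hp.not_isUnit (isUnit_of_dvd_one h1)
  · intro x y hxy hx hy
    rcases hx with rfl | ⟨e, he⟩ | ⟨p, n, b, hp, rfl, hb, hn⟩
    · left; simp
    · rcases hy with rfl | ⟨f, hf⟩ | ⟨p, n, b, hp, rfl, hb, hn⟩
      · left; simp
      · refine Or.inr (Or.inl ⟨e * f, ?_⟩)
        rw [mul_pow]
        exact he.mul_mul hf
      · refine Or.inr (Or.inr ⟨p, n, x * b, hp, by ring, ?_, hn⟩)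
        intro hd
        rcases hp.dvd_or_dvd hd with hd | hd
        · have hn0 : n ≠ 0 := by rintro rfl; exact hn (dvd_zero _)
          exact hp.not_isUnit (hxy hd ((dvd_pow_self p hn0).mul_right b))
        · exact hb hd
    · by_cases hy0 : y = 0
      · left; simp [hy0]
      · refine Or.inr (Or.inr ⟨p, n, b * y, hp, by ring, ?_, hn⟩)
        intro hd
        rcases hp.dvd_or_dvd hd with hd | hd
        · exact hb hd
        · have hn0 : n ≠ 0 := by rintro rfl; exact hn (dvd_zero _)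
          exact hp.not_isUnit (hxy ((dvd_pow_self p hn0).mul_right b) hd)

/-- The chinese remainder theorem. -/
lemma crt {a b : Eis} (h : IsCoprime a b) (x y : Eis) : ∃ z, a ∣ z - x ∧ b ∣ z - y := by
  obtain ⟨u, v, huv⟩ := h
  refine ⟨x * (v * b) + y * (u * a), ⟨u * (y - x), ?_⟩, ⟨v * (x - y), ?_⟩⟩
  · linear_combination x * huv
  · linear_combination y * huv

/-- For `b ≡ 1 (mod 9)`: `(c/b) = (b/c)` for every `c` prime to `3`. -/
lemma sy_reciprocity_nine {b c : Eis} (hb : (9 : Eis) ∣ b - 1) (hc : nm c % 3 = 1) :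
    sy c b = sy b c := by
  have hbp : IsPrim b := Dvd.dvd.trans ⟨3, by norm_num⟩ hb
  have hb3 := prim_nm_mod hbp
  obtain ⟨u, hu, hp⟩ := exists_unit_prim hc
  have h1 : sy u b = 1 := by
    rw [sy_unit_congr hu hbp prim_one hb, sy_unit_right _ isUnit_one]
  have h2 : sy (u * c) b = sy b (u * c) := sy_reciprocity hp hbp
  rw [sy_mul_left hb3, h1, one_mul, sy_assoc_right b (associated_unit_mul_left c u hu)] at h2
  exact h2

lemma exists_sy_ne_one {h : Eis} (h0 : h ≠ 0) (hh : ¬ ∃ e, h = e ^ 3) :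
    ∃ b, IsPrim b ∧ IsCoprime h b ∧ sy h b ≠ 1 := by
  suffices hmain : ∃ b, IsPrim b ∧ sy h b ≠ 0 ∧ sy h b ≠ 1 by
    obtain ⟨b, hb, hb0, hb1⟩ := hmain
    refine ⟨b, hb, ?_, hb1⟩
    by_contra hc
    exact hb0 ((sy_eq_zero_iff (prim_nm_mod hb)).2 hc)
  obtain ⟨k, u, m, hu, hm, hdec⟩ := exists_lam_decomp h0
  have hm3 := prim_nm_mod hm
  rcases cube_or m with hm0 | ⟨e, v, hv⟩ | ⟨p, n, c, hp, hmc, hpc, hn⟩
  · exact absurd hm0 (prim_ne_zero hm)
  · -- `m` is a cube up to a unit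
    have he3 : nm e % 3 = 1 := by
      have h1 : nm (e ^ 3 * v) % 3 = 1 := by rw [hv]; exact hm3
      have h2 := (nm_mod_of_mul h1).1
      have h3 : nm (e * e ^ 2) % 3 = 1 := by rw [← pow_succ']; exact h2
      exact (nm_mod_of_mul h3).1
    obtain ⟨i, hi3, hi⟩ := isUnit_exists (hu.mul v.isUnit)
    have hcop9 : IsCoprime 9 e := by
      have h1 : IsCoprime e lam := isCoprime_lam_iff.2 (nm_mod_eq_one_iff.1 he3)
      have h2 : (9 : Eis) = w ^ 4 * lam ^ 4 := by
        have : (9 : Eis) = 3 * 3 := by norm_num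
        rw [this, three_eq]; ring
      rw [h2]
      refine IsCoprime.mul_left ?_ (h1.symm.pow_left)
      exact isCoprime_unit_left (isUnit_w.pow 4)
    -- the value at `b`
    have hval : ∀ b0 : Eis, IsPrim b0 → ∃ b, IsPrim b ∧
        sy h b = sy lam b0 ^ k * sy w b0 ^ i := by
      intro b0 hb0
      obtain ⟨b, hb1, hb2⟩ := crt hcop9 b0 1
      have hbp : IsPrim b := by
        have h1 : (3 : Eis) ∣ b - b0 := Dvd.dvd.trans ⟨3, by norm_num⟩ hb1
        have h2 := dvd_add h1 hb0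
        have h3 : b - b0 + (b0 - 1) = b - 1 := by ring
        rw [h3] at h2
        exact h2
      have hb3 := prim_nm_mod hbp
      refine ⟨b, hbp, ?_⟩
      have h4 : IsCoprime e b := by
        obtain ⟨t, ht⟩ := hb2
        exact ⟨-t, 1, by linear_combination ht⟩
      have h5 : h = lam ^ k * ((u * v) * e ^ 3) := by rw [hdec, ← hv]; ring
      rw [h5, sy_mul_left hb3, sy_mul_left hb3, sy_pow_left hb3, sy_pow_left hb3, sy_cube hb3 h4,
        mul_one, sy_lam_congr hbp hb0 hb1, sy_unit_congr (hu.mul v.isUnit) hbp hb0 hb1,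
        sy_unit_left (prim_nm_mod hb0) i hi]
    by_cases hi0 : i = 0
    · subst hi0
      have hk : ¬ 3 ∣ k := by
        rintro ⟨j, rfl⟩
        apply hh
        rcases hi with hi | hi
        · refine ⟨lam ^ j * e, ?_⟩
          rw [hdec, ← hv, mul_pow, ← pow_mul]
          linear_combination (lam ^ (3 * j) * e ^ 3) * hi
        · refine ⟨-(lam ^ j * e), ?_⟩
          have h6 : (-(lam ^ j * e)) ^ 3 = -(lam ^ (3 * j) * e ^ 3) := by
            rw [mul_comm 3 j, pow_mul]; ring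
          rw [hdec, ← hv, h6]
          linear_combination (lam ^ (3 * j) * e ^ 3) * hi
      have h4p : IsPrim 4 := ⟨1, by ring⟩
      obtain ⟨b, hb, hbv⟩ := hval 4 h4p
      refine ⟨b, hb, ?_⟩
      rw [hbv, sy_lam h4p]
      have : ((4 : Eis).re - 1) / 3 = 1 := by rfl
      rw [this, zpow_one, pow_zero, mul_one]
      exact ⟨pow_ne_zero _ wC_ne_zero, wC_pow_ne_one hk⟩
    · have hp1 : IsPrim (1 + 3 * w) := ⟨w, by ring⟩
      obtain ⟨b, hb, hbv⟩ := hval _ hp1
      refine ⟨b, hb, ?_⟩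
      have e1 : ((1 + 3 * w : Eis).re - 1) / 3 = 0 := by rfl
      have e2 : -(0 + (1 + 3 * w : Eis).im / 3) = -1 := by rfl
      rw [hbv, sy_lam hp1, sy_w_prim hp1, e1, zpow_zero, one_pow, one_mul, e2, ← zpow_natCast,
        ← zpow_mul]
      exact ⟨zpow_ne_zero _ wC_ne_zero, wC_zpow_ne_one (by omega)⟩
  · have hn0 : n ≠ 0 := by rintro rfl; exact hn (dvd_zero _)
    have hmn : nm (p ^ n * c) % 3 = 1 := hmc ▸ hm3
    obtain ⟨hpn, hc3⟩ := nm_mod_of_mul hmn
    have hp3 : nm p % 3 = 1 := by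
      obtain ⟨j, rfl⟩ := Nat.exists_eq_succ_of_ne_zero hn0
      rw [Nat.succ_eq_add_one, pow_succ'] at hpn
      exact (nm_mod_of_mul hpn).1
    have : Fact (Prime p) := ⟨hp⟩
    obtain ⟨x, hx⟩ := exists_cu_eq_w hp3
    have hcop : IsCoprime (9 * c) p := by
      apply IsCoprime.symm
      apply isCoprime_of_prime_not_dvd hp
      intro hd
      rcases hp.dvd_or_dvd hd with hd | hd
      · have h9 : p ∣ 3 * 3 := by
          have : (3 * 3 : Eis) = 9 := by norm_num
          rw [this]; exact hd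
        have h3 : p ∣ 3 := (hp.dvd_or_dvd h9).elim id id
        rw [three_eq] at h3
        have hl : p ∣ lam := by
          rcases hp.dvd_or_dvd h3 with h3 | h3
          · exact absurd (isUnit_of_dvd_unit h3 ((isUnit_w.pow 2).neg)) hp.not_isUnit
          · exact hp.dvd_of_dvd_pow h3
        exact not_dvd_of_nm_three hp hp3 nm_one_sub_w hl
      · exact hpc hd
    obtain ⟨b, hb1, hb2⟩ := crt hcop 1 x
    have hb9 : (9 : Eis) ∣ b - 1 := (dvd_mul_right _ _).trans hb1
    have hbp : IsPrim b := Dvd.dvd.trans ⟨3, by norm_num⟩ hb9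
    have hb3 := prim_nm_mod hbp
    have hc1 : sy c b = 1 := by
      rw [sy_reciprocity_nine hb9 hc3, sy_congr hc3 (y := 1) ((dvd_mul_left _ _).trans hb1),
        sy_one_left hc3]
    have hp1 : sy p b = wC := by
      rw [sy_reciprocity_nine hb9 hp3, sy_prime_cu _ hp, cu_congr hp hp3 hb2, hx, toC_w]
    refine ⟨b, hbp, ?_⟩
    rw [hdec, hmc, sy_mul_left hb3, sy_mul_left hb3, sy_mul_left hb3, sy_pow_left hb3,
      sy_pow_left hb3, hc1, hp1, sy_lam_congr hbp prim_one hb9,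
      sy_unit_congr hu hbp prim_one hb9, sy_unit_right _ isUnit_one, sy_unit_right _ isUnit_one,
      one_pow, one_mul, one_mul, mul_one]
    exact ⟨pow_ne_zero _ wC_ne_zero, wC_pow_ne_one hn⟩

theorem syFacts : CharSum852.SyFacts where
  mul_left x y _ hc := sy_mul_left (prim_nm_mod hc) x y
  mul_right x _ _ hc hd := sy_mul_right x (prim_ne_zero hc) (prim_ne_zero hd)
  congr _ _ _ hc h := sy_congr (prim_nm_mod hc) h
  eq_zero _ _ hc := sy_eq_zero_iff (prim_nm_mod hc)
  cube _ _ hc h := sy_cube (prim_nm_mod hc) h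
  recip _ _ ha hb := sy_reciprocity ha hb
  unit9 _ _ _ hu hd hd' h := sy_unit_congr hu hd hd' h
  lam9 _ _ hd hd' h := sy_lam_congr hd hd' h
  nontriv _ h0 hh := exists_sy_ne_one h0 hh

end Crest.Agent.R012.Sym645
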