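import Crest.Agent.R012.Sym3_645

/-!
# Row 12, R2 (4): the symbol `sy`: multiplicativity, periodicity, reciprocity
-/

set_option autoImplicit false

noncomputable section

open Crest.Agent.R012 Crest.Agent.R012.Eis

namespace Crest.Agent.R012.Sym645

/-! ### primary elements -/

lemma three_re : (3 : Eis).re = 3 := rfl
lemma three_im : (3 : Eis).im = 0 := rfl

lemma three_dvd_iff {z : Eis} : (3 : Eis) ∣ z ↔ (3 ∣ z.re ∧ 3 ∣ z.im) := by
  constructor
  · rintro ⟨s, rfl⟩
    rw [re_mul', im_mul', three_re, three_im]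
    constructor
    · exact ⟨s.re, by ring⟩
    · exact ⟨s.im, by ring⟩
  · rintro ⟨⟨s, hs⟩, ⟨t, ht⟩⟩
    refine ⟨⟨s, t⟩, ?_⟩
    apply ext'
    · rw [re_mul', three_re, three_im, hs]; ring
    · rw [im_mul', three_re, three_im, ht]; ring

lemma isPrim_iff {z : Eis} : IsPrim z ↔ (z.re % 3 = 1 ∧ z.im % 3 = 0) := by
  unfold IsPrim
  rw [three_dvd_iff, QuadraticAlgebra.re_sub, QuadraticAlgebra.im_sub, one_re', one_im']
  omega

lemma exists_unit_prim {x : Eis} (h : nm x % 3 = 1) :
    ∃ u : Eis, IsUnit u ∧ IsPrim (u * x) := by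
  have hx := nm_cast x
  have hx' : (x.re ^ 2 - x.re * x.im + x.im ^ 2) % 3 = 1 := by
    rw [← hx]; exact_mod_cast h
  have h1 : x.re % 3 = 0 ∨ x.re % 3 = 1 ∨ x.re % 3 = 2 := by omega
  have h2 : x.im % 3 = 0 ∨ x.im % 3 = 1 ∨ x.im % 3 = 2 := by omega
  have uw := isUnit_w
  rcases h1 with h1 | h1 | h1 <;> rcases h2 with h2 | h2 | h2
  · exfalso
    simp [pow_two, Int.add_emod, Int.sub_emod, Int.mul_emod, h1, h2] at hx'
  · refine ⟨w ^ 2, uw.pow 2, ?_⟩
    rw [isPrim_iff, w_sq, re_mul', im_mul']; simp; omega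
  · refine ⟨-w ^ 2, (uw.pow 2).neg, ?_⟩
    rw [isPrim_iff, w_sq, re_mul', im_mul']; simp; omega
  · refine ⟨1, isUnit_one, ?_⟩
    rw [isPrim_iff, re_mul', im_mul']; simp; omega
  · refine ⟨-w, uw.neg, ?_⟩
    rw [isPrim_iff, re_mul', im_mul']; simp; omega
  · exfalso
    simp [pow_two, Int.add_emod, Int.sub_emod, Int.mul_emod, h1, h2] at hx'
  · refine ⟨-1, isUnit_one.neg, ?_⟩
    rw [isPrim_iff, re_mul', im_mul']; simp; omega
  · exfalso
    simp [pow_two, Int.add_emod, Int.sub_emod, Int.mul_emod, h1, h2] at hx'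
  · refine ⟨w, uw, ?_⟩
    rw [isPrim_iff, re_mul', im_mul']; simp; omega

lemma prim_unit_eq_one {u : Eis} (hu : IsUnit u) (hp : IsPrim u) : u = 1 := by
  rw [isPrim_iff] at hp
  have e2 : w ^ 2 = (⟨-1, -1⟩ : Eis) := by
    rw [w_sq]; apply ext' <;> simp
  rcases isUnit_cases hu with h | h | h | h | h | h
  · exact h
  all_goals
    exfalso
    rw [h] at hp
    try rw [e2] at hp
    simp at hp

lemma prim_of_mul_left {a b : Eis} (ha : IsPrim a) (hab : IsPrim (a * b)) : IsPrim b := by
  obtain ⟨s, hs⟩ := ha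
  obtain ⟨t, ht⟩ := hab
  exact ⟨t - s * b, by linear_combination ht - b * hs⟩

/-- Induction on primary elements through primary primes. -/
@[elab_as_elim]
theorem prim_induction {P : Eis → Prop} (h1 : P 1)
    (hmul : ∀ p b, Prime p → IsPrim p → IsPrim b → P b → P (p * b))
    {b : Eis} (hb : IsPrim b) : P b := by
  have key : ∀ n : ℕ, ∀ b, nm b = n → IsPrim b → P b := by
    intro n
    induction n using Nat.strong_induction_on with
    | _ n ih =>
      intro b hb hprim
      by_cases hu : IsUnit b
      · rw [prim_unit_eq_one hu hprim]; exact h1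
      · obtain ⟨q, hq, c, hc⟩ := WfDvdMonoid.exists_irreducible_factor hu (prim_ne_zero hprim)
        have hq' : Prime q := hq.prime
        have hn := prim_nm_mod hprim
        rw [hc] at hn
        obtain ⟨hq3, -⟩ := nm_mod_of_mul hn
        obtain ⟨u, hu1, hu2⟩ := exists_unit_prim hq3
        have hpp : Prime (u * q) := (Associated.prime_iff
          (associated_unit_mul_left q u hu1)).2 hq'
        obtain ⟨v, hv⟩ := hu1.exists_left_inv
        have hb2 : b = (u * q) * (v * c) := by
          rw [hc]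
          linear_combination (-q * c) * hv
        have hprim' : IsPrim (v * c) := prim_of_mul_left hu2 (hb2 ▸ hprim)
        have hlt : nm (v * c) < n := by
          have h5 : nm b = nm (u * q) * nm (v * c) := by rw [← nm_mul, ← hb2]
          rw [hb] at h5
          have h6 := one_lt_nm_of_prime hpp
          have h7 : 0 < nm (v * c) := nm_pos.2 (prim_ne_zero hprim')
          nlinarith
        rw [hb2]
        exact hmul _ _ hpp hu2 hprim' (ih _ hlt _ rfl hprim')
  exact key _ b rfl hb

/-! ### the symbol -/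

lemma sy0_assoc {x p q : Eis} (h : Associated p q) : sy0 x p = sy0 x q := by
  rw [← toC_cu, ← toC_cu, cu_assoc h]

lemma prod_rel {x : Eis} {s t : Multiset Eis} (h : Multiset.Rel Associated s t) :
    (s.map (fun p => sy0 x p)).prod = (t.map (fun p => sy0 x p)).prod := by
  induction h with
  | zero => rfl
  | cons hab _ ih =>
    simp only [Multiset.map_cons, Multiset.prod_cons]
    rw [sy0_assoc hab, ih]

lemma sy_mul_right (x : Eis) {a b : Eis} (ha : a ≠ 0) (hb : b ≠ 0) :
    sy x (a * b) = sy x a * sy x b := by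
  unfold sy
  rw [prod_rel (UniqueFactorizationMonoid.factors_mul ha hb), Multiset.map_add, Multiset.prod_add]

lemma sy_assoc_right (x : Eis) {a b : Eis} (h : Associated a b) : sy x a = sy x b := by
  by_cases ha : a = 0
  · subst ha
    rw [(associated_zero_iff_eq_zero b).1 h.symm]
  unfold sy
  refine prod_rel (UniqueFactorizationMonoid.factors_unique ?_ ?_ ?_)
  · exact fun _ => UniqueFactorizationMonoid.irreducible_of_factor _
  · exact fun _ => UniqueFactorizationMonoid.irreducible_of_factor _
  · have hb : b ≠ 0 := by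
      rintro rfl
      exact ha ((associated_zero_iff_eq_zero a).1 h)
    exact (UniqueFactorizationMonoid.factors_prod ha).trans
      (h.trans (UniqueFactorizationMonoid.factors_prod hb).symm)

@[simp] lemma sy_one_right (x : Eis) : sy x 1 = 1 := by
  unfold sy
  rw [UniqueFactorizationMonoid.factors_one]
  simp

lemma sy_unit_right (x : Eis) {u : Eis} (hu : IsUnit u) : sy x u = 1 := by
  rw [sy_assoc_right x (associated_one_iff_isUnit.2 hu), sy_one_right]

lemma sy_prime (x : Eis) {p : Eis} (hp : Prime p) : sy x p = sy0 x p := by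
  have h : Multiset.Rel Associated (UniqueFactorizationMonoid.factors p) {p} := by
    refine UniqueFactorizationMonoid.factors_unique ?_ ?_ ?_
    · exact fun _ => UniqueFactorizationMonoid.irreducible_of_factor _
    · intro q hq
      rw [Multiset.mem_singleton.1 hq]; exact hp.irreducible
    · rw [Multiset.prod_singleton]
      exact UniqueFactorizationMonoid.factors_prod hp.ne_zero
  unfold sy
  rw [prod_rel h]
  simp

lemma sy_prime_cu (x : Eis) {p : Eis} (hp : Prime p) : sy x p = toC (cu x p) := by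
  rw [sy_prime x hp, toC_cu]

/-- Reduction of statements about `sy · c`, `c` prime to three, to primary primes. -/
@[elab_as_elim]
theorem coprime_induction {P : Eis → Prop} (h1 : P 1)
    (hassoc : ∀ a b, Associated a b → P a → P b)
    (hmul : ∀ p b, Prime p → IsPrim p → IsPrim b → P b → P (p * b))
    {c : Eis} (hc : nm c % 3 = 1) : P c := by
  obtain ⟨u, hu, hprim⟩ := exists_unit_prim hc
  exact hassoc _ _ (associated_unit_mul_left c u hu) (prim_induction h1 hmul hprim)

lemma sy_mul_left {c : Eis} (hc : nm c % 3 = 1) (x y : Eis) :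
    sy (x * y) c = sy x c * sy y c := by
  refine coprime_induction ?_ ?_ ?_ hc
  · simp
  · intro a b hab h
    rw [← sy_assoc_right _ hab, ← sy_assoc_right _ hab, ← sy_assoc_right _ hab, h]
  · intro p b hp hpp hb h
    have hb0 := prim_ne_zero hb
    rw [sy_mul_right _ hp.ne_zero hb0, sy_mul_right _ hp.ne_zero hb0,
      sy_mul_right _ hp.ne_zero hb0, h, sy_prime_cu _ hp, sy_prime_cu _ hp, sy_prime_cu _ hp,
      cu_mul hp (prim_nm_mod hpp), map_mul]
    ring

lemma sy_congr {c x y : Eis} (hc : nm c % 3 = 1) (h : c ∣ x - y) : sy x c = sy y c := by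
  revert h
  refine coprime_induction ?_ ?_ ?_ hc
  · simp
  · intro a b hab h hd
    rw [← sy_assoc_right _ hab, ← sy_assoc_right _ hab, h (hab.dvd.trans hd)]
  · intro p b hp hpp hb h hd
    have hb0 := prim_ne_zero hb
    rw [sy_mul_right _ hp.ne_zero hb0, sy_mul_right _ hp.ne_zero hb0,
      h ((dvd_mul_left b p).trans hd), sy_prime_cu _ hp, sy_prime_cu _ hp,
      cu_congr hp (prim_nm_mod hpp) ((dvd_mul_right p b).trans hd)]

@[simp] lemma sy_one_left {c : Eis} (hc : nm c % 3 = 1) : sy 1 c = 1 := by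
  refine coprime_induction ?_ ?_ ?_ hc
  · simp
  · intro a b hab h
    rw [← sy_assoc_right _ hab, h]
  · intro p b hp hpp hb h
    rw [sy_mul_right _ hp.ne_zero (prim_ne_zero hb), h, sy_prime_cu _ hp,
      cu_one hp (prim_nm_mod hpp)]
    simp

lemma sy_neg {c : Eis} (hc : nm c % 3 = 1) (x : Eis) : sy (-x) c = sy x c := by
  refine coprime_induction ?_ ?_ ?_ hc
  · simp
  · intro a b hab h
    rw [← sy_assoc_right _ hab, ← sy_assoc_right _ hab, h]
  · intro p b hp hpp hb h
    rw [sy_mul_right _ hp.ne_zero (prim_ne_zero hb), sy_mul_right _ hp.ne_zero (prim_ne_zero hb),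
      h, sy_prime_cu _ hp, sy_prime_cu _ hp, cu_neg hp (prim_nm_mod hpp)]

lemma sy_pow_left {c : Eis} (hc : nm c % 3 = 1) (x : Eis) (n : ℕ) :
    sy (x ^ n) c = sy x c ^ n := by
  induction n with
  | zero => simp [sy_one_left hc]
  | succ n ih => rw [pow_succ, sy_mul_left hc, ih, pow_succ]

lemma sy_pow_right (x : Eis) {c : Eis} (hc : c ≠ 0) (n : ℕ) :
    sy x (c ^ n) = sy x c ^ n := by
  induction n with
  | zero => simp
  | succ n ih => rw [pow_succ, sy_mul_right x (pow_ne_zero n hc) hc, ih, pow_succ]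

/-- The cube of the symbol. -/
lemma sy_cube {c x : Eis} (hc : nm c % 3 = 1) (hx : IsCoprime x c) : sy x c ^ 3 = 1 := by
  revert hx
  refine coprime_induction ?_ ?_ ?_ hc
  · simp
  · intro a b hab h hx
    rw [← sy_assoc_right _ hab]
    refine h ?_
    obtain ⟨u, rfl⟩ := hab
    exact (isCoprime_mul_unit_right_right u.isUnit x a).1 hx
  · intro p b hp hpp hb h hx
    have h1 : IsCoprime x p := hx.of_mul_right_left
    have h2 : IsCoprime x b := hx.of_mul_right_right
    have hnd : ¬ p ∣ x := fun hd => hp.not_isUnit (h1.isUnit_of_dvd' hd dvd_rfl)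
    rw [sy_mul_right _ hp.ne_zero (prim_ne_zero hb), mul_pow, h h2, sy_prime_cu _ hp, ← map_pow,
      cu_cube hnd]
    simp

lemma sy_eq_zero_iff {c x : Eis} (hc : nm c % 3 = 1) : sy x c = 0 ↔ ¬ IsCoprime x c := by
  constructor
  · intro h hx
    have := sy_cube hc hx
    rw [h] at this
    simp at this
  · refine coprime_induction ?_ ?_ ?_ hc
    · intro h
      exact absurd isCoprime_one_right h
    · intro a b hab h hx
      rw [← sy_assoc_right _ hab]
      refine h ?_
      intro h2
      apply hx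
      obtain ⟨u, rfl⟩ := hab
      exact (isCoprime_mul_unit_right_right u.isUnit x a).2 h2
    · intro p b hp hpp hb h hx
      rw [sy_mul_right _ hp.ne_zero (prim_ne_zero hb)]
      by_cases hpx : p ∣ x
      · rw [sy_prime_cu _ hp, cu_of_dvd hpx]; simp
      · have h1 : IsCoprime x p := (isCoprime_of_prime_not_dvd hp hpx).symm
        have h2 : ¬ IsCoprime x b := fun h2 => hx (h1.mul_right h2)
        rw [h h2, mul_zero]

lemma norm_sy_of_isCoprime {c x : Eis} (hc : nm c % 3 = 1) (hx : IsCoprime x c) :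
    ‖sy x c‖ = 1 := by
  have h := congrArg norm (sy_cube hc hx)
  rw [norm_pow, norm_one] at h
  exact (pow_eq_one_iff_of_nonneg (norm_nonneg _) (by norm_num)).1 h

lemma norm_sy_le_one {c : Eis} (hc : nm c % 3 = 1) (x : Eis) : ‖sy x c‖ ≤ 1 := by
  by_cases hx : IsCoprime x c
  · exact (norm_sy_of_isCoprime hc hx).le
  · rw [(sy_eq_zero_iff hc).2 hx]; simp

/-! ### reciprocity -/

lemma nm_dvd_nm {a b : Eis} (h : a ∣ b) : nm a ∣ nm b := by
  obtain ⟨t, rfl⟩ := h
  rw [nm_mul]; exact dvd_mul_right _ _

lemma not_dvd_of_coprime_nm {p x : Eis} (hp : Prime p) (h : Nat.Coprime (nm p) (nm x)) :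
    ¬ p ∣ x := by
  intro hd
  exact nm_ne_one_of_prime hp (Nat.Coprime.eq_one_of_dvd h (nm_dvd_nm hd))

/-- Reciprocity for primary primes with coprime norms. -/
theorem cu_reciprocity {p q : Eis} (hp : Prime p) (hq : Prime q) (hpp : IsPrim p) (hqp : IsPrim q)
    (hcop : Nat.Coprime (nm p) (nm q)) : cu p q = cu q p := by
  have hp3 := prim_nm_mod hpp
  have hq3 := prim_nm_mod hqp
  have e1 := prime_identity hp hq hpp hq3 hcop
  have e2 := prime_identity hq hp hqp hp3 hcop.symm
  rw [← mul_conj q, ← mul_conj p, cu_mul hp hp3, cu_mul hq hq3, cu_mul hq hq3] at e1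
  rw [← mul_conj q, ← mul_conj p, cu_mul hq hq3, cu_mul hp hp3, cu_mul hp hp3] at e2
  have hne : cu p q * cu (Eis.conj p) q * (cu q p * cu (Eis.conj q) p) ≠ 0 := by
    intro h
    have : (1 : Eis) = 0 := by
      rw [← e1]
      linear_combination (cu p q) * h
    exact one_ne_zero this
  refine mul_right_cancel₀ hne ?_
  linear_combination e1 - e2

/-- Reciprocity for primary elements with coprime norms. -/
theorem sy_reciprocity_of_coprime_nm {a b : Eis} (ha : IsPrim a) (hb : IsPrim b)
    (hcop : Nat.Coprime (nm a) (nm b)) : sy a b = sy b a := by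
  revert hb hcop
  refine prim_induction ?_ ?_ ha
  · intro hb _
    rw [sy_one_left (prim_nm_mod hb), sy_one_right]
  · intro p a hp hpp ha iha hb hcop
    rw [nm_mul] at hcop
    have hc1 : Nat.Coprime (nm p) (nm b) := hcop.coprime_mul_right
    have hc2 : Nat.Coprime (nm a) (nm b) := hcop.coprime_mul_left
    rw [sy_mul_left (prim_nm_mod hb), sy_mul_right _ hp.ne_zero (prim_ne_zero ha), iha hb hc2]
    congr 1
    clear hcop hc2 iha
    revert hc1
    refine prim_induction ?_ ?_ hb
    · intro _
      rw [sy_one_right, sy_one_left (prim_nm_mod hpp)]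
    · intro q b hq hqp hb ihb hc
      rw [nm_mul] at hc
      have hd1 : Nat.Coprime (nm p) (nm q) := hc.coprime_mul_right_right
      have hd2 : Nat.Coprime (nm p) (nm b) := hc.coprime_mul_left_right
      rw [sy_mul_left (prim_nm_mod hpp), sy_mul_right _ hq.ne_zero (prim_ne_zero hb), ihb hd2,
        sy_prime_cu p hq, sy_prime_cu q hp, cu_reciprocity hp hq hpp hqp hd1]


/-! ### the conjugate case -/

lemma conj_prime {p : Eis} (hp : Prime p) : Prime (Eis.conj p) := by
  have h : Irreducible (Eis.conj p) := by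
    rw [irreducible_iff]
    constructor
    · intro hu
      have : nm (Eis.conj p) = 1 := isUnit_iff.1 hu
      rw [nm_conj] at this
      exact nm_ne_one_of_prime hp this
    · intro a b hab
      have h1 : p = Eis.conj a * Eis.conj b := by
        rw [← conj_mul, ← hab, conj_conj]
      rcases hp.irreducible.isUnit_or_isUnit h1 with h | h
      · left; rw [isUnit_iff] at h ⊢; rwa [nm_conj] at h
      · right; rw [isUnit_iff] at h ⊢; rwa [nm_conj] at h
  exact h.prime

lemma conj_prim {a : Eis} (ha : IsPrim a) : IsPrim (Eis.conj a) := by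
  rw [isPrim_iff] at ha ⊢
  simp only [conj_re, conj_im]
  omega

lemma sy_conj {c : Eis} (hc : nm c % 3 = 1) (x : Eis) :
    sy (Eis.conj x) (Eis.conj c) = (starRingEnd ℂ) (sy x c) := by
  refine coprime_induction ?_ ?_ ?_ hc
  · simp
  · intro a b hab h
    have hab' : Associated (Eis.conj a) (Eis.conj b) := by
      obtain ⟨u, rfl⟩ := hab
      rw [conj_mul]
      refine associated_mul_unit_right _ _ ?_
      rw [isUnit_iff, nm_conj]
      exact isUnit_iff.1 u.isUnit
    rw [← sy_assoc_right _ hab', ← sy_assoc_right _ hab, h]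
  · intro p b hp hpp hb h
    have hb0 := prim_ne_zero hb
    have hb0' := prim_ne_zero (conj_prim hb)
    have hp' := conj_prime hp
    rw [conj_mul, sy_mul_right _ hp'.ne_zero hb0', sy_mul_right _ hp.ne_zero hb0, h, map_mul,
      sy_prime_cu _ hp', sy_prime_cu _ hp, cu_conj hp (prim_nm_mod hpp) hp', toC_conj]

/-- A prime which does not divide its conjugate has prime norm coprime to ... -/
lemma sy_conj_self {p : Eis} (hp : Prime p) (hpp : IsPrim p) (hne : ¬ p ∣ Eis.conj p) :
    sy (Eis.conj p) p = 1 := by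
  have hp3 := prim_nm_mod hpp
  -- `t = p + conj p` is a rational integer, `-t` is primary
  set t : Eis := p + Eis.conj p with ht
  have htc : Eis.conj t = t := by
    rw [ht, conj_add, conj_conj, add_comm]
  have hprim : IsPrim (-t) := by
    rw [isPrim_iff] at hpp ⊢
    simp only [ht, QuadraticAlgebra.re_neg, QuadraticAlgebra.im_neg, QuadraticAlgebra.re_add,
      QuadraticAlgebra.im_add, conj_re, conj_im]
    omega
  have hcop : ¬ p ∣ t := by
    intro h
    apply hne
    have := dvd_sub h (dvd_refl p)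
    rwa [ht, add_sub_cancel_left] at this
  have hcop' : ¬ Eis.conj p ∣ t := by
    intro h
    apply hcop
    have := conj_dvd_conj h
    rwa [conj_conj, htc] at this
  have hnm : Nat.Coprime (nm p) (nm (-t)) := by
    rw [nm_neg]
    by_contra h
    obtain ⟨l, hl, h1, h2⟩ := Nat.Prime.not_coprime_iff_dvd.1 h
    -- `l` divides `nm t`; a prime factor argument
    have h3 : (nm p : Eis) = p * Eis.conj p := (mul_conj p).symm
    have h4 : ((l : ℕ) : Eis) ∣ p * Eis.conj p := by
      rw [← h3]; exact_mod_cast Nat.cast_dvd_cast h1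
    have hlu : ¬ IsUnit ((l : ℕ) : Eis) := by
      rw [isUnit_iff, nm_natCast]
      have := hl.one_lt
      intro h; nlinarith
    obtain ⟨q, hq, hql⟩ := WfDvdMonoid.exists_irreducible_factor hlu
      (by exact_mod_cast hl.ne_zero : ((l : ℕ) : Eis) ≠ 0)
    have hq' := hq.prime
    -- q divides p * conj p, hence q ~ p or q ~ conj p
    have h5 : q ∣ p ∨ q ∣ Eis.conj p := hq'.dvd_or_dvd (hql.trans h4)
    have h6 : p ∣ ((l : ℕ) : Eis) := by
      rcases h5 with h5 | h5
      · exact (((hq.associated_of_dvd hp.irreducible h5).symm).dvd).trans hql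
      · have h7 : Eis.conj p ∣ ((l : ℕ) : Eis) :=
          (((hq.associated_of_dvd (conj_prime hp).irreducible h5).symm).dvd).trans hql
        have h8 := conj_dvd_conj h7
        rw [conj_conj] at h8
        have h9 : Eis.conj ((l : ℕ) : Eis) = ((l : ℕ) : Eis) := by
          apply ext' <;> simp
        rwa [h9] at h8
    have h10 : ((l : ℕ) : Eis) ∣ t * Eis.conj t := by
      rw [mul_conj]; exact_mod_cast Nat.cast_dvd_cast h2
    have h11 := h6.trans h10
    rw [htc] at h11
    rcases hp.dvd_or_dvd h11 with h | h <;> exact hcop h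
  -- reciprocity for `-t` and `p`
  have hr := sy_reciprocity_of_coprime_nm hprim hpp hnm.symm
  -- `sy (-t) p = sy (conj p) p`
  have e1 : sy (-t) p = sy (Eis.conj p) p := by
    rw [sy_neg hp3]
    refine sy_congr hp3 ?_
    rw [ht, add_sub_cancel_right]
  -- `sy p (-t)` is real
  have e2 : (starRingEnd ℂ) (sy p (-t)) = sy p (-t) := by
    have h1 := sy_conj (prim_nm_mod hprim) p
    have h2 : Eis.conj (-t) = -t := by
      have : Eis.conj (-t) = -Eis.conj t := conjHom.map_neg t
      rw [this, htc]
    rw [h2] at h1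
    rw [← h1]
    have h3 : sy (Eis.conj p) (-t) = sy (-p) (-t) := by
      refine sy_congr (prim_nm_mod hprim) ?_
      rw [neg_dvd, sub_neg_eq_add, add_comm]
    rw [h3, sy_neg (prim_nm_mod hprim)]
  have hcp : IsCoprime p (-t) := by
    have := (hp.irreducible.coprime_iff_not_dvd (n := -t)).2 (by rwa [dvd_neg])
    exact this
  have h3 := sy_cube (prim_nm_mod hprim) hcp
  rw [← e1, hr]
  set z := sy p (-t) with hz
  -- a real cube root of unity is one
  have him : z.im = 0 := Complex.conj_eq_iff_im.1 e2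
  have hre : z = (z.re : ℂ) := by
    apply Complex.ext <;> simp [him]
  rw [hre] at h3 ⊢
  have h4 : z.re ^ 3 = 1 := by exact_mod_cast h3
  have h5 : z.re = 1 := by
    have h6 : (z.re - 1) * (z.re ^ 2 + z.re + 1) = 0 := by linear_combination h4
    rcases mul_eq_zero.1 h6 with h | h
    · linarith
    · nlinarith [sq_nonneg (z.re + 1 / 2)]
  rw [h5]; simp

/-- Reciprocity for primary primes. -/
theorem sy_reciprocity_prime {p q : Eis} (hp : Prime p) (hq : Prime q) (hpp : IsPrim p)
    (hqp : IsPrim q) : sy p q = sy q p := by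
  by_cases hcop : Nat.Coprime (nm p) (nm q)
  · exact sy_reciprocity_of_coprime_nm hpp hqp hcop
  obtain ⟨l, hl, h1, h2⟩ := Nat.Prime.not_coprime_iff_dvd.1 hcop
  -- both primes lie above l
  have hdiv : ∀ r : Eis, Prime r → l ∣ nm r → r ∣ ((l : ℕ) : Eis) := by
    intro r hr hlr
    have h4 : ((l : ℕ) : Eis) ∣ r * Eis.conj r := by
      rw [mul_conj]; exact_mod_cast Nat.cast_dvd_cast hlr
    have hlu : ¬ IsUnit ((l : ℕ) : Eis) := by
      rw [isUnit_iff, nm_natCast]
      have := hl.one_lt
      intro h; nlinarith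
    obtain ⟨s, hs, hsl⟩ := WfDvdMonoid.exists_irreducible_factor hlu
      (by exact_mod_cast hl.ne_zero : ((l : ℕ) : Eis) ≠ 0)
    rcases hs.prime.dvd_or_dvd (hsl.trans h4) with h5 | h5
    · exact (((hs.associated_of_dvd hr.irreducible h5).symm).dvd).trans hsl
    · have h7 : Eis.conj r ∣ ((l : ℕ) : Eis) :=
        (((hs.associated_of_dvd (conj_prime hr).irreducible h5).symm).dvd).trans hsl
      have h8 := conj_dvd_conj h7
      rw [conj_conj] at h8
      have h9 : Eis.conj ((l : ℕ) : Eis) = ((l : ℕ) : Eis) := by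
        apply ext' <;> simp
      rwa [h9] at h8
  have hpl := hdiv p hp h1
  have hql := hdiv q hq h2
  -- q divides p * conj p
  have h3 : q ∣ p * Eis.conj p := by
    rw [mul_conj]
    exact hql.trans (by exact_mod_cast Nat.cast_dvd_cast h1)
  have huniq : ∀ a b : Eis, Prime a → Prime b → IsPrim a → IsPrim b → a ∣ b → a = b := by
    intro a b ha hb hap hbp hab
    obtain ⟨u, hu⟩ := ha.irreducible.associated_of_dvd hb.irreducible hab
    have : IsPrim (u : Eis) := prim_of_mul_left hap (hu ▸ hbp)
    rw [prim_unit_eq_one u.isUnit this, mul_one] at hu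
    exact hu
  rcases hq.dvd_or_dvd h3 with h | h
  · rw [huniq q p hq hp hqp hpp h]
  · have he : q = Eis.conj p := huniq q _ hq (conj_prime hp) hqp (conj_prim hpp) h
    by_cases hself : p ∣ Eis.conj p
    · have : p = Eis.conj p := huniq p _ hp (conj_prime hp) hpp (conj_prim hpp) hself
      rw [he, ← this]
    · have e1 := sy_conj_self hp hpp hself
      have e2 : sy p (Eis.conj p) = 1 := by
        have := sy_conj (prim_nm_mod hpp) (Eis.conj p)
        rw [conj_conj, e1] at this
        simpa using this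
      rw [he, e1, e2]

/-- **Cubic reciprocity**: `(a/b)_3 = (b/a)_3` for primary `a`, `b`. -/
theorem sy_reciprocity {a b : Eis} (ha : IsPrim a) (hb : IsPrim b) : sy a b = sy b a := by
  revert hb
  refine prim_induction ?_ ?_ ha
  · intro hb
    rw [sy_one_left (prim_nm_mod hb), sy_one_right]
  · intro p a hp hpp ha iha hb
    rw [sy_mul_left (prim_nm_mod hb), sy_mul_right _ hp.ne_zero (prim_ne_zero ha), iha hb]
    congr 1
    clear iha
    refine prim_induction ?_ ?_ hb
    · rw [sy_one_right, sy_one_left (prim_nm_mod hpp)]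
    · intro q b hq hqp hb ihb
      rw [sy_mul_left (prim_nm_mod hpp), sy_mul_right _ hq.ne_zero (prim_ne_zero hb), ihb,
        sy_reciprocity_prime hp hq hpp hqp]

end Crest.Agent.R012.Sym645
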