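import Crest.Agent.R012.Gauss_880
import Crest.Agent.R012.Sym4_645

/-!
# Row 12 (R3b): the hypotheses `SyG` hold (from `Sym4_645`)

`syG : SyG`.  So every lemma of `Gauss_880` can be used as `gs_mul syG ...` etc.
-/

set_option autoImplicit false

noncomputable section

namespace Crest.Agent.R012.Gauss880

open Crest.Agent.R012 Crest.Agent.R012.Eis

theorem syG : SyG where
  mul_left x y c hc := Sym645.sy_mul_left hc.nm_mod x y
  mul_right x c d hc hd := Sym645.sy_mul_right x hc.ne_zero hd.ne_zero
  congr x y c hc h := Sym645.sy_congr hc.nm_mod h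
  eq_zero x c hc := Sym645.sy_eq_zero_iff hc.nm_mod
  cube x c hc hx := Sym645.sy_cube hc.nm_mod hx
  recip a b ha hb := Sym645.sy_reciprocity ha hb
  nontriv p hpp hp := by
    have : Fact (Prime p) := ⟨hp⟩
    obtain ⟨x, hx⟩ := Sym645.exists_cu_eq_w (p := p) hpp.nm_mod
    refine ⟨x, ?_, ?_⟩
    · have h : ¬ p ∣ x := by
        rw [← Sym645.cu_eq_zero_iff, hx]
        intro h0
        have := congrArg QuadraticAlgebra.im h0
        simp at this
      exact ((hp.irreducible.coprime_iff_not_dvd).mpr h).symm
    · rw [Sym645.sy_prime_cu x hp, hx, toC_w]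
      intro h
      have := congrArg Complex.im h
      simp [wC] at this
  conj x c hc := Sym645.sy_conj hc.nm_mod x

end Crest.Agent.R012.Gauss880
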