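import Crest.Agent.R012.LS2Spec_381
import Crest.Agent.R012.Mob_705
import Crest.Agent.R012.Tau_671
import Crest.Agent.R012.Sym6_645

/-!
# Row 12 (CR2): interfaces for the improved moment

Notation: `S X` (squarefree primary `n`, `nm n ≤ X`), `bl X` (nonzero, `nm ≤ X`) from `LS2Spec_381`;
`mu`, `pp`, `pdiv` from `Mob_705`.

* `GFacts`     : the facts on `G` which are used
* `dsum`       : the dual sums
* `DualIneq`   : (CR2-PD) the dual inequality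
* `NatS`       : the "natural" Type I sum `∑ G(k) conj (r/k) V(nm k / X) nm(k)^{it}`
* `TypeI V`    : mean square Type I bound with a small fixed twist `r`
-/

set_option autoImplicit false

noncomputable section

namespace Crest.Agent.R012.CR2

open Eis LS2 Mob705

/-- facts on the normalised Gauss sum -/
structure GFacts : Prop where
  mul : ∀ a b : Eis, IsPrim a → IsPrim b → G (a * b) = G a * G b * (starRingEnd ℂ) (sy a b)
  zero : ∀ c : Eis, IsPrim c → ¬ Squarefree c → G c = 0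
  le_one : ∀ c : Eis, IsPrim c → ‖G c‖ ≤ 1

/-- the dual sum -/
def dsum (w : Eis → ℂ) (X : ℝ) (d e f l : Eis) (s : ℂ) : ℂ :=
  ∑ k ∈ S X, w (d * f * k) * (sy (e * sq3) k * (starRingEnd ℂ) (sy (f * l) k) * G k) *
    (nm k : ℂ) ^ (s - 1 / 2)

/-- the length of the dual sum -/
def Lde (X Z ε : ℝ) (d e : Eis) : ℝ := (X * Z) ^ ε * (1 + nm e * X ^ 2 / ((nm d : ℝ) ^ 2 * Z))

open Classical in
/-- (CR2-PD) the dual inequality. -/
def DualIneq : Prop := ∀ σ ε : ℝ, 0 < σ → σ ≤ 1 / 2 → 0 < ε →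
  ∃ C : ℝ, 0 < C ∧ ∀ X Z : ℝ, 1 ≤ X → 1 ≤ Z → ∀ w : Eis → ℂ, (∀ h, w h ≠ 0 → h ∈ S X) →
    ∑' n : Eis, Real.exp (-(nm n : ℝ) / Z) * ‖∑ h ∈ S X, w h * sy n h‖ ^ 2 ≤
      C * Z * ∑ h ∈ S X, ‖w h‖ ^ 2 +
      C * ∑ d ∈ S X, ∑ e ∈ (S X).filter (· ∣ d), ∑ f ∈ S X,
        Z / (nm e * nm f) * (nm e * (nm f : ℝ) ^ 2 / Z) ^ σ *
          ∫ t : ℝ, (1 + t ^ 2)⁻¹ * ∑ l ∈ bl (Lde X Z ε d e),
            (nm l : ℝ) ^ (-σ) * ‖dsum w X d e f l (σ + t * Complex.I)‖ ^ 2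

/-- The natural Type I sum. -/
def NatS (V : ℝ → ℝ) (r : Eis) (X t : ℝ) : ℂ := open Classical in
  ∑' k : Eis, if IsPrim k then
    G k * (starRingEnd ℂ) (sy r k) * (V (nm k / X) : ℂ) * (nm k : ℂ) ^ ((t : ℂ) * Complex.I) else 0

/-- `φ(n) = ∏_{p ∣ n} (1 + 1/N(p))⁻¹` -/
def phi (n : Eis) : ℝ := ∏ p ∈ pp n, (1 + 1 / (nm p : ℝ))⁻¹

open Classical in
/-- Type I mean square bound for natural sums, with a fixed twist `r` (polynomial dependence on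
`nm r` and `t`).  `c` is allowed to depend on everything except `n`. -/
def TypeI (V : ℝ → ℝ) : Prop := ∃ A0 : ℝ, 0 ≤ A0 ∧ ∀ ε : ℝ, 0 < ε → ∃ K : ℝ, 0 < K ∧
  ∀ r : Eis, r ≠ 0 → ∀ X Z t : ℝ, 1 ≤ X → 1 ≤ Z → Z ≤ X ^ 2 → ∃ c : ℂ,
    ‖c‖ ≤ K * (nm r * (1 + |t|)) ^ A0 * X ^ ((5 : ℝ) / 6) ∧
    ∑ n ∈ (S Z).filter (fun n => IsCoprime n r),
      ‖NatS V (n * r) X t - c * (sy r n * (starRingEnd ℂ) (G n) *
        ((nm n : ℝ) ^ (-(1 : ℝ) / 6) * phi n : ℝ))‖ ^ 2 ≤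
      K * (nm r * (1 + |t|)) ^ A0 * (Z * X) ^ (1 + ε)

end Crest.Agent.R012.CR2
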