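import Crest.Agent.R012.Base_666

/-!
# Row 12 (R2b), part 1: decompositions of Eisenstein integers

* `exists_unit_lam_prim` : `h ≠ 0 → h = e * w^i * lam^j * k`, `e = ±1`, `i < 3`, `k` primary
* `exists_cubic_decomp` : `h = w^i * lam^j * k1 * k2^2 * m^3`, `i j < 3`, `k1 k2` primary
  squarefree coprime
* uniqueness of both.
-/

set_option autoImplicit false
set_option linter.unusedSimpArgs false
set_option linter.unusedVariables false
set_option linter.unreachableTactic false
set_option linter.unusedTactic false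

noncomputable section

namespace Crest.Agent.R012.Char766

open Crest.Agent.R012 Crest.Agent.R012.Eis

/-! ### Multiplicities -/

lemma finMult {p x : Eis} (hp : Prime p) (hx : x ≠ 0) : FiniteMultiplicity p x :=
  FiniteMultiplicity.of_prime_left hp hx

lemma mult_mul {p x y : Eis} (hp : Prime p) (hx : x ≠ 0) (hy : y ≠ 0) :
    multiplicity p (x * y) = multiplicity p x + multiplicity p y :=
  multiplicity_mul hp (finMult hp (mul_ne_zero hx hy))

lemma mult_pow {p x : Eis} (hp : Prime p) (hx : x ≠ 0) (n : ℕ) :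
    multiplicity p (x ^ n) = n * multiplicity p x := by
  induction n with
  | zero =>
    rw [pow_zero, zero_mul]
    exact multiplicity_eq_zero.mpr (fun h => hp.not_isUnit (isUnit_of_dvd_one h))
  | succ n ih =>
    rw [pow_succ, mult_mul hp (pow_ne_zero n hx) hx, ih]; ring

lemma mult_unit {p x : Eis} (hp : Prime p) (hx : IsUnit x) : multiplicity p x = 0 :=
  multiplicity_eq_zero.mpr (fun h => hp.not_isUnit (isUnit_of_dvd_unit h hx))

lemma mult_lam_lam : multiplicity lam lam = 1 :=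
  multiplicity_self

lemma mult_eq_zero {p x : Eis} : multiplicity p x = 0 ↔ ¬ p ∣ x := multiplicity_eq_zero

lemma one_le_mult {p x : Eis} : 1 ≤ multiplicity p x ↔ p ∣ x := by
  rw [Nat.one_le_iff_ne_zero, Ne, mult_eq_zero, not_not]

lemma dvd_of_mult_le {a b : Eis} (ha : a ≠ 0) (hb : b ≠ 0)
    (h : ∀ p : Eis, Prime p → multiplicity p a ≤ multiplicity p b) : a ∣ b := by
  rw [UniqueFactorizationMonoid.dvd_iff_emultiplicity_le ha]
  intro p hp
  rw [(finMult hp ha).emultiplicity_eq_multiplicity, (finMult hp hb).emultiplicity_eq_multiplicity]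
  exact_mod_cast h p hp

lemma associated_of_mult_eq {a b : Eis} (ha : a ≠ 0) (hb : b ≠ 0)
    (h : ∀ p : Eis, Prime p → multiplicity p a = multiplicity p b) : Associated a b :=
  associated_of_dvd_dvd (dvd_of_mult_le ha hb (fun p hp => (h p hp).le))
    (dvd_of_mult_le hb ha (fun p hp => (h p hp).ge))

lemma mult_le_one_of_squarefree {p x : Eis} (hp : Prime p) (hx : Squarefree x) :
    multiplicity p x ≤ 1 := by
  have hx0 : x ≠ 0 := hx.ne_zero
  by_contra hc
  push Not at hc
  have h2 : p ^ 2 ∣ x := (pow_dvd_pow p hc).trans (pow_multiplicity_dvd p x)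
  exact hp.not_isUnit (hx p (by rwa [pow_two] at h2))

lemma not_both_dvd {p x y : Eis} (hp : Prime p) (h : IsCoprime x y) :
    multiplicity p x = 0 ∨ multiplicity p y = 0 := by
  by_contra hc
  push Not at hc
  have h1 : p ∣ x := by
    by_contra h'
    exact hc.1 (mult_eq_zero.mpr h')
  have h2 : p ∣ y := by
    by_contra h'
    exact hc.2 (mult_eq_zero.mpr h')
  exact hp.not_isUnit (h.isUnit_of_dvd' h1 h2)

/-! ### `h = ± w^i lam^j k` -/

lemma exists_lam_pow {h : Eis} (hh : h ≠ 0) : ∃ (j : ℕ) (x : Eis), ¬ lam ∣ x ∧ h = lam ^ j * x := by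
  obtain ⟨x, hx1, hx2⟩ := (finMult prime_lam hh).exists_eq_pow_mul_and_not_dvd
  exact ⟨multiplicity lam h, x, hx2, hx1⟩

/-- Every nonzero element is `± w^i lam^j k` with `k` primary. -/
lemma exists_unit_lam_prim {h : Eis} (hh : h ≠ 0) :
    ∃ (e : Eis) (i j : ℕ) (k : Eis), (e = 1 ∨ e = -1) ∧ i < 3 ∧ IsPrim k ∧
      h = e * w ^ i * lam ^ j * k := by
  obtain ⟨j, x, hx, rfl⟩ := exists_lam_pow hh
  obtain ⟨u, hu⟩ := exists_unit_mul_isPrim hx
  obtain ⟨i, hi, hi'⟩ := isUnit_exists (u⁻¹).isUnit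
  have hx' : x = ((u⁻¹ : Eisˣ) : Eis) * (u * x) := by
    rw [← mul_assoc, Units.inv_mul, one_mul]
  rcases hi' with hi' | hi'
  · refine ⟨1, i, j, u * x, Or.inl rfl, hi, hu, ?_⟩
    rw [hi'] at hx'
    calc lam ^ j * x = lam ^ j * (w ^ i * (u * x)) := by rw [← hx']
      _ = _ := by ring
  · refine ⟨-1, i, j, u * x, Or.inr rfl, hi, hu, ?_⟩
    rw [hi'] at hx'
    calc lam ^ j * x = lam ^ j * (-w ^ i * (u * x)) := by rw [← hx']
      _ = _ := by ring

/-- A unit `± w^i` which is primary is `1`. -/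
lemma unit_eq_one_of_isPrim {u : Eis} (hu : IsUnit u) (hp : IsPrim u) : u = 1 := by
  have : Associated u 1 := (associated_one_iff_isUnit).mpr hu
  exact hp.eq_of_associated isPrim_one this

lemma w_pow_inj {i i' : ℕ} (hi : i < 3) (hi' : i' < 3)
    (h : w ^ i = w ^ i' ∨ w ^ i = -w ^ i') : i = i' ∧ w ^ i = w ^ i' := by
  have e2 : w ^ 2 = (⟨-1, -1⟩ : Eis) := by
    rw [w_sq]; apply ext' <;> simp
  have e1 : w = (⟨0, 1⟩ : Eis) := rfl
  have e0 : (1 : Eis) = (⟨1, 0⟩ : Eis) := rfl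
  interval_cases i <;> interval_cases i' <;> simp only [pow_zero, pow_one, e2, true_and, and_true]
    <;> rcases h with h | h <;>
    (try trivial) <;> (exfalso; have h1 := congrArg QuadraticAlgebra.re h;
                       have h2 := congrArg QuadraticAlgebra.im h; simp [e2] at h1 h2)

/-- Uniqueness in `exists_unit_lam_prim`. -/
lemma unit_lam_prim_unique {e e' k k' : Eis} {i i' j j' : ℕ} (he : e = 1 ∨ e = -1)
    (he' : e' = 1 ∨ e' = -1) (hi : i < 3) (hi' : i' < 3) (hk : IsPrim k) (hk' : IsPrim k')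
    (h : e * w ^ i * lam ^ j * k = e' * w ^ i' * lam ^ j' * k') :
    e = e' ∧ i = i' ∧ j = j' ∧ k = k' := by
  have hue : IsUnit e := by rcases he with rfl | rfl <;> simp
  have hue' : IsUnit e' := by rcases he' with rfl | rfl <;> simp
  have huw : IsUnit (w ^ i) := isUnit_w.pow i
  have huw' : IsUnit (w ^ i') := isUnit_w.pow i'
  have hu := hue.mul huw
  have hu' := hue'.mul huw'
  have hm : ∀ (u k : Eis) (j : ℕ), IsUnit u → IsPrim k → multiplicity lam (u * lam ^ j * k) = j := by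
    intro u k j hu hk
    rw [mult_mul prime_lam (mul_ne_zero hu.ne_zero (pow_ne_zero j lam_ne_zero)) hk.ne_zero,
      mult_mul prime_lam hu.ne_zero (pow_ne_zero j lam_ne_zero), mult_unit prime_lam hu,
      mult_eq_zero.mpr hk.not_lam_dvd, mult_pow prime_lam lam_ne_zero, zero_add, add_zero]
    rw [mult_lam_lam, mul_one]
  have hj : j = j' := by
    rw [← hm (e * w ^ i) k j hu hk, ← hm (e' * w ^ i') k' j' hu' hk', h]
  subst hj
  have h2 : (e * w ^ i) * k = (e' * w ^ i') * k' := by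
    apply mul_left_cancel₀ (pow_ne_zero j lam_ne_zero)
    linear_combination h
  have hkk : k = k' := by
    apply hk.eq_of_associated hk'
    have a1 : Associated k (e * w ^ i * k) := by
      rw [mul_comm]; exact associated_mul_unit_right k _ hu
    have a2 : Associated k' (e' * w ^ i' * k') := by
      rw [mul_comm]; exact associated_mul_unit_right k' _ hu'
    rw [h2] at a1
    exact a1.trans a2.symm
  subst hkk
  have h3 : e * w ^ i = e' * w ^ i' := mul_right_cancel₀ hk.ne_zero h2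
  have h4 : w ^ i = w ^ i' ∨ w ^ i = -w ^ i' := by
    rcases he with rfl | rfl <;> rcases he' with rfl | rfl
    · left; simpa using h3
    · right; simpa using h3
    · right; rw [neg_one_mul, one_mul] at h3; rw [← h3, neg_neg]
    · left; simpa using h3
  obtain ⟨hii, -⟩ := w_pow_inj hi hi' h4
  subst hii
  exact ⟨mul_right_cancel₀ huw.ne_zero h3, rfl, rfl, rfl⟩

/-! ### Primary elements: `k = k1 k2² m³` -/

/-- Every primary element is `k1 k2² m³` with `k1, k2` primary squarefree coprime, `m` primary. -/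
lemma exists_prim_cubic_decomp {k : Eis} (hk : IsPrim k) :
    ∃ k1 k2 m : Eis, IsPrim k1 ∧ IsPrim k2 ∧ IsPrim m ∧ Squarefree k1 ∧ Squarefree k2 ∧
      IsCoprime k1 k2 ∧ k = k1 * k2 ^ 2 * m ^ 3 := by
  have key : ∀ x : Eis, x ≠ 0 → ¬ lam ∣ x → ∃ k1 k2 m : Eis, IsPrim k1 ∧ IsPrim k2 ∧ IsPrim m ∧
      Squarefree k1 ∧ Squarefree k2 ∧ IsCoprime k1 k2 ∧ prim x = k1 * k2 ^ 2 * m ^ 3 := by
    intro x
    induction x using UniqueFactorizationMonoid.induction_on_prime with
    | h₁ => intro h; exact absurd rfl h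
    | h₂ x hx =>
      intro _ hl
      refine ⟨1, 1, 1, isPrim_one, isPrim_one, isPrim_one, squarefree_one, squarefree_one,
        isCoprime_one_left, ?_⟩
      rw [show (1 : Eis) * 1 ^ 2 * 1 ^ 3 = 1 by ring]
      exact (prim_isPrim hl).eq_of_associated isPrim_one
        ((prim_associated x).symm.trans (associated_one_iff_isUnit.mpr hx))
    | h₃ a p ha hp ih =>
      intro _ hl
      have hla : ¬ lam ∣ a := fun h => hl (h.mul_left p)
      have hlp : ¬ lam ∣ p := fun h => hl (h.mul_right a)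
      obtain ⟨k1, k2, m, h1, h2, h3, s1, s2, hc, he⟩ := ih ha hla
      have hpp : Prime (prim p) := (prim_associated p).prime hp
      have hpP : IsPrim (prim p) := prim_isPrim hlp
      rw [prim_mul hlp hla, he]
      set q := prim p with hq
      by_cases d1 : q ∣ k1
      · obtain ⟨t, rfl⟩ := d1
        have hqk2 : IsCoprime q k2 := hc.of_mul_left_left
        have htk2 : IsCoprime t k2 := hc.of_mul_left_right
        have hqt : IsCoprime q t := by
          rw [hpp.irreducible.coprime_iff_not_dvd]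
          rintro ⟨s, rfl⟩
          exact hpp.not_isUnit (s1 q ⟨s, by ring⟩)
        refine ⟨t, q * k2, m, h1.of_mul_left hpP, hpP.mul h2, h3, ?_, ?_, ?_, by ring⟩
        · exact s1.of_mul_right
        · exact (squarefree_mul_iff.mpr ⟨hqk2.isRelPrime, hpp.irreducible.squarefree, s2⟩)
        · exact IsCoprime.mul_right hqt.symm htk2
      · by_cases d2 : q ∣ k2
        · obtain ⟨t, rfl⟩ := d2
          refine ⟨k1, t, q * m, h1, h2.of_mul_left hpP, hpP.mul h3, s1, s2.of_mul_right, ?_, ?_⟩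
          · exact hc.of_mul_right_right
          · ring
        · have c1 : IsCoprime q k1 := hpp.irreducible.coprime_iff_not_dvd.mpr d1
          have c2 : IsCoprime q k2 := hpp.irreducible.coprime_iff_not_dvd.mpr d2
          refine ⟨q * k1, k2, m, hpP.mul h1, h2, h3, ?_, s2, ?_, ?_⟩
          · exact (squarefree_mul_iff.mpr ⟨c1.isRelPrime, hpp.irreducible.squarefree, s1⟩)
          · exact IsCoprime.mul_left c2 hc
          · ring
  obtain ⟨k1, k2, m, h⟩ := key k hk.ne_zero hk.not_lam_dvd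
  rw [hk.prim_eq] at h
  exact ⟨k1, k2, m, h⟩

/-- The cubic decomposition `h = w^i lam^j k1 k2² m³`. -/
structure IsCubDec (h : Eis) (i j : ℕ) (k1 k2 m : Eis) : Prop where
  hi : i < 3
  hj : j < 3
  prim1 : IsPrim k1
  prim2 : IsPrim k2
  sqf1 : Squarefree k1
  sqf2 : Squarefree k2
  cop : IsCoprime k1 k2
  ne : m ≠ 0
  eq : h = w ^ i * lam ^ j * k1 * k2 ^ 2 * m ^ 3

/-- Existence, with `m` in the normal form `± lam^a m'`, `m'` primary. -/
theorem exists_isCubDec' {h : Eis} (hh : h ≠ 0) :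
    ∃ (i j : ℕ) (k1 k2 m : Eis), IsCubDec h i j k1 k2 m ∧
      ∃ (e : Eis) (a : ℕ) (m' : Eis), (e = 1 ∨ e = -1) ∧ IsPrim m' ∧ m = e * lam ^ a * m' := by
  obtain ⟨e, i, j, k, he, hi, hk, rfl⟩ := exists_unit_lam_prim hh
  obtain ⟨k1, k2, m, h1, h2, h3, s1, s2, hc, rfl⟩ := exists_prim_cubic_decomp hk
  refine ⟨i, j % 3, k1, k2, e * lam ^ (j / 3) * m,
    ⟨hi, Nat.mod_lt _ (by norm_num), h1, h2, s1, s2, hc, ?_, ?_⟩, e, j / 3, m, he, h3, rfl⟩
  · refine mul_ne_zero (mul_ne_zero ?_ (pow_ne_zero _ lam_ne_zero)) h3.ne_zero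
    rcases he with rfl | rfl <;> simp
  · have he3 : e ^ 3 = e := by rcases he with rfl | rfl <;> ring
    have hlj : lam ^ j = lam ^ (j % 3) * (lam ^ (j / 3)) ^ 3 := by
      rw [← pow_mul, ← pow_add]
      congr 1
      omega
    rw [hlj]
    calc e * w ^ i * (lam ^ (j % 3) * (lam ^ (j / 3)) ^ 3) * (k1 * k2 ^ 2 * m ^ 3)
        = e ^ 3 * w ^ i * (lam ^ (j % 3) * (lam ^ (j / 3)) ^ 3) * (k1 * k2 ^ 2 * m ^ 3) := by
          rw [he3]
      _ = _ := by ring

theorem exists_isCubDec {h : Eis} (hh : h ≠ 0) :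
    ∃ (i j : ℕ) (k1 k2 m : Eis), IsCubDec h i j k1 k2 m := by
  obtain ⟨i, j, k1, k2, m, hd, -⟩ := exists_isCubDec' hh
  exact ⟨i, j, k1, k2, m, hd⟩

lemma IsCubDec.ne_zero {h : Eis} {i j : ℕ} {k1 k2 m : Eis} (hd : IsCubDec h i j k1 k2 m) :
    h ≠ 0 := by
  rw [hd.eq]
  exact mul_ne_zero (mul_ne_zero (mul_ne_zero (mul_ne_zero (pow_ne_zero _ isUnit_w.ne_zero)
    (pow_ne_zero _ lam_ne_zero)) hd.prim1.ne_zero) (pow_ne_zero _ hd.prim2.ne_zero))
    (pow_ne_zero _ hd.ne)

lemma IsCubDec.nm {h : Eis} {i j : ℕ} {k1 k2 m : Eis} (hd : IsCubDec h i j k1 k2 m) :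
    nm h = 3 ^ j * nm k1 * nm k2 ^ 2 * nm m ^ 3 := by
  rw [hd.eq]
  simp only [nm_mul, nm_pow, nm_w, nm_lam, one_pow, one_mul]

/-- Multiplicity of a prime in the decomposition. -/
lemma IsCubDec.mult {h : Eis} {i j : ℕ} {k1 k2 m : Eis} (hd : IsCubDec h i j k1 k2 m)
    {p : Eis} (hp : Prime p) :
    multiplicity p h = j * multiplicity p lam + multiplicity p k1 + 2 * multiplicity p k2
      + 3 * multiplicity p m := by
  have e0 : (w ^ i : Eis) ≠ 0 := pow_ne_zero _ isUnit_w.ne_zero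
  have e1 : (lam ^ j : Eis) ≠ 0 := pow_ne_zero _ lam_ne_zero
  have e2 : k1 ≠ 0 := hd.prim1.ne_zero
  have e3 : k2 ≠ 0 := hd.prim2.ne_zero
  have e4 : m ≠ 0 := hd.ne
  rw [hd.eq, mult_mul hp (mul_ne_zero (mul_ne_zero (mul_ne_zero e0 e1) e2) (pow_ne_zero 2 e3))
      (pow_ne_zero 3 e4),
    mult_mul hp (mul_ne_zero (mul_ne_zero e0 e1) e2) (pow_ne_zero 2 e3),
    mult_mul hp (mul_ne_zero e0 e1) e2, mult_mul hp e0 e1, mult_unit hp (isUnit_w.pow i),
    mult_pow hp lam_ne_zero, mult_pow hp e3, mult_pow hp e4]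
  ring

lemma mult_lam_of_ne {p : Eis} (hp : Prime p) (h : ¬ Associated p lam) :
    multiplicity p lam = 0 :=
  mult_eq_zero.mpr (fun hd => h (hp.associated_of_dvd prime_lam hd))

lemma mult_assoc {p q x : Eis} (h : Associated p q) : multiplicity p x = multiplicity q x := by
  exact multiplicity_eq_of_associated_left h.symm

lemma mult_prim_assoc_lam {p x : Eis} (hx : IsPrim x) (h : Associated p lam) :
    multiplicity p x = 0 :=
  mult_eq_zero.mpr (fun hd => hx.not_lam_dvd (h.dvd_iff_dvd_left.mp hd))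

/-- Uniqueness of the cubic decomposition. -/
theorem IsCubDec.unique {h : Eis} {i j i' j' : ℕ} {k1 k2 m k1' k2' m' : Eis}
    (hd : IsCubDec h i j k1 k2 m) (hd' : IsCubDec h i' j' k1' k2' m') :
    i = i' ∧ j = j' ∧ k1 = k1' ∧ k2 = k2' ∧ m ^ 3 = m' ^ 3 := by
  -- multiplicities
  have hml : multiplicity lam lam = 1 := mult_lam_lam
  have hjj : j = j' := by
    have e1 := hd.mult prime_lam
    have e2 := hd'.mult prime_lam
    rw [hml, mult_eq_zero.mpr hd.prim1.not_lam_dvd, mult_eq_zero.mpr hd.prim2.not_lam_dvd] at e1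
    rw [hml, mult_eq_zero.mpr hd'.prim1.not_lam_dvd, mult_eq_zero.mpr hd'.prim2.not_lam_dvd] at e2
    have := hd.hj
    have := hd'.hj
    omega
  have hmult : ∀ p : Eis, Prime p → multiplicity p k1 = multiplicity p k1' ∧
      multiplicity p k2 = multiplicity p k2' := by
    intro p hp
    by_cases hpl : Associated p lam
    · rw [mult_prim_assoc_lam hd.prim1 hpl, mult_prim_assoc_lam hd'.prim1 hpl,
        mult_prim_assoc_lam hd.prim2 hpl, mult_prim_assoc_lam hd'.prim2 hpl]
      exact ⟨rfl, rfl⟩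
    · have e1 := hd.mult hp
      have e2 := hd'.mult hp
      rw [mult_lam_of_ne hp hpl] at e1 e2
      have a1 := mult_le_one_of_squarefree hp hd.sqf1
      have a2 := mult_le_one_of_squarefree hp hd.sqf2
      have a3 := mult_le_one_of_squarefree hp hd'.sqf1
      have a4 := mult_le_one_of_squarefree hp hd'.sqf2
      have b1 := not_both_dvd hp hd.cop
      have b2 := not_both_dvd hp hd'.cop
      rw [mul_zero, zero_add] at e1 e2
      rw [e1] at e2
      generalize multiplicity p k1 = x1 at *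
      generalize multiplicity p k2 = x2 at *
      generalize multiplicity p k1' = x3 at *
      generalize multiplicity p k2' = x4 at *
      interval_cases x1 <;> interval_cases x2 <;> interval_cases x3 <;> interval_cases x4 <;>
        omega
  have hk1 : k1 = k1' := hd.prim1.eq_of_associated hd'.prim1
    (associated_of_mult_eq hd.prim1.ne_zero hd'.prim1.ne_zero (fun p hp => (hmult p hp).1))
  have hk2 : k2 = k2' := hd.prim2.eq_of_associated hd'.prim2
    (associated_of_mult_eq hd.prim2.ne_zero hd'.prim2.ne_zero (fun p hp => (hmult p hp).2))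
  subst hjj hk1 hk2
  have h1 : w ^ i * m ^ 3 = w ^ i' * m' ^ 3 := by
    have hc : lam ^ j * k1 * k2 ^ 2 ≠ 0 :=
      mul_ne_zero (mul_ne_zero (pow_ne_zero _ lam_ne_zero) hd.prim1.ne_zero)
        (pow_ne_zero _ hd.prim2.ne_zero)
    apply mul_left_cancel₀ hc
    have := hd.eq.symm.trans hd'.eq
    linear_combination this
  -- write m and m' in normal form
  obtain ⟨e, s, t, x, he, hs, hx, hmx⟩ := exists_unit_lam_prim hd.ne
  obtain ⟨e', s', t', x', he', hs', hx', hmx'⟩ := exists_unit_lam_prim hd'.ne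
  have hc : ∀ (e x : Eis) (s t : ℕ), (e = 1 ∨ e = -1) →
      (e * w ^ s * lam ^ t * x) ^ 3 = e * lam ^ (3 * t) * x ^ 3 := by
    intro e x s t he
    have he3 : e ^ 3 = e := by rcases he with rfl | rfl <;> ring
    have hw3 : (w ^ s) ^ 3 = 1 := by rw [← pow_mul, mul_comm, pow_mul, w_cube, one_pow]
    calc (e * w ^ s * lam ^ t * x) ^ 3 = e ^ 3 * (w ^ s) ^ 3 * (lam ^ t) ^ 3 * x ^ 3 := by ring
      _ = e * (lam ^ t) ^ 3 * x ^ 3 := by rw [he3, hw3]; ring
      _ = _ := by rw [← pow_mul, mul_comm t 3]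
  have hm3 : m ^ 3 = e * lam ^ (3 * t) * x ^ 3 := by rw [hmx, hc e x s t he]
  have hm3' : m' ^ 3 = e' * lam ^ (3 * t') * x' ^ 3 := by rw [hmx', hc e' x' s' t' he']
  have h2 : e * w ^ i * lam ^ (3 * t) * x ^ 3 = e' * w ^ i' * lam ^ (3 * t') * x' ^ 3 := by
    rw [hm3, hm3'] at h1
    linear_combination h1
  obtain ⟨-, h3, -, -⟩ := unit_lam_prim_unique he he' hd.hi hd'.hi (hx.pow 3) (hx'.pow 3) h2
  subst h3
  exact ⟨rfl, rfl, rfl, rfl, mul_left_cancel₀ (pow_ne_zero _ isUnit_w.ne_zero) h1⟩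

/-- `h` is a cube iff its decomposition is trivial. -/
theorem IsCubDec.isCube_iff {h : Eis} {i j : ℕ} {k1 k2 m : Eis} (hd : IsCubDec h i j k1 k2 m) :
    (∃ t, h = t ^ 3) ↔ i = 0 ∧ j = 0 ∧ k1 = 1 ∧ k2 = 1 := by
  constructor
  · rintro ⟨t, ht⟩
    have ht0 : t ≠ 0 := by
      rintro rfl
      exact hd.ne_zero (by rw [ht]; ring)
    have hd' : IsCubDec h 0 0 1 1 t :=
      ⟨by norm_num, by norm_num, isPrim_one, isPrim_one, squarefree_one, squarefree_one,
        isCoprime_one_left, ht0, by rw [ht]; ring⟩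
    obtain ⟨h1, h2, h3, h4, -⟩ := hd.unique hd'
    exact ⟨h1, h2, h3, h4⟩
  · rintro ⟨rfl, rfl, rfl, rfl⟩
    exact ⟨m, by rw [hd.eq]; ring⟩

end Crest.Agent.R012.Char766
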