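import Crest.Agent.R012.LS2Spec_381
import Crest.Agent.R012.LScount_448
import Crest.Agent.R012.Dec_766

/-!
# Row 12 (CRA): the cubic large sieve for arbitrary primary `n` (bounded coefficients)

`gls` : from `LS2.Final` : for `‖a n‖ ≤ A`, `a` supported on primary `n = k1 k2² m³` with
`L ≤ N(k2)² N(m)³`:
`∑_{h ∈ S H} ‖∑_{n primary, nm n ≤ Z} a n * sy n h‖² ≤ K (H Z)^ε A² Z (H + L^(-2/3) (Z + (H Z)^(2/3)))`.
`gls_one` : the case `L = 1`.   `gls_sq` : support on `n` divisible by `d²`, `nm d ≥ D`, gain `D⁻¹`.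
-/

set_option autoImplicit false

noncomputable section

open Finset

namespace Crest.Agent.R012.GLS106

open Crest.Agent.R012 Crest.Agent.R012.Eis Crest.Agent.R012.LS2 Crest.Agent.R012.LS448
  Crest.Agent.R012.Char766

/-- The facts on the cubic symbol used here (denominators primary). -/
structure SyF : Prop where
  mul_left : ∀ x y c : Eis, IsPrim c → sy (x * y) c = sy x c * sy y c
  norm_le : ∀ x c : Eis, IsPrim c → ‖sy x c‖ ≤ 1
  recip : ∀ a b : Eis, IsPrim a → IsPrim b → sy a b = sy b a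

open Classical in
/-- A fixed choice of the cubic decomposition `n = k1 k2² m³` of primary elements. -/
def dec (n : Eis) : Eis × Eis × Eis :=
  if h : IsPrim n then
    ((exists_prim_cubic_decomp h).choose, (exists_prim_cubic_decomp h).choose_spec.choose,
      (exists_prim_cubic_decomp h).choose_spec.choose_spec.choose)
  else (1, 1, 1)

lemma dec_spec {n : Eis} (h : IsPrim n) :
    IsPrim (dec n).1 ∧ IsPrim (dec n).2.1 ∧ IsPrim (dec n).2.2 ∧ Squarefree (dec n).1 ∧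
      Squarefree (dec n).2.1 ∧ IsCoprime (dec n).1 (dec n).2.1 ∧
      n = (dec n).1 * (dec n).2.1 ^ 2 * (dec n).2.2 ^ 3 := by
  unfold dec
  rw [dif_pos h]
  exact (exists_prim_cubic_decomp h).choose_spec.choose_spec.choose_spec

/-- `N(k2)² N(m)³`. -/
def QQ (p : Eis × Eis) : ℝ := (nm p.1 : ℝ) ^ 2 * (nm p.2 : ℝ) ^ 3

lemma nm_eq_dec {n : Eis} (h : IsPrim n) :
    (nm n : ℝ) = (nm (dec n).1 : ℝ) * QQ (dec n).2 := by
  have h1 := (dec_spec h).2.2.2.2.2.2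
  conv_lhs => rw [h1]
  rw [nm_mul, nm_mul, nm_pow, nm_pow]
  unfold QQ
  push_cast
  ring

lemma card_S_le {X : ℝ} (hX : 1 ≤ X) : (#(S X) : ℝ) ≤ 16 * X := by
  classical
  have h1 : S X ⊆ ball ⌊X⌋₊ := by
    intro n hn
    rw [mem_S (by linarith)] at hn
    rw [mem_ball]
    exact Nat.le_floor hn.1
  have h2 := (card_le_card h1).trans (card_ball_le (Nat.floor_pos.mpr hX))
  calc (#(S X) : ℝ) ≤ ((16 * ⌊X⌋₊ : ℕ) : ℝ) := by exact_mod_cast h2
    _ = 16 * (⌊X⌋₊ : ℝ) := by push_cast; ring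
    _ ≤ 16 * X := by
        have := Nat.floor_le (show 0 ≤ X by linarith)
        linarith

lemma mem_primBall_floor {Z : ℝ} {n : Eis} : n ∈ primBall ⌊Z⌋₊ ↔ (nm n : ℝ) ≤ Z ∧ IsPrim n := by
  rw [mem_primBall]
  constructor
  · rintro ⟨h1, h2⟩
    have h3 : 0 < nm n := nm_pos.mpr h2.ne_zero
    exact ⟨(Nat.le_floor_iff' h3.ne').mp h1, h2⟩
  · rintro ⟨h1, h2⟩
    exact ⟨Nat.le_floor h1, h2⟩

/-- The block estimate: fixed `p = (k2, m)`. -/
lemma block (hsy : SyF) {H Z A C : ℝ} (hC : 0 ≤ C) {a : Eis → ℂ}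
    (ha : ∀ n ∈ primBall ⌊Z⌋₊, ‖a n‖ ≤ A) (p : Eis × Eis) (hQ : 0 < QQ p)
    (hQ1 : 1 ≤ Z / QQ p) (hHB : HB H (Z / QQ p) C) :
    ∑ h ∈ S H, ‖∑ n ∈ (primBall ⌊Z⌋₊).filter (fun n => (dec n).2 = p),
      a n * sy (dec n).1 h‖ ^ 2 ≤ C * (A ^ 2 * (16 * (Z / QQ p))) := by
  classical
  set Np := (primBall ⌊Z⌋₊).filter (fun n => (dec n).2 = p) with hNp
  set b : Eis → ℂ := fun k => ∑ n ∈ Np.filter (fun n => (dec n).1 = k), a n with hb
  have hmaps : ∀ n ∈ Np, (dec n).1 ∈ S (Z / QQ p) := by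
    intro n hn
    rw [hNp, mem_filter, mem_primBall_floor] at hn
    obtain ⟨⟨h1, h2⟩, h3⟩ := hn
    rw [mem_S (by linarith)]
    have h4 := nm_eq_dec h2
    rw [h3] at h4
    refine ⟨?_, (dec_spec h2).1, (dec_spec h2).2.2.2.1⟩
    rw [le_div_iff₀ hQ, ← h4]
    exact h1
  have hbn : ∀ k, ‖b k‖ ≤ |A| := by
    intro k
    have hcard : #(Np.filter (fun n => (dec n).1 = k)) ≤ 1 := by
      rw [card_le_one]
      intro x hx y hy
      rw [mem_filter, hNp, mem_filter, mem_primBall_floor] at hx hy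
      have e1 := (dec_spec hx.1.1.2).2.2.2.2.2.2
      have e2 := (dec_spec hy.1.1.2).2.2.2.2.2.2
      rw [e1, e2, hx.2, hy.2, hx.1.2, hy.1.2]
    rcases Nat.le_one_iff_eq_zero_or_eq_one.mp hcard with h | h
    · rw [hb]
      simp only
      rw [card_eq_zero.mp h, sum_empty, norm_zero]
      exact abs_nonneg A
    · obtain ⟨x, hx⟩ := card_eq_one.mp h
      rw [hb]
      simp only
      rw [hx, sum_singleton]
      have hxm : x ∈ Np.filter (fun n => (dec n).1 = k) := by rw [hx]; exact mem_singleton_self x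
      rw [mem_filter, hNp, mem_filter] at hxm
      exact (ha x hxm.1.1).trans (le_abs_self A)
  have hrw : ∀ h ∈ S H, ∑ n ∈ Np, a n * sy (dec n).1 h = ∑ k ∈ S (Z / QQ p), b k * sy h k := by
    intro h hh
    rw [← sum_fiberwise_of_maps_to hmaps]
    refine sum_congr rfl fun k hk => ?_
    rw [hb]
    simp only
    rw [sum_mul]
    refine sum_congr rfl fun n hn => ?_
    rw [mem_filter] at hn
    have hH0 : IsPrim h := by
      unfold S at hh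
      rw [mem_filter, mem_primBall] at hh
      exact hh.1.2
    have hk0 : IsPrim k := by
      unfold S at hk
      rw [mem_filter, mem_primBall] at hk
      exact hk.1.2
    rw [hn.2, hsy.recip k h hk0 hH0]
  calc ∑ h ∈ S H, ‖∑ n ∈ Np, a n * sy (dec n).1 h‖ ^ 2
      = ∑ h ∈ S H, ‖∑ k ∈ S (Z / QQ p), b k * sy h k‖ ^ 2 :=
        sum_congr rfl fun h hh => by rw [hrw h hh]
    _ ≤ C * ∑ k ∈ S (Z / QQ p), ‖b k‖ ^ 2 := hHB b
    _ ≤ C * ∑ k ∈ S (Z / QQ p), A ^ 2 := by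
        refine mul_le_mul_of_nonneg_left (sum_le_sum fun k _ => ?_) hC
        rw [← sq_abs A]
        exact pow_le_pow_left₀ (norm_nonneg _) (hbn k) 2
    _ = C * (A ^ 2 * #(S (Z / QQ p))) := by rw [sum_const, nsmul_eq_mul]; ring
    _ ≤ C * (A ^ 2 * (16 * (Z / QQ p))) := by
        have := card_S_le hQ1
        gcongr

/-- Elementary inequality for the blocks. -/
lemma block_weight {H Z L Q w : ℝ} (hH : 0 ≤ H) (hZ : 0 ≤ Z) (hL : 1 ≤ L) (hLQ : L ≤ Q)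
    (hw : 0 < w) (hwQ : w ^ 2 ≤ Q) :
    w * ((Z / Q) * (H + Z / Q + (H * (Z / Q)) ^ ((2 : ℝ) / 3))) ≤
      Z / w * (H + L ^ (-(2 / 3) : ℝ) * (Z + (H * Z) ^ ((2 : ℝ) / 3))) := by
  have hQ0 : 0 < Q := by linarith
  have hL0 : 0 < L := by linarith
  have h1 : w * (Z / Q) ≤ Z / w := by
    rw [le_div_iff₀ hw]
    calc w * (Z / Q) * w = Z * (w ^ 2 / Q) := by ring
      _ ≤ Z * 1 := by
          refine mul_le_mul_of_nonneg_left ?_ hZ
          rw [div_le_one hQ0]; exact hwQ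
      _ = Z := mul_one Z
  have hQL : Q ^ (-(2 / 3) : ℝ) ≤ L ^ (-(2 / 3) : ℝ) :=
    Real.rpow_le_rpow_of_nonpos hL0 hLQ (by norm_num)
  have h2 : Z / Q ≤ L ^ (-(2 / 3) : ℝ) * Z := by
    have : Q⁻¹ ≤ Q ^ (-(2 / 3) : ℝ) := by
      rw [← Real.rpow_neg_one]
      exact Real.rpow_le_rpow_of_exponent_le (by linarith) (by norm_num)
    calc Z / Q = Q⁻¹ * Z := by rw [div_eq_mul_inv, mul_comm]
      _ ≤ L ^ (-(2 / 3) : ℝ) * Z := mul_le_mul_of_nonneg_right (this.trans hQL) hZ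
  have h3 : (H * (Z / Q)) ^ ((2 : ℝ) / 3) ≤ L ^ (-(2 / 3) : ℝ) * (H * Z) ^ ((2 : ℝ) / 3) := by
    have : H * (Z / Q) = Q⁻¹ * (H * Z) := by rw [div_eq_mul_inv]; ring
    rw [this, Real.mul_rpow (by positivity) (by positivity), ← Real.rpow_neg_one, ← Real.rpow_mul hQ0.le]
    have e : (-1 : ℝ) * (2 / 3) = -(2 / 3) := by norm_num
    rw [e]
    exact mul_le_mul_of_nonneg_right hQL (by positivity)
  calc w * ((Z / Q) * (H + Z / Q + (H * (Z / Q)) ^ ((2 : ℝ) / 3)))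
      = (w * (Z / Q)) * (H + Z / Q + (H * (Z / Q)) ^ ((2 : ℝ) / 3)) := by ring
    _ ≤ Z / w * (H + L ^ (-(2 / 3) : ℝ) * Z + L ^ (-(2 / 3) : ℝ) * (H * Z) ^ ((2 : ℝ) / 3)) := by
        gcongr
    _ = _ := by ring

/-- **GLS** : the cubic large sieve for bounded coefficients on all primary `n`. -/
theorem gls (hsy : SyF) (hF : Final) : ∀ ε : ℝ, 0 < ε → ∃ K : ℝ, 0 < K ∧
    ∀ H Z A L : ℝ, 1 ≤ H → 1 ≤ Z → 1 ≤ L → ∀ a : Eis → ℂ,
      (∀ n ∈ primBall ⌊Z⌋₊, ‖a n‖ ≤ A) →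
      (∀ n ∈ primBall ⌊Z⌋₊, a n ≠ 0 → ∀ k1 k2 m : Eis, IsPrim k1 → IsPrim k2 → IsPrim m →
        Squarefree k1 → Squarefree k2 → IsCoprime k1 k2 → n = k1 * k2 ^ 2 * m ^ 3 →
        L ≤ (nm k2 : ℝ) ^ 2 * (nm m : ℝ) ^ 3) →
      ∑ h ∈ S H, ‖∑ n ∈ primBall ⌊Z⌋₊, a n * sy n h‖ ^ 2 ≤
        K * (H * Z) ^ ε * A ^ 2 * Z *
          (H + L ^ (-(2 / 3) : ℝ) * (Z + (H * Z) ^ ((2 : ℝ) / 3))) := by
  classical
  intro ε hε
  obtain ⟨C, hC, hHB⟩ := hF (ε / 2) (by linarith)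
  obtain ⟨C1, hC1, hLL⟩ := LL_le (ε := ε / 8) (by linarith)
  refine ⟨16 * C * C1 ^ 4, by positivity, ?_⟩
  intro H Z A L hH hZ hL a ha hsupp
  set N := primBall ⌊Z⌋₊ with hN
  -- restrict to the support
  set N' := N.filter (fun n => a n ≠ 0) with hN'
  set P : Finset (Eis × Eis) := N'.image (fun n => (dec n).2) with hP
  set W : ℝ := ∑ p ∈ P, 1 / ((nm p.1 : ℝ) * (nm p.2 : ℝ)) with hW
  have hZ0 : 0 < Z := by linarith
  have hH0 : 0 < H := by linarith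
  have hL0 : 0 < L := by linarith
  have hA2 : 0 ≤ A ^ 2 := sq_nonneg A
  -- facts on P
  have hPf : ∀ p ∈ P, 1 ≤ (nm p.1 : ℝ) ∧ 1 ≤ (nm p.2 : ℝ) ∧ L ≤ QQ p ∧ 1 ≤ Z / QQ p ∧
      p.1 ∈ nz Z ∧ p.2 ∈ nz Z := by
    intro p hp
    rw [hP, mem_image] at hp
    obtain ⟨n, hn, rfl⟩ := hp
    rw [hN', mem_filter, hN] at hn
    have hn1 := mem_primBall_floor.mp hn.1
    obtain ⟨s1, s2, s3, s4, s5, s6, s7⟩ := dec_spec hn1.2
    have h1 : (1 : ℝ) ≤ nm (dec n).2.1 := one_le_nm' s2.ne_zero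
    have h2 : (1 : ℝ) ≤ nm (dec n).2.2 := one_le_nm' s3.ne_zero
    have h3 : (1 : ℝ) ≤ nm (dec n).1 := one_le_nm' s1.ne_zero
    have hLq : L ≤ QQ (dec n).2 := hsupp n hn.1 hn.2 _ _ _ s1 s2 s3 s4 s5 s6 s7
    have hQ0 : 0 < QQ (dec n).2 := by linarith
    have h4 := nm_eq_dec hn1.2
    have hQZ : QQ (dec n).2 ≤ Z := by
      calc QQ (dec n).2 = 1 * QQ (dec n).2 := (one_mul _).symm
        _ ≤ (nm (dec n).1 : ℝ) * QQ (dec n).2 := mul_le_mul_of_nonneg_right h3 hQ0.le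
        _ = nm n := h4.symm
        _ ≤ Z := hn1.1
    have h5 : (nm (dec n).2.1 : ℝ) ≤ QQ (dec n).2 := by
      unfold QQ
      calc (nm (dec n).2.1 : ℝ) = (nm (dec n).2.1 : ℝ) ^ 1 * 1 := by ring
        _ ≤ (nm (dec n).2.1 : ℝ) ^ 2 * (nm (dec n).2.2 : ℝ) ^ 3 :=
          mul_le_mul (pow_le_pow_right₀ h1 (by norm_num)) (one_le_pow₀ h2) (by norm_num)
            (by positivity)
    have h6 : (nm (dec n).2.2 : ℝ) ≤ QQ (dec n).2 := by
      unfold QQ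
      calc (nm (dec n).2.2 : ℝ) = 1 * (nm (dec n).2.2 : ℝ) ^ 1 := by ring
        _ ≤ (nm (dec n).2.1 : ℝ) ^ 2 * (nm (dec n).2.2 : ℝ) ^ 3 :=
          mul_le_mul (one_le_pow₀ h1) (pow_le_pow_right₀ h2 (by norm_num)) (by positivity)
            (by positivity)
    refine ⟨h1, h2, hLq, ?_, ?_, ?_⟩
    · rw [le_div_iff₀ hQ0, one_mul]; exact hQZ
    · rw [mem_nz]; exact ⟨s2.ne_zero, h5.trans hQZ⟩
    · rw [mem_nz]; exact ⟨s3.ne_zero, h6.trans hQZ⟩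
  have hW0 : 0 ≤ W := sum_nonneg fun p _ => by positivity
  have hWle : W ≤ (C1 * Z ^ (ε / 8)) ^ 2 := by
    have h1 : W ≤ LL Z * LL Z := by
      unfold LL
      rw [sum_mul_sum, ← sum_product', hW]
      have hsub : P ⊆ nz Z ×ˢ nz Z := by
        intro p hp
        rw [mem_product]
        exact ⟨(hPf p hp).2.2.2.2.1, (hPf p hp).2.2.2.2.2⟩
      calc ∑ p ∈ P, 1 / ((nm p.1 : ℝ) * (nm p.2 : ℝ))
          ≤ ∑ p ∈ nz Z ×ˢ nz Z, 1 / ((nm p.1 : ℝ) * (nm p.2 : ℝ)) :=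
            sum_le_sum_of_subset_of_nonneg hsub fun _ _ _ => by positivity
        _ = _ := sum_congr rfl fun p _ => by rw [one_div_mul_one_div]
    have h2 := hLL Z hZ
    have h3 : 0 ≤ LL Z := LL_nonneg Z
    calc W ≤ LL Z * LL Z := h1
      _ ≤ (C1 * Z ^ (ε / 8)) * (C1 * Z ^ (ε / 8)) := mul_le_mul h2 h2 h3 (h3.trans h2)
      _ = _ := by ring
  -- the sum over n, split in blocks
  have hsplit : ∀ h ∈ S H, ‖∑ n ∈ N, a n * sy n h‖ ^ 2 ≤
      W * ∑ p ∈ P, ((nm p.1 : ℝ) * (nm p.2 : ℝ)) *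
        ‖∑ n ∈ N.filter (fun n => (dec n).2 = p), a n * sy (dec n).1 h‖ ^ 2 := by
    intro h hh
    have hhp : IsPrim h := by
      unfold S at hh
      rw [mem_filter, mem_primBall] at hh
      exact hh.1.2
    have e1 : ∑ n ∈ N, a n * sy n h = ∑ n ∈ N', a n * sy n h := by
      rw [hN', sum_filter]
      refine sum_congr rfl fun n _ => ?_
      by_cases hz : a n = 0
      · simp [hz]
      · simp [hz]
    have e2 : ∑ n ∈ N', a n * sy n h = ∑ p ∈ P, ∑ n ∈ N'.filter (fun n => (dec n).2 = p),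
        a n * sy n h :=
      (sum_fiberwise_of_maps_to (fun n hn => mem_image_of_mem _ hn) _).symm
    have e3 : ∀ p ∈ P, ‖∑ n ∈ N'.filter (fun n => (dec n).2 = p), a n * sy n h‖ ≤
        ‖∑ n ∈ N.filter (fun n => (dec n).2 = p), a n * sy (dec n).1 h‖ := by
      intro p _
      have e4 : ∑ n ∈ N'.filter (fun n => (dec n).2 = p), a n * sy n h =
          (∑ n ∈ N'.filter (fun n => (dec n).2 = p), a n * sy (dec n).1 h) *
            sy (p.1 ^ 2 * p.2 ^ 3) h := by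
        rw [sum_mul]
        refine sum_congr rfl fun n hn => ?_
        rw [mem_filter, hN', mem_filter, hN] at hn
        have hn1 := mem_primBall_floor.mp hn.1.1
        have s7 := (dec_spec hn1.2).2.2.2.2.2.2
        rw [mul_assoc, ← hsy.mul_left _ _ _ hhp, ← hn.2, ← mul_assoc, ← s7]
      have e5 : ∑ n ∈ N'.filter (fun n => (dec n).2 = p), a n * sy (dec n).1 h =
          ∑ n ∈ N.filter (fun n => (dec n).2 = p), a n * sy (dec n).1 h := by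
        rw [hN', filter_filter, sum_filter, sum_filter]
        refine sum_congr rfl fun n _ => ?_
        by_cases hz : a n = 0
        · simp [hz]
        · simp [hz]
      rw [e4, e5, norm_mul]
      exact mul_le_of_le_one_right (norm_nonneg _) (hsy.norm_le _ _ hhp)
    have e6 : ‖∑ n ∈ N, a n * sy n h‖ ≤
        ∑ p ∈ P, ‖∑ n ∈ N.filter (fun n => (dec n).2 = p), a n * sy (dec n).1 h‖ := by
      rw [e1, e2]
      exact (norm_sum_le _ _).trans (sum_le_sum e3)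
    have e7 : (∑ p ∈ P, ‖∑ n ∈ N.filter (fun n => (dec n).2 = p), a n * sy (dec n).1 h‖) ^ 2 ≤
        (∑ p ∈ P, 1 / ((nm p.1 : ℝ) * (nm p.2 : ℝ))) *
          ∑ p ∈ P, ((nm p.1 : ℝ) * (nm p.2 : ℝ)) *
            ‖∑ n ∈ N.filter (fun n => (dec n).2 = p), a n * sy (dec n).1 h‖ ^ 2 := by
      refine sum_sq_le_sum_mul_sum_of_sq_le_mul _ (fun p _ => by positivity)
        (fun p _ => by positivity) (fun p hp => ?_)
      have h1 := (hPf p hp).1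
      have h2 := (hPf p hp).2.1
      have h1' : (nm p.1 : ℝ) ≠ 0 := by linarith
      have h2' : (nm p.2 : ℝ) ≠ 0 := by linarith
      refine le_of_eq ?_
      field_simp
    exact (pow_le_pow_left₀ (norm_nonneg _) e6 2).trans e7
  -- sum over h
  have hblock : ∀ p ∈ P, ((nm p.1 : ℝ) * (nm p.2 : ℝ)) *
      ∑ h ∈ S H, ‖∑ n ∈ N.filter (fun n => (dec n).2 = p), a n * sy (dec n).1 h‖ ^ 2 ≤
      (1 / ((nm p.1 : ℝ) * (nm p.2 : ℝ))) * (16 * C * (H * Z) ^ (ε / 2) * A ^ 2 * Z *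
        (H + L ^ (-(2 / 3) : ℝ) * (Z + (H * Z) ^ ((2 : ℝ) / 3)))) := by
    intro p hp
    obtain ⟨h1, h2, h3, h4, -, -⟩ := hPf p hp
    have hQ0 : 0 < QQ p := by linarith
    have hb := block hsy (H := H) (Z := Z) (A := A)
      (C := C * (H * (Z / QQ p)) ^ (ε / 2) * (H + Z / QQ p + (H * (Z / QQ p)) ^ ((2 : ℝ) / 3)))
      (by positivity) ha p hQ0 h4 (hHB H (Z / QQ p) hH h4)
    have hwQ : ((nm p.1 : ℝ) * (nm p.2 : ℝ)) ^ 2 ≤ QQ p := by
      unfold QQ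
      rw [mul_pow]
      exact mul_le_mul_of_nonneg_left (pow_le_pow_right₀ h2 (by norm_num)) (by positivity)
    have hbw := block_weight (H := H) (Z := Z) (L := L) (Q := QQ p)
      (w := (nm p.1 : ℝ) * (nm p.2 : ℝ)) hH0.le hZ0.le hL h3 (by positivity) hwQ
    have hZQ : Z / QQ p ≤ Z := by
      rw [div_le_iff₀ hQ0]
      nlinarith
    have hpow : (H * (Z / QQ p)) ^ (ε / 2) ≤ (H * Z) ^ (ε / 2) :=
      Real.rpow_le_rpow (by positivity) (by gcongr) (by linarith)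
    set T := ∑ h ∈ S H, ‖∑ n ∈ N.filter (fun n => (dec n).2 = p), a n * sy (dec n).1 h‖ ^ 2
      with hT
    calc ((nm p.1 : ℝ) * (nm p.2 : ℝ)) * T
        ≤ ((nm p.1 : ℝ) * (nm p.2 : ℝ)) * ((C * (H * (Z / QQ p)) ^ (ε / 2) *
          (H + Z / QQ p + (H * (Z / QQ p)) ^ ((2 : ℝ) / 3))) * (A ^ 2 * (16 * (Z / QQ p)))) :=
          mul_le_mul_of_nonneg_left hb (by positivity)
      _ = (16 * C * A ^ 2) * (H * (Z / QQ p)) ^ (ε / 2) * (((nm p.1 : ℝ) * (nm p.2 : ℝ)) *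
          ((Z / QQ p) * (H + Z / QQ p + (H * (Z / QQ p)) ^ ((2 : ℝ) / 3)))) := by ring
      _ ≤ (16 * C * A ^ 2) * (H * Z) ^ (ε / 2) * (Z / ((nm p.1 : ℝ) * (nm p.2 : ℝ)) *
          (H + L ^ (-(2 / 3) : ℝ) * (Z + (H * Z) ^ ((2 : ℝ) / 3)))) := by
          gcongr
      _ = _ := by ring
  set G := 16 * C * (H * Z) ^ (ε / 2) * A ^ 2 * Z *
        (H + L ^ (-(2 / 3) : ℝ) * (Z + (H * Z) ^ ((2 : ℝ) / 3))) with hG
  have hG0 : 0 ≤ G := by positivity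
  have hfin : ∑ h ∈ S H, ‖∑ n ∈ N, a n * sy n h‖ ^ 2 ≤ W ^ 2 * G := by
    calc ∑ h ∈ S H, ‖∑ n ∈ N, a n * sy n h‖ ^ 2
        ≤ ∑ h ∈ S H, W * ∑ p ∈ P, ((nm p.1 : ℝ) * (nm p.2 : ℝ)) *
          ‖∑ n ∈ N.filter (fun n => (dec n).2 = p), a n * sy (dec n).1 h‖ ^ 2 :=
          sum_le_sum hsplit
      _ = W * ∑ p ∈ P, ((nm p.1 : ℝ) * (nm p.2 : ℝ)) * ∑ h ∈ S H,
          ‖∑ n ∈ N.filter (fun n => (dec n).2 = p), a n * sy (dec n).1 h‖ ^ 2 := by
          rw [← mul_sum, sum_comm]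
          congr 1
          refine sum_congr rfl fun p _ => ?_
          rw [mul_sum]
      _ ≤ W * ∑ p ∈ P, (1 / ((nm p.1 : ℝ) * (nm p.2 : ℝ))) * G :=
          mul_le_mul_of_nonneg_left (sum_le_sum hblock) hW0
      _ = W ^ 2 * G := by rw [← sum_mul, ← hW]; ring
  refine hfin.trans ?_
  have hW2 : W ^ 2 ≤ C1 ^ 4 * (H * Z) ^ (ε / 2) := by
    calc W ^ 2 ≤ ((C1 * Z ^ (ε / 8)) ^ 2) ^ 2 := pow_le_pow_left₀ hW0 hWle 2
      _ = C1 ^ 4 * (Z ^ (ε / 8)) ^ 4 := by ring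
      _ = C1 ^ 4 * Z ^ (ε / 2) := by
          have : (Z ^ (ε / 8)) ^ 4 = Z ^ (ε / 2) := by
            rw [← Real.rpow_natCast (Z ^ (ε / 8)) 4, ← Real.rpow_mul hZ0.le]
            congr 1
            push_cast
            ring
          rw [this]
      _ ≤ C1 ^ 4 * (H * Z) ^ (ε / 2) := by
          have : Z ^ (ε / 2) ≤ (H * Z) ^ (ε / 2) := by
            apply Real.rpow_le_rpow hZ0.le _ (by linarith)
            nlinarith
          gcongr
  calc W ^ 2 * G ≤ (C1 ^ 4 * (H * Z) ^ (ε / 2)) * G := mul_le_mul_of_nonneg_right hW2 hG0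
    _ = 16 * C * C1 ^ 4 * ((H * Z) ^ (ε / 2) * (H * Z) ^ (ε / 2)) * A ^ 2 * Z *
        (H + L ^ (-(2 / 3) : ℝ) * (Z + (H * Z) ^ ((2 : ℝ) / 3))) := by rw [hG]; ring
    _ = _ := by
        rw [← Real.rpow_add (by positivity), add_halves]

/-- the case `L = 1` -/
theorem gls_one (hsy : SyF) (hF : Final) : ∀ ε : ℝ, 0 < ε → ∃ K : ℝ, 0 < K ∧
    ∀ H Z A : ℝ, 1 ≤ H → 1 ≤ Z → ∀ a : Eis → ℂ,
      (∀ n ∈ primBall ⌊Z⌋₊, ‖a n‖ ≤ A) →
      ∑ h ∈ S H, ‖∑ n ∈ primBall ⌊Z⌋₊, a n * sy n h‖ ^ 2 ≤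
        K * (H * Z) ^ ε * A ^ 2 * Z * (H + Z + (H * Z) ^ ((2 : ℝ) / 3)) := by
  intro ε hε
  obtain ⟨K, hK, h⟩ := gls hsy hF ε hε
  refine ⟨K, hK, fun H Z A hH hZ a ha => ?_⟩
  have h1 := h H Z A 1 hH hZ le_rfl a ha (fun n _ _ k1 k2 m _ h2 h3 _ _ _ _ => by
    have e1 := one_le_nm' h2.ne_zero
    have e2 := one_le_nm' h3.ne_zero
    exact one_le_mul_of_one_le_of_one_le (one_le_pow₀ e1) (one_le_pow₀ e2))
  rw [Real.one_rpow, one_mul, ← add_assoc] at h1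
  exact h1

end Crest.Agent.R012.GLS106
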