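import Mathlib

/-!
# Row 12: Mellin inversion for `exp (-x)` (helper448)

* `norm_Gamma_le` : `‖Γ(σ+it)‖ ≤ Γ(σ+2) / (‖σ+it‖ ‖σ+1+it‖)`
* `norm_Gamma_le'` : `‖Γ(σ+it)‖ ≤ Γ(σ+2) / (σ² + t²)`
* `integrable_Gamma_vertical`, `integrable_norm_Gamma_vertical`
* `exp_neg_eq_integral` : `exp(-x) = (1/2π) ∫ Γ(σ+it) x^{-(σ+it)} dt`
-/

set_option autoImplicit false

noncomputable section

open MeasureTheory Complex

namespace Crest.Agent.R012.MellinExp448

/-- trivial bound for `Γ` on vertical lines -/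
lemma norm_Gamma_le_re {s : ℂ} (hs : 0 < s.re) : ‖Complex.Gamma s‖ ≤ Real.Gamma s.re := by
  rw [Complex.Gamma_eq_integral hs, Complex.GammaIntegral, Real.Gamma_eq_integral hs]
  refine (norm_integral_le_integral_norm _).trans (le_of_eq ?_)
  refine setIntegral_congr_fun measurableSet_Ioi (fun x hx => ?_)
  have hx' : (0 : ℝ) < x := hx
  simp only [norm_mul, Complex.norm_real, Real.norm_eq_abs, abs_of_pos (Real.exp_pos _)]
  rw [Complex.norm_cpow_eq_rpow_re_of_pos hx']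
  simp

lemma Gamma_eq_div {s : ℂ} (hs : 0 < s.re) :
    Complex.Gamma s = Complex.Gamma (s + 2) / (s * (s + 1)) := by
  have h0 : s ≠ 0 := by
    rintro rfl; simp at hs
  have h1 : s + 1 ≠ 0 := by
    intro h
    have := congrArg Complex.re h
    simp at this
    linarith
  have e1 := Complex.Gamma_add_one s h0
  have e2 := Complex.Gamma_add_one (s + 1) h1
  have e3 : s + 2 = s + 1 + 1 := by ring
  rw [e3, e2, e1]
  field_simp

lemma norm_Gamma_le {σ : ℝ} (hσ : 0 < σ) (t : ℝ) :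
    ‖Complex.Gamma (σ + t * I)‖ ≤
      Real.Gamma (σ + 2) / (‖(σ : ℂ) + t * I‖ * ‖(σ : ℂ) + t * I + 1‖) := by
  have hre : ((σ : ℂ) + t * I).re = σ := by simp
  have hs : 0 < ((σ : ℂ) + t * I).re := by rw [hre]; exact hσ
  rw [Gamma_eq_div hs, norm_div, norm_mul]
  have h2 : ‖Complex.Gamma ((σ : ℂ) + t * I + 2)‖ ≤ Real.Gamma (σ + 2) := by
    have hre2 : ((σ : ℂ) + t * I + 2).re = σ + 2 := by simp
    have := norm_Gamma_le_re (s := (σ : ℂ) + t * I + 2) (by rw [hre2]; linarith)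
    rwa [hre2] at this
  gcongr

lemma norm_sq_ge (σ t : ℝ) : ‖(σ : ℂ) + t * I‖ ^ 2 = σ ^ 2 + t ^ 2 := by
  rw [← Complex.normSq_eq_norm_sq, Complex.normSq_apply]
  simp; ring

lemma norm_add_one_ge {σ : ℝ} (hσ : 0 < σ) (t : ℝ) :
    ‖(σ : ℂ) + t * I‖ ≤ ‖(σ : ℂ) + t * I + 1‖ := by
  have h1 : ‖(σ : ℂ) + t * I + 1‖ ^ 2 = (σ + 1) ^ 2 + t ^ 2 := by
    have := norm_sq_ge (σ + 1) t
    rw [← this]
    congr 2
    push_cast; ring
  have h2 := norm_sq_ge σ t
  refine le_of_sq_le_sq ?_ (norm_nonneg _)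
  rw [h1, h2]
  nlinarith

/-- `‖Γ(σ+it)‖ ≤ Γ(σ+2) / (σ² + t²)` -/
lemma norm_Gamma_le' {σ : ℝ} (hσ : 0 < σ) (t : ℝ) :
    ‖Complex.Gamma (σ + t * I)‖ ≤ Real.Gamma (σ + 2) / (σ ^ 2 + t ^ 2) := by
  refine (norm_Gamma_le hσ t).trans ?_
  have hG : 0 < Real.Gamma (σ + 2) := Real.Gamma_pos_of_pos (by linarith)
  have hpos : 0 < σ ^ 2 + t ^ 2 := by positivity
  have h1 : σ ^ 2 + t ^ 2 ≤ ‖(σ : ℂ) + t * I‖ * ‖(σ : ℂ) + t * I + 1‖ := by
    rw [← norm_sq_ge, pow_two]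
    exact mul_le_mul_of_nonneg_left (norm_add_one_ge hσ t) (norm_nonneg _)
  exact div_le_div_of_nonneg_left hG.le hpos h1

lemma continuous_Gamma_vertical {σ : ℝ} (hσ : 0 < σ) :
    Continuous (fun t : ℝ => Complex.Gamma ((σ : ℂ) + t * I)) := by
  rw [continuous_iff_continuousAt]
  intro t
  have hd : DifferentiableAt ℂ Complex.Gamma ((σ : ℂ) + t * I) := by
    apply Complex.differentiableAt_Gamma
    intro m h
    have := congrArg Complex.re h
    simp at this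
    have hm : (0 : ℝ) ≤ m := Nat.cast_nonneg m
    linarith
  exact ContinuousAt.comp (f := fun t : ℝ => (σ : ℂ) + t * I) hd.continuousAt (by fun_prop)

lemma integrable_inv_sq_add {σ : ℝ} (hσ : 0 < σ) :
    Integrable (fun t : ℝ => Real.Gamma (σ + 2) / (σ ^ 2 + t ^ 2)) := by
  have h := (integrable_inv_one_add_sq).comp_div (ne_of_gt hσ)
  have h2 := h.const_mul (Real.Gamma (σ + 2) / σ ^ 2)
  refine h2.congr (Filter.Eventually.of_forall fun t => ?_)
  simp only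
  have hσ' : σ ≠ 0 := ne_of_gt hσ
  have h3 : σ ^ 2 + t ^ 2 ≠ 0 := by positivity
  have h4 : 1 + (t / σ) ^ 2 ≠ 0 := by positivity
  field_simp

lemma integrable_Gamma_vertical {σ : ℝ} (hσ : 0 < σ) :
    Integrable (fun t : ℝ => Complex.Gamma ((σ : ℂ) + t * I)) := by
  refine (integrable_inv_sq_add hσ).mono' (continuous_Gamma_vertical hσ).aestronglyMeasurable
    (Filter.Eventually.of_forall fun t => norm_Gamma_le' hσ t)

lemma integral_norm_Gamma_vertical_le {σ : ℝ} (hσ : 0 < σ) :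
    ∫ t : ℝ, ‖Complex.Gamma ((σ : ℂ) + t * I)‖ ≤ Real.pi * Real.Gamma (σ + 2) / σ := by
  calc ∫ t : ℝ, ‖Complex.Gamma ((σ : ℂ) + t * I)‖
      ≤ ∫ t : ℝ, Real.Gamma (σ + 2) / (σ ^ 2 + t ^ 2) :=
        integral_mono (integrable_Gamma_vertical hσ).norm (integrable_inv_sq_add hσ)
          (fun t => norm_Gamma_le' hσ t)
    _ = ∫ t : ℝ, (Real.Gamma (σ + 2) / σ ^ 2) * (1 + (t / σ) ^ 2)⁻¹ := by
        congr 1
        funext t
        have hσ' : σ ≠ 0 := ne_of_gt hσ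
        have h3 : σ ^ 2 + t ^ 2 ≠ 0 := by positivity
        have h4 : 1 + (t / σ) ^ 2 ≠ 0 := by positivity
        field_simp
    _ = Real.pi * Real.Gamma (σ + 2) / σ := by
        rw [integral_const_mul]
        have h5 : ∫ t : ℝ, (1 + (t / σ) ^ 2)⁻¹ = σ * Real.pi := by
          have := Measure.integral_comp_div (fun t : ℝ => (1 + t ^ 2)⁻¹) σ
          rw [this, abs_of_pos hσ, integral_univ_inv_one_add_sq, smul_eq_mul]
        rw [h5]
        have hσ' : σ ≠ 0 := ne_of_gt hσ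
        field_simp

lemma mellin_exp_neg {s : ℂ} (hs : 0 < s.re) :
    mellin (fun x : ℝ => ((Real.exp (-x) : ℝ) : ℂ)) s = Complex.Gamma s := by
  rw [Complex.Gamma_eq_integral hs, Complex.GammaIntegral_eq_mellin]

/-- Mellin inversion: `exp(-x) = (1/2π) ∫ Γ(σ+it) x^{-(σ+it)} dt`. -/
theorem exp_neg_eq_integral {σ x : ℝ} (hσ : 0 < σ) (hx : 0 < x) :
    ((Real.exp (-x) : ℝ) : ℂ) =
      (1 / (2 * Real.pi) : ℝ) *
        ∫ t : ℝ, Complex.Gamma ((σ : ℂ) + t * I) * (x : ℂ) ^ (-((σ : ℂ) + t * I)) := by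
  have hconv : MellinConvergent (fun x : ℝ => ((Real.exp (-x) : ℝ) : ℂ)) (σ : ℂ) := by
    have := Complex.GammaIntegral_convergent (s := (σ : ℂ)) (by simpa using hσ)
    refine this.congr_fun (fun x hx => ?_) measurableSet_Ioi
    simp [mul_comm]
  have hv : VerticalIntegrable (mellin (fun x : ℝ => ((Real.exp (-x) : ℝ) : ℂ))) σ := by
    unfold VerticalIntegrable
    refine (integrable_Gamma_vertical hσ).congr (Filter.Eventually.of_forall fun t => ?_)
    simp only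
    rw [mellin_exp_neg (by simpa using hσ)]
  have hc : ContinuousAt (fun x : ℝ => ((Real.exp (-x) : ℝ) : ℂ)) x := by fun_prop
  have key := mellinInv_mellin_eq σ (fun x : ℝ => ((Real.exp (-x) : ℝ) : ℂ)) hx hconv hv hc
  rw [← key, mellinInv]
  simp only [Complex.real_smul, smul_eq_mul]
  congr 1
  refine integral_congr_ae (Filter.Eventually.of_forall fun t => ?_)
  simp only
  rw [mellin_exp_neg (by simpa using hσ)]
  ring

/-- the integrand of `exp_neg_eq_integral` is integrable -/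
lemma integrable_integrand {σ x : ℝ} (hσ : 0 < σ) (hx : 0 < x) :
    Integrable (fun t : ℝ => Complex.Gamma ((σ : ℂ) + t * I) * (x : ℂ) ^ (-((σ : ℂ) + t * I))) := by
  have hx0 : (x : ℂ) ≠ 0 := by exact_mod_cast ne_of_gt hx
  have hcont : Continuous (fun t : ℝ => (x : ℂ) ^ (-((σ : ℂ) + t * I))) := by
    refine Continuous.const_cpow (by fun_prop) (Or.inl hx0)
  refine (integrable_Gamma_vertical hσ).mul_bdd (c := x ^ (-σ)) hcont.aestronglyMeasurable ?_
  refine Filter.Eventually.of_forall fun t => ?_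
  rw [Complex.norm_cpow_eq_rpow_re_of_pos hx]
  simp

end Crest.Agent.R012.MellinExp448
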