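import Crest.Agent.R012.Defs
import Crest.Agent.R012.MellinExp_448

/-!
# Row 12: Mellin separation of `exp (-y / (nm k₁ nm k₂))`

* `dp K β s = Σ_{k ∈ K} β k (nm k)^(s - 1/2)`
* `mellin_sep`: for `0 < σ ≤ 1`, `0 < y`, `K` a finite set of nonzero elements
  `‖Σ_{k₁,k₂ ∈ K} β k₁ (nm k₁)^(-1/2) conj (β k₂ (nm k₂)^(-1/2)) exp (-y/(nm k₁ nm k₂))‖
     ≤ csig σ * y^(-σ) * ∫ (1+t²)⁻¹ ‖dp K β (σ+it)‖² dt`.
-/

set_option autoImplicit false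

noncomputable section

open MeasureTheory Complex Finset
open scoped ComplexConjugate

namespace Crest.Agent.R012.MelSep811

open Eis

/-- Dirichlet polynomial `Σ_{k ∈ K} β k (nm k)^(s - 1/2)`. -/
def dp (K : Finset Eis) (β : Eis → ℂ) (s : ℂ) : ℂ := ∑ k ∈ K, β k * (nm k : ℂ) ^ (s - 1 / 2)

/-- The constant of `mellin_sep`. -/
def csig (σ : ℝ) : ℝ := (2 * Real.pi)⁻¹ * (Real.Gamma (σ + 2) / σ ^ 2)

lemma csig_pos {σ : ℝ} (hσ : 0 < σ) : 0 < csig σ := by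
  have : 0 < Real.Gamma (σ + 2) := Real.Gamma_pos_of_pos (by linarith)
  unfold csig; positivity

lemma norm_Gamma_le_inv {σ : ℝ} (hσ : 0 < σ) (hσ1 : σ ≤ 1) (t : ℝ) :
    ‖Complex.Gamma (σ + t * I)‖ ≤ Real.Gamma (σ + 2) / σ ^ 2 * (1 + t ^ 2)⁻¹ := by
  refine (MellinExp448.norm_Gamma_le' hσ t).trans ?_
  have hG : 0 < Real.Gamma (σ + 2) := Real.Gamma_pos_of_pos (by linarith)
  rw [← div_eq_mul_inv, div_div]
  apply div_le_div_of_nonneg_left hG.le (by positivity)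
  have : σ ^ 2 * t ^ 2 ≤ 1 * t ^ 2 := by
    apply mul_le_mul_of_nonneg_right _ (sq_nonneg t)
    nlinarith
  nlinarith

lemma natCast_arg_ne_pi (n : ℕ) : ((n : ℕ) : ℂ).arg ≠ Real.pi := by
  rw [Complex.natCast_arg]; exact Real.pi_ne_zero.symm

lemma conj_natCast_cpow (n : ℕ) (z : ℂ) : conj ((n : ℂ) ^ z) = (n : ℂ) ^ (conj z) := by
  have := Complex.cpow_conj (n : ℂ) z (natCast_arg_ne_pi n)
  rw [this, Complex.conj_natCast]

lemma div_cpow_neg {y : ℝ} (hy : 0 < y) {m n : ℕ} (hm : 0 < m) (hn : 0 < n) (s : ℂ) :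
    (((y / ((m : ℝ) * (n : ℝ)) : ℝ)) : ℂ) ^ (-s) = (y : ℂ) ^ (-s) * (m : ℂ) ^ s * (n : ℂ) ^ s := by
  have e : (((y / ((m : ℝ) * (n : ℝ)) : ℝ)) : ℂ) =
      (y : ℂ) * (((m : ℝ)⁻¹ : ℝ) : ℂ) * (((n : ℝ)⁻¹ : ℝ) : ℂ) := by
    push_cast; field_simp
  have hm' : (0 : ℝ) < (m : ℝ)⁻¹ := by positivity
  have hn' : (0 : ℝ) < (n : ℝ)⁻¹ := by positivity
  rw [e, show (y : ℂ) * (((m : ℝ)⁻¹ : ℝ) : ℂ) = ((y * (m : ℝ)⁻¹ : ℝ) : ℂ) by push_cast; ring,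
    Complex.mul_cpow_ofReal_nonneg (by positivity) hn'.le]
  rw [show ((y * (m : ℝ)⁻¹ : ℝ) : ℂ) = (y : ℂ) * (((m : ℝ)⁻¹ : ℝ) : ℂ) by push_cast; ring,
    Complex.mul_cpow_ofReal_nonneg hy.le hm'.le]
  have key : ∀ k : ℕ, 0 < k → (((k : ℝ)⁻¹ : ℝ) : ℂ) ^ (-s) = (k : ℂ) ^ s := by
    intro k hk
    rw [Complex.ofReal_inv, Complex.ofReal_natCast,
      Complex.inv_cpow _ _ (natCast_arg_ne_pi k), Complex.cpow_neg, inv_inv]
  rw [key m hm, key n hn]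

lemma continuous_dp (K : Finset Eis) (β : Eis → ℂ) (hK : ∀ k ∈ K, k ≠ 0) (σ : ℝ) :
    Continuous (fun t : ℝ => dp K β ((σ : ℂ) + t * I)) := by
  unfold dp
  apply continuous_finsetSum
  intro k hk
  have h0 : ((nm k : ℕ) : ℂ) ≠ 0 := by
    have := nm_pos.mpr (hK k hk)
    exact_mod_cast this.ne'
  apply Continuous.mul continuous_const
  exact Continuous.const_cpow (by fun_prop) (Or.inl h0)

lemma norm_dp_le (K : Finset Eis) (β : Eis → ℂ) (hK : ∀ k ∈ K, k ≠ 0) (σ t : ℝ) :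
    ‖dp K β ((σ : ℂ) + t * I)‖ ≤ ∑ k ∈ K, ‖β k‖ * (nm k : ℝ) ^ (σ - 1 / 2) := by
  unfold dp
  refine (norm_sum_le _ _).trans ?_
  apply Finset.sum_le_sum
  intro k hk
  have hpos := nm_pos.mpr (hK k hk)
  rw [norm_mul, Complex.norm_natCast_cpow_of_pos hpos]
  simp

lemma integrable_dp_sq (K : Finset Eis) (β : Eis → ℂ) (hK : ∀ k ∈ K, k ≠ 0) (σ : ℝ) :
    Integrable (fun t : ℝ => (1 + t ^ 2)⁻¹ * ‖dp K β ((σ : ℂ) + t * I)‖ ^ 2) := by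
  refine (integrable_inv_one_add_sq).mul_bdd
    (c := (∑ k ∈ K, ‖β k‖ * (nm k : ℝ) ^ (σ - 1 / 2)) ^ 2)
    (((continuous_dp K β hK σ).norm.pow 2).aestronglyMeasurable)
    (Filter.Eventually.of_forall fun t => ?_)
  rw [Real.norm_eq_abs, abs_of_nonneg (by positivity)]
  gcongr
  exact norm_dp_le K β hK σ t

/-- exact formula -/
lemma mellin_exact (K : Finset Eis) (β : Eis → ℂ) (hK : ∀ k ∈ K, k ≠ 0) {σ y : ℝ} (hσ : 0 < σ)
    (hy : 0 < y) :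
    ∑ k1 ∈ K, ∑ k2 ∈ K, (β k1 * (nm k1 : ℂ) ^ (-(1 / 2) : ℂ)) *
        conj (β k2 * (nm k2 : ℂ) ^ (-(1 / 2) : ℂ)) *
        ((Real.exp (-(y / ((nm k1 : ℝ) * (nm k2 : ℝ)))) : ℝ) : ℂ) =
      (1 / (2 * Real.pi) : ℝ) * ∫ t : ℝ, Complex.Gamma ((σ : ℂ) + t * I) *
        (y : ℂ) ^ (-((σ : ℂ) + t * I)) *
          (dp K β ((σ : ℂ) + t * I) * conj (dp K β ((σ : ℂ) + (-t : ℝ) * I))) := by
  have hpos : ∀ k ∈ K, 0 < nm k := fun k hk => nm_pos.mpr (hK k hk)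
  have h1 : ∀ k1 ∈ K, ∀ k2 ∈ K, (β k1 * (nm k1 : ℂ) ^ (-(1 / 2) : ℂ)) *
        conj (β k2 * (nm k2 : ℂ) ^ (-(1 / 2) : ℂ)) *
        ((Real.exp (-(y / ((nm k1 : ℝ) * (nm k2 : ℝ)))) : ℝ) : ℂ) =
      (1 / (2 * Real.pi) : ℝ) * ∫ t : ℝ, Complex.Gamma ((σ : ℂ) + t * I) *
        (y : ℂ) ^ (-((σ : ℂ) + t * I)) *
          ((β k1 * (nm k1 : ℂ) ^ ((σ : ℂ) + t * I - 1 / 2)) *
            conj (β k2 * (nm k2 : ℂ) ^ ((σ : ℂ) + (-t : ℝ) * I - 1 / 2))) := by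
    intro k1 hk1 k2 hk2
    have p1 := hpos k1 hk1
    have p2 := hpos k2 hk2
    have q1 : ((nm k1 : ℕ) : ℂ) ≠ 0 := by exact_mod_cast p1.ne'
    have q2 : ((nm k2 : ℕ) : ℂ) ≠ 0 := by exact_mod_cast p2.ne'
    have hx : 0 < y / ((nm k1 : ℝ) * (nm k2 : ℝ)) := by
      have : (0 : ℝ) < nm k1 := by exact_mod_cast p1
      have : (0 : ℝ) < nm k2 := by exact_mod_cast p2
      positivity
    rw [MellinExp448.exp_neg_eq_integral hσ hx, mul_left_comm, ← integral_const_mul]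
    congr 2
    funext t
    rw [div_cpow_neg hy p1 p2]
    simp only [map_mul, conj_natCast_cpow]
    have e1 : conj (-(1 / 2) : ℂ) = -(1 / 2) := by
      rw [map_neg, map_div₀, map_one, map_ofNat]
    have e2 : conj ((σ : ℂ) + (-t : ℝ) * I - 1 / 2) = (σ : ℂ) + t * I - 1 / 2 := by
      simp only [map_sub, map_add, map_mul, map_div₀, map_one, map_ofNat, Complex.conj_ofReal,
        Complex.conj_I]
      push_cast; ring
    rw [e1, e2, show (σ : ℂ) + t * I - 1 / 2 = ((σ : ℂ) + t * I) + (-(1 / 2)) by ring,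
      Complex.cpow_add ((σ : ℂ) + t * I) (-(1 / 2)) q1,
      Complex.cpow_add ((σ : ℂ) + t * I) (-(1 / 2)) q2]
    ring
  have hint : ∀ k1 ∈ K, ∀ k2 ∈ K, Integrable (fun t : ℝ => Complex.Gamma ((σ : ℂ) + t * I) *
        (y : ℂ) ^ (-((σ : ℂ) + t * I)) *
          ((β k1 * (nm k1 : ℂ) ^ ((σ : ℂ) + t * I - 1 / 2)) *
            conj (β k2 * (nm k2 : ℂ) ^ ((σ : ℂ) + (-t : ℝ) * I - 1 / 2)))) := by
    intro k1 hk1 k2 hk2
    have p1 := hpos k1 hk1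
    have p2 := hpos k2 hk2
    have q1 : ((nm k1 : ℕ) : ℂ) ≠ 0 := by exact_mod_cast p1.ne'
    have q2 : ((nm k2 : ℕ) : ℂ) ≠ 0 := by exact_mod_cast p2.ne'
    refine (MellinExp448.integrable_integrand hσ hy).mul_bdd
      (c := ‖β k1‖ * (nm k1 : ℝ) ^ (σ - 1 / 2) * (‖β k2‖ * (nm k2 : ℝ) ^ (σ - 1 / 2))) ?_ ?_
    · apply Continuous.aestronglyMeasurable
      apply Continuous.mul
      · exact Continuous.mul continuous_const (Continuous.const_cpow (by fun_prop) (Or.inl q1))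
      · apply Complex.continuous_conj.comp
        refine Continuous.mul continuous_const (Continuous.const_cpow ?_ (Or.inl q2))
        push_cast
        fun_prop
    · refine Filter.Eventually.of_forall fun t => le_of_eq ?_
      rw [norm_mul, RCLike.norm_conj, norm_mul, norm_mul, Complex.norm_natCast_cpow_of_pos p1,
        Complex.norm_natCast_cpow_of_pos p2]
      simp
  rw [Finset.sum_congr rfl (fun k1 hk1 => Finset.sum_congr rfl (fun k2 hk2 => h1 k1 hk1 k2 hk2))]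
  simp_rw [← Finset.mul_sum]
  congr 1
  rw [← Finset.sum_congr rfl (fun k1 hk1 => integral_finsetSum K (hint k1 hk1)),
    ← integral_finsetSum K (fun k1 hk1 => integrable_finsetSum K (hint k1 hk1))]
  congr 1
  funext t
  simp only [dp, map_sum]
  rw [Finset.sum_mul_sum, Finset.mul_sum]
  apply Finset.sum_congr rfl; intro k1 _
  rw [Finset.mul_sum]

/-- **Mellin separation.** -/
theorem mellin_sep (K : Finset Eis) (β : Eis → ℂ) (hK : ∀ k ∈ K, k ≠ 0) {σ y : ℝ} (hσ : 0 < σ)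
    (hσ1 : σ ≤ 1) (hy : 0 < y) :
    ‖∑ k1 ∈ K, ∑ k2 ∈ K, (β k1 * (nm k1 : ℂ) ^ (-(1 / 2) : ℂ)) *
        conj (β k2 * (nm k2 : ℂ) ^ (-(1 / 2) : ℂ)) *
        ((Real.exp (-(y / ((nm k1 : ℝ) * (nm k2 : ℝ)))) : ℝ) : ℂ)‖ ≤
      csig σ * y ^ (-σ) * ∫ t : ℝ, (1 + t ^ 2)⁻¹ * ‖dp K β ((σ : ℂ) + t * I)‖ ^ 2 := by
  rw [mellin_exact K β hK hσ hy, norm_mul]
  have hG : 0 < Real.Gamma (σ + 2) := Real.Gamma_pos_of_pos (by linarith)
  set g : ℝ → ℝ := fun t => (1 + t ^ 2)⁻¹ * ‖dp K β ((σ : ℂ) + t * I)‖ ^ 2 with hg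
  have hgi : Integrable g := integrable_dp_sq K β hK σ
  have hgn : Integrable (fun t => g (-t)) := hgi.comp_neg
  have hbd : ∀ t : ℝ, ‖Complex.Gamma ((σ : ℂ) + t * I) * (y : ℂ) ^ (-((σ : ℂ) + t * I)) *
          (dp K β ((σ : ℂ) + t * I) * conj (dp K β ((σ : ℂ) + (-t : ℝ) * I)))‖ ≤
      (Real.Gamma (σ + 2) / σ ^ 2 * y ^ (-σ) / 2) * (g t + g (-t)) := by
    intro t
    rw [norm_mul, norm_mul, norm_mul, RCLike.norm_conj, Complex.norm_cpow_eq_rpow_re_of_pos hy]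
    have hre : (-((σ : ℂ) + t * I)).re = -σ := by simp
    rw [hre]
    set A := ‖dp K β ((σ : ℂ) + t * I)‖
    set B := ‖dp K β ((σ : ℂ) + (-t : ℝ) * I)‖ with hB
    have hAB : A * B ≤ (A ^ 2 + B ^ 2) / 2 := by nlinarith [sq_nonneg (A - B)]
    have h1 := norm_Gamma_le_inv hσ hσ1 t
    have hgB : g (-t) = (1 + t ^ 2)⁻¹ * B ^ 2 := by
      simp only [hg, hB]; rw [neg_sq]
    have hgA : g t = (1 + t ^ 2)⁻¹ * A ^ 2 := rfl
    have hy0 : 0 ≤ y ^ (-σ) := by positivity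
    calc ‖Complex.Gamma ((σ : ℂ) + t * I)‖ * y ^ (-σ) * (A * B)
        ≤ (Real.Gamma (σ + 2) / σ ^ 2 * (1 + t ^ 2)⁻¹) * y ^ (-σ) * ((A ^ 2 + B ^ 2) / 2) := by
          gcongr
      _ = _ := by rw [hgA, hgB]; ring
  have h2 : ‖∫ t : ℝ, Complex.Gamma ((σ : ℂ) + t * I) * (y : ℂ) ^ (-((σ : ℂ) + t * I)) *
          (dp K β ((σ : ℂ) + t * I) * conj (dp K β ((σ : ℂ) + (-t : ℝ) * I)))‖ ≤
      Real.Gamma (σ + 2) / σ ^ 2 * y ^ (-σ) * ∫ t, g t := by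
    refine (norm_integral_le_of_norm_le ((hgi.add hgn).const_mul _)
      (Filter.Eventually.of_forall hbd)).trans (le_of_eq ?_)
    rw [integral_const_mul]
    have : ∫ t, (g + fun t => g (-t)) t = (∫ t, g t) + ∫ t, g (-t) := integral_add hgi hgn
    rw [this, integral_neg_eq_self]
    ring
  have h3 : ‖(((1 / (2 * Real.pi) : ℝ)) : ℂ)‖ = (2 * Real.pi)⁻¹ := by
    rw [Complex.norm_real, Real.norm_eq_abs, abs_of_pos (by positivity), one_div]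
  rw [h3]
  calc (2 * Real.pi)⁻¹ * _ ≤ (2 * Real.pi)⁻¹ *
        (Real.Gamma (σ + 2) / σ ^ 2 * y ^ (-σ) * ∫ t, g t) := by gcongr
    _ = _ := by unfold csig; ring

end Crest.Agent.R012.MelSep811
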