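import Crest.Agent.R012.LS2Ineq_381
import Crest.Agent.R012.MelSep_811
import Crest.Agent.R012.CR2Spec_180

/-!
# Row 12 (CR2-PD): the dual inequality `CR2.DualIneq`

From `LS2.dual_ineq` (helper381: Poisson and Moebius, all numerators, Gaussian-free weight
`exp (-nm n / Z)`), `MelSep811.mellin_sep` and the tail estimate.
-/

set_option autoImplicit false

noncomputable section

open MeasureTheory Finset
open scoped ComplexConjugate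

namespace Crest.Agent.R012.DualIneq811

open Eis LS2 Mob705 CR2 MelSep811
open Gauss880 (syG)

/-- the coefficients of the dual sum -/
def bet (w : Eis → ℂ) (d e f l k : Eis) : ℂ :=
  w (d * f * k) * (sy (e * sq3) k * conj (sy (f * l) k) * G k)

lemma dsum_eq (w : Eis → ℂ) (X : ℝ) (d e f l : Eis) (s : ℂ) :
    dsum w X d e f l s = dp (S X) (bet w d e f l) s := rfl

lemma nm_cpow_half (k : Eis) : (nm k : ℂ) ^ (-(1 / 2) : ℂ) = ((Real.sqrt (nm k))⁻¹ : ℝ) := by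
  have h1 : (nm k : ℂ) = ((nm k : ℝ) : ℂ) := by push_cast; rfl
  have h2 : (-(1 / 2) : ℂ) = ((-(1 / 2) : ℝ) : ℂ) := by push_cast; rfl
  rw [h1, h2, ← Complex.ofReal_cpow (by positivity), Real.rpow_neg (by positivity),
    Real.sqrt_eq_rpow]

lemma Ue_mul (e l : Eis) {f k : Eis} (hf : IsPrim f) (hk : IsPrim k) :
    Ue e l (f * k) = Ue e l f *
      ((sy (e * sq3) k * conj (sy (f * l) k) * G k) * (nm k : ℂ) ^ (-(1 / 2) : ℂ)) := by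
  unfold Ue
  rw [syG.mul_right _ _ _ hf hk, syG.mul_right l _ _ hf hk, Gauss880.G_mul_all syG hf hk,
    syG.mul_left f l _ hk, nm_cpow_half, nm_cpow_half, nm_cpow_half, nm_mul, Nat.cast_mul,
    Real.sqrt_mul (by positivity), mul_inv]
  simp only [map_mul]
  push_cast
  ring

lemma norm_Ue_sq_le (e l : Eis) {f : Eis} (hf : IsPrim f) : ‖Ue e l f‖ ^ 2 ≤ (nm f : ℝ)⁻¹ := by
  have h := norm_Ue_le syG hf e l
  have hn : 0 < (nm f : ℝ) := by exact_mod_cast nm_pos.2 hf.ne_zero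
  calc ‖Ue e l f‖ ^ 2 ≤ ((nm f : ℝ) ^ (-(1 / 2) : ℝ)) ^ 2 := by gcongr
    _ = (nm f : ℝ)⁻¹ := by
      rw [← Real.rpow_natCast, ← Real.rpow_mul hn.le]
      norm_num
      rw [Real.rpow_neg_one]

/-- the Mellin variable -/
def yy (Z : ℝ) (e f l : Eis) : ℝ := 4 * Real.pi ^ 2 * Z * nm l / (3 * nm e * (nm f : ℝ) ^ 2)

lemma ws_eq {w : Eis → ℂ} {X : ℝ} (hw : ∀ h, w h ≠ 0 → h ∈ S X) (h : Eis) : ws w X h = w h := by
  unfold ws
  split_ifs with h1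
  · rfl
  · by_contra h2
    exact h1 (hw h (fun h3 => h2 h3.symm))

lemma qf_eq {X Z : ℝ} (hX : 0 ≤ X) {w : Eis → ℂ} (hw : ∀ h, w h ≠ 0 → h ∈ S X) {d e f : Eis}
    (he : e ≠ 0) (hf : f ∈ S X) (l : Eis) :
    qf w X Z d e f l = ((‖Ue e l f‖ ^ 2 : ℝ) : ℂ) * ∑ k1 ∈ S X, ∑ k2 ∈ S X,
      (bet w d e f l k1 * (nm k1 : ℂ) ^ (-(1 / 2) : ℂ)) *
        conj (bet w d e f l k2 * (nm k2 : ℂ) ^ (-(1 / 2) : ℂ)) *
        ((Real.exp (-(yy Z e f l / ((nm k1 : ℝ) * (nm k2 : ℝ)))) : ℝ) : ℂ) := by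
  unfold qf
  have hf' := (mem_S hX).1 hf
  rw [Finset.mul_sum]
  refine Finset.sum_congr rfl fun k1 h1 => ?_
  rw [Finset.mul_sum]
  refine Finset.sum_congr rfl fun k2 h2 => ?_
  have hk1 := (mem_S hX).1 h1
  have hk2 := (mem_S hX).1 h2
  rw [ws_eq hw, ws_eq hw, Ue_mul e l hf'.2.1 hk1.2.1, Ue_mul e l hf'.2.1 hk2.2.1]
  have e1 : (-(4 * Real.pi ^ 2 * Z * nm l) / (3 * nm e * nm (f * k1) * nm (f * k2)) : ℝ) =
      -(yy Z e f l / ((nm k1 : ℝ) * (nm k2 : ℝ))) := by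
    unfold yy
    have n0 : (nm e : ℝ) ≠ 0 := by exact_mod_cast (nm_pos.2 he).ne'
    have n1 : (nm f : ℝ) ≠ 0 := by exact_mod_cast (nm_pos.2 hf'.2.1.ne_zero).ne'
    have n2 : (nm k1 : ℝ) ≠ 0 := by exact_mod_cast (nm_pos.2 hk1.2.1.ne_zero).ne'
    have n3 : (nm k2 : ℝ) ≠ 0 := by exact_mod_cast (nm_pos.2 hk2.2.1.ne_zero).ne'
    rw [nm_mul, nm_mul]
    push_cast
    field_simp
  rw [e1]
  have e2 : ((‖Ue e l f‖ ^ 2 : ℝ) : ℂ) = Ue e l f * conj (Ue e l f) := by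
    rw [Complex.mul_conj, Complex.normSq_eq_norm_sq]
  rw [e2]
  unfold bet
  simp only [map_mul]
  ring

/-- the small frequencies -/
lemma norm_qf_le {X Z σ : ℝ} (hX : 0 ≤ X) (hZ : 0 < Z) (hσ : 0 < σ) (hσ1 : σ ≤ 1) {w : Eis → ℂ}
    (hw : ∀ h, w h ≠ 0 → h ∈ S X) {d e f l : Eis} (he : e ≠ 0) (hf : f ∈ S X) (hl : l ≠ 0) :
    ‖qf w X Z d e f l‖ ≤ csig σ * ((nm f : ℝ)⁻¹ * (nm e * (nm f : ℝ) ^ 2 / Z) ^ σ) *
      ((nm l : ℝ) ^ (-σ) *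
        ∫ t : ℝ, (1 + t ^ 2)⁻¹ * ‖dsum w X d e f l (σ + t * Complex.I)‖ ^ 2) := by
  have hf' := (mem_S hX).1 hf
  have ne : (0 : ℝ) < nm e := by exact_mod_cast nm_pos.2 he
  have nf : (0 : ℝ) < nm f := by exact_mod_cast nm_pos.2 hf'.2.1.ne_zero
  have nl : (0 : ℝ) < nm l := by exact_mod_cast nm_pos.2 hl
  have hy : 0 < yy Z e f l := by unfold yy; positivity
  rw [qf_eq hX hw he hf l, norm_mul, Complex.norm_real, Real.norm_eq_abs,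
    abs_of_nonneg (by positivity)]
  have h1 := mellin_sep (S X) (bet w d e f l) (fun k hk => ((mem_S hX).1 hk).2.1.ne_zero) hσ hσ1 hy
  have h2 : yy Z e f l ^ (-σ) ≤ (nm e * (nm f : ℝ) ^ 2 / Z) ^ σ * (nm l : ℝ) ^ (-σ) := by
    have e1 : yy Z e f l = (4 * Real.pi ^ 2 / 3) * ((nm e * (nm f : ℝ) ^ 2 / Z)⁻¹ * nm l) := by
      unfold yy; field_simp
    rw [e1, Real.mul_rpow (by positivity) (by positivity),
      Real.mul_rpow (by positivity) (by positivity), Real.inv_rpow (by positivity),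
      Real.rpow_neg (by positivity) σ, Real.rpow_neg (x := nm e * (nm f : ℝ) ^ 2 / Z)
      (by positivity), inv_inv]
    have h3 : (4 * Real.pi ^ 2 / 3) ^ σ ≥ 1 := by
      apply Real.one_le_rpow _ hσ.le
      have := Real.pi_gt_three
      nlinarith
    have h4 : ((4 * Real.pi ^ 2 / 3) ^ σ)⁻¹ ≤ 1 := inv_le_one_of_one_le₀ h3
    calc ((4 * Real.pi ^ 2 / 3) ^ σ)⁻¹ * ((nm e * (nm f : ℝ) ^ 2 / Z) ^ σ * (nm l : ℝ) ^ (-σ))
        ≤ 1 * ((nm e * (nm f : ℝ) ^ 2 / Z) ^ σ * (nm l : ℝ) ^ (-σ)) := by gcongr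
      _ = _ := one_mul _
  have hI : 0 ≤ ∫ t : ℝ, (1 + t ^ 2)⁻¹ * ‖dp (S X) (bet w d e f l) ((σ : ℂ) + t * Complex.I)‖ ^ 2 :=
    integral_nonneg fun t => by positivity
  have hc := csig_pos hσ
  calc ‖Ue e l f‖ ^ 2 * _ ≤ (nm f : ℝ)⁻¹ * (csig σ * yy Z e f l ^ (-σ) *
        ∫ t : ℝ, (1 + t ^ 2)⁻¹ * ‖dp (S X) (bet w d e f l) ((σ : ℂ) + t * Complex.I)‖ ^ 2) := by
        gcongr
        · exact norm_Ue_sq_le e l hf'.2.1
    _ ≤ (nm f : ℝ)⁻¹ * (csig σ * ((nm e * (nm f : ℝ) ^ 2 / Z) ^ σ * (nm l : ℝ) ^ (-σ)) *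
        ∫ t : ℝ, (1 + t ^ 2)⁻¹ * ‖dp (S X) (bet w d e f l) ((σ : ℂ) + t * Complex.I)‖ ^ 2) := by
        gcongr
    _ = _ := by simp only [dsum_eq]; ring

lemma integrable_dsum {X : ℝ} (hX : 0 ≤ X) (w : Eis → ℂ) (d e f l : Eis) (σ : ℝ) :
    Integrable (fun t : ℝ => (1 + t ^ 2)⁻¹ * ‖dsum w X d e f l (σ + t * Complex.I)‖ ^ 2) := by
  simp only [dsum_eq]
  exact integrable_dp_sq (S X) _ (fun k hk => ((mem_S hX).1 hk).2.1.ne_zero) σ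

open Classical in
/-- the tail -/
def TailLe : Prop := ∀ ε : ℝ, 0 < ε → ∃ C : ℝ, 0 < C ∧ ∀ X Z : ℝ, 1 ≤ X → 1 ≤ Z →
  ∀ w : Eis → ℂ,
    ∑ d ∈ S X, ∑ e ∈ pdiv d, ∑ f ∈ S X, (2 * Real.pi * Z / (Real.sqrt 3 * nm e)) *
      ‖∑' l : Eis, (if l = 0 ∨ (nm l : ℝ) ≤ Lde X Z ε d e then 0 else qf w X Z d e f l)‖ ≤
      C * Z * ∑ h ∈ S X, ‖w h‖ ^ 2

open Classical in
/-- one `(d, e, f)` -/
lemma one_def {X Z σ ε : ℝ} (hX : 1 ≤ X) (hZ : 1 ≤ Z) (hσ : 0 < σ) (hσ1 : σ ≤ 1) {w : Eis → ℂ}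
    (hw : ∀ h, w h ≠ 0 → h ∈ S X) {d e f : Eis} (he : e ≠ 0) (hf : f ∈ S X) :
    ‖∑' l : Eis, (if l = 0 then 0 else qf w X Z d e f l)‖ ≤
      csig σ * ((nm f : ℝ)⁻¹ * (nm e * (nm f : ℝ) ^ 2 / Z) ^ σ) *
        (∫ t : ℝ, (1 + t ^ 2)⁻¹ * ∑ l ∈ bl (Lde X Z ε d e),
            (nm l : ℝ) ^ (-σ) * ‖dsum w X d e f l (σ + t * Complex.I)‖ ^ 2) +
      ‖∑' l : Eis, (if l = 0 ∨ (nm l : ℝ) ≤ Lde X Z ε d e then 0 else qf w X Z d e f l)‖ := by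
  have hX0 : (0 : ℝ) ≤ X := by linarith
  have hZ0 : (0 : ℝ) < Z := by linarith
  have hL : 0 ≤ Lde X Z ε d e := by unfold Lde; positivity
  have hsum := summable_qf syG hX0 hZ0 w (d := d) he hf
  set L := Lde X Z ε d e with hLd
  have e1 : ∀ l : Eis, (if l = 0 then 0 else qf w X Z d e f l) =
      (if l ∈ bl L then qf w X Z d e f l else 0) +
      (if l = 0 ∨ (nm l : ℝ) ≤ L then 0 else qf w X Z d e f l) := by
    intro l
    by_cases h0 : l = 0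
    · rw [if_pos h0, if_pos (Or.inl h0), if_neg, add_zero]
      intro h; exact ((mem_bl hL).1 h).1 h0
    · rw [if_neg h0]
      by_cases h1 : (nm l : ℝ) ≤ L
      · rw [if_pos (Or.inr h1), if_pos ((mem_bl hL).2 ⟨h0, h1⟩), add_zero]
      · rw [if_neg (fun h => h1 ((mem_bl hL).1 h).2), zero_add,
          if_neg (fun h => h.elim h0 h1)]
  have s1 : Summable (fun l : Eis => if l ∈ bl L then qf w X Z d e f l else 0) :=
    summable_of_ne_finset_zero (s := bl L) (fun l hl => if_neg hl)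
  have s2 : Summable (fun l : Eis => if l = 0 ∨ (nm l : ℝ) ≤ L then 0 else qf w X Z d e f l) := by
    refine Summable.of_norm_bounded hsum.norm (fun l => ?_)
    split_ifs
    · rw [norm_zero]; exact norm_nonneg _
    · exact le_rfl
  rw [tsum_congr e1, s1.tsum_add s2]
  refine (norm_add_le _ _).trans (add_le_add_left ?_ _)
  have e2 : ∑' l : Eis, (if l ∈ bl L then qf w X Z d e f l else 0) =
      ∑ l ∈ bl L, qf w X Z d e f l := by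
    rw [tsum_eq_sum (s := bl L) (fun l hl => if_neg hl)]
    exact Finset.sum_congr rfl fun l hl => if_pos hl
  rw [e2]
  refine (norm_sum_le _ _).trans ?_
  have e3 : ∫ t : ℝ, (1 + t ^ 2)⁻¹ * ∑ l ∈ bl L,
            (nm l : ℝ) ^ (-σ) * ‖dsum w X d e f l (σ + t * Complex.I)‖ ^ 2 =
      ∑ l ∈ bl L, (nm l : ℝ) ^ (-σ) *
        ∫ t : ℝ, (1 + t ^ 2)⁻¹ * ‖dsum w X d e f l (σ + t * Complex.I)‖ ^ 2 := by
    simp_rw [Finset.mul_sum]
    rw [integral_finsetSum]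
    · refine Finset.sum_congr rfl fun l _ => ?_
      rw [← integral_const_mul]
      congr 1
      funext t; ring
    · intro l _
      have := (integrable_dsum hX0 w d e f l σ).const_mul ((nm l : ℝ) ^ (-σ))
      refine this.congr (Filter.Eventually.of_forall fun t => ?_)
      simp only; ring
  rw [e3, Finset.mul_sum]
  exact Finset.sum_le_sum fun l hl => norm_qf_le hX0 hZ0 hσ hσ1 hw he hf ((mem_bl hL).1 hl).1

lemma pdiv_subset {X : ℝ} (hX : 0 ≤ X) {d : Eis} (hd : d ∈ S X) [DecidablePred (· ∣ d)] :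
    pdiv d ⊆ (S X).filter (· ∣ d) := by
  intro e he
  have hd' := (mem_S hX).1 hd
  have h := (mem_pdiv hd'.2.1.ne_zero).1 he
  rw [Finset.mem_filter, mem_S hX]
  refine ⟨⟨le_trans ?_ hd'.1, h.1, hd'.2.2.squarefree_of_dvd h.2⟩, h.2⟩
  exact_mod_cast Div277.nm_le_of_dvd hd'.2.1.ne_zero h.2

open Classical in
/-- bookkeeping -/
lemma book {X K A : ℝ} (hX : 0 ≤ X) (hK : 0 ≤ K) (U T V : Eis → Eis → Eis → ℝ)
    (hT : ∀ d e f, 0 ≤ T d e f)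
    (h : ∀ d ∈ S X, ∀ e ∈ pdiv d, ∀ f ∈ S X, U d e f ≤ K * T d e f + V d e f)
    (hV : ∑ d ∈ S X, ∑ e ∈ pdiv d, ∑ f ∈ S X, V d e f ≤ A) :
    ∑ d ∈ S X, ∑ e ∈ pdiv d, ∑ f ∈ S X, U d e f ≤
      K * (∑ d ∈ S X, ∑ e ∈ (S X).filter (· ∣ d), ∑ f ∈ S X, T d e f) + A := by
  have h4 : ∑ d ∈ S X, ∑ e ∈ pdiv d, ∑ f ∈ S X, U d e f ≤
      ∑ d ∈ S X, ∑ e ∈ pdiv d, ∑ f ∈ S X, (K * T d e f + V d e f) :=
    Finset.sum_le_sum fun d hd => Finset.sum_le_sum fun e he =>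
        Finset.sum_le_sum fun f hf => h d hd e he f hf
  have h5 : ∑ d ∈ S X, ∑ e ∈ pdiv d, ∑ f ∈ S X, (K * T d e f + V d e f) =
      K * (∑ d ∈ S X, ∑ e ∈ pdiv d, ∑ f ∈ S X, T d e f) +
      ∑ d ∈ S X, ∑ e ∈ pdiv d, ∑ f ∈ S X, V d e f := by
    simp_rw [Finset.sum_add_distrib, Finset.mul_sum]
  have h6 : ∑ d ∈ S X, ∑ e ∈ pdiv d, ∑ f ∈ S X, T d e f ≤
      ∑ d ∈ S X, ∑ e ∈ (S X).filter (· ∣ d), ∑ f ∈ S X, T d e f := by
    refine Finset.sum_le_sum fun d hd => ?_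
    refine Finset.sum_le_sum_of_subset_of_nonneg (pdiv_subset hX hd) (fun e _ _ => ?_)
    exact Finset.sum_nonneg fun f _ => hT d e f
  rw [h5] at h4
  exact h4.trans (add_le_add (mul_le_mul_of_nonneg_left h6 hK) hV)

open Classical in
set_option maxHeartbeats 1000000 in
theorem dualIneq_of (H : CharSum852.SyFacts) (hT : TailLe) : DualIneq := by
  intro σ ε hσ hσ2 hε
  obtain ⟨C1, hC1, hT1⟩ := hT ε hε
  have hc := csig_pos hσ
  have h3 : 0 < Real.sqrt 3 := by positivity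
  have hπ := Real.pi_pos
  refine ⟨2 * Real.pi / Real.sqrt 3 + C1 + 2 * Real.pi / Real.sqrt 3 * csig σ, by positivity, ?_⟩
  intro X Z hX hZ w hw
  have hX0 : (0 : ℝ) ≤ X := by linarith
  have hZ0 : (0 : ℝ) < Z := by linarith
  have h1 := dual_ineq H syG hX hZ0 w
  have hT2 := hT1 X Z hX hZ w
  obtain ⟨J, hJ⟩ : ∃ J : Eis → Eis → Eis → ℝ, ∀ d e f, J d e f =
      ∫ t : ℝ, (1 + t ^ 2)⁻¹ * ∑ l ∈ bl (Lde X Z ε d e),
            (nm l : ℝ) ^ (-σ) * ‖dsum w X d e f l (σ + t * Complex.I)‖ ^ 2 :=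
    ⟨fun d e f => ∫ t : ℝ, (1 + t ^ 2)⁻¹ * ∑ l ∈ bl (Lde X Z ε d e),
            (nm l : ℝ) ^ (-σ) * ‖dsum w X d e f l (σ + t * Complex.I)‖ ^ 2, fun _ _ _ => rfl⟩
  have hJ0 : ∀ d e f, 0 ≤ J d e f := fun d e f => by
    rw [hJ]; exact integral_nonneg fun t => by positivity
  have hT0 : ∀ d e f, 0 ≤ Z / (nm e * nm f) * (nm e * (nm f : ℝ) ^ 2 / Z) ^ σ * J d e f :=
    fun d e f => mul_nonneg (by positivity) (hJ0 d e f)
  have h2 := book hX0 (K := 2 * Real.pi / Real.sqrt 3 * csig σ) (by positivity)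
    (fun d e f => (2 * Real.pi * Z / (Real.sqrt 3 * nm e)) *
      ‖∑' l : Eis, (if l = 0 then 0 else qf w X Z d e f l)‖)
    (fun d e f => Z / (nm e * nm f) * (nm e * (nm f : ℝ) ^ 2 / Z) ^ σ * J d e f)
    (fun d e f => (2 * Real.pi * Z / (Real.sqrt 3 * nm e)) *
      ‖∑' l : Eis, (if l = 0 ∨ (nm l : ℝ) ≤ Lde X Z ε d e then 0 else qf w X Z d e f l)‖)
    hT0 (fun d hd e he f hf => by
      have hd' := (mem_S hX0).1 hd
      have he' := (mem_pdiv hd'.2.1.ne_zero).1 he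
      have h5 : ‖∑' l : Eis, (if l = 0 then 0 else qf w X Z d e f l)‖ ≤
          csig σ * ((nm f : ℝ)⁻¹ * (nm e * (nm f : ℝ) ^ 2 / Z) ^ σ) * J d e f +
          ‖∑' l : Eis, (if l = 0 ∨ (nm l : ℝ) ≤ Lde X Z ε d e then 0 else qf w X Z d e f l)‖ := by
        rw [hJ]
        exact one_def (ε := ε) (d := d) hX hZ hσ (by linarith) hw he'.1.ne_zero hf
      have h6 : 0 ≤ 2 * Real.pi * Z / (Real.sqrt 3 * nm e) := by positivity
      refine (mul_le_mul_of_nonneg_left h5 h6).trans (le_of_eq ?_)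
      rw [mul_add]
      congr 1
      have ne : (nm e : ℝ) ≠ 0 := by exact_mod_cast (nm_pos.2 he'.1.ne_zero).ne'
      have nf : (nm f : ℝ) ≠ 0 := by exact_mod_cast (nm_pos.2 ((mem_S hX0).1 hf).2.1.ne_zero).ne'
      generalize (nm e * (nm f : ℝ) ^ 2 / Z) ^ σ = Q
      generalize J d e f = J0
      field_simp) hT2
  simp_rw [← hJ]
  obtain ⟨R, hR⟩ : ∃ R : ℝ, R = ∑ d ∈ S X, ∑ e ∈ (S X).filter (· ∣ d), ∑ f ∈ S X,
        Z / (nm e * nm f) * (nm e * (nm f : ℝ) ^ 2 / Z) ^ σ * J d e f := ⟨_, rfl⟩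
  have hR0 : 0 ≤ R := by
    rw [hR]
    exact Finset.sum_nonneg fun d _ => Finset.sum_nonneg fun e _ =>
      Finset.sum_nonneg fun f _ => hT0 d e f
  rw [← hR] at h2 ⊢
  obtain ⟨W, hW⟩ : ∃ W : ℝ, W = ∑ h ∈ S X, ‖w h‖ ^ 2 := ⟨_, rfl⟩
  have hW0 : 0 ≤ W := by rw [hW]; exact Finset.sum_nonneg fun _ _ => by positivity
  rw [← hW] at h1 h2 ⊢
  refine h1.trans ((add_le_add_right h2 _).trans ?_)
  have a1 : 0 ≤ 2 * Real.pi / Real.sqrt 3 * csig σ * (Z * W) := by positivity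
  have a2 : 0 ≤ (2 * Real.pi / Real.sqrt 3 + C1) * R := by positivity
  have a3 : 2 * Real.pi * Z / Real.sqrt 3 * W = 2 * Real.pi / Real.sqrt 3 * Z * W := by ring
  rw [a3]
  nlinarith

end Crest.Agent.R012.DualIneq811
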