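import Crest.Agent.R012.LS2Ineq_381
import Crest.Agent.R012.LScount_448
import Crest.Agent.R012.CR2Spec_180
import Crest.Agent.R012.GaussInst_880

/-!
# Row 12 (L2): the tail of the dual sum
-/

set_option autoImplicit false

noncomputable section

namespace Crest.Agent.R012.LS2

open Eis CharSum852 Gauss880 Tau671 Mob705 CR2
open Poisson381 (gau norm_gau summable_gau_one summable_gau summable_eis)

lemma one_le_nm' {l : Eis} (hl : l ≠ 0) : (1 : ℝ) ≤ nm l := by exact_mod_cast nm_pos.2 hl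

/-- `∑ 1 / nm(l)² < ∞` -/
lemma summable_inv_sq : Summable fun l : Eis => 1 / (nm l : ℝ) ^ 2 := by
  refine Summable.of_nonneg_of_le (fun l => by positivity) (fun l => ?_)
    ((summable_eis (b := 4) (by norm_num)).mul_left 16)
  by_cases hl : l = 0
  · rw [hl, nm_eq_zero.2 rfl]
    simp only [Nat.cast_zero, ne_eq, OfNat.ofNat_ne_zero, not_false_eq_true, zero_pow, div_zero]
    positivity
  · have h1 := one_le_nm' hl
    have h2 : ‖toC l‖ ^ 2 = nm l := norm_toC_sq l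
    have h3 : 1 ≤ ‖toC l‖ := by
      by_contra hc
      push Not at hc
      have : ‖toC l‖ ^ 2 < 1 := by nlinarith [norm_nonneg (toC l)]
      linarith
    have h4 : (1 + ‖toC l‖) ^ (-(4 : ℝ)) = 1 / (1 + ‖toC l‖) ^ 4 := by
      rw [Real.rpow_neg (by positivity), one_div]
      congr 1
      rw [← Real.rpow_natCast]; norm_num
    rw [h4, mul_one_div, div_le_div_iff₀ (by positivity) (by positivity), one_mul, ← h2]
    have h5 : 1 + ‖toC l‖ ≤ 2 * ‖toC l‖ := by linarith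
    calc (1 + ‖toC l‖) ^ 4 ≤ (2 * ‖toC l‖) ^ 4 := by gcongr
      _ = 16 * (‖toC l‖ ^ 2) ^ 2 := by ring

lemma card_S_le' {X : ℝ} (hX : 1 ≤ X) : ((S X).card : ℝ) ≤ 16 * X := by
  classical
  have h1 : (S X).card ≤ (ball ⌊X⌋₊).card := by
    apply Finset.card_le_card
    intro n hn
    rw [mem_S (by linarith)] at hn
    rw [mem_ball, Nat.le_floor_iff (by linarith)]
    exact hn.1
  have h2 := LS448.card_ball_le (Nat.floor_pos.mpr hX)
  have h3 : ((S X).card : ℝ) ≤ ((16 * ⌊X⌋₊ : ℕ) : ℝ) := by exact_mod_cast h1.trans h2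
  refine h3.trans ?_
  push_cast
  have := Nat.floor_le (show 0 ≤ X by linarith)
  linarith

/-- pointwise bound of the quadratic form by the sup of the exponential factor -/
lemma norm_qf_le (H : SyG) {X Z : ℝ} (hX : 1 ≤ X) (hZ : 0 < Z) (w : Eis → ℂ) {d e f : Eis}
    (hd : d ∈ S X) (he : e ≠ 0) (hf : f ∈ S X) (l : Eis) :
    ‖qf w X Z d e f l‖ ≤ Real.exp (-(nm l : ℝ) / (nm e * X ^ 2 / ((nm d : ℝ) ^ 2 * Z))) *
      (16 * X * ∑ h ∈ S X, ‖w h‖ ^ 2) := by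
  classical
  have hX0 : 0 ≤ X := by linarith
  have hd' := (mem_S hX0).1 hd
  have hf' := (mem_S hX0).1 hf
  have nd : 0 < (nm d : ℝ) := by exact_mod_cast nm_pos.2 hd'.2.1.ne_zero
  have nf : 0 < (nm f : ℝ) := by exact_mod_cast nm_pos.2 hf'.2.1.ne_zero
  have ne : 0 < (nm e : ℝ) := by exact_mod_cast nm_pos.2 he
  have nl : 0 ≤ (nm l : ℝ) := by positivity
  set E0 : ℝ := Real.exp (-(nm l : ℝ) / (nm e * X ^ 2 / ((nm d : ℝ) ^ 2 * Z))) with hE0
  -- each term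
  have hterm : ∀ k1 ∈ S X, ∀ k2 ∈ S X,
      ‖ws w X (d * f * k1) * (starRingEnd ℂ) (ws w X (d * f * k2)) *
    (Ue e l (f * k1) * (starRingEnd ℂ) (Ue e l (f * k2))) *
    ((Real.exp (-(4 * Real.pi ^ 2 * Z * nm l) / (3 * nm e * nm (f * k1) * nm (f * k2))) : ℝ) : ℂ)‖
      ≤ E0 * (‖ws w X (d * f * k1)‖ * ‖ws w X (d * f * k2)‖) := by
    intro k1 h1 k2 h2
    have hk1 := (mem_S hX0).1 h1
    have hk2 := (mem_S hX0).1 h2
    have p1 := hf'.2.1.mul hk1.2.1
    have p2 := hf'.2.1.mul hk2.2.1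
    rw [norm_mul, norm_mul, norm_mul, norm_mul, RCLike.norm_conj, RCLike.norm_conj,
      Complex.norm_real, Real.norm_of_nonneg (Real.exp_pos _).le]
    by_cases m1 : d * f * k1 ∈ S X
    swap
    · rw [ws_of_not_mem m1]; simp
    by_cases m2 : d * f * k2 ∈ S X
    swap
    · rw [ws_of_not_mem m2]; simp
    have b1 := norm_Ue_le_one H p1 e l
    have b2 := norm_Ue_le_one H p2 e l
    have n1 : 0 < (nm (f * k1) : ℝ) := by exact_mod_cast nm_pos.2 p1.ne_zero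
    have n2 : 0 < (nm (f * k2) : ℝ) := by exact_mod_cast nm_pos.2 p2.ne_zero
    have c1 : (nm d : ℝ) * nm (f * k1) ≤ X := by
      have := ((mem_S hX0).1 m1).1
      rw [mul_assoc, nm_mul] at this
      push_cast at this
      exact this
    have c2 : (nm d : ℝ) * nm (f * k2) ≤ X := by
      have := ((mem_S hX0).1 m2).1
      rw [mul_assoc, nm_mul] at this
      push_cast at this
      exact this
    have hexp : Real.exp (-(4 * Real.pi ^ 2 * Z * nm l) / (3 * nm e * nm (f * k1) * nm (f * k2)))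
        ≤ E0 := by
      rw [hE0, Real.exp_le_exp, neg_div, neg_div, neg_le_neg_iff]
      rw [div_le_div_iff₀ (by positivity) (by positivity)]
      have hpi : 3 ≤ 4 * Real.pi ^ 2 := by nlinarith [Real.pi_gt_three]
      have hcc : ((nm d : ℝ) * nm (f * k1)) * (nm d * nm (f * k2)) ≤ X * X := by gcongr
      have h3 : (nm d : ℝ) ^ 2 * (nm (f * k1) * nm (f * k2)) ≤ X ^ 2 := by nlinarith
      have h4 : 3 * ((nm d : ℝ) ^ 2 * (nm (f * k1) * nm (f * k2))) ≤ 4 * Real.pi ^ 2 * X ^ 2 :=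
        mul_le_mul hpi h3 (by positivity) (by positivity)
      rw [← mul_div_assoc, le_div_iff₀ (by positivity)]
      calc (nm l : ℝ) * (3 * nm e * nm (f * k1) * nm (f * k2)) * ((nm d : ℝ) ^ 2 * Z)
          = (nm l * nm e * Z) * (3 * ((nm d : ℝ) ^ 2 * (nm (f * k1) * nm (f * k2)))) := by ring
        _ ≤ (nm l * nm e * Z) * (4 * Real.pi ^ 2 * X ^ 2) := by gcongr
        _ = _ := by ring
    have bb : ‖Ue e l (f * k1)‖ * ‖Ue e l (f * k2)‖ ≤ 1 := mul_le_one₀ b1 (norm_nonneg _) b2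
    calc _ ≤ ‖ws w X (d * f * k1)‖ * ‖ws w X (d * f * k2)‖ * 1 * E0 := by gcongr
      _ = _ := by ring
  have h1 : ‖qf w X Z d e f l‖ ≤ ∑ k1 ∈ S X, ∑ k2 ∈ S X,
      E0 * (‖ws w X (d * f * k1)‖ * ‖ws w X (d * f * k2)‖) := by
    unfold qf
    refine (norm_sum_le _ _).trans (Finset.sum_le_sum fun k1 h1 => ?_)
    exact (norm_sum_le _ _).trans (Finset.sum_le_sum fun k2 h2 => hterm k1 h1 k2 h2)
  refine h1.trans ?_
  have h2 : ∑ k1 ∈ S X, ∑ k2 ∈ S X, E0 * (‖ws w X (d * f * k1)‖ * ‖ws w X (d * f * k2)‖) =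
      E0 * (∑ k ∈ S X, ‖ws w X (d * f * k)‖) ^ 2 := by
    rw [pow_two, Finset.sum_mul_sum, Finset.mul_sum]
    refine Finset.sum_congr rfl fun k1 _ => ?_
    rw [Finset.mul_sum]
  rw [h2]
  refine mul_le_mul_of_nonneg_left ?_ (Real.exp_pos _).le
  have h3 : (∑ k ∈ S X, ‖ws w X (d * f * k)‖) ^ 2 ≤
      (S X).card * ∑ k ∈ S X, ‖ws w X (d * f * k)‖ ^ 2 := sq_sum_le_card_mul_sum_sq
  have h4 : ∑ k ∈ S X, ‖ws w X (d * f * k)‖ ^ 2 ≤ ∑ h ∈ S X, ‖w h‖ ^ 2 := by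
    have hinj : Set.InjOn (fun k => d * f * k) (S X : Set Eis) := by
      intro a _ b _ hab
      exact mul_left_cancel₀ (mul_ne_zero hd'.2.1.ne_zero hf'.2.1.ne_zero) hab
    have e1 : ∑ k ∈ S X, ‖ws w X (d * f * k)‖ ^ 2 =
        ∑ h ∈ (S X).image (fun k => d * f * k), ‖ws w X h‖ ^ 2 := by
      rw [Finset.sum_image hinj]
    rw [e1]
    have e2 : ∑ h ∈ (S X).image (fun k => d * f * k), ‖ws w X h‖ ^ 2 =
        ∑ h ∈ ((S X).image (fun k => d * f * k)).filter (fun h => h ∈ S X), ‖ws w X h‖ ^ 2 := by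
      symm
      apply Finset.sum_filter_of_ne
      intro h _ hne
      by_contra hc
      apply hne
      rw [ws_of_not_mem hc]; simp
    rw [e2]
    calc _ = ∑ h ∈ ((S X).image (fun k => d * f * k)).filter (fun h => h ∈ S X), ‖w h‖ ^ 2 := by
          refine Finset.sum_congr rfl fun h hh => ?_
          unfold ws
          rw [if_pos (Finset.mem_filter.1 hh).2]
      _ ≤ _ := by
          apply Finset.sum_le_sum_of_subset_of_nonneg
          · intro h hh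
            exact (Finset.mem_filter.1 hh).2
          · intro h _ _
            positivity
  have h5 := card_S_le' hX
  calc _ ≤ (S X).card * ∑ k ∈ S X, ‖ws w X (d * f * k)‖ ^ 2 := h3
    _ ≤ (16 * X) * ∑ h ∈ S X, ‖w h‖ ^ 2 := by gcongr

lemma pdiv_subset_S {X : ℝ} (hX : 0 ≤ X) {d : Eis} (hd : d ∈ S X) : pdiv d ⊆ S X := by
  intro e he
  have hd' := (mem_S hX).1 hd
  have he' := (mem_pdiv hd'.2.1.ne_zero).1 he
  rw [mem_S hX]
  refine ⟨le_trans ?_ hd'.1, he'.1, hd'.2.2.squarefree_of_dvd he'.2⟩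
  exact_mod_cast Div277.nm_le_of_dvd hd'.2.1.ne_zero he'.2

lemma exp_neg_le_fact {x : ℝ} (hx : 0 < x) (j : ℕ) : Real.exp (-x) ≤ j.factorial / x ^ j := by
  have h := Real.pow_div_factorial_le_exp x hx.le j
  rw [Real.exp_neg, inv_eq_one_div, div_le_div_iff₀ (Real.exp_pos _) (by positivity), one_mul]
  rwa [div_le_iff₀ (by positivity), mul_comm] at h

/-- the parameter `K = nm(e) X² / (nm(d)² Z)` is at most `X²` -/
lemma Kde_le {X Z : ℝ} (hX : 1 ≤ X) (hZ : 1 ≤ Z) {d e : Eis} (hd : d ∈ S X) (he : e ∈ pdiv d) :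
    (nm e : ℝ) * X ^ 2 / ((nm d : ℝ) ^ 2 * Z) ≤ X ^ 2 := by
  have hX0 : 0 ≤ X := by linarith
  have hd' := (mem_S hX0).1 hd
  have he' := (mem_pdiv hd'.2.1.ne_zero).1 he
  have nd := one_le_nm' hd'.2.1.ne_zero
  have h1 : (nm e : ℝ) ≤ nm d := by exact_mod_cast Div277.nm_le_of_dvd hd'.2.1.ne_zero he'.2
  rw [div_le_iff₀ (by positivity)]
  have h2 : (nm e : ℝ) ≤ (nm d : ℝ) ^ 2 * Z := by nlinarith [mul_nonneg (sub_nonneg.2 hZ) (sq_nonneg (nm d : ℝ))]
  nlinarith [sq_nonneg X]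

set_option maxHeartbeats 1000000 in
open Classical in
theorem tail_le {ε : ℝ} (hε : 0 < ε) : ∃ C : ℝ, 0 < C ∧ ∀ X Z : ℝ, 1 ≤ X → 1 ≤ Z →
    ∀ w : Eis → ℂ,
    ∑ d ∈ S X, ∑ e ∈ pdiv d, ∑ f ∈ S X, 2 * Real.pi * Z / (Real.sqrt 3 * nm e) *
      ‖∑' l : Eis, if l = 0 ∨ (nm l : ℝ) ≤ Lde X Z ε d e then 0 else qf w X Z d e f l‖ ≤
      C * Z * ∑ h ∈ S X, ‖w h‖ ^ 2 := by
  obtain ⟨m, hm⟩ := exists_nat_ge (8 / ε)
  have hm' : 8 ≤ ε * m := by
    rw [div_le_iff₀ hε] at hm; linarith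
  set Zt : ℝ := ∑' l : Eis, 1 / (nm l : ℝ) ^ 2 with hZt
  have hZt0 : 0 ≤ Zt := tsum_nonneg fun l => by positivity
  have hs3 : 0 < Real.sqrt 3 := Real.sqrt_pos.2 (by norm_num)
  have hpi := Real.pi_pos
  obtain ⟨Fa, hFa⟩ : ∃ Fa : ℝ, Fa = ((m + 2).factorial : ℝ) := ⟨_, rfl⟩
  have hFa0 : 0 < Fa := by rw [hFa]; exact_mod_cast Nat.factorial_pos _
  set C : ℝ := 2 * Real.pi / Real.sqrt 3 * (Fa * 4 * 16 ^ 4 * (Zt + 1)) with hC
  have hCpos : 0 < C := by rw [hC]; positivity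
  refine ⟨C, hCpos, fun X Z hX hZ w => ?_⟩
  have hX0 : 0 < X := by linarith
  have hZ0 : 0 < Z := by linarith
  set W : ℝ := ∑ h ∈ S X, ‖w h‖ ^ 2 with hW
  have hW0 : 0 ≤ W := Finset.sum_nonneg fun h _ => by positivity
  -- bound for one triple
  have hone : ∀ d ∈ S X, ∀ e ∈ pdiv d, ∀ f ∈ S X,
      2 * Real.pi * Z / (Real.sqrt 3 * nm e) *
      ‖∑' l : Eis, if l = 0 ∨ (nm l : ℝ) ≤ Lde X Z ε d e then 0 else qf w X Z d e f l‖ ≤
      2 * Real.pi * Z / Real.sqrt 3 * (Fa * 4 * 16 * Zt * W * X ^ (-(3 : ℝ))) := by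
    intro d hd e he f hf
    have hd' := (mem_S hX0.le).1 hd
    have he' := (mem_pdiv hd'.2.1.ne_zero).1 he
    have he0 := he'.1.ne_zero
    have ne1 := one_le_nm' he0
    have nd1 := one_le_nm' hd'.2.1.ne_zero
    set K : ℝ := (nm e : ℝ) * X ^ 2 / ((nm d : ℝ) ^ 2 * Z) with hK
    have hKpos : 0 < K := by rw [hK]; positivity
    have hKle : K ≤ X ^ 2 := Kde_le hX hZ hd he
    set R : ℝ := (X * Z) ^ ε with hR
    have hXZ : 1 ≤ X * Z := one_le_mul_of_one_le_of_one_le hX hZ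
    have hR1 : 1 ≤ R := Real.one_le_rpow hXZ hε.le
    have hRm : X ^ (8 : ℝ) ≤ R ^ m := by
      rw [hR, ← Real.rpow_natCast, ← Real.rpow_mul (by positivity)]
      calc X ^ (8 : ℝ) ≤ (X * Z) ^ (8 : ℝ) := by
            apply Real.rpow_le_rpow hX0.le _ (by norm_num)
            nlinarith
        _ ≤ (X * Z) ^ (ε * m) := Real.rpow_le_rpow_of_exponent_le hXZ hm'
    have hL : Lde X Z ε d e = R * (1 + K) := rfl
    -- pointwise
    have hpt : ∀ l : Eis,
        ‖(if l = 0 ∨ (nm l : ℝ) ≤ Lde X Z ε d e then (0 : ℂ) else qf w X Z d e f l)‖ ≤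
        (Fa * 4 * 16 * W * X ^ (-(3 : ℝ))) * (1 / (nm l : ℝ) ^ 2) := by
      intro l
      split_ifs with hl
      · rw [norm_zero]; positivity
      · push Not at hl
        obtain ⟨hl0, hlL⟩ := hl
        have nl := one_le_nm' hl0
        have nlpos : 0 < (nm l : ℝ) := by linarith
        rw [hL] at hlL
        refine (norm_qf_le syG hX hZ0 w hd he0 hf l).trans ?_
        have h1K : 1 + K ≤ 2 * X ^ 2 := by nlinarith
        have e1 : Real.exp (-(nm l : ℝ) / K) ≤ Real.exp (-((nm l : ℝ) / (1 + K))) := by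
          rw [Real.exp_le_exp, neg_div, neg_le_neg_iff]
          exact div_le_div_of_nonneg_left nlpos.le hKpos (by linarith)
        have e2 := exp_neg_le_fact (x := (nm l : ℝ) / (1 + K)) (by positivity) (m + 2)
        rw [← hFa] at e2
        have e3 : Fa / ((nm l : ℝ) / (1 + K)) ^ (m + 2) ≤
            Fa * (4 * X ^ 4) / (X ^ (8 : ℝ) * (nm l : ℝ) ^ 2) := by
          have hq : R ≤ (nm l : ℝ) / (1 + K) := by
            rw [le_div_iff₀ (by positivity)]; exact hlL.le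
          have hq2 : X ^ (8 : ℝ) ≤ ((nm l : ℝ) / (1 + K)) ^ m :=
            hRm.trans (pow_le_pow_left₀ (by positivity) hq m)
          have hX8 : 0 < X ^ (8 : ℝ) := Real.rpow_pos_of_pos hX0 _
          have hsq : ((nm l : ℝ)) ^ 2 / (4 * X ^ 4) ≤ ((nm l : ℝ) / (1 + K)) ^ 2 := by
            rw [div_pow]
            apply div_le_div_of_nonneg_left (by positivity) (by positivity)
            calc (1 + K) ^ 2 ≤ (2 * X ^ 2) ^ 2 := by gcongr
              _ = 4 * X ^ 4 := by ring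
          have hprod : X ^ (8 : ℝ) * ((nm l : ℝ) ^ 2 / (4 * X ^ 4)) ≤
              ((nm l : ℝ) / (1 + K)) ^ (m + 2) := by
            rw [pow_add]
            exact mul_le_mul hq2 hsq (by positivity) (by positivity)
          have h0 : 0 < X ^ (8 : ℝ) * ((nm l : ℝ) ^ 2 / (4 * X ^ 4)) := by positivity
          calc Fa / ((nm l : ℝ) / (1 + K)) ^ (m + 2)
              ≤ Fa / (X ^ (8 : ℝ) * ((nm l : ℝ) ^ 2 / (4 * X ^ 4))) :=
                div_le_div_of_nonneg_left (by positivity) h0 hprod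
            _ = _ := by field_simp
        have e4 : (X : ℝ) ^ (8 : ℝ) = X ^ (3 : ℝ) * X ^ 5 := by
          rw [← Real.rpow_natCast X 5, ← Real.rpow_add hX0]; norm_num
        have hX3 : 0 < X ^ (3 : ℝ) := Real.rpow_pos_of_pos hX0 _
        have e6 : (Fa * (4 * X ^ 4) / (X ^ (8 : ℝ) * (nm l : ℝ) ^ 2)) * (16 * X * W) =
            (Fa * 4 * 16 * W * X ^ (-(3 : ℝ))) * (1 / (nm l : ℝ) ^ 2) := by
          rw [e4, Real.rpow_neg hX0.le]
          field_simp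
        have hXW : 0 ≤ 16 * X * W := mul_nonneg (by linarith) hW0
        rw [← e6]
        exact mul_le_mul_of_nonneg_right ((e1.trans e2).trans e3) hXW
    have hsum : Summable fun l : Eis =>
        (Fa * 4 * 16 * W * X ^ (-(3 : ℝ))) * (1 / (nm l : ℝ) ^ 2) :=
      summable_inv_sq.mul_left _
    have htsum : ‖∑' l : Eis, if l = 0 ∨ (nm l : ℝ) ≤ Lde X Z ε d e then (0 : ℂ)
        else qf w X Z d e f l‖ ≤ (Fa * 4 * 16 * W * X ^ (-(3 : ℝ))) * Zt := by
      rw [hZt, ← tsum_mul_left]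
      exact tsum_of_norm_bounded hsum.hasSum hpt
    have hpref : 2 * Real.pi * Z / (Real.sqrt 3 * nm e) ≤ 2 * Real.pi * Z / Real.sqrt 3 := by
      apply div_le_div_of_nonneg_left (by positivity) hs3
      nlinarith
    calc _ ≤ 2 * Real.pi * Z / Real.sqrt 3 *
          ((Fa * 4 * 16 * W * X ^ (-(3 : ℝ))) * Zt) := by gcongr
      _ = _ := by ring
  -- sum over the triples
  set T : ℝ := 2 * Real.pi * Z / Real.sqrt 3 *
    (Fa * 4 * 16 * Zt * W * X ^ (-(3 : ℝ))) with hT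
  have hT0 : 0 ≤ T := by rw [hT]; positivity
  have hcard := card_S_le' hX
  have h1 : ∑ d ∈ S X, ∑ e ∈ pdiv d, ∑ f ∈ S X, 2 * Real.pi * Z / (Real.sqrt 3 * nm e) *
      ‖∑' l : Eis, if l = 0 ∨ (nm l : ℝ) ≤ Lde X Z ε d e then 0 else qf w X Z d e f l‖ ≤
      ∑ d ∈ S X, ∑ e ∈ pdiv d, ∑ f ∈ S X, T :=
    Finset.sum_le_sum fun d hd => Finset.sum_le_sum fun e he => Finset.sum_le_sum fun f hf =>
      hone d hd e he f hf
  have h2 : ∑ d ∈ S X, ∑ e ∈ pdiv d, ∑ f ∈ S X, T ≤ (16 * X) ^ 3 * T := by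
    have a1 : ∑ f ∈ S X, T ≤ 16 * X * T := by
      rw [Finset.sum_const, nsmul_eq_mul]; gcongr
    have a2 : ∀ d ∈ S X, ∑ e ∈ pdiv d, ∑ f ∈ S X, T ≤ (16 * X) * (16 * X * T) := by
      intro d hd
      rw [Finset.sum_const, nsmul_eq_mul]
      have : ((pdiv d).card : ℝ) ≤ 16 * X := by
        refine le_trans ?_ hcard
        exact_mod_cast Finset.card_le_card (pdiv_subset_S hX0.le hd)
      have a10 : 0 ≤ ∑ f ∈ S X, T := Finset.sum_nonneg fun _ _ => hT0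
      gcongr
    calc ∑ d ∈ S X, ∑ e ∈ pdiv d, ∑ f ∈ S X, T ≤ ∑ d ∈ S X, (16 * X) * (16 * X * T) :=
          Finset.sum_le_sum a2
      _ = (S X).card * ((16 * X) * (16 * X * T)) := by rw [Finset.sum_const, nsmul_eq_mul]
      _ ≤ (16 * X) * ((16 * X) * (16 * X * T)) := by gcongr
      _ = _ := by ring
  refine (h1.trans h2).trans ?_
  have e5 : (16 * X) ^ 3 * T = 2 * Real.pi / Real.sqrt 3 *
      (Fa * 4 * 16 ^ 4 * Zt) * Z * W := by
    rw [hT, Real.rpow_neg hX0.le]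
    have : X ^ (3 : ℝ) = X ^ 3 := by rw [← Real.rpow_natCast]; norm_num
    rw [this]
    field_simp
  rw [e5, hC]
  gcongr
  linarith

end Crest.Agent.R012.LS2
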