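import Crest.Agent.R012.LS2fromDual_448
import Crest.Agent.R012.DualIneq_811
import Crest.Agent.R012.LS2Tail_381
import Crest.Agent.R012.Sym6_645

/-!
# Row 12 (L2): Heath-Brown's cubic large sieve, unconditional

* `dualIneq : CR2.DualIneq`
* `hb_final : LS2.Final`
* `step2 : LS2.Step2`
-/

set_option autoImplicit false

noncomputable section

namespace Crest.Agent.R012.LS448

open Crest.Agent.R012 Crest.Agent.R012.Eis

/-- The dual inequality, unconditional. -/
theorem dualIneq : CR2.DualIneq :=
  DualIneq811.dualIneq_of Sym645.syFacts fun _ε hε => LS2.tail_le hε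

/-- The Poisson step, unconditional. -/
theorem step2 : LS2.Step2 := step2_of_dualIneq dualIneq

/-- **Heath-Brown's cubic large sieve**, unconditional. -/
theorem hb_final : LS2.Final := final_of_dualIneq dualIneq

end Crest.Agent.R012.LS448
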