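import Crest.Agent.R012.BilG_811
import Crest.Agent.R012.LS2Main_448
import Crest.Agent.R012.CR2Spec_180
import Crest.Agent.R012.GLS_106

/-!
# Row 12 (CR-B, B2): power saving for `G` summed over products of `j` primes (unconditional)

* `gFacts`   : `BilG811.GFacts`
* `setBil`   : `‖Σ_{T ⊆ P, #T = j} (Π_{p ∈ T} γ p) G(Π T)‖ ≤ K (B^j)^(5/6+ε)`
* `bset`     : coefficients of products of `j` distinct primes of `P`;  `sum_bset`
* `bil_hyp`  : the BIL hypothesis of `CR2.CoreB`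
-/

set_option autoImplicit false

noncomputable section

open Finset
open scoped ComplexConjugate

namespace Crest.Agent.R012.BilJ811

open Eis LS2 Mob705 BilG811
open Gauss880 (syG)

theorem gFacts : BilG811.GFacts where
  mul := fun _ _ hc hd _ => Gauss880.G_mul_all syG hc hd
  nonsq := fun _ hc hs => Gauss880.G_eq_zero syG hc hs
  norm_le := fun _ hc => Gauss880.norm_G_le syG hc

/-! ### combinatorics -/

lemma choose_mul_sum {α : Type*} [DecidableEq α] (P : Finset α) {i j : ℕ} (hij : i ≤ j)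
    (F : Finset α → ℂ) :
    (j.choose i : ℂ) * ∑ T ∈ powersetCard j P, F T =
      ∑ U ∈ powersetCard i P, ∑ V ∈ powersetCard (j - i) P,
        if Disjoint U V then F (U ∪ V) else 0 := by
  have h1 : (j.choose i : ℂ) * ∑ T ∈ powersetCard j P, F T =
      ∑ x ∈ (powersetCard j P).sigma (fun T => powersetCard i T), F x.1 := by
    rw [Finset.sum_sigma, Finset.mul_sum]
    refine Finset.sum_congr rfl fun T hT => ?_
    simp only
    rw [Finset.sum_const, card_powersetCard, (mem_powersetCard.1 hT).2, nsmul_eq_mul]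
  have h2 : ∑ U ∈ powersetCard i P, ∑ V ∈ powersetCard (j - i) P,
        (if Disjoint U V then F (U ∪ V) else 0) =
      ∑ x ∈ (powersetCard i P ×ˢ powersetCard (j - i) P).filter (fun x => Disjoint x.1 x.2),
        F (x.1 ∪ x.2) := by
    rw [Finset.sum_filter, Finset.sum_product]
  rw [h1, h2]
  refine Finset.sum_bij' (fun x _ => (x.2, x.1 \ x.2)) (fun y _ => ⟨y.1 ∪ y.2, y.1⟩) ?_ ?_ ?_ ?_ ?_
  · intro x hx
    rw [Finset.mem_sigma, mem_powersetCard, mem_powersetCard] at hx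
    rw [Finset.mem_filter, Finset.mem_product, mem_powersetCard, mem_powersetCard]
    refine ⟨⟨⟨hx.2.1.trans hx.1.1, hx.2.2⟩, sdiff_subset.trans hx.1.1, ?_⟩, disjoint_sdiff⟩
    rw [card_sdiff_of_subset hx.2.1, hx.1.2, hx.2.2]
  · intro y hy
    rw [Finset.mem_filter, Finset.mem_product, mem_powersetCard, mem_powersetCard] at hy
    rw [Finset.mem_sigma, mem_powersetCard, mem_powersetCard]
    refine ⟨⟨union_subset hy.1.1.1 hy.1.2.1, ?_⟩, subset_union_left, hy.1.1.2⟩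
    rw [card_union_of_disjoint hy.2, hy.1.1.2, hy.1.2.2]; omega
  · intro x hx
    rw [Finset.mem_sigma, mem_powersetCard, mem_powersetCard] at hx
    have : x.2 ∪ x.1 \ x.2 = x.1 := union_sdiff_of_subset hx.2.1
    ext1
    · exact this
    · rfl
  · intro y hy
    rw [Finset.mem_filter] at hy
    have : (y.1 ∪ y.2) \ y.1 = y.2 := union_sdiff_cancel_left hy.2
    ext1
    · rfl
    · exact this
  · intro x hx
    rw [Finset.mem_sigma, mem_powersetCard, mem_powersetCard] at hx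
    have : x.2 ∪ x.1 \ x.2 = x.1 := union_sdiff_of_subset hx.2.1
    simp only
    rw [this]

/-- `P` is a set of primary primes of norm at most `B` -/
def PB (P : Finset Eis) (B : ℝ) : Prop := ∀ p ∈ P, IsPrim p ∧ Prime p ∧ (nm p : ℝ) ≤ B

lemma PB.ppSet {P : Finset Eis} {B : ℝ} (h : PB P B) : PPSet P := fun p hp =>
  ⟨(h p hp).1, (h p hp).2.1⟩

lemma nm_prod (T : Finset Eis) : nm (∏ p ∈ T, p) = ∏ p ∈ T, nm p := by
  classical
  induction T using Finset.induction_on with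
  | empty => simp [nm_one]
  | insert a s ha ih => rw [Finset.prod_insert ha, Finset.prod_insert ha, nm_mul, ih]

lemma PB.nm_prod_le {P : Finset Eis} {B : ℝ} (h : PB P B) {T : Finset Eis} (hT : T ⊆ P)
    {j : ℕ} (hj : T.card = j) : (nm (∏ p ∈ T, p) : ℝ) ≤ B ^ j := by
  rw [nm_prod]
  push_cast
  calc ∏ p ∈ T, (nm p : ℝ) ≤ ∏ p ∈ T, B :=
        Finset.prod_le_prod (fun p _ => by positivity) (fun p hp => (h p (hT hp)).2.2)
    _ = B ^ j := by rw [Finset.prod_const, hj]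

lemma PB.prod_mem_S {P : Finset Eis} {B : ℝ} (hB : 0 ≤ B) (h : PB P B) {T : Finset Eis}
    (hT : T ⊆ P) {j : ℕ} (hj : T.card = j) : (∏ p ∈ T, p) ∈ S (B ^ j) := by
  rw [mem_S (by positivity)]
  have hS : PPSet T := h.ppSet.subset hT
  exact ⟨h.nm_prod_le hT hj, hS.isPrim_prod, hS.squarefree_prod⟩

lemma prod_inj {P : Finset Eis} (h : PPSet P) {T T' : Finset Eis} (hT : T ⊆ P) (hT' : T' ⊆ P)
    (he : ∏ p ∈ T, p = ∏ p ∈ T', p) : T = T' := by
  rw [← (h.subset hT).pp_prod, ← (h.subset hT').pp_prod, he]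

/-- the set of products -/
def prods (P : Finset Eis) (j : ℕ) : Finset Eis := by
  classical exact (powersetCard j P).image (fun T => ∏ p ∈ T, p)

lemma sum_prods {P : Finset Eis} (h : PPSet P) (j : ℕ) (F : Eis → ℂ) (γ : Eis → ℂ) :
    ∑ c ∈ prods P j, (∏ p ∈ pp c, γ p) * F c =
      ∑ T ∈ powersetCard j P, (∏ p ∈ T, γ p) * F (∏ p ∈ T, p) := by
  classical
  unfold prods
  rw [Finset.sum_image]
  · refine Finset.sum_congr rfl fun T hT => ?_
    rw [(h.subset (mem_powersetCard.1 hT).1).pp_prod]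
  · intro T hT T' hT' he
    exact prod_inj h (mem_powersetCard.1 hT).1 (mem_powersetCard.1 hT').1 he

lemma Sq_prods {P : Finset Eis} {B : ℝ} (hB : 0 ≤ B) (h : PB P B) (j : ℕ) :
    Sq (B ^ j) (prods P j) := by
  classical
  intro c hc
  unfold prods at hc
  rw [Finset.mem_image] at hc
  obtain ⟨T, hT, rfl⟩ := hc
  have := h.prod_mem_S hB (mem_powersetCard.1 hT).1 (mem_powersetCard.1 hT).2
  rw [mem_S (by positivity)] at this
  exact ⟨this.2.1, this.2.2, this.1⟩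

lemma norm_prod_le_one {T : Finset Eis} {γ : Eis → ℂ} (h : ∀ p ∈ T, ‖γ p‖ ≤ 1) :
    ‖∏ p ∈ T, γ p‖ ≤ 1 := by
  rw [norm_prod]
  exact Finset.prod_le_one (fun _ _ => norm_nonneg _) h

lemma l2_prods {P : Finset Eis} {B : ℝ} (hB : 1 ≤ B) (h : PB P B) (j : ℕ) {γ : Eis → ℂ}
    (hγ : ∀ p ∈ P, ‖γ p‖ ≤ 1) : ∑ c ∈ prods P j, ‖∏ p ∈ pp c, γ p‖ ^ 2 ≤ 16 * B ^ j := by
  classical
  have hB0 : 0 ≤ B := by linarith
  have h1 : ∀ c ∈ prods P j, ‖∏ p ∈ pp c, γ p‖ ^ 2 ≤ 1 := by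
    intro c hc
    unfold prods at hc
    rw [Finset.mem_image] at hc
    obtain ⟨T, hT, rfl⟩ := hc
    rw [(h.ppSet.subset (mem_powersetCard.1 hT).1).pp_prod]
    have := norm_prod_le_one (T := T) (γ := γ)
      (fun p hp => hγ p ((mem_powersetCard.1 hT).1 hp))
    have h0 := norm_nonneg (∏ p ∈ T, γ p)
    nlinarith
  have h2 : ((prods P j).card : ℝ) ≤ 16 * B ^ j := by
    refine le_trans ?_ (GLS106.card_S_le (one_le_pow₀ hB))
    exact_mod_cast Finset.card_le_card ((Sq_prods hB0 h j).subset (by positivity))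
  calc ∑ c ∈ prods P j, ‖∏ p ∈ pp c, γ p‖ ^ 2 ≤ ∑ c ∈ prods P j, (1 : ℝ) := Finset.sum_le_sum h1
    _ = ((prods P j).card : ℝ) := by simp
    _ ≤ _ := h2

/-- the bilinear decomposition -/
lemma decomp {P : Finset Eis} (h : PPSet P) {i j : ℕ} (hij : i ≤ j) (γ : Eis → ℂ) :
    (j.choose i : ℂ) * ∑ T ∈ powersetCard j P, (∏ p ∈ T, γ p) * G (∏ p ∈ T, p) =
      ∑ c ∈ prods P i, ∑ d ∈ prods P (j - i),
        (∏ p ∈ pp c, γ p) * (∏ p ∈ pp d, γ p) * G (c * d) := by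
  classical
  rw [choose_mul_sum P hij]
  have e1 : ∑ c ∈ prods P i, ∑ d ∈ prods P (j - i),
        (∏ p ∈ pp c, γ p) * (∏ p ∈ pp d, γ p) * G (c * d) =
      ∑ c ∈ prods P i, (∏ p ∈ pp c, γ p) * ∑ d ∈ prods P (j - i), (∏ p ∈ pp d, γ p) * G (c * d) := by
    refine Finset.sum_congr rfl fun c _ => ?_
    rw [Finset.mul_sum]
    refine Finset.sum_congr rfl fun d _ => ?_
    ring
  rw [e1, sum_prods h i (fun c => ∑ d ∈ prods P (j - i), (∏ p ∈ pp d, γ p) * G (c * d)) γ]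
  refine Finset.sum_congr rfl fun U hU => ?_
  rw [sum_prods h (j - i) (fun d => G ((∏ p ∈ U, p) * d)) γ, Finset.mul_sum]
  refine Finset.sum_congr rfl fun V hV => ?_
  have hU' := mem_powersetCard.1 hU
  have hV' := mem_powersetCard.1 hV
  by_cases hd : Disjoint U V
  · rw [if_pos hd, Finset.prod_union hd, Finset.prod_union hd]; ring
  · rw [if_neg hd]
    have : G ((∏ p ∈ U, p) * (∏ p ∈ V, p)) = 0 := by
      apply Gauss880.G_eq_zero syG ((h.subset hU'.1).isPrim_prod.mul (h.subset hV'.1).isPrim_prod)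
      intro hs
      rw [Finset.not_disjoint_iff] at hd
      obtain ⟨p, hp1, hp2⟩ := hd
      have : p * p ∣ (∏ p ∈ U, p) * (∏ p ∈ V, p) :=
        mul_dvd_mul (Finset.dvd_prod_of_mem (fun x => x) hp1)
          (Finset.dvd_prod_of_mem (fun x => x) hp2)
      exact (h p (hU'.1 hp1)).prime.not_isUnit (hs p this)
    rw [this]; ring

/-- **B2**, set form. -/
theorem setBil {ε : ℝ} (hε : 0 < ε) {j : ℕ} (hj : 2 ≤ j) :
    ∃ K : ℝ, 0 < K ∧ ∀ B : ℝ, 1 ≤ B → ∀ P : Finset Eis, PB P B → ∀ γ : Eis → ℂ,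
      (∀ p ∈ P, ‖γ p‖ ≤ 1) →
      ‖∑ T ∈ powersetCard j P, (∏ p ∈ T, γ p) * G (∏ p ∈ T, p)‖ ≤
        K * (B ^ j) ^ ((5 : ℝ) / 6 + ε) := by
  obtain ⟨K, hK, hb⟩ := bil_G Sym645.syFacts gFacts LS448.hb_final (ε := 2 * ε) (by positivity)
  refine ⟨16 * Real.sqrt (3 * K), by positivity, fun B hB P hP γ hγ => ?_⟩
  set i := j / 2 with hi
  set k := j - i with hk
  have hij : i ≤ j := Nat.div_le_self _ _
  have hik : i + k = j := by omega
  have hB0 : 0 < B := by linarith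
  have h1 := hb (B ^ i) (B ^ k) (one_le_pow₀ hB) (one_le_pow₀ hB) (prods P i) (prods P k)
    (Sq_prods hB0.le hP i) (Sq_prods hB0.le hP k) (fun c => ∏ p ∈ pp c, γ p)
    (fun c => ∏ p ∈ pp c, γ p)
  rw [← decomp hP.ppSet hij γ] at h1
  have hch : (1 : ℝ) ≤ (j.choose i : ℝ) := by exact_mod_cast Nat.choose_pos hij
  have h2 : ‖∑ T ∈ powersetCard j P, (∏ p ∈ T, γ p) * G (∏ p ∈ T, p)‖ ≤
      ‖(j.choose i : ℂ) * ∑ T ∈ powersetCard j P, (∏ p ∈ T, γ p) * G (∏ p ∈ T, p)‖ := by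
    rw [norm_mul, Complex.norm_natCast]
    exact le_mul_of_one_le_left (norm_nonneg _) hch
  refine h2.trans (h1.trans ?_)
  have hZ : B ^ i * B ^ k = B ^ j := by rw [← pow_add, hik]
  set Z := B ^ j with hZd
  have hZ1 : 1 ≤ Z := one_le_pow₀ hB
  have hi2 : B ^ i ≤ Z ^ ((2 : ℝ) / 3) := by
    rw [hZd, ← Real.rpow_natCast, ← Real.rpow_natCast, ← Real.rpow_mul hB0.le]
    apply Real.rpow_le_rpow_of_exponent_le hB
    have : 3 * i ≤ 2 * j := by omega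
    have : 3 * (i : ℝ) ≤ 2 * j := by exact_mod_cast this
    linarith
  have hk2 : B ^ k ≤ Z ^ ((2 : ℝ) / 3) := by
    rw [hZd, ← Real.rpow_natCast, ← Real.rpow_natCast, ← Real.rpow_mul hB0.le]
    apply Real.rpow_le_rpow_of_exponent_le hB
    have : 3 * k ≤ 2 * j := by omega
    have : 3 * (k : ℝ) ≤ 2 * j := by exact_mod_cast this
    linarith
  have hh : hbB (2 * ε) K (B ^ i) (B ^ k) ≤ 3 * K * Z ^ (2 * ε + 2 / 3) := by
    unfold hbB
    rw [hZ, Real.rpow_add (by linarith)]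
    have : B ^ i + B ^ k + Z ^ ((2 : ℝ) / 3) ≤ 3 * Z ^ ((2 : ℝ) / 3) := by linarith
    calc K * Z ^ (2 * ε) * (B ^ i + B ^ k + Z ^ ((2 : ℝ) / 3))
        ≤ K * Z ^ (2 * ε) * (3 * Z ^ ((2 : ℝ) / 3)) := by gcongr
      _ = _ := by ring
  have hh0 : 0 ≤ hbB (2 * ε) K (B ^ i) (B ^ k) := hbB_nonneg hK.le (by positivity) (by positivity)
  calc Real.sqrt (∑ c ∈ prods P i, ‖∏ p ∈ pp c, γ p‖ ^ 2) *
        Real.sqrt (hbB (2 * ε) K (B ^ i) (B ^ k) * ∑ d ∈ prods P k, ‖∏ p ∈ pp d, γ p‖ ^ 2)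
      ≤ Real.sqrt (16 * B ^ i) * Real.sqrt (3 * K * Z ^ (2 * ε + 2 / 3) * (16 * B ^ k)) := by
        have a1 := l2_prods hB hP i hγ
        have a2 := l2_prods hB hP k hγ
        gcongr
    _ = Real.sqrt ((16 * Real.sqrt (3 * K) * Z ^ ((5 : ℝ) / 6 + ε)) ^ 2) := by
        rw [← Real.sqrt_mul (by positivity)]
        congr 1
        have e1 : (Z ^ ((5 : ℝ) / 6 + ε)) ^ 2 = Z ^ (2 * ε + 2 / 3) * Z := by
          rw [← Real.rpow_natCast, ← Real.rpow_mul (by linarith), ← Real.rpow_add_one (by linarith)]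
          congr 1
          push_cast; ring
        rw [mul_pow, mul_pow, Real.sq_sqrt (by positivity), e1, ← hZ]
        ring
    _ = _ := Real.sqrt_sq (by positivity)

/-! ### coefficients -/

open Classical in
/-- the coefficients of products of `j` distinct primes of `P` -/
def bset (P : Finset Eis) (γ : Eis → ℂ) (j : ℕ) (n : Eis) : ℂ :=
  if pp n ⊆ P ∧ (pp n).card = j then ∏ p ∈ pp n, γ p else 0

lemma sum_bset {P : Finset Eis} {B : ℝ} (hB : 1 ≤ B) (h : PB P B) (γ : Eis → ℂ) (j : ℕ)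
    {Z : ℝ} (hZ : B ^ j ≤ Z) (F : Eis → ℂ) :
    ∑ n ∈ S Z, bset P γ j n * F n =
      ∑ T ∈ powersetCard j P, (∏ p ∈ T, γ p) * F (∏ p ∈ T, p) := by
  classical
  have hB0 : 0 ≤ B := by linarith
  have hZ0 : 0 ≤ Z := le_trans (by positivity) hZ
  rw [← sum_prods h.ppSet j F γ]
  symm
  have hsub : prods P j ⊆ S Z := by
    intro n hn
    have := Sq_prods hB0 h j n hn
    rw [mem_S hZ0]
    exact ⟨this.2.2.trans hZ, this.1, this.2.1⟩
  rw [← Finset.sum_subset hsub]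
  · refine Finset.sum_congr rfl fun c hc => ?_
    unfold prods at hc
    rw [Finset.mem_image] at hc
    obtain ⟨T, hT, rfl⟩ := hc
    have hT' := mem_powersetCard.1 hT
    unfold bset
    rw [(h.ppSet.subset hT'.1).pp_prod, if_pos hT']
  · intro n hn hn'
    unfold bset
    rw [if_neg, zero_mul]
    rintro ⟨h1, h2⟩
    apply hn'
    unfold prods
    rw [Finset.mem_image]
    have hnS := (mem_S hZ0).1 hn
    exact ⟨pp n, mem_powersetCard.2 ⟨h1, h2⟩, prod_pp hnS.2.1 hnS.2.2⟩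

lemma norm_bset_le {P : Finset Eis} {γ : Eis → ℂ} (hγ : ∀ p ∈ P, ‖γ p‖ ≤ 1) (j : ℕ) (n : Eis) :
    ‖bset P γ j n‖ ≤ 1 := by
  unfold bset
  split_ifs with h
  · exact norm_prod_le_one fun p hp => hγ p (h.1 hp)
  · simp

lemma l2_bset {P : Finset Eis} {γ : Eis → ℂ} (hγ : ∀ p ∈ P, ‖γ p‖ ≤ 1) (j : ℕ) {Z : ℝ}
    (hZ : 1 ≤ Z) : ∑ n ∈ S Z, ‖bset P γ j n‖ ^ 2 ≤ 16 * Z := by
  calc ∑ n ∈ S Z, ‖bset P γ j n‖ ^ 2 ≤ ∑ n ∈ S Z, (1 : ℝ) := by
        refine Finset.sum_le_sum fun n _ => ?_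
        have := norm_bset_le hγ j n
        have h0 := norm_nonneg (bset P γ j n)
        nlinarith
    _ = ((S Z).card : ℝ) := by simp
    _ ≤ _ := GLS106.card_S_le hZ

lemma sy_prod (r : Eis) {T : Finset Eis} (h : PPSet T) : sy r (∏ p ∈ T, p) = ∏ p ∈ T, sy r p := by
  classical
  induction T using Finset.induction_on with
  | empty =>
    simp only [Finset.prod_empty]
    exact Sym645.sy_one_right r
  | insert a s ha ih =>
    have hs : PPSet s := h.subset (subset_insert _ _)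
    rw [Finset.prod_insert ha, Finset.prod_insert ha,
      syG.mul_right _ _ _ (h a (mem_insert_self _ _)).isPrim hs.isPrim_prod, ih hs]

/-- **the BIL hypothesis of `CR2.CoreB`** -/
theorem bil_hyp {j : ℕ} (hj : 2 ≤ j) : ∃ K : ℝ, 0 < K ∧ ∀ C H : ℝ, 1 ≤ C → 1 ≤ H →
    H ^ (1.05 : ℝ) ≤ (2 * C) ^ j → ∀ (P : Finset Eis) (γ : Eis → ℂ),
    (∀ p ∈ P, IsPrim p ∧ Prime p ∧ C < (nm p : ℝ) ∧ (nm p : ℝ) ≤ 2 * C ∧ ‖γ p‖ ≤ 1) →
    ∀ r : Eis, ‖∑ n ∈ S ((2 * C) ^ j), conj (bset P γ j n) * (sy r n * conj (G n) *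
        ((nm n : ℝ) ^ (-(1 : ℝ) / 6) * CR2.phi n : ℝ))‖ ≤
      K * ((2 * C) ^ j) ^ ((5 : ℝ) / 6) * H ^ (-(1 / 7) : ℝ) := by
  obtain ⟨K, hK, hb⟩ := setBil (ε := 1 / 40) (by norm_num) hj
  refine ⟨2 ^ j * K, by positivity, fun C H hC hH hHC P γ hP r => ?_⟩
  have hB : 1 ≤ 2 * C := by linarith
  have hC0 : 0 < C := by linarith
  have hPB : PB P (2 * C) := fun p hp => ⟨(hP p hp).1, (hP p hp).2.1, (hP p hp).2.2.2.1⟩
  -- the new coefficients
  set ρ : Eis → ℂ := fun p => ((C ^ ((1 : ℝ) / 6) : ℝ) : ℂ) * (γ p * (conj (sy r p) *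
    (((nm p : ℝ) ^ (-(1 : ℝ) / 6) * (1 + 1 / (nm p : ℝ))⁻¹ : ℝ) : ℂ))) with hρ
  have hρ1 : ∀ p ∈ P, ‖ρ p‖ ≤ 1 := by
    intro p hp
    obtain ⟨q1, q2, q3, q4, q5⟩ := hP p hp
    have hn : (0 : ℝ) < nm p := by linarith
    rw [hρ]
    simp only
    rw [norm_mul, norm_mul, norm_mul, RCLike.norm_conj, Complex.norm_real, Complex.norm_real,
      Real.norm_of_nonneg (by positivity), Real.norm_of_nonneg (by positivity)]
    have b1 := Gauss880.norm_sy_le syG q1 (x := r)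
    have b2 : (1 + 1 / (nm p : ℝ))⁻¹ ≤ 1 := by
      apply inv_le_one_of_one_le₀
      have : 0 ≤ 1 / (nm p : ℝ) := by positivity
      linarith
    have b3 : C ^ ((1 : ℝ) / 6) * (nm p : ℝ) ^ (-(1 : ℝ) / 6) ≤ 1 := by
      have e : (-(1 : ℝ) / 6) = -(1 / 6) := by ring
      rw [e, Real.rpow_neg hn.le, ← div_eq_mul_inv, div_le_one (by positivity)]
      exact Real.rpow_le_rpow hC0.le q3.le (by norm_num)
    calc C ^ ((1 : ℝ) / 6) * (‖γ p‖ * (‖sy r p‖ * ((nm p : ℝ) ^ (-(1 : ℝ) / 6) *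
          (1 + 1 / (nm p : ℝ))⁻¹)))
        = (C ^ ((1 : ℝ) / 6) * (nm p : ℝ) ^ (-(1 : ℝ) / 6)) * ‖γ p‖ * ‖sy r p‖ *
          (1 + 1 / (nm p : ℝ))⁻¹ := by ring
      _ ≤ 1 * 1 * 1 * 1 := by gcongr
      _ = 1 := by norm_num
  have h1 := hb (2 * C) hB P hPB ρ hρ1
  -- rewrite the sum
  have e1 : ∑ n ∈ S ((2 * C) ^ j), conj (bset P γ j n) * (sy r n * conj (G n) *
        ((nm n : ℝ) ^ (-(1 : ℝ) / 6) * CR2.phi n : ℝ)) =
      ((((C ^ ((1 : ℝ) / 6))⁻¹) ^ j : ℝ) : ℂ) *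
        conj (∑ T ∈ powersetCard j P, (∏ p ∈ T, ρ p) * G (∏ p ∈ T, p)) := by
    have e2 : ∑ n ∈ S ((2 * C) ^ j), conj (bset P γ j n) * (sy r n * conj (G n) *
        ((nm n : ℝ) ^ (-(1 : ℝ) / 6) * CR2.phi n : ℝ)) =
        conj (∑ n ∈ S ((2 * C) ^ j), bset P γ j n * (conj (sy r n) * G n *
        (((nm n : ℝ) ^ (-(1 : ℝ) / 6) * CR2.phi n : ℝ) : ℂ))) := by
      rw [map_sum]
      refine Finset.sum_congr rfl fun n _ => ?_
      simp only [map_mul, Complex.conj_conj, Complex.conj_ofReal]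
    rw [e2, sum_bset hB hPB γ j le_rfl]
    have e3 : ∀ x : ℂ, ((((C ^ ((1 : ℝ) / 6))⁻¹) ^ j : ℝ) : ℂ) * conj x =
        conj (((((C ^ ((1 : ℝ) / 6))⁻¹) ^ j : ℝ) : ℂ) * x) := by
      intro x; rw [map_mul, Complex.conj_ofReal]
    rw [e3]
    congr 1
    rw [Finset.mul_sum]
    refine Finset.sum_congr rfl fun T hT => ?_
    have hT' := mem_powersetCard.1 hT
    have hTS : PPSet T := hPB.ppSet.subset hT'.1
    have e4 : ∏ p ∈ T, ρ p = (((C ^ ((1 : ℝ) / 6)) ^ j : ℝ) : ℂ) * ((∏ p ∈ T, γ p) *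
        ((∏ p ∈ T, conj (sy r p)) * ((∏ p ∈ T, ((nm p : ℝ) ^ (-(1 : ℝ) / 6)) : ℝ) *
          (∏ p ∈ T, (1 + 1 / (nm p : ℝ))⁻¹ : ℝ) : ℂ))) := by
      rw [hρ]
      simp only
      rw [Finset.prod_mul_distrib, Finset.prod_mul_distrib, Finset.prod_mul_distrib,
        Finset.prod_const, hT'.2]
      push_cast
      rw [Finset.prod_mul_distrib]
    have e5 : CR2.phi (∏ p ∈ T, p) = ∏ p ∈ T, (1 + 1 / (nm p : ℝ))⁻¹ := by
      unfold CR2.phi; rw [hTS.pp_prod]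
    have e6 : (nm (∏ p ∈ T, p) : ℝ) ^ (-(1 : ℝ) / 6) = ∏ p ∈ T, ((nm p : ℝ) ^ (-(1 : ℝ) / 6)) := by
      rw [nm_prod]
      push_cast
      rw [Real.finsetProd_rpow _ _ (fun p _ => by positivity)]
    rw [e4, e5, e6, sy_prod r hTS, map_prod]
    have hc : ((C ^ ((1 : ℝ) / 6))⁻¹) ^ j * (C ^ ((1 : ℝ) / 6)) ^ j = 1 := by
      rw [← mul_pow, inv_mul_cancel₀ (by positivity), one_pow]
    have hc' : ((((C ^ ((1 : ℝ) / 6))⁻¹) ^ j : ℝ) : ℂ) * (((C ^ ((1 : ℝ) / 6)) ^ j : ℝ) : ℂ) = 1 := by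
      rw [← Complex.ofReal_mul, hc, Complex.ofReal_one]
    push_cast at hc' ⊢
    linear_combination (-(∏ p ∈ T, γ p) * ((∏ p ∈ T, conj (sy r p)) *
      G (∏ p ∈ T, p) * ((∏ p ∈ T, (((nm p : ℝ) ^ (-(1 : ℝ) / 6) : ℝ) : ℂ)) *
      (∏ p ∈ T, ((1 + 1 / (nm p : ℂ))⁻¹))))) * hc'
  rw [e1, norm_mul, RCLike.norm_conj, Complex.norm_real, Real.norm_of_nonneg (by positivity)]
  set Z := (2 * C) ^ j with hZ
  have hZ0 : 0 < Z := by positivity
  have hCj : ((C ^ ((1 : ℝ) / 6))⁻¹) ^ j ≤ 2 ^ j * Z ^ (-(1 / 6) : ℝ) := by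
    have e7 : Z ^ (-(1 / 6) : ℝ) = (((2 * C) ^ ((1 : ℝ) / 6))⁻¹) ^ j := by
      rw [hZ, Real.rpow_neg (by positivity), inv_pow, ← Real.rpow_natCast, ← Real.rpow_natCast,
        ← Real.rpow_mul (by positivity), ← Real.rpow_mul (by positivity)]
      congr 2; ring
    rw [e7, ← mul_pow]
    apply pow_le_pow_left₀ (by positivity)
    rw [Real.mul_rpow (by norm_num) hC0.le, mul_inv, ← mul_assoc]
    have : (1 : ℝ) ≤ 2 * ((2 : ℝ) ^ ((1 : ℝ) / 6))⁻¹ := by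
      rw [← div_eq_mul_inv, le_div_iff₀ (by positivity), one_mul]
      calc (2 : ℝ) ^ ((1 : ℝ) / 6) ≤ 2 ^ (1 : ℝ) :=
            Real.rpow_le_rpow_of_exponent_le (by norm_num) (by norm_num)
        _ = 2 := Real.rpow_one _
    exact le_mul_of_one_le_left (by positivity) this
  calc ((C ^ ((1 : ℝ) / 6))⁻¹) ^ j *
        ‖∑ T ∈ powersetCard j P, (∏ p ∈ T, ρ p) * G (∏ p ∈ T, p)‖
      ≤ (2 ^ j * Z ^ (-(1 / 6) : ℝ)) * (K * Z ^ ((5 : ℝ) / 6 + 1 / 40)) := by gcongr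
    _ = 2 ^ j * K * Z ^ ((5 : ℝ) / 6) * Z ^ (-(17 / 120) : ℝ) := by
        have : Z ^ (-(1 / 6) : ℝ) * Z ^ ((5 : ℝ) / 6 + 1 / 40) =
            Z ^ ((5 : ℝ) / 6) * Z ^ (-(17 / 120) : ℝ) := by
          rw [← Real.rpow_add hZ0, ← Real.rpow_add hZ0]
          congr 1; norm_num
        linear_combination (2 ^ j * K) * this
    _ ≤ 2 ^ j * K * Z ^ ((5 : ℝ) / 6) * H ^ (-(1 / 7) : ℝ) := by
        have h2 : Z ^ (-(17 / 120) : ℝ) ≤ H ^ (-(1 / 7) : ℝ) := by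
          calc Z ^ (-(17 / 120) : ℝ) ≤ (H ^ (1.05 : ℝ)) ^ (-(17 / 120) : ℝ) :=
                Real.rpow_le_rpow_of_nonpos (by positivity) hHC (by norm_num)
            _ = H ^ ((1.05 : ℝ) * (-(17 / 120))) := by rw [← Real.rpow_mul (by linarith)]
            _ ≤ _ := Real.rpow_le_rpow_of_exponent_le hH (by norm_num)
        gcongr

end Crest.Agent.R012.BilJ811
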