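import Crest.Agent.R012.AddChar_666

/-!
# Row 12: primes of the Eisenstein integers, residue fields, the symbol `sy0` at a prime

* `pow_nm_sub_one` : `p ∣ x^(nm p - 1) - 1` for a prime `p ∤ x`
* `sy0_spec` : for `p` prime, `lam ∤ p`, `p ∤ x`, `sy0 x p = toC v` iff `v³ = 1` and
  `p ∣ x^((nm p - 1)/3) - v`
* classification of primes: `nm p = q` prime or `nm p = q²`.
-/

set_option autoImplicit false
set_option linter.unusedSimpArgs false
set_option linter.unusedVariables false

noncomputable section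

namespace Crest.Agent.R012

open Eis

lemma isField_QE {p : Eis} (hp : Prime p) : (Ideal.span ({p} : Set Eis)).IsMaximal :=
  PrincipalIdealRing.isMaximal_of_irreducible hp.irreducible

/-- Fermat's little theorem in `Eis`. -/
lemma pow_nm_sub_one {p x : Eis} (hp : Prime p) (hx : ¬ p ∣ x) : p ∣ x ^ (nm p - 1) - 1 := by
  have hmax := isField_QE hp
  let _ : Field (QE p) := Ideal.Quotient.field _
  have hfin : Finite (QE p) := finite_QE hp.ne_zero
  let _ : Fintype (QE p) := Fintype.ofFinite _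
  have h0 : mkQ p x ≠ 0 := by
    intro h
    rw [← map_zero (mkQ p), mkQ_eq_iff, sub_zero] at h
    exact hx h
  have h1 := FiniteField.pow_card_sub_one_eq_one (mkQ p x) h0
  rw [← Nat.card_eq_fintype_card, card_QE] at h1
  rw [← mkQ_eq_iff, map_pow, map_one]
  exact h1

lemma pow_nm {p x : Eis} (hp : Prime p) : p ∣ x ^ (nm p) - x := by
  by_cases hx : p ∣ x
  · have hn : nm p ≠ 0 := (nm_pos.mpr hp.ne_zero).ne'
    exact dvd_sub (dvd_pow hx hn) hx
  · have h := pow_nm_sub_one hp hx
    have hn : nm p = (nm p - 1) + 1 := by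
      have := nm_pos.mpr hp.ne_zero; omega
    rw [hn, pow_succ]
    have : x ^ (nm p - 1) * x - x = x * (x ^ (nm p - 1) - 1) := by ring
    rw [this]
    exact h.mul_left x

lemma one_lt_nm_of_prime {p : Eis} (hp : Prime p) : 1 < nm p := by
  have h1 : nm p ≠ 1 := fun h => hp.not_isUnit (isUnit_iff.mpr h)
  have h2 := nm_pos.mpr hp.ne_zero
  omega

lemma not_lam_dvd_of_prime {p : Eis} (hp : Prime p) (h : ¬ Associated lam p) : ¬ lam ∣ p := by
  intro hd
  exact h ((prime_lam.dvd_prime_iff_associated hp).mp hd)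

lemma three_dvd_nm_sub_one {p : Eis} (h : ¬ lam ∣ p) : 3 ∣ nm p - 1 := by
  have := nm_mod_three_of_not_dvd h; omega

lemma four_le_nm {p : Eis} (hp : Prime p) (h : ¬ lam ∣ p) : 4 ≤ nm p := by
  have h1 := nm_mod_three_of_not_dvd h
  have h2 := one_lt_nm_of_prime hp
  omega

/-- The cube roots of unity of `Eis`. -/
lemma cube_eq_one_iff {v : Eis} : v ^ 3 = 1 ↔ v = 1 ∨ v = w ∨ v = w ^ 2 := by
  constructor
  · intro h
    have hu : IsUnit v := IsUnit.of_pow_eq_one h (by norm_num)
    have hw := w_cube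
    rcases isUnit_cases hu with h' | h' | h' | h' | h' | h'
    · exact Or.inl h'
    · rw [h'] at h
      have : (-1 : Eis) ^ 3 = -1 := by ring
      rw [this] at h
      have := congrArg QuadraticAlgebra.re h
      simp at this
    · exact Or.inr (Or.inl h')
    · rw [h'] at h
      have h2 : (-w) ^ 3 = -(w ^ 3) := by ring
      rw [h2, hw] at h
      have := congrArg QuadraticAlgebra.re h
      simp at this
    · exact Or.inr (Or.inr h')
    · rw [h'] at h
      have h2 : (-w ^ 2) ^ 3 = -(w ^ 3) ^ 2 := by ring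
      rw [h2, hw] at h
      have := congrArg QuadraticAlgebra.re h
      simp at this
  · rintro (rfl | rfl | rfl)
    · ring
    · exact w_cube
    · have : (w ^ 2) ^ 3 = (w ^ 3) ^ 2 := by ring
      rw [this, w_cube]; ring

/-- Distinct cube roots of unity differ by an associate of `lam`. -/
lemma associated_sub_of_cube {u v : Eis} (hu : u ^ 3 = 1) (hv : v ^ 3 = 1) (huv : u ≠ v) :
    Associated lam (u - v) := by
  have hw := w_cube
  have hww := w_sq
  have e1 : Associated lam (1 - w) := Associated.refl _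
  have e2 : Associated lam (1 - w ^ 2) := by
    -- 1 - w^2 = (1 - w)(1 + w) = (1-w) * (-w^2)
    refine ⟨-wU ^ 2, ?_⟩
    push_cast
    rw [wU_val]
    unfold lam
    linear_combination hw
  have e3 : Associated lam (w - w ^ 2) := by
    refine ⟨wU, ?_⟩
    rw [wU_val]; unfold lam; ring
  rcases cube_eq_one_iff.mp hu with rfl | rfl | rfl <;>
    rcases cube_eq_one_iff.mp hv with rfl | rfl | rfl
  · exact absurd rfl huv
  · exact e1
  · exact e2
  · rw [← neg_sub]; exact e1.neg_right
  · exact absurd rfl huv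
  · exact e3
  · rw [← neg_sub]; exact e2.neg_right
  · rw [← neg_sub]; exact e3.neg_right
  · exact absurd rfl huv

lemma cube_unique {p u v x : Eis} (hp : ¬ IsUnit p) (hl : ¬ lam ∣ p) (hu : u ^ 3 = 1)
    (hv : v ^ 3 = 1) (h1 : p ∣ x - u) (h2 : p ∣ x - v) : u = v := by
  by_contra huv
  have h3 : p ∣ u - v := by
    have := dvd_sub h2 h1
    have e : x - v - (x - u) = u - v := by ring
    rwa [e] at this
  have h4 : p ∣ lam := (associated_sub_of_cube hu hv huv).symm.dvd_iff_dvd_right.mp h3
  rcases (prime_lam.irreducible.dvd_iff).mp h4 with h5 | h5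
  · exact hp h5
  · exact hl h5.dvd

lemma exists_cube {p x : Eis} (hp : Prime p) (hl : ¬ lam ∣ p) (hx : ¬ p ∣ x) :
    ∃ v : Eis, v ^ 3 = 1 ∧ p ∣ x ^ ((nm p - 1) / 3) - v := by
  have h := pow_nm_sub_one hp hx
  have h3 := three_dvd_nm_sub_one hl
  set k := (nm p - 1) / 3 with hk
  have hk3 : nm p - 1 = k * 3 := by omega
  rw [hk3, pow_mul] at h
  set y := x ^ k
  have hw := w_cube
  have hww := w_sq
  have e : y ^ 3 - 1 = (y - 1) * ((y - w) * (y - w ^ 2)) := by
    linear_combination (y - 1) * y * hww - (y - 1) * hw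
  rw [e] at h
  rcases hp.dvd_or_dvd h with h | h
  · exact ⟨1, by ring, h⟩
  · rcases hp.dvd_or_dvd h with h | h
    · exact ⟨w, w_cube, h⟩
    · exact ⟨w ^ 2, by have : (w ^ 2) ^ 3 = (w ^ 3) ^ 2 := by ring
                       rw [this, hw]; ring, h⟩

lemma sy0_eq_zero {p x : Eis} (hx : p ∣ x) : sy0 x p = 0 := by
  unfold sy0; rw [if_pos hx]

/-- Characterisation of the symbol at a prime. -/
lemma sy0_eq {p x v : Eis} (hp : Prime p) (hl : ¬ lam ∣ p) (hx : ¬ p ∣ x) (hv : v ^ 3 = 1)
    (h : p ∣ x ^ ((nm p - 1) / 3) - v) : sy0 x p = toC v := by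
  have hpu := hp.not_isUnit
  unfold sy0
  rw [if_neg hx]
  have h13 : (1 : Eis) ^ 3 = 1 := by ring
  have hw3 := w_cube
  have hw23 : (w ^ 2) ^ 3 = 1 := by
    have : (w ^ 2) ^ 3 = (w ^ 3) ^ 2 := by ring
    rw [this, hw3]; ring
  split_ifs with h1 h2
  · rw [cube_unique hpu hl hv h13 h h1, map_one]
  · rw [cube_unique hpu hl hv hw3 h h2, toC_w]
  · rcases cube_eq_one_iff.mp hv with rfl | rfl | rfl
    · exact absurd h h1
    · exact absurd h h2
    · rw [map_pow, toC_w]

lemma sy0_exists {p x : Eis} (hp : Prime p) (hl : ¬ lam ∣ p) (hx : ¬ p ∣ x) :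
    ∃ v : Eis, v ^ 3 = 1 ∧ p ∣ x ^ ((nm p - 1) / 3) - v ∧ sy0 x p = toC v := by
  obtain ⟨v, hv, h⟩ := exists_cube hp hl hx
  exact ⟨v, hv, h, sy0_eq hp hl hx hv h⟩

lemma sy0_congr_assoc {p q x : Eis} (h : Associated p q) : sy0 x p = sy0 x q := by
  have hd : ∀ z, (p ∣ z) = (q ∣ z) := fun z => propext h.dvd_iff_dvd_left
  have hn := nm_eq_of_associated h
  classical
  unfold sy0
  simp only [hd, hn]

/-- For a prime modulus the symbol is `sy0`. -/
lemma sy_prime {p : Eis} (hp : Prime p) (x : Eis) : sy x p = sy0 x p := by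
  obtain ⟨q, hq, hpq⟩ : ∃ q, UniqueFactorizationMonoid.factors p = {q} ∧ Associated p q := by
    have h := UniqueFactorizationMonoid.factors_prod hp.ne_zero
    have h2 : ∀ q ∈ UniqueFactorizationMonoid.factors p, Prime q := fun q hq =>
      UniqueFactorizationMonoid.prime_of_factor q hq
    have h3 := (UniqueFactorizationMonoid.factors_unique (f := UniqueFactorizationMonoid.factors p)
      (g := {p}) (fun x hx => (h2 x hx).irreducible) (fun x hx => by
        rw [Multiset.mem_singleton] at hx; rw [hx]; exact hp.irreducible) (by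
        rw [Multiset.prod_singleton]; exact h))
    have h4 := Multiset.card_eq_card_of_rel h3
    rw [Multiset.card_singleton] at h4
    obtain ⟨q, hq⟩ := Multiset.card_eq_one.mp h4
    refine ⟨q, hq, ?_⟩
    rw [hq, Multiset.prod_singleton] at h
    exact h.symm
  unfold sy
  rw [hq, Multiset.map_singleton, Multiset.prod_singleton]
  exact (sy0_congr_assoc hpq).symm

lemma add_cube_of_ne {u v : Eis} (hu : u ^ 3 = 1) (hv : v ^ 3 = 1) (huv : u ≠ v) :
    IsUnit (u + v) := by
  have hw := w_cube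
  have hww := w_sq
  have k1 : IsUnit (1 + w) := by
    have : (1 + w) = -w ^ 2 := by linear_combination hww
    rw [this]; exact (isUnit_w.pow 2).neg
  have k2 : IsUnit (1 + w ^ 2) := by
    have : (1 + w ^ 2) = -w := by linear_combination hww
    rw [this]; exact isUnit_w.neg
  have k3 : IsUnit (w + w ^ 2) := by
    have : (w + w ^ 2) = -1 := by linear_combination hww
    rw [this]; exact isUnit_one.neg
  rcases cube_eq_one_iff.mp hu with rfl | rfl | rfl <;>
    rcases cube_eq_one_iff.mp hv with rfl | rfl | rfl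
  · exact absurd rfl huv
  · exact k1
  · exact k2
  · rw [add_comm]; exact k1
  · exact absurd rfl huv
  · exact k3
  · rw [add_comm]; exact k2
  · rw [add_comm]; exact k3
  · exact absurd rfl huv

lemma sy0_neg {p : Eis} (hp : Prime p) (hl : ¬ lam ∣ p) (x : Eis) : sy0 (-x) p = sy0 x p := by
  by_cases hx : p ∣ x
  · rw [sy0_eq_zero hx, sy0_eq_zero (dvd_neg.mpr hx)]
  · have hx' : ¬ p ∣ -x := fun h => hx (dvd_neg.mp h)
    obtain ⟨v, hv, h, e⟩ := sy0_exists hp hl hx
    obtain ⟨u, hu, h', e'⟩ := sy0_exists hp hl hx'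
    rw [e, e']
    congr 1
    set k := (nm p - 1) / 3
    rcases Nat.even_or_odd k with hk | hk
    · rw [hk.neg_pow] at h'
      exact cube_unique hp.not_isUnit hl hu hv h' h
    · rw [hk.neg_pow] at h'
      by_contra huv
      have h3 : p ∣ u + v := by
        have := dvd_add h h'
        have e : x ^ k - v + (-x ^ k - u) = -(u + v) := by ring
        rw [e] at this
        exact dvd_neg.mp this
      exact hp.not_isUnit (isUnit_of_dvd_unit h3 (add_cube_of_ne hu hv huv))

lemma pmod_sy0 (p : Eis) : PMod p (fun x => sy0 x p) := by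
  intro x t
  have key : ∀ v : Eis, (p ∣ (x + p * t) ^ ((nm p - 1) / 3) - v ↔
      p ∣ x ^ ((nm p - 1) / 3) - v) := fun v => by
    have h1 : p ∣ (x + p * t) ^ ((nm p - 1) / 3) - x ^ ((nm p - 1) / 3) := by
      refine dvd_trans ?_ (sub_dvd_pow_sub_pow _ _ _)
      exact ⟨t, by ring⟩
    have e : (x + p * t) ^ ((nm p - 1) / 3) - v =
      ((x + p * t) ^ ((nm p - 1) / 3) - x ^ ((nm p - 1) / 3)) + (x ^ ((nm p - 1) / 3) - v) := by
      ring
    rw [e]
    exact (dvd_add_right h1)
  have key2 : p ∣ x + p * t ↔ p ∣ x := (dvd_add_left (dvd_mul_right p t))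
  beta_reduce
  have key' := fun v => propext (key v)
  have key2' := propext key2
  classical
  unfold sy0
  simp only [key', key2']

end Crest.Agent.R012
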