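import Crest.Agent.R012.AddChar_666
import Crest.Prelude.Def_CubicGauss

/-!
# Row 12: bridge between the concrete model `Eis` and the frozen definitions

Main results:
* `phi : Eis ≃+* EisR`
* `defect l X = ∑_{π primary prime, N π ≤ X} ang l π (G π - pC N(π)^(-1/6))`
* `twisted_eq` : `twistedFirstMomentDefect σ l X = defect l X` or its complex conjugate
* `s0014_of_defect` : the statement of S0014 follows from `defect l X / (X^(5/6)/log X) → 0`.
-/

set_option autoImplicit false
set_option linter.unusedSimpArgs false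
set_option linter.unusedVariables false

noncomputable section

open Crest.NumberTheoryR.CubicGauss

namespace Crest.Agent.R012

open Eis

namespace Bridge

instance instCyc : IsCyclotomicExtension {3} ℚ EisK := CyclotomicField.isCyclotomicExtension 3 ℚ

lemma zspec : IsPrimitiveRoot (IsCyclotomicExtension.zeta 3 ℚ EisK) 3 :=
  IsCyclotomicExtension.zeta_spec 3 ℚ EisK

lemma eisZeta_eq : eisZeta = zspec.toInteger := rfl

lemma eisZeta_coe : (eisZeta : EisK) = IsCyclotomicExtension.zeta 3 ℚ EisK := rfl

lemma eisZeta_sq : eisZeta ^ 2 = -1 - eisZeta := by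
  have h : (IsCyclotomicExtension.zeta 3 ℚ EisK) ^ 2 + IsCyclotomicExtension.zeta 3 ℚ EisK + 1
      = 0 := by
    have := zspec.isRoot_cyclotomic (by norm_num)
    rw [Polynomial.cyclotomic_three] at this
    simpa using this
  apply NumberField.RingOfIntegers.ext
  push_cast
  have h' : (eisZeta : EisK) ^ 2 + (eisZeta : EisK) + 1 = 0 := h
  linear_combination h'

/-- The ring homomorphism `Eis → EisR`. -/
def phi0 : Eis →+* EisR where
  toFun z := eisOfCoords z.re z.im
  map_zero' := by simp [eisOfCoords]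
  map_one' := by simp [eisOfCoords]
  map_add' x y := by simp [eisOfCoords]; ring
  map_mul' x y := by
    simp only [eisOfCoords, re_mul', im_mul']
    push_cast
    linear_combination (-(x.im : EisR) * y.im) * eisZeta_sq

lemma phi0_apply (z : Eis) : phi0 z = eisOfCoords z.re z.im := rfl

lemma phi0_injective : Function.Injective phi0 := by
  rw [injective_iff_map_eq_zero]
  intro z hz
  have h := congrArg phi0 (Eis.mul_conj z)
  rw [map_mul, hz, zero_mul, map_natCast] at h
  have h2 : nm z = 0 := by exact_mod_cast h.symm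
  exact nm_eq_zero.mp h2

lemma phi0_surjective : Function.Surjective phi0 := by
  intro x
  have hdim : zspec.integralPowerBasis.dim = 2 := by
    rw [IsPrimitiveRoot.integralPowerBasis_dim]; decide
  let b := zspec.integralPowerBasis.basis.reindex (finCongr hdim)
  have hx := b.sum_repr x
  rw [Fin.sum_univ_two] at hx
  have hb0 : b 0 = 1 := by
    simp [b, PowerBasis.coe_basis]
  have hb1 : b 1 = eisZeta := by
    simp [b, PowerBasis.coe_basis, IsPrimitiveRoot.integralPowerBasis_gen, eisZeta_eq]
  rw [hb0, hb1] at hx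
  refine ⟨⟨b.repr x 0, b.repr x 1⟩, ?_⟩
  rw [phi0_apply]
  unfold eisOfCoords
  conv_rhs => rw [← hx]
  simp only [zsmul_eq_mul, mul_one]

/-- The ring isomorphism `Eis ≃+* EisR`. -/
def phi : Eis ≃+* EisR := RingEquiv.ofBijective phi0 ⟨phi0_injective, phi0_surjective⟩

lemma phi_apply (z : Eis) : phi z = eisOfCoords z.re z.im := rfl

lemma phi_w : phi w = eisZeta := by
  rw [phi_apply]; simp [eisOfCoords]

lemma eisNorm_phi (z : Eis) : eisNorm (phi z) = nm z := by
  have h1 := Ideal.absNorm_span_singleton (S := EisR) (phi z)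
  rw [Ideal.absNorm_apply, Submodule.cardQuot_apply] at h1
  unfold eisNorm
  rw [← h1, ← card_QE z]
  symm
  refine Nat.card_congr (Ideal.quotientEquiv _ _ phi ?_).toEquiv
  rw [Ideal.map_span, Set.image_singleton]
  rfl

lemma isPrimary_phi (z : Eis) : IsPrimary (phi z) ↔ IsPrim z := by
  unfold IsPrimary IsPrim
  rw [← map_dvd_iff phi, map_sub, map_one, map_ofNat]

lemma prime_phi (z : Eis) : Prime (phi z) ↔ Prime z := MulEquiv.prime_iff phi

/-! ### The embedding -/

lemma wC_conj : (starRingEnd ℂ) wC = wC ^ 2 := by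
  rw [wC_sq]
  apply Complex.ext
  · simp [wC]; ring
  · simp [wC]

lemma sigma_zeta (σ : EisK →+* ℂ) :
    σ (eisZeta : EisK) = wC ∨ σ (eisZeta : EisK) = (starRingEnd ℂ) wC := by
  have h := congrArg (fun x : EisR => σ (x : EisK)) eisZeta_sq
  beta_reduce at h
  push_cast at h
  rw [map_pow, map_sub, map_neg, map_one] at h
  rw [wC_conj]
  have h1 := wC_sq
  have h3 := wC_cube
  have : (σ (eisZeta : EisK) - wC) * (σ (eisZeta : EisK) - wC ^ 2) = 0 := by
    linear_combination h - σ (eisZeta : EisK) * h1 + h3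
  rcases mul_eq_zero.mp this with h | h
  · exact Or.inl (sub_eq_zero.mp h)
  · exact Or.inr (sub_eq_zero.mp h)

/-- `σ ∘ phi` as a ring homomorphism. -/
def tau (σ : EisK →+* ℂ) : Eis →+* ℂ := (σ.comp (algebraMap EisR EisK)).comp phi.toRingHom

lemma tau_apply (σ : EisK →+* ℂ) (z : Eis) : tau σ z = σ (phi z : EisK) := rfl

lemma tau_eq (σ : EisK →+* ℂ) (z : Eis) :
    tau σ z = (z.re : ℂ) + (z.im : ℂ) * σ (eisZeta : EisK) := by
  conv_lhs => rw [eq_re_add z]
  rw [map_add, map_mul, map_intCast, map_intCast, tau_apply, phi_w]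

lemma sigma_phi_A {σ : EisK →+* ℂ} (h : σ (eisZeta : EisK) = wC) (z : Eis) :
    σ (phi z : EisK) = toC z := by
  rw [← tau_apply, tau_eq, h, toC_apply]

lemma sigma_phi_B {σ : EisK →+* ℂ} (h : σ (eisZeta : EisK) = (starRingEnd ℂ) wC) (z : Eis) :
    σ (phi z : EisK) = (starRingEnd ℂ) (toC z) := by
  rw [← tau_apply, tau_eq, h, toC_apply, map_add, map_mul, map_intCast, map_intCast]

/-! ### The trace -/

lemma trace_zeta : Algebra.trace ℚ EisK (IsCyclotomicExtension.zeta 3 ℚ EisK) = -1 := by
  have h := PowerBasis.trace_gen_eq_nextCoeff_minpoly (zspec.powerBasis ℚ)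
  rw [IsPrimitiveRoot.powerBasis_gen] at h
  rw [h, ← Polynomial.cyclotomic_eq_minpoly_rat zspec (by norm_num), Polynomial.cyclotomic_three]
  have hd : (Polynomial.X ^ 2 + Polynomial.X + 1 : Polynomial ℚ).natDegree = 2 := by
    compute_degree!
  rw [Polynomial.nextCoeff_of_natDegree_pos (by rw [hd]; norm_num), hd]
  simp [Polynomial.coeff_X, Polynomial.coeff_one]

lemma two_re_sigma (σ : EisK →+* ℂ) (y : EisK) :
    2 * (σ y).re = ((Algebra.trace ℚ EisK y : ℚ) : ℝ) := by
  let f : EisK →ₗ[ℚ] ℝ :=
    { toFun := fun y => 2 * (σ y).re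
      map_add' := fun a b => by simp; ring
      map_smul' := fun q a => by
        rw [Algebra.smul_def, map_mul]
        have : σ ((algebraMap ℚ EisK) q) = ((q : ℝ) : ℂ) := by
          rw [eq_ratCast, map_ratCast]; norm_cast
        rw [this, Complex.re_ofReal_mul, RingHom.id_apply, Rat.smul_def]
        ring }
  let g : EisK →ₗ[ℚ] ℝ :=
    { toFun := fun y => ((Algebra.trace ℚ EisK y : ℚ) : ℝ)
      map_add' := fun a b => by simp
      map_smul' := fun q a => by rw [map_smul]; simp [Rat.smul_def] }
  have hfg : f = g := by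
    apply (zspec.powerBasis ℚ).basis.ext
    intro i
    rw [PowerBasis.coe_basis, IsPrimitiveRoot.powerBasis_gen]
    beta_reduce
    have hdim : (zspec.powerBasis ℚ).dim = 2 := by
      rw [← PowerBasis.natDegree_minpoly, IsPrimitiveRoot.powerBasis_gen,
        ← Polynomial.cyclotomic_eq_minpoly_rat zspec (by norm_num),
        Polynomial.natDegree_cyclotomic]
      decide
    have hi : (i : ℕ) = 0 ∨ (i : ℕ) = 1 := by have := i.isLt; omega
    rcases hi with hi | hi
    · rw [hi, pow_zero]
      show 2 * (σ 1).re = ((Algebra.trace ℚ EisK 1 : ℚ) : ℝ)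
      have h1 : Algebra.trace ℚ EisK 1 = 2 := by
        have h2 := Algebra.trace_algebraMap (R := ℚ) (S := EisK) (1 : ℚ)
        rw [map_one] at h2
        rw [h2, IsCyclotomicExtension.finrank (n := 3) EisK
          (Polynomial.cyclotomic.irreducible_rat (by norm_num))]
        have : Nat.totient 3 = 2 := by decide
        rw [this]; simp
      rw [h1, map_one]; simp
    · rw [hi, pow_one]
      show 2 * (σ _).re = ((Algebra.trace ℚ EisK _ : ℚ) : ℝ)
      rw [trace_zeta, ← eisZeta_coe]
      rcases sigma_zeta σ with h | h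
      · rw [h]; simp [wC]; norm_num
      · rw [h]; simp [wC]; norm_num
  exact congrFun (congrArg DFunLike.coe hfg) y

lemma eisAddChar_phi (c x : Eis) : eisAddChar (phi c) (phi x) = eC (toC x / toC c) := by
  -- any embedding will do; take the one sending zeta to wC
  obtain ⟨σ⟩ : Nonempty (EisK →+* ℂ) := inferInstance
  unfold eisAddChar
  rw [eC]
  have h := two_re_sigma σ ((phi x : EisK) / (phi c : EisK))
  have h2 : (((Algebra.trace ℚ EisK ((phi x : EisK) / (phi c : EisK)) : ℚ) : ℝ) : ℂ) =
      toC x / toC c + (starRingEnd ℂ) (toC x / toC c) := by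
    rw [← h, map_div₀]
    rcases sigma_zeta σ with hz | hz
    · rw [sigma_phi_A hz, sigma_phi_A hz, Complex.add_conj]
    · rw [sigma_phi_B hz, sigma_phi_B hz, ← map_div₀, Complex.add_conj, Complex.conj_re]
  rw [h2]

end Bridge

end Crest.Agent.R012
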