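import Mathlib

/-!
# Row 12: exact Buchstab / Legendre identities, purely combinatorial

`ι` is a linearly ordered type of "primes", `N : ι → ℝ` with `1 ≤ N p`, squarefree "integers" are
finite sets `T : Finset ι`, `nu N T = ∏_{p ∈ T} N p`.

Main result: `buchstab`.  For a universe `U`, a set `Z` of small primes, closed downwards, and a
level `D > 1`,
`∑_{T ⊆ U, T ∩ Z = ∅} F T = ∑_{I ⊆ U ∩ Z, ν I < D} (-1)^|I| ∑_{J ⊆ U \ I} F (I ∪ J)`
`  + ∑_{I ⊆ U ∩ Z, ν (I \ min I) < D ≤ ν I} (-1)^|I| ∑_{J ⊆ U \ I, J > min I} F (I ∪ J)`.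
-/

set_option autoImplicit false
set_option linter.unusedSectionVars false

noncomputable section

namespace Crest.Agent.R012.Buch420

open Finset

variable {ι : Type*} [LinearOrder ι]

/-- norm of a squarefree integer -/
def nu (N : ι → ℝ) (T : Finset ι) : ℝ := ∏ p ∈ T, N p

@[simp] lemma nu_empty (N : ι → ℝ) : nu N ∅ = 1 := by simp [nu]

lemma nu_insert (N : ι → ℝ) {p : ι} {T : Finset ι} (h : p ∉ T) :
    nu N (insert p T) = N p * nu N T := by
  unfold nu; rw [Finset.prod_insert h]

lemma nu_pos {N : ι → ℝ} (hN : ∀ p, 1 ≤ N p) (T : Finset ι) : 0 < nu N T :=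
  Finset.prod_pos fun p _ => by linarith [hN p]

lemma one_le_nu {N : ι → ℝ} (hN : ∀ p, 1 ≤ N p) (T : Finset ι) : 1 ≤ nu N T := by
  induction T using Finset.induction_on with
  | empty => simp
  | insert p T hp ih => rw [nu_insert N hp]; nlinarith [hN p]

lemma nu_union {N : ι → ℝ} {S T : Finset ι} (h : Disjoint S T) :
    nu N (S ∪ T) = nu N S * nu N T := Finset.prod_union h

lemma nu_mono {N : ι → ℝ} (hN : ∀ p, 1 ≤ N p) {S T : Finset ι} (h : S ⊆ T) : nu N S ≤ nu N T := by
  have e : T = S ∪ (T \ S) := (Finset.union_sdiff_of_subset h).symm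
  rw [e, nu_union Finset.disjoint_sdiff]
  nlinarith [one_le_nu hN (T \ S), nu_pos hN S]

/-- `I` crosses the level `D` exactly at its smallest element. -/
def Cr (N : ι → ℝ) (D : ℝ) (I : Finset ι) : Prop :=
  ∃ h : I.Nonempty, nu N (I.erase (I.min' h)) < D ∧ D ≤ nu N I

/-- `p` is larger than the smallest element of `I`. -/
def Ab (I : Finset ι) (p : ι) : Prop := ∃ q ∈ I, q < p

open Classical in
/-- Pointwise Buchstab identity. -/
lemma pointwise {N : ι → ℝ} (hN : ∀ p, 1 ≤ N p) {D : ℝ} (hD : 1 < D) (T : Finset ι) (Z : ι → Prop)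
    (hZ : ∀ p q, p ≤ q → Z q → Z p) :
    (if T.filter Z = ∅ then (1 : ℂ) else 0) =
      ∑ I ∈ (T.filter Z).powerset, (-1 : ℂ) ^ I.card * (if nu N I < D then 1 else 0) +
      ∑ I ∈ (T.filter Z).powerset,
        (-1 : ℂ) ^ I.card * (if Cr N D I ∧ ∀ p ∈ T \ I, Ab I p then 1 else 0) := by
  by_cases hA : T.filter Z = ∅
  · rw [hA]
    have : ¬ Cr N D ∅ := by rintro ⟨h, -⟩; exact Finset.not_nonempty_empty h
    simp [this, hD]
  · rw [if_neg hA]
    have hne : (T.filter Z).Nonempty := Finset.nonempty_iff_ne_empty.mpr hA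
    set A := T.filter Z with hAdef
    set m := A.min' hne with hm
    have hmA : m ∈ A := A.min'_mem hne
    have hmT : m ∈ T := (Finset.mem_filter.mp hmA).1
    have hmZ : Z m := (Finset.mem_filter.mp hmA).2
    have hmin : ∀ p ∈ T, m ≤ p := by
      intro p hp
      by_contra hc
      push Not at hc
      have : p ∈ A := Finset.mem_filter.mpr ⟨hp, hZ p m hc.le hmZ⟩
      exact absurd (A.min'_le p this) (not_le.mpr hc)
    have hins : A = insert m (A.erase m) := (Finset.insert_erase hmA).symm
    have hmB : m ∉ A.erase m := Finset.notMem_erase m A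
    rw [hins, Finset.sum_powerset_insert hmB, Finset.sum_powerset_insert hmB]
    rw [← Finset.sum_add_distrib, ← Finset.sum_add_distrib, ← Finset.sum_add_distrib]
    symm
    refine Finset.sum_eq_zero fun I hI => ?_
    rw [Finset.mem_powerset] at hI
    have hmI : m ∉ I := fun h => hmB (hI h)
    have hIT : ∀ q ∈ I, q ∈ T := fun q hq =>
      (Finset.mem_filter.mp (Finset.mem_of_mem_erase (hI hq))).1
    have h1 : ¬ (Cr N D I ∧ ∀ p ∈ T \ I, Ab I p) := by
      rintro ⟨-, h⟩
      obtain ⟨q, hq, hqm⟩ := h m (Finset.mem_sdiff.mpr ⟨hmT, hmI⟩)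
      exact absurd (hmin q (hIT q hq)) (not_le.mpr hqm)
    have hne' : (insert m I).Nonempty := Finset.insert_nonempty m I
    have hmin' : (insert m I).min' hne' = m := by
      apply le_antisymm
      · exact Finset.min'_le _ _ (Finset.mem_insert_self m I)
      · refine Finset.le_min' _ _ _ fun y hy => ?_
        rcases Finset.mem_insert.mp hy with rfl | hy
        · exact le_rfl
        · exact hmin y (hIT y hy)
    have h2 : (Cr N D (insert m I) ∧ ∀ p ∈ T \ insert m I, Ab (insert m I) p) ↔
        (nu N I < D ∧ D ≤ N m * nu N I) := by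
      constructor
      · rintro ⟨⟨h, h3, h4⟩, -⟩
        rw [hmin', Finset.erase_insert hmI] at h3
        rw [nu_insert N hmI] at h4
        exact ⟨h3, h4⟩
      · rintro ⟨h3, h4⟩
        refine ⟨⟨hne', ?_, ?_⟩, ?_⟩
        · rw [hmin', Finset.erase_insert hmI]; exact h3
        · rw [nu_insert N hmI]; exact h4
        · intro p hp
          rw [Finset.mem_sdiff, Finset.mem_insert, not_or] at hp
          exact ⟨m, Finset.mem_insert_self m I, lt_of_le_of_ne (hmin p hp.1) (Ne.symm hp.2.1)⟩
    rw [if_neg h1, Finset.card_insert_of_notMem hmI, nu_insert N hmI]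
    simp only [h2]
    have hle : nu N I ≤ N m * nu N I := by nlinarith [hN m, nu_pos hN I]
    rw [pow_succ]
    by_cases c1 : nu N I < D
    · by_cases c2 : N m * nu N I < D
      · have c3 : ¬ (nu N I < D ∧ D ≤ N m * nu N I) := fun h => absurd h.2 (not_le.mpr c2)
        rw [if_pos c1, if_pos c2, if_neg c3]; ring
      · have c3 : (nu N I < D ∧ D ≤ N m * nu N I) := ⟨c1, not_lt.mp c2⟩
        rw [if_pos c1, if_neg c2, if_pos c3]; ring
    · have c2 : ¬ N m * nu N I < D := fun h => c1 (lt_of_le_of_lt hle h)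
      have c3 : ¬ (nu N I < D ∧ D ≤ N m * nu N I) := fun h => c1 h.1
      rw [if_neg c1, if_neg c2, if_neg c3]; ring

open Classical in
/-- Exchange of summation. -/
lemma exchange (U : Finset ι) (Z : ι → Prop) (g : Finset ι → Finset ι → ℂ) :
    ∑ T ∈ U.powerset, ∑ I ∈ (T.filter Z).powerset, g I T =
      ∑ I ∈ (U.filter Z).powerset, ∑ J ∈ (U \ I).powerset, g I (I ∪ J) := by
  have h1 : ∀ T ∈ U.powerset, ∑ I ∈ (T.filter Z).powerset, g I T =
      ∑ I ∈ (U.filter Z).powerset, if I ⊆ T then g I T else 0 := by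
    intro T hT
    rw [Finset.mem_powerset] at hT
    rw [← Finset.sum_filter]
    refine Finset.sum_congr ?_ fun _ _ => rfl
    ext I
    simp only [Finset.mem_powerset, Finset.mem_filter, Finset.subset_iff]
    constructor
    · intro h
      exact ⟨fun x hx => ⟨hT (h hx).1, (h hx).2⟩, fun x hx => (h hx).1⟩
    · rintro ⟨h2, h3⟩ x hx
      exact ⟨h3 hx, (h2 hx).2⟩
  rw [Finset.sum_congr rfl h1, Finset.sum_comm]
  refine Finset.sum_congr rfl fun I hI => ?_
  rw [← Finset.sum_filter]
  have hIU : I ⊆ U := fun x hx => by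
    have := (Finset.mem_powerset.mp hI) hx
    exact (Finset.mem_filter.mp this).1
  symm
  refine Finset.sum_bij' (fun J _ => I ∪ J) (fun T _ => T \ I) ?_ ?_ ?_ ?_ ?_
  · intro J hJ
    rw [Finset.mem_powerset] at hJ
    rw [Finset.mem_filter, Finset.mem_powerset]
    refine ⟨Finset.union_subset hIU (fun x hx => (Finset.mem_sdiff.mp (hJ hx)).1),
      Finset.subset_union_left⟩
  · intro T hT
    rw [Finset.mem_filter, Finset.mem_powerset] at hT
    rw [Finset.mem_powerset]
    exact Finset.sdiff_subset_sdiff hT.1 (Finset.Subset.refl _)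
  · intro J hJ
    rw [Finset.mem_powerset] at hJ
    have : Disjoint I J := by
      rw [Finset.disjoint_left]
      intro x hx hx'
      exact (Finset.mem_sdiff.mp (hJ hx')).2 hx
    exact Finset.union_sdiff_cancel_left this
  · intro T hT
    rw [Finset.mem_filter, Finset.mem_powerset] at hT
    exact Finset.union_sdiff_of_subset hT.2
  · intro J _; rfl

open Classical in
/-- **Buchstab identity** with one level `D`. -/
theorem buchstab {N : ι → ℝ} (hN : ∀ p, 1 ≤ N p) {D : ℝ} (hD : 1 < D) (U : Finset ι)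
    (Z : ι → Prop) (hZ : ∀ p q, p ≤ q → Z q → Z p) (F : Finset ι → ℂ) :
    ∑ T ∈ (U.filter (fun p => ¬ Z p)).powerset, F T =
      ∑ I ∈ (U.filter Z).powerset.filter (fun I => nu N I < D),
        (-1 : ℂ) ^ I.card * ∑ J ∈ (U \ I).powerset, F (I ∪ J) +
      ∑ I ∈ (U.filter Z).powerset.filter (fun I => Cr N D I),
        (-1 : ℂ) ^ I.card * ∑ J ∈ ((U \ I).filter (fun p => Ab I p)).powerset, F (I ∪ J) := by
  have h0 : ∑ T ∈ (U.filter (fun p => ¬ Z p)).powerset, F T =
      ∑ T ∈ U.powerset, F T * (if T.filter Z = ∅ then (1 : ℂ) else 0) := by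
    simp only [mul_ite, mul_one, mul_zero]
    rw [← Finset.sum_filter]
    refine Finset.sum_congr ?_ fun _ _ => rfl
    ext T
    simp only [Finset.mem_powerset, Finset.mem_filter, Finset.subset_iff,
      Finset.filter_eq_empty_iff]
    constructor
    · intro h
      exact ⟨fun x hx => (h hx).1, fun x hx => (h hx).2⟩
    · rintro ⟨h2, h3⟩ x hx
      exact ⟨h2 hx, h3 hx⟩
  rw [h0]
  have h1 : ∀ T ∈ U.powerset, F T * (if T.filter Z = ∅ then (1 : ℂ) else 0) =
      ∑ I ∈ (T.filter Z).powerset, (-1 : ℂ) ^ I.card * (if nu N I < D then 1 else 0) * F T +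
      ∑ I ∈ (T.filter Z).powerset,
        (-1 : ℂ) ^ I.card * (if Cr N D I ∧ ∀ p ∈ T \ I, Ab I p then 1 else 0) * F T := by
    intro T _
    rw [pointwise hN hD T Z hZ, mul_add, Finset.mul_sum, Finset.mul_sum]
    congr 1 <;> exact Finset.sum_congr rfl fun I _ => by ring
  rw [Finset.sum_congr rfl h1, Finset.sum_add_distrib, exchange, exchange]
  congr 1
  · rw [Finset.sum_filter]
    refine Finset.sum_congr rfl fun I _ => ?_
    split_ifs with h
    · rw [Finset.mul_sum]
      refine Finset.sum_congr rfl fun J _ => by ring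
    · simp
  · rw [Finset.sum_filter]
    refine Finset.sum_congr rfl fun I _ => ?_
    have hdis : ∀ J ∈ (U \ I).powerset, (I ∪ J) \ I = J := by
      intro J hJ
      rw [Finset.mem_powerset] at hJ
      have : Disjoint I J := by
        rw [Finset.disjoint_left]
        intro x hx hx'
        exact (Finset.mem_sdiff.mp (hJ hx')).2 hx
      exact Finset.union_sdiff_cancel_left this
    split_ifs with h
    · rw [Finset.mul_sum]
      have e : ((U \ I).filter (fun p => Ab I p)).powerset =
          (U \ I).powerset.filter (fun J => ∀ p ∈ J, Ab I p) := by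
        ext J
        simp only [Finset.mem_powerset, Finset.mem_filter, Finset.subset_iff]
        constructor
        · intro h
          exact ⟨fun x hx => (h hx).1, fun x hx => (h hx).2⟩
        · rintro ⟨h2, h3⟩ x hx
          exact ⟨h2 hx, h3 x hx⟩
      rw [e, Finset.sum_filter]
      refine Finset.sum_congr rfl fun J hJ => ?_
      rw [hdis J hJ]
      by_cases hp : ∀ p ∈ J, Ab I p
      · rw [if_pos ⟨h, hp⟩, if_pos hp]; ring
      · rw [if_neg (fun hh => hp hh.2), if_neg hp]; ring
    · refine Finset.sum_eq_zero fun J hJ => ?_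
      rw [if_neg (fun hh => h hh.1)]; ring

end Crest.Agent.R012.Buch420
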