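import Crest.Agent.R012.Defs
import Crest.Agent.Lib.Mertens

/-!
# Row 12: counting primary primes of `Eis` (Chebyshev / Mertens upper bounds)

All statements are for an arbitrary finite set `s` of primary primes, with real bounds on norms.
-/

set_option autoImplicit false

noncomputable section

namespace Crest.Agent.R012.Cheb420

open Crest.Agent.R012 Eis

/-- primary prime -/
def PP (z : Eis) : Prop := IsPrim z ∧ Prime z

lemma isPrim_unit {u : Eis} (hu : IsUnit u) (h : (3 : Eis) ∣ u - 1) : u = 1 := by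
  have h9 : nm (3 : Eis) = 9 := by simpa using nm_natCast 3
  obtain ⟨t, ht⟩ := h
  have hn : nm (u - 1) = 9 * nm t := by rw [ht, nm_mul, h9]
  have hsmall : nm (u - 1) < 9 := by
    have h1 : (nm u : ℤ) = 1 := by rw [isUnit_iff.mp hu]; rfl
    have h2 : (nm (u - 1) : ℤ) < 9 := by
      rw [nm_cast] at h1 ⊢
      simp only [QuadraticAlgebra.re_sub, QuadraticAlgebra.im_sub, one_re', one_im']
      nlinarith [sq_nonneg (2 * u.re - u.im), sq_nonneg (u.im), sq_nonneg (u.re), sq_nonneg (u.re + 1), sq_nonneg (u.im - 2 * u.re), sq_nonneg (2 * u.re - u.im + 2)]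
    exact_mod_cast h2
  have ht0 : nm t = 0 := by omega
  rw [nm_eq_zero] at ht0
  rw [ht0, mul_zero, sub_eq_zero] at ht
  exact ht

lemma isPrim_assoc {x y : Eis} (hx : IsPrim x) (hy : IsPrim y) (h : Associated x y) : x = y := by
  obtain ⟨u, rfl⟩ := h
  have h1 : (3 : Eis) ∣ (u : Eis) - 1 := by
    have e : (u : Eis) - 1 = (x * u - 1) - (x - 1) * u := by ring
    rw [e]
    exact dvd_sub hy (Dvd.dvd.mul_right hx _)
  have := isPrim_unit u.isUnit h1
  rw [this, mul_one]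

/-- A prime element divides a rational prime. -/
lemma exists_nat_prime {z : Eis} (hz : Prime z) : ∃ p : ℕ, p.Prime ∧ z ∣ (p : Eis) := by
  have h1 : z ∣ (nm z : Eis) := ⟨conj z, (mul_conj z).symm⟩
  have h0 : nm z ≠ 0 := fun h => hz.ne_zero (nm_eq_zero.mp h)
  have hnu : nm z ≠ 1 := fun h => hz.not_isUnit (isUnit_iff.mpr h)
  have key : ∀ n : ℕ, n ≠ 0 → z ∣ (n : Eis) → ∃ p : ℕ, p.Prime ∧ z ∣ (p : Eis) := by
    intro n
    induction n using Nat.recOnMul with
    | zero => intro h; exact absurd rfl h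
    | one => intro _ h; exact absurd (isUnit_of_dvd_one (by simpa using h)) hz.not_isUnit
    | prime p hp => intro _ h; exact ⟨p, hp, h⟩
    | mul a b iha ihb =>
      intro hab h
      rw [Nat.cast_mul] at h
      rcases hz.dvd_or_dvd h with h | h
      · exact iha (fun h' => hab (by simp [h'])) h
      · exact ihb (fun h' => hab (by simp [h'])) h
  exact key _ h0 h1

/-- The norm of a prime element is a rational prime, or the element is an associate of a rational
prime. -/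
lemma nm_prime_cases {z : Eis} (hz : Prime z) :
    (nm z).Prime ∨ ∃ p : ℕ, p.Prime ∧ nm z = p ^ 2 ∧ Associated z (p : Eis) := by
  obtain ⟨p, hp, hd⟩ := exists_nat_prime hz
  have hnd : nm z ∣ p ^ 2 := by
    obtain ⟨t, ht⟩ := hd
    rw [← nm_natCast, ht, nm_mul]; exact dvd_mul_right _ _
  have hnu : nm z ≠ 1 := fun h => hz.not_isUnit (isUnit_iff.mpr h)
  rcases (Nat.dvd_prime_pow hp).mp hnd with ⟨k, hk, hk2⟩
  interval_cases k
  · simp at hk2; exact absurd hk2 hnu
  · left; rw [hk2, pow_one]; exact hp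
  · right
    refine ⟨p, hp, hk2, ?_⟩
    obtain ⟨t, ht⟩ := hd
    have : nm (p : Eis) = nm z * nm t := by rw [← nm_mul, ← ht]
    rw [nm_natCast, hk2] at this
    have hpp : 0 < p ^ 2 := pow_pos hp.pos 2
    have ht1 : nm t = 1 := by
      have : p ^ 2 * nm t = p ^ 2 * 1 := by rw [← this, mul_one]
      exact Nat.eq_of_mul_eq_mul_left hpp this
    have hu := isUnit_iff.mpr ht1
    rw [ht]
    exact (associated_mul_unit_right z t hu)

/-- At most two primary primes of given norm. -/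
lemma card_nm_eq_le (s : Finset Eis) (hs : ∀ z ∈ s, PP z) (n : ℕ) :
    (s.filter (fun z => nm z = n)).card ≤ 2 := by
  classical
  by_contra hc
  push Not at hc
  obtain ⟨x, hx, y, hy, z, hz, hxy, hxz, hyz⟩ := Finset.two_lt_card.mp hc
  rw [Finset.mem_filter] at hx hy hz
  obtain ⟨hxP, hxp⟩ := hs x hx.1
  obtain ⟨hyP, hyp⟩ := hs y hy.1
  obtain ⟨hzP, hzp⟩ := hs z hz.1
  -- every prime of norm n is associated to x or conj x
  have key : ∀ y : Eis, Prime y → nm y = n → Associated y x ∨ Associated y (conj x) := by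
    intro y hyp hyn
    have h1 : y ∣ x * conj x := by
      rw [mul_conj, hx.2, ← hyn]; exact ⟨conj y, (mul_conj y).symm⟩
    have hcx : Prime (conj x) := by
      have e : conj x = (RingEquiv.ofRingHom conjHom conjHom
        (by ext z <;> simp) (by ext z <;> simp)) x := rfl
      rw [e]
      exact (MulEquiv.prime_iff (RingEquiv.ofRingHom conjHom conjHom
        (by ext z <;> simp) (by ext z <;> simp))).mpr hxp
    rcases hyp.dvd_or_dvd h1 with h | h
    · exact Or.inl (hyp.associated_of_dvd hxp h)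
    · exact Or.inr (hyp.associated_of_dvd hcx h)
  have ky := key y hyp hy.2
  have kz := key z hzp hz.2
  rcases ky with h | h
  · exact hxy (isPrim_assoc hyP hxP h).symm
  · rcases kz with h' | h'
    · exact hxz (isPrim_assoc hzP hxP h').symm
    · exact hyz (isPrim_assoc hyP hzP (h.trans h'.symm))


/-- Reduction of sums over primary primes to sums over rational primes. -/
lemma sum_le (f : ℕ → ℝ) (hf : ∀ n, 0 ≤ f n) (s : Finset Eis) (hs : ∀ z ∈ s, PP z) (X : ℕ)
    (hX : ∀ z ∈ s, nm z ≤ X) :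
    ∑ z ∈ s, f (nm z) ≤
      2 * ∑ p ∈ Nat.primesLE X, f p + 2 * ∑ p ∈ Nat.primesLE (Nat.sqrt X), f (p ^ 2) := by
  classical
  have h1 : ∑ z ∈ s, f (nm z) = ∑ n ∈ s.image nm, (s.filter (fun z => nm z = n)).card • f n :=
    Finset.sum_comp f nm
  have h2 : ∑ n ∈ s.image nm, (s.filter (fun z => nm z = n)).card • f n ≤
      ∑ n ∈ s.image nm, 2 * f n := by
    refine Finset.sum_le_sum fun n _ => ?_
    rw [nsmul_eq_mul]
    refine mul_le_mul_of_nonneg_right ?_ (hf n)
    exact_mod_cast card_nm_eq_le s hs n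
  have h3 : s.image nm ⊆ Nat.primesLE X ∪ (Nat.primesLE (Nat.sqrt X)).image (fun p => p ^ 2) := by
    intro n hn
    rw [Finset.mem_image] at hn
    obtain ⟨z, hz, rfl⟩ := hn
    rw [Finset.mem_union]
    rcases nm_prime_cases (hs z hz).2 with h | ⟨p, hp, h, -⟩
    · left; rw [Nat.mem_primesLE]; exact ⟨hX z hz, h⟩
    · right
      rw [Finset.mem_image]
      refine ⟨p, ?_, h.symm⟩
      rw [Nat.mem_primesLE]
      refine ⟨?_, hp⟩
      rw [Nat.le_sqrt']
      rw [← h]; exact hX z hz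
  have h4 : ∑ n ∈ s.image nm, 2 * f n ≤
      ∑ n ∈ Nat.primesLE X ∪ (Nat.primesLE (Nat.sqrt X)).image (fun p => p ^ 2), 2 * f n :=
    Finset.sum_le_sum_of_subset_of_nonneg h3 (fun n _ _ => by have := hf n; positivity)
  have h5 : ∑ n ∈ Nat.primesLE X ∪ (Nat.primesLE (Nat.sqrt X)).image (fun p => p ^ 2), 2 * f n ≤
      ∑ n ∈ Nat.primesLE X, 2 * f n +
        ∑ n ∈ (Nat.primesLE (Nat.sqrt X)).image (fun p => p ^ 2), 2 * f n := by
    rw [← Finset.sum_union_inter]
    have : 0 ≤ ∑ n ∈ Nat.primesLE X ∩ (Nat.primesLE (Nat.sqrt X)).image (fun p => p ^ 2), 2 * f n :=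
      Finset.sum_nonneg (fun n _ => by have := hf n; positivity)
    linarith
  have h6 : ∑ n ∈ (Nat.primesLE (Nat.sqrt X)).image (fun p => p ^ 2), 2 * f n =
      ∑ p ∈ Nat.primesLE (Nat.sqrt X), 2 * f (p ^ 2) :=
    Finset.sum_image (fun a _ b _ h => Nat.pow_left_injective (n := 2) (by norm_num) h)
  rw [h1, Finset.mul_sum, Finset.mul_sum]
  rw [h6] at h5
  linarith

lemma nm_two_le {z : Eis} (hz : Prime z) : 2 ≤ nm z := by
  have h0 : nm z ≠ 0 := fun h => hz.ne_zero (nm_eq_zero.mp h)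
  have hnu : nm z ≠ 1 := fun h => hz.not_isUnit (isUnit_iff.mpr h)
  omega

/-- Chebyshev: `∑ log N(π) ≤ 9 X`. -/
theorem sum_log_le {X : ℝ} (hX : 0 ≤ X) (s : Finset Eis) (hs : ∀ z ∈ s, PP z)
    (hn : ∀ z ∈ s, (nm z : ℝ) ≤ X) : ∑ z ∈ s, Real.log (nm z) ≤ 9 * X := by
  have hn' : ∀ z ∈ s, nm z ≤ ⌊X⌋₊ := fun z hz => Nat.le_floor (hn z hz)
  have h := sum_le (fun n => Real.log n) (fun n => Real.log_natCast_nonneg n) s hs ⌊X⌋₊ hn'
  have hfl : (⌊X⌋₊ : ℝ) ≤ X := Nat.floor_le hX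
  have l4 : Real.log 4 ≤ 1.4 := by
    have : Real.log 4 = 2 * Real.log 2 := by
      rw [show (4 : ℝ) = 2 ^ 2 by norm_num, Real.log_pow]; norm_num
    rw [this]; have := Real.log_two_lt_d9; linarith
  have l40 : 0 ≤ Real.log 4 := Real.log_nonneg (by norm_num)
  have h1 : ∑ p ∈ Nat.primesLE ⌊X⌋₊, Real.log p ≤ Real.log 4 * X :=
    (Crest.Agent.Lib.Mertens.theta_nat ⌊X⌋₊).trans (by nlinarith)
  have h2 : ∑ p ∈ Nat.primesLE (Nat.sqrt ⌊X⌋₊), Real.log ((p ^ 2 : ℕ) : ℝ) ≤
      2 * (Real.log 4 * X) := by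
    have e : ∀ p : ℕ, Real.log ((p ^ 2 : ℕ) : ℝ) = 2 * Real.log p := by
      intro p; push_cast; rw [Real.log_pow]; norm_num
    simp only [e]
    rw [← Finset.mul_sum]
    have h3 := Crest.Agent.Lib.Mertens.theta_nat (Nat.sqrt ⌊X⌋₊)
    have h4 : (Nat.sqrt ⌊X⌋₊ : ℝ) ≤ X := by
      refine le_trans ?_ hfl
      exact_mod_cast Nat.sqrt_le_self _
    nlinarith
  have h3 : (2:ℝ) * (Real.log 4 * X) + 2 * (2 * (Real.log 4 * X)) ≤ 9 * X := by nlinarith
  calc ∑ z ∈ s, Real.log (nm z) ≤ _ := h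
    _ ≤ 2 * (Real.log 4 * X) + 2 * (2 * (Real.log 4 * X)) := by gcongr
    _ ≤ _ := h3

/-- Chebyshev: `#{π : N(π) ≤ X} ≤ 50 X / log X`. -/
theorem card_le {X : ℝ} (hX : 2 ≤ X) (s : Finset Eis) (hs : ∀ z ∈ s, PP z)
    (hn : ∀ z ∈ s, (nm z : ℝ) ≤ X) : (s.card : ℝ) ≤ 50 * (X / Real.log X) := by
  classical
  have hlX : 0 < Real.log X := Real.log_pos (by linarith)
  -- split at √X
  set a := s.filter (fun z => (nm z : ℝ) ≤ Real.sqrt X) with ha
  set b := s.filter (fun z => ¬ (nm z : ℝ) ≤ Real.sqrt X) with hb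
  have hcard : s.card = a.card + b.card := (Finset.card_filter_add_card_filter_not _).symm
  have hsq : Real.log (Real.sqrt X) = Real.log X / 2 := by
    rw [Real.log_sqrt (by linarith)]
  have h1 : (b.card : ℝ) * (Real.log X / 2) ≤ 9 * X := by
    have h := sum_log_le (by linarith) b (fun z hz => hs z (Finset.mem_filter.mp hz).1)
      (fun z hz => hn z (Finset.mem_filter.mp hz).1)
    refine le_trans ?_ h
    rw [← nsmul_eq_mul]
    refine Finset.card_nsmul_le_sum _ _ _ fun z hz => ?_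
    rw [← hsq]
    have := (Finset.mem_filter.mp hz).2
    push Not at this
    exact Real.log_le_log (Real.sqrt_pos.mpr (by linarith)) this.le
  have h2 : (a.card : ℝ) * Real.log 2 ≤ 9 * Real.sqrt X := by
    have h := sum_log_le (Real.sqrt_nonneg X) a (fun z hz => hs z (Finset.mem_filter.mp hz).1)
      (fun z hz => (Finset.mem_filter.mp hz).2)
    refine le_trans ?_ h
    rw [← nsmul_eq_mul]
    refine Finset.card_nsmul_le_sum _ _ _ fun z hz => ?_
    have := nm_two_le (hs z (Finset.mem_filter.mp hz).1).2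
    exact Real.log_le_log (by norm_num) (by exact_mod_cast this)
  -- `√X log X ≤ 2 X`
  have h3 : Real.sqrt X * Real.log X ≤ 2 * X := by
    have e : Real.log X = 2 * Real.log (Real.sqrt X) := by rw [hsq]; ring
    have h4 : Real.log (Real.sqrt X) ≤ Real.sqrt X := by
      have := Real.log_le_sub_one_of_pos (Real.sqrt_pos.mpr (show 0 < X by linarith))
      linarith
    have h5 : Real.sqrt X * Real.sqrt X = X := Real.mul_self_sqrt (by linarith)
    rw [e]
    nlinarith [Real.sqrt_nonneg X]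
  rw [← mul_div_assoc, le_div_iff₀ hlX, hcard]
  push_cast
  have l2 : 0.69 ≤ Real.log 2 := by have := Real.log_two_gt_d9; linarith
  have h6 : (a.card : ℝ) * Real.log X * 0.69 ≤ 18 * X := by
    have h7 : (a.card : ℝ) * 0.69 ≤ 9 * Real.sqrt X := by
      have : (a.card : ℝ) * 0.69 ≤ (a.card : ℝ) * Real.log 2 := by gcongr
      linarith
    have h8 : (a.card : ℝ) * 0.69 * Real.log X ≤ 9 * Real.sqrt X * Real.log X := by gcongr
    nlinarith
  nlinarith


/-- `∑_{p ≤ n} log(p²)/p² ≤ 4`. -/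
lemma sum_sq_log_div_le (n : ℕ) :
    ∑ p ∈ Nat.primesLE n, Real.log ((p ^ 2 : ℕ) : ℝ) / ((p ^ 2 : ℕ) : ℝ) ≤ 4 := by
  have h1 := Crest.Agent.Lib.Mertens.sum_log_div_mul_le n
  have h2 : ∑ p ∈ Nat.primesLE n, Real.log ((p ^ 2 : ℕ) : ℝ) / ((p ^ 2 : ℕ) : ℝ) ≤
      2 * ∑ m ∈ Finset.Icc 2 n, Real.log m / (m * (m - 1)) := by
    rw [Finset.mul_sum]
    have hsub : Nat.primesLE n ⊆ Finset.Icc 2 n := by
      intro p hp
      rw [Nat.mem_primesLE] at hp
      rw [Finset.mem_Icc]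
      exact ⟨hp.2.two_le, hp.1⟩
    refine le_trans (Finset.sum_le_sum (g := fun p : ℕ => 2 * (Real.log p / (p * (p - 1)))) ?_)
      (Finset.sum_le_sum_of_subset_of_nonneg hsub ?_)
    · intro p hp
      rw [Nat.mem_primesLE] at hp
      have hp2 : (2 : ℝ) ≤ p := by exact_mod_cast hp.2.two_le
      push_cast
      rw [Real.log_pow]
      have hl : 0 ≤ Real.log p := Real.log_nonneg (by linarith)
      push_cast
      rw [mul_div_assoc]
      refine mul_le_mul_of_nonneg_left ?_ (by norm_num)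
      refine div_le_div_of_nonneg_left hl (by nlinarith) (by nlinarith)
    · intro m hm _
      rw [Finset.mem_Icc] at hm
      have hp2 : (2 : ℝ) ≤ m := by exact_mod_cast hm.1
      have hl : 0 ≤ Real.log m := Real.log_nonneg (by linarith)
      have : 0 ≤ (m : ℝ) * (m - 1) := by nlinarith
      positivity
  linarith

/-- Mertens 1, upper bound. -/
theorem sum_log_div_le {X : ℝ} (hX : 1 ≤ X) (s : Finset Eis) (hs : ∀ z ∈ s, PP z)
    (hn : ∀ z ∈ s, (nm z : ℝ) ≤ X) :
    ∑ z ∈ s, Real.log (nm z) / (nm z) ≤ 2 * Real.log X + 11 := by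
  have hn' : ∀ z ∈ s, nm z ≤ ⌊X⌋₊ := fun z hz => Nat.le_floor (hn z hz)
  have h := sum_le (fun n => Real.log n / n) (fun n => by
    have := Real.log_natCast_nonneg n
    positivity) s hs ⌊X⌋₊ hn'
  have hfl : (⌊X⌋₊ : ℝ) ≤ X := Nat.floor_le (by linarith)
  have hf1 : 1 ≤ ⌊X⌋₊ := Nat.le_floor (by exact_mod_cast hX)
  have h1 := Crest.Agent.Lib.Mertens.A_le ⌊X⌋₊ hf1
  unfold Crest.Agent.Lib.Mertens.A at h1
  have h2 := sum_sq_log_div_le (Nat.sqrt ⌊X⌋₊)
  have h3 : Real.log (⌊X⌋₊ : ℝ) ≤ Real.log X :=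
    Real.log_le_log (by exact_mod_cast hf1) hfl
  have l4 : Real.log 4 ≤ 1.4 := by
    have : Real.log 4 = 2 * Real.log 2 := by
      rw [show (4 : ℝ) = 2 ^ 2 by norm_num, Real.log_pow]; norm_num
    rw [this]; have := Real.log_two_lt_d9; linarith
  have h4 : ∑ z ∈ s, Real.log (nm z) / (nm z) ≤ 2 * (Real.log (⌊X⌋₊ : ℝ) + Real.log 4) + 2 * 4 := by
    refine h.trans ?_
    gcongr
  linarith

/-- tail of `∑ 1/m²`. -/
lemma sum_inv_sq_Ioc_le (a b : ℕ) (ha : 1 ≤ a) :
    ∑ m ∈ Finset.Ioc a b, (1 : ℝ) / ((m : ℝ) ^ 2) ≤ 1 / a := by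
  have key : ∀ b, a ≤ b → ∑ m ∈ Finset.Ioc a b, (1 : ℝ) / ((m : ℝ) ^ 2) ≤ 1 / a - 1 / b := by
    intro b hb
    induction b, hb using Nat.le_induction with
    | base => simp
    | succ k hk ih =>
      rw [Finset.sum_Ioc_succ_top (by omega)]
      have hk0 : (0 : ℝ) < k := by exact_mod_cast (by omega : 0 < k)
      push_cast
      have : (1 : ℝ) / ((k : ℝ) + 1) ^ 2 ≤ 1 / k - 1 / (k + 1) := by
        rw [div_sub_div _ _ hk0.ne' (by positivity), div_le_div_iff₀ (by positivity) (by positivity)]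
        nlinarith
      linarith
  rcases le_or_gt a b with h | h
  · refine (key b h).trans ?_
    have : (0 : ℝ) ≤ 1 / b := by positivity
    linarith
  · rw [Finset.Ioc_eq_empty (by omega)]; simp

/-- Mertens 2, upper bound on intervals. -/
theorem sum_inv_le {y X : ℝ} (hy : 2 ≤ y) (hyX : y ≤ X) (s : Finset Eis) (hs : ∀ z ∈ s, PP z)
    (hn : ∀ z ∈ s, y < (nm z : ℝ) ∧ (nm z : ℝ) ≤ X) :
    ∑ z ∈ s, (1 : ℝ) / (nm z) ≤
      2 * (Real.log (Real.log X) - Real.log (Real.log y)) + 50 / Real.log y := by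
  have hly : 0 < Real.log y := Real.log_pos (by linarith)
  have hn' : ∀ z ∈ s, nm z ≤ ⌊X⌋₊ := fun z hz => Nat.le_floor (hn z hz).2
  set f : ℕ → ℝ := fun n => if y < n then (1 : ℝ) / n else 0 with hf
  have hf0 : ∀ n, 0 ≤ f n := fun n => by rw [hf]; positivity
  have e : ∑ z ∈ s, (1 : ℝ) / (nm z) = ∑ z ∈ s, f (nm z) := by
    refine Finset.sum_congr rfl fun z hz => ?_
    rw [hf]; simp only [(hn z hz).1, if_true]
  have h := sum_le f hf0 s hs ⌊X⌋₊ hn'
  have h1 : ∑ p ∈ Nat.primesLE ⌊X⌋₊, f p = ∑ p ∈ Crest.Agent.Lib.Mertens.pr y X, (1 : ℝ) / p := by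
    rw [hf, ← Finset.sum_filter]
    refine Finset.sum_congr ?_ fun _ _ => rfl
    ext p
    rw [Finset.mem_filter, Nat.mem_primesLE, Crest.Agent.Lib.Mertens.mem_pr (by linarith)
      (by linarith), Nat.le_floor_iff (by linarith)]
    tauto
  have h2 := Crest.Agent.Lib.Mertens.mertens_two y X hy hyX
  rw [abs_le] at h2
  -- squares
  have h3 : ∑ p ∈ Nat.primesLE (Nat.sqrt ⌊X⌋₊), f (p ^ 2) ≤ 7 / Real.log y := by
    set a := Nat.sqrt ⌊y⌋₊ with ha
    have ha1 : 1 ≤ a := by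
      rw [ha, Nat.le_sqrt']; exact Nat.le_floor (by norm_num; linarith)
    have h4 : ∑ p ∈ Nat.primesLE (Nat.sqrt ⌊X⌋₊), f (p ^ 2) ≤
        ∑ m ∈ Finset.Ioc a (Nat.sqrt ⌊X⌋₊), (1 : ℝ) / ((m : ℝ) ^ 2) +
          (1 : ℝ) / ((a : ℝ) + 1) ^ 2 * 0 := by
      rw [mul_zero, add_zero, hf]
      rw [← Finset.sum_filter]
      push_cast
      refine Finset.sum_le_sum_of_subset_of_nonneg ?_ (fun _ _ _ => by positivity)
      intro p hp
      rw [Finset.mem_filter, Nat.mem_primesLE] at hp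
      rw [Finset.mem_Ioc]
      refine ⟨?_, hp.1.1⟩
      rw [ha, Nat.sqrt_lt']
      rw [Nat.floor_lt (by linarith)]
      push_cast
      exact hp.2
    have h5 := sum_inv_sq_Ioc_le a (Nat.sqrt ⌊X⌋₊) ha1
    have h6 : Real.log y ≤ 7 * a := by
      have h7 : y < (a + 1 : ℝ) ^ 2 := by
        have h8 : ⌊y⌋₊ < (a + 1) ^ 2 := Nat.lt_succ_sqrt' _
        have h9 : y < ⌊y⌋₊ + 1 := Nat.lt_floor_add_one y
        have h10 : (⌊y⌋₊ : ℝ) + 1 ≤ (a + 1 : ℝ) ^ 2 := by exact_mod_cast h8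
        linarith
      have ha1' : (1 : ℝ) ≤ a := by exact_mod_cast ha1
      have h11 : Real.log y ≤ 2 * Real.log (a + 1) := by
        have := Real.log_le_log (by linarith) h7.le
        rw [Real.log_pow] at this
        push_cast at this
        exact this
      have h12 : Real.log ((a : ℝ) + 1) ≤ (a + 1) - 1 := Real.log_le_sub_one_of_pos (by linarith)
      linarith
    have ha0 : (0 : ℝ) < a := by exact_mod_cast ha1
    have h7 : (1 : ℝ) / a ≤ 7 / Real.log y := by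
      rw [div_le_div_iff₀ ha0 hly]; linarith
    linarith
  rw [e]
  have e18 : 18 / Real.log y = 18 * (1 / Real.log y) := by ring
  have e7 : 7 / Real.log y = 7 * (1 / Real.log y) := by ring
  have e50 : 50 / Real.log y = 50 * (1 / Real.log y) := by ring
  rw [e18] at h2
  rw [e7] at h3
  rw [e50]
  rw [h1] at h
  linarith [h2.2]

end Crest.Agent.R012.Cheb420
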