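import Crest.Agent.R012.Base_666
import Crest.Agent.R012.Cheb_420
import Crest.Agent.R012.Buch_420

/-!
# Row 12: Buchstab identity for primary squarefree Eisenstein integers

`PrP` : type of primary primes with the linear order `(nm, re, im)`;
`prd T = ∏_{p ∈ T} p`;  squarefree primary `n` ↔ `Finset PrP`.
-/

set_option autoImplicit false

noncomputable section

namespace Crest.Agent.R012.Buch420

open Finset Eis

/-- the type of primary primes -/
def PrP : Type := {p : Eis // IsPrim p ∧ Prime p}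

namespace PrP

def key (p : PrP) : ℕ ×ₗ (ℤ ×ₗ ℤ) := toLex (nm p.1, toLex (p.1.re, p.1.im))

lemma key_inj : Function.Injective key := by
  intro p q h
  unfold key at h
  have h1 := toLex.injective h
  rw [Prod.mk.injEq] at h1
  have h2 := toLex.injective h1.2
  rw [Prod.mk.injEq] at h2
  exact Subtype.ext (Eis.ext' h2.1 h2.2)

instance : LinearOrder PrP := LinearOrder.lift' key key_inj

lemma nm_le_of_le {p q : PrP} (h : p ≤ q) : nm p.1 ≤ nm q.1 := by
  have h' : key p ≤ key q := h
  rw [Prod.Lex.le_iff] at h'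
  rcases h' with h' | h'
  · exact h'.le
  · exact h'.1.le

lemma lt_of_nm_lt {p q : PrP} (h : nm p.1 < nm q.1) : p < q := by
  by_contra hc
  push Not at hc
  exact absurd (nm_le_of_le hc) (not_le.mpr h)

lemma isPrim (p : PrP) : IsPrim p.1 := p.2.1
lemma prime (p : PrP) : Prime p.1 := p.2.2
lemma ne_zero (p : PrP) : p.1 ≠ 0 := p.2.2.ne_zero

lemma two_le_nm (p : PrP) : 2 ≤ nm p.1 := Cheb420.nm_two_le p.prime

/-- norm as a real number -/
def N (p : PrP) : ℝ := nm p.1

lemma one_le_N (p : PrP) : 1 ≤ N p := by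
  have := two_le_nm p
  unfold N
  exact_mod_cast (by omega : 1 ≤ nm p.1)

lemma dvd_iff_eq {p q : PrP} : p.1 ∣ q.1 ↔ p = q := by
  constructor
  · intro h
    exact Subtype.ext (p.isPrim.eq_of_associated q.isPrim (p.prime.associated_of_dvd q.prime h))
  · rintro rfl; exact dvd_rfl

end PrP

/-- the squarefree primary number with given set of prime factors -/
def prd (T : Finset PrP) : Eis := ∏ p ∈ T, p.1

@[simp] lemma prd_empty : prd ∅ = 1 := by simp [prd]
lemma prd_insert {p : PrP} {T : Finset PrP} (h : p ∉ T) : prd (insert p T) = p.1 * prd T := by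
  unfold prd; rw [Finset.prod_insert h]
lemma prd_union {S T : Finset PrP} (h : Disjoint S T) : prd (S ∪ T) = prd S * prd T :=
  Finset.prod_union h
@[simp] lemma prd_singleton (p : PrP) : prd {p} = p.1 := by simp [prd]

lemma isPrim_prd (T : Finset PrP) : IsPrim (prd T) := by
  induction T using Finset.induction_on with
  | empty => simpa using isPrim_one
  | insert p T hp ih => rw [prd_insert hp]; exact p.isPrim.mul ih

lemma prd_ne_zero (T : Finset PrP) : prd T ≠ 0 := (isPrim_prd T).ne_zero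

lemma nu_eq (T : Finset PrP) : nu PrP.N T = nm (prd T) := by
  induction T using Finset.induction_on with
  | empty => simp
  | insert p T hp ih => rw [nu_insert _ hp, prd_insert hp, nm_mul, ih]; push_cast; rfl

lemma dvd_prd_iff {p : PrP} {T : Finset PrP} : p.1 ∣ prd T ↔ p ∈ T := by
  constructor
  · intro h
    obtain ⟨q, hq, hpq⟩ := (p.prime.dvd_finsetProd_iff _).mp h
    rw [PrP.dvd_iff_eq] at hpq
    rw [hpq]; exact hq
  · intro h; exact Finset.dvd_prod_of_mem _ h

lemma prd_dvd_prd_iff {S T : Finset PrP} : prd S ∣ prd T ↔ S ⊆ T := by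
  constructor
  · intro h p hp
    exact dvd_prd_iff.mp ((dvd_prd_iff.mpr hp).trans h)
  · intro h; exact Finset.prod_dvd_prod_of_subset _ _ _ h

lemma prd_injective : Function.Injective prd := by
  intro S T h
  apply Finset.Subset.antisymm
  · exact prd_dvd_prd_iff.mp (by rw [h])
  · exact prd_dvd_prd_iff.mp (by rw [h])

/-- every prime divisor of a primary number has a unique primary associate, as an element of
`PrP`. -/
lemma exists_PrP {n q : Eis} (hn : IsPrim n) (hq : Prime q) (h : q ∣ n) :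
    ∃ p : PrP, Associated q p.1 ∧ p.1 ∣ n := by
  have hl : ¬ lam ∣ q := fun h' => hn.not_lam_dvd (h'.trans h)
  obtain ⟨y, hy, ha⟩ := exists_isPrim_associated hl
  exact ⟨⟨y, hy, ha.prime hq⟩, ha, (ha.dvd_iff_dvd_left).mp h⟩

lemma squarefree_prd (T : Finset PrP) : Squarefree (prd T) := by
  induction T using Finset.induction_on with
  | empty => simp
  | insert p T hp ih =>
    rw [prd_insert hp]
    refine (squarefree_mul_iff).mpr ⟨?_, p.prime.squarefree, ih⟩
    refine IsCoprime.isRelPrime ?_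
    refine (p.prime.irreducible.coprime_iff_not_dvd).mpr ?_
    rw [dvd_prd_iff]; exact hp

/-- The set of primary primes of norm at most `X`. -/
def UX (X : ℕ) : Finset PrP :=
  open Classical in Finset.subtype (fun p => IsPrim p ∧ Prime p) (ball X)

open Classical in
lemma mem_UX {X : ℕ} {p : PrP} : p ∈ UX X ↔ nm p.1 ≤ X := by
  exact Finset.mem_subtype.trans mem_ball

/-- The set of primary primes dividing `n`. -/
def pset (n : Eis) : Finset PrP :=
  open Classical in (UX (nm n)).filter (fun p => p.1 ∣ n)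

lemma nm_le_of_dvd' {d n : Eis} (hn : n ≠ 0) (h : d ∣ n) : nm d ≤ nm n := by
  obtain ⟨t, rfl⟩ := h
  rw [nm_mul]
  exact Nat.le_mul_of_pos_right _ (nm_pos.mpr (right_ne_zero_of_mul hn))

lemma mem_pset {n : Eis} (hn : n ≠ 0) {p : PrP} : p ∈ pset n ↔ p.1 ∣ n := by
  classical
  unfold pset
  rw [Finset.mem_filter, mem_UX]
  exact ⟨fun h => h.2, fun h => ⟨nm_le_of_dvd' hn h, h⟩⟩

@[simp] lemma pset_prd (T : Finset PrP) : pset (prd T) = T := by
  ext p; rw [mem_pset (prd_ne_zero T), dvd_prd_iff]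

lemma prd_pset {n : Eis} (hn : IsPrim n) (hs : Squarefree n) : prd (pset n) = n := by
  have h1 : prd (pset n) ∣ n := by
    unfold prd
    refine Finset.prod_dvd_of_coprime ?_ ?_
    · intro p _ q _ hpq
      refine (p.prime.irreducible.coprime_iff_not_dvd).mpr ?_
      rw [PrP.dvd_iff_eq]; exact hpq
    · intro p hp; exact (mem_pset hn.ne_zero).mp hp
  obtain ⟨t, ht⟩ := h1
  have htp : IsPrim t := IsPrim.of_mul_left (by rw [← ht]; exact hn) (isPrim_prd _)
  have htu : IsUnit t := by
    by_contra hc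
    obtain ⟨q, hq, hqt⟩ := WfDvdMonoid.exists_irreducible_factor hc htp.ne_zero
    obtain ⟨p, hp, hpt⟩ := exists_PrP htp hq.prime hqt
    have hpn : p ∈ pset n := (mem_pset hn.ne_zero).mpr (by rw [ht]; exact hpt.mul_left _)
    have h2 : p.1 * p.1 ∣ n := by
      conv_rhs => rw [ht]
      exact mul_dvd_mul (dvd_prd_iff.mpr hpn) hpt
    exact p.prime.not_isUnit (hs _ h2)
  have ht1 : t = 1 := Cheb420.isPrim_unit htu htp
  conv_rhs => rw [ht, ht1, mul_one]


/-! ### Sums over powersets as sums over primary numbers -/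

open Classical in
/-- `∑_{T ⊆ A} f (∏ T)` is the sum over the primary `n`, `nm n ≤ X`, all of whose prime factors are in
`A`, if `f` is supported on squarefree `n` of norm `≤ X`. -/
lemma sum_powerset_prd {X : ℕ} (f : Eis → ℂ) (hf : ∀ n, f n ≠ 0 → Squarefree n ∧ nm n ≤ X)
    (A : Finset PrP) :
    ∑ T ∈ A.powerset, f (prd T) =
      ∑ n ∈ (primBall X).filter (fun n => ∀ p : PrP, p.1 ∣ n → p ∈ A), f n := by
  have h1 : ∑ T ∈ A.powerset, f (prd T) =
      ∑ T ∈ A.powerset.filter (fun T => nm (prd T) ≤ X), f (prd T) := by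
    rw [Finset.sum_filter]
    refine Finset.sum_congr rfl fun T _ => ?_
    split_ifs with h
    · rfl
    · by_contra hc; exact h (hf _ hc).2
  rw [h1]
  have h2 : ∑ T ∈ A.powerset.filter (fun T => nm (prd T) ≤ X), f (prd T) =
      ∑ n ∈ (A.powerset.filter (fun T => nm (prd T) ≤ X)).image prd, f n :=
    (Finset.sum_image (fun a _ b _ h => prd_injective h)).symm
  rw [h2]
  refine Finset.sum_subset ?_ ?_
  · intro n hn
    rw [Finset.mem_image] at hn
    obtain ⟨T, hT, rfl⟩ := hn
    rw [Finset.mem_filter, Finset.mem_powerset] at hT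
    rw [Finset.mem_filter, mem_primBall]
    exact ⟨⟨hT.2, isPrim_prd T⟩, fun p hp => hT.1 (dvd_prd_iff.mp hp)⟩
  · intro n hn hn'
    rw [Finset.mem_filter, mem_primBall] at hn
    by_contra hc
    have hs := (hf n hc).1
    apply hn'
    rw [Finset.mem_image]
    refine ⟨pset n, ?_, prd_pset hn.1.2 hs⟩
    rw [Finset.mem_filter, Finset.mem_powerset, prd_pset hn.1.2 hs]
    exact ⟨fun p hp => hn.2 p ((mem_pset hn.1.2.ne_zero).mp hp), hn.1.1⟩

open Classical in
/-- Sum over multiples. -/
lemma sum_powerset_multiples {X : ℕ} (f : Eis → ℂ) (hf : ∀ n, f n ≠ 0 → Squarefree n ∧ nm n ≤ X)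
    (I : Finset PrP) :
    ∑ J ∈ (UX X \ I).powerset, f (prd (I ∪ J)) =
      ∑ n ∈ (primBall X).filter (fun n => prd I ∣ n), f n := by
  have h1 : ∑ J ∈ (UX X \ I).powerset, f (prd (I ∪ J)) =
      ∑ J ∈ (UX X \ I).powerset.filter (fun J => nm (prd (I ∪ J)) ≤ X), f (prd (I ∪ J)) := by
    rw [Finset.sum_filter]
    refine Finset.sum_congr rfl fun T _ => ?_
    split_ifs with h
    · rfl
    · by_contra hc; exact h (hf _ hc).2
  rw [h1]
  have hdj : ∀ J ∈ (UX X \ I).powerset, Disjoint I J := by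
    intro J hJ
    rw [Finset.mem_powerset] at hJ
    rw [Finset.disjoint_left]
    intro x hx hx'
    exact (Finset.mem_sdiff.mp (hJ hx')).2 hx
  have hinj : Set.InjOn (fun J => prd (I ∪ J))
      ((UX X \ I).powerset.filter (fun J => nm (prd (I ∪ J)) ≤ X) : Finset (Finset PrP)) := by
    intro J hJ K hK h
    rw [Finset.mem_coe, Finset.mem_filter] at hJ hK
    have h2 := prd_injective h
    rw [← Finset.union_sdiff_cancel_left (hdj J hJ.1), h2,
      Finset.union_sdiff_cancel_left (hdj K hK.1)]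
  rw [← Finset.sum_image (f := f) hinj]
  refine Finset.sum_subset ?_ ?_
  · intro n hn
    rw [Finset.mem_image] at hn
    obtain ⟨J, hJ, rfl⟩ := hn
    rw [Finset.mem_filter, Finset.mem_powerset] at hJ
    rw [Finset.mem_filter, mem_primBall]
    exact ⟨⟨hJ.2, isPrim_prd _⟩, prd_dvd_prd_iff.mpr Finset.subset_union_left⟩
  · intro n hn hn'
    rw [Finset.mem_filter, mem_primBall] at hn
    by_contra hc
    have hs := (hf n hc).1
    have hI : I ⊆ pset n := by
      rw [← prd_dvd_prd_iff, prd_pset hn.1.2 hs]; exact hn.2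
    apply hn'
    rw [Finset.mem_image]
    have hu : I ∪ (pset n \ I) = pset n := Finset.union_sdiff_of_subset hI
    refine ⟨pset n \ I, ?_, by rw [hu, prd_pset hn.1.2 hs]⟩
    rw [Finset.mem_filter, Finset.mem_powerset, hu, prd_pset hn.1.2 hs]
    refine ⟨fun p hp => ?_, hn.1.1⟩
    rw [Finset.mem_sdiff] at hp ⊢
    refine ⟨?_, hp.2⟩
    rw [mem_UX]
    exact (nm_le_of_dvd' hn.1.2.ne_zero ((mem_pset hn.1.2.ne_zero).mp hp.1)).trans hn.1.1

open Classical in
/-- The bilinear form: `∑_{J ⊆ A} f (∏ (I ∪ J))` for `A` disjoint from `I`. -/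
lemma sum_powerset_mul {X : ℕ} (f : Eis → ℂ) (hf : ∀ n, f n ≠ 0 → Squarefree n ∧ nm n ≤ X)
    (I A : Finset PrP) (hA : Disjoint I A) :
    ∑ J ∈ A.powerset, f (prd (I ∪ J)) =
      ∑ m ∈ (primBall X).filter (fun m => ∀ p : PrP, p.1 ∣ m → p ∈ A), f (prd I * m) := by
  have h1 : ∀ J ∈ A.powerset, f (prd (I ∪ J)) = f (prd I * prd J) := by
    intro J hJ
    rw [Finset.mem_powerset] at hJ
    rw [prd_union (hA.mono_right hJ)]
  rw [Finset.sum_congr rfl h1]
  refine sum_powerset_prd (X := X) (fun m => f (prd I * m)) ?_ A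
  intro m hm
  have h2 := hf _ hm
  have hm0 : m ≠ 0 := by
    rintro rfl
    rw [mul_zero] at h2
    exact not_squarefree_zero h2.1
  refine ⟨h2.1.of_mul_right, le_trans ?_ h2.2⟩
  exact nm_le_of_dvd' (mul_ne_zero (prd_ne_zero I) hm0) (dvd_mul_left _ _)

end Crest.Agent.R012.Buch420
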