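import Crest.Agent.R012.Defs

/-!
# Row 12: multiplicity of the Siegel strip

For `w, v ∈ ℂ²` with `δ = det (w, v) ≠ 0`, the number of primitive `(c, d) ∈ Eis²` with
`|c w + d v|² ≤ T` is at most `6 + 784 (T/|δ|)²`
(`1 + 784 (T/|δ|)²` if the pairs are normalised by `c ≡ 0, d ≡ 1 mod 3`, resp. `c ≡ 1, d ≡ 0`).
-/

set_option autoImplicit false

noncomputable section

open Complex

namespace Crest.Agent.R012.Strip880

open Crest.Agent.R012 Crest.Agent.R012.Eis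

/-! ### counting Eisenstein integers in a disc -/

/-- integers in a real interval of half length `r` about `x`. -/
lemma int_Icc_card (x r : ℝ) (hr : 0 ≤ r) :
    ((Finset.Icc ⌈x - r⌉ ⌊x + r⌋).card : ℝ) ≤ 2 * r + 1 := by
  rw [Int.card_Icc]
  have h1 : (⌊x + r⌋ : ℝ) ≤ x + r := Int.floor_le _
  have h2 : x - r ≤ (⌈x - r⌉ : ℝ) := Int.le_ceil _
  rcases le_or_gt 0 (⌊x + r⌋ + 1 - ⌈x - r⌉) with h | h
  · have : (((⌊x + r⌋ + 1 - ⌈x - r⌉).toNat : ℤ) : ℝ) = ((⌊x + r⌋ + 1 - ⌈x - r⌉ : ℤ) : ℝ) := by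
      rw [Int.toNat_of_nonneg h]
    have h3 : (((⌊x + r⌋ + 1 - ⌈x - r⌉).toNat : ℕ) : ℝ) = ((⌊x + r⌋ + 1 - ⌈x - r⌉ : ℤ) : ℝ) := by
      rw [← this]; norm_cast
    rw [h3]; push_cast; linarith
  · rw [Int.toNat_of_nonpos h.le]; simp; linarith

lemma re_sub_le (z : ℂ) (a b : ℤ) (x y : ℝ)
    (hx : z = (x : ℂ) + (y : ℂ) * wC) :
    (((a : ℝ) - x) ^ 2 ≤ 4 / 3 * ‖toC ⟨a, b⟩ - z‖ ^ 2) ∧
    (((b : ℝ) - y) ^ 2 ≤ 4 / 3 * ‖toC ⟨a, b⟩ - z‖ ^ 2) := by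
  have h3 : Real.sqrt 3 * Real.sqrt 3 = 3 := Real.mul_self_sqrt (by norm_num)
  have e : ‖toC ⟨a, b⟩ - z‖ ^ 2 = ((a : ℝ) - x) ^ 2 - ((a : ℝ) - x) * ((b : ℝ) - y)
      + ((b : ℝ) - y) ^ 2 := by
    rw [← Complex.normSq_eq_norm_sq, Complex.normSq_apply, hx, toC_apply]
    simp [wC]
    linear_combination (((b : ℝ) - y) ^ 2 / 4) * h3
  rw [e]
  constructor
  · nlinarith [sq_nonneg (((a : ℝ) - x) - 2 * ((b : ℝ) - y))]
  · nlinarith [sq_nonneg (2 * ((a : ℝ) - x) - ((b : ℝ) - y))]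

lemma exists_coords (z : ℂ) : ∃ x y : ℝ, z = (x : ℂ) + (y : ℂ) * wC := by
  have h3 : Real.sqrt 3 ≠ 0 := by positivity
  refine ⟨z.re + z.im / Real.sqrt 3, 2 * z.im / Real.sqrt 3, ?_⟩
  apply Complex.ext
  · simp [wC]; ring
  · simp [wC]; field_simp

/-- The discs in `Eis`: finite, with at most `(3ρ+1)²` elements, centre arbitrary. -/
lemma disc_finite_card (z : ℂ) (ρ : ℝ) (hρ : 0 ≤ ρ) :
    {t : Eis | ‖toC t - z‖ ≤ ρ}.Finite ∧
      (({t : Eis | ‖toC t - z‖ ≤ ρ}.ncard : ℕ) : ℝ) ≤ (3 * ρ + 1) ^ 2 := by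
  obtain ⟨x, y, hxy⟩ := exists_coords z
  set r : ℝ := 3 / 2 * ρ with hr
  have hr0 : 0 ≤ r := by positivity
  set A := Finset.Icc ⌈x - r⌉ ⌊x + r⌋
  set B := Finset.Icc ⌈y - r⌉ ⌊y + r⌋
  set F : Finset Eis := (A ×ˢ B).image (fun ab => (⟨ab.1, ab.2⟩ : Eis)) with hF
  have hsub : {t : Eis | ‖toC t - z‖ ≤ ρ} ⊆ (F : Set Eis) := by
    intro t ht
    simp only [Set.mem_ofPred_eq] at ht
    obtain ⟨a, b⟩ := t
    obtain ⟨h1, h2⟩ := re_sub_le z a b x y hxy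
    have hn : ‖toC ⟨a, b⟩ - z‖ ^ 2 ≤ ρ ^ 2 := by
      have := norm_nonneg (toC ⟨a, b⟩ - z)
      nlinarith
    have ha : |(a : ℝ) - x| ≤ r := by
      apply abs_le_of_sq_le_sq _ hr0
      rw [hr]; nlinarith
    have hb : |(b : ℝ) - y| ≤ r := by
      apply abs_le_of_sq_le_sq _ hr0
      rw [hr]; nlinarith
    rw [abs_le] at ha hb
    simp only [hF, Finset.coe_image, Set.mem_image, Finset.mem_coe, Finset.mem_product, Prod.exists]
    refine ⟨a, b, ⟨?_, ?_⟩, rfl⟩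
    · simp only [A, Finset.mem_Icc]
      exact ⟨Int.ceil_le.mpr (by linarith), Int.le_floor.mpr (by linarith)⟩
    · simp only [B, Finset.mem_Icc]
      exact ⟨Int.ceil_le.mpr (by linarith), Int.le_floor.mpr (by linarith)⟩
  refine ⟨F.finite_toSet.subset hsub, ?_⟩
  have h1 : {t : Eis | ‖toC t - z‖ ≤ ρ}.ncard ≤ F.card := by
    rw [← Set.ncard_coe_finset F]
    exact Set.ncard_le_ncard hsub F.finite_toSet
  have h2 : F.card ≤ A.card * B.card := by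
    rw [← Finset.card_product]; exact Finset.card_image_le
  have hA : ((A.card : ℕ) : ℝ) ≤ 2 * r + 1 := int_Icc_card x r hr0
  have hB : ((B.card : ℕ) : ℝ) ≤ 2 * r + 1 := int_Icc_card y r hr0
  calc (({t : Eis | ‖toC t - z‖ ≤ ρ}.ncard : ℕ) : ℝ) ≤ ((A.card * B.card : ℕ) : ℝ) := by
        exact_mod_cast h1.trans h2
    _ = (A.card : ℝ) * (B.card : ℝ) := by push_cast; ring
    _ ≤ (2 * r + 1) * (2 * r + 1) := by
        apply mul_le_mul hA hB (by positivity) (by positivity)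
    _ = (3 * ρ + 1) ^ 2 := by rw [hr]; ring

/-- Discs about the origin. -/
lemma disc0_finite_card (ρ : ℝ) (hρ : 0 ≤ ρ) :
    {t : Eis | ‖toC t‖ ≤ ρ}.Finite ∧
      (({t : Eis | ‖toC t‖ ≤ ρ}.ncard : ℕ) : ℝ) ≤ (3 * ρ + 1) ^ 2 := by
  simpa using disc_finite_card 0 ρ hρ

lemma one_le_norm_toC {m : Eis} (hm : m ≠ 0) : 1 ≤ ‖toC m‖ := by
  rw [norm_toC]
  rw [Real.one_le_sqrt]
  exact_mod_cast nm_pos.mpr hm

lemma disc0_ne_card (ρ : ℝ) (hρ : 0 ≤ ρ) :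
    {t : Eis | t ≠ 0 ∧ ‖toC t‖ ≤ ρ}.Finite ∧
      (({t : Eis | t ≠ 0 ∧ ‖toC t‖ ≤ ρ}.ncard : ℕ) : ℝ) ≤ 16 * ρ ^ 2 := by
  obtain ⟨hf, hc⟩ := disc0_finite_card ρ hρ
  have hsub : {t : Eis | t ≠ 0 ∧ ‖toC t‖ ≤ ρ} ⊆ {t : Eis | ‖toC t‖ ≤ ρ} := fun t ht => ht.2
  refine ⟨hf.subset hsub, ?_⟩
  rcases lt_or_ge ρ 1 with h1 | h1
  · have : {t : Eis | t ≠ 0 ∧ ‖toC t‖ ≤ ρ} = ∅ := by
      ext t
      simp only [Set.mem_ofPred_eq, Set.mem_empty_iff_false, iff_false, not_and, not_le]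
      intro ht
      exact lt_of_lt_of_le h1 (one_le_norm_toC ht)
    rw [this]; simp; positivity
  · calc (({t : Eis | t ≠ 0 ∧ ‖toC t‖ ≤ ρ}.ncard : ℕ) : ℝ)
        ≤ (({t : Eis | ‖toC t‖ ≤ ρ}.ncard : ℕ) : ℝ) := by
          exact_mod_cast Set.ncard_le_ncard hsub hf
      _ ≤ (3 * ρ + 1) ^ 2 := hc
      _ ≤ 16 * ρ ^ 2 := by nlinarith

/-! ### the strip -/

/-- `|c w + d v|²` -/
def qf (w1 w2 v1 v2 : ℂ) (x : Eis × Eis) : ℝ :=
  ‖toC x.1 * w1 + toC x.2 * v1‖ ^ 2 + ‖toC x.1 * w2 + toC x.2 * v2‖ ^ 2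

lemma qf_nonneg (w1 w2 v1 v2 : ℂ) (x : Eis × Eis) : 0 ≤ qf w1 w2 v1 v2 x := by
  unfold qf; positivity

/-- Lagrange / Hadamard: `|a1 b2 - a2 b1|² ≤ (|a1|²+|a2|²)(|b1|²+|b2|²)`. -/
lemma det_sq_le (a1 a2 b1 b2 : ℂ) :
    ‖a1 * b2 - a2 * b1‖ ^ 2 ≤ (‖a1‖ ^ 2 + ‖a2‖ ^ 2) * (‖b1‖ ^ 2 + ‖b2‖ ^ 2) := by
  have h : ‖a1 * b2 - a2 * b1‖ ≤ ‖a1‖ * ‖b2‖ + ‖a2‖ * ‖b1‖ := by
    calc ‖a1 * b2 - a2 * b1‖ ≤ ‖a1 * b2‖ + ‖a2 * b1‖ := norm_sub_le _ _
      _ = _ := by rw [norm_mul, norm_mul]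
  have h0 := norm_nonneg (a1 * b2 - a2 * b1)
  calc ‖a1 * b2 - a2 * b1‖ ^ 2 ≤ (‖a1‖ * ‖b2‖ + ‖a2‖ * ‖b1‖) ^ 2 := by gcongr
    _ ≤ _ := by nlinarith [sq_nonneg (‖a1‖ * ‖b1‖ - ‖a2‖ * ‖b2‖)]

lemma wedge_identity (w1 w2 v1 v2 : ℂ) (x y : Eis × Eis) :
    (toC x.1 * w1 + toC x.2 * v1) * (toC y.1 * w2 + toC y.2 * v2)
      - (toC x.1 * w2 + toC x.2 * v2) * (toC y.1 * w1 + toC y.2 * v1)
      = toC (x.1 * y.2 - x.2 * y.1) * (w1 * v2 - w2 * v1) := by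
  rw [map_sub, map_mul, map_mul]; ring

lemma wedge_bound (w1 w2 v1 v2 : ℂ) (x y : Eis × Eis) :
    ‖toC (x.1 * y.2 - x.2 * y.1)‖ ^ 2 * ‖w1 * v2 - w2 * v1‖ ^ 2
      ≤ qf w1 w2 v1 v2 x * qf w1 w2 v1 v2 y := by
  rw [← mul_pow, ← norm_mul, ← wedge_identity]
  exact det_sq_le _ _ _ _

/-- If the wedge of two pairs with the same... : `x0` primitive and `x0 ∧ z = 0` implies
`z = t x0`. -/
lemma exists_mul_of_wedge_zero {x0 z : Eis × Eis} (h0 : IsCoprime x0.1 x0.2)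
    (h : x0.1 * z.2 - x0.2 * z.1 = 0) : ∃ t : Eis, z.1 = t * x0.1 ∧ z.2 = t * x0.2 := by
  obtain ⟨a, b, hab⟩ := h0
  refine ⟨a * z.1 + b * z.2, ?_, ?_⟩
  · have : z.1 * (a * x0.1 + b * x0.2) = z.1 := by rw [hab, mul_one]
    linear_combination (-1 : Eis) * this + b * h * (-1)
  · have : z.2 * (a * x0.1 + b * x0.2) = z.2 := by rw [hab, mul_one]
    linear_combination (-1 : Eis) * this + a * h

lemma qf_smul (w1 w2 v1 v2 : ℂ) (t : Eis) (x : Eis × Eis) :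
    qf w1 w2 v1 v2 (t * x.1, t * x.2) = ‖toC t‖ ^ 2 * qf w1 w2 v1 v2 x := by
  unfold qf
  simp only [map_mul]
  have e1 : toC t * toC x.1 * w1 + toC t * toC x.2 * v1 = toC t * (toC x.1 * w1 + toC x.2 * v1) := by
    ring
  have e2 : toC t * toC x.1 * w2 + toC t * toC x.2 * v2 = toC t * (toC x.1 * w2 + toC x.2 * v2) := by
    ring
  rw [e1, e2, norm_mul, norm_mul]; ring

lemma qf_sub_le (w1 w2 v1 v2 : ℂ) (x y : Eis × Eis) :
    qf w1 w2 v1 v2 (x.1 - y.1, x.2 - y.2) ≤ 2 * (qf w1 w2 v1 v2 x + qf w1 w2 v1 v2 y) := by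
  unfold qf
  simp only [map_sub]
  have key : ∀ a b : ℂ, ‖a - b‖ ^ 2 ≤ 2 * (‖a‖ ^ 2 + ‖b‖ ^ 2) := by
    intro a b
    have h := norm_sub_le a b
    have h0 := norm_nonneg (a - b)
    calc ‖a - b‖ ^ 2 ≤ (‖a‖ + ‖b‖) ^ 2 := by gcongr
      _ ≤ _ := by nlinarith [sq_nonneg (‖a‖ - ‖b‖)]
  have e1 : (toC x.1 - toC y.1) * w1 + (toC x.2 - toC y.2) * v1
      = (toC x.1 * w1 + toC x.2 * v1) - (toC y.1 * w1 + toC y.2 * v1) := by ring
  have e2 : (toC x.1 - toC y.1) * w2 + (toC x.2 - toC y.2) * v2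
      = (toC x.1 * w2 + toC x.2 * v2) - (toC y.1 * w2 + toC y.2 * v2) := by ring
  rw [e1, e2]
  linarith [key (toC x.1 * w1 + toC x.2 * v1) (toC y.1 * w1 + toC y.2 * v1),
    key (toC x.1 * w2 + toC x.2 * v2) (toC y.1 * w2 + toC y.2 * v2)]

lemma qf_pos {w1 w2 v1 v2 : ℂ} (hδ : w1 * v2 - w2 * v1 ≠ 0) {x : Eis × Eis}
    (hx : IsCoprime x.1 x.2) : 0 < qf w1 w2 v1 v2 x := by
  rcases (qf_nonneg w1 w2 v1 v2 x).lt_or_eq with h | h
  · exact h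
  · exfalso
    have hδ' : 0 < ‖w1 * v2 - w2 * v1‖ := norm_pos_iff.mpr hδ
    have h1 := wedge_bound w1 w2 v1 v2 x (1, 0)
    have h2 := wedge_bound w1 w2 v1 v2 x (0, 1)
    rw [← h, zero_mul] at h1 h2
    have k1 : ‖toC (x.1 * 0 - x.2 * 1)‖ ^ 2 ≤ 0 := by
      by_contra hc
      push Not at hc
      have := mul_pos hc (pow_pos hδ' 2)
      exact absurd h1 (not_le.mpr this)
    have k2 : ‖toC (x.1 * 1 - x.2 * 0)‖ ^ 2 ≤ 0 := by
      by_contra hc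
      push Not at hc
      have := mul_pos hc (pow_pos hδ' 2)
      exact absurd h2 (not_le.mpr this)
    have k1' : x.2 = 0 := by
      have := pow_eq_zero_iff (two_ne_zero) |>.mp (le_antisymm k1 (by positivity))
      rw [norm_eq_zero, toC_eq_zero] at this
      simpa using this
    have k2' : x.1 = 0 := by
      have := pow_eq_zero_iff (two_ne_zero) |>.mp (le_antisymm k2 (by positivity))
      rw [norm_eq_zero, toC_eq_zero] at this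
      simpa using this
    rw [k1', k2'] at hx
    exact not_isCoprime_zero_zero hx

/-- The set of primitive vectors in the strip which are not parallel to a fixed one. -/
lemma nonparallel_card {w1 w2 v1 v2 : ℂ} (hδ : w1 * v2 - w2 * v1 ≠ 0) {T : ℝ}
    {x0 : Eis × Eis} (hx0 : IsCoprime x0.1 x0.2) (hT : qf w1 w2 v1 v2 x0 ≤ T) :
    {x : Eis × Eis | x0.1 * x.2 - x0.2 * x.1 ≠ 0 ∧ qf w1 w2 v1 v2 x ≤ T}.Finite ∧
    (({x : Eis × Eis | x0.1 * x.2 - x0.2 * x.1 ≠ 0 ∧ qf w1 w2 v1 v2 x ≤ T}.ncard : ℕ) : ℝ)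
      ≤ 784 * (T / ‖w1 * v2 - w2 * v1‖) ^ 2 := by
  classical
  set D := ‖w1 * v2 - w2 * v1‖ with hD
  have hD0 : 0 < D := norm_pos_iff.mpr hδ
  set q0 := qf w1 w2 v1 v2 x0 with hq0
  have hq0pos : 0 < q0 := qf_pos hδ hx0
  have hT0 : 0 < T := lt_of_lt_of_le hq0pos hT
  set S := {x : Eis × Eis | x0.1 * x.2 - x0.2 * x.1 ≠ 0 ∧ qf w1 w2 v1 v2 x ≤ T} with hS
  set M := Real.sqrt (q0 * T) / D with hM
  set P := 2 * Real.sqrt (T / q0) with hP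
  have hM0 : 0 ≤ M := by positivity
  have hP0 : 0 ≤ P := by positivity
  set A := {t : Eis | t ≠ 0 ∧ ‖toC t‖ ≤ M} with hA
  set B := {t : Eis | ‖toC t‖ ≤ P} with hB
  obtain ⟨hAf, hAc⟩ := disc0_ne_card M hM0
  obtain ⟨hBf, hBc⟩ := disc0_finite_card P hP0
  -- the wedge
  set m : Eis × Eis → Eis := fun x => x0.1 * x.2 - x0.2 * x.1 with hm
  have hmA : ∀ x ∈ S, m x ∈ A := by
    intro x hx
    refine ⟨hx.1, ?_⟩
    have h1 := wedge_bound w1 w2 v1 v2 x0 x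
    rw [← hD, ← hq0] at h1
    have h2 : ‖toC (m x)‖ ^ 2 * D ^ 2 ≤ q0 * T :=
      h1.trans (mul_le_mul_of_nonneg_left hx.2 hq0pos.le)
    rw [hM, le_div_iff₀ hD0]
    apply Real.le_sqrt_of_sq_le
    rw [mul_pow]; exact h2
  -- choose a representative in each fibre
  have hrep : ∀ a : Eis, ∃ y : Eis × Eis, (∃ x ∈ S, m x = a) → (y ∈ S ∧ m y = a) := by
    intro a
    by_cases h : ∃ x ∈ S, m x = a
    · obtain ⟨x, hx, hxa⟩ := h
      exact ⟨x, fun _ => ⟨hx, hxa⟩⟩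
    · exact ⟨0, fun h' => absurd h' h⟩
  choose rep hrep using hrep
  have hdiff : ∀ x ∈ S, ∃ t : Eis, x.1 - (rep (m x)).1 = t * x0.1 ∧
      x.2 - (rep (m x)).2 = t * x0.2 := by
    intro x hx
    obtain ⟨hyS, hym⟩ := hrep (m x) ⟨x, hx, rfl⟩
    have h0 : x0.1 * (x.2 - (rep (m x)).2) - x0.2 * (x.1 - (rep (m x)).1) = 0 := by
      have : x0.1 * (rep (m x)).2 - x0.2 * (rep (m x)).1 = x0.1 * x.2 - x0.2 * x.1 := hym
      linear_combination (-1 : Eis) * this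
    exact exists_mul_of_wedge_zero (z := (x.1 - (rep (m x)).1, x.2 - (rep (m x)).2)) hx0 h0
  have hdiff' : ∀ x : Eis × Eis, ∃ t : Eis, x ∈ S → (x.1 - (rep (m x)).1 = t * x0.1 ∧
      x.2 - (rep (m x)).2 = t * x0.2) := by
    intro x
    by_cases hx : x ∈ S
    · obtain ⟨t, ht⟩ := hdiff x hx
      exact ⟨t, fun _ => ht⟩
    · exact ⟨0, fun h => absurd h hx⟩
  choose tt htt using hdiff'
  have httB : ∀ x ∈ S, tt x ∈ B := by
    intro x hx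
    obtain ⟨h1, h2⟩ := htt x hx
    obtain ⟨hyS, hym⟩ := hrep (m x) ⟨x, hx, rfl⟩
    have h3 := qf_sub_le w1 w2 v1 v2 x (rep (m x))
    rw [h1, h2, qf_smul, ← hq0] at h3
    have h4 : ‖toC (tt x)‖ ^ 2 * q0 ≤ 4 * T := by
      have a1 := hx.2
      have a2 := hyS.2
      linarith
    show ‖toC (tt x)‖ ≤ P
    rw [hP]
    have h5 : ‖toC (tt x)‖ ^ 2 ≤ 4 * (T / q0) := by
      rw [← mul_div_assoc, le_div_iff₀ hq0pos]; exact h4
    have h6 : ‖toC (tt x)‖ ≤ Real.sqrt (4 * (T / q0)) := Real.le_sqrt_of_sq_le h5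
    have h7 : Real.sqrt (4 * (T / q0)) = 2 * Real.sqrt (T / q0) := by
      rw [Real.sqrt_mul (by norm_num)]
      congr 1
      rw [show (4 : ℝ) = 2 ^ 2 by norm_num]
      exact Real.sqrt_sq (by norm_num)
    rw [← h7]; exact h6
  have hinj : Set.InjOn (fun x => (m x, tt x)) S := by
    intro x hx y hy hxy
    simp only [Prod.mk.injEq] at hxy
    obtain ⟨hmxy, htxy⟩ := hxy
    obtain ⟨a1, a2⟩ := htt x hx
    obtain ⟨b1, b2⟩ := htt y hy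
    rw [← hmxy, ← htxy] at b1 b2
    have c1 : x.1 = y.1 := by linear_combination a1 - b1
    have c2 : x.2 = y.2 := by linear_combination a2 - b2
    exact Prod.ext c1 c2
  have hmaps : Set.MapsTo (fun x => (m x, tt x)) S (A ×ˢ B) := by
    intro x hx
    exact ⟨hmA x hx, httB x hx⟩
  have hABf : (A ×ˢ B).Finite := hAf.prod hBf
  have hSf : S.Finite := Set.Finite.of_injOn hmaps hinj hABf
  refine ⟨hSf, ?_⟩
  have hcard : S.ncard ≤ (A ×ˢ B).ncard := Set.ncard_le_ncard_of_injOn _ hmaps hinj hABf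
  rw [Set.ncard_prod] at hcard
  have hcard' : (S.ncard : ℝ) ≤ (A.ncard : ℝ) * (B.ncard : ℝ) := by exact_mod_cast hcard
  have hPge : 2 ≤ P := by
    rw [hP]
    have : 1 ≤ Real.sqrt (T / q0) := by
      rw [Real.one_le_sqrt, le_div_iff₀ hq0pos]; linarith
    linarith
  have hB' : (B.ncard : ℝ) ≤ (7 / 2 * P) ^ 2 := by
    refine hBc.trans ?_
    have : 3 * P + 1 ≤ 7 / 2 * P := by linarith
    have h0 : 0 ≤ 3 * P + 1 := by positivity
    gcongr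
  have hMsq : M ^ 2 = q0 * T / D ^ 2 := by
    rw [hM, div_pow, Real.sq_sqrt (by positivity)]
  have hPsq : P ^ 2 = 4 * (T / q0) := by
    rw [hP, mul_pow, Real.sq_sqrt (by positivity)]; ring
  calc (S.ncard : ℝ) ≤ (A.ncard : ℝ) * (B.ncard : ℝ) := hcard'
    _ ≤ (16 * M ^ 2) * ((7 / 2 * P) ^ 2) := by
        apply mul_le_mul hAc hB' (by positivity) (by positivity)
    _ = 784 * (T / D) ^ 2 := by
        rw [mul_pow (7 / 2 : ℝ), hMsq, hPsq]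
        field_simp
        ring

/-- **Strip multiplicity**, all primitive vectors. -/
theorem strip_card {w1 w2 v1 v2 : ℂ} (hδ : w1 * v2 - w2 * v1 ≠ 0) (T : ℝ) :
    {x : Eis × Eis | IsCoprime x.1 x.2 ∧ qf w1 w2 v1 v2 x ≤ T}.Finite ∧
    (({x : Eis × Eis | IsCoprime x.1 x.2 ∧ qf w1 w2 v1 v2 x ≤ T}.ncard : ℕ) : ℝ)
      ≤ 6 + 784 * (T / ‖w1 * v2 - w2 * v1‖) ^ 2 := by
  classical
  set S := {x : Eis × Eis | IsCoprime x.1 x.2 ∧ qf w1 w2 v1 v2 x ≤ T} with hS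
  rcases S.eq_empty_or_nonempty with he | ⟨x0, hx0, hT⟩
  · rw [he]; simp; positivity
  obtain ⟨hNf, hNc⟩ := nonparallel_card hδ hx0 hT
  set N := {x : Eis × Eis | x0.1 * x.2 - x0.2 * x.1 ≠ 0 ∧ qf w1 w2 v1 v2 x ≤ T} with hN
  set U : Finset Eis := {1, -1, w, -w, w ^ 2, -w ^ 2} with hU
  set Q : Finset (Eis × Eis) := U.image (fun u => (u * x0.1, u * x0.2)) with hQ
  have hsub : S ⊆ N ∪ (Q : Set (Eis × Eis)) := by
    intro x hx
    by_cases h : x0.1 * x.2 - x0.2 * x.1 = 0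
    · right
      obtain ⟨t, h1, h2⟩ := exists_mul_of_wedge_zero hx0 h
      have ht : IsUnit t := by
        have hc := hx.1
        rw [h1, h2] at hc
        obtain ⟨a, b, hab⟩ := hc
        refine IsUnit.of_mul_eq_one (a * x0.1 + b * x0.2) ?_
        linear_combination hab
      simp only [hQ, hU, Finset.coe_image, Set.mem_image, Finset.mem_coe, Finset.mem_insert,
        Finset.mem_singleton]
      exact ⟨t, isUnit_cases ht, Prod.ext h1.symm h2.symm⟩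
    · left; exact ⟨h, hx.2⟩
  have hfin : (N ∪ (Q : Set (Eis × Eis))).Finite := hNf.union Q.finite_toSet
  refine ⟨hfin.subset hsub, ?_⟩
  have h1 : S.ncard ≤ N.ncard + Q.card := by
    refine (Set.ncard_le_ncard hsub hfin).trans ?_
    refine (Set.ncard_union_le _ _).trans ?_
    rw [Set.ncard_coe_finset]
  have h2 : Q.card ≤ 6 := by
    refine Finset.card_image_le.trans ?_
    exact Finset.card_le_six
  have h3 : (S.ncard : ℝ) ≤ (N.ncard : ℝ) + 6 := by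
    exact_mod_cast h1.trans (Nat.add_le_add_left h2 _)
  linarith

lemma isPrim_unit {u : Eis} (hu : IsUnit u) (h : IsPrim u) : u = 1 := by
  have hw2 : w ^ 2 = (⟨-1, -1⟩ : Eis) := by
    rw [w_sq]; apply ext' <;> simp
  have key : ∀ a b : ℤ, IsPrim (⟨a, b⟩ : Eis) → (3 : ℤ) ∣ a - 1 ∧ (3 : ℤ) ∣ b := by
    intro a b ⟨t, ht⟩
    have e1 := congrArg QuadraticAlgebra.re ht
    have e2 := congrArg QuadraticAlgebra.im ht
    have h3r : (3 : Eis).re = 3 := rfl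
    have h3i : (3 : Eis).im = 0 := rfl
    rw [re_mul', h3r, h3i] at e1
    rw [im_mul', h3r, h3i] at e2
    simp at e1 e2
    exact ⟨⟨t.re, by linarith⟩, ⟨t.im, by linarith⟩⟩
  rcases isUnit_cases hu with rfl | rfl | rfl | rfl | rfl | rfl
  · rfl
  · exfalso
    have := (key (-1) 0 (by convert h using 1; apply ext' <;> simp)).1
    omega
  · exfalso
    have := (key 0 1 h).1
    omega
  · exfalso
    have := (key 0 (-1) (by convert h using 1; apply ext' <;> simp)).1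
    omega
  · exfalso
    rw [hw2] at h
    have := (key _ _ h).2
    omega
  · exfalso
    rw [hw2] at h
    have := (key 1 1 (by convert h using 1; apply ext' <;> simp)).2
    omega

/-- a primitive pair normalised by `≡ (0, 1) mod 3`; the strip contains at most
`1 + 784 (T/|δ|)²` of them. -/
theorem strip_card_prim {w1 w2 v1 v2 : ℂ} (hδ : w1 * v2 - w2 * v1 ≠ 0) (T : ℝ) :
    {x : Eis × Eis | IsCoprime x.1 x.2 ∧ IsPrim x.2 ∧ qf w1 w2 v1 v2 x ≤ T}.Finite ∧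
    (({x : Eis × Eis | IsCoprime x.1 x.2 ∧ IsPrim x.2 ∧ qf w1 w2 v1 v2 x ≤ T}.ncard : ℕ) : ℝ)
      ≤ 1 + 784 * (T / ‖w1 * v2 - w2 * v1‖) ^ 2 := by
  classical
  set S := {x : Eis × Eis | IsCoprime x.1 x.2 ∧ IsPrim x.2 ∧ qf w1 w2 v1 v2 x ≤ T} with hS
  rcases S.eq_empty_or_nonempty with he | ⟨x0, hx0, hp0, hT⟩
  · rw [he]; simp; positivity
  obtain ⟨hNf, hNc⟩ := nonparallel_card hδ hx0 hT
  set N := {x : Eis × Eis | x0.1 * x.2 - x0.2 * x.1 ≠ 0 ∧ qf w1 w2 v1 v2 x ≤ T} with hN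
  have hsub : S ⊆ N ∪ {x0} := by
    intro x hx
    by_cases h : x0.1 * x.2 - x0.2 * x.1 = 0
    · right
      obtain ⟨t, h1, h2⟩ := exists_mul_of_wedge_zero hx0 h
      have ht : IsUnit t := by
        have hc := hx.1
        rw [h1, h2] at hc
        obtain ⟨a, b, hab⟩ := hc
        refine IsUnit.of_mul_eq_one (a * x0.1 + b * x0.2) ?_
        linear_combination hab
      have htp : IsPrim t := by
        have hx2 : (3 : Eis) ∣ x.2 - 1 := hx.2.1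
        have hp0' : (3 : Eis) ∣ x0.2 - 1 := hp0
        rw [h2] at hx2
        have : t - 1 = (t * x0.2 - 1) - t * (x0.2 - 1) := by ring
        show (3 : Eis) ∣ t - 1
        rw [this]
        exact dvd_sub hx2 (Dvd.dvd.mul_left hp0' t)
      have h11 := isPrim_unit ht htp
      rw [h11, one_mul] at h1 h2
      exact Prod.ext h1 h2
    · left; exact ⟨h, hx.2.2⟩
  have hfin : (N ∪ {x0}).Finite := hNf.union (Set.finite_singleton x0)
  refine ⟨hfin.subset hsub, ?_⟩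
  have h1 : S.ncard ≤ N.ncard + 1 := by
    refine (Set.ncard_le_ncard hsub hfin).trans ?_
    refine (Set.ncard_union_le _ _).trans ?_
    rw [Set.ncard_singleton]
  have h3 : (S.ncard : ℝ) ≤ (N.ncard : ℝ) + 1 := by exact_mod_cast h1
  linarith

/-- the same with the first coordinate primary. -/
theorem strip_card_prim' {w1 w2 v1 v2 : ℂ} (hδ : w1 * v2 - w2 * v1 ≠ 0) (T : ℝ) :
    {x : Eis × Eis | IsCoprime x.1 x.2 ∧ IsPrim x.1 ∧ qf w1 w2 v1 v2 x ≤ T}.Finite ∧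
    (({x : Eis × Eis | IsCoprime x.1 x.2 ∧ IsPrim x.1 ∧ qf w1 w2 v1 v2 x ≤ T}.ncard : ℕ) : ℝ)
      ≤ 1 + 784 * (T / ‖w1 * v2 - w2 * v1‖) ^ 2 := by
  have hδ' : v1 * w2 - v2 * w1 ≠ 0 := by
    intro h; apply hδ; linear_combination (-1 : ℂ) * h
  obtain ⟨h1, h2⟩ := strip_card_prim hδ' T
  have hq : ∀ x : Eis × Eis, qf v1 v2 w1 w2 (x.2, x.1) = qf w1 w2 v1 v2 x := by
    intro x; unfold qf
    simp only
    rw [add_comm (toC x.2 * v1), add_comm (toC x.2 * v2)]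
  have himg : {x : Eis × Eis | IsCoprime x.1 x.2 ∧ IsPrim x.1 ∧ qf w1 w2 v1 v2 x ≤ T}
      = Prod.swap '' {x : Eis × Eis | IsCoprime x.1 x.2 ∧ IsPrim x.2 ∧ qf v1 v2 w1 w2 x ≤ T} := by
    ext x
    simp only [Set.mem_ofPred_eq, Set.mem_image]
    constructor
    · rintro ⟨a, b, c⟩
      refine ⟨(x.2, x.1), ⟨a.symm, b, ?_⟩, rfl⟩
      rw [hq]; exact c
    · rintro ⟨y, ⟨a, b, c⟩, rfl⟩
      refine ⟨a.symm, b, ?_⟩
      rw [← hq]; exact c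
  rw [himg]
  refine ⟨h1.image _, ?_⟩
  rw [Set.ncard_image_of_injective _ Prod.swap_injective]
  have hn : ‖v1 * w2 - v2 * w1‖ = ‖w1 * v2 - w2 * v1‖ := by
    rw [← norm_neg]; congr 1; ring
  rw [hn] at h2
  exact h2

end Crest.Agent.R012.Strip880
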