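import Crest.Agent.R012.Kubota_695
import Crest.Agent.R012.Strip_880
import Crest.Agent.R012.Base_666

/-!
# Row 12, item CF: cubefree numerators (critical range, step (2) of #1194)

Abstract inputs (for one `H`, with a common constant `E`):
* HB : `∑_{a sqf, N a ≤ A} |∑_h w_h (a/h)|² ≤ E (A + H + (A H)^(2/3)) |w|²`
* LS : `∑_{(a,b)∈P} |∑_h w_h (a b²/h)|² ≤ E (H + Q²) |w|²`, `N(a) N(b) ≤ Q` on `P`.
Output: for `Y ≤ H^(3/4)`, the sum over all `n ≠ 0`, `N(n) ≤ Y`, whose cubefree part has norm `≥ K`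
is `≤ C E (1+log H)² H Y^(1/3) (K^(-1/3) + H^(-d)) |w|²`.
-/

set_option autoImplicit false

noncomputable section

open Finset

namespace Crest.Agent.R012.CF61

open Eis

/-! ### Decomposition of numerators -/

lemma isCoprime_of_sq_mul {a b : Eis} (h : IsCoprime a b) : IsCoprime a b := h

/-- A primary element is `m³ a b²` with `a, b` squarefree coprime primary, `m` primary. -/
lemma exists_cube_decomp : ∀ (n : ℕ) (c : Eis), nm c = n → IsPrim c →
    ∃ m a b : Eis, IsPrim m ∧ IsPrim a ∧ IsPrim b ∧ Squarefree a ∧ Squarefree b ∧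
      IsCoprime a b ∧ c = m ^ 3 * (a * b ^ 2) := by
  intro n
  induction n using Nat.strong_induction_on with
  | _ n ih =>
    intro c hn hc
    by_cases hu : IsUnit c
    · have h1 : c = 1 := K695.prim_eq_one_of_isUnit hc hu
      exact ⟨1, 1, 1, isPrim_one, isPrim_one, isPrim_one, squarefree_one, squarefree_one,
        isCoprime_one_left, by rw [h1]; ring⟩
    obtain ⟨p0, hp0, hpc0⟩ := WfDvdMonoid.exists_irreducible_factor hu hc.ne_zero
    have hlp : ¬ lam ∣ p0 := fun h => hc.not_lam_dvd (h.trans hpc0)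
    obtain ⟨p, hpp, hass⟩ := exists_isPrim_associated hlp
    have hp : Prime p := (hass.prime_iff).mp hp0.prime
    have hpc : p ∣ c := hass.symm.dvd.trans hpc0
    obtain ⟨c1, rfl⟩ := hpc
    have hc1 : IsPrim c1 := hc.of_mul_left hpp
    have hlt : nm c1 < n := by
      rw [← hn, nm_mul]
      have h1 : nm p ≠ 1 := fun h => hp.not_isUnit (isUnit_iff.mpr h)
      have h2 : 0 < nm p := nm_pos.mpr hpp.ne_zero
      have h3 : 0 < nm c1 := nm_pos.mpr hc1.ne_zero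
      have h4 : 2 ≤ nm p := by omega
      nlinarith
    obtain ⟨m, a, b, hm, ha, hb, hsa, hsb, hab, hc1e⟩ := ih (nm c1) hlt c1 rfl hc1
    by_cases hpa : p ∣ a
    · obtain ⟨a1, rfl⟩ := hpa
      have ha1 : IsPrim a1 := ha.of_mul_left hpp
      have hcop : IsCoprime p a1 := by
        rw [Prime.coprime_iff_not_dvd hp]
        rintro ⟨t, rfl⟩
        exact hp.not_isUnit (hsa p ⟨t, by ring⟩)
      have hpb : IsCoprime p b := hab.of_mul_left_left
      refine ⟨m, a1, p * b, hm, ha1, hpp.mul hb, hsa.of_mul_right, ?_, ?_, ?_⟩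
      · rw [squarefree_mul_iff]
        exact ⟨hpb.isRelPrime, hp.squarefree, hsb⟩
      · exact IsCoprime.mul_right hcop.symm hab.of_mul_left_right
      · rw [hc1e]; ring
    · by_cases hpb : p ∣ b
      · obtain ⟨b1, rfl⟩ := hpb
        have hb1 : IsPrim b1 := hb.of_mul_left hpp
        refine ⟨p * m, a, b1, hpp.mul hm, ha, hb1, hsa, hsb.of_mul_right,
          hab.of_mul_right_right, ?_⟩
        rw [hc1e]; ring
      · have hcpa : IsCoprime p a := (Prime.coprime_iff_not_dvd hp).mpr hpa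
        have hcpb : IsCoprime p b := (Prime.coprime_iff_not_dvd hp).mpr hpb
        refine ⟨m, p * a, b, hm, hpp.mul ha, hb, ?_, hsb, ?_, ?_⟩
        · rw [squarefree_mul_iff]
          exact ⟨hcpa.isRelPrime, hp.squarefree, hsa⟩
        · exact IsCoprime.mul_left hcpb hab
        · rw [hc1e]; ring

/-- Every `x ≠ 0` is `u λ^j m³ (a b²)`. -/
lemma exists_decomp {x : Eis} (hx : x ≠ 0) :
    ∃ (u : Eis) (j : ℕ) (m a b : Eis), IsUnit u ∧ IsPrim m ∧ IsPrim a ∧ IsPrim b ∧ Squarefree a ∧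
      Squarefree b ∧ IsCoprime a b ∧ x = u * lam ^ j * m ^ 3 * (a * b ^ 2) := by
  obtain ⟨j, y, hy, hxy⟩ := WfDvdMonoid.max_power_factor hx prime_lam.irreducible
  obtain ⟨u, hu⟩ := exists_unit_mul_isPrim hy
  obtain ⟨m, a, b, hm, ha, hb, hsa, hsb, hab, h⟩ := exists_cube_decomp _ _ rfl hu
  refine ⟨((u⁻¹ : Eisˣ) : Eis), j, m, a, b, Units.isUnit _, hm, ha, hb, hsa, hsb, hab, ?_⟩
  have h1 : y = ((u⁻¹ : Eisˣ) : Eis) * (m ^ 3 * (a * b ^ 2)) := by
    rw [← h, ← mul_assoc]; simp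
  rw [hxy, h1]; ring

/-! ### Counting -/

/-- Nonzero elements of norm at most `R`. -/
def nb (R : ℝ) : Finset Eis := (ball ⌊R⌋₊).filter (fun x => x ≠ 0)

lemma mem_nb {R : ℝ} {x : Eis} : x ∈ nb R ↔ x ≠ 0 ∧ (nm x : ℝ) ≤ R := by
  unfold nb
  rw [mem_filter, mem_ball]
  constructor
  · rintro ⟨h1, h2⟩
    refine ⟨h2, ?_⟩
    have h3 : 0 < nm x := nm_pos.mpr h2
    exact (Nat.le_floor_iff' h3.ne').mp h1
  · rintro ⟨h1, h2⟩
    exact ⟨Nat.le_floor h2, h1⟩

lemma one_le_nm {x : Eis} (hx : x ≠ 0) : (1 : ℝ) ≤ nm x := by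
  exact_mod_cast nm_pos.mpr hx

lemma card_nb (R : ℝ) (hR : 0 ≤ R) : ((nb R).card : ℝ) ≤ 16 * R := by
  obtain ⟨hf, hc⟩ := Strip880.disc0_ne_card (Real.sqrt R) (Real.sqrt_nonneg _)
  rw [Real.sq_sqrt hR] at hc
  refine le_trans ?_ hc
  have : ((nb R : Finset Eis) : Set Eis) ⊆ {t : Eis | t ≠ 0 ∧ ‖toC t‖ ≤ Real.sqrt R} := by
    intro x hx
    have := mem_nb.mp (mem_coe.mp hx)
    refine ⟨this.1, ?_⟩
    rw [norm_toC]
    exact Real.sqrt_le_sqrt this.2
  have h2 := Set.ncard_le_ncard this hf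
  rw [Set.ncard_coe_finset] at h2
  exact_mod_cast h2

lemma sum_inv_nb (R : ℝ) (hR : 1 ≤ R) :
    ∑ x ∈ nb R, (1 / (nm x : ℝ)) ≤ 64 * (1 + Real.log R) := by
  set L := Nat.log 2 ⌊R⌋₊ with hL
  have hmaps : ∀ x ∈ nb R, Nat.log 2 (nm x) ∈ range (L + 1) := by
    intro x hx
    rw [mem_range, Nat.lt_succ_iff]
    exact Nat.log_mono_right (Nat.le_floor (mem_nb.mp hx).2)
  rw [← sum_fiberwise_of_maps_to hmaps]
  have hfib : ∀ k ∈ range (L + 1),
      ∑ x ∈ (nb R).filter (fun x => Nat.log 2 (nm x) = k), (1 / (nm x : ℝ)) ≤ 32 := by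
    intro k _
    calc ∑ x ∈ (nb R).filter (fun x => Nat.log 2 (nm x) = k), (1 / (nm x : ℝ))
        ≤ ∑ x ∈ (nb R).filter (fun x => Nat.log 2 (nm x) = k), (1 / (2 : ℝ) ^ k) := by
          refine sum_le_sum fun x hx => ?_
          rw [mem_filter] at hx
          have h0 : nm x ≠ 0 := (nm_pos.mpr (mem_nb.mp hx.1).1).ne'
          have h1 : 2 ^ k ≤ nm x := by
            rw [← hx.2]; exact Nat.pow_log_le_self 2 h0
          have h2 : (2 : ℝ) ^ k ≤ (nm x : ℝ) := by exact_mod_cast h1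
          exact one_div_le_one_div_of_le (by positivity) h2
      _ ≤ ∑ x ∈ nb ((2 : ℝ) ^ (k + 1)), (1 / (2 : ℝ) ^ k) := by
          refine sum_le_sum_of_subset_of_nonneg ?_ (fun _ _ _ => by positivity)
          intro x hx
          rw [mem_filter] at hx
          have h0 : nm x ≠ 0 := (nm_pos.mpr (mem_nb.mp hx.1).1).ne'
          rw [mem_nb]
          refine ⟨(mem_nb.mp hx.1).1, ?_⟩
          have h1 : nm x < 2 ^ (k + 1) := by
            rw [← hx.2]; exact Nat.lt_pow_succ_log_self (by norm_num) _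
          exact_mod_cast h1.le
      _ = ((nb ((2 : ℝ) ^ (k + 1))).card : ℝ) * (1 / (2 : ℝ) ^ k) := by
          rw [sum_const, nsmul_eq_mul]
      _ ≤ (16 * (2 : ℝ) ^ (k + 1)) * (1 / (2 : ℝ) ^ k) := by
          exact mul_le_mul_of_nonneg_right (card_nb _ (by positivity)) (by positivity)
      _ = 32 := by rw [pow_succ]; field_simp; norm_num
  calc ∑ k ∈ range (L + 1), ∑ x ∈ (nb R).filter (fun x => Nat.log 2 (nm x) = k), (1 / (nm x : ℝ))
      ≤ ∑ k ∈ range (L + 1), (32 : ℝ) := sum_le_sum hfib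
    _ = 32 * ((L : ℝ) + 1) := by simp; ring
    _ ≤ 64 * (1 + Real.log R) := by
        have h1 : 1 ≤ ⌊R⌋₊ := Nat.le_floor (by exact_mod_cast hR)
        have h2 : (2 : ℝ) ^ L ≤ R := by
          have h3 : 2 ^ L ≤ ⌊R⌋₊ := Nat.pow_log_le_self 2 (by omega)
          have h4 : ((2 ^ L : ℕ) : ℝ) ≤ (⌊R⌋₊ : ℝ) := by exact_mod_cast h3
          push_cast at h4
          exact h4.trans (Nat.floor_le (by linarith))
        have h3 : (L : ℝ) * Real.log 2 ≤ Real.log R := by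
          rw [← Real.log_pow]
          exact Real.log_le_log (by positivity) h2
        have h4 : (0.6931471803 : ℝ) < Real.log 2 := Real.log_two_gt_d9
        have h5 : (0 : ℝ) ≤ L := Nat.cast_nonneg L
        nlinarith

/-! ### The symbol -/

lemma norm_sy0_le (x p : Eis) : ‖sy0 x p‖ ≤ 1 := by
  have hw : ‖wC‖ = 1 := by
    have h1 : ‖wC‖ ^ 3 = 1 := by rw [← norm_pow, wC_cube]; simp
    have h2 : (0 : ℝ) ≤ ‖wC‖ := norm_nonneg _
    exact (pow_eq_one_iff_of_nonneg h2 (by norm_num)).mp h1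
  unfold sy0
  split_ifs <;> simp [hw]

lemma norm_sy_le (x c : Eis) : ‖sy x c‖ ≤ 1 := by
  unfold sy
  induction (UniqueFactorizationMonoid.factors c) using Multiset.induction_on with
  | empty => simp
  | cons a s ih =>
    rw [Multiset.map_cons, Multiset.prod_cons, norm_mul]
    exact mul_le_one₀ (norm_sy0_le _ _) (norm_nonneg _) ih

/-- The norm square of the character sum over `S`. -/
def T (S : Finset Eis) (v : Eis → ℂ) (x : Eis) : ℝ := ‖∑ h ∈ S, v h * sy x h‖ ^ 2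

/-- the `l²` norm square. -/
def n2 (S : Finset Eis) (v : Eis → ℂ) : ℝ := ∑ h ∈ S, ‖v h‖ ^ 2

lemma T_nonneg (S : Finset Eis) (v : Eis → ℂ) (x : Eis) : 0 ≤ T S v x := by
  unfold T; positivity

lemma n2_nonneg (S : Finset Eis) (v : Eis → ℂ) : 0 ≤ n2 S v := by
  unfold n2; positivity

lemma n2_twist (S : Finset Eis) (v : Eis → ℂ) (y : Eis) :
    n2 S (fun h => v h * sy y h) ≤ n2 S v := by
  unfold n2
  refine sum_le_sum fun h _ => ?_
  rw [norm_mul]
  have h1 := norm_sy_le y h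
  have h2 := norm_nonneg (v h)
  have h3 := norm_nonneg (sy y h)
  have : ‖v h‖ * ‖sy y h‖ ≤ ‖v h‖ := by nlinarith
  exact pow_le_pow_left₀ (by positivity) this 2

lemma T_twist (hmul : ∀ x y c : Eis, IsPrim c → sy (x * y) c = sy x c * sy y c)
    {S : Finset Eis} (hS : ∀ h ∈ S, IsPrim h) (v : Eis → ℂ) (y x : Eis) :
    T S v (y * x) = T S (fun h => v h * sy y h) x := by
  unfold T
  congr 2
  refine sum_congr rfl fun h hh => ?_
  rw [hmul _ _ _ (hS h hh)]; ring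

/-- squarefree primary elements of norm at most `X`. -/
def SF (X : ℝ) : Finset Eis := by
  classical exact (nb X).filter (fun a => IsPrim a ∧ Squarefree a)

lemma mem_SF {X : ℝ} {a : Eis} : a ∈ SF X ↔ (nm a : ℝ) ≤ X ∧ IsPrim a ∧ Squarefree a := by
  unfold SF
  classical
  rw [mem_filter, mem_nb]
  constructor
  · rintro ⟨⟨_, h1⟩, h2⟩; exact ⟨h1, h2⟩
  · rintro ⟨h1, h2⟩; exact ⟨⟨h2.1.ne_zero, h1⟩, h2⟩

/-- admissible pair. -/
def Adm (q : Eis × Eis) : Prop :=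
  IsPrim q.1 ∧ IsPrim q.2 ∧ Squarefree q.1 ∧ Squarefree q.2 ∧ IsCoprime q.1 q.2

/-- admissible pairs `(a, b)` with `N(a) N(b)² ≤ D`. -/
def PD (D : ℝ) : Finset (Eis × Eis) := by
  classical exact
  ((nb D) ×ˢ (nb D)).filter (fun q => Adm q ∧ (nm q.1 : ℝ) * (nm q.2 : ℝ) ^ 2 ≤ D)

lemma mem_PD {D : ℝ} {q : Eis × Eis} :
    q ∈ PD D ↔ Adm q ∧ (nm q.1 : ℝ) * (nm q.2 : ℝ) ^ 2 ≤ D := by
  unfold PD
  classical
  rw [mem_filter, mem_product, mem_nb, mem_nb]
  constructor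
  · rintro ⟨_, h⟩; exact h
  · rintro ⟨h1, h2⟩
    have ha := one_le_nm h1.1.ne_zero
    have hb := one_le_nm h1.2.1.ne_zero
    refine ⟨⟨⟨h1.1.ne_zero, ?_⟩, ⟨h1.2.1.ne_zero, ?_⟩⟩, h1, h2⟩
    · nlinarith [mul_nonneg (sub_nonneg.mpr ha) (sub_nonneg.mpr hb)]
    · nlinarith [mul_nonneg (sub_nonneg.mpr ha) (sub_nonneg.mpr hb)]

/-- Heath-Brown input for one `H`. -/
def HBin (S : Finset Eis) (H E : ℝ) : Prop :=
  ∀ A : ℝ, 1 ≤ A → A ≤ H → ∀ v : Eis → ℂ,
    ∑ a ∈ SF A, T S v a ≤ E * (A + H + (A * H) ^ ((2 : ℝ) / 3)) * n2 S v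

/-- multiplicative large sieve input for one `H`. -/
def LSin (S : Finset Eis) (H E : ℝ) : Prop :=
  ∀ Q : ℝ, 1 ≤ Q → ∀ P : Finset (Eis × Eis), (∀ q ∈ P, Adm q ∧ (nm q.1 : ℝ) * (nm q.2 : ℝ) ≤ Q) →
    ∀ v : Eis → ℂ, ∑ q ∈ P, T S v (q.1 * q.2 ^ 2) ≤ E * (H + Q ^ 2) * n2 S v

/-! ### Pairs -/

lemma rpow_third_cube {x : ℝ} (hx : 0 ≤ x) : (x ^ ((1 : ℝ) / 3)) ^ 3 = x := by
  rw [← Real.rpow_natCast, ← Real.rpow_mul hx]; norm_num

/-- the part of `PD D` with large `a`. -/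
lemma part2 (hmul : ∀ x y c : Eis, IsPrim c → sy (x * y) c = sy x c * sy y c)
    {S : Finset Eis} (hS : ∀ h ∈ S, IsPrim h) {H E d D : ℝ} (hH : 1 ≤ H) (hE : 0 ≤ E)
    (hd0 : 0 < d) (hd : d ≤ 1 / 3) (hD1 : 1 ≤ D) (hD : D ≤ H ^ (1 - 3 * d))
    (HB : HBin S H E) (v : Eis → ℂ) (P : Finset (Eis × Eis))
    (hP : ∀ q ∈ P, q ∈ PD D ∧ (nm q.2 : ℝ) * H ^ (3 * d) < nm q.1) :
    ∑ q ∈ P, T S v (q.1 * q.2 ^ 2) ≤
      144 * E * (1 + Real.log H) * (D ^ ((1 : ℝ) / 3) * H ^ (1 - d)) * n2 S v := by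
  classical
  have hH0 : 0 < H := by linarith
  have hD0 : 0 < D := by linarith
  have hlog : 0 ≤ Real.log H := Real.log_nonneg hH
  have hn2 := n2_nonneg S v
  set R : ℝ := D ^ ((1 : ℝ) / 3) * H ^ (-d) with hR
  have hR0 : 0 ≤ R := by positivity
  have hDH : D ≤ H := hD.trans (by
    calc H ^ (1 - 3 * d) ≤ H ^ (1 : ℝ) := Real.rpow_le_rpow_of_exponent_le hH (by linarith)
      _ = H := Real.rpow_one H)
  have hD3 : D ^ ((1 : ℝ) / 3) ≤ D := by
    calc D ^ ((1 : ℝ) / 3) ≤ D ^ (1 : ℝ) := Real.rpow_le_rpow_of_exponent_le hD1 (by norm_num)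
      _ = D := Real.rpow_one D
  have hHd : H ^ (-d) ≤ 1 := Real.rpow_le_one_of_one_le_of_nonpos hH (by linarith)
  have hRD3 : R ≤ D ^ ((1 : ℝ) / 3) := by
    rw [hR]; exact mul_le_of_le_one_right (by positivity) hHd
  have hRH : R ≤ H := hRD3.trans (hD3.trans hDH)
  -- b is small
  have hb : ∀ q ∈ P, q.2 ∈ (nb R).filter IsPrim ∧ q.1 ∈ SF (D / (nm q.2 : ℝ) ^ 2) := by
    intro q hq
    obtain ⟨h1, h2⟩ := hP q hq
    obtain ⟨h3, h4⟩ := mem_PD.mp h1
    have hb1 := one_le_nm h3.2.1.ne_zero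
    have ha1 := one_le_nm h3.1.ne_zero
    refine ⟨mem_filter.mpr ⟨mem_nb.mpr ⟨h3.2.1.ne_zero, ?_⟩, h3.2.1⟩, mem_SF.mpr ⟨?_, h3.1, h3.2.2.1⟩⟩
    · have h5 : (nm q.2 : ℝ) ^ 3 * H ^ (3 * d) ≤ D := by
        calc (nm q.2 : ℝ) ^ 3 * H ^ (3 * d) = ((nm q.2 : ℝ) * H ^ (3 * d)) * (nm q.2 : ℝ) ^ 2 := by
              ring
          _ ≤ (nm q.1 : ℝ) * (nm q.2 : ℝ) ^ 2 := by
              exact mul_le_mul_of_nonneg_right h2.le (by positivity)
          _ ≤ D := h4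
      have h6 : (nm q.2 : ℝ) ^ 3 ≤ R ^ 3 := by
        have h7 : R ^ 3 = D * H ^ (-(3 * d)) := by
          rw [hR, mul_pow, rpow_third_cube hD0.le, ← Real.rpow_natCast (H ^ (-d)),
            ← Real.rpow_mul hH0.le]
          congr 2; push_cast; ring
        rw [h7, Real.rpow_neg hH0.le, ← div_eq_mul_inv, le_div_iff₀ (by positivity)]
        exact h5
      exact le_of_pow_le_pow_left₀ (by norm_num) hR0 h6
    · rw [le_div_iff₀ (by positivity)]
      exact h4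
  -- regroup
  calc ∑ q ∈ P, T S v (q.1 * q.2 ^ 2)
      = ∑ b ∈ (nb R).filter IsPrim, ∑ q ∈ P.filter (fun q => q.2 = b), T S v (q.1 * q.2 ^ 2) := by
        rw [sum_fiberwise_of_maps_to (fun q hq => (hb q hq).1)]
    _ ≤ ∑ b ∈ (nb R).filter IsPrim,
          E * (D / (nm b : ℝ) + H + (D * H) ^ ((2 : ℝ) / 3) / (nm b : ℝ)) * n2 S v := by
        refine sum_le_sum fun b hbm => ?_
        rw [mem_filter, mem_nb] at hbm
        obtain ⟨⟨hb0, hbR⟩, hbp⟩ := hbm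
        have hb1 := one_le_nm hb0
        have hb3 : (nm b : ℝ) ^ 3 ≤ D := by
          calc (nm b : ℝ) ^ 3 ≤ (D ^ ((1 : ℝ) / 3)) ^ 3 :=
                pow_le_pow_left₀ (by positivity) (hbR.trans hRD3) 3
            _ = D := rpow_third_cube hD0.le
        have hA1 : 1 ≤ D / (nm b : ℝ) ^ 2 := by
          rw [le_div_iff₀ (by positivity), one_mul]
          calc (nm b : ℝ) ^ 2 ≤ (nm b : ℝ) ^ 3 := pow_le_pow_right₀ hb1 (by norm_num)
            _ ≤ D := hb3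
        have hADle : D / (nm b : ℝ) ^ 2 ≤ D / (nm b : ℝ) := by
          apply div_le_div_of_nonneg_left hD0.le (by positivity)
          calc (nm b : ℝ) = (nm b : ℝ) ^ 1 := (pow_one _).symm
            _ ≤ (nm b : ℝ) ^ 2 := pow_le_pow_right₀ hb1 (by norm_num)
        have hAH : D / (nm b : ℝ) ^ 2 ≤ H := by
          refine (div_le_self hD0.le ?_).trans hDH
          exact one_le_pow₀ hb1
        set v' : Eis → ℂ := fun h => v h * sy (b ^ 2) h with hv'
        have h1 : ∑ q ∈ P.filter (fun q => q.2 = b), T S v (q.1 * q.2 ^ 2)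
            ≤ ∑ a ∈ SF (D / (nm b : ℝ) ^ 2), T S v' a := by
          calc ∑ q ∈ P.filter (fun q => q.2 = b), T S v (q.1 * q.2 ^ 2)
              = ∑ q ∈ P.filter (fun q => q.2 = b), T S v' q.1 := by
                refine sum_congr rfl fun q hq => ?_
                rw [mem_filter] at hq
                rw [hq.2, mul_comm, T_twist hmul hS]
            _ = ∑ a ∈ (P.filter (fun q => q.2 = b)).image Prod.fst, T S v' a := by
                rw [sum_image]
                intro q hq q' hq' h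
                simp only [coe_filter, Set.mem_ofPred_eq] at hq hq'
                exact Prod.ext h (hq.2.trans hq'.2.symm)
            _ ≤ ∑ a ∈ SF (D / (nm b : ℝ) ^ 2), T S v' a := by
                refine sum_le_sum_of_subset_of_nonneg ?_ (fun _ _ _ => T_nonneg _ _ _)
                intro a ha
                rw [mem_image] at ha
                obtain ⟨q, hq, rfl⟩ := ha
                rw [mem_filter] at hq
                have := (hb q hq.1).2
                rwa [hq.2] at this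
        refine h1.trans ((HB _ hA1 hAH v').trans ?_)
        have h2 : n2 S v' ≤ n2 S v := n2_twist S v (b ^ 2)
        have h3 : (D / (nm b : ℝ) ^ 2 * H) ^ ((2 : ℝ) / 3)
            ≤ (D * H) ^ ((2 : ℝ) / 3) / (nm b : ℝ) := by
          have e1 : D / (nm b : ℝ) ^ 2 * H = (D * H) / (nm b : ℝ) ^ 2 := by ring
          rw [e1, Real.div_rpow (by positivity) (by positivity)]
          apply div_le_div_of_nonneg_left (by positivity) (by positivity)
          rw [← Real.rpow_natCast, ← Real.rpow_mul (by positivity)]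
          calc (nm b : ℝ) = (nm b : ℝ) ^ (1 : ℝ) := (Real.rpow_one _).symm
            _ ≤ (nm b : ℝ) ^ (((2 : ℕ) : ℝ) * (2 / 3)) :=
                Real.rpow_le_rpow_of_exponent_le hb1 (by norm_num)
        have h4 : D / (nm b : ℝ) ^ 2 + H + (D / (nm b : ℝ) ^ 2 * H) ^ ((2 : ℝ) / 3)
            ≤ D / (nm b : ℝ) + H + (D * H) ^ ((2 : ℝ) / 3) / (nm b : ℝ) := by linarith
        have h5 : 0 ≤ D / (nm b : ℝ) ^ 2 + H + (D / (nm b : ℝ) ^ 2 * H) ^ ((2 : ℝ) / 3) := by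
          positivity
        calc E * (D / (nm b : ℝ) ^ 2 + H + (D / (nm b : ℝ) ^ 2 * H) ^ ((2 : ℝ) / 3)) * n2 S v'
            ≤ E * (D / (nm b : ℝ) ^ 2 + H + (D / (nm b : ℝ) ^ 2 * H) ^ ((2 : ℝ) / 3)) * n2 S v :=
              mul_le_mul_of_nonneg_left h2 (mul_nonneg hE h5)
          _ ≤ _ := by
              apply mul_le_mul_of_nonneg_right _ hn2
              exact mul_le_mul_of_nonneg_left h4 hE
    _ ≤ ∑ b ∈ nb R,
          E * (D / (nm b : ℝ) + H + (D * H) ^ ((2 : ℝ) / 3) / (nm b : ℝ)) * n2 S v := by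
        refine sum_le_sum_of_subset_of_nonneg (filter_subset _ _) (fun b _ _ => ?_)
        positivity
    _ = E * n2 S v * ((D + (D * H) ^ ((2 : ℝ) / 3)) * ∑ b ∈ nb R, 1 / (nm b : ℝ)
          + H * ((nb R).card : ℝ)) := by
        rw [mul_sum (a := D + (D * H) ^ ((2 : ℝ) / 3)), card_eq_sum_ones]
        push_cast
        rw [mul_sum (a := H), ← sum_add_distrib, mul_sum]
        refine sum_congr rfl fun b _ => ?_
        ring
    _ ≤ E * n2 S v * ((D + (D * H) ^ ((2 : ℝ) / 3)) * (64 * (1 + Real.log H)) + H * (16 * R)) := by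
        apply mul_le_mul_of_nonneg_left _ (by positivity)
        have h1 : ∑ b ∈ nb R, 1 / (nm b : ℝ) ≤ 64 * (1 + Real.log H) := by
          refine le_trans ?_ (sum_inv_nb H hH)
          refine sum_le_sum_of_subset_of_nonneg ?_ (fun _ _ _ => by positivity)
          intro x hx
          rw [mem_nb] at hx ⊢
          exact ⟨hx.1, hx.2.trans hRH⟩
        have h2 := card_nb R hR0
        have h3 : 0 ≤ D + (D * H) ^ ((2 : ℝ) / 3) := by positivity
        have := mul_le_mul_of_nonneg_left h1 h3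
        have := mul_le_mul_of_nonneg_left h2 hH0.le
        linarith
    _ ≤ 144 * E * (1 + Real.log H) * (D ^ ((1 : ℝ) / 3) * H ^ (1 - d)) * n2 S v := by
        have e1 : H * (16 * R) = 16 * (D ^ ((1 : ℝ) / 3) * H ^ (1 - d)) := by
          rw [hR, show (1 - d) = 1 + (-d) by ring, Real.rpow_add hH0, Real.rpow_one]; ring
        have e2 : D ≤ D ^ ((1 : ℝ) / 3) * H ^ (1 - d) := by
          calc D = D ^ ((1 : ℝ) / 3) * D ^ ((2 : ℝ) / 3) := by
                rw [← Real.rpow_add hD0]; norm_num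
            _ ≤ D ^ ((1 : ℝ) / 3) * H ^ (1 - d) := by
                apply mul_le_mul_of_nonneg_left _ (by positivity)
                calc D ^ ((2 : ℝ) / 3) ≤ (H ^ (1 - 3 * d)) ^ ((2 : ℝ) / 3) :=
                      Real.rpow_le_rpow hD0.le hD (by norm_num)
                  _ = H ^ ((1 - 3 * d) * (2 / 3)) := by rw [← Real.rpow_mul hH0.le]
                  _ ≤ H ^ (1 - d) := Real.rpow_le_rpow_of_exponent_le hH (by linarith)
        have e3 : (D * H) ^ ((2 : ℝ) / 3) ≤ D ^ ((1 : ℝ) / 3) * H ^ (1 - d) := by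
          calc (D * H) ^ ((2 : ℝ) / 3) = D ^ ((1 : ℝ) / 3) * (D ^ ((1 : ℝ) / 3) * H ^ ((2 : ℝ) / 3)) := by
                rw [Real.mul_rpow hD0.le hH0.le, ← mul_assoc, ← Real.rpow_add hD0]; norm_num
            _ ≤ D ^ ((1 : ℝ) / 3) * H ^ (1 - d) := by
                apply mul_le_mul_of_nonneg_left _ (by positivity)
                calc D ^ ((1 : ℝ) / 3) * H ^ ((2 : ℝ) / 3)
                    ≤ (H ^ (1 - 3 * d)) ^ ((1 : ℝ) / 3) * H ^ ((2 : ℝ) / 3) := by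
                      apply mul_le_mul_of_nonneg_right _ (by positivity)
                      exact Real.rpow_le_rpow hD0.le hD (by norm_num)
                  _ = H ^ (1 - d) := by
                      rw [← Real.rpow_mul hH0.le, ← Real.rpow_add hH0]
                      congr 1; ring
        rw [e1]
        set Z := D ^ ((1 : ℝ) / 3) * H ^ (1 - d) with hZ
        have hZ0 : 0 ≤ Z := by positivity
        have h5 : (D + (D * H) ^ ((2 : ℝ) / 3)) * (64 * (1 + Real.log H)) + 16 * Z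
            ≤ 144 * (1 + Real.log H) * Z := by
          have h6 : (D + (D * H) ^ ((2 : ℝ) / 3)) * (64 * (1 + Real.log H))
              ≤ (2 * Z) * (64 * (1 + Real.log H)) := by
            apply mul_le_mul_of_nonneg_right _ (by positivity)
            linarith
          nlinarith [mul_nonneg hlog hZ0]
        calc E * n2 S v * ((D + (D * H) ^ ((2 : ℝ) / 3)) * (64 * (1 + Real.log H)) + 16 * Z)
            ≤ E * n2 S v * (144 * (1 + Real.log H) * Z) :=
              mul_le_mul_of_nonneg_left h5 (by positivity)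
          _ = _ := by ring

/-- All pairs. -/
lemma pairs_bound (hmul : ∀ x y c : Eis, IsPrim c → sy (x * y) c = sy x c * sy y c)
    {S : Finset Eis} (hS : ∀ h ∈ S, IsPrim h) {H E1 E2 d D : ℝ} (hH : 1 ≤ H) (hE1 : 0 ≤ E1)
    (hE2 : 0 ≤ E2) (hd0 : 0 < d) (hd : d ≤ 1 / 3) (hD1 : 1 ≤ D) (hD : D ≤ H ^ (1 - 3 * d))
    (HB : HBin S H E1) (LS : LSin S H E2) (v : Eis → ℂ) :
    ∑ q ∈ PD D, T S v (q.1 * q.2 ^ 2) ≤
      (2 * E2 * H + (144 * E1 + E2) * (1 + Real.log H) * (D ^ ((1 : ℝ) / 3) * H ^ (1 - d)))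
        * n2 S v := by
  classical
  have hH0 : 0 < H := by linarith
  have hD0 : 0 < D := by linarith
  have hlog : 0 ≤ Real.log H := Real.log_nonneg hH
  have hn2 := n2_nonneg S v
  rw [← sum_filter_add_sum_filter_not (PD D)
    (fun q => (nm q.2 : ℝ) * H ^ (3 * d) < nm q.1 ∧ H ^ ((1 : ℝ) / 2) < (nm q.1 : ℝ) * nm q.2)]
  have h1 := part2 hmul hS hH hE1 hd0 hd hD1 hD HB v ((PD D).filter
    (fun q => (nm q.2 : ℝ) * H ^ (3 * d) < nm q.1 ∧ H ^ ((1 : ℝ) / 2) < (nm q.1 : ℝ) * nm q.2))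
    (fun q hq => by
      rw [mem_filter] at hq
      exact ⟨hq.1, hq.2.1⟩)
  set Q : ℝ := max (H ^ ((1 : ℝ) / 2)) (D ^ ((2 : ℝ) / 3) * H ^ d) with hQ
  have hQ1 : 1 ≤ Q := le_max_of_le_left (Real.one_le_rpow hH (by norm_num))
  have h2 := LS Q hQ1 ((PD D).filter (fun q => ¬ ((nm q.2 : ℝ) * H ^ (3 * d) < nm q.1 ∧
    H ^ ((1 : ℝ) / 2) < (nm q.1 : ℝ) * nm q.2))) (fun q hq => by
      rw [mem_filter, mem_PD] at hq
      obtain ⟨⟨hA, hq1⟩, hq2⟩ := hq
      refine ⟨hA, ?_⟩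
      have ha1 := one_le_nm hA.1.ne_zero
      have hb1 := one_le_nm hA.2.1.ne_zero
      rw [not_and_or, not_lt, not_lt] at hq2
      rcases hq2 with h | h
      · apply le_max_of_le_right
        have h3 : ((nm q.1 : ℝ) * nm q.2) ^ 3 ≤ (D ^ ((2 : ℝ) / 3) * H ^ d) ^ 3 := by
          have e1 : (D ^ ((2 : ℝ) / 3) * H ^ d) ^ 3 = D ^ 2 * H ^ (3 * d) := by
            rw [mul_pow]
            congr 1
            · rw [← Real.rpow_natCast, ← Real.rpow_mul hD0.le, ← Real.rpow_natCast]; norm_num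
            · rw [← Real.rpow_natCast, ← Real.rpow_mul hH0.le]; congr 1; push_cast; ring
          rw [e1]
          calc ((nm q.1 : ℝ) * nm q.2) ^ 3
              = ((nm q.1 : ℝ) * (nm q.2 : ℝ) ^ 2) ^ 2 * ((nm q.1 : ℝ) / nm q.2) := by
                field_simp
            _ ≤ D ^ 2 * H ^ (3 * d) := by
                apply mul_le_mul
                · exact pow_le_pow_left₀ (by positivity) hq1 2
                · rw [div_le_iff₀ (by positivity)]; linarith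
                · positivity
                · positivity
        exact le_of_pow_le_pow_left₀ (by norm_num) (by positivity) h3
      · exact le_max_of_le_left h) v
  have h3 : Q ^ 2 ≤ H + (D ^ ((1 : ℝ) / 3) * H ^ (1 - d)) := by
    have e1 : (H ^ ((1 : ℝ) / 2)) ^ 2 = H := by
      rw [← Real.rpow_natCast, ← Real.rpow_mul hH0.le]; norm_num
    have e2 : (D ^ ((2 : ℝ) / 3) * H ^ d) ^ 2 ≤ D ^ ((1 : ℝ) / 3) * H ^ (1 - d) := by
      calc (D ^ ((2 : ℝ) / 3) * H ^ d) ^ 2 = D ^ ((1 : ℝ) / 3) * (D * H ^ (2 * d)) := by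
            rw [mul_pow, ← Real.rpow_natCast (D ^ ((2 : ℝ) / 3)), ← Real.rpow_mul hD0.le,
              ← Real.rpow_natCast (H ^ d), ← Real.rpow_mul hH0.le, ← mul_assoc]
            congr 1
            · nth_rewrite 3 [← Real.rpow_one D]
              rw [← Real.rpow_add hD0]; norm_num
            · congr 1; push_cast; ring
        _ ≤ D ^ ((1 : ℝ) / 3) * (H ^ (1 - 3 * d) * H ^ (2 * d)) := by
            apply mul_le_mul_of_nonneg_left _ (by positivity)
            exact mul_le_mul_of_nonneg_right hD (by positivity)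
        _ = D ^ ((1 : ℝ) / 3) * H ^ (1 - d) := by
            rw [← Real.rpow_add hH0]; congr 2; ring
    rcases max_choice (H ^ ((1 : ℝ) / 2)) (D ^ ((2 : ℝ) / 3) * H ^ d) with h | h
    · rw [hQ, h, e1]
      have : 0 ≤ D ^ ((1 : ℝ) / 3) * H ^ (1 - d) := by positivity
      linarith
    · rw [hQ, h]; linarith
  set Z := D ^ ((1 : ℝ) / 3) * H ^ (1 - d) with hZ
  have hZ0 : 0 ≤ Z := by positivity
  have h4 : E2 * (H + Q ^ 2) * n2 S v ≤ E2 * (2 * H + Z) * n2 S v := by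
    apply mul_le_mul_of_nonneg_right _ hn2
    apply mul_le_mul_of_nonneg_left _ hE2
    linarith
  have h5 : 0 ≤ E2 * Real.log H * Z * n2 S v := by positivity
  calc _ ≤ 144 * E1 * (1 + Real.log H) * Z * n2 S v + E2 * (H + Q ^ 2) * n2 S v :=
        add_le_add h1 h2
    _ ≤ 144 * E1 * (1 + Real.log H) * Z * n2 S v + E2 * (2 * H + Z) * n2 S v := by linarith
    _ ≤ _ := by nlinarith

lemma nm_decomp {u m a b : Eis} {j : ℕ} (hu : IsUnit u) :
    (nm (u * lam ^ j * m ^ 3 * (a * b ^ 2)) : ℝ)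
      = 3 ^ j * (nm m : ℝ) ^ 3 * ((nm a : ℝ) * (nm b : ℝ) ^ 2) := by
  rw [nm_mul, nm_mul, nm_mul, nm_mul, nm_pow, nm_pow, nm_pow, nm_lam, isUnit_iff.mp hu]
  push_cast; ring

lemma log3_le {Y H : ℝ} (hY : 1 ≤ Y) (hYH : Y ≤ H) :
    ((Nat.log 3 ⌊Y⌋₊ : ℕ) : ℝ) + 1 ≤ 1 + Real.log H := by
  have h1 : 1 ≤ ⌊Y⌋₊ := Nat.le_floor (by exact_mod_cast hY)
  have h2 : (3 : ℝ) ^ (Nat.log 3 ⌊Y⌋₊) ≤ Y := by
    have h3 : 3 ^ (Nat.log 3 ⌊Y⌋₊) ≤ ⌊Y⌋₊ := Nat.pow_log_le_self 3 (by omega)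
    have h4 : ((3 ^ (Nat.log 3 ⌊Y⌋₊) : ℕ) : ℝ) ≤ (⌊Y⌋₊ : ℝ) := by exact_mod_cast h3
    push_cast at h4
    exact h4.trans (Nat.floor_le (by linarith))
  have h3 : ((Nat.log 3 ⌊Y⌋₊ : ℕ) : ℝ) * Real.log 3 ≤ Real.log Y := by
    rw [← Real.log_pow]
    exact Real.log_le_log (by positivity) h2
  have h4 : (1 : ℝ) ≤ Real.log 3 := by
    rw [Real.le_log_iff_exp_le (by norm_num)]
    exact Real.exp_one_lt_d9.le.trans (by norm_num)
  have h5 : Real.log Y ≤ Real.log H := Real.log_le_log (by linarith) hYH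
  have h6 : (0 : ℝ) ≤ ((Nat.log 3 ⌊Y⌋₊ : ℕ) : ℝ) := Nat.cast_nonneg _
  nlinarith

lemma sum_third {α β γ : Type*} (A : Finset α) (B : Finset β) (C : Finset γ) (f : γ → ℝ) :
    ∑ s ∈ A ×ˢ B ×ˢ C, f s.2.2 = (A.card : ℝ) * (B.card : ℝ) * ∑ c ∈ C, f c := by
  rw [sum_product]
  simp only [sum_product, sum_const, nsmul_eq_mul]
  ring

/-- **(CF)**: sum over all numerators with large cubefree part. -/
theorem cf_core (hmul : ∀ x y c : Eis, IsPrim c → sy (x * y) c = sy x c * sy y c)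
    {S : Finset Eis} (hS : ∀ h ∈ S, IsPrim h) {H E1 E2 d Y K : ℝ} (hH : 1 ≤ H) (hE1 : 0 ≤ E1)
    (hE2 : 0 ≤ E2) (hd0 : 0 < d) (hd : d ≤ 1 / 3) (hK : 1 ≤ K) (hY1 : 1 ≤ Y)
    (hY : Y ≤ H ^ (1 - 3 * d))
    (HB : HBin S H E1) (LS : LSin S H E2) (v : Eis → ℂ) (F : Finset Eis)
    (hF : ∀ x ∈ F, x ≠ 0 ∧ (nm x : ℝ) ≤ Y ∧ ∀ m n0 : Eis, x = m ^ 3 * n0 → K ≤ nm n0) :
    ∑ x ∈ F, T S v x ≤ 150000 * (1 + Real.log H) ^ 3 * (H * Y ^ ((1 : ℝ) / 3) *
        (E2 * K ^ (-((1 : ℝ) / 3)) + (E1 + E2) * H ^ (-d))) * n2 S v := by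
  classical
  have hH0 : 0 < H := by linarith
  have hY0 : 0 < Y := by linarith
  have hlog : 0 ≤ Real.log H := Real.log_nonneg hH
  have hn2 := n2_nonneg S v
  have hK0 : 0 < K := by linarith
  have hYH : Y ≤ H := hY.trans (by
    calc H ^ (1 - 3 * d) ≤ H ^ (1 : ℝ) := Real.rpow_le_rpow_of_exponent_le hH (by linarith)
      _ = H := Real.rpow_one H)
  set L : ℝ := 1 + Real.log H with hL
  have hL1 : 1 ≤ L := by rw [hL]; linarith
  have hL0 : 0 ≤ L := by linarith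
  have key : ∀ x : Eis, x ≠ 0 → ∃ t : (Eis × ℕ × Eis) × (Eis × Eis), IsUnit t.1.1 ∧
      IsPrim t.1.2.2 ∧ Adm t.2 ∧
      x = t.1.1 * lam ^ t.1.2.1 * t.1.2.2 ^ 3 * (t.2.1 * t.2.2 ^ 2) := by
    intro x hx
    obtain ⟨u, j, m, a, b, hu, hm, ha, hb, hsa, hsb, hab, h⟩ := exists_decomp hx
    exact ⟨((u, j, m), (a, b)), hu, hm, ⟨ha, hb, hsa, hsb, hab⟩, h⟩
  choose! τ hτ using key
  -- bounds on the components
  set Dj : (Eis × ℕ × Eis) → ℝ := fun s => Y / (3 ^ s.2.1 * (nm s.2.2 : ℝ) ^ 3) with hDj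
  have hcomp : ∀ x ∈ F, (τ x).1 ∈ (nb 1) ×ˢ (range (Nat.log 3 ⌊Y⌋₊ + 1)) ×ˢ (nb Y) ∧
      (τ x).2 ∈ PD (Dj (τ x).1) ∧ 1 ≤ Dj (τ x).1 ∧ K ≤ 9 * Dj (τ x).1 := by
    intro x hx
    obtain ⟨hx0, hxY, hxK⟩ := hF x hx
    obtain ⟨hu, hm, hA, hxe⟩ := hτ x hx0
    have hm1 := one_le_nm hm.ne_zero
    have ha1 := one_le_nm hA.1.ne_zero
    have hb1 := one_le_nm hA.2.1.ne_zero
    have h3 : (1 : ℝ) ≤ 3 ^ (τ x).1.2.1 := one_le_pow₀ (by norm_num)
    have hm3 : (1 : ℝ) ≤ (nm (τ x).1.2.2 : ℝ) ^ 3 := one_le_pow₀ hm1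
    have hab1 : (1 : ℝ) ≤ (nm (τ x).2.1 : ℝ) * (nm (τ x).2.2 : ℝ) ^ 2 :=
      one_le_mul_of_one_le_of_one_le ha1 (one_le_pow₀ hb1)
    have hnx : (nm x : ℝ) = 3 ^ (τ x).1.2.1 * (nm (τ x).1.2.2 : ℝ) ^ 3 *
        ((nm (τ x).2.1 : ℝ) * (nm (τ x).2.2 : ℝ) ^ 2) := by
      conv_lhs => rw [hxe]
      exact nm_decomp hu
    have hpos : (0 : ℝ) < 3 ^ (τ x).1.2.1 * (nm (τ x).1.2.2 : ℝ) ^ 3 := by positivity
    have hle : (nm (τ x).2.1 : ℝ) * (nm (τ x).2.2 : ℝ) ^ 2 ≤ Dj (τ x).1 := by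
      simp only [hDj]
      rw [le_div_iff₀ hpos, mul_comm, ← hnx]
      exact hxY
    refine ⟨?_, mem_PD.mpr ⟨hA, hle⟩, hab1.trans hle, ?_⟩
    · rw [mem_product, mem_product]
      refine ⟨mem_nb.mpr ⟨hu.ne_zero, ?_⟩, ?_, mem_nb.mpr ⟨hm.ne_zero, ?_⟩⟩
      · rw [isUnit_iff.mp hu]; simp
      · rw [mem_range, Nat.lt_succ_iff]
        apply Nat.le_log_of_pow_le (by norm_num)
        apply Nat.le_floor
        push_cast
        calc (3 : ℝ) ^ (τ x).1.2.1 ≤ 3 ^ (τ x).1.2.1 * (nm (τ x).1.2.2 : ℝ) ^ 3 *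
              ((nm (τ x).2.1 : ℝ) * (nm (τ x).2.2 : ℝ) ^ 2) := by
              rw [mul_assoc]
              exact le_mul_of_one_le_right (by positivity)
                (one_le_mul_of_one_le_of_one_le hm3 hab1)
          _ ≤ Y := by rw [← hnx]; exact hxY
      · calc (nm (τ x).1.2.2 : ℝ) ≤ (nm (τ x).1.2.2 : ℝ) ^ 3 := le_self_pow₀ hm1 (by norm_num)
          _ ≤ 3 ^ (τ x).1.2.1 * (nm (τ x).1.2.2 : ℝ) ^ 3 := le_mul_of_one_le_left (by positivity) h3
          _ ≤ 3 ^ (τ x).1.2.1 * (nm (τ x).1.2.2 : ℝ) ^ 3 *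
              ((nm (τ x).2.1 : ℝ) * (nm (τ x).2.2 : ℝ) ^ 2) :=
              le_mul_of_one_le_right (by positivity) hab1
          _ ≤ Y := by rw [← hnx]; exact hxY
    · have h9 := hxK (lam ^ ((τ x).1.2.1 / 3) * (τ x).1.2.2)
        ((τ x).1.1 * lam ^ ((τ x).1.2.1 % 3) * 1 ^ 3 * ((τ x).2.1 * (τ x).2.2 ^ 2)) (by
          conv_lhs => rw [hxe]
          conv_lhs => rw [← Nat.div_add_mod (τ x).1.2.1 3]
          rw [pow_add, pow_mul]; ring)
      rw [nm_decomp hu] at h9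
      have h10 : (3 : ℝ) ^ ((τ x).1.2.1 % 3) ≤ 9 := by
        have : (τ x).1.2.1 % 3 ≤ 2 := by omega
        calc (3 : ℝ) ^ ((τ x).1.2.1 % 3) ≤ 3 ^ 2 := pow_le_pow_right₀ (by norm_num) this
          _ = 9 := by norm_num
      calc K ≤ 3 ^ ((τ x).1.2.1 % 3) * ((nm (1 : Eis) : ℕ) : ℝ) ^ 3 *
            ((nm (τ x).2.1 : ℝ) * (nm (τ x).2.2 : ℝ) ^ 2) := h9
        _ = 3 ^ ((τ x).1.2.1 % 3) * ((nm (τ x).2.1 : ℝ) * (nm (τ x).2.2 : ℝ) ^ 2) := by
            simp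
        _ ≤ 9 * ((nm (τ x).2.1 : ℝ) * (nm (τ x).2.2 : ℝ) ^ 2) :=
            mul_le_mul_of_nonneg_right h10 (by positivity)
        _ ≤ 9 * Dj (τ x).1 := by linarith
  set B : ℝ := (144 * E1 + E2) * L with hB
  have hB0 : 0 ≤ B := by positivity
  -- each fibre
  have hfib : ∀ s ∈ (nb 1) ×ˢ (range (Nat.log 3 ⌊Y⌋₊ + 1)) ×ˢ (nb Y),
      ∑ x ∈ F.filter (fun x => (τ x).1 = s), T S v x ≤
        ((if (nm s.2.2 : ℝ) ≤ 3 * (Y / K) ^ ((1 : ℝ) / 3) then 2 * E2 * H else 0)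
          + B * (Y ^ ((1 : ℝ) / 3) * (1 / (nm s.2.2 : ℝ)) * H ^ (1 - d))) * n2 S v := by
    intro s hs
    rw [mem_product, mem_product] at hs
    obtain ⟨hs1, hs2, hs3⟩ := hs
    have hm1 := one_le_nm (mem_nb.mp hs3).1
    rcases (F.filter (fun x => (τ x).1 = s)).eq_empty_or_nonempty with h0 | ⟨x0, hx0⟩
    · rw [h0, sum_empty]
      apply mul_nonneg _ hn2
      apply add_nonneg
      · split_ifs <;> positivity
      · positivity
    · rw [mem_filter] at hx0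
      obtain ⟨_, _, hD1, hDK⟩ := hcomp x0 hx0.1
      rw [hx0.2] at hD1 hDK
      have h3 : (1 : ℝ) ≤ 3 ^ s.2.1 := one_le_pow₀ (by norm_num)
      have hDY : Dj s ≤ Y / (nm s.2.2 : ℝ) ^ 3 := by
        simp only [hDj]
        apply div_le_div_of_nonneg_left hY0.le (by positivity)
        exact le_mul_of_one_le_left (by positivity) h3
      have hDY' : Dj s ≤ Y := hDY.trans (div_le_self hY0.le (one_le_pow₀ hm1))
      set v' : Eis → ℂ := fun h => v h * sy (s.1 * lam ^ s.2.1 * s.2.2 ^ 3) h with hv'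
      have h1 : ∑ x ∈ F.filter (fun x => (τ x).1 = s), T S v x
          ≤ ∑ q ∈ PD (Dj s), T S v' (q.1 * q.2 ^ 2) := by
        calc ∑ x ∈ F.filter (fun x => (τ x).1 = s), T S v x
            = ∑ x ∈ F.filter (fun x => (τ x).1 = s), T S v' ((τ x).2.1 * (τ x).2.2 ^ 2) := by
              refine sum_congr rfl fun x hx => ?_
              rw [mem_filter] at hx
              have hxe := (hτ x (hF x hx.1).1).2.2.2
              rw [hx.2] at hxe
              conv_lhs => rw [hxe]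
              rw [T_twist hmul hS]
          _ = ∑ q ∈ (F.filter (fun x => (τ x).1 = s)).image (fun x => (τ x).2),
                T S v' (q.1 * q.2 ^ 2) := by
              rw [sum_image]
              intro x hx y hy hxy
              simp only [coe_filter, Set.mem_ofPred_eq] at hx hy
              have hxe := (hτ x (hF x hx.1).1).2.2.2
              have hye := (hτ y (hF y hy.1).1).2.2.2
              have hxy' : (τ x).2 = (τ y).2 := hxy
              rw [hxe, hye, hx.2, hy.2, hxy']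
          _ ≤ _ := by
              refine sum_le_sum_of_subset_of_nonneg ?_ (fun _ _ _ => T_nonneg _ _ _)
              intro q hq
              rw [mem_image] at hq
              obtain ⟨x, hx, rfl⟩ := hq
              rw [mem_filter] at hx
              have := (hcomp x hx.1).2.1
              rwa [hx.2] at this
      refine h1.trans ((pairs_bound hmul hS hH hE1 hE2 hd0 hd hD1 (hDY'.trans hY) HB LS v').trans ?_)
      have h2 : n2 S v' ≤ n2 S v := n2_twist S v _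
      have h4 : (nm s.2.2 : ℝ) ≤ 3 * (Y / K) ^ ((1 : ℝ) / 3) := by
        apply le_of_pow_le_pow_left₀ (n := 3) (by norm_num) (by positivity)
        rw [mul_pow, rpow_third_cube (by positivity)]
        have h5 : K ≤ 9 * (Y / (nm s.2.2 : ℝ) ^ 3) := hDK.trans (by linarith)
        have h6 : K * (nm s.2.2 : ℝ) ^ 3 ≤ 9 * Y := by
          have := mul_le_mul_of_nonneg_right h5 (show (0 : ℝ) ≤ (nm s.2.2 : ℝ) ^ 3 by positivity)
          have e : 9 * (Y / (nm s.2.2 : ℝ) ^ 3) * (nm s.2.2 : ℝ) ^ 3 = 9 * Y := by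
            field_simp
          linarith
        rw [show (3 : ℝ) ^ 3 * (Y / K) = (27 * Y) / K by ring, le_div_iff₀ hK0]
        linarith
      rw [if_pos h4]
      have h5 : Dj s ^ ((1 : ℝ) / 3) ≤ Y ^ ((1 : ℝ) / 3) * (1 / (nm s.2.2 : ℝ)) := by
        calc Dj s ^ ((1 : ℝ) / 3) ≤ (Y / (nm s.2.2 : ℝ) ^ 3) ^ ((1 : ℝ) / 3) :=
              Real.rpow_le_rpow (by linarith) hDY (by norm_num)
          _ = Y ^ ((1 : ℝ) / 3) * (1 / (nm s.2.2 : ℝ)) := by
              rw [Real.div_rpow hY0.le (by positivity), ← Real.rpow_natCast,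
                ← Real.rpow_mul (by positivity)]
              norm_num
              ring
      have h6 : 2 * E2 * H + (144 * E1 + E2) * (1 + Real.log H) * (Dj s ^ ((1 : ℝ) / 3) * H ^ (1 - d))
          ≤ 2 * E2 * H + B * (Y ^ ((1 : ℝ) / 3) * (1 / (nm s.2.2 : ℝ)) * H ^ (1 - d)) := by
        have := mul_le_mul_of_nonneg_left (mul_le_mul_of_nonneg_right h5
          (show (0 : ℝ) ≤ H ^ (1 - d) by positivity)) hB0
        linarith
      exact mul_le_mul h6 h2 (n2_nonneg _ _) (by positivity)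
  -- the sum over `m`
  have hsumm : ∑ m ∈ nb Y, ((if (nm m : ℝ) ≤ 3 * (Y / K) ^ ((1 : ℝ) / 3) then 2 * E2 * H else 0)
          + B * (Y ^ ((1 : ℝ) / 3) * (1 / (nm m : ℝ)) * H ^ (1 - d)))
      ≤ 96 * E2 * H * (Y / K) ^ ((1 : ℝ) / 3) + B * (64 * L) * (Y ^ ((1 : ℝ) / 3) * H ^ (1 - d)) := by
    rw [sum_add_distrib]
    apply add_le_add
    · rw [← sum_filter, sum_const, nsmul_eq_mul]
      have h1 : (((nb Y).filter (fun m => (nm m : ℝ) ≤ 3 * (Y / K) ^ ((1 : ℝ) / 3))).card : ℝ)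
          ≤ 16 * (3 * (Y / K) ^ ((1 : ℝ) / 3)) := by
        refine le_trans ?_ (card_nb _ (by positivity))
        have : (nb Y).filter (fun m => (nm m : ℝ) ≤ 3 * (Y / K) ^ ((1 : ℝ) / 3))
            ⊆ nb (3 * (Y / K) ^ ((1 : ℝ) / 3)) := by
          intro x hx
          rw [mem_filter, mem_nb] at hx
          exact mem_nb.mpr ⟨hx.1.1, hx.2⟩
        exact_mod_cast card_le_card this
      calc _ ≤ 16 * (3 * (Y / K) ^ ((1 : ℝ) / 3)) * (2 * E2 * H) :=
            mul_le_mul_of_nonneg_right h1 (by positivity)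
        _ = _ := by ring
    · have h1 : ∑ m ∈ nb Y, B * (Y ^ ((1 : ℝ) / 3) * (1 / (nm m : ℝ)) * H ^ (1 - d))
          = B * (Y ^ ((1 : ℝ) / 3) * H ^ (1 - d)) * ∑ m ∈ nb Y, (1 / (nm m : ℝ)) := by
        rw [mul_sum]
        exact sum_congr rfl fun m _ => by ring
      have h2 : ∑ m ∈ nb Y, (1 / (nm m : ℝ)) ≤ 64 * L := by
        refine (sum_inv_nb Y hY1).trans ?_
        have := Real.log_le_log hY0 hYH
        rw [hL]; linarith
      rw [h1]
      calc _ ≤ B * (Y ^ ((1 : ℝ) / 3) * H ^ (1 - d)) * (64 * L) :=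
            mul_le_mul_of_nonneg_left h2 (by positivity)
        _ = _ := by ring
  set W : ℝ := 96 * E2 * H * (Y / K) ^ ((1 : ℝ) / 3)
    + B * (64 * L) * (Y ^ ((1 : ℝ) / 3) * H ^ (1 - d)) with hW
  have hW0 : 0 ≤ W := by positivity
  calc ∑ x ∈ F, T S v x
      = ∑ s ∈ (nb 1) ×ˢ (range (Nat.log 3 ⌊Y⌋₊ + 1)) ×ˢ (nb Y),
          ∑ x ∈ F.filter (fun x => (τ x).1 = s), T S v x := by
        rw [sum_fiberwise_of_maps_to (fun x hx => (hcomp x hx).1)]
    _ ≤ ∑ s ∈ (nb 1) ×ˢ (range (Nat.log 3 ⌊Y⌋₊ + 1)) ×ˢ (nb Y),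
        ((if (nm s.2.2 : ℝ) ≤ 3 * (Y / K) ^ ((1 : ℝ) / 3) then 2 * E2 * H else 0)
          + B * (Y ^ ((1 : ℝ) / 3) * (1 / (nm s.2.2 : ℝ)) * H ^ (1 - d))) * n2 S v :=
        sum_le_sum hfib
    _ = ((nb 1).card : ℝ) * (((Nat.log 3 ⌊Y⌋₊ : ℕ) : ℝ) + 1) *
        (∑ m ∈ nb Y, ((if (nm m : ℝ) ≤ 3 * (Y / K) ^ ((1 : ℝ) / 3) then 2 * E2 * H else 0)
          + B * (Y ^ ((1 : ℝ) / 3) * (1 / (nm m : ℝ)) * H ^ (1 - d)))) * n2 S v := by
        rw [← sum_mul, sum_third (nb 1) (range (Nat.log 3 ⌊Y⌋₊ + 1)) (nb Y) (fun m : Eis =>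
          ((if (nm m : ℝ) ≤ 3 * (Y / K) ^ ((1 : ℝ) / 3) then 2 * E2 * H else 0)
          + B * (Y ^ ((1 : ℝ) / 3) * (1 / (nm m : ℝ)) * H ^ (1 - d)))), card_range]
        push_cast
        ring
    _ ≤ 16 * L * W * n2 S v := by
        apply mul_le_mul_of_nonneg_right _ hn2
        apply mul_le_mul _ hsumm
        · apply sum_nonneg
          intro m _
          apply add_nonneg
          · split_ifs <;> positivity
          · positivity
        · positivity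
        · have h1 : ((nb 1).card : ℝ) ≤ 16 := by simpa using card_nb 1 (by norm_num)
          have h2 := log3_le hY1 hYH
          exact mul_le_mul h1 h2 (by positivity) (by norm_num)
    _ ≤ _ := by
        have e1 : (Y / K) ^ ((1 : ℝ) / 3) = Y ^ ((1 : ℝ) / 3) * K ^ (-((1 : ℝ) / 3)) := by
          rw [Real.div_rpow hY0.le hK0.le, Real.rpow_neg hK0.le, div_eq_mul_inv]
        have e2 : H ^ (1 - d) = H * H ^ (-d) := by
          rw [show (1 - d) = 1 + (-d) by ring, Real.rpow_add hH0, Real.rpow_one]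
        have hx1 : 0 ≤ Y ^ ((1 : ℝ) / 3) * K ^ (-((1 : ℝ) / 3)) * H := by positivity
        have hx2 : 0 ≤ Y ^ ((1 : ℝ) / 3) * H ^ (-d) * H := by positivity
        set X1 := Y ^ ((1 : ℝ) / 3) * K ^ (-((1 : ℝ) / 3)) * H with hX1
        set X2 := Y ^ ((1 : ℝ) / 3) * H ^ (-d) * H with hX2
        have e3 : W = 96 * E2 * X1 + (144 * E1 + E2) * L * (64 * L) * X2 := by
          rw [hW, e1, e2, hB, hX1, hX2]; ring
        have e4 : H * Y ^ ((1 : ℝ) / 3) * (E2 * K ^ (-((1 : ℝ) / 3)) + (E1 + E2) * H ^ (-d))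
            = E2 * X1 + (E1 + E2) * X2 := by
          rw [hX1, hX2]; ring
        rw [e3, e4]
        apply mul_le_mul_of_nonneg_right _ hn2
        have hL2 : 1 ≤ L ^ 2 := one_le_pow₀ hL1
        have hL3 : L ≤ L ^ 3 := le_self_pow₀ hL1 (by norm_num)
        have p1 : 0 ≤ E2 * X1 := mul_nonneg hE2 hx1
        have p2 : 0 ≤ E2 * X2 := mul_nonneg hE2 hx2
        have p3 : 0 ≤ E1 * X2 := mul_nonneg hE1 hx2
        have q1 : L * (E2 * X1) ≤ L ^ 3 * (E2 * X1) := mul_le_mul_of_nonneg_right hL3 p1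
        have q2 : 0 ≤ L ^ 3 * (E2 * X1) := mul_nonneg (by positivity) p1
        have q3 : 0 ≤ L ^ 3 * (E2 * X2) := mul_nonneg (by positivity) p2
        have q4 : 0 ≤ L ^ 3 * (E1 * X2) := mul_nonneg (by positivity) p3
        calc 16 * L * (96 * E2 * X1 + (144 * E1 + E2) * L * (64 * L) * X2)
            = 1536 * (L * (E2 * X1)) + 147456 * (L ^ 3 * (E1 * X2)) + 1024 * (L ^ 3 * (E2 * X2)) := by
              ring
          _ ≤ 150000 * (L ^ 3 * (E2 * X1)) + 150000 * (L ^ 3 * (E1 * X2))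
              + 150000 * (L ^ 3 * (E2 * X2)) := by linarith
          _ = 150000 * L ^ 3 * (E2 * X1 + (E1 + E2) * X2) := by ring

end Crest.Agent.R012.CF61
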