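import Crest.Agent.R012.CR2Fc_277

/-!
# Row 12 (CR2-F, helper277): the saved moment

`savedMom : LS2.Final → CR2.CoreB → CR290.SavedMom`.
-/

set_option autoImplicit false

noncomputable section

open Finset
open scoped ComplexConjugate

namespace Crest.Agent.R012.CR2F277

open Crest.Agent.R012 Crest.Agent.R012.Eis Crest.Agent.R012.LS2 Crest.Agent.R012.Mob705
  Crest.Agent.R012.GLS106

lemma r1 {H Z : ℝ} (hH : 1 ≤ H) (hZ : H ^ (1.1 : ℝ) ≤ Z) :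
    H ≤ H ^ (-(0.4 : ℝ)) * (H * Z) ^ ((2 : ℝ) / 3) := by
  have hH0 : 0 < H := by linarith
  calc H = H ^ (-(0.4 : ℝ)) * (H * H ^ (1.1 : ℝ)) ^ ((2 : ℝ) / 3) := by
        rw [← Real.rpow_one_add' hH0.le (by norm_num), ← Real.rpow_mul hH0.le,
          ← Real.rpow_add hH0]
        norm_num
    _ ≤ _ := by gcongr

lemma r2 {H Z c : ℝ} (hH : 1 ≤ H) (hZ0 : 0 < Z) (hc : 1 ≤ c) (hZ : Z ≤ c * H ^ (1.8 : ℝ)) :
    Z ≤ c * (H ^ (-(0.06 : ℝ)) * (H * Z) ^ ((2 : ℝ) / 3)) := by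
  have hH0 : 0 < H := by linarith
  have hc0 : 0 < c := by linarith
  have e1 : Z = Z ^ ((1 : ℝ) / 3) * Z ^ ((2 : ℝ) / 3) := by
    rw [← Real.rpow_add hZ0]; norm_num
  have e2 : Z ^ ((1 : ℝ) / 3) ≤ c * H ^ (0.6 : ℝ) := by
    calc Z ^ ((1 : ℝ) / 3) ≤ (c * H ^ (1.8 : ℝ)) ^ ((1 : ℝ) / 3) :=
          Real.rpow_le_rpow hZ0.le hZ (by norm_num)
      _ = c ^ ((1 : ℝ) / 3) * H ^ (0.6 : ℝ) := by
          rw [Real.mul_rpow hc0.le (by positivity), ← Real.rpow_mul hH0.le]; norm_num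
      _ ≤ c * H ^ (0.6 : ℝ) := by
          gcongr
          calc c ^ ((1 : ℝ) / 3) ≤ c ^ (1 : ℝ) :=
                Real.rpow_le_rpow_of_exponent_le hc (by norm_num)
            _ = c := Real.rpow_one c
  calc Z = Z ^ ((1 : ℝ) / 3) * Z ^ ((2 : ℝ) / 3) := e1
    _ ≤ (c * H ^ (0.6 : ℝ)) * Z ^ ((2 : ℝ) / 3) := by gcongr
    _ ≤ (c * (H ^ (-(0.06 : ℝ)) * H ^ ((2 : ℝ) / 3))) * Z ^ ((2 : ℝ) / 3) := by
        rw [← Real.rpow_add hH0]
        have h2 : H ^ (0.6 : ℝ) ≤ H ^ (-(0.06 : ℝ) + (2 : ℝ) / 3) :=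
          Real.rpow_le_rpow_of_exponent_le hH (by norm_num)
        gcongr
    _ = _ := by
        rw [Real.mul_rpow hH0.le hZ0.le]; ring

lemma r3 {H Z M : ℝ} (hH : 1 ≤ H) (hZ0 : 0 < Z) (hM0 : 0 ≤ M) (hM : M ≤ 2 * H ^ (0.99 : ℝ)) :
    (M * Z) ^ ((2 : ℝ) / 3) ≤ 2 * (H ^ (-(0.006 : ℝ)) * (H * Z) ^ ((2 : ℝ) / 3)) := by
  have hH0 : 0 < H := by linarith
  calc (M * Z) ^ ((2 : ℝ) / 3) ≤ (2 * H ^ (0.99 : ℝ) * Z) ^ ((2 : ℝ) / 3) := by gcongr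
    _ = (2 : ℝ) ^ ((2 : ℝ) / 3) * H ^ (0.66 : ℝ) * Z ^ ((2 : ℝ) / 3) := by
        rw [Real.mul_rpow (by positivity) hZ0.le, Real.mul_rpow (by norm_num) (by positivity),
          ← Real.rpow_mul hH0.le]
        norm_num
    _ ≤ 2 * (H ^ (-(0.006 : ℝ)) * H ^ ((2 : ℝ) / 3)) * Z ^ ((2 : ℝ) / 3) := by
        rw [← Real.rpow_add hH0]
        have h1 : (2 : ℝ) ^ ((2 : ℝ) / 3) ≤ 2 := by
          calc (2 : ℝ) ^ ((2 : ℝ) / 3) ≤ (2 : ℝ) ^ (1 : ℝ) :=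
                Real.rpow_le_rpow_of_exponent_le (by norm_num) (by norm_num)
            _ = 2 := Real.rpow_one 2
        have h2 : H ^ (0.66 : ℝ) ≤ H ^ (-(0.006 : ℝ) + (2 : ℝ) / 3) :=
          Real.rpow_le_rpow_of_exponent_le hH (by norm_num)
        gcongr
    _ = _ := by rw [Real.mul_rpow hH0.le hZ0.le]; ring

lemma r4 {H C : ℝ} {j : ℕ} (hj : 2 ≤ j) (hH : 1 ≤ H) (hC : 1 ≤ C)
    (hZ : (2 * C) ^ j ≤ 2 ^ j * H ^ (1.8 : ℝ)) :
    (H * (2 * C)) ^ (1 / (1000 * (j : ℝ))) ≤ 2 * H ^ (2.8 * (1 / (1000 * (j : ℝ)))) := by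
  have hH0 : 0 < H := by linarith
  have hj0 : (0 : ℝ) < j := by positivity
  have h1 : 2 * C ≤ (2 * C) ^ j := by
    calc 2 * C = (2 * C) ^ 1 := (pow_one _).symm
      _ ≤ (2 * C) ^ j := pow_le_pow_right₀ (by linarith) (by omega)
  calc (H * (2 * C)) ^ (1 / (1000 * (j : ℝ)))
      ≤ (H * (2 ^ j * H ^ (1.8 : ℝ))) ^ (1 / (1000 * (j : ℝ))) := by
        have := h1.trans hZ
        gcongr
    _ = (2 ^ j * H ^ (2.8 : ℝ)) ^ (1 / (1000 * (j : ℝ))) := by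
        congr 1
        have : H ^ (2.8 : ℝ) = H * H ^ (1.8 : ℝ) := by
          rw [← Real.rpow_one_add' hH0.le (by norm_num)]; norm_num
        rw [this]; ring
    _ = ((2 : ℝ) ^ j) ^ (1 / (1000 * (j : ℝ))) * H ^ (2.8 * (1 / (1000 * (j : ℝ)))) := by
        rw [Real.mul_rpow (by positivity) (by positivity), ← Real.rpow_mul hH0.le]
    _ ≤ 2 * H ^ (2.8 * (1 / (1000 * (j : ℝ)))) := by
        gcongr
        rw [← Real.rpow_natCast, ← Real.rpow_mul (by norm_num)]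
        have e1 : (j : ℝ) * (1 / (1000 * (j : ℝ))) = 1 / 1000 := by field_simp
        rw [e1]
        calc (2 : ℝ) ^ ((1 : ℝ) / 1000) ≤ (2 : ℝ) ^ (1 : ℝ) :=
              Real.rpow_le_rpow_of_exponent_le (by norm_num) (by norm_num)
          _ = 2 := Real.rpow_one 2

lemma sum3 {a b c W t : ℝ} (ha : a ≤ W) (hb : b ≤ t * W) (hc : c ≤ 2 * W) (ht : 1 ≤ t)
    (hW : 0 ≤ W) : a + b + c ≤ 4 * t * W := by
  nlinarith [mul_nonneg (sub_nonneg.mpr ht) hW]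

/-- the squarefree part (large `H`). -/
lemma sqf_part (HL : LS2.Final) (hB : CR2.CoreB) (j : ℕ) (hj : 2 ≤ j) :
    ∃ δ K : ℝ, 0 < δ ∧ 0 < K ∧ ∀ H C : ℝ, (2 : ℝ) ^ (40 * j) ≤ H → 1 ≤ C →
      H ^ (1.1 : ℝ) ≤ C ^ j → C ^ j ≤ H ^ (1.8 : ℝ) →
      ∀ P : Finset Eis, (∀ p ∈ P, IsPP p) → (∀ p ∈ P, C < (nm p : ℝ) ∧ (nm p : ℝ) ≤ 2 * C) →
      ∀ γ : Eis → ℂ, (∀ p ∈ P, ‖γ p‖ ≤ 1) →
      ∑ h ∈ S H, ‖CR2.Eb (bc P γ j) ((2 * C) ^ j) h‖ ^ 2 ≤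
        K * H ^ (-δ) * ((H * (2 * C) ^ j) ^ ((2 : ℝ) / 3) * (2 * C) ^ j) := by
  classical
  obtain ⟨δ, Kb, hδ, hKb, hblock⟩ := block_bound HL hB j hj
  have hj0 : (0 : ℝ) < j := by positivity
  have hj2 : (2 : ℝ) ≤ j := by exact_mod_cast hj
  set e : ℝ := 1 / (1000 * (j : ℝ)) with he
  have hep : 0 < e := by positivity
  have hee : e ≤ 1 / 2000 := by
    rw [he]; apply one_div_le_one_div_of_le (by norm_num); linarith
  obtain ⟨K1, hK1, htup⟩ := tuples HL j e hep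
  refine ⟨min (δ / 2) e, 8 * 2 ^ j * K1 + Kb / δ, by positivity, by positivity, ?_⟩
  intro H C hH0' hC hz1 hz2 P hP hPC γ hγ
  set Z : ℝ := (2 * C) ^ j with hZ
  have h240 : (1 : ℝ) ≤ 2 ^ (40 * j) := one_le_pow₀ (by norm_num)
  have hH : 1 ≤ H := h240.trans hH0'
  have hH0 : 0 < H := by linarith
  have hC0 : 0 < C := by linarith
  have hZ1 : 1 ≤ Z := one_le_pow₀ (by linarith)
  have hZ0 : 0 < Z := by linarith
  have hZeq : Z = 2 ^ j * C ^ j := by rw [hZ, mul_pow]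
  have hCZ : C ^ j ≤ Z := by
    rw [hZeq]
    exact le_mul_of_one_le_left (by positivity) (one_le_pow₀ (by norm_num))
  have hZlow : H ^ (1.1 : ℝ) ≤ Z := hz1.trans hCZ
  have hZup : Z ≤ 2 ^ j * H ^ (1.8 : ℝ) := by rw [hZeq]; gcongr
  set U : ℝ := (H * Z) ^ ((2 : ℝ) / 3) * Z with hU
  have hU0 : 0 < U := by positivity
  -- number of blocks
  set i : ℕ := ⌊Real.logb 2 (H ^ (0.01 : ℝ))⌋₊ with hi
  have hlog0 : 0 ≤ Real.logb 2 (H ^ (0.01 : ℝ)) :=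
    Real.logb_nonneg (by norm_num) (Real.one_le_rpow hH (by norm_num))
  have hi1 : (2 : ℝ) ^ i ≤ H ^ (0.01 : ℝ) := by
    rw [← Real.rpow_natCast]
    calc (2 : ℝ) ^ (i : ℝ) ≤ (2 : ℝ) ^ (Real.logb 2 (H ^ (0.01 : ℝ))) :=
          Real.rpow_le_rpow_of_exponent_le (by norm_num) (Nat.floor_le hlog0)
      _ = H ^ (0.01 : ℝ) := Real.rpow_logb (by norm_num) (by norm_num) (by positivity)
  have hi2 : H ^ (0.01 : ℝ) ≤ 2 * (2 : ℝ) ^ i := by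
    have h1 : Real.logb 2 (H ^ (0.01 : ℝ)) < (i : ℝ) + 1 := Nat.lt_floor_add_one _
    calc H ^ (0.01 : ℝ) = (2 : ℝ) ^ (Real.logb 2 (H ^ (0.01 : ℝ))) :=
          (Real.rpow_logb (by norm_num) (by norm_num) (by positivity)).symm
      _ ≤ (2 : ℝ) ^ ((i : ℝ) + 1) := Real.rpow_le_rpow_of_exponent_le (by norm_num) h1.le
      _ = 2 * (2 : ℝ) ^ i := by
          rw [Real.rpow_add_one (by norm_num), Real.rpow_natCast]; ring
  have hi3 : (i : ℝ) ≤ (1 / δ) * H ^ (δ / 4) := by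
    have h1 : (i : ℝ) ≤ Real.logb 2 (H ^ (0.01 : ℝ)) := Nat.floor_le hlog0
    have h2 : Real.logb 2 (H ^ (0.01 : ℝ)) = 0.01 * Real.log H / Real.log 2 := by
      rw [Real.logb, Real.log_rpow hH0]
    have h3 : Real.log H ≤ H ^ (δ / 4) / (δ / 4) := Real.log_le_rpow_div hH0.le (by positivity)
    have h4 : (0.6931471803 : ℝ) < Real.log 2 := Real.log_two_gt_d9
    rw [h2] at h1
    refine h1.trans ?_
    rw [div_le_iff₀ (by linarith)]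
    have h5 : H ^ (δ / 4) / (δ / 4) = 4 * (1 / δ * H ^ (δ / 4)) := by field_simp
    rw [h5] at h3
    have h6 : 0 < 1 / δ * H ^ (δ / 4) := by positivity
    nlinarith
  have hHi : H ^ (0.99 : ℝ) ≤ H / 2 ^ i := by
    rw [le_div_iff₀ (by positivity)]
    calc H ^ (0.99 : ℝ) * 2 ^ i ≤ H ^ (0.99 : ℝ) * H ^ (0.01 : ℝ) := by gcongr
      _ = H := by rw [← Real.rpow_add hH0]; norm_num
  have hHi2 : H / 2 ^ i ≤ 2 * H ^ (0.99 : ℝ) := by
    rw [div_le_iff₀ (by positivity)]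
    calc H = H ^ (0.99 : ℝ) * H ^ (0.01 : ℝ) := by rw [← Real.rpow_add hH0]; norm_num
      _ ≤ H ^ (0.99 : ℝ) * (2 * 2 ^ i) := by gcongr
      _ = _ := by ring
  -- the blocks
  set B : ℝ := Kb * H ^ (-(0.99 * δ)) * U with hBdef
  have hblk : ∀ m : ℕ, m < i → ∑ h ∈ (S (2 * (H / 2 ^ (m + 1)))).filter
      (fun h => H / 2 ^ (m + 1) < (nm h : ℝ)), ‖CR2.Eb (bc P γ j) Z h‖ ^ 2 ≤ B := by
    intro m hm
    set H' : ℝ := H / 2 ^ (m + 1) with hH'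
    have a1 : H ^ (0.99 : ℝ) ≤ H' := by
      refine hHi.trans ?_
      rw [hH']
      apply div_le_div_of_nonneg_left hH0.le (by positivity)
      exact pow_le_pow_right₀ (by norm_num) (by omega)
    have a2 : H' ≤ H := div_le_self hH0.le (one_le_pow₀ (by norm_num))
    have a3 : 1 ≤ H' := (Real.one_le_rpow hH (by norm_num)).trans a1
    have a4 : 0 < H' := by linarith
    have b1 : H' ^ (1.05 : ℝ) ≤ Z := by
      calc H' ^ (1.05 : ℝ) ≤ H ^ (1.05 : ℝ) := Real.rpow_le_rpow a4.le a2 (by norm_num)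
        _ ≤ H ^ (1.1 : ℝ) := Real.rpow_le_rpow_of_exponent_le hH (by norm_num)
        _ ≤ Z := hZlow
    have b2 : Z ≤ H' ^ (1.85 : ℝ) := by
      have c1 : (2 : ℝ) ^ j ≤ H ^ ((1 : ℝ) / 40) := by
        calc (2 : ℝ) ^ j = ((2 : ℝ) ^ (40 * j)) ^ ((1 : ℝ) / 40) := by
              rw [← Real.rpow_natCast, ← Real.rpow_natCast, ← Real.rpow_mul (by norm_num)]
              congr 1
              push_cast
              ring
          _ ≤ H ^ ((1 : ℝ) / 40) := Real.rpow_le_rpow (by positivity) hH0' (by norm_num)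
      calc Z ≤ 2 ^ j * H ^ (1.8 : ℝ) := hZup
        _ ≤ H ^ ((1 : ℝ) / 40) * H ^ (1.8 : ℝ) := by gcongr
        _ = H ^ (1.825 : ℝ) := by rw [← Real.rpow_add hH0]; norm_num
        _ ≤ H ^ (0.99 * 1.85 : ℝ) := Real.rpow_le_rpow_of_exponent_le hH (by norm_num)
        _ = (H ^ (0.99 : ℝ)) ^ (1.85 : ℝ) := Real.rpow_mul hH0.le _ _
        _ ≤ H' ^ (1.85 : ℝ) := Real.rpow_le_rpow (by positivity) a1 (by norm_num)
    have b3 : H' ^ (1 / (j : ℝ)) ≤ C := by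
      calc H' ^ (1 / (j : ℝ)) ≤ H ^ (1 / (j : ℝ)) := Real.rpow_le_rpow a4.le a2 (by positivity)
        _ = (H ^ (1 : ℝ)) ^ (1 / (j : ℝ)) := by rw [Real.rpow_one]
        _ ≤ (C ^ j) ^ (1 / (j : ℝ)) := by
            refine Real.rpow_le_rpow (by positivity) ?_ (by positivity)
            exact (Real.rpow_le_rpow_of_exponent_le hH (by norm_num)).trans hz1
        _ = C := by
            rw [one_div, Real.pow_rpow_inv_natCast hC0.le (by omega)]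
    refine (hblock H' C a3 hC b1 b2 b3 P hP hPC γ hγ).trans ?_
    have c2 : H' ^ (-δ) ≤ H ^ (-(0.99 * δ)) := by
      calc H' ^ (-δ) ≤ (H ^ (0.99 : ℝ)) ^ (-δ) :=
            Real.rpow_le_rpow_of_nonpos (by positivity) a1 (by linarith)
        _ = H ^ (-(0.99 * δ)) := by rw [← Real.rpow_mul hH0.le]; congr 1; ring
    calc Kb * H' ^ (-δ) * (H' * Z) ^ ((2 : ℝ) / 3) * Z
        ≤ Kb * H ^ (-(0.99 * δ)) * (H * Z) ^ ((2 : ℝ) / 3) * Z := by gcongr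
      _ = B := by rw [hBdef, hU]; ring
  have hdy := dyadic (f := fun h => ‖CR2.Eb (bc P γ j) Z h‖ ^ 2) (B := B) hH0.le i hblk
  -- the rest
  set M : ℝ := H / 2 ^ i with hM
  have hM1 : 1 ≤ M := (Real.one_le_rpow hH (by norm_num)).trans hHi
  have hMH : M ≤ H := div_le_self hH0.le (one_le_pow₀ (by norm_num))
  have hrest := htup M (2 * C) hM1 (by linarith) P
    (fun c hc => ⟨(hP c hc).isPrim, (hPC c hc).2⟩) γ hγ (Tsq P j) (Tsq_sub P j)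
  have hrest2 : ∑ h ∈ S M, ‖CR2.Eb (bc P γ j) Z h‖ ^ 2 ≤
      8 * 2 ^ j * K1 * H ^ (-min (δ / 2) e) * U := by
    calc ∑ h ∈ S M, ‖CR2.Eb (bc P γ j) Z h‖ ^ 2
        = ∑ h ∈ S M, ‖∑ x ∈ Tsq P j, (∏ i, γ (x i)) * sy (∏ i, x i) h‖ ^ 2 :=
          sum_congr rfl fun h _ => by
            rw [hZ, Eb_eq hP (by positivity) (fun p hp => (hPC p hp).2)]
      _ ≤ K1 * (M * (2 * C)) ^ e * (M + Z + (M * Z) ^ ((2 : ℝ) / 3)) * Z := hrest
      _ ≤ K1 * (2 * H ^ (2.8 * e)) * (4 * 2 ^ j * (H ^ (-(0.006 : ℝ)) *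
          (H * Z) ^ ((2 : ℝ) / 3))) * Z := by
          have d1 : (M * (2 * C)) ^ e ≤ 2 * H ^ (2.8 * e) :=
            (Real.rpow_le_rpow (by positivity) (by gcongr) hep.le).trans (r4 hj hH hC hZup)
          have d2 : M + Z + (M * Z) ^ ((2 : ℝ) / 3) ≤ 4 * 2 ^ j * (H ^ (-(0.006 : ℝ)) *
              (H * Z) ^ ((2 : ℝ) / 3)) := by
            have f1 := hMH.trans (r1 hH hZlow)
            have f2 := r2 hH hZ0 (one_le_pow₀ (by norm_num)) hZup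
            have f3 := r3 hH hZ0 (by linarith) hHi2
            have g1 : H ^ (-(0.4 : ℝ)) ≤ H ^ (-(0.006 : ℝ)) :=
              Real.rpow_le_rpow_of_exponent_le hH (by norm_num)
            have g2 : H ^ (-(0.06 : ℝ)) ≤ H ^ (-(0.006 : ℝ)) :=
              Real.rpow_le_rpow_of_exponent_le hH (by norm_num)
            refine sum3 (f1.trans (by gcongr)) (f2.trans (by gcongr)) f3
              (one_le_pow₀ (by norm_num)) (by positivity)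
          gcongr
      _ = 8 * 2 ^ j * K1 * (H ^ (2.8 * e) * H ^ (-(0.006 : ℝ))) * U := by rw [hU]; ring
      _ ≤ 8 * 2 ^ j * K1 * H ^ (-min (δ / 2) e) * U := by
          rw [← Real.rpow_add hH0]
          have hx : 2.8 * e + -(0.006 : ℝ) ≤ -min (δ / 2) e := by
            have := min_le_right (δ / 2) e
            linarith
          have := Real.rpow_le_rpow_of_exponent_le hH hx
          gcongr
  have hiB : (i : ℝ) * B ≤ Kb / δ * H ^ (-min (δ / 2) e) * U := by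
    calc (i : ℝ) * B ≤ ((1 / δ) * H ^ (δ / 4)) * B := by
          have : 0 < B := by positivity
          gcongr
      _ = Kb / δ * (H ^ (δ / 4) * H ^ (-(0.99 * δ))) * U := by rw [hBdef]; ring
      _ ≤ Kb / δ * H ^ (-min (δ / 2) e) * U := by
          rw [← Real.rpow_add hH0]
          have hx : δ / 4 + -(0.99 * δ) ≤ -min (δ / 2) e := by
            have := min_le_left (δ / 2) e
            linarith
          have := Real.rpow_le_rpow_of_exponent_le hH hx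
          gcongr
  calc ∑ h ∈ S H, ‖CR2.Eb (bc P γ j) Z h‖ ^ 2
      ≤ ∑ h ∈ S M, ‖CR2.Eb (bc P γ j) Z h‖ ^ 2 + i * B := hdy
    _ ≤ 8 * 2 ^ j * K1 * H ^ (-min (δ / 2) e) * U + Kb / δ * H ^ (-min (δ / 2) e) * U :=
        add_le_add hrest2 hiB
    _ = _ := by ring

/-- the non-squarefree part. -/
lemma nsq_part (HL : LS2.Final) (j : ℕ) (hj : 2 ≤ j) :
    ∃ K : ℝ, 0 < K ∧ ∀ H C : ℝ, 1 ≤ H → 1 ≤ C →
      H ^ (1.1 : ℝ) ≤ C ^ j → C ^ j ≤ H ^ (1.8 : ℝ) →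
      ∀ P : Finset Eis, (∀ p ∈ P, IsPP p) → (∀ p ∈ P, C < (nm p : ℝ) ∧ (nm p : ℝ) ≤ 2 * C) →
      ∀ γ : Eis → ℂ, (∀ p ∈ P, ‖γ p‖ ≤ 1) →
      ∑ h ∈ S H, ‖∑ x ∈ Tns P j, (∏ i, γ (x i)) * sy (∏ i, x i) h‖ ^ 2 ≤
        K * H ^ (-(1 / (1000 * (j : ℝ)))) *
          ((H * (2 * C) ^ j) ^ ((2 : ℝ) / 3) * (2 * C) ^ j) := by
  classical
  have hj0 : (0 : ℝ) < j := by positivity
  have hj2 : (2 : ℝ) ≤ j := by exact_mod_cast hj
  set e : ℝ := 1 / (1000 * (j : ℝ)) with he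
  have hep : 0 < e := by positivity
  have hee : e ≤ 1 / 2000 := by
    rw [he]; apply one_div_le_one_div_of_le (by norm_num); linarith
  obtain ⟨K2, hK2, htup⟩ := tuples_sq HL j e hep
  refine ⟨6 * 2 ^ j * K2, by positivity, ?_⟩
  intro H C hH hC hz1 hz2 P hP hPC γ hγ
  set Z : ℝ := (2 * C) ^ j with hZ
  have hH0 : 0 < H := by linarith
  have hC0 : 0 < C := by linarith
  have hZ1 : 1 ≤ Z := one_le_pow₀ (by linarith)
  have hZ0 : 0 < Z := by linarith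
  have hZeq : Z = 2 ^ j * C ^ j := by rw [hZ, mul_pow]
  have hCZ : C ^ j ≤ Z := by
    rw [hZeq]
    exact le_mul_of_one_le_left (by positivity) (one_le_pow₀ (by norm_num))
  have hZlow : H ^ (1.1 : ℝ) ≤ Z := hz1.trans hCZ
  have hZup : Z ≤ 2 ^ j * H ^ (1.8 : ℝ) := by rw [hZeq]; gcongr
  have h1 := htup H (2 * C) C hH (by linarith) hC P
    (fun c hc => ⟨(hP c hc).isPrim, (hPC c hc).2⟩) γ hγ (Tns P j) (Tns_sub P j)
    (fun x hx => Tns_sq hP (fun p hp => (hPC p hp).1) hx)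
  refine h1.trans ?_
  set V : ℝ := (H * Z) ^ ((2 : ℝ) / 3) with hV
  have hV0 : 0 < V := by positivity
  have d1 : (H * (2 * C)) ^ e ≤ 2 * H ^ (2.8 * e) := r4 hj hH hC hZup
  have hCinv : C⁻¹ ≤ H ^ (-(1100 * e)) := by
    have c1 : H ^ (1100 * e) ≤ C := by
      calc H ^ (1100 * e) = (H ^ (1.1 : ℝ)) ^ (1 / (j : ℝ)) := by
            rw [← Real.rpow_mul hH0.le]; congr 1; rw [he]; field_simp; norm_num
        _ ≤ (C ^ j) ^ (1 / (j : ℝ)) := Real.rpow_le_rpow (by positivity) hz1 (by positivity)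
        _ = C := by rw [one_div, Real.pow_rpow_inv_natCast hC0.le (by omega)]
    rw [Real.rpow_neg hH0.le]
    exact inv_anti₀ (by positivity) c1
  have h2j : (1 : ℝ) ≤ 2 ^ j := one_le_pow₀ (by norm_num)
  have d2 : H + C⁻¹ * (Z + V) ≤ 3 * 2 ^ j * (H ^ (-(3.8 * e)) * V) := by
    have f1 : H ≤ H ^ (-(3.8 * e)) * V := (r1 hH hZlow).trans (by
      have : H ^ (-(0.4 : ℝ)) ≤ H ^ (-(3.8 * e)) :=
        Real.rpow_le_rpow_of_exponent_le hH (by linarith)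
      gcongr)
    have f2 : Z ≤ 2 ^ j * V := (r2 hH hZ0 h2j hZup).trans (by
      have : H ^ (-(0.06 : ℝ)) ≤ 1 := Real.rpow_le_one_of_one_le_of_nonpos hH (by norm_num)
      calc 2 ^ j * (H ^ (-(0.06 : ℝ)) * V) ≤ 2 ^ j * (1 * V) := by gcongr
        _ = _ := by ring)
    have f3 : C⁻¹ ≤ H ^ (-(3.8 * e)) :=
      hCinv.trans (Real.rpow_le_rpow_of_exponent_le hH (by linarith))
    calc H + C⁻¹ * (Z + V) ≤ H ^ (-(3.8 * e)) * V + H ^ (-(3.8 * e)) * (2 ^ j * V + V) := by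
          gcongr
      _ = (2 + 2 ^ j) * (H ^ (-(3.8 * e)) * V) := by ring
      _ ≤ 3 * 2 ^ j * (H ^ (-(3.8 * e)) * V) := by
          have : (2 : ℝ) + 2 ^ j ≤ 3 * 2 ^ j := by linarith
          gcongr
  calc K2 * (H * (2 * C)) ^ e * Z * (H + C⁻¹ * (Z + V))
      ≤ K2 * (2 * H ^ (2.8 * e)) * Z * (3 * 2 ^ j * (H ^ (-(3.8 * e)) * V)) := by gcongr
    _ = 6 * 2 ^ j * K2 * (H ^ (2.8 * e) * H ^ (-(3.8 * e))) * (V * Z) := by ring
    _ = 6 * 2 ^ j * K2 * H ^ (-e) * (V * Z) := by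
        rw [← Real.rpow_add hH0]; congr 3; ring

/-- the trivial bound (small `H`). -/
lemma small_part (j : ℕ) {H₀ : ℝ} (hH₀ : 1 ≤ H₀) : ∀ δ : ℝ, 0 ≤ δ → δ ≤ 1 →
    ∀ H C : ℝ, 1 ≤ H → H ≤ H₀ → 1 ≤ C → C ^ j ≤ H ^ (1.8 : ℝ) →
      ∀ S' P : Finset Eis, CR290.IsSF S' H → (∀ p ∈ P, IsPP p) →
      (∀ p ∈ P, C < (nm p : ℝ) ∧ (nm p : ℝ) ≤ 2 * C) →
      ∀ γ : Eis → ℂ, (∀ p ∈ P, ‖γ p‖ ≤ 1) →
      ∑ h ∈ S', ‖CR290.F P γ h‖ ^ (2 * j) ≤
        (16 * 32 ^ (2 * j) * H₀ ^ 4) * H ^ (-δ) * (H * C ^ j) ^ ((2 : ℝ) / 3) * C ^ j := by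
  classical
  intro δ hδ0 hδ1 H C hH hHH hC hz2 S' P hS' hP hPC γ hγ
  have hH0 : 0 < H := by linarith
  have hC0 : 0 < C := by linarith
  have hcP : (#P : ℝ) ≤ 32 * C := by
    have : P ⊆ S (2 * C) := fun p hp => (mem_S (by linarith)).mpr
      ⟨(hPC p hp).2, (hP p hp).isPrim, (hP p hp).prime.squarefree⟩
    calc (#P : ℝ) ≤ #(S (2 * C)) := by exact_mod_cast card_le_card this
      _ ≤ 16 * (2 * C) := card_S_le (by linarith)
      _ = 32 * C := by ring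
  have hcS : (#S' : ℝ) ≤ 16 * H :=
    (by exact_mod_cast card_le_card (isSF_subset hH0.le hS') : (#S' : ℝ) ≤ #(S H)).trans
      (card_S_le hH)
  have hF : ∀ h ∈ S', ‖CR290.F P γ h‖ ≤ 32 * C := by
    intro h hh
    unfold CR290.F
    refine (norm_sum_le_of_le _ (n := fun _ => (1 : ℝ)) ?_).trans ?_
    · intro c hc
      rw [norm_mul]
      exact mul_le_one₀ (hγ c hc) (norm_nonneg _) (syF.norm_le h c (hP c hc).isPrim)
    · simpa using hcP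
  have hCj : 1 ≤ C ^ j := one_le_pow₀ hC
  have e1 : C ^ j ≤ H ^ 2 * (C ^ j) ^ ((2 : ℝ) / 3) := by
    have a1 : C ^ j = (C ^ j) ^ ((1 : ℝ) / 3) * (C ^ j) ^ ((2 : ℝ) / 3) := by
      rw [← Real.rpow_add (by positivity)]; norm_num
    have a2 : (C ^ j) ^ ((1 : ℝ) / 3) ≤ H ^ 2 := by
      calc (C ^ j) ^ ((1 : ℝ) / 3) ≤ (C ^ j) ^ (1 : ℝ) :=
            Real.rpow_le_rpow_of_exponent_le hCj (by norm_num)
        _ = C ^ j := Real.rpow_one _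
        _ ≤ H ^ (1.8 : ℝ) := hz2
        _ ≤ H ^ (2 : ℝ) := Real.rpow_le_rpow_of_exponent_le hH (by norm_num)
        _ = H ^ 2 := by norm_cast
    calc C ^ j = (C ^ j) ^ ((1 : ℝ) / 3) * (C ^ j) ^ ((2 : ℝ) / 3) := a1
      _ ≤ _ := by gcongr
  calc ∑ h ∈ S', ‖CR290.F P γ h‖ ^ (2 * j) ≤ ∑ _h ∈ S', (32 * C) ^ (2 * j) :=
        sum_le_sum fun h hh => pow_le_pow_left₀ (norm_nonneg _) (hF h hh) _
    _ = #S' * (32 * C) ^ (2 * j) := by rw [sum_const, nsmul_eq_mul]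
    _ ≤ 16 * H * (32 * C) ^ (2 * j) := by gcongr
    _ = 16 * 32 ^ (2 * j) * H * C ^ j * C ^ j := by ring
    _ ≤ 16 * 32 ^ (2 * j) * H * (H ^ 2 * (C ^ j) ^ ((2 : ℝ) / 3)) * C ^ j := by gcongr
    _ = 16 * 32 ^ (2 * j) * H ^ 3 * (C ^ j) ^ ((2 : ℝ) / 3) * C ^ j := by ring
    _ ≤ 16 * 32 ^ (2 * j) * (H₀ ^ 4 * H ^ (-δ)) * (H * C ^ j) ^ ((2 : ℝ) / 3) * C ^ j := by
        have b1 : H ^ 3 ≤ H₀ ^ 4 * H ^ (-δ) := by
          have c1 : H ^ (-(1 : ℝ)) ≤ H ^ (-δ) :=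
            Real.rpow_le_rpow_of_exponent_le hH (by linarith)
          rw [Real.rpow_neg_one] at c1
          calc H ^ 3 = H ^ 4 * H⁻¹ := by field_simp
            _ ≤ H₀ ^ 4 * H ^ (-δ) := by gcongr
        have b2 : (C ^ j) ^ ((2 : ℝ) / 3) ≤ (H * C ^ j) ^ ((2 : ℝ) / 3) := by
          refine Real.rpow_le_rpow (by positivity) ?_ (by norm_num)
          exact le_mul_of_one_le_left (by positivity) hH
        gcongr
    _ = _ := by ring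

/-- **the saved moment** from `LS2.Final` and `CoreB`. -/
theorem savedMom (HL : LS2.Final) (hB : CR2.CoreB) : CR290.SavedMom := by
  classical
  intro j hj
  obtain ⟨δ, K1, hδ, hK1, h1⟩ := sqf_part HL hB j hj
  obtain ⟨K2, hK2, h2⟩ := nsq_part HL j hj
  have hj0 : (0 : ℝ) < j := by positivity
  have hj2 : (2 : ℝ) ≤ j := by exact_mod_cast hj
  set e : ℝ := 1 / (1000 * (j : ℝ)) with he
  have hep : 0 < e := by positivity
  have hee : e ≤ 1 / 2000 := by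
    rw [he]; apply one_div_le_one_div_of_le (by norm_num); linarith
  have h240 : (1 : ℝ) ≤ 2 ^ (40 * j) := one_le_pow₀ (by norm_num)
  set K3 : ℝ := 16 * 32 ^ (2 * j) * ((2 : ℝ) ^ (40 * j)) ^ 4 with hK3
  have hK3p : 0 < K3 := by positivity
  refine ⟨min δ e, (2 * K1 + 2 * K2) * (2 ^ j * 2 ^ j) + K3, by positivity, by positivity, ?_⟩
  intro H C hH hC hz1 hz2 S' P hS' hPP γ hγ
  have hH0 : 0 < H := by linarith
  have hC0 : 0 < C := by linarith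
  have hP : ∀ p ∈ P, IsPP p := fun p hp => ⟨(hPP p hp).1, (hPP p hp).2.1⟩
  have hPC : ∀ p ∈ P, C < (nm p : ℝ) ∧ (nm p : ℝ) ≤ 2 * C := fun p hp =>
    ⟨(hPP p hp).2.2.1, (hPP p hp).2.2.2⟩
  have hmin0 : 0 < min δ e := lt_min hδ hep
  have hmin1 : min δ e ≤ 1 := (min_le_right _ _).trans (by linarith)
  by_cases hbig : (2 : ℝ) ^ (40 * j) ≤ H
  · have g1 := h1 H C hbig hC hz1 hz2 P hP hPC γ hγ
    have g2 := h2 H C hH hC hz1 hz2 P hP hPC γ hγ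
    set Z : ℝ := (2 * C) ^ j with hZ
    set U : ℝ := (H * Z) ^ ((2 : ℝ) / 3) * Z with hU
    have hZ0 : 0 < Z := by positivity
    have hU0 : 0 < U := by positivity
    have hsub := isSF_subset hH0.le hS'
    have hx1 : H ^ (-δ) ≤ H ^ (-min δ e) :=
      Real.rpow_le_rpow_of_exponent_le hH (by linarith [min_le_left δ e])
    have hx2 : H ^ (-e) ≤ H ^ (-min δ e) :=
      Real.rpow_le_rpow_of_exponent_le hH (by linarith [min_le_right δ e])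
    have hUle : U ≤ (2 ^ j * 2 ^ j) * ((H * C ^ j) ^ ((2 : ℝ) / 3) * C ^ j) := by
      have h2j : (1 : ℝ) ≤ 2 ^ j := one_le_pow₀ (by norm_num)
      have a1 : H * Z = 2 ^ j * (H * C ^ j) := by rw [hZ, mul_pow]; ring
      have a2 : Z = 2 ^ j * C ^ j := by rw [hZ, mul_pow]
      rw [hU, a1, a2, Real.mul_rpow (by positivity) (by positivity)]
      have a3 : ((2 : ℝ) ^ j) ^ ((2 : ℝ) / 3) ≤ 2 ^ j := by
        calc ((2 : ℝ) ^ j) ^ ((2 : ℝ) / 3) ≤ ((2 : ℝ) ^ j) ^ (1 : ℝ) :=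
              Real.rpow_le_rpow_of_exponent_le h2j (by norm_num)
          _ = _ := Real.rpow_one _
      calc ((2 : ℝ) ^ j) ^ ((2 : ℝ) / 3) * (H * C ^ j) ^ ((2 : ℝ) / 3) * (2 ^ j * C ^ j)
          ≤ 2 ^ j * (H * C ^ j) ^ ((2 : ℝ) / 3) * (2 ^ j * C ^ j) := by gcongr
        _ = _ := by ring
    calc ∑ h ∈ S', ‖CR290.F P γ h‖ ^ (2 * j)
        ≤ ∑ h ∈ S', (2 * ‖CR2.Eb (bc P γ j) Z h‖ ^ 2 +
            2 * ‖∑ x ∈ Tns P j, (∏ i, γ (x i)) * sy (∏ i, x i) h‖ ^ 2) := by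
          refine sum_le_sum fun h hh => ?_
          have a1 := pow_split (γ := γ) hP (y := 2 * C) (by linarith) (fun p hp => (hPC p hp).2) j
            (hS' h hh).1
          rw [mul_comm 2 j, pow_mul, ← norm_pow, a1]
          set a := CR2.Eb (bc P γ j) ((2 * C) ^ j) h
          set b := ∑ x ∈ Tns P j, (∏ i, γ (x i)) * sy (∏ i, x i) h
          have a2 : ‖a + b‖ ≤ ‖a‖ + ‖b‖ := norm_add_le _ _
          have a3 : ‖a + b‖ ^ 2 ≤ (‖a‖ + ‖b‖) ^ 2 := pow_le_pow_left₀ (norm_nonneg _) a2 2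
          nlinarith [sq_nonneg (‖a‖ - ‖b‖)]
      _ ≤ ∑ h ∈ S H, (2 * ‖CR2.Eb (bc P γ j) Z h‖ ^ 2 +
            2 * ‖∑ x ∈ Tns P j, (∏ i, γ (x i)) * sy (∏ i, x i) h‖ ^ 2) :=
          sum_le_sum_of_subset_of_nonneg hsub fun _ _ _ => by positivity
      _ = 2 * ∑ h ∈ S H, ‖CR2.Eb (bc P γ j) Z h‖ ^ 2 +
            2 * ∑ h ∈ S H, ‖∑ x ∈ Tns P j, (∏ i, γ (x i)) * sy (∏ i, x i) h‖ ^ 2 := by
          rw [sum_add_distrib, mul_sum, mul_sum]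
      _ ≤ 2 * (K1 * H ^ (-δ) * U) + 2 * (K2 * H ^ (-e) * U) := by gcongr
      _ ≤ 2 * (K1 * H ^ (-min δ e) * U) + 2 * (K2 * H ^ (-min δ e) * U) := by gcongr
      _ = (2 * K1 + 2 * K2) * H ^ (-min δ e) * U := by ring
      _ ≤ (2 * K1 + 2 * K2) * H ^ (-min δ e) *
          ((2 ^ j * 2 ^ j) * ((H * C ^ j) ^ ((2 : ℝ) / 3) * C ^ j)) := by gcongr
      _ = (2 * K1 + 2 * K2) * (2 ^ j * 2 ^ j) * H ^ (-min δ e) *
          (H * C ^ j) ^ ((2 : ℝ) / 3) * C ^ j := by ring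
      _ ≤ ((2 * K1 + 2 * K2) * (2 ^ j * 2 ^ j) + K3) * H ^ (-min δ e) *
          (H * C ^ j) ^ ((2 : ℝ) / 3) * C ^ j := by
          have : (2 * K1 + 2 * K2) * (2 ^ j * 2 ^ j) ≤
            (2 * K1 + 2 * K2) * (2 ^ j * 2 ^ j) + K3 := by linarith
          gcongr
  · push Not at hbig
    refine (small_part j h240 (min δ e) hmin0.le hmin1 H C hH hbig.le hC hz2 S' P hS' hP hPC
      γ hγ).trans ?_
    have : K3 ≤ (2 * K1 + 2 * K2) * (2 ^ j * 2 ^ j) + K3 := by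
      have : 0 < (2 * K1 + 2 * K2) * (2 ^ j * 2 ^ j) := by positivity
      linarith
    rw [← hK3]
    gcongr

end Crest.Agent.R012.CR2F277
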