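import Crest.Agent.R012.CR2b_180

/-!
# Row 12 (CR2): sub-statements (interfaces)

* `LargePart` : (CR2-L, helper106) the numerators with large cubefree part
* `CoreB`     : the saved moment for an abstract coefficient vector `b` (helper180)
-/

set_option autoImplicit false

noncomputable section

namespace Crest.Agent.R012.CR2

open Eis LS2

open Classical in
/-- (CR2-L) the part of the dual sum over the numerators whose cubefree part is large. -/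
def LargePart : Prop := ∀ η ε : ℝ, 0 < η → η ≤ 1 / 12 → 0 < ε → ∃ C : ℝ, 0 < C ∧
  ∀ X L K0 : ℝ, 1 ≤ X → 1 ≤ L → 1 ≤ K0 → ∀ w : Eis → ℂ, (∀ h, w h ≠ 0 → h ∈ S X) →
  ∀ d e f : Eis, IsPrim d → IsPrim e → IsPrim f → ∀ σ t : ℝ, 0 ≤ σ → σ ≤ 1 / 2 →
    ∑ l ∈ (bl L).filter (fun l => ¬ Sm K0 l), ‖dsum w X d e f l (σ + t * Complex.I)‖ ^ 2 ≤
      C * (X * L) ^ ε * (X / (nm d * nm f) + L ^ (1 + 6 * η)) * L ^ ((1 : ℝ) / 3) *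
        (K0 ^ (-(1 : ℝ) / 3) + (X / (nm d * nm f) + L ^ (1 + 6 * η)) ^ (-η)) * Xi w X d f σ

/-- the saved second moment for abstract coefficients `b` supported on `S Z` -/
def CoreB : Prop := ∀ δ₁ κ₀ K₁ : ℝ, 0 < δ₁ → 0 < κ₀ → 0 < K₁ →
  ∃ δ κ K : ℝ, 0 < δ ∧ 0 < κ ∧ κ ≤ κ₀ ∧ 0 < K ∧ ∀ H Z : ℝ, 1 ≤ H → H ^ (1.05 : ℝ) ≤ Z →
    Z ≤ H ^ (1.85 : ℝ) → ∀ b : Eis → ℂ, (∑ n ∈ S Z, ‖b n‖ ^ 2 ≤ K₁ * Z) →
    (∀ n ∈ S Z, b n ≠ 0 → ∀ r : Eis, r ≠ 0 → (nm r : ℝ) ≤ H ^ κ → IsCoprime n r) →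
    (∀ r : Eis, r ≠ 0 → (nm r : ℝ) ≤ H ^ κ →
      ‖∑ n ∈ S Z, (starRingEnd ℂ) (b n) * (sy r n * (starRingEnd ℂ) (G n) *
        ((nm n : ℝ) ^ (-(1 : ℝ) / 6) * phi n : ℝ))‖ ≤ K₁ * Z ^ ((5 : ℝ) / 6) * H ^ (-δ₁)) →
    ∑ h ∈ (S (2 * H)).filter (fun h => H < nm h), ‖Eb b Z h‖ ^ 2 ≤
      K * H ^ (-δ) * (H * Z) ^ ((2 : ℝ) / 3) * Z

end Crest.Agent.R012.CR2
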