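import Crest.Agent.R012.GLSmom_106
import Crest.Agent.R012.Spec_CR_290

/-!
# Row 12 (CRA): adapters to `Spec_CR_290`

`hbls_of_final : LS2.Final → HBLS`, `final_of_hbls : HBLS → LS2.Final`,
`gls290 : HBLS → GLS`, `mom290 : HBLS → Mom`.
-/

set_option autoImplicit false

noncomputable section

open Finset

namespace Crest.Agent.R012.GLS106

open Crest.Agent.R012 Crest.Agent.R012.Eis Crest.Agent.R012.LS2 Crest.Agent.R012.LS448
  Crest.Agent.R012.CR290

lemma isSF_S {X : ℝ} (hX : 0 ≤ X) : IsSF (S X) X := fun h hh => by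
  have := (mem_S hX).mp hh
  exact ⟨this.2.1, this.2.2, this.1⟩

lemma isSF_subset {T : Finset Eis} {X : ℝ} (hX : 0 ≤ X) (h : IsSF T X) : T ⊆ S X := fun x hx => by
  have := h x hx
  exact (mem_S hX).mpr ⟨this.2.2, this.1, this.2.1⟩

lemma isPB_subset {T : Finset Eis} {X : ℝ} (h : IsPB T X) : T ⊆ primBall ⌊X⌋₊ := fun x hx =>
  mem_primBall_floor.mpr ⟨(h x hx).2, (h x hx).1⟩

theorem final_of_hbls (h : HBLS) : Final := by
  intro ε hε
  obtain ⟨K, hK, h1⟩ := h ε hε
  exact ⟨K, hK, fun M N hM hN c =>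
    h1 M N hM hN (S M) (S N) (isSF_S (by linarith)) (isSF_S (by linarith)) c⟩

theorem hbls_of_final (h : Final) : HBLS := by
  classical
  intro ε hε
  obtain ⟨K, hK, h1⟩ := h ε hε
  refine ⟨K, hK, fun M N hM hN S' T hS hT c => ?_⟩
  have h2 := h1 M N hM hN (fun n => if n ∈ T then c n else 0)
  have hTS := isSF_subset (by linarith) hT
  have hSS := isSF_subset (by linarith) hS
  have e1 : ∀ m, ∑ n ∈ S N, (if n ∈ T then c n else 0) * sy m n = F T c m := by
    intro m
    unfold F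
    rw [← sum_subset hTS]
    · exact sum_congr rfl fun n hn => by rw [if_pos hn]
    · intro n _ hn
      rw [if_neg hn, zero_mul]
  have e2 : ∑ n ∈ S N, ‖(if n ∈ T then c n else 0)‖ ^ 2 = ∑ n ∈ T, ‖c n‖ ^ 2 := by
    rw [← sum_subset hTS]
    · exact sum_congr rfl fun n hn => by rw [if_pos hn]
    · intro n _ hn
      rw [if_neg hn, norm_zero]; norm_num
  simp only [e1] at h2
  rw [e2] at h2
  exact (sum_le_sum_of_subset_of_nonneg hSS fun _ _ _ => by positivity).trans h2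

theorem gls290 (hB : HBLS) : GLS := by
  classical
  intro ε hε
  obtain ⟨K, hK, h⟩ := gls_one syF (final_of_hbls hB) ε hε
  refine ⟨K, hK, fun M N hM hN S' T hS hT c hc => ?_⟩
  have h2 := h M N 1 hM hN (fun n => if n ∈ T then c n else 0) (fun n _ => by
    by_cases hn : n ∈ T
    · simpa [hn] using hc n hn
    · simp [hn])
  have hTS := isPB_subset hT
  have hSS := isSF_subset (by linarith) hS
  have e1 : ∀ m ∈ S', ∑ n ∈ primBall ⌊N⌋₊, (if n ∈ T then c n else 0) * sy n m = F T c m := by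
    intro m hm
    unfold F
    rw [← sum_subset hTS]
    · exact sum_congr rfl fun n hn => by
        rw [if_pos hn, syF.recip n m (hT n hn).1 (hS m hm).1]
    · intro n _ hn
      rw [if_neg hn, zero_mul]
  calc ∑ m ∈ S', ‖F T c m‖ ^ 2
      = ∑ m ∈ S', ‖∑ n ∈ primBall ⌊N⌋₊, (if n ∈ T then c n else 0) * sy n m‖ ^ 2 :=
        sum_congr rfl fun m hm => by rw [e1 m hm]
    _ ≤ ∑ m ∈ S M, ‖∑ n ∈ primBall ⌊N⌋₊, (if n ∈ T then c n else 0) * sy n m‖ ^ 2 :=
        sum_le_sum_of_subset_of_nonneg hSS fun _ _ _ => by positivity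
    _ ≤ _ := h2
    _ = _ := by ring

theorem mom290 (hB : HBLS) : Mom := by
  intro j _ ε hε
  obtain ⟨K, hK, h⟩ := moment (final_of_hbls hB) j ε hε
  refine ⟨K, hK, fun M C hM hC S' T hS hT γ hγ => ?_⟩
  have h2 := h M C hM hC T (fun c hc => ⟨(hT c hc).1, (hT c hc).2⟩) γ hγ
  have hSS := isSF_subset (by linarith) hS
  calc ∑ m ∈ S', ‖F T γ m‖ ^ (2 * j)
      = ∑ m ∈ S', ‖∑ c ∈ T, γ c * sy c m‖ ^ (2 * j) := by
        refine sum_congr rfl fun m hm => ?_
        unfold F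
        congr 2
        exact sum_congr rfl fun n hn => by rw [syF.recip n m (hT n hn).1 (hS m hm).1]
    _ ≤ ∑ m ∈ S M, ‖∑ c ∈ T, γ c * sy c m‖ ^ (2 * j) :=
        sum_le_sum_of_subset_of_nonneg hSS fun _ _ _ => by positivity
    _ ≤ _ := h2

end Crest.Agent.R012.GLS106
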