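import Mathlib

/-!
# Row 12 (CR2-F): powers of sums over tuples, injective tuples and subsets

* `pow_sum_eq`   : `(Σ_{p ∈ P} f p)^j = Σ_{x ∈ P^j} Π f (x i)`
* `sum_inj`      : the injective tuples give `j! Σ_{T ⊆ P, #T = j} Π_{p ∈ T} f p`
* `pow_sum_split`: the sum of both parts
-/

set_option autoImplicit false

noncomputable section

open Finset

namespace Crest.Agent.R012.Tup811

variable {α : Type*} [DecidableEq α] {R : Type*} [CommSemiring R]

omit [DecidableEq α] in
lemma pow_sum_eq (P : Finset α) (f : α → R) (j : ℕ) :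
    (∑ p ∈ P, f p) ^ j = ∑ x ∈ Fintype.piFinset (fun _ : Fin j => P), ∏ i, f (x i) := by
  have h := Finset.prod_univ_sum (fun _ : Fin j => P) (fun _ p => f p)
  rw [Finset.prod_const, Finset.card_univ, Fintype.card_fin] at h
  exact h

open Classical in
lemma card_inj (T : Finset α) {j : ℕ} (hT : #T = j) :
    #((Fintype.piFinset (fun _ : Fin j => T)).filter Function.Injective) = j.factorial := by
  have e : {x // x ∈ (Fintype.piFinset (fun _ : Fin j => T)).filter Function.Injective} ≃
      (Fin j ↪ T) :=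
    { toFun := fun x => ⟨fun i => ⟨x.1 i, (Fintype.mem_piFinset.1 (mem_filter.1 x.2).1) i⟩,
        fun a b hab => (mem_filter.1 x.2).2 (congrArg Subtype.val hab)⟩
      invFun := fun e => ⟨fun i => (e i : α), mem_filter.2 ⟨Fintype.mem_piFinset.2
        (fun i => (e i).2), fun a b hab => e.injective (Subtype.ext hab)⟩⟩
      left_inv := fun x => rfl
      right_inv := fun e => rfl }
  rw [← Fintype.card_coe, Fintype.card_congr e, Fintype.card_embedding_eq, Fintype.card_coe,
    Fintype.card_fin, hT, Nat.descFactorial_self]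

open Classical in
lemma sum_inj (P : Finset α) (f : α → R) (j : ℕ) :
    ∑ x ∈ (Fintype.piFinset (fun _ : Fin j => P)).filter Function.Injective, ∏ i, f (x i) =
      (j.factorial : R) * ∑ T ∈ powersetCard j P, ∏ p ∈ T, f p := by
  have hmaps : ∀ x ∈ (Fintype.piFinset (fun _ : Fin j => P)).filter Function.Injective,
      Finset.univ.image x ∈ powersetCard j P := by
    intro x hx
    rw [mem_filter, Fintype.mem_piFinset] at hx
    rw [mem_powersetCard]
    refine ⟨?_, ?_⟩
    · intro p hp
      rw [mem_image] at hp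
      obtain ⟨i, _, rfl⟩ := hp
      exact hx.1 i
    · rw [card_image_of_injective _ hx.2, card_univ, Fintype.card_fin]
  rw [← Finset.sum_fiberwise_of_maps_to hmaps, Finset.mul_sum]
  refine Finset.sum_congr rfl fun T hT => ?_
  have hT' := mem_powersetCard.1 hT
  have h1 : ∀ x ∈ ((Fintype.piFinset (fun _ : Fin j => P)).filter Function.Injective).filter
      (fun x => Finset.univ.image x = T), ∏ i, f (x i) = ∏ p ∈ T, f p := by
    intro x hx
    rw [mem_filter, mem_filter] at hx
    rw [← hx.2, Finset.prod_image (fun a _ b _ hab => hx.1.2 hab)]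
  rw [Finset.sum_congr rfl h1, Finset.sum_const, nsmul_eq_mul]
  congr 2
  rw [← card_inj T hT'.2]
  congr 1
  ext x
  rw [mem_filter, mem_filter, mem_filter, Fintype.mem_piFinset, Fintype.mem_piFinset]
  constructor
  · rintro ⟨⟨_, h2⟩, h3⟩
    refine ⟨fun i => ?_, h2⟩
    rw [← h3]; exact mem_image_of_mem _ (mem_univ i)
  · rintro ⟨h2, h3⟩
    refine ⟨⟨fun i => hT'.1 (h2 i), h3⟩, ?_⟩
    apply Finset.eq_of_subset_of_card_le
    · intro p hp
      rw [mem_image] at hp
      obtain ⟨i, _, rfl⟩ := hp
      exact h2 i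
    · rw [card_image_of_injective _ h3, card_univ, Fintype.card_fin, hT'.2]

open Classical in
lemma pow_sum_split (P : Finset α) (f : α → R) (j : ℕ) :
    (∑ p ∈ P, f p) ^ j = (j.factorial : R) * ∑ T ∈ powersetCard j P, ∏ p ∈ T, f p +
      ∑ x ∈ (Fintype.piFinset (fun _ : Fin j => P)).filter (fun x => ¬ Function.Injective x),
        ∏ i, f (x i) := by
  rw [pow_sum_eq, ← sum_inj, Finset.sum_filter_add_sum_filter_not]

end Crest.Agent.R012.Tup811
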