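import Crest.Agent.R012.BilJ_811
import Crest.Agent.R012.Tup_811
import Crest.Agent.R012.CRA_106
import Crest.Agent.R012.CR2SpecB_180

/-!
# Row 12 (CR2-F): `CR2.CoreB → CR290.SavedMom`
-/

set_option autoImplicit false

noncomputable section

open Finset
open scoped ComplexConjugate

namespace Crest.Agent.R012.CR2F811

open Eis LS2 Mob705 BilJ811 CR290
open Gauss880 (syG)

/-! ### the split `F^j = j! E + R` -/

open Classical in
/-- the part with a repeated prime -/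
def Rr (P : Finset Eis) (γ : Eis → ℂ) (j : ℕ) (h : Eis) : ℂ :=
  ∑ x ∈ (Fintype.piFinset (fun _ : Fin j => P)).filter (fun x => ¬ Function.Injective x),
    (∏ i, γ (x i)) * sy (∏ i, x i) h

lemma sy_prod_left {T : Finset Eis} {h : Eis} (hh : IsPrim h) :
    sy (∏ p ∈ T, p) h = ∏ p ∈ T, sy p h := by
  classical
  induction T using Finset.induction_on with
  | empty => simp only [Finset.prod_empty]; exact GLS106.sy_one_left hh
  | insert a s ha ih =>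
    rw [Finset.prod_insert ha, Finset.prod_insert ha, syG.mul_left _ _ _ hh, ih]

lemma F_pow {P : Finset Eis} {C : ℝ} (hC : 1 ≤ C) (hP : IsPP P C) (γ : Eis → ℂ) (j : ℕ) {h : Eis}
    (hh : IsPrim h) :
    (F P γ h) ^ j = (j.factorial : ℂ) * CR2.Eb (bset P γ j) ((2 * C) ^ j) h + Rr P γ j h := by
  classical
  have hPB : PB P (2 * C) := fun p hp => ⟨(hP p hp).1, (hP p hp).2.1, (hP p hp).2.2.2⟩
  have e1 : F P γ h = ∑ p ∈ P, γ p * sy p h := by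
    unfold F
    exact Finset.sum_congr rfl fun p hp => by rw [syG.recip h p hh (hP p hp).1]
  rw [e1, Tup811.pow_sum_split]
  congr 1
  · congr 1
    unfold CR2.Eb
    rw [sum_bset (by linarith) hPB γ j le_rfl (fun n => sy n h)]
    refine Finset.sum_congr rfl fun T _ => ?_
    rw [Finset.prod_mul_distrib, sy_prod_left hh]
  · unfold Rr
    refine Finset.sum_congr (Finset.filter_congr_decidable _ _ _) fun x _ => ?_
    rw [Finset.prod_mul_distrib, GLS106.sy_prod x hh]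

lemma norm_F_pow_le {P : Finset Eis} {C : ℝ} (hC : 1 ≤ C) (hP : IsPP P C) (γ : Eis → ℂ) (j : ℕ)
    {h : Eis} (hh : IsPrim h) :
    ‖F P γ h‖ ^ (2 * j) ≤ 2 * (j.factorial : ℝ) ^ 2 * ‖CR2.Eb (bset P γ j) ((2 * C) ^ j) h‖ ^ 2 +
      2 * ‖Rr P γ j h‖ ^ 2 := by
  have e : ‖F P γ h‖ ^ (2 * j) = ‖(F P γ h) ^ j‖ ^ 2 := by
    rw [norm_pow, ← pow_mul, mul_comm]
  rw [e, F_pow hC hP γ j hh]
  set a := (j.factorial : ℂ) * CR2.Eb (bset P γ j) ((2 * C) ^ j) h with ha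
  have hna : ‖a‖ = (j.factorial : ℝ) * ‖CR2.Eb (bset P γ j) ((2 * C) ^ j) h‖ := by
    rw [ha, norm_mul, Complex.norm_natCast]
  have h1 := norm_add_le a (Rr P γ j h)
  have h2 : ‖a + Rr P γ j h‖ ^ 2 ≤ (‖a‖ + ‖Rr P γ j h‖) ^ 2 :=
    pow_le_pow_left₀ (norm_nonneg _) h1 2
  have h3 : 2 * (j.factorial : ℝ) ^ 2 * ‖CR2.Eb (bset P γ j) ((2 * C) ^ j) h‖ ^ 2 = 2 * ‖a‖ ^ 2 := by
    rw [hna]; ring
  rw [h3]
  nlinarith [sq_nonneg (‖a‖ - ‖Rr P γ j h‖)]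

/-! ### the repeated part -/

/-- real exponent inequality: `Z ≤ 2^j H^(1.8)`, `H^(1.1) ≤ Z` -/
lemma H_le {H Z : ℝ} (hH : 1 ≤ H) (h1 : H ^ (1.1 : ℝ) ≤ Z) :
    H ≤ (H * Z) ^ ((2 : ℝ) / 3) * H ^ (-(0.4 : ℝ)) := by
  have hH0 : 0 < H := by linarith
  have hZ0 : 0 < Z := lt_of_lt_of_le (by positivity) h1
  rw [Real.mul_rpow hH0.le hZ0.le]
  calc H = H ^ ((1 : ℝ)) := (Real.rpow_one H).symm
    _ ≤ H ^ ((2 : ℝ) / 3 + 1.1 * (2 / 3) + -(0.4 : ℝ)) :=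
        Real.rpow_le_rpow_of_exponent_le hH (by norm_num)
    _ = H ^ ((2 : ℝ) / 3) * (H ^ (1.1 : ℝ)) ^ ((2 : ℝ) / 3) * H ^ (-(0.4 : ℝ)) := by
        rw [Real.rpow_add hH0, Real.rpow_add hH0, Real.rpow_mul hH0.le]
    _ ≤ _ := by gcongr

lemma Z_le {H Z A : ℝ} (hH : 1 ≤ H) (hA : 1 ≤ A) (hZ : 1 ≤ Z) (h1 : Z ≤ A * H ^ (1.8 : ℝ)) :
    Z ≤ A * (H * Z) ^ ((2 : ℝ) / 3) * H ^ (-(1 / 15) : ℝ) := by
  have hH0 : 0 < H := by linarith
  have hZ0 : 0 < Z := by linarith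
  rw [Real.mul_rpow hH0.le hZ0.le]
  have h2 : Z ^ ((1 : ℝ) / 3) ≤ A * H ^ (0.6 : ℝ) := by
    calc Z ^ ((1 : ℝ) / 3) ≤ (A * H ^ (1.8 : ℝ)) ^ ((1 : ℝ) / 3) := by gcongr
      _ = A ^ ((1 : ℝ) / 3) * H ^ (0.6 : ℝ) := by
          rw [Real.mul_rpow (by linarith) (by positivity), ← Real.rpow_mul hH0.le]
          norm_num
      _ ≤ A * H ^ (0.6 : ℝ) := by
          have : A ^ ((1 : ℝ) / 3) ≤ A ^ (1 : ℝ) :=
            Real.rpow_le_rpow_of_exponent_le hA (by norm_num)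
          rw [Real.rpow_one] at this
          gcongr
  calc Z = Z ^ ((2 : ℝ) / 3) * Z ^ ((1 : ℝ) / 3) := by
        rw [← Real.rpow_add hZ0]; norm_num
    _ ≤ Z ^ ((2 : ℝ) / 3) * (A * H ^ (0.6 : ℝ)) := by gcongr
    _ = A * (H ^ ((2 : ℝ) / 3) * Z ^ ((2 : ℝ) / 3)) * H ^ (-(1 / 15) : ℝ) := by
        have : H ^ (0.6 : ℝ) = H ^ ((2 : ℝ) / 3) * H ^ (-(1 / 15) : ℝ) := by
          rw [← Real.rpow_add hH0]; norm_num
        rw [this]; ring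

lemma R_bound {j : ℕ} (hj : 2 ≤ j) : ∃ δ K : ℝ, 0 < δ ∧ 0 < K ∧ ∀ H C : ℝ, 1 ≤ H → 1 ≤ C →
    H ^ (1.1 : ℝ) ≤ C ^ j → C ^ j ≤ H ^ (1.8 : ℝ) → ∀ P : Finset Eis, IsPP P C →
    ∀ γ : Eis → ℂ, (∀ p ∈ P, ‖γ p‖ ≤ 1) →
    ∑ h ∈ S H, ‖Rr P γ j h‖ ^ 2 ≤ K * H ^ (-δ) * (H * (2 * C) ^ j) ^ ((2 : ℝ) / 3) * (2 * C) ^ j := by
  classical
  have hj0 : (0 : ℝ) < j := by exact_mod_cast (by omega : 0 < j)
  have hj2 : (2 : ℝ) ≤ j := by exact_mod_cast hj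
  set ε : ℝ := 1 / (90 * j) with hε
  have hε0 : 0 < ε := by positivity
  obtain ⟨K, hK, hT⟩ := GLS106.tuples_sq LS448.hb_final j ε hε0
  refine ⟨1 / (30 * j), K * (2 * (1 + 2 * 2 ^ j)), by positivity, by positivity, ?_⟩
  intro H C hH hC h1 h2 P hP γ hγ
  have hH0 : 0 < H := by linarith
  have hC0 : 0 < C := by linarith
  set Z : ℝ := (2 * C) ^ j with hZ
  have hZ1 : 1 ≤ Z := one_le_pow₀ (by linarith)
  have hCZ : C ^ j ≤ Z := by rw [hZ]; gcongr; linarith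
  have h1' : H ^ (1.1 : ℝ) ≤ Z := h1.trans hCZ
  have h2' : Z ≤ 2 ^ j * H ^ (1.8 : ℝ) := by
    rw [hZ, mul_pow]; gcongr
  have hA : (1 : ℝ) ≤ 2 ^ j := one_le_pow₀ (by norm_num)
  -- `C ≥ H^(1.1/j)`
  have hCH : H ^ (1.1 / j : ℝ) ≤ C := by
    have : (H ^ (1.1 / j : ℝ)) ^ j ≤ C ^ j := by
      rw [← Real.rpow_natCast, ← Real.rpow_mul hH0.le]
      rw [div_mul_cancel₀ _ hj0.ne']
      exact h1
    exact le_of_pow_le_pow_left₀ (by omega) hC0.le this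
  have hCinv : C⁻¹ ≤ H ^ (-(1 / (15 * j)) : ℝ) := by
    calc C⁻¹ ≤ (H ^ (1.1 / j : ℝ))⁻¹ := inv_anti₀ (by positivity) hCH
      _ = H ^ (-(1.1 / j) : ℝ) := (Real.rpow_neg hH0.le _).symm
      _ ≤ _ := by
        apply Real.rpow_le_rpow_of_exponent_le hH
        rw [neg_le_neg_iff, div_le_div_iff₀ (by positivity) hj0]
        nlinarith
  have h3 := hT H (2 * C) C hH (by linarith) hC P
    (fun c hc => ⟨(hP c hc).1, (hP c hc).2.2.2⟩) γ hγ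
    ((Fintype.piFinset (fun _ : Fin j => P)).filter (fun x => ¬ Function.Injective x))
    (Finset.filter_subset _ _) (by
      intro x hx
      rw [Finset.mem_filter, Fintype.mem_piFinset] at hx
      obtain ⟨hx1, hx2⟩ := hx
      unfold Function.Injective at hx2
      push Not at hx2
      obtain ⟨a, b, hab, hne⟩ := hx2
      refine ⟨x a, (hP _ (hx1 a)).2.2.1.le, ?_⟩
      have : x a * x b ∣ ∏ i, x i := by
        have h4 : ∏ i ∈ ({a, b} : Finset (Fin j)), x i ∣ ∏ i, x i :=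
          Finset.prod_dvd_prod_of_subset _ _ _ (Finset.subset_univ _)
        rwa [Finset.prod_pair hne] at h4
      rw [← hab] at this
      rw [sq]; exact this)
  have e1 : ∑ h ∈ S H, ‖Rr P γ j h‖ ^ 2 = ∑ h ∈ S H, ‖∑ x ∈ (Fintype.piFinset
      (fun _ : Fin j => P)).filter (fun x => ¬ Function.Injective x),
      (∏ i, γ (x i)) * sy (∏ i, x i) h‖ ^ 2 := by
    refine Finset.sum_congr rfl fun h _ => ?_
    unfold Rr
    congr 2
  rw [e1]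
  refine h3.trans ?_
  rw [← hZ]
  set Y := (H * Z) ^ ((2 : ℝ) / 3) with hY
  have hY0 : 0 < Y := by positivity
  -- bounds
  have b1 : (H * (2 * C)) ^ ε ≤ 2 * H ^ ((3 : ℝ) / 90 * (1 / j)) := by
    have hCle : 2 * C ≤ 2 * H ^ (1.8 : ℝ) := by
      have : C ≤ C ^ j := le_self_pow₀ hC (by omega)
      linarith
    have hε1 : ε ≤ 1 := by
      rw [hε, div_le_one (by positivity)]; nlinarith
    calc (H * (2 * C)) ^ ε ≤ (2 * H ^ (2.8 : ℝ)) ^ ε := by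
          apply Real.rpow_le_rpow (by positivity) _ hε0.le
          calc H * (2 * C) ≤ H * (2 * H ^ (1.8 : ℝ)) := by gcongr
            _ = 2 * (H ^ (1 : ℝ) * H ^ (1.8 : ℝ)) := by rw [Real.rpow_one]; ring
            _ = 2 * H ^ (2.8 : ℝ) := by rw [← Real.rpow_add hH0]; norm_num
      _ = 2 ^ ε * H ^ (2.8 * ε) := by
          rw [Real.mul_rpow (by norm_num) (by positivity), ← Real.rpow_mul hH0.le]
      _ ≤ 2 ^ (1 : ℝ) * H ^ ((3 : ℝ) / 90 * (1 / j)) := by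
          have c1 : (2 : ℝ) ^ ε ≤ 2 ^ (1 : ℝ) :=
            Real.rpow_le_rpow_of_exponent_le (by norm_num) hε1
          have c2 : H ^ (2.8 * ε) ≤ H ^ ((3 : ℝ) / 90 * (1 / j)) := by
            apply Real.rpow_le_rpow_of_exponent_le hH
            rw [hε]
            have : 2.8 * (1 / (90 * (j : ℝ))) = 2.8 / 90 * (1 / j) := by field_simp
            rw [this]
            have hj1 : 0 < 1 / (j : ℝ) := by positivity
            nlinarith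
          exact mul_le_mul c1 c2 (by positivity) (by positivity)
      _ = _ := by rw [Real.rpow_one]
  have b2 : H ≤ Y * H ^ (-(1 / (15 * j)) : ℝ) := by
    refine (H_le hH h1').trans ?_
    gcongr
    rw [div_le_iff₀ (by positivity)]; nlinarith
  have b3 : Z + Y ≤ 2 * 2 ^ j * Y := by
    have := Z_le hH hA hZ1 h2'
    have h5 : H ^ (-(1 / 15) : ℝ) ≤ 1 := Real.rpow_le_one_of_one_le_of_nonpos hH (by norm_num)
    have h6 : Z ≤ 2 ^ j * Y * 1 := this.trans (by gcongr)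
    nlinarith
  calc K * (H * (2 * C)) ^ ε * Z * (H + C⁻¹ * (Z + Y))
      ≤ K * (2 * H ^ ((3 : ℝ) / 90 * (1 / j))) * Z * (Y * H ^ (-(1 / (15 * j)) : ℝ) +
        H ^ (-(1 / (15 * j)) : ℝ) * (2 * 2 ^ j * Y)) := by gcongr
    _ = K * (2 * (1 + 2 * 2 ^ j)) * (H ^ ((3 : ℝ) / 90 * (1 / j)) *
        H ^ (-(1 / (15 * j)) : ℝ)) * Y * Z := by ring
    _ = _ := by
        rw [← Real.rpow_add hH0]
        have : (3 : ℝ) / 90 * (1 / j) + -(1 / (15 * j)) = -(1 / (30 * j)) := by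
          field_simp; norm_num
        rw [this]

/-! ### the small numerators -/

lemma E_small {j : ℕ} (hj : 2 ≤ j) : ∃ K : ℝ, 0 < K ∧ ∀ H C : ℝ, 1 ≤ H → 1 ≤ C →
    H ^ (1.1 : ℝ) ≤ C ^ j → C ^ j ≤ H ^ (1.8 : ℝ) → ∀ P : Finset Eis,
    ∀ γ : Eis → ℂ, (∀ p ∈ P, ‖γ p‖ ≤ 1) →
    ∑ h ∈ S (H ^ (0.98 : ℝ)), ‖CR2.Eb (bset P γ j) ((2 * C) ^ j) h‖ ^ 2 ≤
      K * H ^ (-(1 / 150) : ℝ) * (H * (2 * C) ^ j) ^ ((2 : ℝ) / 3) * (2 * C) ^ j := by
  obtain ⟨K, hK, hF⟩ := LS448.hb_final (1 / 450) (by norm_num)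
  refine ⟨K * 2 ^ j * (2 + 2 ^ j) * 16, by positivity, ?_⟩
  intro H C hH hC h1 h2 P γ hγ
  have hH0 : 0 < H := by linarith
  have hC0 : 0 < C := by linarith
  set Z : ℝ := (2 * C) ^ j with hZ
  have hZ1 : 1 ≤ Z := one_le_pow₀ (by linarith)
  have hCZ : C ^ j ≤ Z := by rw [hZ]; gcongr; linarith
  have h1' : H ^ (1.1 : ℝ) ≤ Z := h1.trans hCZ
  have h2' : Z ≤ 2 ^ j * H ^ (1.8 : ℝ) := by
    rw [hZ, mul_pow]; gcongr
  have hA : (1 : ℝ) ≤ 2 ^ j := one_le_pow₀ (by norm_num)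
  set H1 : ℝ := H ^ (0.98 : ℝ) with hH1
  have hH11 : 1 ≤ H1 := Real.one_le_rpow hH (by norm_num)
  have hH1H : H1 ≤ H := by
    calc H1 ≤ H ^ (1 : ℝ) := Real.rpow_le_rpow_of_exponent_le hH (by norm_num)
      _ = H := Real.rpow_one H
  have h3 := hF H1 Z hH11 hZ1 (bset P γ j)
  have e1 : ∑ h ∈ S H1, ‖CR2.Eb (bset P γ j) Z h‖ ^ 2 =
      ∑ m ∈ S H1, ‖∑ n ∈ S Z, bset P γ j n * sy m n‖ ^ 2 := by
    refine Finset.sum_congr rfl fun m hm => ?_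
    have hm' := ((mem_S (by linarith)).1 hm).2.1
    unfold CR2.Eb
    congr 2
    refine Finset.sum_congr rfl fun n hn => ?_
    rw [syG.recip n m ((mem_S (by linarith)).1 hn).2.1 hm']
  rw [e1]
  refine h3.trans ?_
  have hb := l2_bset hγ j hZ1
  set Y := (H * Z) ^ ((2 : ℝ) / 3) with hY
  have hY0 : 0 < Y := by positivity
  set Q := H ^ (-(1 / 75) : ℝ) with hQ
  have hQ0 : 0 < Q := by positivity
  have c1 : H1 ≤ Y * Q := by
    refine hH1H.trans ((H_le hH h1').trans ?_)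
    have : H ^ (-(0.4 : ℝ)) ≤ Q := Real.rpow_le_rpow_of_exponent_le hH (by norm_num)
    gcongr
  have c2 : Z ≤ 2 ^ j * Y * Q := by
    refine (Z_le hH hA hZ1 h2').trans ?_
    have : H ^ (-(1 / 15) : ℝ) ≤ Q := Real.rpow_le_rpow_of_exponent_le hH (by norm_num)
    gcongr
  have c3 : (H1 * Z) ^ ((2 : ℝ) / 3) = Y * Q := by
    rw [hY, hQ, hH1, Real.mul_rpow (by positivity) (by linarith), Real.mul_rpow hH0.le
      (by linarith), ← Real.rpow_mul hH0.le]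
    have : H ^ ((0.98 : ℝ) * (2 / 3)) = H ^ ((2 : ℝ) / 3) * H ^ (-(1 / 75) : ℝ) := by
      rw [← Real.rpow_add hH0]; norm_num
    rw [this]; ring
  have c4 : (H1 * Z) ^ (1 / 450 : ℝ) ≤ 2 ^ j * H ^ (1 / 150 : ℝ) := by
    calc (H1 * Z) ^ (1 / 450 : ℝ) ≤ (2 ^ j * H ^ (2.8 : ℝ)) ^ (1 / 450 : ℝ) := by
          apply Real.rpow_le_rpow (by positivity) _ (by norm_num)
          calc H1 * Z ≤ H * (2 ^ j * H ^ (1.8 : ℝ)) := by gcongr
            _ = 2 ^ j * (H ^ (1 : ℝ) * H ^ (1.8 : ℝ)) := by rw [Real.rpow_one]; ring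
            _ = 2 ^ j * H ^ (2.8 : ℝ) := by rw [← Real.rpow_add hH0]; norm_num
      _ = (2 ^ j) ^ (1 / 450 : ℝ) * H ^ (2.8 * (1 / 450) : ℝ) := by
          rw [Real.mul_rpow (by positivity) (by positivity), ← Real.rpow_mul hH0.le]
      _ ≤ (2 ^ j) ^ (1 : ℝ) * H ^ (1 / 150 : ℝ) := by
          have d1 : ((2 : ℝ) ^ j) ^ (1 / 450 : ℝ) ≤ (2 ^ j) ^ (1 : ℝ) :=
            Real.rpow_le_rpow_of_exponent_le hA (by norm_num)
          have d2 : H ^ (2.8 * (1 / 450) : ℝ) ≤ H ^ (1 / 150 : ℝ) :=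
            Real.rpow_le_rpow_of_exponent_le hH (by norm_num)
          exact mul_le_mul d1 d2 (by positivity) (by positivity)
      _ = _ := by rw [Real.rpow_one]
  have c5 : H1 + Z + (H1 * Z) ^ ((2 : ℝ) / 3) ≤ (2 + 2 ^ j) * Y * Q := by
    rw [c3]; nlinarith
  have hs0 : 0 ≤ ∑ n ∈ S Z, ‖bset P γ j n‖ ^ 2 := Finset.sum_nonneg fun _ _ => by positivity
  calc K * (H1 * Z) ^ (1 / 450 : ℝ) * (H1 + Z + (H1 * Z) ^ ((2 : ℝ) / 3)) *
        ∑ n ∈ S Z, ‖bset P γ j n‖ ^ 2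
      ≤ K * (2 ^ j * H ^ (1 / 150 : ℝ)) * ((2 + 2 ^ j) * Y * Q) * (16 * Z) :=
        mul_le_mul (mul_le_mul (mul_le_mul_of_nonneg_left c4 hK.le) c5 (by positivity)
          (by positivity)) hb hs0 (by positivity)
    _ = K * 2 ^ j * (2 + 2 ^ j) * 16 * (H ^ (1 / 150 : ℝ) * Q) * Y * Z := by ring
    _ = _ := by
        rw [hQ, ← Real.rpow_add hH0]
        norm_num

/-! ### one dyadic block -/

lemma E_block (hCB : CR2.CoreB) {j : ℕ} (hj : 2 ≤ j) : ∃ δ K H₀ : ℝ, 0 < δ ∧ 0 < K ∧ 1 ≤ H₀ ∧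
    ∀ H C : ℝ, H₀ ≤ H → 1 ≤ C → H ^ (1.1 : ℝ) ≤ C ^ j → C ^ j ≤ H ^ (1.8 : ℝ) →
    ∀ P : Finset Eis, IsPP P C → ∀ γ : Eis → ℂ, (∀ p ∈ P, ‖γ p‖ ≤ 1) →
    ∀ U : ℝ, H ^ (0.98 : ℝ) / 2 ≤ U → U ≤ H →
    ∑ h ∈ (S (2 * U)).filter (fun h => U < nm h), ‖CR2.Eb (bset P γ j) ((2 * C) ^ j) h‖ ^ 2 ≤
      K * H ^ (-δ) * (H * (2 * C) ^ j) ^ ((2 : ℝ) / 3) * (2 * C) ^ j := by
  have hj0 : (0 : ℝ) < j := by exact_mod_cast (by omega : 0 < j)
  obtain ⟨Kb, hKb, hbil⟩ := bil_hyp hj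
  obtain ⟨δ, κ, K, hδ, hκ, hκ1, hK, hcore⟩ := hCB (1 / 7) (1 / j) (max 16 Kb) (by norm_num)
    (by positivity) (by positivity)
  set H₀ : ℝ := 2 ^ ((j + 2 : ℝ) * (1000 / 13)) with hH₀
  have hH₀1 : 1 ≤ H₀ := Real.one_le_rpow (by norm_num) (by positivity)
  refine ⟨δ / 2, K, H₀, by positivity, hK, hH₀1, ?_⟩
  intro H C hHH hC h1 h2 P hP γ hγ U hU1 hU2
  have hH : 1 ≤ H := hH₀1.trans hHH
  have hH0 : 0 < H := by linarith
  have hC0 : 0 < C := by linarith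
  set Z : ℝ := (2 * C) ^ j with hZ
  have hZ1 : 1 ≤ Z := one_le_pow₀ (by linarith)
  have hCZ : C ^ j ≤ Z := by rw [hZ]; gcongr; linarith
  have h1' : H ^ (1.1 : ℝ) ≤ Z := h1.trans hCZ
  have h2' : Z ≤ 2 ^ j * H ^ (1.8 : ℝ) := by
    rw [hZ, mul_pow]; gcongr
  have h13 : (2 : ℝ) ^ (j + 2 : ℝ) ≤ H ^ (0.013 : ℝ) := by
    calc (2 : ℝ) ^ (j + 2 : ℝ) = H₀ ^ (0.013 : ℝ) := by
          rw [hH₀, ← Real.rpow_mul (by norm_num)]
          congr 1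
          ring
      _ ≤ H ^ (0.013 : ℝ) := Real.rpow_le_rpow (by linarith) hHH (by norm_num)
  have h2p : (2 : ℝ) ^ (j + 2 : ℝ) = 2 ^ j * 4 := by
    rw [Real.rpow_add (by norm_num), Real.rpow_natCast]; norm_num
  have hA : (1 : ℝ) ≤ 2 ^ j := one_le_pow₀ (by norm_num)
  have hU5 : H ^ (0.5 : ℝ) ≤ U := by
    refine le_trans ?_ hU1
    rw [le_div_iff₀ (by norm_num)]
    have e : H ^ (0.98 : ℝ) = H ^ (0.5 : ℝ) * H ^ (0.48 : ℝ) := by
      rw [← Real.rpow_add hH0]; norm_num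
    rw [e]
    have : (2 : ℝ) ≤ H ^ (0.48 : ℝ) := by
      calc (2 : ℝ) ≤ 2 ^ j * 4 := by linarith
        _ = 2 ^ (j + 2 : ℝ) := h2p.symm
        _ ≤ H ^ (0.013 : ℝ) := h13
        _ ≤ _ := Real.rpow_le_rpow_of_exponent_le hH (by norm_num)
    gcongr
  have hU : 1 ≤ U := (Real.one_le_rpow hH (by norm_num)).trans hU5
  have hU0 : 0 < U := by linarith
  have hUZ : U ^ (1.05 : ℝ) ≤ Z := by
    calc U ^ (1.05 : ℝ) ≤ H ^ (1.05 : ℝ) := Real.rpow_le_rpow hU0.le hU2 (by norm_num)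
      _ ≤ H ^ (1.1 : ℝ) := Real.rpow_le_rpow_of_exponent_le hH (by norm_num)
      _ ≤ Z := h1'
  have hZU : Z ≤ U ^ (1.85 : ℝ) := by
    refine h2'.trans ?_
    calc 2 ^ j * H ^ (1.8 : ℝ) ≤ (H ^ (0.98 : ℝ) / 2) ^ (1.85 : ℝ) := by
          rw [Real.div_rpow (by positivity) (by norm_num), ← Real.rpow_mul hH0.le,
            le_div_iff₀ (by positivity)]
          have e : H ^ ((0.98 : ℝ) * 1.85) = H ^ (1.8 : ℝ) * H ^ (0.013 : ℝ) := by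
            rw [← Real.rpow_add hH0]; norm_num
          rw [e]
          have : (2 : ℝ) ^ (1.85 : ℝ) ≤ 4 := by
            calc (2 : ℝ) ^ (1.85 : ℝ) ≤ 2 ^ (2 : ℝ) :=
                  Real.rpow_le_rpow_of_exponent_le (by norm_num) (by norm_num)
              _ = 4 := by norm_num
          calc 2 ^ j * H ^ (1.8 : ℝ) * 2 ^ (1.85 : ℝ) ≤ 2 ^ j * H ^ (1.8 : ℝ) * 4 := by gcongr
            _ = H ^ (1.8 : ℝ) * (2 ^ j * 4) := by ring
            _ ≤ H ^ (1.8 : ℝ) * H ^ (0.013 : ℝ) := by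
              rw [← h2p]; gcongr
      _ ≤ U ^ (1.85 : ℝ) := Real.rpow_le_rpow (by positivity) hU1 (by norm_num)
  have hCH : H ^ (1 / j : ℝ) ≤ C := by
    have : (H ^ (1 / j : ℝ)) ^ j ≤ C ^ j := by
      rw [← Real.rpow_natCast, ← Real.rpow_mul hH0.le, div_mul_cancel₀ _ hj0.ne']
      exact le_trans (Real.rpow_le_rpow_of_exponent_le hH (by norm_num)) h1
    exact le_of_pow_le_pow_left₀ (by omega) hC0.le this
  have hUκ : U ^ κ ≤ C := by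
    calc U ^ κ ≤ H ^ κ := Real.rpow_le_rpow hU0.le hU2 hκ.le
      _ ≤ H ^ (1 / j : ℝ) := Real.rpow_le_rpow_of_exponent_le hH hκ1
      _ ≤ C := hCH
  have h5 := hcore U Z hU hUZ hZU (bset P γ j)
    ((l2_bset hγ j hZ1).trans (by
      have := le_max_left 16 Kb
      gcongr))
    (by
      intro n hn hbn r hr hrU
      have hn' := (mem_S (by linarith)).1 hn
      rw [isCoprime_iff_pp hn'.2.1]
      intro p hp hpn hpr
      have hppn : p ∈ pp n := (mem_pp hn'.2.1.ne_zero).2 ⟨hp, hpn⟩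
      have hpP : p ∈ P := by
        unfold bset at hbn
        by_contra h
        apply hbn
        rw [if_neg]
        rintro ⟨h3, _⟩
        exact h (h3 hppn)
      have h6 := (hP p hpP).2.2.1
      have h7 : (nm p : ℝ) ≤ nm r := by exact_mod_cast Div277.nm_le_of_dvd hr hpr
      linarith)
    (by
      intro r hr _
      refine (hbil C U hC hU hUZ P γ (fun p hp => ⟨(hP p hp).1, (hP p hp).2.1, (hP p hp).2.2.1,
        (hP p hp).2.2.2, hγ p hp⟩) r).trans ?_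
      have := le_max_right 16 Kb
      gcongr)
  refine h5.trans ?_
  have h6 : U ^ (-δ) ≤ H ^ (-(δ / 2)) := by
    calc U ^ (-δ) ≤ (H ^ (0.5 : ℝ)) ^ (-δ) :=
          Real.rpow_le_rpow_of_nonpos (by positivity) hU5 (by linarith)
      _ = H ^ (-(δ / 2)) := by
          rw [← Real.rpow_mul hH0.le]; congr 1; ring
  have h7 : (U * Z) ^ ((2 : ℝ) / 3) ≤ (H * Z) ^ ((2 : ℝ) / 3) := by gcongr
  calc K * U ^ (-δ) * (U * Z) ^ ((2 : ℝ) / 3) * Z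
      ≤ K * H ^ (-(δ / 2)) * (H * Z) ^ ((2 : ℝ) / 3) * Z := by gcongr

/-! ### dyadic decomposition -/

lemma cover {H H1 B : ℝ} (hH1 : 1 ≤ H1) (hHH : H1 ≤ H) (hB : 0 ≤ B) (f : Eis → ℝ)
    (hf : ∀ h, 0 ≤ f h)
    (h : ∀ U : ℝ, H1 / 2 ≤ U → U ≤ H → ∑ h ∈ (S (2 * U)).filter (fun h => U < nm h), f h ≤ B) :
    ∑ h ∈ S H, f h ≤ ∑ h ∈ S H1, f h + (Real.logb 2 H + 1) * B := by
  classical
  have hH : 1 ≤ H := hH1.trans hHH
  have key : ∀ N : ℕ, ∑ h ∈ S H, f h ≤ ∑ h ∈ S (max (H / 2 ^ N) H1), f h + N * B := by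
    intro N
    induction N with
    | zero =>
      rw [pow_zero, div_one, max_eq_left hHH]; simp
    | succ N ih =>
      refine ih.trans ?_
      push_cast
      by_cases hc : H / 2 ^ N ≤ H1
      · have hc' : H / 2 ^ (N + 1) ≤ H1 := by
          refine le_trans ?_ hc
          rw [pow_succ]
          apply div_le_div_of_nonneg_left (by linarith) (by positivity)
          have : (0 : ℝ) < 2 ^ N := by positivity
          linarith
        rw [max_eq_right hc, max_eq_right hc']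
        nlinarith
      · have hc2 := not_le.1 hc
        rw [max_eq_left hc2.le]
        set X := H / 2 ^ N with hX
        have hX0 : 0 < X := by linarith
        have hXH : X ≤ H := div_le_self (by linarith) (one_le_pow₀ (by norm_num))
        have e1 : H / 2 ^ (N + 1) = X / 2 := by rw [hX, pow_succ]; field_simp
        rw [e1]
        have h3 := h (X / 2) (by linarith) (by linarith)
        have e2 : 2 * (X / 2) = X := by ring
        rw [e2] at h3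
        have h4 : ∑ h ∈ (S X).filter (fun h => ¬ (X / 2 < nm h)), f h ≤
            ∑ h ∈ S (max (X / 2) H1), f h := by
          refine Finset.sum_le_sum_of_subset_of_nonneg ?_ (fun _ _ _ => hf _)
          intro x hx
          rw [Finset.mem_filter, mem_S hX0.le] at hx
          rw [mem_S (le_trans (by linarith) (le_max_right _ _))]
          exact ⟨(not_lt.1 hx.2).trans (le_max_left _ _), hx.1.2⟩
        rw [← Finset.sum_filter_add_sum_filter_not (S X) (fun h => X / 2 < (nm h : ℝ))]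
        linarith
  obtain ⟨N, hN1, hN2⟩ : ∃ N : ℕ, Real.logb 2 H ≤ N ∧ (N : ℝ) ≤ Real.logb 2 H + 1 := by
    have h0 : 0 ≤ Real.logb 2 H := Real.logb_nonneg (by norm_num) hH
    exact ⟨⌈Real.logb 2 H⌉₊, Nat.le_ceil _, (Nat.ceil_lt_add_one h0).le⟩
  have h5 := key N
  have h6 : H / 2 ^ N ≤ H1 := by
    refine le_trans ?_ hH1
    rw [div_le_one (by positivity)]
    rw [Real.logb_le_iff_le_rpow (by norm_num) (by linarith), Real.rpow_natCast] at hN1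
    exact hN1
  rw [max_eq_right h6] at h5
  refine h5.trans ?_
  gcongr

lemma E_bound (hCB : CR2.CoreB) {j : ℕ} (hj : 2 ≤ j) : ∃ δ K H₀ : ℝ, 0 < δ ∧ 0 < K ∧ 1 ≤ H₀ ∧
    ∀ H C : ℝ, H₀ ≤ H → 1 ≤ C → H ^ (1.1 : ℝ) ≤ C ^ j → C ^ j ≤ H ^ (1.8 : ℝ) →
    ∀ P : Finset Eis, IsPP P C → ∀ γ : Eis → ℂ, (∀ p ∈ P, ‖γ p‖ ≤ 1) →
    ∑ h ∈ S H, ‖CR2.Eb (bset P γ j) ((2 * C) ^ j) h‖ ^ 2 ≤
      K * H ^ (-δ) * (H * (2 * C) ^ j) ^ ((2 : ℝ) / 3) * (2 * C) ^ j := by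
  obtain ⟨K1, hK1, hs⟩ := E_small hj
  obtain ⟨δ, K2, H₀, hδ, hK2, hH₀, hb⟩ := E_block hCB hj
  have hl2 : 0 < Real.log 2 := Real.log_pos (by norm_num)
  set δ' := min (δ / 2) (1 / 150) with hδ'
  have hδ'0 : 0 < δ' := by positivity
  set K3 := 2 / (δ * Real.log 2) + 1 with hK3
  have hK30 : 0 < K3 := by positivity
  refine ⟨δ', K1 + K3 * K2, H₀, hδ'0, by positivity, hH₀, ?_⟩
  intro H C hHH hC h1 h2 P hP γ hγ
  have hH : 1 ≤ H := hH₀.trans hHH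
  have hH0 : 0 < H := by linarith
  set Z : ℝ := (2 * C) ^ j with hZ
  have hZ0 : 0 < Z := by positivity
  set Y := (H * Z) ^ ((2 : ℝ) / 3) with hY
  have hY0 : 0 < Y := by positivity
  have hH11 : 1 ≤ H ^ (0.98 : ℝ) := Real.one_le_rpow hH (by norm_num)
  have hH1H : H ^ (0.98 : ℝ) ≤ H := by
    calc H ^ (0.98 : ℝ) ≤ H ^ (1 : ℝ) := Real.rpow_le_rpow_of_exponent_le hH (by norm_num)
      _ = H := Real.rpow_one H
  have h3 := cover hH11 hH1H (B := K2 * H ^ (-δ) * Y * Z) (by positivity)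
    (fun h => ‖CR2.Eb (bset P γ j) Z h‖ ^ 2) (fun _ => by positivity)
    (fun U hU1 hU2 => hb H C hHH hC h1 h2 P hP γ hγ U hU1 hU2)
  refine h3.trans ?_
  have h4 := hs H C hH hC h1 h2 P γ hγ
  rw [← hZ, ← hY] at h4
  have h5 : Real.logb 2 H + 1 ≤ K3 * H ^ (δ / 2) := by
    have a1 : Real.log H ≤ H ^ (δ / 2) / (δ / 2) := Real.log_le_rpow_div hH0.le (by positivity)
    have a2 : Real.logb 2 H ≤ 2 / (δ * Real.log 2) * H ^ (δ / 2) := by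
      unfold Real.logb
      rw [div_le_iff₀ hl2]
      refine a1.trans (le_of_eq ?_)
      field_simp
    have a3 : 1 ≤ H ^ (δ / 2) := Real.one_le_rpow hH (by positivity)
    rw [hK3, add_mul, one_mul]
    linarith
  have h6 : H ^ (-(1 / 150) : ℝ) ≤ H ^ (-δ') :=
    Real.rpow_le_rpow_of_exponent_le hH (by
      have := min_le_right (δ / 2) (1 / 150); linarith)
  have h7 : H ^ (δ / 2) * H ^ (-δ) ≤ H ^ (-δ') := by
    rw [← Real.rpow_add hH0]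
    exact Real.rpow_le_rpow_of_exponent_le hH (by
      have := min_le_left (δ / 2) (1 / 150); linarith)
  calc ∑ h ∈ S (H ^ (0.98 : ℝ)), ‖CR2.Eb (bset P γ j) Z h‖ ^ 2 +
        (Real.logb 2 H + 1) * (K2 * H ^ (-δ) * Y * Z)
      ≤ K1 * H ^ (-(1 / 150) : ℝ) * Y * Z + (K3 * H ^ (δ / 2)) * (K2 * H ^ (-δ) * Y * Z) := by
        gcongr
    _ = K1 * H ^ (-(1 / 150) : ℝ) * Y * Z + K3 * K2 * (H ^ (δ / 2) * H ^ (-δ)) * Y * Z := by ring
    _ ≤ K1 * H ^ (-δ') * Y * Z + K3 * K2 * H ^ (-δ') * Y * Z := by gcongr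
    _ = _ := by ring

/-! ### the theorem -/

lemma card_P_le {P : Finset Eis} {C : ℝ} (hC : 1 ≤ C) (hP : IsPP P C) : (P.card : ℝ) ≤ 32 * C := by
  have h1 : P ⊆ S (2 * C) := by
    intro p hp
    rw [mem_S (by linarith)]
    exact ⟨(hP p hp).2.2.2, (hP p hp).1, (hP p hp).2.1.squarefree⟩
  calc (P.card : ℝ) ≤ ((S (2 * C)).card : ℝ) := by exact_mod_cast Finset.card_le_card h1
    _ ≤ 16 * (2 * C) := GLS106.card_S_le (by linarith)
    _ = _ := by ring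

lemma norm_F_le {P : Finset Eis} {C : ℝ} (hC : 1 ≤ C) (hP : IsPP P C) {γ : Eis → ℂ}
    (hγ : ∀ p ∈ P, ‖γ p‖ ≤ 1) (h : Eis) : ‖F P γ h‖ ≤ 32 * C := by
  refine le_trans ?_ (card_P_le hC hP)
  unfold F
  calc ‖∑ c ∈ P, γ c * sy h c‖ ≤ ∑ c ∈ P, ‖γ c * sy h c‖ := norm_sum_le _ _
    _ ≤ ∑ c ∈ P, (1 : ℝ) := by
        refine Finset.sum_le_sum fun c hc => ?_
        rw [norm_mul]
        exact mul_le_one₀ (hγ c hc) (norm_nonneg _) (Gauss880.norm_sy_le syG (hP c hc).1)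
    _ = _ := by simp

/-- **(CR2-F)** -/
theorem savedMom_of_coreB (hCB : CR2.CoreB) : SavedMom := by
  intro j hj
  obtain ⟨δ1, K1, H₀, hδ1, hK1, hH₀, hE⟩ := E_bound hCB hj
  obtain ⟨δ2, K2, hδ2, hK2, hR⟩ := R_bound hj
  set δ := min δ1 δ2 with hδ
  have hδ0 : 0 < δ := by positivity
  set K := (2 * (j.factorial : ℝ) ^ 2 * K1 + 2 * K2) * 4 ^ j with hK
  set K' := 16 * H₀ * (32 * H₀ ^ (1.8 : ℝ)) ^ (2 * j) * H₀ ^ δ with hK'
  have hKp : 0 < K := by positivity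
  have hKp' : 0 < K' := by positivity
  refine ⟨δ, K + K', hδ0, by positivity, ?_⟩
  intro H C hH hC h1 h2 S' P hS hP γ hγ
  have hH0 : 0 < H := by linarith
  have hC0 : 0 < C := by linarith
  have hSS : S' ⊆ S H := GLS106.isSF_subset (by linarith) hS
  have hCj1 : 1 ≤ C ^ j := one_le_pow₀ hC
  by_cases hHH : H₀ ≤ H
  · -- large `H`
    have a1 := hE H C hHH hC h1 h2 P hP γ hγ
    have a2 := hR H C hH hC h1 h2 P hP γ hγ
    set Z : ℝ := (2 * C) ^ j with hZ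
    have hZ0 : 0 < Z := by positivity
    have b1 : H ^ (-δ1) ≤ H ^ (-δ) := Real.rpow_le_rpow_of_exponent_le hH (by
      have := min_le_left δ1 δ2; linarith)
    have b2 : H ^ (-δ2) ≤ H ^ (-δ) := Real.rpow_le_rpow_of_exponent_le hH (by
      have := min_le_right δ1 δ2; linarith)
    have b3 : (H * Z) ^ ((2 : ℝ) / 3) ≤ 2 ^ j * (H * C ^ j) ^ ((2 : ℝ) / 3) := by
      have e1 : H * Z = 2 ^ j * (H * C ^ j) := by rw [hZ, mul_pow]; ring
      rw [e1, Real.mul_rpow (by positivity) (by positivity)]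
      have : ((2 : ℝ) ^ j) ^ ((2 : ℝ) / 3) ≤ 2 ^ j := by
        calc ((2 : ℝ) ^ j) ^ ((2 : ℝ) / 3) ≤ ((2 : ℝ) ^ j) ^ (1 : ℝ) :=
              Real.rpow_le_rpow_of_exponent_le (one_le_pow₀ (by norm_num)) (by norm_num)
          _ = _ := Real.rpow_one _
      gcongr
    have b4 : Z = 2 ^ j * C ^ j := by rw [hZ, mul_pow]
    have h4j : (4 : ℝ) ^ j = 2 ^ j * 2 ^ j := by rw [← mul_pow]; norm_num
    calc ∑ h ∈ S', ‖F P γ h‖ ^ (2 * j) ≤ ∑ h ∈ S H, ‖F P γ h‖ ^ (2 * j) :=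
          Finset.sum_le_sum_of_subset_of_nonneg hSS fun _ _ _ => by positivity
      _ ≤ ∑ h ∈ S H, (2 * (j.factorial : ℝ) ^ 2 * ‖CR2.Eb (bset P γ j) Z h‖ ^ 2 +
          2 * ‖Rr P γ j h‖ ^ 2) :=
          Finset.sum_le_sum fun h hh => norm_F_pow_le hC hP γ j ((mem_S hH0.le).1 hh).2.1
      _ = 2 * (j.factorial : ℝ) ^ 2 * ∑ h ∈ S H, ‖CR2.Eb (bset P γ j) Z h‖ ^ 2 +
          2 * ∑ h ∈ S H, ‖Rr P γ j h‖ ^ 2 := by
          rw [Finset.sum_add_distrib, Finset.mul_sum, Finset.mul_sum]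
      _ ≤ 2 * (j.factorial : ℝ) ^ 2 * (K1 * H ^ (-δ1) * (H * Z) ^ ((2 : ℝ) / 3) * Z) +
          2 * (K2 * H ^ (-δ2) * (H * Z) ^ ((2 : ℝ) / 3) * Z) := by gcongr
      _ ≤ 2 * (j.factorial : ℝ) ^ 2 * (K1 * H ^ (-δ) * (2 ^ j * (H * C ^ j) ^ ((2 : ℝ) / 3)) *
          (2 ^ j * C ^ j)) +
          2 * (K2 * H ^ (-δ) * (2 ^ j * (H * C ^ j) ^ ((2 : ℝ) / 3)) * (2 ^ j * C ^ j)) := by
          rw [b4] at b3 ⊢
          gcongr
      _ = K * H ^ (-δ) * (H * C ^ j) ^ ((2 : ℝ) / 3) * C ^ j := by rw [hK, h4j]; ring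
      _ ≤ (K + K') * H ^ (-δ) * (H * C ^ j) ^ ((2 : ℝ) / 3) * C ^ j := by
          gcongr; linarith
  · -- small `H`
    have hHH' := (not_le.1 hHH).le
    have c1 : C ≤ H₀ ^ (1.8 : ℝ) := by
      calc C ≤ C ^ j := le_self_pow₀ hC (by omega)
        _ ≤ H ^ (1.8 : ℝ) := h2
        _ ≤ _ := Real.rpow_le_rpow hH0.le hHH' (by norm_num)
    have c2 : ∀ h ∈ S', ‖F P γ h‖ ^ (2 * j) ≤ (32 * H₀ ^ (1.8 : ℝ)) ^ (2 * j) := by
      intro h _
      apply pow_le_pow_left₀ (norm_nonneg _)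
      exact (norm_F_le hC hP hγ h).trans (by gcongr)
    have c3 : (S'.card : ℝ) ≤ 16 * H₀ := by
      calc (S'.card : ℝ) ≤ ((S H).card : ℝ) := by exact_mod_cast Finset.card_le_card hSS
        _ ≤ 16 * H := GLS106.card_S_le hH
        _ ≤ _ := by gcongr
    have c4 : 1 ≤ (H * C ^ j) ^ ((2 : ℝ) / 3) * C ^ j := by
      refine one_le_mul_of_one_le_of_one_le ?_ hCj1
      exact Real.one_le_rpow (one_le_mul_of_one_le_of_one_le hH hCj1) (by norm_num)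
    have c5 : 1 ≤ H₀ ^ δ * H ^ (-δ) := by
      rw [Real.rpow_neg hH0.le, ← div_eq_mul_inv, le_div_iff₀ (by positivity), one_mul]
      exact Real.rpow_le_rpow hH0.le hHH' hδ0.le
    calc ∑ h ∈ S', ‖F P γ h‖ ^ (2 * j) ≤ ∑ h ∈ S', (32 * H₀ ^ (1.8 : ℝ)) ^ (2 * j) :=
          Finset.sum_le_sum c2
      _ = (S'.card : ℝ) * (32 * H₀ ^ (1.8 : ℝ)) ^ (2 * j) := by
          rw [Finset.sum_const, nsmul_eq_mul]
      _ ≤ 16 * H₀ * (32 * H₀ ^ (1.8 : ℝ)) ^ (2 * j) := by gcongr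
      _ = 16 * H₀ * (32 * H₀ ^ (1.8 : ℝ)) ^ (2 * j) * 1 * 1 := by ring
      _ ≤ 16 * H₀ * (32 * H₀ ^ (1.8 : ℝ)) ^ (2 * j) * (H₀ ^ δ * H ^ (-δ)) *
          ((H * C ^ j) ^ ((2 : ℝ) / 3) * C ^ j) := by gcongr
      _ = K' * H ^ (-δ) * (H * C ^ j) ^ ((2 : ℝ) / 3) * C ^ j := by rw [hK']; ring
      _ ≤ (K + K') * H ^ (-δ) * (H * C ^ j) ^ ((2 : ℝ) / 3) * C ^ j := by
          gcongr; linarith

end Crest.Agent.R012.CR2F811
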