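import Crest.Agent.R012.CR2SpecB_180
import Crest.Agent.R012.CRA_106
import Crest.Agent.R012.BilG_811
import Crest.Agent.R012.GaussInst_880
import Crest.Agent.R012.Sym6_645

/-!
# Row 12 (CR2-F, helper277), part a: coefficients of powers of prime sums and the bilinear bound

`bc P γ j n = Σ_{x ∈ P^j, ∏ x = n} ∏ γ(x_i)`.
-/

set_option autoImplicit false

noncomputable section

open Finset
open scoped ComplexConjugate

namespace Crest.Agent.R012.CR2F277

open Crest.Agent.R012 Crest.Agent.R012.Eis Crest.Agent.R012.LS2 Crest.Agent.R012.Mob705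
  Crest.Agent.R012.GLS106

/-- `j`-tuples of elements of `P`. -/
abbrev TT (P : Finset Eis) (j : ℕ) : Finset (Fin j → Eis) := Fintype.piFinset (fun _ : Fin j => P)

open Classical in
/-- coefficient of `n` in the `j`-th power of `Σ_{p ∈ P} γ_p [p]`. -/
def bc (P : Finset Eis) (γ : Eis → ℂ) (j : ℕ) (n : Eis) : ℂ :=
  ∑ x ∈ (TT P j).filter (fun x => ∏ i, x i = n), ∏ i, γ (x i)

variable {P : Finset Eis} {γ : Eis → ℂ}

lemma norm_prod_le_one {j : ℕ} (hγ : ∀ p ∈ P, ‖γ p‖ ≤ 1) {x : Fin j → Eis} (hx : x ∈ TT P j) :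
    ‖∏ i, γ (x i)‖ ≤ 1 := by
  rw [norm_prod]
  exact Finset.prod_le_one (fun _ _ => norm_nonneg _)
    (fun i _ => hγ _ (Fintype.mem_piFinset.mp hx i))

lemma tuple_prim (hP : ∀ p ∈ P, IsPP p) {j : ℕ} {x : Fin j → Eis} (hx : x ∈ TT P j) :
    IsPrim (∏ i, x i) :=
  isPrim_prod x (fun i => (hP _ (Fintype.mem_piFinset.mp hx i)).isPrim)

/-- the number of `j`-tuples with a given product is at most `j^j`. -/
lemma norm_bc_le (hP : ∀ p ∈ P, IsPP p) (hγ : ∀ p ∈ P, ‖γ p‖ ≤ 1) (j : ℕ) (n : Eis) :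
    ‖bc P γ j n‖ ≤ (j : ℝ) ^ j := by
  classical
  set A := (TT P j).filter (fun x => ∏ i, x i = n) with hA
  have h1 : ‖bc P γ j n‖ ≤ (A.card : ℝ) := by
    unfold bc
    refine (norm_sum_le_of_le _ (n := fun _ => 1) ?_).trans ?_
    · intro x hx
      exact norm_prod_le_one hγ (mem_filter.mp hx).1
    · simp [hA]
  rcases A.eq_empty_or_nonempty with h0 | ⟨x0, hx0⟩
  · rw [h0] at h1
    simp only [card_empty, Nat.cast_zero] at h1
    exact h1.trans (by positivity)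
  have hx0' := mem_filter.mp hx0
  have hn : IsPrim n := hx0'.2 ▸ tuple_prim hP hx0'.1
  have hn0 : n ≠ 0 := hn.ne_zero
  have hpp : pp n ⊆ univ.image x0 := by
    intro p hp
    rw [mem_pp hn0] at hp
    have h2 := hp.2
    rw [← hx0'.2] at h2
    obtain ⟨i, _, hi⟩ := (hp.1.prime.dvd_finsetProd_iff _).mp h2
    rw [mem_image]
    exact ⟨i, mem_univ _, (hp.1.eq_of_dvd (hP _ (Fintype.mem_piFinset.mp hx0'.1 i)) hi).symm⟩
  have hcard : (pp n).card ≤ j := by
    refine (card_le_card hpp).trans (card_image_le.trans ?_)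
    simp
  have hsub : A ⊆ TT (pp n) j := by
    intro x hx
    have hx' := mem_filter.mp hx
    rw [Fintype.mem_piFinset]
    intro i
    rw [mem_pp hn0]
    refine ⟨hP _ (Fintype.mem_piFinset.mp hx'.1 i), ?_⟩
    rw [← hx'.2]
    exact dvd_prod_of_mem _ (mem_univ i)
  have h2 : A.card ≤ j ^ j := by
    refine (card_le_card hsub).trans ?_
    rw [Fintype.card_piFinset]
    simp only [prod_const, card_univ, Fintype.card_fin]
    exact Nat.pow_le_pow_left hcard j
  exact h1.trans (by exact_mod_cast h2)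

lemma tuple_nm_le {C : ℝ} (hP : ∀ p ∈ P, (nm p : ℝ) ≤ C) {j : ℕ} {x : Fin j → Eis}
    (hx : x ∈ TT P j) : (nm (∏ i, x i) : ℝ) ≤ C ^ j := by
  rw [GLS106.nm_prod]
  push_cast
  calc ∏ i, (nm (x i) : ℝ) ≤ ∏ _i : Fin j, C :=
        prod_le_prod (fun _ _ => by positivity) (fun i _ => hP _ (Fintype.mem_piFinset.mp hx i))
    _ = C ^ j := by simp

lemma tuple_lt_nm {C : ℝ} (hC : 0 ≤ C) (hP : ∀ p ∈ P, C ≤ (nm p : ℝ)) {j : ℕ} {x : Fin j → Eis}
    (hx : x ∈ TT P j) : C ^ j ≤ (nm (∏ i, x i) : ℝ) := by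
  rw [GLS106.nm_prod]
  push_cast
  calc C ^ j = ∏ _i : Fin j, C := by simp
    _ ≤ ∏ i, (nm (x i) : ℝ) :=
      prod_le_prod (fun _ _ => hC) (fun i _ => hP _ (Fintype.mem_piFinset.mp hx i))

/-- **Lemma B**: sums against functions vanishing off squarefree elements. -/
lemma sum_bc_mul (hP : ∀ p ∈ P, IsPP p) {C Z : ℝ} (hC : ∀ p ∈ P, (nm p : ℝ) ≤ C) (j : ℕ)
    (hZ : C ^ j ≤ Z) (hZ0 : 0 ≤ Z) (W : Eis → ℂ) (hW : ∀ n, IsPrim n → ¬ Squarefree n → W n = 0) :
    ∑ n ∈ S Z, bc P γ j n * W n = ∑ x ∈ TT P j, (∏ i, γ (x i)) * W (∏ i, x i) := by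
  classical
  have e1 : ∑ x ∈ TT P j, (∏ i, γ (x i)) * W (∏ i, x i) =
      ∑ x ∈ (TT P j).filter (fun x => Squarefree (∏ i, x i)),
        (∏ i, γ (x i)) * W (∏ i, x i) := by
    rw [Finset.sum_filter]
    refine sum_congr rfl fun x hx => ?_
    by_cases h : Squarefree (∏ i, x i)
    · rw [if_pos h]
    · rw [if_neg h, hW _ (tuple_prim hP hx) h, mul_zero]
  rw [e1, ← Finset.sum_fiberwise_of_maps_to (t := S Z) (g := fun x : Fin j → Eis => ∏ i, x i)]
  · refine sum_congr rfl fun n hn => ?_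
    have hns : Squarefree n := ((mem_S hZ0).mp hn).2.2
    unfold bc
    rw [Finset.sum_mul, Finset.filter_filter]
    refine sum_congr ?_ ?_
    · ext x
      simp only [mem_filter]
      constructor
      · rintro ⟨h1, h2⟩; exact ⟨h1, by rw [h2]; exact hns, h2⟩
      · rintro ⟨h1, _, h2⟩; exact ⟨h1, h2⟩
    · intro x hx
      rw [(mem_filter.mp hx).2.2]
  · intro x hx
    rw [mem_filter] at hx
    rw [mem_S hZ0]
    exact ⟨(tuple_nm_le hC hx.1).trans hZ, tuple_prim hP hx.1, hx.2⟩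

/-- **Lemma C**: splitting off one coordinate. -/
lemma sum_tuple_succ (k : ℕ) (W : Eis → ℂ) :
    ∑ x ∈ TT P (k + 1), (∏ i, γ (x i)) * W (∏ i, x i) =
      ∑ c ∈ P, ∑ y ∈ TT P k, γ c * ((∏ i, γ (y i)) * W (c * ∏ i, y i)) := by
  classical
  rw [← Finset.sum_product']
  refine Finset.sum_nbij' (fun x => (x 0, Fin.tail x)) (fun p => Fin.cons p.1 p.2) ?_ ?_ ?_ ?_ ?_
  · intro x hx
    rw [Fintype.mem_piFinset] at hx
    rw [mem_product, Fintype.mem_piFinset]
    exact ⟨hx 0, fun i => hx i.succ⟩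
  · rintro ⟨c, y⟩ h
    rw [mem_product, Fintype.mem_piFinset] at h
    rw [Fintype.mem_piFinset]
    intro i
    refine Fin.cases ?_ (fun i => ?_) i
    · simpa using h.1
    · simpa using h.2 i
  · intro x _; simp
  · rintro ⟨c, y⟩ _; simp
  · intro x _
    rw [Fin.prod_univ_succ, Fin.prod_univ_succ (fun i => x i)]
    simp only [Fin.tail]
    ring

/-- the weight `N(n)^{-1/6} φ(n)`. -/
def wt (n : Eis) : ℝ := (nm n : ℝ) ^ (-(1 : ℝ) / 6) * CR2.phi n

lemma phi_nonneg (n : Eis) : 0 ≤ CR2.phi n := by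
  unfold CR2.phi
  exact prod_nonneg (fun p _ => by positivity)

lemma phi_le_one (n : Eis) : CR2.phi n ≤ 1 := by
  unfold CR2.phi
  refine prod_le_one (fun p _ => by positivity) (fun p _ => ?_)
  apply inv_le_one_of_one_le₀
  have : (0 : ℝ) ≤ 1 / (nm p : ℝ) := by positivity
  linarith

lemma wt_nonneg (n : Eis) : 0 ≤ wt n := mul_nonneg (by positivity) (phi_nonneg n)

lemma wt_le (n : Eis) : wt n ≤ (nm n : ℝ) ^ (-(1 : ℝ) / 6) :=
  mul_le_of_le_one_right (by positivity) (phi_le_one n)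

lemma phi_mul {a b : Eis} (ha : a ≠ 0) (hb : b ≠ 0) (h : IsCoprime a b) :
    CR2.phi (a * b) = CR2.phi a * CR2.phi b := by
  classical
  unfold CR2.phi
  rw [pp_mul ha hb, prod_union (pp_disjoint h)]

lemma wt_mul {a b : Eis} (ha : a ≠ 0) (hb : b ≠ 0) (h : IsCoprime a b) :
    wt (a * b) = wt a * wt b := by
  unfold wt
  rw [phi_mul ha hb h, nm_mul]
  push_cast
  rw [Real.mul_rpow (by positivity) (by positivity)]
  ring

/-- the function paired with the coefficients. -/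
def WW (r n : Eis) : ℂ := conj (sy r n) * G n * (wt n : ℂ)

lemma WW_zero (r : Eis) {n : Eis} (hn : IsPrim n) (h : ¬ Squarefree n) : WW r n = 0 := by
  have : G n = 0 := Gauss880.G_eq_zero Gauss880.syG hn h
  unfold WW
  rw [this]; ring

lemma gFacts : BilG811.GFacts where
  mul c d hc hd _ := Gauss880.G_mul_all Gauss880.syG hc hd
  nonsq _ hc h := Gauss880.G_eq_zero Gauss880.syG hc h
  norm_le _ hc := Gauss880.norm_G_le Gauss880.syG hc

lemma WW_mul (r : Eis) {c d : Eis} (hc : IsPrim c) (hd : IsPrim d) :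
    WW r (c * d) = ((wt c : ℂ) * (wt d : ℂ)) * (G (c * d) * (conj (sy r c) * conj (sy r d))) := by
  by_cases h : Squarefree (c * d)
  · have hcop : IsCoprime c d := (squarefree_mul_iff.mp h).1.isCoprime
    unfold WW
    rw [wt_mul hc.ne_zero hd.ne_zero hcop, Sym645.syFacts.mul_right r c d hc hd, map_mul]
    push_cast
    ring
  · have : G (c * d) = 0 := Gauss880.G_eq_zero Gauss880.syG (hc.mul hd) h
    rw [WW_zero r (hc.mul hd) h, this]; ring

end Crest.Agent.R012.CR2F277
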