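import Crest.Agent.R012.CR2Fa_277

/-!
# Row 12 (CR2-F, helper277), part b: the bilinear bound
-/

set_option autoImplicit false

noncomputable section

open Finset
open scoped ComplexConjugate

namespace Crest.Agent.R012.CR2F277

open Crest.Agent.R012 Crest.Agent.R012.Eis Crest.Agent.R012.LS2 Crest.Agent.R012.Mob705
  Crest.Agent.R012.GLS106

lemma bil_conj (r : Eis) (b : Eis → ℂ) (Z : ℝ) :
    ‖∑ n ∈ S Z, conj (b n) * (sy r n * conj (G n) *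
      ((nm n : ℝ) ^ (-(1 : ℝ) / 6) * CR2.phi n : ℝ))‖ = ‖∑ n ∈ S Z, b n * WW r n‖ := by
  rw [← RCLike.norm_conj]
  congr 1
  rw [map_sum]
  refine sum_congr rfl fun n _ => ?_
  simp only [map_mul, Complex.conj_conj, Complex.conj_ofReal]
  unfold WW wt
  ring

/-- rewriting of the linear form as a bilinear form. -/
lemma bil_rw {P : Finset Eis} {γ : Eis → ℂ} (hP : ∀ p ∈ P, IsPP p) {y : ℝ} (hy : 0 ≤ y)
    (hPy : ∀ p ∈ P, (nm p : ℝ) ≤ y) (k : ℕ) (r : Eis) :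
    ∑ n ∈ S (y ^ (k + 1)), bc P γ (k + 1) n * WW r n =
      ∑ c ∈ P, ∑ d ∈ S (y ^ k), (γ c * (wt c : ℂ)) * (bc P γ k d * (wt d : ℂ)) *
        (G (c * d) * (conj (sy r c) * conj (sy r d))) := by
  rw [sum_bc_mul hP hPy (k + 1) le_rfl (by positivity) (WW r) (fun n hn h => WW_zero r hn h),
    sum_tuple_succ]
  refine sum_congr rfl fun c hc => ?_
  have hcp : IsPrim c := (hP c hc).isPrim
  have h1 := sum_bc_mul (γ := γ) hP hPy k (Z := y ^ k) le_rfl (by positivity)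
    (fun d => γ c * WW r (c * d)) (fun n hn h => by
      rw [WW_zero r (hcp.mul hn) (fun h2 => h (h2.of_mul_right)), mul_zero])
  have h2 : ∑ y ∈ TT P k, γ c * ((∏ i, γ (y i)) * WW r (c * ∏ i, y i)) =
      ∑ x ∈ TT P k, (∏ i, γ (x i)) * (γ c * WW r (c * ∏ i, x i)) :=
    sum_congr rfl fun x _ => by ring
  rw [h2, ← h1]
  refine sum_congr rfl fun d hd => ?_
  have hdp : IsPrim d := ((mem_S (by positivity)).mp hd).2.1
  rw [WW_mul r hcp hdp]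
  ring

lemma wt_sq_le {n : Eis} {A : ℝ} (hA : 0 < A) (h : A ≤ (nm n : ℝ)) :
    wt n ^ 2 ≤ A ^ (-(1 : ℝ) / 3) := by
  have h1 : wt n ≤ A ^ (-(1 : ℝ) / 6) :=
    (wt_le n).trans (Real.rpow_le_rpow_of_nonpos hA h (by norm_num))
  calc wt n ^ 2 ≤ (A ^ (-(1 : ℝ) / 6)) ^ 2 := pow_le_pow_left₀ (wt_nonneg n) h1 2
    _ = A ^ (-(1 : ℝ) / 3) := by
      rw [← Real.rpow_natCast, ← Real.rpow_mul hA.le]; norm_num

lemma bc_ne_zero {P : Finset Eis} {γ : Eis → ℂ} {j : ℕ} {n : Eis} (h : bc P γ j n ≠ 0) :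
    ∃ x ∈ TT P j, ∏ i, x i = n := by
  unfold bc at h
  obtain ⟨x, hx, _⟩ := exists_ne_zero_of_sum_ne_zero h
  rw [mem_filter] at hx
  exact ⟨x, hx.1, hx.2⟩

/-- **the bilinear bound** -/
theorem bil (HL : LS2.Final) (k : ℕ) (hk : 1 ≤ k) : ∃ K : ℝ, 0 < K ∧ ∀ C : ℝ, 1 ≤ C →
    ∀ P : Finset Eis, (∀ p ∈ P, IsPP p) → (∀ p ∈ P, C ≤ (nm p : ℝ) ∧ (nm p : ℝ) ≤ 2 * C) →
    ∀ γ : Eis → ℂ, (∀ p ∈ P, ‖γ p‖ ≤ 1) → ∀ r : Eis,
    ‖∑ n ∈ S ((2 * C) ^ (k + 1)), bc P γ (k + 1) n * WW r n‖ ≤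
      K * ((2 * C) ^ (k + 1)) ^ ((5 : ℝ) / 6) * (2 * C) ^ (-(1 : ℝ) / 6) := by
  set ε : ℝ := 1 / (3 * (k + 1)) with hε
  have hεp : 0 < ε := by positivity
  obtain ⟨K, hK, hb⟩ := BilG811.bil_G_tw Sym645.syFacts gFacts HL hεp
  set A : ℝ := 32 * (3 * K * (16 * (2 : ℝ) ^ ((k : ℝ) / 3) * ((k : ℝ) ^ k) ^ 2)) with hA
  refine ⟨Real.sqrt A + 1, by positivity, fun C hC P hP hPC γ hγ r => ?_⟩
  set y : ℝ := 2 * C with hy
  have hy1 : 1 ≤ y := by linarith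
  have hy0 : 0 < y := by linarith
  have hC0 : 0 < C := by linarith
  have hyk : 1 ≤ y ^ k := one_le_pow₀ hy1
  rw [bil_rw hP hy0.le (fun p hp => (hPC p hp).2)]
  have h1 := hb y (y ^ k) hy1 hyk P (S (y ^ k))
    (fun p hp => ⟨(hP p hp).isPrim, (hP p hp).prime.squarefree, (hPC p hp).2⟩)
    (fun d hd => by
      have := (mem_S (by positivity)).mp hd
      exact ⟨this.2.1, this.2.2, this.1⟩)
    (fun c => γ c * (wt c : ℂ)) (fun d => bc P γ k d * (wt d : ℂ))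
    (fun c => conj (sy r c)) (fun d => conj (sy r d))
    (fun c hc => by
      rw [RCLike.norm_conj]
      exact syF.norm_le r c (hP c hc).isPrim)
    (fun d hd => by
      rw [RCLike.norm_conj]
      exact syF.norm_le r d ((mem_S (by positivity)).mp hd).2.1)
  refine h1.trans ?_
  -- the two `ℓ²` norms
  have hg : ∑ c ∈ P, ‖γ c * (wt c : ℂ)‖ ^ 2 ≤ 32 * y ^ ((2 : ℝ) / 3) := by
    have hcard : (#P : ℝ) ≤ 16 * y := by
      refine le_trans ?_ (card_S_le hy1)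
      have : P ⊆ S y := fun p hp => (mem_S hy0.le).mpr
        ⟨(hPC p hp).2, (hP p hp).isPrim, (hP p hp).prime.squarefree⟩
      exact_mod_cast card_le_card this
    calc ∑ c ∈ P, ‖γ c * (wt c : ℂ)‖ ^ 2 ≤ ∑ _c ∈ P, C ^ (-(1 : ℝ) / 3) := by
          refine sum_le_sum fun c hc => ?_
          rw [norm_mul, mul_pow, Complex.norm_real, Real.norm_eq_abs, sq_abs]
          have a1 : ‖γ c‖ ^ 2 ≤ 1 := pow_le_one₀ (norm_nonneg _) (hγ c hc)
          calc ‖γ c‖ ^ 2 * wt c ^ 2 ≤ 1 * wt c ^ 2 := by gcongr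
            _ = wt c ^ 2 := one_mul _
            _ ≤ _ := wt_sq_le hC0 (hPC c hc).1
      _ = #P * C ^ (-(1 : ℝ) / 3) := by rw [sum_const, nsmul_eq_mul]
      _ ≤ 16 * y * C ^ (-(1 : ℝ) / 3) := by gcongr
      _ = 16 * y * (y / 2) ^ (-(1 : ℝ) / 3) := by rw [hy]; congr 2; ring
      _ ≤ 32 * y ^ ((2 : ℝ) / 3) := by
          rw [Real.div_rpow hy0.le (by norm_num)]
          have e1 : y ^ ((2 : ℝ) / 3) = y * y ^ (-(1 : ℝ) / 3) := by
            rw [← Real.rpow_one_add' hy0.le (by norm_num)]; norm_num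
          rw [e1]
          have e2 : (1 : ℝ) / 2 ≤ (2 : ℝ) ^ (-(1 : ℝ) / 3) := by
            rw [one_div, ← Real.rpow_neg_one]
            exact Real.rpow_le_rpow_of_exponent_le (by norm_num) (by norm_num)
          have e3 : 0 < y * y ^ (-(1 : ℝ) / 3) := by positivity
          rw [mul_div_assoc', div_le_iff₀ (by positivity)]
          nlinarith
  have hh : ∑ d ∈ S (y ^ k), ‖bc P γ k d * (wt d : ℂ)‖ ^ 2 ≤
      16 * (2 : ℝ) ^ ((k : ℝ) / 3) * ((k : ℝ) ^ k) ^ 2 * (y ^ k) ^ ((2 : ℝ) / 3) := by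
    have hCk : 0 < C ^ k := by positivity
    calc ∑ d ∈ S (y ^ k), ‖bc P γ k d * (wt d : ℂ)‖ ^ 2
        ≤ ∑ _d ∈ S (y ^ k), ((k : ℝ) ^ k) ^ 2 * (C ^ k) ^ (-(1 : ℝ) / 3) := by
          refine sum_le_sum fun d _ => ?_
          by_cases h0 : bc P γ k d = 0
          · rw [h0, zero_mul, norm_zero, zero_pow (by norm_num)]; positivity
          obtain ⟨x, hx, rfl⟩ := bc_ne_zero h0
          rw [norm_mul, mul_pow, Complex.norm_real, Real.norm_eq_abs, sq_abs]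
          refine mul_le_mul (pow_le_pow_left₀ (norm_nonneg _) (norm_bc_le hP hγ k _) 2)
            (wt_sq_le hCk (tuple_lt_nm hC0.le (fun p hp => (hPC p hp).1) hx)) (by positivity)
            (by positivity)
      _ = #(S (y ^ k)) * (((k : ℝ) ^ k) ^ 2 * (C ^ k) ^ (-(1 : ℝ) / 3)) := by
          rw [sum_const, nsmul_eq_mul]
      _ ≤ (16 * y ^ k) * (((k : ℝ) ^ k) ^ 2 * (C ^ k) ^ (-(1 : ℝ) / 3)) := by
          gcongr
          exact card_S_le hyk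
      _ = 16 * (2 : ℝ) ^ ((k : ℝ) / 3) * ((k : ℝ) ^ k) ^ 2 * (y ^ k) ^ ((2 : ℝ) / 3) := by
          have e1 : C ^ k = y ^ k / 2 ^ k := by rw [hy, mul_pow]; field_simp
          have e2 : (y ^ k) ^ ((2 : ℝ) / 3) = y ^ k * (y ^ k) ^ (-(1 : ℝ) / 3) := by
            rw [← Real.rpow_one_add' (by linarith) (by norm_num)]; norm_num
          have e3 : ((2 : ℝ) ^ k) ^ (-(1 : ℝ) / 3) = ((2 : ℝ) ^ ((k : ℝ) / 3))⁻¹ := by
            rw [← Real.rpow_natCast, ← Real.rpow_mul (by norm_num), ← Real.rpow_neg (by norm_num)]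
            congr 1; ring
          rw [e1, Real.div_rpow (by positivity) (by positivity), e2, e3]
          field_simp
  -- `hbB`
  have hk' : (1 : ℝ) ≤ k := by exact_mod_cast hk
  have hB : BilG811.hbB ε K y (y ^ k) ≤ 3 * K * y ^ ((k : ℝ) + 2 / 3) := by
    unfold BilG811.hbB
    have e0 : y * y ^ k = y ^ ((k : ℝ) + 1) := by
      rw [Real.rpow_add_one hy0.ne', Real.rpow_natCast]; ring
    rw [e0, ← Real.rpow_mul hy0.le, ← Real.rpow_mul hy0.le]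
    have e1 : ((k : ℝ) + 1) * ε = 1 / 3 := by rw [hε]; field_simp
    rw [e1]
    have e4 : y ^ ((k : ℝ) + 2 / 3) = y ^ ((1 : ℝ) / 3) * y ^ ((k : ℝ) + 1 / 3) := by
      rw [← Real.rpow_add hy0]; congr 1; ring
    have e2 : y ≤ y ^ ((k : ℝ) + 1 / 3) := by
      calc y = y ^ (1 : ℝ) := (Real.rpow_one y).symm
        _ ≤ _ := Real.rpow_le_rpow_of_exponent_le hy1 (by linarith)
    have e3 : y ^ k ≤ y ^ ((k : ℝ) + 1 / 3) := by
      rw [← Real.rpow_natCast]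
      exact Real.rpow_le_rpow_of_exponent_le hy1 (by linarith)
    have e5 : y ^ (((k : ℝ) + 1) * (2 / 3)) ≤ y ^ ((k : ℝ) + 1 / 3) :=
      Real.rpow_le_rpow_of_exponent_le hy1 (by linarith)
    rw [e4]
    calc K * y ^ ((1 : ℝ) / 3) * (y + y ^ k + y ^ (((k : ℝ) + 1) * (2 / 3)))
        ≤ K * y ^ ((1 : ℝ) / 3) * (y ^ ((k : ℝ) + 1 / 3) + y ^ ((k : ℝ) + 1 / 3) +
          y ^ ((k : ℝ) + 1 / 3)) := by gcongr
      _ = _ := by ring
  rw [← Real.sqrt_mul (by positivity)]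
  have hfin : (∑ c ∈ P, ‖γ c * (wt c : ℂ)‖ ^ 2) *
      (BilG811.hbB ε K y (y ^ k) * ∑ d ∈ S (y ^ k), ‖bc P γ k d * (wt d : ℂ)‖ ^ 2) ≤
      A * (((y ^ (k + 1)) ^ ((5 : ℝ) / 6) * y ^ (-(1 : ℝ) / 6))) ^ 2 := by
    have e1 : (((y ^ (k + 1)) ^ ((5 : ℝ) / 6) * y ^ (-(1 : ℝ) / 6))) ^ 2 =
        y ^ ((2 : ℝ) / 3) * (y ^ ((k : ℝ) + 2 / 3) * (y ^ k) ^ ((2 : ℝ) / 3)) := by
      rw [← Real.rpow_natCast y (k + 1), ← Real.rpow_natCast y k, ← Real.rpow_natCast _ 2,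
        ← Real.rpow_mul hy0.le, ← Real.rpow_mul hy0.le, ← Real.rpow_add hy0,
        ← Real.rpow_mul hy0.le, ← Real.rpow_add hy0, ← Real.rpow_add hy0]
      congr 1
      push_cast
      ring
    rw [e1]
    have h0 : 0 ≤ BilG811.hbB ε K y (y ^ k) :=
      BilG811.hbB_nonneg hK.le hy0.le (by positivity)
    calc (∑ c ∈ P, ‖γ c * (wt c : ℂ)‖ ^ 2) *
          (BilG811.hbB ε K y (y ^ k) * ∑ d ∈ S (y ^ k), ‖bc P γ k d * (wt d : ℂ)‖ ^ 2)
        ≤ (32 * y ^ ((2 : ℝ) / 3)) * ((3 * K * y ^ ((k : ℝ) + 2 / 3)) *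
          (16 * (2 : ℝ) ^ ((k : ℝ) / 3) * ((k : ℝ) ^ k) ^ 2 * (y ^ k) ^ ((2 : ℝ) / 3))) :=
          mul_le_mul hg (mul_le_mul hB hh (by positivity) (by positivity))
            (mul_nonneg h0 (by positivity)) (by positivity)
      _ = _ := by rw [hA]; ring
  refine (Real.sqrt_le_sqrt hfin).trans ?_
  rw [Real.sqrt_mul' _ (by positivity), Real.sqrt_sq (by positivity)]
  calc Real.sqrt A * ((y ^ (k + 1)) ^ ((5 : ℝ) / 6) * y ^ (-(1 : ℝ) / 6))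
      ≤ (Real.sqrt A + 1) * ((y ^ (k + 1)) ^ ((5 : ℝ) / 6) * y ^ (-(1 : ℝ) / 6)) := by
        gcongr; linarith
    _ = _ := by ring

end Crest.Agent.R012.CR2F277
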