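import Crest.Agent.R012.CR2Fb_277

/-!
# Row 12 (CR2-F, helper277), part c: splitting of the powers, dyadic blocks
-/

set_option autoImplicit false

noncomputable section

open Finset
open scoped ComplexConjugate

namespace Crest.Agent.R012.CR2F277

open Crest.Agent.R012 Crest.Agent.R012.Eis Crest.Agent.R012.LS2 Crest.Agent.R012.Mob705
  Crest.Agent.R012.GLS106

/-- the tuples with squarefree product. -/
def Tsq (P : Finset Eis) (j : ℕ) : Finset (Fin j → Eis) := by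
  classical exact (TT P j).filter (fun x => Squarefree (∏ i, x i))

/-- the tuples with non-squarefree product. -/
def Tns (P : Finset Eis) (j : ℕ) : Finset (Fin j → Eis) := by
  classical exact (TT P j).filter (fun x => ¬ Squarefree (∏ i, x i))

lemma mem_Tsq {P : Finset Eis} {j : ℕ} {x : Fin j → Eis} :
    x ∈ Tsq P j ↔ x ∈ TT P j ∧ Squarefree (∏ i, x i) := by
  classical
  unfold Tsq; rw [mem_filter]

lemma mem_Tns {P : Finset Eis} {j : ℕ} {x : Fin j → Eis} :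
    x ∈ Tns P j ↔ x ∈ TT P j ∧ ¬ Squarefree (∏ i, x i) := by
  classical
  unfold Tns; rw [mem_filter]

lemma Tsq_sub (P : Finset Eis) (j : ℕ) : Tsq P j ⊆ TT P j := fun _ h => (mem_Tsq.mp h).1
lemma Tns_sub (P : Finset Eis) (j : ℕ) : Tns P j ⊆ TT P j := fun _ h => (mem_Tns.mp h).1

lemma Eb_eq {P : Finset Eis} {γ : Eis → ℂ} (hP : ∀ p ∈ P, IsPP p) {y : ℝ} (hy : 0 ≤ y)
    (hPy : ∀ p ∈ P, (nm p : ℝ) ≤ y) (j : ℕ) (h : Eis) :
    CR2.Eb (bc P γ j) (y ^ j) h = ∑ x ∈ Tsq P j, (∏ i, γ (x i)) * sy (∏ i, x i) h := by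
  classical
  have h1 := sum_bc_mul (γ := γ) hP hPy j (Z := y ^ j) le_rfl (by positivity)
    (fun n => if Squarefree n then sy n h else 0) (fun n _ hn => if_neg hn)
  unfold CR2.Eb
  have h2 : ∑ n ∈ S (y ^ j), bc P γ j n * sy n h =
      ∑ n ∈ S (y ^ j), bc P γ j n * (if Squarefree n then sy n h else 0) := by
    refine sum_congr rfl fun n hn => ?_
    rw [if_pos ((mem_S (by positivity)).mp hn).2.2]
  rw [h2, h1]
  unfold Tsq
  rw [sum_filter]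
  refine sum_congr rfl fun x _ => ?_
  split_ifs <;> simp

lemma pow_split {P : Finset Eis} {γ : Eis → ℂ} (hP : ∀ p ∈ P, IsPP p) {y : ℝ} (hy : 0 ≤ y)
    (hPy : ∀ p ∈ P, (nm p : ℝ) ≤ y) (j : ℕ) {h : Eis} (hh : IsPrim h) :
    (CR290.F P γ h) ^ j = CR2.Eb (bc P γ j) (y ^ j) h +
      ∑ x ∈ Tns P j, (∏ i, γ (x i)) * sy (∏ i, x i) h := by
  classical
  have e1 : CR290.F P γ h = ∑ c ∈ P, γ c * sy c h :=
    sum_congr rfl fun n hn => by rw [syF.recip n h (hP n hn).isPrim hh]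
  rw [e1, pow_sum P γ j hh, Eb_eq hP hy hPy]
  unfold Tsq Tns
  rw [sum_filter_add_sum_filter_not]

lemma Tns_sq {P : Finset Eis} (hP : ∀ p ∈ P, IsPP p) {C : ℝ}
    (hC : ∀ p ∈ P, C < (nm p : ℝ)) {j : ℕ} {x : Fin j → Eis} (hx : x ∈ Tns P j) :
    ∃ d : Eis, C ≤ (nm d : ℝ) ∧ d ^ 2 ∣ ∏ i, x i := by
  classical
  rw [mem_Tns] at hx
  have hxP := fun i => Fintype.mem_piFinset.mp hx.1 i
  have h1 : ∃ i i', i ≠ i' ∧ x i = x i' := by
    by_contra hcon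
    push Not at hcon
    apply hx.2
    refine Finset.squarefree_prod_of_pairwise_isCoprime ?_ (fun i _ => (hP _ (hxP i)).prime.squarefree)
    intro i _ i' _ hne
    exact ((hP _ (hxP i)).isCoprime (hP _ (hxP i')) (hcon i i' hne)).isRelPrime
  obtain ⟨i, i', hne, he⟩ := h1
  refine ⟨x i, (hC _ (hxP i)).le, ?_⟩
  rw [← mul_prod_erase univ x (mem_univ i), pow_two]
  refine mul_dvd_mul_left _ ?_
  rw [he]
  exact dvd_prod_of_mem _ (mem_erase.mpr ⟨hne.symm, mem_univ _⟩)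

/-- halving: dyadic decomposition of a sum over `S H`. -/
lemma dyadic {f : Eis → ℝ} {B H : ℝ} (hH : 0 ≤ H) (i : ℕ)
    (hb : ∀ m : ℕ, m < i → ∑ h ∈ (S (2 * (H / 2 ^ (m + 1)))).filter
      (fun h => H / 2 ^ (m + 1) < (nm h : ℝ)), f h ≤ B) :
    ∑ h ∈ S H, f h ≤ ∑ h ∈ S (H / 2 ^ i), f h + i * B := by
  classical
  induction i with
  | zero => simp
  | succ i ih =>
    have h1 := ih (fun m hm => hb m (by omega))
    have h2 := hb i (by omega)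
    have e1 : 2 * (H / 2 ^ (i + 1)) = H / 2 ^ i := by
      rw [pow_succ]; field_simp
    rw [e1] at h2
    have h3 : ∑ h ∈ S (H / 2 ^ i), f h = ∑ h ∈ (S (H / 2 ^ i)).filter
        (fun h => H / 2 ^ (i + 1) < (nm h : ℝ)), f h + ∑ h ∈ S (H / 2 ^ (i + 1)), f h := by
      rw [← sum_filter_add_sum_filter_not (S (H / 2 ^ i))
        (fun h => H / 2 ^ (i + 1) < (nm h : ℝ))]
      congr 1
      refine sum_congr ?_ fun _ _ => rfl
      ext h
      rw [mem_filter, mem_S (by positivity), mem_S (by positivity), not_lt]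
      have : H / 2 ^ (i + 1) ≤ H / 2 ^ i := by
        apply div_le_div_of_nonneg_left hH (by positivity)
        exact pow_le_pow_right₀ (by norm_num) (by omega)
      constructor
      · rintro ⟨⟨_, a⟩, b⟩; exact ⟨b, a⟩
      · rintro ⟨b, a⟩; exact ⟨⟨b.trans this, a⟩, b⟩
    push_cast
    linarith

/-- the saved moment on one dyadic block. -/
theorem block_bound (HL : LS2.Final) (hB : CR2.CoreB) (j : ℕ) (hj : 2 ≤ j) :
    ∃ δ K : ℝ, 0 < δ ∧ 0 < K ∧ ∀ H' C : ℝ, 1 ≤ H' → 1 ≤ C →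
      H' ^ (1.05 : ℝ) ≤ (2 * C) ^ j → (2 * C) ^ j ≤ H' ^ (1.85 : ℝ) → H' ^ (1 / (j : ℝ)) ≤ C →
      ∀ P : Finset Eis, (∀ p ∈ P, IsPP p) → (∀ p ∈ P, C < (nm p : ℝ) ∧ (nm p : ℝ) ≤ 2 * C) →
      ∀ γ : Eis → ℂ, (∀ p ∈ P, ‖γ p‖ ≤ 1) →
      ∑ h ∈ (S (2 * H')).filter (fun h => H' < (nm h : ℝ)),
        ‖CR2.Eb (bc P γ j) ((2 * C) ^ j) h‖ ^ 2 ≤
        K * H' ^ (-δ) * (H' * (2 * C) ^ j) ^ ((2 : ℝ) / 3) * (2 * C) ^ j := by
  classical
  obtain ⟨k, rfl⟩ : ∃ k, j = k + 1 := ⟨j - 1, by omega⟩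
  obtain ⟨K0, hK0, hbil⟩ := bil HL k (by omega)
  have hj0 : (0 : ℝ) < ((k + 1 : ℕ) : ℝ) := by positivity
  set K₁ : ℝ := max (16 * (((k + 1 : ℕ) : ℝ) ^ (k + 1)) ^ 2) K0 with hK1
  have hK1p : 0 < K₁ := lt_max_of_lt_right hK0
  obtain ⟨δ, κ, K, hδ, hκ, hκ0, hK, hmain⟩ := hB (1 / (6 * ((k + 1 : ℕ) : ℝ)))
    (1 / ((k + 1 : ℕ) : ℝ)) K₁ (by positivity) (by positivity) hK1p
  refine ⟨δ, K, hδ, hK, fun H' C hH' hC hz1 hz2 hHC P hP hPC γ hγ => ?_⟩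
  have hC0 : 0 < C := by linarith
  have hZ1 : (1 : ℝ) ≤ (2 * C) ^ (k + 1) := one_le_pow₀ (by linarith)
  refine hmain H' _ hH' hz1 hz2 (bc P γ (k + 1)) ?_ ?_ ?_
  · calc ∑ n ∈ S ((2 * C) ^ (k + 1)), ‖bc P γ (k + 1) n‖ ^ 2
        ≤ ∑ _n ∈ S ((2 * C) ^ (k + 1)), (((k + 1 : ℕ) : ℝ) ^ (k + 1)) ^ 2 :=
          sum_le_sum fun n _ =>
            pow_le_pow_left₀ (norm_nonneg _) (norm_bc_le hP hγ (k + 1) n) 2
      _ = #(S ((2 * C) ^ (k + 1))) * (((k + 1 : ℕ) : ℝ) ^ (k + 1)) ^ 2 := by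
          rw [sum_const, nsmul_eq_mul]
      _ ≤ 16 * (2 * C) ^ (k + 1) * (((k + 1 : ℕ) : ℝ) ^ (k + 1)) ^ 2 := by
          gcongr
          exact card_S_le hZ1
      _ = (16 * (((k + 1 : ℕ) : ℝ) ^ (k + 1)) ^ 2) * (2 * C) ^ (k + 1) := by ring
      _ ≤ K₁ * (2 * C) ^ (k + 1) := by
          gcongr
          exact le_max_left _ _
  · intro n _ hne r hr0 hr
    obtain ⟨x, hx, rfl⟩ := bc_ne_zero hne
    have hxP := fun i => Fintype.mem_piFinset.mp hx i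
    refine IsCoprime.prod_left fun i _ => ?_
    rw [(hP _ (hxP i)).isCoprime_iff]
    intro hdvd
    have h1 : nm (x i) ≤ nm r := Div277.nm_le_of_dvd hr0 hdvd
    have h2 : (nm r : ℝ) ≤ C := by
      refine hr.trans (le_trans ?_ hHC)
      exact Real.rpow_le_rpow_of_exponent_le hH' hκ0
    have h3 := (hPC _ (hxP i)).1
    have h4 : (nm (x i) : ℝ) ≤ (nm r : ℝ) := by exact_mod_cast h1
    linarith
  · intro r _ _
    rw [bil_conj]
    refine (hbil C hC P hP (fun p hp => ⟨(hPC p hp).1.le, (hPC p hp).2⟩) γ hγ r).trans ?_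
    have h1 : (2 * C) ^ (-(1 : ℝ) / 6) ≤ H' ^ (-(1 / (6 * ((k + 1 : ℕ) : ℝ)))) := by
      have h2 : H' ^ (1 / ((k + 1 : ℕ) : ℝ)) ≤ 2 * C := by linarith
      calc (2 * C) ^ (-(1 : ℝ) / 6) ≤ (H' ^ (1 / ((k + 1 : ℕ) : ℝ))) ^ (-(1 : ℝ) / 6) :=
            Real.rpow_le_rpow_of_nonpos (by positivity) h2 (by norm_num)
        _ = H' ^ (-(1 / (6 * ((k + 1 : ℕ) : ℝ)))) := by
            rw [← Real.rpow_mul (by linarith)]
            congr 1
            field_simp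
    have h3 : K0 ≤ K₁ := le_max_right _ _
    gcongr

end Crest.Agent.R012.CR2F277
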