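import Crest.Agent.R012.Lat_277

/-!
# Row 12 (helper277): divisor function on primary elements, moments, pointwise bound,
sums of decreasing functions of the norm, Möbius function.
-/

set_option autoImplicit false

noncomputable section

namespace Crest.Agent.R012.Div277

open Crest.Agent.R012 Crest.Agent.R012.Eis Crest.Agent.R012.Lat277
open Finset

/-! ### Primary divisors -/

open Classical in
/-- The primary divisors of `n` (empty for `n = 0`). -/
def dvs (n : Eis) : Finset Eis := (primBall (nm n)).filter (fun d => d ∣ n)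

lemma nm_le_of_dvd {d n : Eis} (hn : n ≠ 0) (h : d ∣ n) : nm d ≤ nm n := by
  obtain ⟨e, rfl⟩ := h
  rw [nm_mul]
  have he : e ≠ 0 := right_ne_zero_of_mul hn
  exact Nat.le_mul_of_pos_right _ (nm_pos.mpr he)

lemma mem_dvs {n d : Eis} (hn : n ≠ 0) : d ∈ dvs n ↔ IsPrim d ∧ d ∣ n := by
  unfold dvs
  simp only [mem_filter, mem_primBall]
  constructor
  · rintro ⟨⟨_, h1⟩, h2⟩; exact ⟨h1, h2⟩
  · rintro ⟨h1, h2⟩; exact ⟨⟨nm_le_of_dvd hn h2, h1⟩, h2⟩

lemma isPrim_of_mem_dvs {n d : Eis} (h : d ∈ dvs n) : IsPrim d := by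
  unfold dvs at h
  simp only [mem_filter, mem_primBall] at h
  exact h.1.2

lemma dvd_of_mem_dvs {n d : Eis} (h : d ∈ dvs n) : d ∣ n := by
  unfold dvs at h
  simp only [mem_filter] at h
  exact h.2

lemma one_mem_dvs {n : Eis} (hn : n ≠ 0) : (1 : Eis) ∈ dvs n :=
  (mem_dvs hn).mpr ⟨isPrim_one, one_dvd _⟩

lemma self_mem_dvs {n : Eis} (hn : IsPrim n) : n ∈ dvs n :=
  (mem_dvs hn.ne_zero).mpr ⟨hn, dvd_rfl⟩

/-- number of primary divisors. -/
def tau (n : Eis) : ℕ := (dvs n).card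

lemma one_le_tau {n : Eis} (hn : n ≠ 0) : 1 ≤ tau n :=
  Finset.card_pos.mpr ⟨1, one_mem_dvs hn⟩

@[simp] lemma dvs_zero : dvs 0 = ∅ := by
  ext d
  simp only [dvs, nm_zero, mem_filter, mem_primBall, notMem_empty, iff_false]
  rintro ⟨⟨h, h'⟩, _⟩
  exact h'.ne_zero (nm_eq_zero.mp (Nat.le_zero.mp h))

@[simp] lemma tau_zero : tau 0 = 0 := by simp [tau]

lemma not_lam_dvd_of_dvd_isPrim {d n : Eis} (hn : IsPrim n) (h : d ∣ n) : ¬ lam ∣ d :=
  fun h' => hn.not_lam_dvd (h'.trans h)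

/-- factor a primary divisor of a product. -/
lemma exists_prim_factor {m n d : Eis} (hd : IsPrim d) (h : d ∣ m * n) :
    ∃ a b, IsPrim a ∧ IsPrim b ∧ a ∣ m ∧ b ∣ n ∧ d = a * b := by
  obtain ⟨a, b, ha, hb, hab⟩ := exists_dvd_and_dvd_of_dvd_mul h
  have hla : ¬ lam ∣ a := not_lam_dvd_of_dvd_isPrim hd ⟨b, hab⟩
  have hlb : ¬ lam ∣ b := not_lam_dvd_of_dvd_isPrim hd ⟨a, by rw [hab, mul_comm]⟩
  refine ⟨prim a, prim b, prim_isPrim hla, prim_isPrim hlb,
    (prim_associated a).symm.dvd.trans ha, (prim_associated b).symm.dvd.trans hb, ?_⟩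
  rw [← prim_mul hla hlb, ← hab, hd.prim_eq]

/-- submultiplicativity of the divisor function. -/
lemma tau_mul_le (m n : Eis) : tau (m * n) ≤ tau m * tau n := by
  classical
  by_cases hm : m = 0
  · simp [hm]
  by_cases hn : n = 0
  · simp [hn]
  unfold tau
  rw [← Finset.card_product]
  have hsub : dvs (m * n) ⊆ (dvs m ×ˢ dvs n).image (fun p => p.1 * p.2) := by
    intro d hd
    rw [mem_dvs (mul_ne_zero hm hn)] at hd
    obtain ⟨a, b, ha, hb, ham, hbn, rfl⟩ := exists_prim_factor hd.1 hd.2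
    rw [Finset.mem_image]
    exact ⟨(a, b), Finset.mem_product.mpr ⟨(mem_dvs hm).mpr ⟨ha, ham⟩,
      (mem_dvs hn).mpr ⟨hb, hbn⟩⟩, rfl⟩
  exact (Finset.card_le_card hsub).trans Finset.card_image_le

lemma tau_le_of_dvd {m n : Eis} (hn : n ≠ 0) (h : m ∣ n) : tau m ≤ tau n := by
  apply Finset.card_le_card
  intro d hd
  rw [mem_dvs hn]
  exact ⟨isPrim_of_mem_dvs hd, (dvd_of_mem_dvs hd).trans h⟩

/-! ### Sums over nonzero elements of bounded norm -/

/-- nonzero elements of norm at most `X`. -/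
def nz (X : ℕ) : Finset Eis := (ball X).erase 0

lemma mem_nz {X : ℕ} {x : Eis} : x ∈ nz X ↔ x ≠ 0 ∧ nm x ≤ X := by
  simp [nz, mem_ball]

lemma primBall_subset_nz (X : ℕ) : primBall X ⊆ nz X := primBall_subset X

lemma card_nz_le (X : ℕ) : ((nz X).card : ℝ) ≤ 100 * X := card_ball_erase_le X

lemma nz_mono {X Y : ℕ} (h : X ≤ Y) : nz X ⊆ nz Y := fun x hx => by
  rw [mem_nz] at hx ⊢; exact ⟨hx.1, hx.2.trans h⟩

lemma primBall_mono {X Y : ℕ} (h : X ≤ Y) : primBall X ⊆ primBall Y := fun x hx => by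
  rw [mem_primBall] at hx ⊢; exact ⟨hx.1.trans h, hx.2⟩

/-- Sum of a decreasing nonnegative function of the norm over nonzero elements. -/
theorem sum_antitone_le (f : ℕ → ℝ) (hf : ∀ m, 1 ≤ m → f (m + 1) ≤ f m) (hf0 : ∀ m, 0 ≤ f m)
    (X : ℕ) : ∑ x ∈ nz X, f (nm x) ≤ 100 * ∑ m ∈ Icc 1 X, f m := by
  -- strong form: with the boundary term
  have key : ∀ X : ℕ, ∑ x ∈ nz X, f (nm x) + (100 * X - (nz X).card) * f X ≤
      100 * ∑ m ∈ Icc 1 X, f m := by
    intro X
    induction X with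
    | zero =>
      have : nz 0 = ∅ := by
        ext x; simp [mem_nz, nm_eq_zero]
      simp [this]
    | succ X ih =>
      have hsub : nz X ⊆ nz (X + 1) := nz_mono (Nat.le_succ X)
      have hdiff : ∀ x ∈ nz (X + 1) \ nz X, nm x = X + 1 := by
        intro x hx
        rw [mem_sdiff, mem_nz, mem_nz] at hx
        have : ¬ nm x ≤ X := fun h => hx.2 ⟨hx.1.1, h⟩
        omega
      have e1 : ∑ x ∈ nz (X + 1), f (nm x) =
          ∑ x ∈ nz X, f (nm x) + ((nz (X + 1)).card - (nz X).card) * f (X + 1) := by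
        rw [← Finset.sum_sdiff hsub, add_comm]
        congr 1
        rw [Finset.sum_congr rfl (fun x hx => by rw [hdiff x hx]), Finset.sum_const, nsmul_eq_mul,
          Finset.card_sdiff_of_subset hsub, Nat.cast_sub (Finset.card_le_card hsub)]
      have e2 : ∑ m ∈ Icc 1 (X + 1), f m = ∑ m ∈ Icc 1 X, f m + f (X + 1) :=
        Finset.sum_Icc_succ_top (by omega) f
      rw [e1, e2]
      have hc : 0 ≤ 100 * (X : ℝ) - (nz X).card := by linarith [card_nz_le X]
      rcases Nat.eq_zero_or_pos X with rfl | hX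
      · have : nz 0 = ∅ := by
          ext x; simp [mem_nz, nm_eq_zero]
        simp [this]
        linarith
      · have h1 := hf X hX
        have h2 : (100 * (X : ℝ) - (nz X).card) * f (X + 1) ≤ (100 * X - (nz X).card) * f X :=
          mul_le_mul_of_nonneg_left h1 hc
        push_cast
        nlinarith
  have h := key X
  have hc : 0 ≤ (100 * (X : ℝ) - (nz X).card) * f X :=
    mul_nonneg (by linarith [card_nz_le X]) (hf0 X)
  linarith

/-- `Σ_{0 < N(x) ≤ X} 1/N(x) ≤ 100 (1 + log X)`. -/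
theorem sum_inv_nz_le (X : ℕ) : ∑ x ∈ nz X, (1 / (nm x : ℝ)) ≤ 100 * (1 + Real.log X) := by
  refine (sum_antitone_le (fun m => 1 / (m : ℝ)) ?_ ?_ X).trans ?_
  · intro m hm
    have : (0 : ℝ) < m := by exact_mod_cast hm
    push_cast
    gcongr
    linarith
  · intro m; positivity
  · refine mul_le_mul_of_nonneg_left ?_ (by norm_num)
    have h := harmonic_le_one_add_log X
    rw [harmonic_eq_sum_Icc] at h
    push_cast at h
    simpa [one_div] using h

/-- primary version. -/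
theorem sum_inv_primBall_le (X : ℕ) :
    ∑ x ∈ primBall X, (1 / (nm x : ℝ)) ≤ 100 * (1 + Real.log X) :=
  (Finset.sum_le_sum_of_subset_of_nonneg (primBall_subset_nz X)
    (fun _ _ _ => by positivity)).trans (sum_inv_nz_le X)

/-! ### Divisor-sum swaps -/

/-- multiplication by a nonzero element as an embedding. -/
def mulEmb (d : Eis) (hd : d ≠ 0) : Eis ↪ Eis :=
  ⟨fun m => d * m, fun _ _ h => mul_left_cancel₀ hd h⟩

@[simp] lemma mulEmb_apply (d : Eis) (hd : d ≠ 0) (m : Eis) : mulEmb d hd m = d * m := rfl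

open Classical in
lemma nz_filter_dvd (X : ℕ) {d : Eis} (hd : d ≠ 0) :
    (nz X).filter (fun n => d ∣ n) = (nz (X / nm d)).map (mulEmb d hd) := by
  ext n
  simp only [mem_filter, mem_map, mulEmb_apply, mem_nz]
  have hdp := nm_pos.mpr hd
  constructor
  · rintro ⟨⟨h1, h2⟩, m, rfl⟩
    refine ⟨m, ⟨right_ne_zero_of_mul h1, ?_⟩, rfl⟩
    rw [Nat.le_div_iff_mul_le hdp, mul_comm, ← nm_mul]
    exact h2
  · rintro ⟨m, ⟨h1, h2⟩, rfl⟩
    refine ⟨⟨mul_ne_zero hd h1, ?_⟩, dvd_mul_right _ _⟩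
    rw [nm_mul, mul_comm]
    exact (Nat.le_div_iff_mul_le hdp).mp h2

open Classical in
lemma primBall_filter_dvd (X : ℕ) {d : Eis} (hd : IsPrim d) :
    (primBall X).filter (fun n => d ∣ n) =
      (primBall (X / nm d)).map (mulEmb d hd.ne_zero) := by
  ext n
  simp only [mem_filter, mem_map, mulEmb_apply, mem_primBall]
  have hdp := nm_pos.mpr hd.ne_zero
  constructor
  · rintro ⟨⟨h1, h2⟩, m, rfl⟩
    refine ⟨m, ⟨?_, h2.of_mul_left hd⟩, rfl⟩
    rw [Nat.le_div_iff_mul_le hdp, mul_comm, ← nm_mul]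
    exact h1
  · rintro ⟨m, ⟨h1, h2⟩, rfl⟩
    refine ⟨⟨?_, hd.mul h2⟩, dvd_mul_right _ _⟩
    rw [nm_mul, mul_comm]
    exact (Nat.le_div_iff_mul_le hdp).mp h1

/-- swap of a divisor sum, nonzero `n`. -/
theorem sum_nz_dvs {A : Type*} [AddCommMonoid A] (X : ℕ) (F : Eis → Eis → A) :
    ∑ n ∈ nz X, ∑ d ∈ dvs n, F d n =
      ∑ d ∈ primBall X, ∑ m ∈ nz (X / nm d), F d (d * m) := by
  classical
  rw [Finset.sum_comm' (s' := fun d => (nz X).filter (fun n => d ∣ n)) (t' := primBall X)]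
  · refine Finset.sum_congr rfl (fun d hd => ?_)
    rw [mem_primBall] at hd
    rw [nz_filter_dvd X hd.2.ne_zero, Finset.sum_map]
    rfl
  · intro n d
    simp only [mem_filter, mem_primBall]
    constructor
    · rintro ⟨hn, hd⟩
      have hn' := mem_nz.mp hn
      rw [mem_dvs hn'.1] at hd
      exact ⟨⟨hn, hd.2⟩, (nm_le_of_dvd hn'.1 hd.2).trans hn'.2, hd.1⟩
    · rintro ⟨⟨hn, hdn⟩, _, hd⟩
      exact ⟨hn, (mem_dvs (mem_nz.mp hn).1).mpr ⟨hd, hdn⟩⟩

/-- swap of a divisor sum, primary `n`. -/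
theorem sum_primBall_dvs {A : Type*} [AddCommMonoid A] (X : ℕ) (F : Eis → Eis → A) :
    ∑ n ∈ primBall X, ∑ d ∈ dvs n, F d n =
      ∑ d ∈ primBall X, ∑ m ∈ primBall (X / nm d), F d (d * m) := by
  classical
  rw [Finset.sum_comm' (s' := fun d => (primBall X).filter (fun n => d ∣ n)) (t' := primBall X)]
  · refine Finset.sum_congr rfl (fun d hd => ?_)
    rw [mem_primBall] at hd
    rw [primBall_filter_dvd X hd.2, Finset.sum_map]
    rfl
  · intro n d
    simp only [mem_filter]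
    constructor
    · rintro ⟨hn, hd⟩
      have hn' := mem_primBall.mp hn
      have hd' := (mem_dvs hn'.2.ne_zero).mp hd
      refine ⟨⟨hn, hd'.2⟩, mem_primBall.mpr ⟨?_, hd'.1⟩⟩
      exact (nm_le_of_dvd hn'.2.ne_zero hd'.2).trans hn'.1
    · rintro ⟨⟨hn, hdn⟩, hd⟩
      exact ⟨hn, (mem_dvs (mem_primBall.mp hn).2.ne_zero).mpr ⟨(mem_primBall.mp hd).2, hdn⟩⟩

/-! ### Moments of the divisor function -/

lemma one_add_log_nonneg (X : ℕ) : 0 ≤ 1 + Real.log X := by
  rcases Nat.eq_zero_or_pos X with rfl | hX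
  · simp
  · have : 0 ≤ Real.log X := Real.log_nonneg (by exact_mod_cast hX)
    linarith

/-- `Σ_{0<N(n)≤X} τ(n)^k / N(n) ≤ (100 (1 + log X))^(2^k)`. -/
theorem sum_tau_pow_div_le (k X : ℕ) :
    ∑ n ∈ nz X, ((tau n : ℝ) ^ k / nm n) ≤ (100 * (1 + Real.log X)) ^ (2 ^ k) := by
  induction k with
  | zero => simpa using sum_inv_nz_le X
  | succ k ih =>
    have hS0 : 0 ≤ ∑ n ∈ nz X, ((tau n : ℝ) ^ k / nm n) :=
      Finset.sum_nonneg (fun _ _ => by positivity)
    have e1 : ∑ n ∈ nz X, ((tau n : ℝ) ^ (k + 1) / nm n) =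
        ∑ n ∈ nz X, ∑ d ∈ dvs n, ((tau n : ℝ) ^ k / nm n) := by
      refine Finset.sum_congr rfl (fun n _ => ?_)
      rw [Finset.sum_const, nsmul_eq_mul, pow_succ]
      simp only [tau]; ring
    rw [e1, sum_nz_dvs X (fun _ n => (tau n : ℝ) ^ k / nm n)]
    calc ∑ d ∈ primBall X, ∑ m ∈ nz (X / nm d), (tau (d * m) : ℝ) ^ k / nm (d * m)
        ≤ ∑ d ∈ primBall X, ∑ m ∈ nz X, ((tau d : ℝ) ^ k / nm d) * ((tau m : ℝ) ^ k / nm m) := by
          refine Finset.sum_le_sum (fun d _ => ?_)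
          refine le_trans (Finset.sum_le_sum (g := fun m => ((tau d : ℝ) ^ k / nm d) *
            ((tau m : ℝ) ^ k / nm m)) (fun m _ => ?_)) ?_
          · rw [nm_mul, div_mul_div_comm, ← mul_pow]
            push_cast
            gcongr
            exact_mod_cast tau_mul_le d m
          · exact Finset.sum_le_sum_of_subset_of_nonneg (nz_mono (Nat.div_le_self _ _))
              (fun _ _ _ => by positivity)
      _ = (∑ d ∈ primBall X, ((tau d : ℝ) ^ k / nm d)) * ∑ m ∈ nz X, ((tau m : ℝ) ^ k / nm m) := by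
          rw [Finset.sum_mul_sum]
      _ ≤ (∑ d ∈ nz X, ((tau d : ℝ) ^ k / nm d)) * ∑ m ∈ nz X, ((tau m : ℝ) ^ k / nm m) := by
          refine mul_le_mul_of_nonneg_right ?_ hS0
          exact Finset.sum_le_sum_of_subset_of_nonneg (primBall_subset_nz X)
            (fun _ _ _ => by positivity)
      _ ≤ (100 * (1 + Real.log X)) ^ (2 ^ k) * (100 * (1 + Real.log X)) ^ (2 ^ k) :=
          mul_le_mul ih ih hS0 (pow_nonneg (mul_nonneg (by norm_num) (one_add_log_nonneg X)) _)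
      _ = (100 * (1 + Real.log X)) ^ (2 ^ (k + 1)) := by
          rw [← pow_add]; congr 1; ring

/-- `Σ_{0<N(n)≤X} τ(n)^k ≤ X (100 (1 + log X))^(2^k)`. -/
theorem sum_tau_pow_le (k X : ℕ) :
    ∑ n ∈ nz X, (tau n : ℝ) ^ k ≤ X * (100 * (1 + Real.log X)) ^ (2 ^ k) := by
  induction k generalizing X with
  | zero =>
    simp only [pow_zero, pow_one, sum_const, nsmul_eq_mul, mul_one]
    have h := card_nz_le X
    rcases Nat.eq_zero_or_pos X with rfl | hX
    · simpa using h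
    · have hl : 0 ≤ Real.log X := Real.log_nonneg (by exact_mod_cast hX)
      have hX' : (0 : ℝ) < X := by exact_mod_cast hX
      nlinarith [mul_nonneg hX'.le hl]
  | succ k ih =>
    have e1 : ∑ n ∈ nz X, ((tau n : ℝ) ^ (k + 1)) =
        ∑ n ∈ nz X, ∑ d ∈ dvs n, ((tau n : ℝ) ^ k) := by
      refine Finset.sum_congr rfl (fun n _ => ?_)
      rw [Finset.sum_const, nsmul_eq_mul, pow_succ]
      simp only [tau]; ring
    have hL0 : 0 ≤ 100 * (1 + Real.log X) := mul_nonneg (by norm_num) (one_add_log_nonneg X)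
    rw [e1, sum_nz_dvs X (fun _ n => (tau n : ℝ) ^ k)]
    calc ∑ d ∈ primBall X, ∑ m ∈ nz (X / nm d), (tau (d * m) : ℝ) ^ k
        ≤ ∑ d ∈ primBall X, (X * (100 * (1 + Real.log X)) ^ (2 ^ k)) *
            ((tau d : ℝ) ^ k / nm d) := by
          refine Finset.sum_le_sum (fun d hd => ?_)
          have hd' := mem_primBall.mp hd
          have hdp : (0 : ℝ) < nm d := by exact_mod_cast nm_pos.mpr hd'.2.ne_zero
          have h1 : ∑ m ∈ nz (X / nm d), (tau (d * m) : ℝ) ^ k ≤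
              (tau d : ℝ) ^ k * ∑ m ∈ nz (X / nm d), (tau m : ℝ) ^ k := by
            rw [Finset.mul_sum]
            refine Finset.sum_le_sum (fun m _ => ?_)
            rw [← mul_pow]
            gcongr
            exact_mod_cast tau_mul_le d m
          have h2 := ih (X / nm d)
          have h3 : ((X / nm d : ℕ) : ℝ) ≤ (X : ℝ) / nm d := Nat.cast_div_le
          have h4 : 1 + Real.log ((X / nm d : ℕ) : ℝ) ≤ 1 + Real.log X := by
            rcases Nat.eq_zero_or_pos (X / nm d) with h0 | h0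
            · rw [h0]; simp only [Nat.cast_zero, Real.log_zero, add_zero]
              have := one_add_log_nonneg X
              rcases Nat.eq_zero_or_pos X with rfl | hX
              · simp
              · have hl : 0 ≤ Real.log X := Real.log_nonneg (by exact_mod_cast hX)
                linarith
            · have h5 : Real.log ((X / nm d : ℕ) : ℝ) ≤ Real.log X :=
                Real.log_le_log (by exact_mod_cast h0) (by exact_mod_cast Nat.div_le_self _ _)
              linarith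
          have h6 : (100 * (1 + Real.log ((X / nm d : ℕ) : ℝ))) ^ (2 ^ k) ≤
              (100 * (1 + Real.log X)) ^ (2 ^ k) :=
            pow_le_pow_left₀ (mul_nonneg (by norm_num) (one_add_log_nonneg _)) (by linarith) _
          calc ∑ m ∈ nz (X / nm d), (tau (d * m) : ℝ) ^ k
              ≤ (tau d : ℝ) ^ k * (((X / nm d : ℕ) : ℝ) *
                  (100 * (1 + Real.log ((X / nm d : ℕ) : ℝ))) ^ (2 ^ k)) :=
                h1.trans (mul_le_mul_of_nonneg_left h2 (by positivity))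
            _ ≤ (tau d : ℝ) ^ k * (((X : ℝ) / nm d) * (100 * (1 + Real.log X)) ^ (2 ^ k)) := by
                refine mul_le_mul_of_nonneg_left ?_ (by positivity)
                exact mul_le_mul h3 h6 (pow_nonneg (mul_nonneg (by norm_num)
                  (one_add_log_nonneg _)) _) (by positivity)
            _ = _ := by ring
      _ = (X * (100 * (1 + Real.log X)) ^ (2 ^ k)) * ∑ d ∈ primBall X, ((tau d : ℝ) ^ k / nm d) := by
          rw [Finset.mul_sum]
      _ ≤ (X * (100 * (1 + Real.log X)) ^ (2 ^ k)) * (100 * (1 + Real.log X)) ^ (2 ^ k) := by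
          refine mul_le_mul_of_nonneg_left ?_ (by positivity)
          exact (Finset.sum_le_sum_of_subset_of_nonneg (primBall_subset_nz X)
            (fun _ _ _ => by positivity)).trans (sum_tau_pow_div_le k X)
      _ = X * (100 * (1 + Real.log X)) ^ (2 ^ (k + 1)) := by
          rw [mul_assoc, ← pow_add]; congr 2; ring

lemma poly_log_le (k : ℕ) {X : ℝ} (hX : 1 ≤ X) {δ : ℝ} (hδ : 0 < δ) :
    (100 * (1 + Real.log X)) ^ k ≤ (100 * (1 + k / δ)) ^ k * X ^ δ := by
  rcases Nat.eq_zero_or_pos k with rfl | hk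
  · simpa using Real.one_le_rpow hX hδ.le
  have hk' : (0 : ℝ) < k := by exact_mod_cast hk
  have hX0 : 0 < X := by linarith
  have h1 : Real.log X ≤ X ^ (δ / k) / (δ / k) :=
    Real.log_le_rpow_div hX0.le (by positivity)
  have h2 : 1 ≤ X ^ (δ / k) := Real.one_le_rpow hX (by positivity)
  have h3 : 1 + Real.log X ≤ (1 + k / δ) * X ^ (δ / k) := by
    have e : X ^ (δ / k) / (δ / k) = (k / δ) * X ^ (δ / k) := by field_simp
    rw [e] at h1
    nlinarith
  have hl : 0 ≤ Real.log X := Real.log_nonneg hX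
  calc (100 * (1 + Real.log X)) ^ k ≤ (100 * ((1 + k / δ) * X ^ (δ / k))) ^ k := by gcongr
    _ = (100 * (1 + k / δ)) ^ k * (X ^ (δ / k)) ^ k := by rw [← mul_pow]; ring
    _ = (100 * (1 + k / δ)) ^ k * X ^ δ := by
        rw [← Real.rpow_natCast (X ^ (δ / k)), ← Real.rpow_mul hX0.le]
        congr 2; field_simp

/-- pointwise divisor bound. -/
theorem tau_le_rpow {ε : ℝ} (hε : 0 < ε) :
    ∃ C : ℝ, 1 ≤ C ∧ ∀ n : Eis, n ≠ 0 → (tau n : ℝ) ≤ C * (nm n : ℝ) ^ ε := by
  obtain ⟨k, hk⟩ := exists_nat_gt (2 / ε)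
  have hk0 : (0 : ℝ) < k := lt_trans (by positivity) hk
  have hk1 : k ≠ 0 := by rintro rfl; simp at hk0
  set D : ℝ := (100 * (1 + ((2 ^ k : ℕ) : ℝ) / 1)) ^ (2 ^ k) with hD
  have hD1 : 1 ≤ D := by
    apply one_le_pow₀
    have : (0 : ℝ) ≤ ((2 ^ k : ℕ) : ℝ) := Nat.cast_nonneg _
    rw [div_one]; linarith
  refine ⟨D, hD1, fun n hn => ?_⟩
  have hX : (1 : ℝ) ≤ nm n := by exact_mod_cast nm_pos.mpr hn
  have h1 : (tau n : ℝ) ^ k ≤ D * (nm n : ℝ) ^ 2 := by
    calc (tau n : ℝ) ^ k ≤ ∑ m ∈ nz (nm n), (tau m : ℝ) ^ k :=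
          Finset.single_le_sum (f := fun m => (tau m : ℝ) ^ k) (fun _ _ => by positivity)
            (mem_nz.mpr ⟨hn, le_rfl⟩)
      _ ≤ nm n * (100 * (1 + Real.log (nm n))) ^ (2 ^ k) := sum_tau_pow_le k _
      _ ≤ nm n * (D * (nm n : ℝ) ^ (1 : ℝ)) := by
          gcongr
          exact poly_log_le (2 ^ k) hX one_pos
      _ = D * (nm n : ℝ) ^ 2 := by rw [Real.rpow_one]; ring
  have hτ : (0 : ℝ) ≤ tau n := Nat.cast_nonneg _
  have h2 : (tau n : ℝ) = ((tau n : ℝ) ^ k) ^ (1 / (k : ℝ)) := by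
    rw [← Real.rpow_natCast, ← Real.rpow_mul hτ]
    rw [mul_one_div_cancel hk0.ne', Real.rpow_one]
  rw [h2]
  calc ((tau n : ℝ) ^ k) ^ (1 / (k : ℝ)) ≤ (D * (nm n : ℝ) ^ 2) ^ (1 / (k : ℝ)) :=
        Real.rpow_le_rpow (by positivity) h1 (by positivity)
    _ = D ^ (1 / (k : ℝ)) * ((nm n : ℝ) ^ 2) ^ (1 / (k : ℝ)) :=
        Real.mul_rpow (by linarith) (by positivity)
    _ ≤ D * (nm n : ℝ) ^ ε := by
        have h3 : D ^ (1 / (k : ℝ)) ≤ D := by
          conv_rhs => rw [← Real.rpow_one D]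
          apply Real.rpow_le_rpow_of_exponent_le hD1
          rw [div_le_one hk0]
          exact_mod_cast Nat.one_le_iff_ne_zero.mpr hk1
        have h4 : ((nm n : ℝ) ^ 2) ^ (1 / (k : ℝ)) ≤ (nm n : ℝ) ^ ε := by
          rw [← Real.rpow_natCast, ← Real.rpow_mul (by linarith)]
          apply Real.rpow_le_rpow_of_exponent_le hX
          push_cast
          rw [mul_one_div, div_le_iff₀ hk0]
          rw [div_lt_iff₀ hε] at hk
          linarith
        gcongr

end Crest.Agent.R012.Div277
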