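import Crest.Agent.R012.Spec_CR_290
import Crest.Agent.R012.LS2Spec_381
import Crest.Agent.R012.Div_277
import Crest.Agent.R012.Sym4_645

/-!
# Row 12, (CRA): general large sieve `GLS` and moments `Mom` from the cubic large sieve (helper687)

* `hbls_of_final : LS2.Final → CR290.HBLS`
* `gls_of_hbls  : CR290.HBLS → CR290.GLS`
* `mom_of_gls   : CR290.GLS → CR290.Mom`
-/

set_option autoImplicit false

noncomputable section

open Complex Finset
open scoped BigOperators

namespace Crest.Agent.R012.GLS687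

open Crest.Agent.R012 Crest.Agent.R012.Eis Crest.Agent.R012.CR290 Crest.Agent.R012.Div277

/-! ### the decomposition `n = a d²` -/

lemma exists_sq_decomp {n : Eis} (hn : IsPrim n) :
    ∃ a d, IsPrim a ∧ Squarefree a ∧ IsPrim d ∧ n = a * d ^ 2 := by
  refine Sym645.prim_induction (P := fun n => ∃ a d, IsPrim a ∧ Squarefree a ∧ IsPrim d ∧
    n = a * d ^ 2) ?_ ?_ hn
  · exact ⟨1, 1, isPrim_one, squarefree_one, isPrim_one, by ring⟩
  · rintro p b hp hpp hb ⟨a, d, ha, hsq, hd, rfl⟩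
    by_cases h : p ∣ a
    · obtain ⟨a', rfl⟩ := h
      exact ⟨a', p * d, ha.of_mul_left hpp, hsq.squarefree_of_dvd (Dvd.intro_left p rfl),
        hpp.mul hd, by ring⟩
    · refine ⟨p * a, d, hpp.mul ha, ?_, hd, by ring⟩
      rw [squarefree_mul_iff]
      exact ⟨(Sym645.isCoprime_of_prime_not_dvd hp h).isRelPrime, hp.irreducible.squarefree, hsq⟩

/-- the squarefree part -/
def sqA (n : Eis) : Eis := by
  classical
  exact if h : IsPrim n then (exists_sq_decomp h).choose else 1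

/-- the square root of the square part -/
def sqD (n : Eis) : Eis := by
  classical
  exact if h : IsPrim n then (exists_sq_decomp h).choose_spec.choose else 1

lemma sq_spec {n : Eis} (hn : IsPrim n) :
    IsPrim (sqA n) ∧ Squarefree (sqA n) ∧ IsPrim (sqD n) ∧ n = sqA n * sqD n ^ 2 := by
  have h := (exists_sq_decomp hn).choose_spec.choose_spec
  simpa only [sqA, sqD, hn, dif_pos] using h

lemma norm_F_le_card (T : Finset Eis) (c : Eis → ℂ) (h : Eis) (hT : ∀ n ∈ T, IsPrim n)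
    (hc : ∀ n ∈ T, ‖c n‖ ≤ 1) : ‖F T c h‖ ≤ T.card := by
  unfold F
  refine (norm_sum_le _ _).trans ?_
  refine (Finset.sum_le_card_nsmul T _ 1 ?_).trans (by simp)
  intro n hn
  rw [norm_mul]
  exact mul_le_one₀ (hc n hn) (norm_nonneg _) (Sym645.norm_sy_le_one (hT n hn).nm_mod h)

/-- the bound of `HBLS`. -/
def HBb (M N : ℝ) : ℝ := M + N + (M * N) ^ (2 / 3 : ℝ)

lemma HBb_nonneg {M N : ℝ} (hM : 0 ≤ M) (hN : 0 ≤ N) : 0 ≤ HBb M N := by
  unfold HBb; positivity

lemma HBb_mono {M N N' : ℝ} (hM : 0 ≤ M) (hN : 0 ≤ N) (h : N ≤ N') : HBb M N ≤ HBb M N' := by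
  unfold HBb; gcongr

theorem gls_of_hbls (HB : HBLS) : GLS := by
  classical
  intro ε hε
  obtain ⟨K, hK, HB⟩ := HB (ε / 2) (by positivity)
  set κ : ℝ := (100 * (1 + (2 : ℕ) / (ε / 2))) ^ 2 with hκ
  have hκ0 : 0 < κ := by positivity
  refine ⟨100 * K * κ, by positivity, ?_⟩
  intro M N hM hN S T hS hT c hc
  have hM0 : (0 : ℝ) < M := by linarith
  have hN0 : (0 : ℝ) < N := by linarith
  -- the fibres
  set D : Finset Eis := T.image sqD with hD
  set A : Eis → Finset Eis := fun d => (T.filter (fun n => sqD n = d)).image sqA with hA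
  have hDprim : ∀ d ∈ D, IsPrim d := by
    intro d hd
    obtain ⟨n, hn, rfl⟩ := Finset.mem_image.1 hd
    exact (sq_spec (hT n hn).1).2.2.1
  have hnd : ∀ n ∈ T, (nm n : ℝ) = nm (sqA n) * (nm (sqD n) : ℝ) ^ 2 := by
    intro n hn
    have h := (sq_spec (hT n hn).1).2.2.2
    conv_lhs => rw [h]
    rw [nm_mul, nm_pow]
    push_cast
    ring
  have hone : ∀ {x : Eis}, IsPrim x → (1 : ℝ) ≤ nm x := by
    intro x hx
    exact_mod_cast nm_pos.2 hx.ne_zero
  -- each fibre
  have hF : ∀ h : Eis, F T c h = ∑ d ∈ D, (sy h d) ^ 2 * F (A d) (fun a => c (a * d ^ 2)) h := by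
    intro h
    unfold F
    rw [← Finset.sum_fiberwise_of_maps_to (s := T) (t := D) (g := sqD)
      (fun n hn => Finset.mem_image_of_mem _ hn)]
    refine Finset.sum_congr rfl fun d hd => ?_
    rw [Finset.mul_sum]
    rw [hA]
    rw [Finset.sum_image]
    · refine Finset.sum_congr rfl fun n hn => ?_
      obtain ⟨hnT, hnd'⟩ := Finset.mem_filter.1 hn
      obtain ⟨ha, hsq, hdp, he⟩ := sq_spec (hT n hnT).1
      have h1 : sy h n = sy h (sqA n) * sy h (sqD n) ^ 2 := by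
        conv_lhs => rw [he]
        rw [Sym645.sy_mul_right h ha.ne_zero (pow_ne_zero 2 hdp.ne_zero),
          Sym645.sy_pow_right h hdp.ne_zero 2]
      have h2 : c n = c (sqA n * d ^ 2) := by rw [← hnd', ← he]
      show c n * sy h n = sy h d ^ 2 * (c (sqA n * d ^ 2) * sy h (sqA n))
      rw [h1, ← h2, hnd']
      ring
    · intro n hn m hm hnm
      obtain ⟨hnT, hnd'⟩ := Finset.mem_filter.1 hn
      obtain ⟨hmT, hmd'⟩ := Finset.mem_filter.1 hm
      rw [(sq_spec (hT n hnT).1).2.2.2, (sq_spec (hT m hmT).1).2.2.2, hnm, hnd', hmd']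
  -- bound for a fibre
  have hfib : ∀ d ∈ D, ∑ h ∈ S, ‖F (A d) (fun a => c (a * d ^ 2)) h‖ ^ 2 ≤
      K * (M * N) ^ (ε / 2) * HBb M N * (100 * N / (nm d : ℝ) ^ 2) := by
    intro d hd
    have hdp := hDprim d hd
    have hd1 := hone hdp
    set N' : ℝ := N / (nm d : ℝ) ^ 2 with hN'
    have hmemA : ∀ a ∈ A d, IsPrim a ∧ Squarefree a ∧ (nm a : ℝ) ≤ N' ∧ ‖c (a * d ^ 2)‖ ≤ 1 := by
      intro a ha
      obtain ⟨n, hn, rfl⟩ := Finset.mem_image.1 ha
      obtain ⟨hnT, hnd'⟩ := Finset.mem_filter.1 hn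
      obtain ⟨ha, hsq, hdp', he⟩ := sq_spec (hT n hnT).1
      refine ⟨ha, hsq, ?_, ?_⟩
      · rw [hN', le_div_iff₀ (by positivity), ← hnd', ← hnd n hnT]
        exact (hT n hnT).2
      · rw [← hnd', ← he]; exact hc n hnT
    have hN'1 : 1 ≤ N' := by
      obtain ⟨n, hn, hnd'⟩ := Finset.mem_image.1 hd
      rw [hN', le_div_iff₀ (by positivity), one_mul, ← hnd']
      have h1 := hone (sq_spec (hT n hn).1).1
      have h2 := hnd n hn
      have h3 := (hT n hn).2
      nlinarith [sq_nonneg (nm (sqD n) : ℝ)]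
    have hN'N : N' ≤ N := by
      rw [hN']
      apply div_le_self hN0.le
      exact one_le_pow₀ hd1
    have h1 := HB M N' hM hN'1 S (A d) hS
      (fun a ha => ⟨(hmemA a ha).1, (hmemA a ha).2.1, (hmemA a ha).2.2.1⟩)
      (fun a => c (a * d ^ 2))
    have hcard : ((A d).card : ℝ) ≤ 100 * N' := by
      have hsub : A d ⊆ nz ⌊N'⌋₊ := by
        intro a ha
        obtain ⟨h1, -, h3, -⟩ := hmemA a ha
        exact mem_nz.2 ⟨h1.ne_zero, Nat.le_floor h3⟩
      calc ((A d).card : ℝ) ≤ ((nz ⌊N'⌋₊).card : ℝ) := by exact_mod_cast Finset.card_le_card hsub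
        _ ≤ 100 * (⌊N'⌋₊ : ℝ) := card_nz_le _
        _ ≤ 100 * N' := by
            have := Nat.floor_le (show 0 ≤ N' by linarith)
            linarith
    have hsum : ∑ a ∈ A d, ‖c (a * d ^ 2)‖ ^ 2 ≤ 100 * N' := by
      refine (Finset.sum_le_card_nsmul (A d) _ 1 ?_).trans ?_
      · intro a ha
        exact pow_le_one₀ (norm_nonneg _) (hmemA a ha).2.2.2
      · simpa using hcard
    have hMN : (M * N') ^ (ε / 2) ≤ (M * N) ^ (ε / 2) := by
      apply Real.rpow_le_rpow (by positivity) _ (by positivity)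
      gcongr
    have hb : M + N' + (M * N') ^ (2 / 3 : ℝ) ≤ HBb M N := HBb_mono hM0.le (by linarith) hN'N
    have hb0 : 0 ≤ M + N' + (M * N') ^ (2 / 3 : ℝ) := HBb_nonneg hM0.le (by linarith)
    calc _ ≤ _ := h1
      _ ≤ K * (M * N) ^ (ε / 2) * HBb M N * (100 * N') := by
          have hb1 : 0 ≤ HBb M N := HBb_nonneg hM0.le hN0.le
          have hs0 : 0 ≤ ∑ a ∈ A d, ‖c (a * d ^ 2)‖ ^ 2 :=
            Finset.sum_nonneg fun _ _ => by positivity
          refine mul_le_mul ?_ hsum hs0 (by positivity)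
          exact mul_le_mul (mul_le_mul_of_nonneg_left hMN hK.le) hb hb0 (by positivity)
      _ = K * (M * N) ^ (ε / 2) * HBb M N * (100 * N / (nm d : ℝ) ^ 2) := by rw [hN']; ring
  -- the sum of 1/nm d
  set L : ℝ := ∑ d ∈ D, 1 / (nm d : ℝ) with hL
  have hL0 : 0 ≤ L := Finset.sum_nonneg fun d _ => by positivity
  have hLle : L ≤ 100 * (1 + Real.log N) := by
    have hsub : D ⊆ nz ⌊N⌋₊ := by
      intro d hd
      have hdp := hDprim d hd
      refine mem_nz.2 ⟨hdp.ne_zero, Nat.le_floor ?_⟩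
      obtain ⟨n, hn, rfl⟩ := Finset.mem_image.1 hd
      have h1 := hone (sq_spec (hT n hn).1).1
      have h2 := hnd n hn
      have h3 := (hT n hn).2
      have h4 := hone hdp
      nlinarith [mul_le_mul h1 (le_refl ((nm (sqD n) : ℝ) ^ 2)) (by positivity) (by linarith)]
    calc L ≤ ∑ d ∈ nz ⌊N⌋₊, 1 / (nm d : ℝ) :=
          Finset.sum_le_sum_of_subset_of_nonneg hsub fun _ _ _ => by positivity
      _ ≤ 100 * (1 + Real.log (⌊N⌋₊ : ℝ)) := sum_inv_nz_le _
      _ ≤ 100 * (1 + Real.log N) := by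
          have h0 : (0 : ℝ) < (⌊N⌋₊ : ℝ) := by
            have := Nat.floor_pos.2 hN
            exact_mod_cast this
          have := Real.log_le_log h0 (Nat.floor_le hN0.le)
          linarith
  have hL2 : L ^ 2 ≤ κ * (M * N) ^ (ε / 2) := by
    calc L ^ 2 ≤ (100 * (1 + Real.log N)) ^ 2 := by gcongr
      _ ≤ κ * N ^ (ε / 2) := poly_log_le 2 hN (by positivity)
      _ ≤ κ * (M * N) ^ (ε / 2) := by
          gcongr
          nlinarith
  -- Cauchy-Schwarz
  have hCS : ∀ h ∈ S, ‖F T c h‖ ^ 2 ≤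
      L * ∑ d ∈ D, (nm d : ℝ) * ‖F (A d) (fun a => c (a * d ^ 2)) h‖ ^ 2 := by
    intro h _
    have h1 : ‖F T c h‖ ≤ ∑ d ∈ D, ‖F (A d) (fun a => c (a * d ^ 2)) h‖ := by
      rw [hF h]
      refine (norm_sum_le _ _).trans (Finset.sum_le_sum fun d hd => ?_)
      rw [norm_mul, norm_pow]
      have : ‖sy h d‖ ^ 2 ≤ 1 :=
        pow_le_one₀ (norm_nonneg _) (Sym645.norm_sy_le_one (hDprim d hd).nm_mod h)
      nlinarith [norm_nonneg (F (A d) (fun a => c (a * d ^ 2)) h)]
    calc ‖F T c h‖ ^ 2 ≤ (∑ d ∈ D, ‖F (A d) (fun a => c (a * d ^ 2)) h‖) ^ 2 := by gcongr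
      _ ≤ (∑ d ∈ D, 1 / (nm d : ℝ)) *
          ∑ d ∈ D, (nm d : ℝ) * ‖F (A d) (fun a => c (a * d ^ 2)) h‖ ^ 2 := by
          apply Finset.sum_sq_le_sum_mul_sum_of_sq_eq_mul
          · intro d _; positivity
          · intro d _; positivity
          · intro d hd
            have := hone (hDprim d hd)
            field_simp
  calc ∑ h ∈ S, ‖F T c h‖ ^ 2
      ≤ ∑ h ∈ S, L * ∑ d ∈ D, (nm d : ℝ) * ‖F (A d) (fun a => c (a * d ^ 2)) h‖ ^ 2 :=
        Finset.sum_le_sum hCS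
    _ = L * ∑ d ∈ D, (nm d : ℝ) * ∑ h ∈ S, ‖F (A d) (fun a => c (a * d ^ 2)) h‖ ^ 2 := by
        rw [← Finset.mul_sum, Finset.sum_comm]
        simp only [Finset.mul_sum]
    _ ≤ L * ∑ d ∈ D, (nm d : ℝ) *
          (K * (M * N) ^ (ε / 2) * HBb M N * (100 * N / (nm d : ℝ) ^ 2)) := by
        gcongr with d hd
        exact hfib d hd
    _ = L * ((100 * K * (M * N) ^ (ε / 2) * HBb M N * N) * L) := by
        congr 1
        rw [hL, Finset.mul_sum]
        refine Finset.sum_congr rfl fun d hd => ?_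
        have := hone (hDprim d hd)
        field_simp
    _ = 100 * K * (M * N) ^ (ε / 2) * HBb M N * N * L ^ 2 := by ring
    _ ≤ 100 * K * (M * N) ^ (ε / 2) * HBb M N * N * (κ * (M * N) ^ (ε / 2)) := by
        have := HBb_nonneg hM0.le hN0.le
        gcongr
    _ = 100 * K * κ * ((M * N) ^ (ε / 2) * (M * N) ^ (ε / 2)) * HBb M N * N := by ring
    _ = 100 * K * κ * (M * N) ^ ε * (M + N + (M * N) ^ (2 / 3 : ℝ)) * N := by
        rw [← Real.rpow_add (by positivity), add_halves]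
        rfl

/-! ### moments -/

lemma prim_prod {ι : Type*} (s : Finset ι) (x : ι → Eis) (hx : ∀ i ∈ s, IsPrim (x i)) :
    IsPrim (∏ i ∈ s, x i) := by
  classical
  induction s using Finset.induction_on with
  | empty => simpa using isPrim_one
  | insert a s ha ih =>
    rw [Finset.prod_insert ha]
    exact (hx a (Finset.mem_insert_self a s)).mul
      (ih fun i hi => hx i (Finset.mem_insert_of_mem hi))

lemma sy_prod {ι : Type*} (s : Finset ι) (x : ι → Eis) (hx : ∀ i ∈ s, IsPrim (x i)) (h : Eis) :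
    sy h (∏ i ∈ s, x i) = ∏ i ∈ s, sy h (x i) := by
  classical
  induction s using Finset.induction_on with
  | empty => simp
  | insert a s ha ih =>
    rw [Finset.prod_insert ha, Finset.prod_insert ha,
      Sym645.sy_mul_right h (hx a (Finset.mem_insert_self a s)).ne_zero
        (prim_prod s x fun i hi => hx i (Finset.mem_insert_of_mem hi)).ne_zero,
      ih fun i hi => hx i (Finset.mem_insert_of_mem hi)]

lemma nm_prod {ι : Type*} (s : Finset ι) (x : ι → Eis) :
    nm (∏ i ∈ s, x i) = ∏ i ∈ s, nm (x i) := by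
  classical
  induction s using Finset.induction_on with
  | empty => simp
  | insert a s ha ih => rw [Finset.prod_insert ha, Finset.prod_insert ha, nm_mul, ih]

/-- the `j`-th convolution power of `γ` restricted to `T`. -/
def conv (T : Finset Eis) (γ : Eis → ℂ) (j : ℕ) (n : Eis) : ℂ := by
  classical
  exact ∑ x ∈ (Fintype.piFinset (fun _ : Fin j => T)).filter (fun x => ∏ i, x i = n), ∏ i, γ (x i)

/-- the products of `j` elements of `T`. -/
def prods (T : Finset Eis) (j : ℕ) : Finset Eis := by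
  classical
  exact (Fintype.piFinset (fun _ : Fin j => T)).image (fun x => ∏ i, x i)

lemma F_pow (T : Finset Eis) (γ : Eis → ℂ) (j : ℕ) (hT : ∀ n ∈ T, IsPrim n) (h : Eis) :
    F T γ h ^ j = F (prods T j) (conv T γ j) h := by
  classical
  have h1 : F T γ h ^ j = ∑ x ∈ Fintype.piFinset (fun _ : Fin j => T),
      (∏ i, γ (x i)) * sy h (∏ i, x i) := by
    unfold F
    have : (∑ c ∈ T, γ c * sy h c) ^ j = ∏ _i : Fin j, ∑ c ∈ T, γ c * sy h c := by simp
    rw [this, Finset.prod_univ_sum]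
    refine Finset.sum_congr rfl fun x hx => ?_
    rw [Finset.prod_mul_distrib, sy_prod Finset.univ x
      (fun i _ => hT _ (Fintype.mem_piFinset.1 hx i)) h]
  rw [h1]
  unfold F conv prods
  rw [← Finset.sum_fiberwise_of_maps_to (s := Fintype.piFinset (fun _ : Fin j => T))
    (t := (Fintype.piFinset (fun _ : Fin j => T)).image (fun x => ∏ i, x i))
    (g := fun x => ∏ i, x i) (fun n hn => Finset.mem_image_of_mem _ hn)]
  refine Finset.sum_congr rfl fun n _ => ?_
  rw [Finset.sum_mul]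
  refine Finset.sum_congr rfl fun x hx => ?_
  rw [(Finset.mem_filter.1 hx).2]

lemma mem_prods {T : Finset Eis} {j : ℕ} {n : Eis} (hn : n ∈ prods T j) :
    ∃ x : Fin j → Eis, (∀ i, x i ∈ T) ∧ ∏ i, x i = n := by
  classical
  obtain ⟨x, hx, rfl⟩ := Finset.mem_image.1 hn
  exact ⟨x, Fintype.mem_piFinset.1 hx, rfl⟩

lemma norm_conv_le (T : Finset Eis) (γ : Eis → ℂ) (j : ℕ) (hT : ∀ n ∈ T, IsPrim n)
    (hγ : ∀ n ∈ T, ‖γ n‖ ≤ 1) {n : Eis} (hn : n ∈ prods T j) :
    ‖conv T γ j n‖ ≤ (tau n : ℝ) ^ j := by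
  classical
  obtain ⟨y, hy, hyn⟩ := mem_prods hn
  have hn0 : n ≠ 0 := by
    rw [← hyn]; exact (prim_prod Finset.univ y fun i _ => hT _ (hy i)).ne_zero
  unfold conv
  refine (norm_sum_le _ _).trans ?_
  have h1 : ∀ x ∈ (Fintype.piFinset (fun _ : Fin j => T)).filter (fun x => ∏ i, x i = n),
      ‖∏ i, γ (x i)‖ ≤ 1 := by
    intro x hx
    obtain ⟨hx1, -⟩ := Finset.mem_filter.1 hx
    rw [norm_prod]
    exact Finset.prod_le_one (fun _ _ => norm_nonneg _)
      fun i _ => hγ _ (Fintype.mem_piFinset.1 hx1 i)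
  refine (Finset.sum_le_card_nsmul _ _ 1 h1).trans ?_
  rw [nsmul_eq_mul, mul_one]
  have hsub : (Fintype.piFinset (fun _ : Fin j => T)).filter (fun x => ∏ i, x i = n) ⊆
      Fintype.piFinset (fun _ : Fin j => dvs n) := by
    intro x hx
    obtain ⟨hx1, hx2⟩ := Finset.mem_filter.1 hx
    rw [Fintype.mem_piFinset]
    intro i
    rw [mem_dvs hn0]
    refine ⟨hT _ (Fintype.mem_piFinset.1 hx1 i), ?_⟩
    rw [← hx2]
    exact Finset.dvd_prod_of_mem x (Finset.mem_univ i)
  have hcard : (Fintype.piFinset (fun _ : Fin j => dvs n)).card = tau n ^ j := by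
    rw [Fintype.card_piFinset]
    simp [tau]
  calc (((Fintype.piFinset (fun _ : Fin j => T)).filter (fun x => ∏ i, x i = n)).card : ℝ)
      ≤ ((Fintype.piFinset (fun _ : Fin j => dvs n)).card : ℝ) := by
        exact_mod_cast Finset.card_le_card hsub
    _ = (tau n : ℝ) ^ j := by rw [hcard]; push_cast; rfl

theorem mom_of_gls (HG : GLS) : Mom := by
  classical
  intro j hj ε hε
  have hj0 : (0 : ℝ) < j := by exact_mod_cast hj
  set ε₁ : ℝ := ε / (2 * j) with hε₁
  set ε₂ : ℝ := ε / (4 * j ^ 2) with hε₂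
  have hε₁0 : 0 < ε₁ := by positivity
  have hε₂0 : 0 < ε₂ := by positivity
  obtain ⟨K, hK, HG⟩ := HG ε₁ hε₁0
  obtain ⟨Kτ, hKτ, hτ⟩ := tau_le_rpow hε₂0
  refine ⟨Kτ ^ (2 * j) * K, by positivity, ?_⟩
  intro M C hM hC S T hS hT γ hγ
  have hM0 : (0 : ℝ) < M := by linarith
  have hC0 : (0 : ℝ) < C := by linarith
  have hTp : ∀ n ∈ T, IsPrim n := fun n hn => (hT n hn).1
  have hCj : 1 ≤ C ^ j := one_le_pow₀ hC
  have hPB : IsPB (prods T j) (C ^ j) := by
    intro n hn
    obtain ⟨x, hx, rfl⟩ := mem_prods hn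
    refine ⟨prim_prod Finset.univ x fun i _ => hTp _ (hx i), ?_⟩
    rw [nm_prod]
    push_cast
    calc ∏ i, (nm (x i) : ℝ) ≤ ∏ _i : Fin j, C :=
          Finset.prod_le_prod (fun _ _ => Nat.cast_nonneg _) fun i _ => (hT _ (hx i)).2
      _ = C ^ j := by simp
  set B : ℝ := (Kτ * (C ^ j) ^ ε₂) ^ j with hB
  have hB0 : 0 < B := by positivity
  have hconv : ∀ n ∈ prods T j, ‖conv T γ j n‖ ≤ B := by
    intro n hn
    refine (norm_conv_le T γ j hTp hγ hn).trans ?_
    have h1 := hτ n (hPB n hn).1.ne_zero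
    rw [hB]
    gcongr
    refine h1.trans ?_
    gcongr
    exact (hPB n hn).2
  have hG := HG M (C ^ j) hM hCj S (prods T j) hS hPB (fun n => conv T γ j n / B) (by
    intro n hn
    rw [norm_div, Complex.norm_real, Real.norm_of_nonneg hB0.le, div_le_one hB0]
    exact hconv n hn)
  have hF : ∀ h, ‖F T γ h‖ ^ (2 * j) = B ^ 2 * ‖F (prods T j) (fun n => conv T γ j n / B) h‖ ^ 2 := by
    intro h
    have h1 : F (prods T j) (fun n => conv T γ j n / B) h = F T γ h ^ j / B := by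
      rw [F_pow T γ j hTp h]
      unfold F
      rw [Finset.sum_div]
      refine Finset.sum_congr rfl fun n _ => ?_
      ring
    rw [h1, norm_div, Complex.norm_real, Real.norm_of_nonneg hB0.le, norm_pow, div_pow,
      mul_div_cancel₀ _ (by positivity), ← pow_mul, mul_comm j 2]
  have hB2 : B ^ 2 = Kτ ^ (2 * j) * C ^ (ε / 2) := by
    rw [hB, ← pow_mul, mul_pow, mul_comm j 2]
    congr 1
    rw [← Real.rpow_natCast C j, ← Real.rpow_mul hC0.le, ← Real.rpow_natCast,
      ← Real.rpow_mul hC0.le]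
    congr 1
    rw [hε₂]
    push_cast
    field_simp
    ring
  have hMC : (M * C ^ j) ^ ε₁ ≤ (M * C) ^ (ε / 2) := by
    rw [Real.mul_rpow hM0.le (by positivity), Real.mul_rpow hM0.le hC0.le]
    have h1 : M ^ ε₁ ≤ M ^ (ε / 2) := by
      apply Real.rpow_le_rpow_of_exponent_le hM
      rw [hε₁]
      apply div_le_div_of_nonneg_left hε.le (by norm_num)
      have : (1 : ℝ) ≤ j := by exact_mod_cast hj
      linarith
    have h2 : (C ^ j) ^ ε₁ = C ^ (ε / 2) := by
      rw [← Real.rpow_natCast C j, ← Real.rpow_mul hC0.le]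
      congr 1
      rw [hε₁]
      field_simp
    rw [h2]
    gcongr
  have hb0 : 0 ≤ M + C ^ j + (M * C ^ j) ^ (2 / 3 : ℝ) := by positivity
  calc ∑ h ∈ S, ‖F T γ h‖ ^ (2 * j)
      = B ^ 2 * ∑ h ∈ S, ‖F (prods T j) (fun n => conv T γ j n / B) h‖ ^ 2 := by
        rw [Finset.mul_sum]
        exact Finset.sum_congr rfl fun h _ => hF h
    _ ≤ B ^ 2 * (K * (M * C ^ j) ^ ε₁ * (M + C ^ j + (M * C ^ j) ^ (2 / 3 : ℝ)) * C ^ j) := by
        gcongr
    _ ≤ (Kτ ^ (2 * j) * C ^ (ε / 2)) *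
        (K * (M * C) ^ (ε / 2) * (M + C ^ j + (M * C ^ j) ^ (2 / 3 : ℝ)) * C ^ j) := by
        rw [hB2]
        gcongr
    _ ≤ (Kτ ^ (2 * j) * (M * C) ^ (ε / 2)) *
        (K * (M * C) ^ (ε / 2) * (M + C ^ j + (M * C ^ j) ^ (2 / 3 : ℝ)) * C ^ j) := by
        gcongr
        nlinarith
    _ = Kτ ^ (2 * j) * K * ((M * C) ^ (ε / 2) * (M * C) ^ (ε / 2)) *
        (M + C ^ j + (M * C ^ j) ^ (2 / 3 : ℝ)) * C ^ j := by ring
    _ = Kτ ^ (2 * j) * K * (M * C) ^ ε * (M + C ^ j + (M * C ^ j) ^ (2 / 3 : ℝ)) * C ^ j := by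
        rw [← Real.rpow_add (by positivity), add_halves]

theorem mom_of_hbls (HB : HBLS) : Mom := mom_of_gls (gls_of_hbls HB)

/-! ### from helper381's `LS2.Final` -/

theorem hbls_of_final (HF : LS2.Final) : HBLS := by
  classical
  intro ε hε
  obtain ⟨K, hK, HF⟩ := HF ε hε
  refine ⟨K, hK, ?_⟩
  intro M N hM hN S T hS hT c
  have hM0 : (0 : ℝ) ≤ M := by linarith
  have hN0 : (0 : ℝ) ≤ N := by linarith
  have hsubS : S ⊆ LS2.S M := fun h hh => (LS2.mem_S hM0).2 ⟨(hS h hh).2.2, (hS h hh).1, (hS h hh).2.1⟩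
  have hsubT : T ⊆ LS2.S N := fun h hh => (LS2.mem_S hN0).2 ⟨(hT h hh).2.2, (hT h hh).1, (hT h hh).2.1⟩
  have h1 := HF M N hM hN (fun n => if n ∈ T then c n else 0)
  have h2 : ∀ m, ∑ n ∈ LS2.S N, (if n ∈ T then c n else 0) * sy m n = F T c m := by
    intro m
    unfold F
    rw [← Finset.sum_subset hsubT]
    · exact Finset.sum_congr rfl fun n hn => by rw [if_pos hn]
    · intro n _ hn
      rw [if_neg hn, zero_mul]
  have h3 : ∑ n ∈ LS2.S N, ‖(if n ∈ T then c n else 0 : ℂ)‖ ^ 2 = ∑ n ∈ T, ‖c n‖ ^ 2 := by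
    rw [← Finset.sum_subset hsubT]
    · exact Finset.sum_congr rfl fun n hn => by rw [if_pos hn]
    · intro n _ hn
      rw [if_neg hn]; simp
  simp only [h2, h3] at h1
  refine le_trans (Finset.sum_le_sum_of_subset_of_nonneg hsubS fun _ _ _ => by positivity) h1

theorem gls_of_final (HF : LS2.Final) : GLS := gls_of_hbls (hbls_of_final HF)

theorem mom_of_final (HF : LS2.Final) : Mom := mom_of_hbls (hbls_of_final HF)

end Crest.Agent.R012.GLS687
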