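import Crest.Agent.R012.LSChar_879
import Crest.Agent.R012.Sym4_645

/-! R012, block L1: the multiplicative large sieve for cubic residue symbols over `ℤ[ω]`.

* `ls_cubic`, `ls_cubic_dual` : the family `x ↦ (x/k₁) conj (x/k₂)`, `k₁ k₂` squarefree.
* `ls_num`, `ls_num_dual` : the family `b ↦ (ω^i λ^j k₁ k₂² / b)`, `b` primary. -/

set_option autoImplicit false
set_option linter.unusedSimpArgs false

namespace Crest.Agent.R012.LS879

open Finset Crest.Agent.R012 Crest.Agent.R012.Eis Crest.Agent.R012.Sym645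

/-- `χ_{k₁,k₂}(x) = (x/k₁) conj (x/k₂)`. -/
noncomputable def chi2 (k : Eis × Eis) (x : Eis) : ℂ := sy x k.1 * (starRingEnd ℂ) (sy x k.2)

/-- The index set: pairs of coprime squarefree primary elements. -/
def Good (k : Eis × Eis) : Prop :=
  IsPrim k.1 ∧ IsPrim k.2 ∧ Squarefree k.1 ∧ Squarefree k.2 ∧ IsCoprime k.1 k.2

theorem wC_ne_one : wC ≠ 1 := by
  intro h
  have := congrArg Complex.re h
  simp [wC] at this
  linarith

theorem conj_wC_ne_one : (starRingEnd ℂ) wC ≠ 1 := by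
  intro h
  have := congrArg Complex.re h
  simp [wC] at this
  linarith

theorem wC_ne_conj : wC ≠ (starRingEnd ℂ) wC := by
  intro h
  have := congrArg Complex.im h
  have h3 : 0 < Real.sqrt 3 := by positivity
  simp [wC] at this
  linarith

theorem exists_sy_eq_wC {p : Eis} (hp : Prime p) (hp3 : nm p % 3 = 1) : ∃ x, sy x p = wC := by
  have : Fact (Prime p) := ⟨hp⟩
  obtain ⟨x, hx⟩ := exists_cu_eq_w (p := p) hp3
  exact ⟨x, by rw [sy_prime_cu _ hp, hx, toC_w]⟩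

theorem exists_local {p m : Eis} (hp : Prime p) (hp3 : nm p % 3 = 1) (hm : IsCoprime p m) :
    ∃ y, sy y p = wC ∧ m ∣ y - 1 ∧ IsCoprime y (p * m) := by
  obtain ⟨x, hx⟩ := exists_sy_eq_wC hp hp3
  obtain ⟨u, v, huv⟩ := hm
  refine ⟨x * (v * m) + u * p, ?_, ⟨x * v - v, ?_⟩, ?_⟩
  · rw [← hx]
    apply sy_congr hp3
    refine ⟨u - x * u, ?_⟩
    linear_combination x * huv
  · linear_combination huv
  · have h1 : IsCoprime (x * (v * m) + u * p) p := by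
      by_contra hcon
      have h0 := (sy_eq_zero_iff hp3).mpr hcon
      have h2 : sy (x * (v * m) + u * p) p = wC := by
        rw [← hx]
        apply sy_congr hp3
        refine ⟨u - x * u, ?_⟩
        linear_combination x * huv
      rw [h2] at h0
      exact wC_ne_zero h0
    have h2 : IsCoprime (x * (v * m) + u * p) m := by
      refine ⟨1, v - x * v, ?_⟩
      linear_combination huv
    exact h1.mul_right h2

theorem sy_eq_one_of_dvd {c y : Eis} (hc : nm c % 3 = 1) (h : c ∣ y - 1) : sy y c = 1 := by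
  rw [sy_congr hc h, sy_one_left hc]

theorem chi2_local_left {p c k₂ y : Eis} (h1 : IsPrim (p * c)) (h2 : IsPrim k₂)
    (hy : sy y p = wC) (hd : c * k₂ ∣ y - 1) : chi2 (p * c, k₂) y = wC := by
  have hn := nm_mod_of_mul (prim_nm_mod h1)
  have hp0 : p ≠ 0 := ne_zero_of_nm_mod hn.1
  have hc0 : c ≠ 0 := ne_zero_of_nm_mod hn.2
  unfold chi2
  simp only
  rw [sy_mul_right _ hp0 hc0, hy, sy_eq_one_of_dvd hn.2 ((dvd_mul_right _ _).trans hd),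
    sy_eq_one_of_dvd (prim_nm_mod h2) ((dvd_mul_left _ _).trans hd)]
  simp

theorem chi2_local_right {p c k₁ y : Eis} (h1 : IsPrim k₁) (h2 : IsPrim (p * c))
    (hy : sy y p = wC) (hd : k₁ * c ∣ y - 1) : chi2 (k₁, p * c) y = (starRingEnd ℂ) wC := by
  have hn := nm_mod_of_mul (prim_nm_mod h2)
  have hp0 : p ≠ 0 := ne_zero_of_nm_mod hn.1
  have hc0 : c ≠ 0 := ne_zero_of_nm_mod hn.2
  unfold chi2
  simp only
  rw [sy_mul_right _ hp0 hc0, hy, sy_eq_one_of_dvd hn.2 ((dvd_mul_left _ _).trans hd),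
    sy_eq_one_of_dvd (prim_nm_mod h1) ((dvd_mul_right _ _).trans hd)]
  simp

theorem coprime_of_squarefree_mul {p c : Eis} (hp : Prime p) (h : Squarefree (p * c)) :
    IsCoprime p c := by
  apply isCoprime_of_prime_not_dvd hp
  rintro ⟨t, rfl⟩
  exact hp.not_isUnit (h p ⟨t, by ring⟩)

theorem exists_prime_dvd {d : Eis} (hd : ¬ IsUnit d) (h0 : d ≠ 0) : ∃ p, Prime p ∧ p ∣ d := by
  obtain ⟨p, hp, hpd⟩ := WfDvdMonoid.exists_irreducible_factor hd h0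
  exact ⟨p, hp.prime, hpd⟩

theorem chi2_isPrimChar {k : Eis × Eis} (hk : Good k) : IsPrimChar (k.1 * k.2) (chi2 k) := by
  obtain ⟨k₁, k₂⟩ := k
  obtain ⟨h1, h2, s1, s2, hc⟩ := hk
  simp only at h1 h2 s1 s2 hc
  have n1 := prim_nm_mod h1
  have n2 := prim_nm_mod h2
  refine ⟨h1.mul h2, ?_, ?_, ?_, ?_, ?_⟩
  · simp [chi2, sy_one_left n1, sy_one_left n2]
  · intro x y
    simp only [chi2, sy_mul_left n1, sy_mul_left n2, map_mul]
    ring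
  · intro x y hxy
    simp only [chi2]
    rw [sy_congr n1 ((dvd_mul_right _ _).trans hxy), sy_congr n2 ((dvd_mul_left _ _).trans hxy)]
  · intro x
    simp only [chi2, norm_mul, Complex.norm_conj]
    have a1 := norm_sy_le_one n1 x
    have a2 := norm_sy_le_one n2 x
    have b1 := norm_nonneg (sy x k₁)
    have b2 := norm_nonneg (sy x k₂)
    nlinarith
  · intro d k hdk hd
    simp only at hdk
    have hf0 : k₁ * k₂ ≠ 0 := (h1.mul h2).ne_zero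
    have hd0 : d ≠ 0 := by
      rintro rfl
      rw [zero_mul] at hdk
      exact hf0 hdk
    obtain ⟨p, hp, d', rfl⟩ := exists_prime_dvd hd hd0
    have hpf : p ∣ k₁ * k₂ := ⟨d' * k, by rw [hdk]; ring⟩
    rcases hp.dvd_or_dvd hpf with ⟨c, rfl⟩ | ⟨c, rfl⟩
    · have hcop1 : IsCoprime p c := coprime_of_squarefree_mul hp s1
      have hcop2 : IsCoprime p k₂ := hc.of_mul_left_left
      obtain ⟨y, y1, y2, y3⟩ := exists_local hp (nm_mod_of_mul n1).1 (hcop1.mul_right hcop2)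
      refine ⟨y, ?_, ?_, ?_⟩
      · rwa [← mul_assoc] at y3
      · have h3 : d' * k = c * k₂ := by
          apply mul_left_cancel₀ hp.ne_zero
          linear_combination -hdk
        have h4 : k ∣ c * k₂ := ⟨d', by rw [← h3]; ring⟩
        exact h4.trans y2
      · rw [chi2_local_left h1 h2 y1 y2]
        exact wC_ne_one
    · have hcop1 : IsCoprime p c := coprime_of_squarefree_mul hp s2
      have hcop2 : IsCoprime p k₁ := hc.symm.of_mul_left_left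
      obtain ⟨y, y1, y2, y3⟩ := exists_local hp (nm_mod_of_mul n2).1 (hcop2.mul_right hcop1)
      refine ⟨y, ?_, ?_, ?_⟩
      · have : k₁ * (p * c) = p * (k₁ * c) := by ring
        simp only
        rw [this]
        exact y3
      · have h3 : d' * k = k₁ * c := by
          apply mul_left_cancel₀ hp.ne_zero
          linear_combination -hdk
        have h4 : k ∣ k₁ * c := ⟨d', by rw [← h3]; ring⟩
        exact h4.trans y2
      · rw [chi2_local_right h1 h2 y1 y2]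
        exact conj_wC_ne_one

theorem coprime_of_chi2_eq {k k' : Eis × Eis} (hk : Good k) (hk' : Good k')
    (hf : k.1 * k.2 = k'.1 * k'.2) (hχ : chi2 k = chi2 k') : IsCoprime k.1 k'.2 := by
  obtain ⟨k₁, k₂⟩ := k
  obtain ⟨l₁, l₂⟩ := k'
  obtain ⟨h1, h2, s1, s2, hc⟩ := hk
  obtain ⟨g1, g2, t1, t2, gc⟩ := hk'
  simp only at *
  by_contra hcon
  obtain ⟨d, k, hd1, hd2, hd3⟩ := exists_common_factor hcon
  have hd0 : d ≠ 0 := by
    rintro rfl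
    exact h1.ne_zero (by simpa using hd2)
  obtain ⟨p, hp, hpd⟩ := exists_prime_dvd hd3 hd0
  obtain ⟨c, rfl⟩ := hpd.trans hd2
  obtain ⟨c', rfl⟩ := hpd.trans ⟨k, hd1⟩
  have hcop1 : IsCoprime p c := coprime_of_squarefree_mul hp s1
  have hcop2 : IsCoprime p k₂ := hc.of_mul_left_left
  obtain ⟨y, y1, y2, _⟩ := exists_local hp (nm_mod_of_mul (prim_nm_mod h1)).1
    (hcop1.mul_right hcop2)
  have h3 : c * k₂ = l₁ * c' := by
    apply mul_left_cancel₀ hp.ne_zero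
    linear_combination hf
  have e1 := chi2_local_left h1 h2 y1 y2
  have e2 := chi2_local_right g1 g2 y1 (by rw [← h3]; exact y2)
  rw [hχ, e2] at e1
  exact wC_ne_conj e1.symm

theorem chi2_injective {k k' : Eis × Eis} (hk : Good k) (hk' : Good k')
    (hf : k.1 * k.2 = k'.1 * k'.2) (hχ : chi2 k = chi2 k') : k = k' := by
  have c1 := coprime_of_chi2_eq hk hk' hf hχ
  have c2 := coprime_of_chi2_eq hk' hk hf.symm hχ.symm
  have d1 : k.1 ∣ k'.1 := c1.dvd_of_dvd_mul_right (by rw [← hf]; exact dvd_mul_right _ _)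
  have d2 : k'.1 ∣ k.1 := c2.dvd_of_dvd_mul_right (by rw [hf]; exact dvd_mul_right _ _)
  have e1 : k.1 = k'.1 := hk.1.eq_of_associated hk'.1 (associated_of_dvd_dvd d1 d2)
  have e2 : k.2 = k'.2 := by
    rw [e1] at hf
    exact mul_left_cancel₀ hk'.1.ne_zero hf
  exact Prod.ext e1 e2

/-- **Large sieve for the cubic characters `x ↦ (x/k₁) conj(x/k₂)`, dual form.** -/
theorem ls_cubic_dual (K : Finset (Eis × Eis)) (γ : Eis × Eis → ℂ) {Q B : ℝ} (hQ1 : 1 ≤ Q)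
    (hB : 0 ≤ B) (hK : ∀ k ∈ K, Good k) (hQ : ∀ k ∈ K, (nm k.1 : ℝ) * nm k.2 ≤ Q)
    (c : Eis) (T : Finset Eis) (hT : ∀ b ∈ T, (nm (b - c) : ℝ) ≤ B) :
    ∑ b ∈ T, ‖∑ k ∈ K, γ k * chi2 k b‖ ^ 2 ≤ 33 * (B + Q ^ 2) * ∑ k ∈ K, ‖γ k‖ ^ 2 := by
  classical
  refine mult_ls_dual K (fun k => k.1 * k.2) chi2 γ hQ1 hB (fun k hk => chi2_isPrimChar (hK k hk))
    (fun k hk => ?_) (fun k hk k' hk' hne hf hχ => hne (chi2_injective (hK k hk) (hK k' hk') hf hχ))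
    c T hT
  rw [nm_mul]
  push_cast
  exact hQ k hk

/-- **Large sieve for the cubic characters `x ↦ (x/k₁) conj(x/k₂)`.** -/
theorem ls_cubic (K : Finset (Eis × Eis)) (β : Eis → ℂ) {Q B : ℝ} (hQ1 : 1 ≤ Q)
    (hB : 0 ≤ B) (hK : ∀ k ∈ K, Good k) (hQ : ∀ k ∈ K, (nm k.1 : ℝ) * nm k.2 ≤ Q)
    (c : Eis) (T : Finset Eis) (hT : ∀ b ∈ T, (nm (b - c) : ℝ) ≤ B) :
    ∑ k ∈ K, ‖∑ b ∈ T, β b * chi2 k b‖ ^ 2 ≤ 33 * (B + Q ^ 2) * ∑ b ∈ T, ‖β b‖ ^ 2 :=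
  duality K T chi2 (by positivity)
    (fun γ => ls_cubic_dual K γ hQ1 hB hK hQ c T hT) β

/-! ### Numerator form -/

/-- The symbol `(ω^i λ^j k₁ k₂² / b)` for primary `b`. -/
theorem sy_num {b k₁ k₂ : Eis} (i j : ℕ) (hb : IsPrim b) (h1 : IsPrim k₁) (h2 : IsPrim k₂) :
    sy (w ^ i * lam ^ j * k₁ * k₂ ^ 2) b =
      (sy w b ^ i * sy lam b ^ j) * chi2 (k₁, k₂) b := by
  have nb := prim_nm_mod hb
  rw [sy_mul_left nb, sy_mul_left nb, sy_mul_left nb, sy_pow_left nb, sy_pow_left nb,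
    sy_pow_left nb, sy_reciprocity h1 hb, sy_reciprocity h2 hb]
  have hconj : sy b k₂ ^ 2 = (starRingEnd ℂ) (sy b k₂) := by
    have n2 := prim_nm_mod h2
    by_cases hc : IsCoprime b k₂
    · have h3 := sy_cube n2 hc
      have h4 := norm_sy_of_isCoprime n2 hc
      have h5 : sy b k₂ * (starRingEnd ℂ) (sy b k₂) = 1 := by
        rw [Complex.mul_conj', h4]; norm_num
      have h6 : sy b k₂ ≠ 0 := by
        intro h0
        rw [h0, norm_zero] at h4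
        exact zero_ne_one h4
      apply mul_left_cancel₀ h6
      rw [h5, ← h3]
      ring
    · have h0 := (sy_eq_zero_iff n2).mpr hc
      rw [h0]; simp
  rw [hconj]
  unfold chi2
  ring

theorem norm_unit_part_le {b : Eis} (i j : ℕ) (hb : IsPrim b) :
    ‖sy w b ^ i * sy lam b ^ j‖ ≤ 1 := by
  have nb := prim_nm_mod hb
  rw [norm_mul, norm_pow, norm_pow]
  have a1 : ‖sy w b‖ ^ i ≤ 1 := pow_le_one₀ (norm_nonneg _) (norm_sy_le_one nb w)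
  have a2 : ‖sy lam b‖ ^ j ≤ 1 := pow_le_one₀ (norm_nonneg _) (norm_sy_le_one nb lam)
  have b1 : 0 ≤ ‖sy w b‖ ^ i := by positivity
  have b2 : 0 ≤ ‖sy lam b‖ ^ j := by positivity
  nlinarith

/-- **Large sieve, numerator form** (conductor version): the numerators are
`ω^i λ^j k₁ k₂²`, `i, j < 3`. -/
theorem ls_num (K : Finset (ℕ × ℕ × Eis × Eis)) (β : Eis → ℂ) {Q B : ℝ} (hQ1 : 1 ≤ Q)
    (hB : 0 ≤ B) (hij : ∀ k ∈ K, k.1 < 3 ∧ k.2.1 < 3) (hK : ∀ k ∈ K, Good k.2.2)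
    (hQ : ∀ k ∈ K, (nm k.2.2.1 : ℝ) * nm k.2.2.2 ≤ Q)
    (c : Eis) (T : Finset Eis) (hTp : ∀ b ∈ T, IsPrim b) (hT : ∀ b ∈ T, (nm (b - c) : ℝ) ≤ B) :
    ∑ k ∈ K, ‖∑ b ∈ T, β b * sy (w ^ k.1 * lam ^ k.2.1 * k.2.2.1 * k.2.2.2 ^ 2) b‖ ^ 2 ≤
      297 * (B + Q ^ 2) * ∑ b ∈ T, ‖β b‖ ^ 2 := by
  classical
  -- split into the nine classes
  set I : Finset (ℕ × ℕ) := Finset.range 3 ×ˢ Finset.range 3 with hI
  set K' : Finset (Eis × Eis) := K.image (fun k => k.2.2) with hK'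
  have hsub : K ⊆ (I ×ˢ K').image (fun x => (x.1.1, x.1.2, x.2)) := by
    intro k hk
    rw [Finset.mem_image]
    refine ⟨((k.1, k.2.1), k.2.2), ?_, rfl⟩
    rw [Finset.mem_product, hI, Finset.mem_product]
    obtain ⟨h1, h2⟩ := hij k hk
    exact ⟨⟨Finset.mem_range.mpr h1, Finset.mem_range.mpr h2⟩, Finset.mem_image_of_mem _ hk⟩
  have hinj : Function.Injective (fun x : (ℕ × ℕ) × (Eis × Eis) => (x.1.1, x.1.2, x.2)) := by
    rintro ⟨⟨a, b⟩, c⟩ ⟨⟨a', b'⟩, c'⟩ h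
    simp only [Prod.mk.injEq] at h
    obtain ⟨rfl, rfl, rfl⟩ := h
    rfl
  have h1 : ∑ k ∈ K, ‖∑ b ∈ T, β b * sy (w ^ k.1 * lam ^ k.2.1 * k.2.2.1 * k.2.2.2 ^ 2) b‖ ^ 2 ≤
      ∑ x ∈ I, ∑ k ∈ K', ‖∑ b ∈ T, β b * sy (w ^ x.1 * lam ^ x.2 * k.1 * k.2 ^ 2) b‖ ^ 2 := by
    rw [← Finset.sum_product (s := I) (t := K') (f := fun x => ‖∑ b ∈ T, β b *
      sy (w ^ x.1.1 * lam ^ x.1.2 * x.2.1 * x.2.2 ^ 2) b‖ ^ 2)]
    refine (Finset.sum_le_sum_of_subset_of_nonneg hsub fun _ _ _ => by positivity).trans ?_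
    rw [Finset.sum_image (fun a _ b _ h => hinj h)]
  refine h1.trans ?_
  have h2 : ∀ x ∈ I, ∑ k ∈ K', ‖∑ b ∈ T, β b * sy (w ^ x.1 * lam ^ x.2 * k.1 * k.2 ^ 2) b‖ ^ 2 ≤
      33 * (B + Q ^ 2) * ∑ b ∈ T, ‖β b‖ ^ 2 := by
    intro x _
    have hg : ∀ k ∈ K', Good k := by
      intro k hk
      obtain ⟨t, ht, rfl⟩ := Finset.mem_image.mp hk
      exact hK t ht
    have hq : ∀ k ∈ K', (nm k.1 : ℝ) * nm k.2 ≤ Q := by
      intro k hk
      obtain ⟨t, ht, rfl⟩ := Finset.mem_image.mp hk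
      exact hQ t ht
    have h3 : ∀ k ∈ K', ‖∑ b ∈ T, β b * sy (w ^ x.1 * lam ^ x.2 * k.1 * k.2 ^ 2) b‖ ^ 2 =
        ‖∑ b ∈ T, (β b * (sy w b ^ x.1 * sy lam b ^ x.2)) * chi2 k b‖ ^ 2 := by
      intro k hk
      congr 2
      refine sum_congr rfl fun b hb => ?_
      rw [sy_num x.1 x.2 (hTp b hb) (hg k hk).1 (hg k hk).2.1]
      ring
    rw [sum_congr rfl h3]
    refine (ls_cubic K' (fun b => β b * (sy w b ^ x.1 * sy lam b ^ x.2)) hQ1 hB hg hq c T hT).trans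
      ?_
    refine mul_le_mul_of_nonneg_left ?_ (by positivity)
    refine sum_le_sum fun b hb => ?_
    rw [norm_mul]
    have a1 := norm_unit_part_le x.1 x.2 (hTp b hb)
    have a2 := norm_nonneg (β b)
    have a3 := norm_nonneg (sy w b ^ x.1 * sy lam b ^ x.2)
    have : ‖β b‖ * ‖sy w b ^ x.1 * sy lam b ^ x.2‖ ≤ ‖β b‖ := by nlinarith
    exact pow_le_pow_left₀ (by positivity) this 2
  refine (sum_le_sum h2).trans ?_
  rw [sum_const, nsmul_eq_mul]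
  have hcard : I.card = 9 := by rw [hI]; rfl
  rw [hcard]
  push_cast
  apply le_of_eq
  ring

/-- The same, in the shape `∃ C`. -/
theorem ls_num_exists : ∃ C : ℝ, 0 < C ∧ ∀ Q B : ℝ, 1 ≤ Q → 1 ≤ B →
    ∀ (K : Finset (ℕ × ℕ × Eis × Eis)),
    (∀ k ∈ K, k.1 < 3 ∧ k.2.1 < 3 ∧ IsPrim k.2.2.1 ∧ IsPrim k.2.2.2 ∧ Squarefree k.2.2.1 ∧
      Squarefree k.2.2.2 ∧ IsCoprime k.2.2.1 k.2.2.2 ∧ (nm k.2.2.1 : ℝ) * nm k.2.2.2 ≤ Q) →
    ∀ T : Finset Eis, (∀ b ∈ T, IsPrim b ∧ (nm b : ℝ) ≤ B) → ∀ β : Eis → ℂ,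
    ∑ k ∈ K, ‖∑ b ∈ T, β b * sy (w ^ k.1 * lam ^ k.2.1 * k.2.2.1 * k.2.2.2 ^ 2) b‖ ^ 2 ≤
      C * (B + Q ^ 2) * ∑ b ∈ T, ‖β b‖ ^ 2 := by
  refine ⟨297, by norm_num, fun Q B hQ hB K hK T hT β => ?_⟩
  refine ls_num K β hQ (by linarith) (fun k hk => ⟨(hK k hk).1, (hK k hk).2.1⟩)
    (fun k hk => ?_) (fun k hk => (hK k hk).2.2.2.2.2.2.2) 0 T (fun b hb => (hT b hb).1)
    (fun b hb => by rw [sub_zero]; exact (hT b hb).2)
  obtain ⟨_, _, a1, a2, a3, a4, a5, _⟩ := hK k hk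
  exact ⟨a1, a2, a3, a4, a5⟩

/-- Dual of `ls_num`. -/
theorem ls_num_dual (K : Finset (ℕ × ℕ × Eis × Eis)) (γ : ℕ × ℕ × Eis × Eis → ℂ) {Q B : ℝ}
    (hQ1 : 1 ≤ Q) (hB : 0 ≤ B) (hij : ∀ k ∈ K, k.1 < 3 ∧ k.2.1 < 3) (hK : ∀ k ∈ K, Good k.2.2)
    (hQ : ∀ k ∈ K, (nm k.2.2.1 : ℝ) * nm k.2.2.2 ≤ Q)
    (c : Eis) (T : Finset Eis) (hTp : ∀ b ∈ T, IsPrim b) (hT : ∀ b ∈ T, (nm (b - c) : ℝ) ≤ B) :
    ∑ b ∈ T, ‖∑ k ∈ K, γ k * sy (w ^ k.1 * lam ^ k.2.1 * k.2.2.1 * k.2.2.2 ^ 2) b‖ ^ 2 ≤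
      297 * (B + Q ^ 2) * ∑ k ∈ K, ‖γ k‖ ^ 2 :=
  duality T K (fun b k => sy (w ^ k.1 * lam ^ k.2.1 * k.2.2.1 * k.2.2.2 ^ 2) b) (by positivity)
    (fun β => ls_num K β hQ1 hB hij hK hQ c T hTp hT) γ

/-- Double-sum form: `∑_{k₁} ∑_{k₂} |∑_b c_b (k₁/b) conj (k₂/b)|²`. -/
theorem ls_pairs (S₁ S₂ : Finset Eis) (β : Eis → ℂ) {A₁ A₂ B : ℝ}
    (hA1 : 1 ≤ A₁) (hA2 : 1 ≤ A₂) (hB : 0 ≤ B)
    (h1 : ∀ k ∈ S₁, IsPrim k ∧ Squarefree k ∧ (nm k : ℝ) ≤ A₁)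
    (h2 : ∀ k ∈ S₂, IsPrim k ∧ Squarefree k ∧ (nm k : ℝ) ≤ A₂)
    (c : Eis) (T : Finset Eis) (hTp : ∀ b ∈ T, IsPrim b) (hT : ∀ b ∈ T, (nm (b - c) : ℝ) ≤ B)
    [DecidablePred fun k : Eis × Eis => IsCoprime k.1 k.2] :
    ∑ k ∈ (S₁ ×ˢ S₂).filter (fun k => IsCoprime k.1 k.2),
      ‖∑ b ∈ T, β b * (sy k.1 b * (starRingEnd ℂ) (sy k.2 b))‖ ^ 2 ≤
      33 * (B + (A₁ * A₂) ^ 2) * ∑ b ∈ T, ‖β b‖ ^ 2 := by
  classical
  have hg : ∀ k ∈ (S₁ ×ˢ S₂).filter (fun k => IsCoprime k.1 k.2), Good k := by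
    intro k hk
    obtain ⟨hk1, hk2⟩ := Finset.mem_filter.mp hk
    obtain ⟨m1, m2⟩ := Finset.mem_product.mp hk1
    exact ⟨(h1 _ m1).1, (h2 _ m2).1, (h1 _ m1).2.1, (h2 _ m2).2.1, hk2⟩
  have h3 : ∀ k ∈ (S₁ ×ˢ S₂).filter (fun k => IsCoprime k.1 k.2),
      ‖∑ b ∈ T, β b * (sy k.1 b * (starRingEnd ℂ) (sy k.2 b))‖ ^ 2 =
      ‖∑ b ∈ T, β b * chi2 k b‖ ^ 2 := by
    intro k hk
    congr 2
    refine sum_congr rfl fun b hb => ?_
    unfold chi2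
    rw [sy_reciprocity (hg k hk).1 (hTp b hb), sy_reciprocity (hg k hk).2.1 (hTp b hb)]
  rw [sum_congr rfl h3]
  refine ls_cubic _ β (by nlinarith) hB hg ?_ c T hT
  intro k hk
  obtain ⟨hk1, _⟩ := Finset.mem_filter.mp hk
  obtain ⟨m1, m2⟩ := Finset.mem_product.mp hk1
  exact mul_le_mul (h1 _ m1).2.2 (h2 _ m2).2.2 (by positivity) (by linarith)

end Crest.Agent.R012.LS879
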