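import Crest.Agent.R012.CR2SpecB_180
import Crest.Agent.R012.CF_61
import Crest.Agent.R012.LS1_879
import Crest.Agent.R012.GLS_687
import Crest.Agent.R012.Sym6_645
import Crest.Agent.R012.GaussInst_880

/-!
# Row 12, item CR2-L: `LS2.Final → CR2.LargePart`  (helper569)
-/

set_option autoImplicit false

noncomputable section

open Finset

namespace Crest.Agent.R012.CR2L569

open Crest.Agent.R012 Crest.Agent.R012.Eis LS2 CR2

local notation "cj" => starRingEnd ℂ

/-- Heath-Brown input. -/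
lemma hbin (HB : CR290.HBLS) {ε : ℝ} (hε : 0 < ε) : ∃ C : ℝ, 0 < C ∧
    ∀ (S' : Finset Eis) (H : ℝ), 1 ≤ H → CR290.IsSF S' H →
      CF61.HBin S' H (C * (H * H) ^ ε) := by
  obtain ⟨K, hK, hb⟩ := HB ε hε
  refine ⟨K, hK, ?_⟩
  intro S' H hH hS A hA hAH v
  have hA0 : (0 : ℝ) < A := by linarith
  have hH0 : (0 : ℝ) < H := by linarith
  have h1 := hb A H hA hH (CF61.SF A) S' (fun a ha => by
    rw [CF61.mem_SF] at ha; exact ⟨ha.2.1, ha.2.2, ha.1⟩) hS v
  have h2 : (A * H) ^ ε ≤ (H * H) ^ ε :=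
    Real.rpow_le_rpow (by positivity) (by nlinarith) hε.le
  have h3 : 0 ≤ A + H + (A * H) ^ ((2 : ℝ) / 3) := by positivity
  have h4 := CF61.n2_nonneg S' v
  calc ∑ a ∈ CF61.SF A, CF61.T S' v a
      ≤ K * (A * H) ^ ε * (A + H + (A * H) ^ ((2 : ℝ) / 3)) * CF61.n2 S' v := h1
    _ ≤ K * (H * H) ^ ε * (A + H + (A * H) ^ ((2 : ℝ) / 3)) * CF61.n2 S' v := by gcongr

/-- Large sieve input. -/
lemma lsin : ∃ C : ℝ, 0 < C ∧ ∀ (S' : Finset Eis) (H : ℝ), 1 ≤ H → CR290.IsSF S' H →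
    CF61.LSin S' H C := by
  classical
  obtain ⟨C, hC, hb⟩ := LS879.ls_num_exists
  refine ⟨C, hC, ?_⟩
  intro S' H hH hS Q hQ P hP v
  have h1 := hb Q H hQ hH (P.image (fun q => ((0 : ℕ), (0 : ℕ), q.1, q.2))) (by
    intro k hk
    rw [mem_image] at hk
    obtain ⟨q, hq, rfl⟩ := hk
    obtain ⟨⟨a1, a2, a3, a4, a5⟩, a6⟩ := hP q hq
    exact ⟨by norm_num, by norm_num, a1, a2, a3, a4, a5, a6⟩) S'
    (fun b hb => ⟨(hS b hb).1, (hS b hb).2.2⟩) v
  rw [sum_image (by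
    intro x _ y _ hxy
    simp only [Prod.mk.injEq, true_and] at hxy
    exact Prod.ext hxy.1 hxy.2)] at h1
  simpa [CF61.T, CF61.n2] using h1

/-- the elementary bound for the powers of `log`. -/
lemma log_pow_le {δ H : ℝ} (hδ : 0 < δ) (hH : 1 ≤ H) :
    (1 + Real.log H) ^ 3 ≤ (1 + 1 / δ) ^ 3 * H ^ (3 * δ) := by
  have hH0 : (0 : ℝ) < H := by linarith
  have h1 : Real.log H ≤ H ^ δ / δ := Real.log_le_rpow_div hH0.le hδ
  have h2 : (1 : ℝ) ≤ H ^ δ := Real.one_le_rpow hH hδ.le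
  have h3 : 0 ≤ Real.log H := Real.log_nonneg hH
  have h4 : 1 + Real.log H ≤ (1 + 1 / δ) * H ^ δ := by
    have : (1 + 1 / δ) * H ^ δ = H ^ δ + H ^ δ / δ := by ring
    rw [this]; linarith
  calc (1 + Real.log H) ^ 3 ≤ ((1 + 1 / δ) * H ^ δ) ^ 3 := by gcongr
    _ = (1 + 1 / δ) ^ 3 * H ^ (3 * δ) := by
        rw [mul_pow]
        congr 1
        rw [← Real.rpow_natCast, ← Real.rpow_mul hH0.le]
        congr 1; push_cast; ring

set_option maxHeartbeats 1000000 in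
open Classical in
/-- **CR2-L.** -/
theorem largePart (HB : CR290.HBLS) : LargePart := by
  intro η ε hη0 hη hε
  obtain ⟨K, hK, hhb⟩ := hbin HB (show (0 : ℝ) < ε / 9 by positivity)
  obtain ⟨C2, hC2, hls⟩ := lsin
  refine ⟨150000 * (1 + 1 / (ε / 9)) ^ 3 * (K + C2) * 2 ^ (5 * ε / 9), by positivity, ?_⟩
  intro X L K0 hX hL hK0 w hw d e f hd he hf σ t hσ0 hσ1
  have hX0 : (0 : ℝ) < X := by linarith
  have hL0 : (0 : ℝ) < L := by linarith
  have hK00 : (0 : ℝ) < K0 := by linarith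
  have hd1 : (1 : ℝ) ≤ nm d := CF61.one_le_nm hd.ne_zero
  have hf1 : (1 : ℝ) ≤ nm f := CF61.one_le_nm hf.ne_zero
  set N : ℝ := X / (nm d * nm f) with hN
  have hN0 : 0 < N := by positivity
  have hNX : N ≤ X := div_le_self hX0.le (one_le_mul_of_one_le_of_one_le hd1 hf1)
  set H : ℝ := N + L ^ (1 + 6 * η) with hH
  have hLp1 : 1 ≤ L ^ (1 + 6 * η) := Real.one_le_rpow hL (by positivity)
  have hH1 : 1 ≤ H := by linarith
  have hH0 : 0 < H := by linarith
  -- the length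
  have hLH : L ≤ H ^ (1 - 3 * η) := by
    calc L = L ^ (1 : ℝ) := (Real.rpow_one L).symm
      _ ≤ L ^ ((1 + 6 * η) * (1 - 3 * η)) :=
          Real.rpow_le_rpow_of_exponent_le hL (by nlinarith)
      _ = (L ^ (1 + 6 * η)) ^ (1 - 3 * η) := by rw [Real.rpow_mul hL0.le]
      _ ≤ H ^ (1 - 3 * η) :=
          Real.rpow_le_rpow (by positivity) (by linarith) (by linarith)
  -- the set and the vector
  set S' : Finset Eis := (S X).filter (fun k => (nm k : ℝ) ≤ N) with hS'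
  have hSF : CR290.IsSF S' H := by
    intro k hk
    rw [hS', mem_filter] at hk
    exact ⟨S_prim hX0.le hk.1, S_sqf hX0.le hk.1, by linarith [hk.2]⟩
  set z : Eis → ℂ := fun k => w (d * f * k) * (sy (e * sq3) k * cj (sy f k) * G k) *
    (nm k : ℂ) ^ ((σ : ℂ) + t * Complex.I - 1 / 2) with hz
  have hdsum : ∀ l : Eis, ‖dsum w X d e f l (σ + t * Complex.I)‖ ^ 2
      = CF61.T S' (fun k => cj (z k)) l := by
    intro l
    unfold CF61.T dsum
    have h1 : ∑ h ∈ S', (fun k => cj (z k)) h * sy l h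
        = cj (∑ h ∈ S', z h * cj (sy l h)) := by
      rw [map_sum]
      refine sum_congr rfl fun h _ => ?_
      rw [map_mul, Complex.conj_conj]
    rw [h1, RCLike.norm_conj]
    congr 2
    rw [hS', sum_filter]
    refine sum_congr rfl fun k hk => ?_
    have hkp := S_prim hX0.le hk
    split_ifs with hkN
    · rw [hz]
      simp only
      rw [Sym645.syFacts.mul_left f l k hkp, map_mul]
      ring
    · have : w (d * f * k) = 0 := by
        by_contra hne
        exact hkN (supp_le hX0.le hw hd.ne_zero hf.ne_zero hne)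
      rw [this]; simp
  have hn2 : CF61.n2 S' (fun k => cj (z k)) ≤ Xi w X d f σ := by
    unfold CF61.n2 Xi
    refine (sum_le_sum_of_subset_of_nonneg (filter_subset _ _)
      fun _ _ _ => by positivity).trans ?_
    refine sum_le_sum fun k hk => ?_
    have hkp := S_prim hX0.le hk
    rw [RCLike.norm_conj, hz]
    simp only
    rw [norm_mul, norm_mul, mul_pow, mul_pow, norm_cpow_half (nm_pos.mpr hkp.ne_zero)]
    have h1 : ‖sy (e * sq3) k * cj (sy f k) * G k‖ ≤ 1 := by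
      rw [norm_mul, norm_mul, RCLike.norm_conj]
      calc _ ≤ (1 : ℝ) * 1 * 1 := by
            gcongr
            · exact CF61.norm_sy_le _ _
            · exact CF61.norm_sy_le _ _
            · exact Gauss880.norm_G_le Gauss880.syG hkp
        _ = 1 := by norm_num
    have h2 : ‖sy (e * sq3) k * cj (sy f k) * G k‖ ^ 2 ≤ 1 := by
      calc _ ≤ (1 : ℝ) ^ 2 := by gcongr
        _ = 1 := by norm_num
    calc _ ≤ ‖w (d * f * k)‖ ^ 2 * 1 * (nm k : ℝ) ^ (2 * σ - 1) := by gcongr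
      _ = _ := by ring
  have hXi : 0 ≤ Xi w X d f σ := Xi_nonneg w X d f σ
  -- the core estimate
  have hE1 : 0 ≤ K * (H * H) ^ (ε / 9) := by positivity
  have hcore := CF61.cf_core Sym645.syFacts.mul_left (S := S') (fun h hh => (hSF h hh).1)
    (H := H) (E1 := K * (H * H) ^ (ε / 9)) (E2 := C2) (d := η) (Y := L) (K := K0)
    hH1 hE1 hC2.le hη0 (by linarith) hK0 hL hLH (hhb S' H hH1 hSF) (hls S' H hH1 hSF)
    (fun k => cj (z k)) ((bl L).filter (fun l => ¬ Sm K0 l)) (by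
      intro x hx
      rw [mem_filter, mem_bl hL0.le] at hx
      refine ⟨hx.1.1, hx.1.2, fun m n0 h => ?_⟩
      by_contra hc
      exact hx.2 ⟨m, n0, h, not_le.mp hc⟩)
  rw [sum_congr rfl fun l _ => hdsum l]
  refine hcore.trans ?_
  -- bookkeeping
  have hHH : (H * H) ^ (ε / 9) = H ^ (2 * ε / 9) := by
    rw [← sq, ← Real.rpow_natCast, ← Real.rpow_mul hH0.le]
    congr 1; push_cast; ring
  have hp1 : (1 : ℝ) ≤ H ^ (2 * ε / 9) := Real.one_le_rpow hH1 (by positivity)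
  have hlog := log_pow_le (show (0 : ℝ) < ε / 9 by positivity) hH1
  have hHle : H ≤ 2 * (X * L) ^ ((3 : ℝ) / 2) := by
    have hXL : 1 ≤ X * L := one_le_mul_of_one_le_of_one_le hX hL
    have h1 : N ≤ (X * L) ^ ((3 : ℝ) / 2) := by
      calc N ≤ X := hNX
        _ ≤ X * L := le_mul_of_one_le_right hX0.le hL
        _ = (X * L) ^ (1 : ℝ) := (Real.rpow_one _).symm
        _ ≤ (X * L) ^ ((3 : ℝ) / 2) := Real.rpow_le_rpow_of_exponent_le hXL (by norm_num)
    have h2 : L ^ (1 + 6 * η) ≤ (X * L) ^ ((3 : ℝ) / 2) := by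
      calc L ^ (1 + 6 * η) ≤ L ^ ((3 : ℝ) / 2) :=
            Real.rpow_le_rpow_of_exponent_le hL (by linarith)
        _ ≤ (X * L) ^ ((3 : ℝ) / 2) :=
            Real.rpow_le_rpow hL0.le (le_mul_of_one_le_left hL0.le hX) (by norm_num)
    linarith
  have hpow : H ^ (5 * ε / 9) ≤ 2 ^ (5 * ε / 9) * (X * L) ^ ε := by
    have hXL : 1 ≤ X * L := one_le_mul_of_one_le_of_one_le hX hL
    calc H ^ (5 * ε / 9) ≤ (2 * (X * L) ^ ((3 : ℝ) / 2)) ^ (5 * ε / 9) :=
          Real.rpow_le_rpow hH0.le hHle (by positivity)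
      _ = 2 ^ (5 * ε / 9) * (X * L) ^ ((3 : ℝ) / 2 * (5 * ε / 9)) := by
          rw [Real.mul_rpow (by norm_num) (by positivity), ← Real.rpow_mul (by positivity)]
      _ ≤ 2 ^ (5 * ε / 9) * (X * L) ^ ε := by
          apply mul_le_mul_of_nonneg_left _ (by positivity)
          exact Real.rpow_le_rpow_of_exponent_le hXL (by nlinarith)
  set a : ℝ := K0 ^ (-(1 : ℝ) / 3) with ha
  have ha' : K0 ^ (-((1 : ℝ) / 3)) = a := by rw [ha]; congr 1; ring
  set b : ℝ := H ^ (-η) with hb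
  have ha0 : 0 ≤ a := by positivity
  have hb0 : 0 ≤ b := by positivity
  rw [ha', hHH]
  have hin : C2 * a + (K * H ^ (2 * ε / 9) + C2) * b ≤ (K + C2) * H ^ (2 * ε / 9) * (a + b) := by
    have h1 : C2 * a ≤ C2 * H ^ (2 * ε / 9) * a := by
      apply mul_le_mul_of_nonneg_right _ ha0
      exact le_mul_of_one_le_right hC2.le hp1
    have h2 : C2 * b ≤ C2 * H ^ (2 * ε / 9) * b := by
      apply mul_le_mul_of_nonneg_right _ hb0
      exact le_mul_of_one_le_right hC2.le hp1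
    have h3 : 0 ≤ K * H ^ (2 * ε / 9) * a := by positivity
    nlinarith
  have hlog0 : 0 ≤ Real.log H := Real.log_nonneg hH1
  have hL3 : 0 ≤ L ^ ((1 : ℝ) / 3) := by positivity
  calc 150000 * (1 + Real.log H) ^ 3 * (H * L ^ ((1 : ℝ) / 3) *
        (C2 * a + (K * H ^ (2 * ε / 9) + C2) * b)) * CF61.n2 S' (fun k => cj (z k))
      ≤ 150000 * ((1 + 1 / (ε / 9)) ^ 3 * H ^ (3 * (ε / 9))) * (H * L ^ ((1 : ℝ) / 3) *
        ((K + C2) * H ^ (2 * ε / 9) * (a + b))) * Xi w X d f σ := by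
        gcongr
        exact CF61.n2_nonneg _ _
    _ = 150000 * (1 + 1 / (ε / 9)) ^ 3 * (K + C2) * (H ^ (3 * (ε / 9)) * H ^ (2 * ε / 9)) *
          H * L ^ ((1 : ℝ) / 3) * (a + b) * Xi w X d f σ := by ring
    _ = 150000 * (1 + 1 / (ε / 9)) ^ 3 * (K + C2) * H ^ (5 * ε / 9) *
          H * L ^ ((1 : ℝ) / 3) * (a + b) * Xi w X d f σ := by
        rw [← Real.rpow_add hH0]
        congr 6; ring
    _ ≤ 150000 * (1 + 1 / (ε / 9)) ^ 3 * (K + C2) * (2 ^ (5 * ε / 9) * (X * L) ^ ε) *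
          H * L ^ ((1 : ℝ) / 3) * (a + b) * Xi w X d f σ := by
        gcongr
    _ = _ := by ring

/-- CR2-L from `LS2.Final`. -/
theorem largePart_of_final (HF : LS2.Final) : LargePart := largePart (GLS687.hbls_of_final HF)

end Crest.Agent.R012.CR2L569
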