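import Crest.Agent.R012.CR2Spec_180

/-!
# Row 12 (CR2), part a: the structured dual sums as natural Type I sums
-/

set_option autoImplicit false
set_option linter.unusedVariables false
set_option linter.unusedSimpArgs false
set_option linter.unusedSectionVars false

noncomputable section

namespace Crest.Agent.R012.CR2

open Eis LS2 Mob705 Finset CharSum852 Tau671

local notation "cj" => starRingEnd ℂ

lemma S_prim {X : ℝ} (hX : 0 ≤ X) {n : Eis} (h : n ∈ S X) : IsPrim n := ((mem_S hX).mp h).2.1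
lemma S_sqf {X : ℝ} (hX : 0 ≤ X) {n : Eis} (h : n ∈ S X) : Squarefree n := ((mem_S hX).mp h).2.2
lemma S_le {X : ℝ} (hX : 0 ≤ X) {n : Eis} (h : n ∈ S X) : (nm n : ℝ) ≤ X := ((mem_S hX).mp h).1

open Classical in
lemma coprime_ind {k a : Eis} (hk : IsPrim k) (ha : a ≠ 0) :
    (if IsCoprime k a then (1 : ℂ) else 0) = ∑ g ∈ pdiv a, if g ∣ k then (mu g : ℂ) else 0 := by
  have h := sum_mu_coprime hk ha
  have h2 : ((∑ d ∈ pdiv a, (if d ∣ k then mu d else 0) : ℤ) : ℂ) =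
      ((if IsCoprime k a then 1 else 0 : ℤ) : ℂ) := by rw [h]
  push_cast at h2
  rw [← h2]

open Classical in
/-- reindexing a sum over the multiples of `g` -/
lemma sum_mult {X : ℝ} (hX : 0 ≤ X) {g : Eis} (hg : IsPrim g) (F : Eis → ℂ)
    (hF : ∀ k, k ∈ S X → F (g * k) ≠ 0 → g * k ∈ S X) :
    ∑ k ∈ S X, (if g ∣ k then F k else 0) = ∑ k ∈ S X, F (g * k) := by
  rw [← Finset.sum_filter]
  have h2 : ∑ k ∈ S X, F (g * k) = ∑ k ∈ (S X).filter (fun k => g * k ∈ S X), F (g * k) := by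
    rw [Finset.sum_filter]
    refine Finset.sum_congr rfl fun k hk => ?_
    split_ifs with h
    · rfl
    · by_contra hc
      exact h (hF k hk hc)
  rw [h2]
  symm
  refine Finset.sum_bij (fun k _ => g * k) ?_ ?_ ?_ ?_
  · intro k hk
    rw [Finset.mem_filter] at hk ⊢
    exact ⟨hk.2, dvd_mul_right _ _⟩
  · intro a _ b _ hab
    exact mul_left_cancel₀ hg.ne_zero hab
  · intro k hk
    rw [Finset.mem_filter] at hk
    obtain ⟨hk1, c, rfl⟩ := hk
    have h1 := (mem_S hX).mp hk1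
    have hc : IsPrim c := IsPrim.of_mul_left h1.2.1 hg
    have hcs : Squarefree c := h1.2.2.squarefree_of_dvd (dvd_mul_left _ _)
    have hcn : (nm c : ℝ) ≤ X := by
      refine le_trans ?_ h1.1
      have : nm c ≤ nm (g * c) := by
        rw [nm_mul]
        exact Nat.le_mul_of_pos_left _ (nm_pos.mpr hg.ne_zero)
      exact_mod_cast this
    refine ⟨c, ?_, rfl⟩
    rw [Finset.mem_filter]
    exact ⟨(mem_S hX).mpr ⟨hcn, hc, hcs⟩, hk1⟩
  · intro k _
    rfl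

variable (H : SyFacts)
include H

lemma sy_cj {x k : Eis} (hk : IsPrim k) : cj (sy x k) = sy (x ^ 2) k := by
  rw [Tau671.star_sy hk, Tau671.sy_pow hk]

lemma sy_eq_cj {x k : Eis} (hk : IsPrim k) : sy x k = cj (sy (x ^ 2) k) := by
  rw [← sy_cj H hk, Complex.conj_conj]

open Classical in
lemma sy_mul_cube {x m k : Eis} (hk : IsPrim k) :
    sy (x * m ^ 3) k = sy x k * (if IsCoprime k m then (1 : ℂ) else 0) := by
  rw [H.mul_left _ _ _ hk]
  congr 1
  split_ifs with h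
  · exact Tau671.sy_cube hk h.symm
  · rw [Tau671.sy_pow hk, Tau671.sy_eq_zero hk (fun h' => h h'.symm)]
    simp

/-- the part of the dual sum over the multiples of `g` -/
def Bg (w : Eis → ℂ) (X : ℝ) (d e f r g : Eis) (s : ℂ) : ℂ := open Classical in
  ∑ k ∈ S X, if g ∣ k then w (d * f * k) * (sy (e * sq3) k * cj (sy (f * r) k) * G k) *
    (nm k : ℂ) ^ (s - 1 / 2) else 0

/-- Moebius inversion for the cube part of the numerator -/
lemma dsum_cube {w : Eis → ℂ} {X : ℝ} (hX : 0 ≤ X) {d e f r m : Eis} (hm : m ≠ 0) (s : ℂ) :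
    dsum w X d e f (r * m ^ 3) s = ∑ g ∈ pdiv m, (mu g : ℂ) * Bg w X d e f r g s := by
  classical
  unfold dsum Bg
  simp_rw [Finset.mul_sum]
  rw [Finset.sum_comm]
  refine Finset.sum_congr rfl fun k hk => ?_
  have hkp := S_prim hX hk
  have e1 : f * (r * m ^ 3) = (f * r) * m ^ 3 := by ring
  rw [e1, sy_mul_cube H hkp, coprime_ind hkp hm, map_mul, map_sum, Finset.mul_sum, Finset.mul_sum,
    Finset.sum_mul, Finset.mul_sum, Finset.sum_mul]
  refine Finset.sum_congr rfl fun g _ => ?_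
  split_ifs with h
  · rw [map_intCast]; ring
  · simp

/-- the linear form with coefficients `b` -/
def Eb (b : Eis → ℂ) (Z : ℝ) (h : Eis) : ℂ := ∑ n ∈ S Z, b n * sy n h

/-- the structured weight -/
def wS (V : ℝ → ℝ) (b : Eis → ℂ) (H Z σ : ℝ) (h : Eis) : ℂ := open Classical in
  if h ∈ S (4 * H) then
    ((V ((nm h : ℝ) / H) * ((nm h : ℝ) / H) ^ (1 / 2 - σ) : ℝ) : ℂ) * cj (Eb b Z h) else 0

omit H in
lemma cpow_split {k : ℕ} (hk : 0 < k) {X1 : ℝ} (hX : 0 < X1) (σ t : ℝ) :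
    (((k : ℝ) / X1) ^ (1 / 2 - σ) : ℝ) * (k : ℂ) ^ ((σ : ℂ) + t * Complex.I - 1 / 2) =
      ((X1 ^ (σ - 1 / 2) : ℝ) : ℂ) * (k : ℂ) ^ ((t : ℂ) * Complex.I) := by
  have hk' : (0 : ℝ) < k := by exact_mod_cast hk
  have hkC : (k : ℂ) ≠ 0 := by exact_mod_cast hk.ne'
  have e1 : ((σ : ℂ) + t * Complex.I - 1 / 2) = ((σ - 1 / 2 : ℝ) : ℂ) + t * Complex.I := by
    push_cast; ring
  rw [e1, Complex.cpow_add _ _ hkC, ← mul_assoc]
  congr 1
  have e2 : (k : ℂ) = ((k : ℝ) : ℂ) := by norm_cast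
  rw [e2, ← Complex.ofReal_cpow hk'.le, ← Complex.ofReal_mul]
  congr 1
  rw [Real.div_rpow hk'.le hX.le, div_mul_eq_mul_div, ← Real.rpow_add hk']
  have e3 : (1 : ℝ) / 2 - σ + (σ - 1 / 2) = 0 := by ring
  rw [e3, Real.rpow_zero, one_div, ← Real.rpow_neg hX.le]
  congr 1; ring

/-- the constant in front of the Type I sum -/
def Cg (e f r g : Eis) (s : ℂ) : ℂ :=
  sy (e * sq3) g * cj (sy (f * r) g) * G g * (nm g : ℂ) ^ (s - 1 / 2)


omit H in
lemma nm_mul_cpow (a k : Eis) (z : ℂ) :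
    ((nm (a * k) : ℕ) : ℂ) ^ z = (nm a : ℂ) ^ z * (nm k : ℂ) ^ z := by
  rw [nm_mul]
  push_cast
  exact Complex.natCast_mul_natCast_cpow _ _ _

/-- the summand after splitting off `q` -/
def Psi (V : ℝ → ℝ) (b : Eis → ℂ) (H0 Z σ : ℝ) (q e R : Eis) (s : ℂ) (k : Eis) : ℂ :=
  ((V ((nm (q * k) : ℝ) / H0) * ((nm (q * k) : ℝ) / H0) ^ (1 / 2 - σ) : ℝ) : ℂ) *
    cj (Eb b Z (q * k)) * (sy (e * sq3) k * cj (sy R k) * G k) * (nm k : ℂ) ^ (s - 1 / 2)

open Classical in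
lemma step_g (hG : GFacts) {V : ℝ → ℝ} (hV : ∀ x, 4 < x → V x = 0) {b : Eis → ℂ}
    {H0 Z σ : ℝ} (hH : 0 < H0) {d e f r g : Eis} (hd : IsPrim d) (hf : IsPrim f) (hg : IsPrim g)
    (s : ℂ) {k : Eis} (hk : k ∈ S (4 * H0)) :
    wS V b H0 Z σ (d * f * (g * k)) * (sy (e * sq3) (g * k) * cj (sy (f * r) (g * k)) *
      G (g * k)) * ((nm (g * k) : ℕ) : ℂ) ^ (s - 1 / 2) =
    (if Squarefree (d * f * g) then 1 else 0) * Cg e f r g s *
      ((if IsCoprime k d then 1 else 0) * Psi V b H0 Z σ (d * f * g) e (f * r * g) s k) := by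
  have h4 : (0 : ℝ) ≤ 4 * H0 := by positivity
  have hkp := S_prim h4 hk
  have hks := S_sqf h4 hk
  unfold Psi Cg
  rw [H.mul_right _ _ _ hg hkp, H.mul_right _ _ _ hg hkp, hG.mul _ _ hg hkp, nm_mul_cpow,
    H.mul_left (f * r) g k hkp]
  simp only [map_mul]
  have e1 : d * f * (g * k) = d * f * g * k := by ring
  rw [e1]
  by_cases hcf : IsCoprime k f
  swap
  · have : sy (f * r) k = 0 := by
      rw [H.mul_left _ _ _ hkp, Tau671.sy_eq_zero hkp (fun h' => hcf h'.symm), zero_mul]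
    rw [this]; simp
  by_cases hcg : IsCoprime k g
  swap
  · rw [Tau671.sy_eq_zero hkp (fun h' => hcg h'.symm)]; simp
  by_cases hcd : IsCoprime k d
  swap
  · rw [if_neg hcd]
    have : wS V b H0 Z σ (d * f * g * k) = 0 := by
      unfold wS
      rw [if_neg]
      intro hmem
      have hs := S_sqf h4 hmem
      apply hcd
      have h2 : Squarefree (d * k) := hs.squarefree_of_dvd ⟨f * g, by ring⟩
      exact (squarefree_mul_iff.mp h2).1.isCoprime.symm
    rw [this]; simp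
  rw [if_pos hcd]
  have hco : IsCoprime (d * f * g) k := ((hcd.symm.mul_left hcf.symm).mul_left hcg.symm)
  have hw : wS V b H0 Z σ (d * f * g * k) = (if Squarefree (d * f * g) then 1 else 0) *
      (((V ((nm (d * f * g * k) : ℝ) / H0) * ((nm (d * f * g * k) : ℝ) / H0) ^ (1 / 2 - σ) : ℝ) :
        ℂ) * cj (Eb b Z (d * f * g * k))) := by
    unfold wS
    by_cases hsq : Squarefree (d * f * g)
    · rw [if_pos hsq, one_mul]
      by_cases hn : ((nm (d * f * g * k) : ℝ)) ≤ 4 * H0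
      · rw [if_pos]
        rw [mem_S h4]
        exact ⟨hn, (((hd.mul hf).mul hg).mul hkp),
          squarefree_mul_iff.mpr ⟨hco.isRelPrime, hsq, hks⟩⟩
      · rw [if_neg (fun hmem => hn (S_le h4 hmem))]
        have : V ((nm (d * f * g * k) : ℝ) / H0) = 0 := by
          apply hV
          rw [lt_div_iff₀ hH]
          exact not_le.mp hn
        rw [this]; simp
    · rw [if_neg hsq, if_neg, zero_mul]
      intro hmem
      exact hsq ((S_sqf h4 hmem).squarefree_of_dvd (dvd_mul_right _ _))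
  rw [hw]
  ring

omit H in
lemma nm_le_nm_mul {q : Eis} (hq : q ≠ 0) (k : Eis) : (nm k : ℝ) ≤ (nm (q * k) : ℕ) := by
  rw [nm_mul]
  exact_mod_cast Nat.le_mul_of_pos_left _ (nm_pos.mpr hq)

omit H in
/-- if `Psi` does not vanish at a primary `k` then `k ∈ S (4 H0)` -/
lemma mem_of_Psi_ne (hG : GFacts) {V : ℝ → ℝ} (hV : ∀ x, 4 < x → V x = 0) {b : Eis → ℂ}
    {H0 Z σ : ℝ} (hH : 0 < H0) {q e R : Eis} (hq : q ≠ 0) {s : ℂ} {k : Eis} (hk : IsPrim k)
    (h : Psi V b H0 Z σ q e R s k ≠ 0) : k ∈ S (4 * H0) := by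
  have h4 : (0 : ℝ) ≤ 4 * H0 := by positivity
  rw [mem_S h4]
  refine ⟨?_, hk, ?_⟩
  · by_contra hn
    apply h
    have : V ((nm (q * k) : ℝ) / H0) = 0 := by
      apply hV
      rw [lt_div_iff₀ hH]
      exact lt_of_lt_of_le (not_le.mp hn) (nm_le_nm_mul hq k)
    unfold Psi
    rw [this]; simp
  · by_contra hn
    apply h
    unfold Psi
    rw [hG.zero k hk hn]; simp

lemma Psi_mul (hG : GFacts) {V : ℝ → ℝ} {b : Eis → ℂ}
    {H0 Z σ : ℝ} {q e R g' : Eis} (hg : IsPrim g') (s : ℂ) {k : Eis} (hk : IsPrim k) :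
    Psi V b H0 Z σ q e R s (g' * k) =
      Cg e 1 R g' s * Psi V b H0 Z σ (q * g') e (R * g') s k := by
  unfold Psi Cg
  rw [H.mul_right _ _ _ hg hk, H.mul_right _ _ _ hg hk, hG.mul _ _ hg hk, nm_mul_cpow,
    H.mul_left R g' k hk, ← mul_assoc q g' k, one_mul]
  simp only [map_mul]
  ring

open Classical in
lemma step_d (hG : GFacts) {V : ℝ → ℝ} (hV : ∀ x, 4 < x → V x = 0) {b : Eis → ℂ}
    {H0 Z σ : ℝ} (hH : 0 < H0) {q e R d : Eis} (hq : q ≠ 0) (hd : IsPrim d) (s : ℂ) :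
    ∑ k ∈ S (4 * H0), (if IsCoprime k d then (1 : ℂ) else 0) * Psi V b H0 Z σ q e R s k =
      ∑ g' ∈ pdiv d, (mu g' : ℂ) * (Cg e 1 R g' s *
        ∑ k ∈ S (4 * H0), Psi V b H0 Z σ (q * g') e (R * g') s k) := by
  have h4 : (0 : ℝ) ≤ 4 * H0 := by positivity
  have e1 : ∀ k ∈ S (4 * H0), (if IsCoprime k d then (1 : ℂ) else 0) * Psi V b H0 Z σ q e R s k =
      ∑ g' ∈ pdiv d, (mu g' : ℂ) * (if g' ∣ k then Psi V b H0 Z σ q e R s k else 0) := by
    intro k hk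
    rw [coprime_ind (S_prim h4 hk) hd.ne_zero, Finset.sum_mul]
    refine Finset.sum_congr rfl fun g' _ => ?_
    split_ifs <;> simp
  rw [Finset.sum_congr rfl e1, Finset.sum_comm]
  refine Finset.sum_congr rfl fun g' hg' => ?_
  have hgp : IsPrim g' := ((mem_pdiv hd.ne_zero).mp hg').1
  rw [← Finset.mul_sum]
  congr 1
  rw [sum_mult h4 hgp]
  · rw [Finset.mul_sum]
    refine Finset.sum_congr rfl fun k hk => ?_
    rw [Psi_mul H hG hgp s (S_prim h4 hk)]
  · intro k hk hne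
    exact mem_of_Psi_ne hG hV hH hq (hgp.mul (S_prim h4 hk)) hne

omit H in
lemma natS_eq (hG : GFacts) {V : ℝ → ℝ} (hV : ∀ x, 4 < x → V x = 0) {X1 H0 : ℝ} (hX : 0 < X1)
    (hXH : X1 ≤ H0) (ρ : Eis) (t : ℝ) :
    NatS V ρ X1 t = ∑ k ∈ S (4 * H0), G k * cj (sy ρ k) * (V ((nm k : ℝ) / X1) : ℂ) *
      (nm k : ℂ) ^ ((t : ℂ) * Complex.I) := by
  classical
  have h4 : (0 : ℝ) ≤ 4 * H0 := by linarith
  unfold NatS
  rw [tsum_eq_sum (s := S (4 * H0))]
  · refine Finset.sum_congr rfl fun k hk => ?_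
    rw [if_pos (S_prim h4 hk)]
  · intro k hk
    split_ifs with hp
    · by_cases hs : Squarefree k
      · have hn : ¬ (nm k : ℝ) ≤ 4 * H0 := fun hn => hk ((mem_S h4).mpr ⟨hn, hp, hs⟩)
        have : V ((nm k : ℝ) / X1) = 0 := by
          apply hV
          rw [lt_div_iff₀ hX]
          calc 4 * X1 ≤ 4 * H0 := by linarith
            _ < _ := not_le.mp hn
        rw [this]; simp
      · rw [hG.zero k hp hs]; simp
    · rfl

lemma sum_Psi (hG : GFacts) {V : ℝ → ℝ} (hV : ∀ x, 4 < x → V x = 0) {b : Eis → ℂ}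
    {H0 Z σ t : ℝ} (hH : 0 < H0) (hZ : 0 ≤ Z) {q e R : Eis} (hq : IsPrim q) :
    ∑ k ∈ S (4 * H0), Psi V b H0 Z σ q e R (σ + t * Complex.I) k =
      (((H0 / nm q) ^ (σ - 1 / 2) : ℝ) : ℂ) * ∑ n ∈ S Z, cj (b n) * cj (sy n q) *
        NatS V (n * (R * (e * sq3) ^ 2)) (H0 / nm q) t := by
  have h4 : (0 : ℝ) ≤ 4 * H0 := by positivity
  have hq0 : (0 : ℝ) < nm q := by exact_mod_cast nm_pos.mpr hq.ne_zero
  have hq1 : (1 : ℝ) ≤ nm q := by exact_mod_cast nm_pos.mpr hq.ne_zero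
  have hX1 : 0 < H0 / nm q := by positivity
  have hX1H : H0 / nm q ≤ H0 := div_le_self hH.le hq1
  simp_rw [natS_eq hG hV hX1 hX1H]
  rw [Finset.mul_sum]
  simp_rw [Finset.mul_sum]
  rw [Finset.sum_comm]
  refine Finset.sum_congr rfl fun k hk => ?_
  have hkp := S_prim h4 hk
  unfold Psi Eb
  rw [map_sum, Finset.mul_sum, Finset.sum_mul, Finset.sum_mul]
  refine Finset.sum_congr rfl fun n hn => ?_
  have e0 : (nm (q * k) : ℝ) / H0 = (nm k : ℝ) / (H0 / nm q) := by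
    rw [nm_mul]; push_cast
    field_simp
  rw [e0]
  have e1 := cpow_split (nm_pos.mpr hkp.ne_zero) hX1 σ t
  have e2 : sy (e * sq3) k = cj (sy ((e * sq3) ^ 2) k) := sy_eq_cj H hkp
  rw [e2, H.mul_right _ _ _ hq hkp, H.mul_left n _ _ hkp, H.mul_left R _ _ hkp]
  simp only [map_mul]
  push_cast at e1 ⊢
  linear_combination (V ((nm k : ℝ) / (H0 / nm q)) * (cj (b n) * (cj (sy n q) * cj (sy n k))) *
    (cj (sy ((e * sq3) ^ 2) k) * cj (sy R k) * G k) : ℂ) * e1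

/-- **The structured dual sum in terms of natural Type I sums.** -/
theorem Bg_eq (hG : GFacts) {V : ℝ → ℝ} (hV : ∀ x, 4 < x → V x = 0) {b : Eis → ℂ}
    {H0 Z σ t : ℝ} (hH : 0 < H0) (hZ : 0 ≤ Z) {d e f r g : Eis} (hd : IsPrim d) (hf : IsPrim f)
    (hg : IsPrim g) :
    Bg (wS V b H0 Z σ) (4 * H0) d e f r g (σ + t * Complex.I) =
      (open Classical in if Squarefree (d * f * g) then 1 else 0) * Cg e f r g (σ + t * Complex.I) *
      ∑ g' ∈ pdiv d, (mu g' : ℂ) * (Cg e 1 (f * r * g) g' (σ + t * Complex.I) *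
        ((((H0 / nm (d * f * g * g')) ^ (σ - 1 / 2) : ℝ) : ℂ) *
          ∑ n ∈ S Z, cj (b n) * cj (sy n (d * f * g * g')) *
            NatS V (n * (f * r * g * g' * (e * sq3) ^ 2)) (H0 / nm (d * f * g * g')) t)) := by
  classical
  have h4 : (0 : ℝ) ≤ 4 * H0 := by positivity
  unfold Bg
  rw [sum_mult h4 hg]
  · rw [Finset.sum_congr rfl fun k hk => step_g H hG hV hH hd hf hg _ hk]
    rw [← Finset.mul_sum, step_d H hG hV hH ((hd.mul hf).mul hg).ne_zero hd]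
    congr 1
    refine Finset.sum_congr rfl fun g' hg' => ?_
    have hgp : IsPrim g' := ((mem_pdiv hd.ne_zero).mp hg').1
    rw [sum_Psi H hG hV hH hZ (((hd.mul hf).mul hg).mul hgp)]
  · intro k hk hne
    have hw : wS V b H0 Z σ (d * f * (g * k)) ≠ 0 := fun h => hne (by rw [h]; simp)
    have hmem : d * f * (g * k) ∈ S (4 * H0) := by
      unfold wS at hw
      by_contra hc
      rw [if_neg hc] at hw
      exact hw rfl
    rw [mem_S h4] at hmem ⊢
    refine ⟨le_trans (nm_le_nm_mul (hd.mul hf).ne_zero _) hmem.1, hg.mul (S_prim h4 hk),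
      hmem.2.2.squarefree_of_dvd (dvd_mul_left _ _)⟩

end Crest.Agent.R012.CR2
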