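import Crest.Agent.R012.CR2a_180
import Crest.Agent.R012.LScount_448

/-!
# Row 12 (CR2), part b: elementary bounds for the dual sums
-/

set_option autoImplicit false
set_option linter.unusedVariables false
set_option linter.unusedSimpArgs false
set_option linter.unusedSectionVars false

noncomputable section

namespace Crest.Agent.R012.CR2

open Eis LS2 Mob705 Finset CharSum852 Tau671

local notation "cj" => starRingEnd ℂ

lemma card_bl_le {Y : ℝ} (hY : 0 ≤ Y) : ((bl Y).card : ℝ) ≤ 16 * Y := by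
  classical
  by_cases h1 : 1 ≤ Y
  · have h2 : 1 ≤ ⌊Y⌋₊ := Nat.le_floor (by exact_mod_cast h1)
    have h3 := LS448.card_ball_le h2
    have h4 : (bl Y).card ≤ (ball ⌊Y⌋₊).card := Finset.card_erase_le
    calc ((bl Y).card : ℝ) ≤ ((16 * ⌊Y⌋₊ : ℕ) : ℝ) := by exact_mod_cast h4.trans h3
      _ = 16 * (⌊Y⌋₊ : ℝ) := by push_cast; ring
      _ ≤ 16 * Y := by
        have := Nat.floor_le hY
        linarith
  · have : bl Y = ∅ := by
      apply Finset.eq_empty_of_forall_notMem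
      intro x hx
      rw [mem_bl hY] at hx
      have := nm_pos.mpr hx.1
      have h2 : (1 : ℝ) ≤ nm x := by exact_mod_cast this
      linarith [hx.2, not_le.mp h1]
    rw [this]; simp; exact hY

/-- number of multiples of `g` -/
lemma card_mult_le {Y : ℝ} (hY : 0 ≤ Y) {g : Eis} (hg : g ≠ 0) (T : Finset Eis)
    (hT : ∀ k ∈ T, k ≠ 0 ∧ g ∣ k ∧ (nm k : ℝ) ≤ Y) : (T.card : ℝ) ≤ 16 * (Y / nm g) := by
  classical
  have hg0 : (0 : ℝ) < nm g := by exact_mod_cast nm_pos.mpr hg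
  have h1 : T ⊆ (bl (Y / nm g)).image (fun k => g * k) := by
    intro k hk
    obtain ⟨h0, ⟨c, rfl⟩, h2⟩ := hT k hk
    rw [Finset.mem_image]
    refine ⟨c, ?_, rfl⟩
    rw [mem_bl (by positivity)]
    refine ⟨fun h => h0 (by rw [h, mul_zero]), ?_⟩
    rw [le_div_iff₀ hg0]
    rw [nm_mul] at h2
    push_cast at h2
    linarith
  calc (T.card : ℝ) ≤ (((bl (Y / nm g)).image (fun k => g * k)).card : ℝ) := by
        exact_mod_cast Finset.card_le_card h1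
    _ ≤ ((bl (Y / nm g)).card : ℝ) := by exact_mod_cast Finset.card_image_le
    _ ≤ _ := card_bl_le (by positivity)

/-- Cauchy–Schwarz with the support -/
lemma norm_sum_sq_le_card {ι : Type*} (s : Finset ι) (x : ι → ℂ) :
    ‖∑ i ∈ s, x i‖ ^ 2 ≤ (s.card : ℝ) * ∑ i ∈ s, ‖x i‖ ^ 2 := by
  have h1 : ‖∑ i ∈ s, x i‖ ≤ ∑ i ∈ s, ‖x i‖ := norm_sum_le _ _
  have h2 : (∑ i ∈ s, ‖x i‖) ^ 2 ≤ (s.card : ℝ) * ∑ i ∈ s, ‖x i‖ ^ 2 := sq_sum_le_card_mul_sum_sq
  calc ‖∑ i ∈ s, x i‖ ^ 2 ≤ (∑ i ∈ s, ‖x i‖) ^ 2 := by gcongr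
    _ ≤ _ := h2

lemma norm_sum_sq_le_card' {ι : Type*} (s : Finset ι) (x : ι → ℂ) (B : ℝ)
    (T : Finset ι) (hT : ∀ i ∈ s, x i ≠ 0 → i ∈ T) (hTs : T ⊆ s) (hB : (T.card : ℝ) ≤ B) :
    ‖∑ i ∈ s, x i‖ ^ 2 ≤ B * ∑ i ∈ s, ‖x i‖ ^ 2 := by
  have h1 : ∑ i ∈ s, x i = ∑ i ∈ T, x i := by
    symm
    apply Finset.sum_subset hTs
    intro i hi hiT
    by_contra h
    exact hiT (hT i hi h)
  have h2 : ∑ i ∈ T, ‖x i‖ ^ 2 ≤ ∑ i ∈ s, ‖x i‖ ^ 2 :=
    Finset.sum_le_sum_of_subset_of_nonneg hTs fun _ _ _ => by positivity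
  rw [h1]
  calc ‖∑ i ∈ T, x i‖ ^ 2 ≤ (T.card : ℝ) * ∑ i ∈ T, ‖x i‖ ^ 2 := norm_sum_sq_le_card T x
    _ ≤ B * ∑ i ∈ s, ‖x i‖ ^ 2 := by
      have hB0 : 0 ≤ B := le_trans (Nat.cast_nonneg _) hB
      gcongr

/-- the weighted square mean of `w` on the multiples of `df` -/
def Xi (w : Eis → ℂ) (X : ℝ) (d f : Eis) (σ : ℝ) : ℝ :=
  ∑ k ∈ S X, ‖w (d * f * k)‖ ^ 2 * (nm k : ℝ) ^ (2 * σ - 1)

lemma Xi_nonneg (w : Eis → ℂ) (X : ℝ) (d f : Eis) (σ : ℝ) : 0 ≤ Xi w X d f σ :=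
  Finset.sum_nonneg fun _ _ => by positivity

lemma norm_cpow_half {k : ℕ} (hk : 0 < k) (σ t : ℝ) :
    ‖(k : ℂ) ^ ((σ : ℂ) + t * Complex.I - 1 / 2)‖ ^ 2 = (k : ℝ) ^ (2 * σ - 1) := by
  rw [Complex.norm_natCast_cpow_of_pos hk]
  have : ((σ : ℂ) + t * Complex.I - 1 / 2).re = σ - 1 / 2 := by
    simp
  rw [this, ← Real.rpow_natCast, ← Real.rpow_mul (Nat.cast_nonneg k)]
  congr 1
  push_cast; ring

variable (H : SyFacts)
include H

/-- the terms of the dual sum -/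
lemma norm_term_le (hG : GFacts) {w : Eis → ℂ} {d e f l k : Eis} (hk : IsPrim k) (σ t : ℝ) :
    ‖w (d * f * k) * (sy (e * sq3) k * cj (sy (f * l) k) * G k) *
      (nm k : ℂ) ^ ((σ : ℂ) + t * Complex.I - 1 / 2)‖ ^ 2 ≤
      ‖w (d * f * k)‖ ^ 2 * (nm k : ℝ) ^ (2 * σ - 1) := by
  rw [norm_mul, norm_mul, mul_pow, mul_pow, norm_cpow_half (nm_pos.mpr hk.ne_zero)]
  have h1 : ‖sy (e * sq3) k * cj (sy (f * l) k) * G k‖ ≤ 1 := by
    rw [norm_mul, norm_mul, RCLike.norm_conj]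
    calc _ ≤ (1 : ℝ) * 1 * 1 := by
          gcongr
          · exact Tau671.norm_sy_le hk
          · exact Tau671.norm_sy_le hk
          · exact hG.le_one k hk
      _ = 1 := by norm_num
  have h2 : ‖sy (e * sq3) k * cj (sy (f * l) k) * G k‖ ^ 2 ≤ 1 := by
    calc _ ≤ (1 : ℝ) ^ 2 := by gcongr
      _ = 1 := by norm_num
  calc _ ≤ ‖w (d * f * k)‖ ^ 2 * 1 * (nm k : ℝ) ^ (2 * σ - 1) := by gcongr
    _ = _ := by ring

omit H in
/-- support of `k ↦ w (d f k)` -/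
lemma supp_le {w : Eis → ℂ} {X : ℝ} (hX : 0 ≤ X) (hw : ∀ h, w h ≠ 0 → h ∈ S X) {d f k : Eis}
    (hd : d ≠ 0) (hf : f ≠ 0) (h : w (d * f * k) ≠ 0) : (nm k : ℝ) ≤ X / (nm d * nm f) := by
  have h1 := S_le hX (hw _ h)
  have hd0 : (0 : ℝ) < nm d := by exact_mod_cast nm_pos.mpr hd
  have hf0 : (0 : ℝ) < nm f := by exact_mod_cast nm_pos.mpr hf
  rw [le_div_iff₀ (by positivity)]
  rw [nm_mul, nm_mul] at h1
  push_cast at h1
  linarith

/-- the trivial bound for the dual sum -/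
lemma dsum_trivial (hG : GFacts) {w : Eis → ℂ} {X : ℝ} (hX : 0 ≤ X) (hw : ∀ h, w h ≠ 0 → h ∈ S X)
    {d e f l : Eis} (hd : d ≠ 0) (hf : f ≠ 0) (σ t : ℝ) :
    ‖dsum w X d e f l (σ + t * Complex.I)‖ ^ 2 ≤
      16 * (X / (nm d * nm f)) * Xi w X d f σ := by
  classical
  have hd0 : (0 : ℝ) < nm d := by exact_mod_cast nm_pos.mpr hd
  have hf0 : (0 : ℝ) < nm f := by exact_mod_cast nm_pos.mpr hf
  have hY : 0 ≤ X / (nm d * nm f) := by positivity
  unfold dsum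
  refine (norm_sum_sq_le_card' (S X) _ (16 * (X / (nm d * nm f)))
    ((S X).filter (fun k => w (d * f * k) ≠ 0)) ?_ (Finset.filter_subset _ _) ?_).trans ?_
  · intro k hk hne
    rw [Finset.mem_filter]
    refine ⟨hk, fun h => hne ?_⟩
    rw [h]; simp
  · have := card_mult_le hY one_ne_zero ((S X).filter (fun k => w (d * f * k) ≠ 0)) ?_
    · simpa using this
    · intro k hk
      rw [Finset.mem_filter] at hk
      exact ⟨(S_prim hX hk.1).ne_zero, one_dvd _, supp_le hX hw hd hf hk.2⟩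
  · unfold Xi
    gcongr with k hk
    exact norm_term_le H hG (S_prim hX hk) σ t

/-- the trivial bound for `Bg` -/
lemma Bg_trivial (hG : GFacts) {w : Eis → ℂ} {X : ℝ} (hX : 0 ≤ X) (hw : ∀ h, w h ≠ 0 → h ∈ S X)
    {d e f r g : Eis} (hd : d ≠ 0) (hf : f ≠ 0) (hg : g ≠ 0) (σ t : ℝ) :
    ‖Bg w X d e f r g (σ + t * Complex.I)‖ ^ 2 ≤
      16 * (X / (nm d * nm f) / nm g) * (open Classical in
        ∑ k ∈ S X, if g ∣ k then ‖w (d * f * k)‖ ^ 2 * (nm k : ℝ) ^ (2 * σ - 1) else 0) := by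
  classical
  have hd0 : (0 : ℝ) < nm d := by exact_mod_cast nm_pos.mpr hd
  have hf0 : (0 : ℝ) < nm f := by exact_mod_cast nm_pos.mpr hf
  have hY : 0 ≤ X / (nm d * nm f) := by positivity
  unfold Bg
  refine (norm_sum_sq_le_card' (S X) _ (16 * (X / (nm d * nm f) / nm g))
    ((S X).filter (fun k => w (d * f * k) ≠ 0 ∧ g ∣ k)) ?_ (Finset.filter_subset _ _) ?_).trans ?_
  · intro k hk hne
    rw [Finset.mem_filter]
    refine ⟨hk, fun h => hne ?_, ?_⟩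
    · split_ifs
      · rw [h]; simp
      · rfl
    · by_contra hc
      rw [if_neg hc] at hne
      exact hne rfl
  · refine card_mult_le hY hg _ ?_
    intro k hk
    rw [Finset.mem_filter] at hk
    exact ⟨(S_prim hX hk.1).ne_zero, hk.2.2, supp_le hX hw hd hf hk.2.1⟩
  · gcongr with k hk
    split_ifs
    · exact norm_term_le H hG (S_prim hX hk) σ t
    · simp

omit H in
/-- `l` is small: its cubefree part has norm `< K0` -/
def Sm (K0 : ℝ) (l : Eis) : Prop := ∃ m n0 : Eis, l = m ^ 3 * n0 ∧ (nm n0 : ℝ) < K0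

omit H in
open Classical in
/-- summing over small `l` -/
lemma sum_small_le {L M K0 : ℝ} (hL : 0 ≤ L) (hM : 0 ≤ M) (hLM : L ≤ M ^ 3) (hK : 0 ≤ K0)
    (F : Eis → ℝ) (hF : ∀ l, 0 ≤ F l) :
    ∑ l ∈ (bl L).filter (Sm K0), F l ≤ ∑ r ∈ bl K0, ∑ m ∈ bl M, F (r * m ^ 3) := by
  rw [← Finset.sum_product']
  calc ∑ l ∈ (bl L).filter (Sm K0), F l
      ≤ ∑ l ∈ (bl K0 ×ˢ bl M).image (fun p => p.1 * p.2 ^ 3), F l := by
        apply Finset.sum_le_sum_of_subset_of_nonneg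
        · intro l hl
          rw [Finset.mem_filter, mem_bl hL] at hl
          obtain ⟨⟨h0, h1⟩, m, n0, rfl, h2⟩ := hl
          have hm : m ≠ 0 := by
            rintro rfl; exact h0 (by simp)
          have hn : n0 ≠ 0 := by
            rintro rfl; exact h0 (by simp)
          rw [Finset.mem_image]
          refine ⟨(n0, m), ?_, by ring⟩
          rw [Finset.mem_product, mem_bl hK, mem_bl hM]
          refine ⟨⟨hn, h2.le⟩, hm, ?_⟩
          have h3 : (nm m : ℝ) ^ 3 ≤ M ^ 3 := by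
            refine le_trans ?_ hLM
            refine le_trans ?_ h1
            rw [nm_mul, nm_pow]
            push_cast
            have h4 : (1 : ℝ) ≤ nm n0 := by exact_mod_cast nm_pos.mpr hn
            have h5 : (0 : ℝ) ≤ (nm m : ℝ) ^ 3 := by positivity
            nlinarith
          exact le_of_pow_le_pow_left₀ (by norm_num) hM h3
        · intro i _ _; exact hF i
    _ ≤ ∑ p ∈ bl K0 ×ˢ bl M, F (p.1 * p.2 ^ 3) := by
        apply Finset.sum_image_le_of_nonneg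
        intro i _; exact hF _

lemma dsum_cube_sq {w : Eis → ℂ} {X : ℝ} (hX : 0 ≤ X) {d e f r m : Eis} (hm : m ≠ 0) (s : ℂ) :
    ‖dsum w X d e f (r * m ^ 3) s‖ ^ 2 ≤
      ((pdiv m).card : ℝ) * ∑ g ∈ pdiv m, ‖Bg w X d e f r g s‖ ^ 2 := by
  rw [dsum_cube H hX hm]
  refine (norm_sum_sq_le_card _ _).trans ?_
  gcongr with g hg
  rw [norm_mul]
  have h1 : ‖((mu g : ℤ) : ℂ)‖ ≤ 1 := by
    rw [Complex.norm_intCast]
    exact_mod_cast abs_mu_le_one g
  calc ‖((mu g : ℤ) : ℂ)‖ * ‖Bg w X d e f r g s‖ ≤ 1 * ‖Bg w X d e f r g s‖ := by gcongr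
    _ = _ := one_mul _

/-- nonzero primary elements of norm at most `M` -/
def PB (M : ℝ) : Finset Eis := open Classical in (bl M).filter IsPrim

omit H in
lemma mem_PB {M : ℝ} (hM : 0 ≤ M) {g : Eis} : g ∈ PB M ↔ IsPrim g ∧ (nm g : ℝ) ≤ M := by
  classical
  unfold PB
  rw [Finset.mem_filter, mem_bl hM]
  constructor
  · rintro ⟨⟨_, h⟩, h2⟩; exact ⟨h2, h⟩
  · rintro ⟨h2, h⟩; exact ⟨⟨h2.ne_zero, h⟩, h2⟩

omit H in
lemma sum_divisors_le {M τ : ℝ} (hM : 0 ≤ M) (hτ : ∀ m ∈ bl M, ((pdiv m).card : ℝ) ≤ τ)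
    (hτ0 : 0 ≤ τ) (F : Eis → ℝ) (hF : ∀ g, 0 ≤ F g) :
    ∑ m ∈ bl M, ((pdiv m).card : ℝ) * ∑ g ∈ pdiv m, F g ≤
      16 * τ * M * ∑ g ∈ PB M, F g / nm g := by
  classical
  calc ∑ m ∈ bl M, ((pdiv m).card : ℝ) * ∑ g ∈ pdiv m, F g
      ≤ ∑ m ∈ bl M, τ * ∑ g ∈ PB M, (if g ∣ m then F g else 0) := by
        refine Finset.sum_le_sum fun m hm => ?_
        have h1 : ∑ g ∈ pdiv m, F g ≤ ∑ g ∈ PB M, (if g ∣ m then F g else 0) := by
          rw [← Finset.sum_filter]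
          apply Finset.sum_le_sum_of_subset_of_nonneg
          · intro g hg
            have hm0 := ((mem_bl hM).mp hm)
            rw [mem_pdiv hm0.1] at hg
            rw [Finset.mem_filter, mem_PB hM]
            refine ⟨⟨hg.1, le_trans ?_ hm0.2⟩, hg.2⟩
            exact_mod_cast LS448.nm_le_of_dvd hg.2 hm0.1
          · intro i _ _; exact hF i
        have h2 : 0 ≤ ∑ g ∈ pdiv m, F g := Finset.sum_nonneg fun i _ => hF i
        exact mul_le_mul (hτ m hm) h1 h2 hτ0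
    _ = τ * ∑ g ∈ PB M, ∑ m ∈ bl M, (if g ∣ m then F g else 0) := by
        rw [← Finset.mul_sum, Finset.sum_comm]
    _ ≤ τ * ∑ g ∈ PB M, 16 * (M / nm g) * F g := by
        gcongr with g hg
        rw [← Finset.sum_filter, Finset.sum_const, nsmul_eq_mul]
        apply mul_le_mul_of_nonneg_right _ (hF g)
        refine card_mult_le hM ((mem_PB hM).mp hg).1.ne_zero _ ?_
        intro k hk
        rw [Finset.mem_filter, mem_bl hM] at hk
        exact ⟨hk.1.1, hk.2, hk.1.2⟩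
    _ = _ := by
        rw [Finset.mul_sum, Finset.mul_sum]
        refine Finset.sum_congr rfl fun g _ => ?_
        ring


omit H in
lemma gsum_small {w : Eis → ℂ} {X : ℝ} {d e f r : Eis} {s : ℂ} {M G0 U : ℝ} (hM : 0 ≤ M)
    (hG0 : 0 ≤ G0) (hU0 : 0 ≤ U)
    (hU : ∀ g, IsPrim g → (nm g : ℝ) ≤ G0 → ‖Bg w X d e f r g s‖ ^ 2 ≤ U) :
    ∑ g ∈ (PB M).filter (fun g => (nm g : ℝ) ≤ G0), ‖Bg w X d e f r g s‖ ^ 2 / nm g ≤
      16 * G0 * U := by
  classical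
  calc ∑ g ∈ (PB M).filter (fun g => (nm g : ℝ) ≤ G0), ‖Bg w X d e f r g s‖ ^ 2 / nm g
      ≤ ∑ g ∈ (PB M).filter (fun g => (nm g : ℝ) ≤ G0), U := by
        refine Finset.sum_le_sum fun g hg => ?_
        rw [Finset.mem_filter, mem_PB hM] at hg
        have h1 : (1 : ℝ) ≤ nm g := by exact_mod_cast nm_pos.mpr hg.1.1.ne_zero
        calc ‖Bg w X d e f r g s‖ ^ 2 / nm g ≤ ‖Bg w X d e f r g s‖ ^ 2 :=
              div_le_self (by positivity) h1
          _ ≤ U := hU g hg.1.1 hg.2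
    _ = (((PB M).filter (fun g => (nm g : ℝ) ≤ G0)).card : ℝ) * U := by
        rw [Finset.sum_const, nsmul_eq_mul]
    _ ≤ 16 * G0 * U := by
        apply mul_le_mul_of_nonneg_right _ hU0
        have := card_mult_le (Y := G0) hG0 one_ne_zero
          ((PB M).filter (fun g => (nm g : ℝ) ≤ G0)) ?_
        · simpa using this
        · intro k hk
          rw [Finset.mem_filter, mem_PB hM] at hk
          exact ⟨hk.1.1.ne_zero, one_dvd _, hk.2⟩

open Classical in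
lemma gsum_large (hG : GFacts) {w : Eis → ℂ} {X : ℝ} (hX : 0 ≤ X)
    (hw : ∀ h, w h ≠ 0 → h ∈ S X) {d e f r : Eis} (hd : IsPrim d) (hf : IsPrim f) {σ t : ℝ}
    {M G0 τ : ℝ} (hM : 0 ≤ M) (hG0 : 1 ≤ G0)
    (hτ' : ∀ m ∈ S X, ((pdiv m).card : ℝ) ≤ τ) :
    ∑ g ∈ (PB M).filter (fun g => ¬ (nm g : ℝ) ≤ G0),
      ‖Bg w X d e f r g (σ + t * Complex.I)‖ ^ 2 / nm g ≤
      16 * (X / (nm d * nm f)) / G0 * (τ * Xi w X d f σ) := by
  have hd0 : (0 : ℝ) < nm d := by exact_mod_cast nm_pos.mpr hd.ne_zero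
  have hf0 : (0 : ℝ) < nm f := by exact_mod_cast nm_pos.mpr hf.ne_zero
  have hY : 0 ≤ X / (nm d * nm f) := by positivity
  have hG0' : 0 < G0 := by linarith
  set s : ℂ := σ + t * Complex.I with hs
  set v : Eis → ℝ := fun k => ‖w (d * f * k)‖ ^ 2 * (nm k : ℝ) ^ (2 * σ - 1) with hv
  have hv0 : ∀ k, 0 ≤ v k := fun k => by positivity
  have h3 : ∀ g, 0 ≤ ∑ k ∈ S X, (if g ∣ k then v k else 0) := by
    intro g
    refine Finset.sum_nonneg fun k _ => ?_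
    split_ifs
    · exact hv0 k
    · exact le_rfl
  have hA : 0 ≤ 16 * (X / (nm d * nm f)) / G0 := by positivity
  calc ∑ g ∈ (PB M).filter (fun g => ¬ (nm g : ℝ) ≤ G0), ‖Bg w X d e f r g s‖ ^ 2 / nm g
      ≤ ∑ g ∈ (PB M).filter (fun g => ¬ (nm g : ℝ) ≤ G0),
          16 * (X / (nm d * nm f)) / G0 * (∑ k ∈ S X, if g ∣ k then v k else 0) := by
        refine Finset.sum_le_sum fun g hg => ?_
        rw [Finset.mem_filter, mem_PB hM] at hg
        have h1 : (1 : ℝ) ≤ nm g := by exact_mod_cast nm_pos.mpr hg.1.1.ne_zero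
        have h2 := Bg_trivial H hG hX hw (e := e) (r := r) hd.ne_zero hf.ne_zero
          hg.1.1.ne_zero σ t
        rw [← hs] at h2
        have h4 : G0 ≤ nm g := (not_le.mp hg.2).le
        have h5 : 16 * (X / (nm d * nm f) / nm g) ≤ 16 * (X / (nm d * nm f)) / G0 := by
          rw [mul_div_assoc]
          apply mul_le_mul_of_nonneg_left _ (by norm_num)
          exact div_le_div_of_nonneg_left hY hG0' h4
        calc ‖Bg w X d e f r g s‖ ^ 2 / nm g ≤ ‖Bg w X d e f r g s‖ ^ 2 :=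
              div_le_self (by positivity) h1
          _ ≤ _ := h2
          _ ≤ _ := mul_le_mul_of_nonneg_right h5 (h3 g)
    _ ≤ ∑ g ∈ PB M, 16 * (X / (nm d * nm f)) / G0 * (∑ k ∈ S X, if g ∣ k then v k else 0) := by
        apply Finset.sum_le_sum_of_subset_of_nonneg (Finset.filter_subset _ _)
        intro g _ _
        exact mul_nonneg hA (h3 g)
    _ = 16 * (X / (nm d * nm f)) / G0 * ∑ k ∈ S X, ∑ g ∈ PB M, (if g ∣ k then v k else 0) := by
        rw [← Finset.mul_sum, Finset.sum_comm]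
    _ ≤ 16 * (X / (nm d * nm f)) / G0 * ∑ k ∈ S X, τ * v k := by
        apply mul_le_mul_of_nonneg_left _ hA
        refine Finset.sum_le_sum fun k hk => ?_
        rw [← Finset.sum_filter, Finset.sum_const, nsmul_eq_mul]
        apply mul_le_mul_of_nonneg_right _ (hv0 k)
        refine le_trans ?_ (hτ' k hk)
        have : (PB M).filter (fun g => g ∣ k) ⊆ pdiv k := by
          intro g hg
          rw [Finset.mem_filter, mem_PB hM] at hg
          rw [mem_pdiv (S_prim hX hk).ne_zero]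
          exact ⟨hg.1.1, hg.2⟩
        exact_mod_cast Finset.card_le_card this
    _ = _ := by
        rw [← Finset.mul_sum]
        rfl

open Classical in
/-- **Structured bound for small `l`**: `U` bounds `‖Bg‖²` for small `g`. -/
lemma small_struct (hG : GFacts) {w : Eis → ℂ} {X : ℝ} (hX : 0 ≤ X)
    (hw : ∀ h, w h ≠ 0 → h ∈ S X) {d e f : Eis} (hd : IsPrim d) (hf : IsPrim f) {σ t : ℝ}
    {L M K0 G0 τ U : ℝ} (hL : 0 ≤ L) (hM : 0 ≤ M) (hLM : L ≤ M ^ 3) (hK : 0 ≤ K0) (hG0 : 1 ≤ G0)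
    (hU0 : 0 ≤ U) (hτ0 : 0 ≤ τ) (hτ : ∀ m ∈ bl M, ((pdiv m).card : ℝ) ≤ τ)
    (hτ' : ∀ m ∈ S X, ((pdiv m).card : ℝ) ≤ τ)
    (hU : ∀ r ∈ bl K0, ∀ g, IsPrim g → (nm g : ℝ) ≤ G0 →
      ‖Bg w X d e f r g (σ + t * Complex.I)‖ ^ 2 ≤ U) :
    ∑ l ∈ (bl L).filter (Sm K0), ‖dsum w X d e f l (σ + t * Complex.I)‖ ^ 2 ≤
      16 * K0 * (16 * τ * M *
        (16 * G0 * U + 16 * (X / (nm d * nm f)) / G0 * (τ * Xi w X d f σ))) := by
  have hd0 : (0 : ℝ) < nm d := by exact_mod_cast nm_pos.mpr hd.ne_zero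
  have hf0 : (0 : ℝ) < nm f := by exact_mod_cast nm_pos.mpr hf.ne_zero
  have hXi := Xi_nonneg w X d f σ
  have hG0' : 0 < G0 := by linarith
  set s : ℂ := σ + t * Complex.I with hs
  set Q : ℝ := 16 * G0 * U + 16 * (X / (nm d * nm f)) / G0 * (τ * Xi w X d f σ) with hQ
  have hQ0 : 0 ≤ Q := by positivity
  refine (sum_small_le hL hM hLM hK (fun l => ‖dsum w X d e f l s‖ ^ 2)
    (fun l => by positivity)).trans ?_
  have h1 : ∀ r ∈ bl K0, ∑ m ∈ bl M, ‖dsum w X d e f (r * m ^ 3) s‖ ^ 2 ≤ 16 * τ * M * Q := by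
    intro r hr
    calc ∑ m ∈ bl M, ‖dsum w X d e f (r * m ^ 3) s‖ ^ 2
        ≤ ∑ m ∈ bl M, ((pdiv m).card : ℝ) * ∑ g ∈ pdiv m, ‖Bg w X d e f r g s‖ ^ 2 := by
          refine Finset.sum_le_sum fun m hm => ?_
          exact dsum_cube_sq H hX ((mem_bl hM).mp hm).1 s
      _ ≤ 16 * τ * M * ∑ g ∈ PB M, ‖Bg w X d e f r g s‖ ^ 2 / nm g :=
          sum_divisors_le hM hτ hτ0 _ fun g => by positivity
      _ ≤ _ := by
          apply mul_le_mul_of_nonneg_left _ (by positivity)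
          rw [← Finset.sum_filter_add_sum_filter_not (PB M) (fun g => (nm g : ℝ) ≤ G0)]
          exact add_le_add (gsum_small hM hG0'.le hU0 (hU r hr))
            (gsum_large H hG hX hw hd hf hM hG0 hτ')
  calc ∑ r ∈ bl K0, ∑ m ∈ bl M, ‖dsum w X d e f (r * m ^ 3) s‖ ^ 2
      ≤ ∑ r ∈ bl K0, 16 * τ * M * Q := Finset.sum_le_sum h1
    _ = ((bl K0).card : ℝ) * (16 * τ * M * Q) := by
        rw [Finset.sum_const, nsmul_eq_mul]
    _ ≤ 16 * K0 * (16 * τ * M * Q) :=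
        mul_le_mul_of_nonneg_right (card_bl_le hK) (by positivity)

/-- the trivial bound for small `l` -/
lemma small_trivial (hG : GFacts) {w : Eis → ℂ} {X : ℝ} (hX : 0 ≤ X)
    (hw : ∀ h, w h ≠ 0 → h ∈ S X) {d e f : Eis} (hd : IsPrim d) (hf : IsPrim f) {σ t : ℝ}
    {L M K0 : ℝ} (hL : 0 ≤ L) (hM : 0 ≤ M) (hLM : L ≤ M ^ 3) (hK : 0 ≤ K0) :
    (open Classical in
      ∑ l ∈ (bl L).filter (Sm K0), ‖dsum w X d e f l (σ + t * Complex.I)‖ ^ 2) ≤
      16 * K0 * (16 * M * (16 * (X / (nm d * nm f)) * Xi w X d f σ)) := by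
  classical
  have hd0 : (0 : ℝ) < nm d := by exact_mod_cast nm_pos.mpr hd.ne_zero
  have hf0 : (0 : ℝ) < nm f := by exact_mod_cast nm_pos.mpr hf.ne_zero
  have hXi := Xi_nonneg w X d f σ
  set Q : ℝ := 16 * (X / (nm d * nm f)) * Xi w X d f σ with hQ
  have hQ0 : 0 ≤ Q := by positivity
  refine (sum_small_le hL hM hLM hK (fun l => ‖dsum w X d e f l (σ + t * Complex.I)‖ ^ 2)
    (fun l => by positivity)).trans ?_
  calc ∑ r ∈ bl K0, ∑ m ∈ bl M, ‖dsum w X d e f (r * m ^ 3) (σ + t * Complex.I)‖ ^ 2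
      ≤ ∑ r ∈ bl K0, ∑ m ∈ bl M, Q := by
        refine Finset.sum_le_sum fun r _ => Finset.sum_le_sum fun m _ => ?_
        exact dsum_trivial H hG hX hw hd.ne_zero hf.ne_zero σ t
    _ = ((bl K0).card : ℝ) * (((bl M).card : ℝ) * Q) := by
        rw [Finset.sum_const, nsmul_eq_mul, Finset.sum_const, nsmul_eq_mul]
    _ ≤ 16 * K0 * (16 * M * Q) := by
        have h1 := card_bl_le hK
        have h2 := card_bl_le hM
        gcongr

end Crest.Agent.R012.CR2
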