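import Crest.Agent.R012.CR2b_180

/-!
# Row 12 (CR2), part c: inserting the Type I information
-/

set_option autoImplicit false
set_option linter.unusedVariables false
set_option linter.unusedSimpArgs false
set_option linter.unusedSectionVars false

noncomputable section

namespace Crest.Agent.R012.CR2

open Eis LS2 Mob705 Finset CharSum852 Tau671

local notation "cj" => starRingEnd ℂ

/-- the model term in the Type I statement -/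
def Mn (ρ n : Eis) : ℂ := sy ρ n * cj (G n) * ((nm n : ℝ) ^ (-(1 : ℝ) / 6) * phi n : ℝ)

lemma norm_add_sq_le (x y : ℂ) : ‖x + y‖ ^ 2 ≤ 2 * ‖x‖ ^ 2 + 2 * ‖y‖ ^ 2 := by
  have h := norm_add_le x y
  have h0 := norm_nonneg (x + y)
  nlinarith [sq_nonneg (‖x‖ - ‖y‖), norm_nonneg x, norm_nonneg y]

variable (H : SyFacts)
include H

open Classical in
lemma U_le {V : ℝ → ℝ} {b : Eis → ℂ} {Z X1 t c0 Er Bl : ℝ} {ρ q : Eis} {c : ℂ} (hZ : 0 ≤ Z)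
    (hq : IsPrim q) (hc : ‖c‖ ≤ c0)
    (hEr : ∑ n ∈ (S Z).filter (fun n => IsCoprime n ρ),
      ‖NatS V (n * ρ) X1 t - c * Mn ρ n‖ ^ 2 ≤ Er)
    (hb : ∀ n ∈ S Z, b n ≠ 0 → IsCoprime n ρ)
    (hBil : ‖∑ n ∈ S Z, cj (b n) * Mn (q ^ 2 * ρ) n‖ ≤ Bl) :
    ‖∑ n ∈ S Z, cj (b n) * cj (sy n q) * NatS V (n * ρ) X1 t‖ ^ 2 ≤
      2 * (c0 * Bl) ^ 2 + 2 * ((∑ n ∈ S Z, ‖b n‖ ^ 2) * Er) := by
  have e1 : ∑ n ∈ S Z, cj (b n) * cj (sy n q) * NatS V (n * ρ) X1 t =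
      c * (∑ n ∈ S Z, cj (b n) * Mn (q ^ 2 * ρ) n) +
      ∑ n ∈ (S Z).filter (fun n => IsCoprime n ρ),
        cj (b n) * (cj (sy n q) * (NatS V (n * ρ) X1 t - c * Mn ρ n)) := by
    rw [Finset.sum_filter, Finset.mul_sum, ← Finset.sum_add_distrib]
    refine Finset.sum_congr rfl fun n hn => ?_
    by_cases hbn : b n = 0
    · simp [hbn]
    · rw [if_pos (hb n hn hbn)]
      have hnp := S_prim hZ hn
      have e2 : Mn (q ^ 2 * ρ) n = cj (sy n q) * Mn ρ n := by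
        unfold Mn
        rw [H.mul_left _ _ _ hnp, H.recip n q hnp hq, sy_cj H hnp]
        ring
      rw [e2]; ring
  rw [e1]
  refine (norm_add_sq_le _ _).trans ?_
  have hB0 : 0 ≤ Bl := (norm_nonneg _).trans hBil
  have hc0 : 0 ≤ c0 := (norm_nonneg _).trans hc
  have h1 : ‖c * (∑ n ∈ S Z, cj (b n) * Mn (q ^ 2 * ρ) n)‖ ^ 2 ≤ (c0 * Bl) ^ 2 := by
    rw [norm_mul]
    have : ‖c‖ * ‖∑ n ∈ S Z, cj (b n) * Mn (q ^ 2 * ρ) n‖ ≤ c0 * Bl := by gcongr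
    gcongr
  have h2 : ‖∑ n ∈ (S Z).filter (fun n => IsCoprime n ρ),
        cj (b n) * (cj (sy n q) * (NatS V (n * ρ) X1 t - c * Mn ρ n))‖ ^ 2 ≤
      (∑ n ∈ S Z, ‖b n‖ ^ 2) * Er := by
    have h3 : ‖∑ n ∈ (S Z).filter (fun n => IsCoprime n ρ),
        cj (b n) * (cj (sy n q) * (NatS V (n * ρ) X1 t - c * Mn ρ n))‖ ≤
        ∑ n ∈ (S Z).filter (fun n => IsCoprime n ρ),
          ‖b n‖ * ‖NatS V (n * ρ) X1 t - c * Mn ρ n‖ := by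
      refine (norm_sum_le _ _).trans (Finset.sum_le_sum fun n hn => ?_)
      rw [norm_mul, norm_mul, RCLike.norm_conj, RCLike.norm_conj]
      have h4 : ‖sy n q‖ ≤ 1 := Tau671.norm_sy_le hq
      have h5 : 0 ≤ ‖b n‖ := norm_nonneg _
      have h6 : 0 ≤ ‖NatS V (n * ρ) X1 t - c * Mn ρ n‖ := norm_nonneg _
      calc ‖b n‖ * (‖sy n q‖ * ‖NatS V (n * ρ) X1 t - c * Mn ρ n‖)
          ≤ ‖b n‖ * (1 * ‖NatS V (n * ρ) X1 t - c * Mn ρ n‖) := by gcongr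
        _ = _ := by rw [one_mul]
    have h4 := Finset.sum_mul_sq_le_sq_mul_sq ((S Z).filter (fun n => IsCoprime n ρ))
      (fun n => ‖b n‖) (fun n => ‖NatS V (n * ρ) X1 t - c * Mn ρ n‖)
    have h5 : ∑ n ∈ (S Z).filter (fun n => IsCoprime n ρ), ‖b n‖ ^ 2 ≤ ∑ n ∈ S Z, ‖b n‖ ^ 2 :=
      Finset.sum_le_sum_of_subset_of_nonneg (Finset.filter_subset _ _) fun _ _ _ => by positivity
    have h6 : 0 ≤ ∑ n ∈ (S Z).filter (fun n => IsCoprime n ρ),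
      ‖NatS V (n * ρ) X1 t - c * Mn ρ n‖ ^ 2 := Finset.sum_nonneg fun _ _ => by positivity
    calc _ ≤ (∑ n ∈ (S Z).filter (fun n => IsCoprime n ρ),
          ‖b n‖ * ‖NatS V (n * ρ) X1 t - c * Mn ρ n‖) ^ 2 := by gcongr
      _ ≤ _ := h4
      _ ≤ _ := by
        apply mul_le_mul h5 hEr h6
        exact Finset.sum_nonneg fun _ _ => by positivity
  linarith

omit H in
lemma norm_cpow_le_one {k : ℕ} (hk : 0 < k) {σ t : ℝ} (hσ : σ ≤ 1 / 2) :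
    ‖(k : ℂ) ^ ((σ : ℂ) + t * Complex.I - 1 / 2)‖ ≤ 1 := by
  rw [Complex.norm_natCast_cpow_of_pos hk]
  have : ((σ : ℂ) + t * Complex.I - 1 / 2).re = σ - 1 / 2 := by simp
  rw [this]
  apply Real.rpow_le_one_of_one_le_of_nonpos
  · exact_mod_cast hk
  · linarith

lemma norm_Cg_le (hG : GFacts) {e f r g : Eis} (hg : IsPrim g) {σ t : ℝ} (hσ : σ ≤ 1 / 2) :
    ‖Cg e f r g (σ + t * Complex.I)‖ ≤ 1 := by
  unfold Cg
  rw [norm_mul, norm_mul, norm_mul, RCLike.norm_conj]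
  calc _ ≤ (1 : ℝ) * 1 * 1 * 1 := by
        gcongr
        · exact Tau671.norm_sy_le hg
        · exact Tau671.norm_sy_le hg
        · exact hG.le_one g hg
        · exact norm_cpow_le_one (nm_pos.mpr hg.ne_zero) hσ
    _ = 1 := by norm_num

/-- the bound for `Bg` in terms of natural Type I sums -/
lemma Bg_struct (hG : GFacts) {V : ℝ → ℝ} (hV : ∀ x, 4 < x → V x = 0) {b : Eis → ℂ}
    {H0 Z σ t : ℝ} (hH : 0 < H0) (hZ : 0 ≤ Z) (hσ : σ ≤ 1 / 2) {d e f r g : Eis} (hd : IsPrim d)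
    (hf : IsPrim f) (hg : IsPrim g) {U : ℝ} (hU0 : 0 ≤ U)
    (hU : ∀ g' ∈ pdiv d, ((H0 / nm (d * f * g * g')) ^ (2 * σ - 1) : ℝ) *
      ‖∑ n ∈ S Z, cj (b n) * cj (sy n (d * f * g * g')) *
        NatS V (n * (f * r * g * g' * (e * sq3) ^ 2)) (H0 / nm (d * f * g * g')) t‖ ^ 2 ≤ U) :
    ‖Bg (wS V b H0 Z σ) (4 * H0) d e f r g (σ + t * Complex.I)‖ ^ 2 ≤
      ((pdiv d).card : ℝ) ^ 2 * U := by
  classical
  rw [Bg_eq H hG hV hH hZ hd hf hg, norm_mul, norm_mul]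
  set s : ℂ := σ + t * Complex.I with hs
  have h1 : ‖(if Squarefree (d * f * g) then (1 : ℂ) else 0)‖ ≤ 1 := by
    split_ifs <;> simp
  have h2 : ‖Cg e f r g s‖ ≤ 1 := norm_Cg_le H hG hg hσ
  set W : ℂ := ∑ g' ∈ pdiv d, (mu g' : ℂ) * (Cg e 1 (f * r * g) g' s *
        ((((H0 / nm (d * f * g * g')) ^ (σ - 1 / 2) : ℝ) : ℂ) *
          ∑ n ∈ S Z, cj (b n) * cj (sy n (d * f * g * g')) *
            NatS V (n * (f * r * g * g' * (e * sq3) ^ 2)) (H0 / nm (d * f * g * g')) t)) with hW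
  have h3 : ‖(if Squarefree (d * f * g) then (1 : ℂ) else 0)‖ * ‖Cg e f r g s‖ * ‖W‖ ≤ ‖W‖ := by
    calc _ ≤ (1 : ℝ) * 1 * ‖W‖ := by gcongr
      _ = ‖W‖ := by ring
  have h4 : ‖W‖ ^ 2 ≤ ((pdiv d).card : ℝ) * ∑ g' ∈ pdiv d, U := by
    rw [hW]
    refine (norm_sum_sq_le_card _ _).trans ?_
    gcongr with g' hg'
    have hgp : IsPrim g' := ((mem_pdiv hd.ne_zero).mp hg').1
    refine le_trans ?_ (hU g' hg')
    have hq : IsPrim (d * f * g * g') := ((hd.mul hf).mul hg).mul hgp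
    have hX1 : 0 < H0 / nm (d * f * g * g') := by
      have : (0 : ℝ) < nm (d * f * g * g') := by exact_mod_cast nm_pos.mpr hq.ne_zero
      positivity
    rw [norm_mul, norm_mul, norm_mul, mul_pow, mul_pow, mul_pow]
    have h5 : ‖((mu g' : ℤ) : ℂ)‖ ^ 2 ≤ 1 := by
      have : ‖((mu g' : ℤ) : ℂ)‖ ≤ 1 := norm_muE_le g'
      calc _ ≤ (1 : ℝ) ^ 2 := by gcongr
        _ = 1 := one_pow 2
    have h6 : ‖Cg e 1 (f * r * g) g' s‖ ^ 2 ≤ 1 := by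
      calc _ ≤ (1 : ℝ) ^ 2 := by
            gcongr
            exact norm_Cg_le H hG hgp hσ
        _ = 1 := one_pow 2
    have h7 : ‖(((H0 / nm (d * f * g * g')) ^ (σ - 1 / 2) : ℝ) : ℂ)‖ ^ 2 =
        (H0 / nm (d * f * g * g')) ^ (2 * σ - 1) := by
      rw [Complex.norm_real, Real.norm_of_nonneg (by positivity), ← Real.rpow_natCast,
        ← Real.rpow_mul hX1.le]
      congr 1; push_cast; ring
    rw [h7]
    set Y : ℝ := (H0 / nm (d * f * g * g')) ^ (2 * σ - 1) *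
      ‖∑ n ∈ S Z, cj (b n) * cj (sy n (d * f * g * g')) *
        NatS V (n * (f * r * g * g' * (e * sq3) ^ 2)) (H0 / nm (d * f * g * g')) t‖ ^ 2 with hY
    have hY0 : 0 ≤ Y := by positivity
    calc _ ≤ (1 : ℝ) * (1 * Y) := by gcongr
      _ = Y := by ring
  rw [Finset.sum_const, nsmul_eq_mul] at h4
  calc _ ≤ ‖W‖ ^ 2 := by gcongr
    _ ≤ _ := h4
    _ = _ := by ring

omit H in
lemma rpow_div_le {H0 y R0 σ : ℝ} (hH : 0 < H0) (hy : 1 ≤ y) (hyR : y ≤ R0) (hσ0 : 0 ≤ σ)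
    (hσ : σ ≤ 1 / 2) : (H0 / y) ^ (2 * σ - 1) ≤ R0 * H0 ^ (2 * σ - 1) := by
  have hy0 : 0 < y := by linarith
  rw [Real.div_rpow hH.le hy0.le, div_eq_mul_inv, ← Real.rpow_neg hy0.le, mul_comm]
  apply mul_le_mul_of_nonneg_right _ (by positivity)
  calc y ^ (-(2 * σ - 1)) ≤ y ^ (1 : ℝ) := Real.rpow_le_rpow_of_exponent_le hy (by linarith)
    _ = y := Real.rpow_one y
    _ ≤ R0 := hyR

omit H in
lemma nm_sq3 : nm sq3 = 3 := by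
  have : (nm sq3 : ℤ) = 3 := by
    rw [nm_cast]; simp
  exact_mod_cast this

set_option maxHeartbeats 1000000 in
open Classical in
/-- **the structured bound for `Bg`** -/
lemma Bg_bound (hG : GFacts) {V : ℝ → ℝ} (hV : ∀ x, 4 < x → V x = 0) {b : Eis → ℂ}
    {H0 Z σ T0 c0 Er Bl B2 D0 G0 K0 R0 τ : ℝ} (hH : 1 ≤ H0) (hZ : 1 ≤ Z) (hσ0 : 0 ≤ σ)
    (hσ : σ ≤ 1 / 2) (hD0 : 1 ≤ D0) (hG0 : 1 ≤ G0) (hK0 : 1 ≤ K0)
    (hR0 : 9 * D0 ^ 10 * G0 ^ 3 * K0 ≤ R0) (hR1 : R0 ≤ H0) (hZR : Z ≤ (H0 / R0) ^ 2)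
    (hTI : ∀ ρ : Eis, ρ ≠ 0 → (nm ρ : ℝ) ≤ R0 → ∀ X1 : ℝ, 1 ≤ X1 → X1 ≤ H0 → Z ≤ X1 ^ 2 →
      ∀ t : ℝ, |t| ≤ T0 → ∃ c : ℂ, ‖c‖ ≤ c0 ∧
        ∑ n ∈ (S Z).filter (fun n => IsCoprime n ρ), ‖NatS V (n * ρ) X1 t - c * Mn ρ n‖ ^ 2 ≤ Er)
    (hb : ∀ n ∈ S Z, b n ≠ 0 → ∀ r : Eis, r ≠ 0 → (nm r : ℝ) ≤ R0 → IsCoprime n r)
    (hBil : ∀ r : Eis, r ≠ 0 → (nm r : ℝ) ≤ R0 → ‖∑ n ∈ S Z, cj (b n) * Mn r n‖ ≤ Bl)
    (hB2 : ∑ n ∈ S Z, ‖b n‖ ^ 2 ≤ B2) (hEr : 0 ≤ Er)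
    {d e f : Eis} (hd : IsPrim d) (he : IsPrim e) (hed : e ∣ d) (hf : IsPrim f)
    (hdf : (nm d : ℝ) * nm f ≤ D0) (hτ : ((pdiv d).card : ℝ) ≤ τ) {t : ℝ} (ht : |t| ≤ T0) :
    ∀ r ∈ bl K0, ∀ g, IsPrim g → (nm g : ℝ) ≤ G0 →
      ‖Bg (wS V b H0 Z σ) (4 * H0) d e f r g (σ + t * Complex.I)‖ ^ 2 ≤
        τ ^ 2 * (R0 * H0 ^ (2 * σ - 1) * (2 * (c0 * Bl) ^ 2 + 2 * (B2 * Er))) := by
  intro r hr g hg hgG
  have hH0 : 0 < H0 := by linarith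
  have hd1 : (1 : ℝ) ≤ nm d := by exact_mod_cast nm_pos.mpr hd.ne_zero
  have hf1 : (1 : ℝ) ≤ nm f := by exact_mod_cast nm_pos.mpr hf.ne_zero
  have he1 : (1 : ℝ) ≤ nm e := by exact_mod_cast nm_pos.mpr he.ne_zero
  have hg1 : (1 : ℝ) ≤ nm g := by exact_mod_cast nm_pos.mpr hg.ne_zero
  have hr' := (mem_bl (by linarith)).mp hr
  have hr1 : (1 : ℝ) ≤ nm r := by exact_mod_cast nm_pos.mpr hr'.1
  have hdD : (nm d : ℝ) ≤ D0 := by nlinarith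
  have hfD : (nm f : ℝ) ≤ D0 := by nlinarith
  have heD : (nm e : ℝ) ≤ D0 := by
    refine le_trans ?_ hdD
    exact_mod_cast LS448.nm_le_of_dvd hed hd.ne_zero
  have hEr0 : 0 ≤ B2 * Er := by
    have : 0 ≤ B2 := le_trans (Finset.sum_nonneg fun _ _ => by positivity) hB2
    positivity
  have hR00 : 0 < R0 := by
    have : 0 < 9 * D0 ^ 10 * G0 ^ 3 * K0 := by positivity
    linarith
  have hU0 : 0 ≤ R0 * H0 ^ (2 * σ - 1) * (2 * (c0 * Bl) ^ 2 + 2 * (B2 * Er)) := by positivity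
  refine (Bg_struct H hG hV hH0 (by linarith) hσ hd hf hg hU0 ?_).trans ?_
  · intro g' hg'
    have hgp : IsPrim g' := ((mem_pdiv hd.ne_zero).mp hg').1
    have hg'd : g' ∣ d := ((mem_pdiv hd.ne_zero).mp hg').2
    have hg'1 : (1 : ℝ) ≤ nm g' := by exact_mod_cast nm_pos.mpr hgp.ne_zero
    have hg'D : (nm g' : ℝ) ≤ D0 := by
      refine le_trans ?_ hdD
      exact_mod_cast LS448.nm_le_of_dvd hg'd hd.ne_zero
    set q : Eis := d * f * g * g' with hq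
    set ρ : Eis := f * r * g * g' * (e * sq3) ^ 2 with hρ
    have hqp : IsPrim q := ((hd.mul hf).mul hg).mul hgp
    have hρ0 : ρ ≠ 0 := by
      rw [hρ]
      refine mul_ne_zero (mul_ne_zero (mul_ne_zero (mul_ne_zero hf.ne_zero hr'.1) hg.ne_zero)
        hgp.ne_zero) (pow_ne_zero _ (mul_ne_zero he.ne_zero sq3_ne_zero))
    have nq : (nm q : ℝ) = nm d * nm f * nm g * nm g' := by
      rw [hq, nm_mul, nm_mul, nm_mul]; push_cast; ring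
    have nρ : (nm ρ : ℝ) = nm f * nm r * nm g * nm g' * (nm e * 3) ^ 2 := by
      rw [hρ, nm_mul, nm_mul, nm_mul, nm_mul, nm_pow, nm_mul, nm_sq3]; push_cast; ring
    have e3 : (nm (q ^ 2 * ρ) : ℝ) = (nm q : ℝ) ^ 2 * nm ρ := by
      rw [nm_mul, nm_pow]; push_cast; ring
    clear_value q ρ
    have nq1 : (1 : ℝ) ≤ nm q := by exact_mod_cast nm_pos.mpr hqp.ne_zero
    have nρ1 : (1 : ℝ) ≤ nm ρ := by exact_mod_cast nm_pos.mpr hρ0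
    have nq2 : (nm q : ℝ) ≤ D0 * G0 * D0 := by
      rw [nq]
      calc (nm d : ℝ) * nm f * nm g * nm g' ≤ D0 * G0 * D0 := by gcongr
        _ = _ := rfl
    have nρ2 : (nm ρ : ℝ) ≤ D0 * K0 * G0 * D0 * (D0 * 3) ^ 2 := by
      rw [nρ]
      gcongr
      exact hr'.2
    have hDp : ∀ n : ℕ, (1 : ℝ) ≤ D0 ^ n := fun n => one_le_pow₀ hD0
    have hGp : ∀ n : ℕ, (1 : ℝ) ≤ G0 ^ n := fun n => one_le_pow₀ hG0
    have nqρ : (nm (q ^ 2 * ρ) : ℝ) ≤ R0 := by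
      refine le_trans ?_ hR0
      rw [e3]
      calc (nm q : ℝ) ^ 2 * nm ρ ≤ (D0 * G0 * D0) ^ 2 * (D0 * K0 * G0 * D0 * (D0 * 3) ^ 2) := by
            gcongr
        _ = 9 * D0 ^ 8 * G0 ^ 3 * K0 := by ring
        _ ≤ 9 * D0 ^ 10 * G0 ^ 3 * K0 := by
            have h8 : D0 ^ 8 ≤ D0 ^ 10 := pow_le_pow_right₀ hD0 (by norm_num)
            gcongr
    have nρR : (nm ρ : ℝ) ≤ R0 := by
      refine le_trans ?_ nqρ
      rw [e3]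
      have : (1 : ℝ) ≤ (nm q : ℝ) ^ 2 := one_le_pow₀ nq1
      nlinarith
    have nqR : (nm q : ℝ) ≤ R0 := by
      refine le_trans ?_ nqρ
      rw [e3]
      calc (nm q : ℝ) ≤ nm q * nm q := by nlinarith
        _ = (nm q : ℝ) ^ 2 * 1 := by ring
        _ ≤ (nm q : ℝ) ^ 2 * nm ρ := by gcongr
    have hX1 : H0 / R0 ≤ H0 / nm q := by
      apply div_le_div_of_nonneg_left hH0.le (by linarith) nqR
    have hX1' : 1 ≤ H0 / nm q := by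
      refine le_trans ?_ hX1
      rwa [one_le_div hR00]
    have hX1'' : H0 / nm q ≤ H0 := div_le_self hH0.le nq1
    have hZ2 : Z ≤ (H0 / nm q) ^ 2 := by
      refine hZR.trans ?_
      gcongr
    obtain ⟨c, hc, hs⟩ := hTI ρ hρ0 nρR (H0 / nm q) hX1' hX1'' hZ2 t ht
    have h1 := U_le H (q := q) (by linarith) hqp hc hs (fun n hn hbn => hb n hn hbn ρ hρ0 nρR)
      (hBil (q ^ 2 * ρ) (mul_ne_zero (pow_ne_zero _ hqp.ne_zero) hρ0) nqρ)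
    have h2 : (H0 / nm q) ^ (2 * σ - 1) ≤ R0 * H0 ^ (2 * σ - 1) :=
      rpow_div_le hH0 nq1 nqR hσ0 hσ
    calc _ ≤ (R0 * H0 ^ (2 * σ - 1)) *
          (2 * (c0 * Bl) ^ 2 + 2 * ((∑ n ∈ S Z, ‖b n‖ ^ 2) * Er)) := by
          apply mul_le_mul h2 h1 (by positivity) (by positivity)
      _ ≤ _ := by gcongr
  · have h0 : (0 : ℝ) ≤ ((pdiv d).card : ℝ) := Nat.cast_nonneg _
    have h1 : ((pdiv d).card : ℝ) ^ 2 ≤ τ ^ 2 := pow_le_pow_left₀ h0 hτ 2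
    exact mul_le_mul_of_nonneg_right h1 hU0

end Crest.Agent.R012.CR2
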