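import Crest.Agent.R012.CR2c_180
import Crest.Agent.R012.CR2SpecB_180

/-!
# Row 12 (CR2), part d: the `t`-integral and the sum over `d, e, f`
-/

set_option autoImplicit false
set_option linter.unusedVariables false
set_option linter.unusedSimpArgs false
set_option linter.unusedSectionVars false

noncomputable section

namespace Crest.Agent.R012.CR2

open Eis LS2 Mob705 Finset CharSum852 Tau671 MeasureTheory

local notation "cj" => starRingEnd ℂ

lemma integral_cauchy {T0 : ℝ} (hT : 0 < T0) :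
    Integrable (fun t : ℝ => (T0 ^ 2 + t ^ 2)⁻¹) ∧ ∫ t : ℝ, (T0 ^ 2 + t ^ 2)⁻¹ = Real.pi / T0 := by
  have e : (fun t : ℝ => (T0 ^ 2 + t ^ 2)⁻¹) = fun t : ℝ => (T0 ^ 2)⁻¹ * (1 + (t / T0) ^ 2)⁻¹ := by
    funext t
    rw [← mul_inv]
    congr 1
    field_simp
  constructor
  · rw [e]
    apply Integrable.const_mul
    exact (integrable_inv_one_add_sq).comp_div hT.ne'
  · rw [e, MeasureTheory.integral_const_mul,
      MeasureTheory.Measure.integral_comp_div (fun t : ℝ => (1 + t ^ 2)⁻¹),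
      integral_univ_inv_one_add_sq, smul_eq_mul, abs_of_pos hT]
    field_simp

/-- splitting the `t`-integral at `T0` -/
lemma int_le {F : ℝ → ℝ} {A B T0 : ℝ} (hF : ∀ t, 0 ≤ F t) (hA : 0 ≤ A) (hB : 0 ≤ B)
    (hT : 0 < T0) (h1 : ∀ t, |t| ≤ T0 → F t ≤ A) (h2 : ∀ t, F t ≤ A + B) :
    ∫ t : ℝ, (1 + t ^ 2)⁻¹ * F t ≤ 4 * A + 8 * (B / T0) := by
  have hi := integral_cauchy hT
  have hg : Integrable (fun t : ℝ => (1 + t ^ 2)⁻¹ * A + (T0 ^ 2 + t ^ 2)⁻¹ * (2 * B)) :=
    (integrable_inv_one_add_sq.mul_const _).add (hi.1.mul_const _)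
  calc ∫ t : ℝ, (1 + t ^ 2)⁻¹ * F t
      ≤ ∫ t : ℝ, ((1 + t ^ 2)⁻¹ * A + (T0 ^ 2 + t ^ 2)⁻¹ * (2 * B)) := by
        apply integral_mono_of_nonneg _ hg _
        · filter_upwards with t
          have := hF t
          positivity
        · filter_upwards with t
          have hp : 0 < (1 + t ^ 2)⁻¹ := by positivity
          have hp2 : 0 < (T0 ^ 2 + t ^ 2)⁻¹ := by positivity
          by_cases ht : |t| ≤ T0
          · have := h1 t ht
            have h3 : (1 + t ^ 2)⁻¹ * F t ≤ (1 + t ^ 2)⁻¹ * A := by gcongr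
            have h4 : 0 ≤ (T0 ^ 2 + t ^ 2)⁻¹ * (2 * B) := by positivity
            linarith
          · have hlt := not_le.mp ht
            have h3 : (1 + t ^ 2)⁻¹ * F t ≤ (1 + t ^ 2)⁻¹ * (A + B) := by
              have := h2 t
              gcongr
            have h5 : T0 ^ 2 ≤ t ^ 2 := by
              rw [← sq_abs t]
              gcongr
            have h4 : (1 + t ^ 2)⁻¹ ≤ (T0 ^ 2 + t ^ 2)⁻¹ * 2 := by
              rw [inv_eq_one_div, inv_mul_eq_div, div_le_div_iff₀ (by positivity) (by positivity)]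
              linarith
            calc (1 + t ^ 2)⁻¹ * F t ≤ (1 + t ^ 2)⁻¹ * (A + B) := h3
              _ = (1 + t ^ 2)⁻¹ * A + (1 + t ^ 2)⁻¹ * B := by ring
              _ ≤ (1 + t ^ 2)⁻¹ * A + (T0 ^ 2 + t ^ 2)⁻¹ * 2 * B := by gcongr
              _ = _ := by ring
    _ = Real.pi * A + Real.pi / T0 * (2 * B) := by
        rw [integral_add (integrable_inv_one_add_sq.mul_const _) (hi.1.mul_const _),
          MeasureTheory.integral_mul_const, MeasureTheory.integral_mul_const,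
          integral_univ_inv_one_add_sq, hi.2]
    _ ≤ 4 * A + 8 * (B / T0) := by
        have hpi : Real.pi ≤ 4 := Real.pi_le_four
        have h3 : 0 ≤ B / T0 := by positivity
        have e : Real.pi / T0 * (2 * B) = Real.pi * (2 * (B / T0)) := by ring
        rw [e]
        nlinarith

/-- the square mean of `w` on the multiples of `df` -/
def Wd (w : Eis → ℂ) (X : ℝ) (d f : Eis) : ℝ := ∑ k ∈ S X, ‖w (d * f * k)‖ ^ 2

lemma Wd_nonneg (w : Eis → ℂ) (X : ℝ) (d f : Eis) : 0 ≤ Wd w X d f :=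
  Finset.sum_nonneg fun _ _ => by positivity

/-- `Xi` in terms of `Wd` -/
lemma Xi_le {w : Eis → ℂ} {X Y σ : ℝ} (hX : 1 ≤ X) (hY : 0 < Y) (hσ0 : 0 ≤ σ)
    (hw : ∀ h, w h ≠ 0 → h ∈ S X) (hwY : ∀ h, w h ≠ 0 → Y ≤ nm h) {d f : Eis} (hd : IsPrim d)
    (hf : IsPrim f) :
    Xi w X d f σ ≤ (nm d * nm f / Y) * X ^ (2 * σ) * Wd w X d f := by
  have hd0 : (0 : ℝ) < nm d := by exact_mod_cast nm_pos.mpr hd.ne_zero
  have hf0 : (0 : ℝ) < nm f := by exact_mod_cast nm_pos.mpr hf.ne_zero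
  unfold Xi Wd
  rw [Finset.mul_sum]
  refine Finset.sum_le_sum fun k hk => ?_
  by_cases h0 : w (d * f * k) = 0
  · rw [h0]; simp
  have hk0 : (0 : ℝ) < nm k := by
    exact_mod_cast nm_pos.mpr (S_prim (by linarith) hk).ne_zero
  have hkX : (nm k : ℝ) ≤ X := S_le (by linarith) hk
  have h1 := hwY _ h0
  rw [nm_mul, nm_mul] at h1
  push_cast at h1
  rw [mul_comm]
  apply mul_le_mul_of_nonneg_right _ (by positivity)
  rw [show (2 * σ - 1 : ℝ) = 2 * σ + (-1) by ring, Real.rpow_add hk0, Real.rpow_neg_one, mul_comm]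
  have h2 : (nm k : ℝ)⁻¹ ≤ nm d * nm f / Y := by
    rw [inv_eq_one_div, div_le_div_iff₀ hk0 hY]
    linarith
  have h3 : (nm k : ℝ) ^ (2 * σ) ≤ X ^ (2 * σ) := by
    apply Real.rpow_le_rpow hk0.le hkX; linarith
  gcongr

end Crest.Agent.R012.CR2
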