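import Crest.Agent.R012.LS2Elt_381

/-!
# Row 12 (L2): the dual inequality with the zero frequency evaluated

* `norm_Ue_le`, `summable_qf`, `qf_zero`
* `dual_ineq`
-/

set_option autoImplicit false

noncomputable section

namespace Crest.Agent.R012.LS2

open Eis CharSum852 Gauss880 Tau671 Mob705
open Poisson381 (gau norm_gau summable_gau_one summable_gau)

lemma cpow_neg_half {k : Eis} (hk : IsPrim k) :
    (nm k : ℂ) ^ (-(1 / 2) : ℂ) = ((((nm k : ℝ) ^ (-(1 / 2) : ℝ)) : ℝ) : ℂ) := by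
  have hn : 0 < (nm k : ℝ) := by exact_mod_cast nm_pos.2 hk.ne_zero
  have e1 : ((nm k : ℕ) : ℂ) = (((nm k : ℕ) : ℝ) : ℂ) := by push_cast; rfl
  have e2 : (-(1 / 2) : ℂ) = ((-(1 / 2) : ℝ) : ℂ) := by push_cast; rfl
  rw [e1, e2, ← Complex.ofReal_cpow hn.le]

lemma norm_Ue_le (H : SyG) {k : Eis} (hk : IsPrim k) (e l : Eis) :
    ‖Ue e l k‖ ≤ (nm k : ℝ) ^ (-(1 / 2) : ℝ) := by
  have hn : 0 < (nm k : ℝ) := by exact_mod_cast nm_pos.2 hk.ne_zero
  unfold Ue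
  rw [cpow_neg_half hk, norm_mul, norm_mul, norm_mul, RCLike.norm_conj, Complex.norm_real,
    Real.norm_of_nonneg (Real.rpow_nonneg hn.le _)]
  have b1 := Gauss880.norm_sy_le H hk (x := e * sq3)
  have b2 := Gauss880.norm_sy_le H hk (x := l)
  have b3 := norm_G_le H hk
  have : ‖sy (e * sq3) k‖ * ‖sy l k‖ * ‖G k‖ ≤ 1 :=
    mul_le_one₀ (mul_le_one₀ b1 (norm_nonneg _) b2) (norm_nonneg _) b3
  exact mul_le_of_le_one_left (Real.rpow_nonneg hn.le _) this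

lemma norm_Ue_le_one (H : SyG) {k : Eis} (hk : IsPrim k) (e l : Eis) : ‖Ue e l k‖ ≤ 1 := by
  refine (norm_Ue_le H hk e l).trans ?_
  have hn : 1 ≤ (nm k : ℝ) := by exact_mod_cast nm_pos.2 hk.ne_zero
  exact Real.rpow_le_one_of_one_le_of_nonpos hn (by norm_num)

lemma summable_exp_nm {a : ℝ} (ha : 0 < a) : Summable fun l : Eis => Real.exp (-(a * nm l)) := by
  have h := (summable_gau_one (t := a / Real.pi) (by positivity)).norm
  refine h.congr fun l => ?_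
  rw [norm_gau, norm_toC_sq]
  congr 2
  field_simp

lemma summable_qf (H : SyG) {X Z : ℝ} (hX : 0 ≤ X) (hZ : 0 < Z) (w : Eis → ℂ) {d e f : Eis}
    (he : e ≠ 0) (hf : f ∈ S X) : Summable fun l : Eis => qf w X Z d e f l := by
  classical
  unfold qf
  have hf' := (mem_S hX).1 hf
  refine summable_sum fun k1 h1 => summable_sum fun k2 h2 => ?_
  have hk1 := (mem_S hX).1 h1
  have hk2 := (mem_S hX).1 h2
  have p1 := hf'.2.1.mul hk1.2.1
  have p2 := hf'.2.1.mul hk2.2.1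
  have n1 : 0 < (nm (f * k1) : ℝ) := by exact_mod_cast nm_pos.2 p1.ne_zero
  have n2 : 0 < (nm (f * k2) : ℝ) := by exact_mod_cast nm_pos.2 p2.ne_zero
  have n3 : 0 < (nm e : ℝ) := by exact_mod_cast nm_pos.2 he
  set a : ℝ := 4 * Real.pi ^ 2 * Z / (3 * nm e * nm (f * k1) * nm (f * k2)) with ha
  have hapos : 0 < a := by rw [ha]; positivity
  set b : ℝ := ‖ws w X (d * f * k1) * (starRingEnd ℂ) (ws w X (d * f * k2))‖ with hb
  refine Summable.of_norm_bounded ((summable_exp_nm hapos).mul_left b) (fun l => ?_)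
  rw [norm_mul, norm_mul, ← hb, Complex.norm_real, Real.norm_of_nonneg (Real.exp_pos _).le]
  have e1 : -(4 * Real.pi ^ 2 * Z * nm l) / (3 * nm e * nm (f * k1) * nm (f * k2)) =
      -(a * nm l) := by rw [ha]; ring
  rw [e1]
  have b1 : ‖Ue e l (f * k1) * (starRingEnd ℂ) (Ue e l (f * k2))‖ ≤ 1 := by
    rw [norm_mul, RCLike.norm_conj]
    exact mul_le_one₀ (norm_Ue_le_one H p1 e l) (norm_nonneg _) (norm_Ue_le_one H p2 e l)
  have hb0 : 0 ≤ b := norm_nonneg _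
  calc b * ‖Ue e l (f * k1) * (starRingEnd ℂ) (Ue e l (f * k2))‖ * Real.exp (-(a * nm l))
      ≤ b * 1 * Real.exp (-(a * nm l)) := by gcongr
    _ = _ := by ring

lemma Ue_zero (H : SyG) {k : Eis} (hk : IsPrim k) (h1 : k ≠ 1) (e : Eis) : Ue e 0 k = 0 := by
  unfold Ue
  have : sy 0 k = 0 := by
    rw [H.eq_zero 0 k hk]
    intro h
    rw [isCoprime_zero_left] at h
    exact h1 (isPrim_eq_one_of_isUnit hk h)
  rw [this]
  simp

lemma one_mem_S {X : ℝ} (hX : 1 ≤ X) : (1 : Eis) ∈ S X := by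
  rw [mem_S (by linarith)]
  refine ⟨?_, isPrim_one, squarefree_one⟩
  have : nm (1 : Eis) = 1 := by
    have := nm_mul 1 1
    rw [mul_one] at this
    have h0 : 0 < nm (1 : Eis) := nm_pos.2 one_ne_zero
    nlinarith
  rw [this]
  exact_mod_cast hX

lemma norm_Ue_one (H : SyG) (e : Eis) : ‖Ue e 0 1‖ = 1 := by
  unfold Ue
  have h1 : ∀ x : Eis, ‖sy x 1‖ = 1 := fun x =>
    Gauss880.norm_sy H isPrim_one isCoprime_one_right
  have h2 : nm (1 : Eis) = 1 := by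
    have := nm_mul 1 1
    rw [mul_one] at this
    have h0 : 0 < nm (1 : Eis) := nm_pos.2 one_ne_zero
    nlinarith
  rw [norm_mul, norm_mul, norm_mul, RCLike.norm_conj, h1, h1, norm_G H isPrim_one squarefree_one,
    h2]
  simp

/-- the zero frequency -/
lemma qf_zero (H : SyG) {X Z : ℝ} (hX : 1 ≤ X) (w : Eis → ℂ) {d e f : Eis}
    (hd : d ∈ S X) (hf : f ∈ S X) [Decidable (f = 1)] :
    qf w X Z d e f 0 = if f = 1 then ((‖w d‖ ^ 2 : ℝ) : ℂ) else 0 := by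
  classical
  have hX0 : 0 ≤ X := by linarith
  have hf' := (mem_S hX0).1 hf
  have h0 : nm (0 : Eis) = 0 := nm_eq_zero.2 rfl
  have hfk : ∀ k ∈ S X, f * k = 1 → f = 1 ∧ k = 1 := by
    intro k hk h
    have hk' := (mem_S hX0).1 hk
    have hu : IsUnit f := IsUnit.of_mul_eq_one k h
    have h1 := isPrim_eq_one_of_isUnit hf'.2.1 hu
    rw [h1, one_mul] at h
    exact ⟨h1, h⟩
  by_cases hf1 : f = 1
  · rw [if_pos hf1]
    unfold qf
    rw [Finset.sum_eq_single_of_mem 1 (one_mem_S hX)]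
    · rw [Finset.sum_eq_single_of_mem 1 (one_mem_S hX)]
      · rw [hf1, mul_one, mul_one, mul_one, h0]
        unfold ws
        rw [if_pos hd]
        have : Ue e 0 1 * (starRingEnd ℂ) (Ue e 0 1) = 1 := by
          rw [Complex.mul_conj, Complex.normSq_eq_norm_sq, norm_Ue_one H]; simp
        rw [this]
        simp only [Nat.cast_zero, mul_zero, neg_zero, zero_div, Real.exp_zero, Complex.ofReal_one,
          mul_one]
        rw [Complex.mul_conj, Complex.normSq_eq_norm_sq]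
      · intro k hk hk1
        have hk' := (mem_S hX0).1 hk
        have : Ue e 0 (f * k) = 0 := by
          apply Ue_zero H (hf'.2.1.mul hk'.2.1)
          intro h
          exact hk1 (hfk k hk h).2
        rw [this]; simp
    · intro k hk hk1
      apply Finset.sum_eq_zero
      intro k2 _
      have hk' := (mem_S hX0).1 hk
      have : Ue e 0 (f * k) = 0 := by
        apply Ue_zero H (hf'.2.1.mul hk'.2.1)
        intro h
        exact hk1 (hfk k hk h).2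
      rw [this]; simp
  · rw [if_neg hf1]
    unfold qf
    apply Finset.sum_eq_zero
    intro k hk
    apply Finset.sum_eq_zero
    intro k2 _
    have hk' := (mem_S hX0).1 hk
    have : Ue e 0 (f * k) = 0 := by
      apply Ue_zero H (hf'.2.1.mul hk'.2.1)
      intro h
      exact hf1 (hfk k hk h).1
    rw [this]; simp

lemma sum_mu_div (d : Eis) (hd : d ≠ 0) :
    ∑ e ∈ pdiv d, (mu e : ℝ) * (1 / (nm e : ℝ)) = ∏ p ∈ pp d, (1 - 1 / (nm p : ℝ)) := by
  apply sum_pdiv_mu_mul hd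
  intro S hS
  have : (nm (∏ p ∈ S, p) : ℝ) = ∏ p ∈ S, (nm p : ℝ) := by
    have := nm_pr S
    unfold pr at this
    rw [this]
    push_cast
    rfl
  rw [this, one_div, ← Finset.prod_inv_distrib]
  refine Finset.prod_congr rfl fun p _ => by rw [one_div]

lemma sum_mu_div_bounds (d : Eis) (hd : d ≠ 0) :
    0 ≤ ∑ e ∈ pdiv d, (mu e : ℝ) * (1 / (nm e : ℝ)) ∧
      ∑ e ∈ pdiv d, (mu e : ℝ) * (1 / (nm e : ℝ)) ≤ 1 := by
  rw [sum_mu_div d hd]
  have h1 : ∀ p ∈ pp d, 0 ≤ 1 - 1 / (nm p : ℝ) ∧ 1 - 1 / (nm p : ℝ) ≤ 1 := by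
    intro p hp
    have h2 : (1 : ℝ) < nm p := by exact_mod_cast (isPP_of_mem_pp hp).one_lt_nm
    have h3 : 1 / (nm p : ℝ) ≤ 1 := by
      rw [div_le_one (by linarith)]; exact h2.le
    have h4 : 0 ≤ 1 / (nm p : ℝ) := by positivity
    constructor <;> linarith
  exact ⟨Finset.prod_nonneg fun p hp => (h1 p hp).1,
    Finset.prod_le_one (fun p hp => (h1 p hp).1) (fun p hp => (h1 p hp).2)⟩

lemma summable_lhs (H : SyFacts) {X Z : ℝ} (hX : 0 ≤ X) (hZ : 0 < Z) (w : Eis → ℂ) :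
    Summable fun n : Eis => Real.exp (-(nm n : ℝ) / Z) * ‖∑ h ∈ S X, w h * sy n h‖ ^ 2 := by
  have h1 := (summable_exp_nm (a := 1 / Z) (by positivity)).mul_right
    ((∑ h ∈ S X, ‖w h‖) ^ 2)
  refine Summable.of_nonneg_of_le (fun n => by positivity) (fun n => ?_) h1
  have e1 : -(nm n : ℝ) / Z = -(1 / Z * nm n) := by ring
  rw [e1]
  refine mul_le_mul_of_nonneg_left ?_ (Real.exp_pos _).le
  apply pow_le_pow_left₀ (norm_nonneg _)
  refine (norm_sum_le _ _).trans (Finset.sum_le_sum fun h hh => ?_)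
  rw [norm_mul]
  exact mul_le_of_le_one_right (norm_nonneg _) (Tau671.norm_sy_le ((mem_S hX).1 hh).2.1)

open Classical in
/-- **the dual inequality** -/
theorem dual_ineq (H : SyFacts) (H' : SyG) {X Z : ℝ} (hX : 1 ≤ X) (hZ : 0 < Z) (w : Eis → ℂ) :
    ∑' n : Eis, Real.exp (-(nm n : ℝ) / Z) * ‖∑ h ∈ S X, w h * sy n h‖ ^ 2 ≤
      2 * Real.pi * Z / Real.sqrt 3 * ∑ h ∈ S X, ‖w h‖ ^ 2 +
      ∑ d ∈ S X, ∑ e ∈ pdiv d, ∑ f ∈ S X, 2 * Real.pi * Z / (Real.sqrt 3 * nm e) *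
        ‖∑' l : Eis, if l = 0 then 0 else qf w X Z d e f l‖ := by
  have hX0 : 0 ≤ X := by linarith
  have key := dual_identity_elt H H' hX0 hZ w
  have hs3 : 0 < Real.sqrt 3 := Real.sqrt_pos.2 (by norm_num)
  have hpi := Real.pi_pos
  -- the left side as a real number
  have hL : ((∑' n : Eis, Real.exp (-(nm n : ℝ) / Z) * ‖∑ h ∈ S X, w h * sy n h‖ ^ 2 : ℝ) : ℂ) =
      ∑' n : Eis, ((Real.exp (-(nm n : ℝ) / Z) : ℝ) : ℂ) *
        ((‖∑ h ∈ S X, w h * sy n h‖ ^ 2 : ℝ) : ℂ) := by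
    rw [Complex.ofReal_tsum]
    apply tsum_congr
    intro n
    push_cast
    rfl
  -- split off the zero frequency
  have hsplit : ∀ d ∈ S X, ∀ e ∈ pdiv d, ∀ f ∈ S X, ∑' l : Eis, qf w X Z d e f l =
      (if f = 1 then ((‖w d‖ ^ 2 : ℝ) : ℂ) else 0) +
        ∑' l : Eis, if l = 0 then 0 else qf w X Z d e f l := by
    intro d hd e he f hf
    have hd' := (mem_S hX0).1 hd
    have he' := (mem_pdiv hd'.2.1.ne_zero).1 he
    have hs := summable_qf H' hX0 hZ w (d := d) he'.1.ne_zero hf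
    rw [hs.tsum_eq_add_tsum_ite 0, qf_zero H' hX w hd hf]
  have key2 : ((∑' n : Eis, Real.exp (-(nm n : ℝ) / Z) * ‖∑ h ∈ S X, w h * sy n h‖ ^ 2 : ℝ) : ℂ) =
      (((2 * Real.pi * Z / Real.sqrt 3) * ∑ d ∈ S X, ‖w d‖ ^ 2 *
        ∑ e ∈ pdiv d, (mu e : ℝ) * (1 / (nm e : ℝ)) : ℝ) : ℂ) +
      ∑ d ∈ S X, ∑ e ∈ pdiv d, ∑ f ∈ S X, (mu e : ℂ) * (mu f : ℂ) *
        ((2 * Real.pi * Z / (Real.sqrt 3 * nm e) : ℝ) : ℂ) *
          ∑' l : Eis, if l = 0 then 0 else qf w X Z d e f l := by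
    rw [hL, key]
    have e1 : ∀ d ∈ S X, ∑ e ∈ pdiv d, ∑ f ∈ S X, (mu e : ℂ) * (mu f : ℂ) *
        ((2 * Real.pi * Z / (Real.sqrt 3 * nm e) : ℝ) : ℂ) * ∑' l : Eis, qf w X Z d e f l =
        (∑ e ∈ pdiv d, (mu e : ℂ) * ((2 * Real.pi * Z / (Real.sqrt 3 * nm e) : ℝ) : ℂ) *
          ((‖w d‖ ^ 2 : ℝ) : ℂ)) +
        ∑ e ∈ pdiv d, ∑ f ∈ S X, (mu e : ℂ) * (mu f : ℂ) *
        ((2 * Real.pi * Z / (Real.sqrt 3 * nm e) : ℝ) : ℂ) *
          ∑' l : Eis, if l = 0 then 0 else qf w X Z d e f l := by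
      intro d hd
      rw [← Finset.sum_add_distrib]
      refine Finset.sum_congr rfl fun e he => ?_
      rw [Finset.sum_congr rfl fun f hf => by rw [hsplit d hd e he f hf, mul_add]]
      rw [Finset.sum_add_distrib]
      congr 1
      rw [Finset.sum_eq_single_of_mem 1 (one_mem_S hX)]
      · have hmu1 : mu 1 = 1 := muE_one
        rw [if_pos rfl, hmu1]
        push_cast; ring
      · intro f _ hf1
        rw [if_neg hf1, mul_zero]
    rw [Finset.sum_congr rfl e1, Finset.sum_add_distrib]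
    congr 1
    rw [Finset.mul_sum]
    push_cast
    refine Finset.sum_congr rfl fun d hd => ?_
    rw [Finset.mul_sum, Finset.mul_sum]
    refine Finset.sum_congr rfl fun e he => ?_
    have hd' := (mem_S hX0).1 hd
    have he' := (mem_pdiv hd'.2.1.ne_zero).1 he
    have hn : (nm e : ℂ) ≠ 0 := by exact_mod_cast (nm_pos.2 he'.1.ne_zero).ne'
    have hs3' : ((Real.sqrt 3 : ℝ) : ℂ) ≠ 0 := by exact_mod_cast hs3.ne'
    field_simp
  -- take norms
  set A : ℝ := ∑' n : Eis, Real.exp (-(nm n : ℝ) / Z) * ‖∑ h ∈ S X, w h * sy n h‖ ^ 2 with hA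
  set B : ℝ := (2 * Real.pi * Z / Real.sqrt 3) * ∑ d ∈ S X, ‖w d‖ ^ 2 *
        ∑ e ∈ pdiv d, (mu e : ℝ) * (1 / (nm e : ℝ)) with hB
  set R : ℂ := ∑ d ∈ S X, ∑ e ∈ pdiv d, ∑ f ∈ S X, (mu e : ℂ) * (mu f : ℂ) *
        ((2 * Real.pi * Z / (Real.sqrt 3 * nm e) : ℝ) : ℂ) *
          ∑' l : Eis, if l = 0 then 0 else qf w X Z d e f l with hR
  have h1 : A ≤ B + ‖R‖ := by
    have h2 : ((A - B : ℝ) : ℂ) = R := by
      push_cast
      rw [key2]; ring
    have h3 : |A - B| = ‖R‖ := by rw [← h2, Complex.norm_real, Real.norm_eq_abs]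
    have := le_abs_self (A - B)
    linarith
  have hBle : B ≤ 2 * Real.pi * Z / Real.sqrt 3 * ∑ h ∈ S X, ‖w h‖ ^ 2 := by
    rw [hB]
    refine mul_le_mul_of_nonneg_left ?_ (by positivity)
    refine Finset.sum_le_sum fun d hd => ?_
    have hd' := (mem_S hX0).1 hd
    have := (sum_mu_div_bounds d hd'.2.1.ne_zero).2
    calc ‖w d‖ ^ 2 * _ ≤ ‖w d‖ ^ 2 * 1 := by gcongr
      _ = _ := mul_one _
  have hRle : ‖R‖ ≤ ∑ d ∈ S X, ∑ e ∈ pdiv d, ∑ f ∈ S X, 2 * Real.pi * Z / (Real.sqrt 3 * nm e) *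
        ‖∑' l : Eis, if l = 0 then 0 else qf w X Z d e f l‖ := by
    rw [hR]
    refine (norm_sum_le _ _).trans (Finset.sum_le_sum fun d hd => ?_)
    refine (norm_sum_le _ _).trans (Finset.sum_le_sum fun e he => ?_)
    refine (norm_sum_le _ _).trans (Finset.sum_le_sum fun f hf => ?_)
    rw [norm_mul, norm_mul, norm_mul, Complex.norm_real]
    have m1 : ‖((mu e : ℤ) : ℂ)‖ ≤ 1 := by
      rw [Complex.norm_intCast]
      exact_mod_cast abs_mu_le_one e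
    have m2 : ‖((mu f : ℤ) : ℂ)‖ ≤ 1 := by
      rw [Complex.norm_intCast]
      exact_mod_cast abs_mu_le_one f
    have m3 : ‖((mu e : ℤ) : ℂ)‖ * ‖((mu f : ℤ) : ℂ)‖ ≤ 1 := mul_le_one₀ m1 (norm_nonneg _) m2
    have hpos : 0 ≤ 2 * Real.pi * Z / (Real.sqrt 3 * nm e) := by positivity
    rw [Real.norm_of_nonneg hpos]
    calc ‖((mu e : ℤ) : ℂ)‖ * ‖((mu f : ℤ) : ℂ)‖ * (2 * Real.pi * Z / (Real.sqrt 3 * nm e)) * _
        ≤ 1 * (2 * Real.pi * Z / (Real.sqrt 3 * nm e)) *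
          ‖∑' l : Eis, if l = 0 then 0 else qf w X Z d e f l‖ := by gcongr
      _ = _ := by ring
  linarith

end Crest.Agent.R012.LS2
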