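import Crest.Agent.R012.CR2c_180
import Crest.Agent.R012.LS2Ineq_381

/-!
# Row 12 (CR2), part e (helper286): setup of the duality for `CoreB`

* `SV`         : the smoothed second moment
* `cs_setup`   : unsmoothing, `∑ ‖wS‖² ≤ 2 SV`, Cauchy–Schwarz `SV² ≤ ∑‖b‖² · (dual side)`
* `coreB_small`: the trivial bound
* `sum_def`    : `∑_{d,e,f,k} ‖w(dfk)‖² ≤ τ³ ∑ ‖w h‖²`
-/

set_option autoImplicit false
set_option linter.unusedVariables false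
set_option linter.unusedSimpArgs false
set_option linter.unusedSectionVars false

noncomputable section

namespace Crest.Agent.R012.CR2

open Eis LS2 Mob705 Finset CharSum852 Tau671

local notation "cj" => starRingEnd ℂ

/-- the smoothed second moment -/
def SV (V : ℝ → ℝ) (b : Eis → ℂ) (H0 Z s : ℝ) : ℝ :=
  ∑ h ∈ S (4 * H0), V ((nm h : ℝ) / H0) * ((nm h : ℝ) / H0) ^ (1 / 2 - s) * ‖Eb b Z h‖ ^ 2

lemma SV_nonneg {V : ℝ → ℝ} (hV0 : ∀ x, 0 ≤ V x) (b : Eis → ℂ) {H0 : ℝ} (hH : 0 ≤ H0) (Z s : ℝ) :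
    0 ≤ SV V b H0 Z s := by
  unfold SV
  refine Finset.sum_nonneg fun h _ => ?_
  have := hV0 ((nm h : ℝ) / H0)
  positivity

/-- unsmoothing -/
lemma le_SV {V : ℝ → ℝ} (hV0 : ∀ x, 0 ≤ V x) (hVs : ∀ x, 1 ≤ x → x ≤ 2 → V x = 1) {b : Eis → ℂ}
    {H0 Z s : ℝ} (hH : 1 ≤ H0) (hs : s ≤ 1 / 2) :
    ∑ h ∈ (S (2 * H0)).filter (fun h => H0 < nm h), ‖Eb b Z h‖ ^ 2 ≤ SV V b H0 Z s := by
  have hH0 : 0 < H0 := by linarith
  have hsub : (S (2 * H0)).filter (fun h => H0 < (nm h : ℝ)) ⊆ S (4 * H0) := by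
    intro h hh
    rw [Finset.mem_filter, mem_S (by linarith)] at hh
    rw [mem_S (by linarith)]
    exact ⟨by linarith [hh.1.1], hh.1.2⟩
  refine le_trans (Finset.sum_le_sum fun h hh => ?_)
    (Finset.sum_le_sum_of_subset_of_nonneg hsub fun h _ _ => ?_)
  · rw [Finset.mem_filter, mem_S (by linarith)] at hh
    have h1 : 1 ≤ (nm h : ℝ) / H0 := by rw [one_le_div hH0]; exact hh.2.le
    have h2 : (nm h : ℝ) / H0 ≤ 2 := by rw [div_le_iff₀ hH0]; exact hh.1.1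
    rw [hVs _ h1 h2, one_mul]
    exact le_mul_of_one_le_left (by positivity) (Real.one_le_rpow h1 (by linarith))
  · have := hV0 ((nm h : ℝ) / H0)
    positivity

lemma weight_le {V : ℝ → ℝ} (hV0 : ∀ x, 0 ≤ V x) (hV1 : ∀ x, V x ≤ 1) {H0 s : ℝ} (hH : 1 ≤ H0)
    (hs0 : 0 ≤ s) (hs : s ≤ 1 / 2) {h : Eis} (hh : h ∈ S (4 * H0)) :
    V ((nm h : ℝ) / H0) * ((nm h : ℝ) / H0) ^ (1 / 2 - s) ≤ 2 := by
  have hH0 : 0 < H0 := by linarith
  rw [mem_S (by linarith)] at hh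
  have h2 : (nm h : ℝ) / H0 ≤ 4 := by rw [div_le_iff₀ hH0]; exact hh.1
  have h0 : 0 ≤ (nm h : ℝ) / H0 := by positivity
  have h3 : ((nm h : ℝ) / H0) ^ (1 / 2 - s) ≤ 2 := by
    calc ((nm h : ℝ) / H0) ^ (1 / 2 - s) ≤ (4 : ℝ) ^ (1 / 2 - s) :=
          Real.rpow_le_rpow h0 h2 (by linarith)
      _ ≤ (4 : ℝ) ^ ((1 : ℝ) / 2) :=
          Real.rpow_le_rpow_of_exponent_le (by norm_num) (by linarith)
      _ = 2 := by
          rw [show (4 : ℝ) = 2 ^ (2 : ℝ) by norm_num, ← Real.rpow_mul (by norm_num)]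
          norm_num
  calc V ((nm h : ℝ) / H0) * ((nm h : ℝ) / H0) ^ (1 / 2 - s) ≤ 1 * 2 :=
        mul_le_mul (hV1 _) h3 (by positivity) (by norm_num)
    _ = 2 := by norm_num

/-- the norm of the structured weight -/
lemma norm_wS_sq {V : ℝ → ℝ} {b : Eis → ℂ} {H0 Z s : ℝ} {h : Eis} (hh : h ∈ S (4 * H0)) :
    ‖wS V b H0 Z s h‖ ^ 2 =
      (V ((nm h : ℝ) / H0) * ((nm h : ℝ) / H0) ^ (1 / 2 - s)) ^ 2 * ‖Eb b Z h‖ ^ 2 := by
  unfold wS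
  rw [if_pos hh, norm_mul, mul_pow, RCLike.norm_conj, Complex.norm_real, Real.norm_eq_abs, sq_abs]

lemma sum_wS_le {V : ℝ → ℝ} (hV0 : ∀ x, 0 ≤ V x) (hV1 : ∀ x, V x ≤ 1) {b : Eis → ℂ}
    {H0 Z s : ℝ} (hH : 1 ≤ H0) (hs0 : 0 ≤ s) (hs : s ≤ 1 / 2) :
    ∑ h ∈ S (4 * H0), ‖wS V b H0 Z s h‖ ^ 2 ≤ 2 * SV V b H0 Z s := by
  unfold SV
  rw [Finset.mul_sum]
  refine Finset.sum_le_sum fun h hh => ?_
  rw [norm_wS_sq hh]
  have h1 := weight_le hV0 hV1 hH hs0 hs hh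
  have h0 : 0 ≤ V ((nm h : ℝ) / H0) * ((nm h : ℝ) / H0) ^ (1 / 2 - s) := by
    have := hV0 ((nm h : ℝ) / H0)
    have : 0 ≤ (nm h : ℝ) / H0 := by positivity
    positivity
  calc _ = (V ((nm h : ℝ) / H0) * ((nm h : ℝ) / H0) ^ (1 / 2 - s)) *
        ((V ((nm h : ℝ) / H0) * ((nm h : ℝ) / H0) ^ (1 / 2 - s)) * ‖Eb b Z h‖ ^ 2) := by ring
    _ ≤ 2 * ((V ((nm h : ℝ) / H0) * ((nm h : ℝ) / H0) ^ (1 / 2 - s)) * ‖Eb b Z h‖ ^ 2) := by
        gcongr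
    _ = _ := by ring

/-- `SV = ∑_n b_n ∑_h wS_h (n/h)` -/
lemma SV_eq {V : ℝ → ℝ} {b : Eis → ℂ} {H0 Z s : ℝ} :
    ((SV V b H0 Z s : ℝ) : ℂ) =
      ∑ n ∈ S Z, b n * ∑ h ∈ S (4 * H0), wS V b H0 Z s h * sy n h := by
  have e1 : ∀ n ∈ S Z, b n * ∑ h ∈ S (4 * H0), wS V b H0 Z s h * sy n h =
      ∑ h ∈ S (4 * H0), wS V b H0 Z s h * (b n * sy n h) := by
    intro n _
    rw [Finset.mul_sum]
    exact Finset.sum_congr rfl fun h _ => by ring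
  rw [Finset.sum_congr rfl e1, Finset.sum_comm]
  unfold SV
  rw [Complex.ofReal_sum]
  refine Finset.sum_congr rfl fun h hh => ?_
  rw [← Finset.mul_sum]
  have e2 : ∑ n ∈ S Z, b n * sy n h = Eb b Z h := rfl
  rw [e2]
  unfold wS
  have e3 : cj (Eb b Z h) * Eb b Z h = ((‖Eb b Z h‖ ^ 2 : ℝ) : ℂ) := by
    rw [← Complex.normSq_eq_conj_mul_self, Complex.normSq_eq_norm_sq]
  rw [if_pos hh, mul_assoc (_ : ℂ) (cj (Eb b Z h)) (Eb b Z h), e3, ← Complex.ofReal_mul]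

lemma cs_aux (H : SyFacts) {V : ℝ → ℝ} (hV0 : ∀ x, 0 ≤ V x) {b : Eis → ℂ} {H0 Z s : ℝ}
    (hH : 1 ≤ H0) (hZ : 1 ≤ Z) :
    (SV V b H0 Z s) ^ 2 ≤ (∑ n ∈ S Z, ‖b n‖ ^ 2) * (Real.exp 1 * ∑' n : Eis,
      Real.exp (-(nm n : ℝ) / Z) * ‖∑ h ∈ S (4 * H0), wS V b H0 Z s h * sy n h‖ ^ 2) := by
  have hZ0 : 0 < Z := by linarith
  have h1 : |SV V b H0 Z s| ≤
      ∑ n ∈ S Z, ‖b n‖ * ‖∑ h ∈ S (4 * H0), wS V b H0 Z s h * sy n h‖ := by
    have e1 : |SV V b H0 Z s| = ‖((SV V b H0 Z s : ℝ) : ℂ)‖ := by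
      rw [Complex.norm_real, Real.norm_eq_abs]
    rw [e1, SV_eq]
    refine (norm_sum_le _ _).trans (Finset.sum_le_sum fun n _ => ?_)
    rw [norm_mul]
  have h2 := Finset.sum_mul_sq_le_sq_mul_sq (S Z) (fun n => ‖b n‖)
    (fun n => ‖∑ h ∈ S (4 * H0), wS V b H0 Z s h * sy n h‖)
  have h3 : (SV V b H0 Z s) ^ 2 ≤
      (∑ n ∈ S Z, ‖b n‖ * ‖∑ h ∈ S (4 * H0), wS V b H0 Z s h * sy n h‖) ^ 2 := by
    rw [← sq_abs]
    exact pow_le_pow_left₀ (abs_nonneg _) h1 2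
  have h4 : ∑ n ∈ S Z, ‖∑ h ∈ S (4 * H0), wS V b H0 Z s h * sy n h‖ ^ 2 ≤
      Real.exp 1 * ∑' n : Eis,
      Real.exp (-(nm n : ℝ) / Z) * ‖∑ h ∈ S (4 * H0), wS V b H0 Z s h * sy n h‖ ^ 2 := by
    have h5 : ∑ n ∈ S Z, Real.exp (-(nm n : ℝ) / Z) *
        ‖∑ h ∈ S (4 * H0), wS V b H0 Z s h * sy n h‖ ^ 2 ≤ ∑' n : Eis,
      Real.exp (-(nm n : ℝ) / Z) * ‖∑ h ∈ S (4 * H0), wS V b H0 Z s h * sy n h‖ ^ 2 :=
      (summable_lhs H (by linarith) hZ0 _).sum_le_tsum _ fun _ _ => by positivity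
    calc ∑ n ∈ S Z, ‖∑ h ∈ S (4 * H0), wS V b H0 Z s h * sy n h‖ ^ 2
        ≤ ∑ n ∈ S Z, Real.exp 1 * (Real.exp (-(nm n : ℝ) / Z) *
          ‖∑ h ∈ S (4 * H0), wS V b H0 Z s h * sy n h‖ ^ 2) := by
          refine Finset.sum_le_sum fun n hn => ?_
          rw [mem_S hZ0.le] at hn
          rw [← mul_assoc, ← Real.exp_add]
          refine le_mul_of_one_le_left (by positivity) (Real.one_le_exp ?_)
          have : (nm n : ℝ) / Z ≤ 1 := by rw [div_le_one hZ0]; exact hn.1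
          rw [neg_div]; linarith
      _ = Real.exp 1 * ∑ n ∈ S Z, Real.exp (-(nm n : ℝ) / Z) *
          ‖∑ h ∈ S (4 * H0), wS V b H0 Z s h * sy n h‖ ^ 2 := by rw [Finset.mul_sum]
      _ ≤ _ := by gcongr
  calc (SV V b H0 Z s) ^ 2 ≤ _ := h3
    _ ≤ _ := h2
    _ ≤ _ := by gcongr

/-- **(1)** -/
lemma cs_setup (H : SyFacts) {V : ℝ → ℝ} (hV0 : ∀ x, 0 ≤ V x) (hV1 : ∀ x, V x ≤ 1)
    (hVs : ∀ x, 1 ≤ x → x ≤ 2 → V x = 1) {b : Eis → ℂ} {H0 Z s : ℝ} (hH : 1 ≤ H0) (hZ : 1 ≤ Z)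
    (hs0 : 0 ≤ s) (hs : s ≤ 1 / 2) :
    (∑ h ∈ (S (2 * H0)).filter (fun h => H0 < nm h), ‖Eb b Z h‖ ^ 2 ≤ SV V b H0 Z s) ∧
    (∑ h ∈ S (4 * H0), ‖wS V b H0 Z s h‖ ^ 2 ≤ 2 * SV V b H0 Z s) ∧
    (SV V b H0 Z s) ^ 2 ≤ (∑ n ∈ S Z, ‖b n‖ ^ 2) * (Real.exp 1 * ∑' n : Eis,
      Real.exp (-(nm n : ℝ) / Z) * ‖∑ h ∈ S (4 * H0), wS V b H0 Z s h * sy n h‖ ^ 2) :=
  ⟨le_SV hV0 hVs hH hs, sum_wS_le hV0 hV1 hH hs0 hs, cs_aux H hV0 hH hZ⟩

lemma card_S_le {X : ℝ} (hX : 0 ≤ X) : ((S X).card : ℝ) ≤ 16 * X := by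
  refine le_trans ?_ (card_bl_le hX)
  have : S X ⊆ bl X := fun n hn => by
    rw [mem_S hX] at hn
    rw [mem_bl hX]
    exact ⟨hn.2.1.ne_zero, hn.1⟩
  exact_mod_cast Finset.card_le_card this

lemma norm_Eb_sq_le {b : Eis → ℂ} {Z : ℝ} (hZ : 0 ≤ Z) {h : Eis} (hh : IsPrim h) :
    ‖Eb b Z h‖ ^ 2 ≤ 16 * Z * ∑ n ∈ S Z, ‖b n‖ ^ 2 := by
  unfold Eb
  refine (norm_sum_sq_le_card _ _).trans ?_
  refine mul_le_mul (card_S_le hZ) (Finset.sum_le_sum fun n _ => ?_)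
    (Finset.sum_nonneg fun _ _ => by positivity) (by positivity)
  rw [norm_mul]
  have h1 : ‖sy n h‖ ≤ 1 := Tau671.norm_sy_le hh
  have h2 : ‖b n‖ * ‖sy n h‖ ≤ ‖b n‖ := mul_le_of_le_one_right (norm_nonneg _) h1
  exact pow_le_pow_left₀ (by positivity) h2 2

/-- **(2)** the trivial bound -/
lemma coreB_small (H : SyFacts) : ∀ H0 Z K1 : ℝ, 1 ≤ H0 → 1 ≤ Z → ∀ b : Eis → ℂ,
    (∑ n ∈ S Z, ‖b n‖ ^ 2 ≤ K1 * Z) →
    ∑ h ∈ (S (2 * H0)).filter (fun h => H0 < nm h), ‖Eb b Z h‖ ^ 2 ≤ 512 * K1 * H0 * Z ^ 2 := by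
  intro H0 Z K1 hH hZ b hb
  have hZ0 : 0 ≤ Z := by linarith
  have hb0 : 0 ≤ ∑ n ∈ S Z, ‖b n‖ ^ 2 := Finset.sum_nonneg fun _ _ => by positivity
  have h1 : ∀ h ∈ (S (2 * H0)).filter (fun h => H0 < (nm h : ℝ)),
      ‖Eb b Z h‖ ^ 2 ≤ 16 * Z * (K1 * Z) := by
    intro h hh
    rw [Finset.mem_filter, mem_S (by linarith)] at hh
    refine (norm_Eb_sq_le hZ0 hh.1.2.1).trans ?_
    gcongr
  refine (Finset.sum_le_sum h1).trans ?_
  rw [Finset.sum_const, nsmul_eq_mul]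
  have h2 : (((S (2 * H0)).filter (fun h => H0 < (nm h : ℝ))).card : ℝ) ≤ 32 * H0 := by
    have h3 : (((S (2 * H0)).filter (fun h => H0 < (nm h : ℝ))).card : ℝ) ≤
        ((S (2 * H0)).card : ℝ) := by
      exact_mod_cast Finset.card_le_card (Finset.filter_subset _ _)
    have h4 := card_S_le (X := 2 * H0) (by linarith)
    linarith
  have h5 : 0 ≤ 16 * Z * (K1 * Z) := by
    have : 0 ≤ K1 * Z := hb0.trans hb
    positivity
  calc _ ≤ 32 * H0 * (16 * Z * (K1 * Z)) := by gcongr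
    _ = _ := by ring

open Classical in
/-- **(3)** -/
lemma sum_def {w : Eis → ℂ} {X τ : ℝ} (hX : 0 ≤ X) (hτ0 : 0 ≤ τ) (hw : ∀ h, w h ≠ 0 → h ∈ S X)
    (hτ : ∀ h ∈ S X, ((pdiv h).card : ℝ) ≤ τ) :
    ∑ d ∈ S X, ∑ e ∈ (S X).filter (· ∣ d), ∑ f ∈ S X, ∑ k ∈ S X, ‖w (d * f * k)‖ ^ 2 ≤
      τ ^ 3 * ∑ h ∈ S X, ‖w h‖ ^ 2 := by
  have e1 : ∀ d f k : Eis, ‖w (d * f * k)‖ ^ 2 =
      ∑ h ∈ S X, if h = d * f * k then ‖w h‖ ^ 2 else 0 := by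
    intro d f k
    rw [Finset.sum_ite_eq' (S X) (d * f * k) (fun h => ‖w h‖ ^ 2)]
    split_ifs with h0
    · rfl
    · by_contra hne
      apply h0
      apply hw
      intro h1
      rw [h1] at hne
      simp at hne
  have e2 : ∑ d ∈ S X, ∑ e ∈ (S X).filter (· ∣ d), ∑ f ∈ S X, ∑ k ∈ S X, ‖w (d * f * k)‖ ^ 2 =
      ∑ h ∈ S X, ‖w h‖ ^ 2 * ∑ d ∈ S X, ∑ e ∈ (S X).filter (· ∣ d), ∑ f ∈ S X,
        ∑ k ∈ S X, if h = d * f * k then (1 : ℝ) else 0 := by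
    calc _ = ∑ d ∈ S X, ∑ e ∈ (S X).filter (· ∣ d), ∑ f ∈ S X, ∑ k ∈ S X, ∑ h ∈ S X,
          (‖w h‖ ^ 2 * if h = d * f * k then (1 : ℝ) else 0) := by
          refine Finset.sum_congr rfl fun d _ => Finset.sum_congr rfl fun e _ =>
            Finset.sum_congr rfl fun f _ => Finset.sum_congr rfl fun k _ => ?_
          rw [e1]
          refine Finset.sum_congr rfl fun h _ => ?_
          split_ifs <;> simp
      _ = ∑ d ∈ S X, ∑ e ∈ (S X).filter (· ∣ d), ∑ f ∈ S X, ∑ h ∈ S X, ∑ k ∈ S X,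
          (‖w h‖ ^ 2 * if h = d * f * k then (1 : ℝ) else 0) := by
          refine Finset.sum_congr rfl fun d _ => Finset.sum_congr rfl fun e _ =>
            Finset.sum_congr rfl fun f _ => Finset.sum_comm
      _ = ∑ d ∈ S X, ∑ e ∈ (S X).filter (· ∣ d), ∑ h ∈ S X, ∑ f ∈ S X, ∑ k ∈ S X,
          (‖w h‖ ^ 2 * if h = d * f * k then (1 : ℝ) else 0) := by
          refine Finset.sum_congr rfl fun d _ => Finset.sum_congr rfl fun e _ => Finset.sum_comm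
      _ = ∑ d ∈ S X, ∑ h ∈ S X, ∑ e ∈ (S X).filter (· ∣ d), ∑ f ∈ S X, ∑ k ∈ S X,
          (‖w h‖ ^ 2 * if h = d * f * k then (1 : ℝ) else 0) := by
          refine Finset.sum_congr rfl fun d _ => Finset.sum_comm
      _ = ∑ h ∈ S X, ∑ d ∈ S X, ∑ e ∈ (S X).filter (· ∣ d), ∑ f ∈ S X, ∑ k ∈ S X,
          (‖w h‖ ^ 2 * if h = d * f * k then (1 : ℝ) else 0) := Finset.sum_comm
      _ = _ := by
          refine Finset.sum_congr rfl fun h _ => ?_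
          simp only [Finset.mul_sum]
  rw [e2, Finset.mul_sum]
  refine Finset.sum_le_sum fun h hh => ?_
  have hh' := (mem_S hX).mp hh
  have hh0 : h ≠ 0 := hh'.2.1.ne_zero
  have key : ∑ d ∈ S X, ∑ e ∈ (S X).filter (· ∣ d), ∑ f ∈ S X,
        ∑ k ∈ S X, (if h = d * f * k then (1 : ℝ) else 0) ≤ τ ^ 3 := by
    have k1 : ∀ d ∈ S X, ∀ f ∈ S X, ∑ k ∈ S X, (if h = d * f * k then (1 : ℝ) else 0) ≤
        if d ∣ h ∧ f ∣ h then 1 else 0 := by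
      intro d hd f hf
      have hd0 := ((mem_S hX).mp hd).2.1.ne_zero
      have hf0 := ((mem_S hX).mp hf).2.1.ne_zero
      by_cases hex : ∃ k ∈ S X, h = d * f * k
      · obtain ⟨k0, hk0, hk⟩ := hex
        rw [if_pos ⟨⟨f * k0, by rw [hk]; ring⟩, ⟨d * k0, by rw [hk]; ring⟩⟩]
        rw [Finset.sum_eq_single_of_mem k0 hk0]
        · split_ifs <;> norm_num
        · intro k _ hne
          rw [if_neg]
          intro h1
          apply hne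
          have : d * f * k = d * f * k0 := by rw [← h1, hk]
          exact mul_left_cancel₀ (mul_ne_zero hd0 hf0) this
      · rw [Finset.sum_eq_zero]
        · split_ifs
          · norm_num
          · norm_num
        · intro k hk
          rw [if_neg]
          intro h1
          exact hex ⟨k, hk, h1⟩
    have k2 : ∀ d ∈ S X, ∀ e ∈ (S X).filter (· ∣ d),
        ∑ f ∈ S X, ∑ k ∈ S X, (if h = d * f * k then (1 : ℝ) else 0) ≤
        if d ∣ h ∧ e ∣ h then τ else 0 := by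
      intro d hd e he
      rw [Finset.mem_filter] at he
      refine (Finset.sum_le_sum fun f hf => k1 d hd f hf).trans ?_
      by_cases hdh : d ∣ h
      · have heh : e ∣ h := he.2.trans hdh
        rw [if_pos ⟨hdh, heh⟩]
        simp only [hdh, true_and]
        rw [← Finset.sum_filter, Finset.sum_const, nsmul_eq_mul, mul_one]
        refine le_trans ?_ (hτ h hh)
        have : (S X).filter (fun f => f ∣ h) ⊆ pdiv h := by
          intro f hf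
          rw [Finset.mem_filter, mem_S hX] at hf
          rw [mem_pdiv hh0]
          exact ⟨hf.1.2.1, hf.2⟩
        exact_mod_cast Finset.card_le_card this
      · simp only [hdh, false_and, if_false]
        simp
    have k3 : ∀ d ∈ S X, ∑ e ∈ (S X).filter (· ∣ d),
        ∑ f ∈ S X, ∑ k ∈ S X, (if h = d * f * k then (1 : ℝ) else 0) ≤
        if d ∣ h then τ ^ 2 else 0 := by
      intro d hd
      refine (Finset.sum_le_sum fun e he => k2 d hd e he).trans ?_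
      by_cases hdh : d ∣ h
      · rw [if_pos hdh]
        simp only [hdh, true_and]
        rw [← Finset.sum_filter, Finset.sum_const, nsmul_eq_mul, sq]
        refine mul_le_mul_of_nonneg_right ?_ hτ0
        refine le_trans ?_ (hτ h hh)
        have : ((S X).filter (· ∣ d)).filter (fun e => e ∣ h) ⊆ pdiv h := by
          intro f hf
          rw [Finset.mem_filter, Finset.mem_filter, mem_S hX] at hf
          rw [mem_pdiv hh0]
          exact ⟨hf.1.1.2.1, hf.2⟩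
        exact_mod_cast Finset.card_le_card this
      · rw [if_neg hdh]
        simp [hdh]
    refine (Finset.sum_le_sum fun d hd => k3 d hd).trans ?_
    rw [← Finset.sum_filter, Finset.sum_const, nsmul_eq_mul]
    have : ((S X).filter (fun d => d ∣ h)).card ≤ (pdiv h).card := by
      apply Finset.card_le_card
      intro f hf
      rw [Finset.mem_filter, mem_S hX] at hf
      rw [mem_pdiv hh0]
      exact ⟨hf.1.2.1, hf.2⟩
    have h1 : (((S X).filter (fun d => d ∣ h)).card : ℝ) ≤ τ :=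
      le_trans (by exact_mod_cast this) (hτ h hh)
    calc _ ≤ τ * τ ^ 2 := by gcongr
      _ = τ ^ 3 := by ring
  calc _ ≤ ‖w h‖ ^ 2 * τ ^ 3 := by gcongr
    _ = _ := by ring

end Crest.Agent.R012.CR2
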