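import Mathlib

/-!
# Row 12 (CR2), part f: real analysis (exponent bookkeeping)
-/

set_option autoImplicit false
set_option linter.unusedVariables false
set_option linter.unusedSimpArgs false

noncomputable section

namespace Crest.Agent.R012.CR2

lemma exp_form {H y : ℝ} (hH : 1 < H) (hy : 0 < y) : ∃ a : ℝ, y = H ^ a :=
  ⟨Real.logb H y, (Real.rpow_logb (by linarith) hH.ne' hy).symm⟩

lemma exp_nonneg {H a : ℝ} (hH : 1 < H) (h : 1 ≤ H ^ a) : 0 ≤ a := by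
  rw [← Real.rpow_zero H] at h
  exact (Real.rpow_le_rpow_left_iff hH).mp h

lemma pow_one_add {E u p : ℝ} (hE : 1 ≤ E) (hu : 0 ≤ u) (hp0 : 0 ≤ p) (hp : p ≤ 2) :
    (E * (1 + u)) ^ p ≤ 4 * E ^ 2 * (1 + u ^ p) := by
  have hm : 1 ≤ max 1 u := le_max_left _ _
  have h1 : E * (1 + u) ≤ (2 * E) * max 1 u := by
    have h2 := le_max_left 1 u
    have h3 := le_max_right 1 u
    nlinarith
  have h2 : (2 * E) ^ p ≤ (2 * E) ^ (2 : ℝ) :=
    Real.rpow_le_rpow_of_exponent_le (by linarith) hp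
  have h3 : (max 1 u) ^ p ≤ 1 + u ^ p := by
    have h0 : 0 ≤ u ^ p := Real.rpow_nonneg hu p
    rcases le_total 1 u with h | h
    · rw [max_eq_right h]; linarith
    · rw [max_eq_left h, Real.one_rpow]; linarith
  calc (E * (1 + u)) ^ p ≤ ((2 * E) * max 1 u) ^ p :=
        Real.rpow_le_rpow (by positivity) h1 hp0
    _ = (2 * E) ^ p * (max 1 u) ^ p := Real.mul_rpow (by linarith) (by linarith)
    _ ≤ (2 * E) ^ (2 : ℝ) * (1 + u ^ p) := by gcongr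
    _ = 4 * E ^ 2 * (1 + u ^ p) := by
        rw [Real.rpow_two]; ring

/-- `Z ≤ (HZ)^{2/3} H^{-0.05}` -/
lemma Z_le {H Z : ℝ} (hH : 1 < H) (hZ0 : 0 < Z) (hZ2 : Z ≤ H ^ (1.85 : ℝ)) :
    Z ≤ (H * Z) ^ ((2 : ℝ) / 3) * H ^ (-(0.05 : ℝ)) := by
  have hH0 : 0 < H := by linarith
  obtain ⟨z, rfl⟩ := exp_form hH hZ0
  have hz := (Real.rpow_le_rpow_left_iff hH).mp hZ2
  rw [Real.mul_rpow hH0.le (by positivity), ← Real.rpow_mul hH0.le, ← Real.rpow_add hH0,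
    ← Real.rpow_add hH0]
  apply Real.rpow_le_rpow_of_exponent_le hH.le
  linarith

set_option maxHeartbeats 1000000 in
/-- Claim A -/
lemma claimA {H Z ε d e f : ℝ} (hH : 1 < H) (hZ1 : H ^ (1.05 : ℝ) ≤ Z) (hZ2 : Z ≤ H ^ (1.85 : ℝ))
    (hε : 0 ≤ ε) (hd : 1 ≤ d) (he : 1 ≤ e) (hf : 1 ≤ f) :
    Z / (e * f) * (((4 * H) * Z) ^ ε * (1 + e * (4 * H) ^ 2 / (d ^ 2 * Z))) ^ ((1 : ℝ) / 3) ≤
      16 * (((4 * H) * Z) ^ ε) ^ 2 * (H * Z) ^ ((2 : ℝ) / 3) *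
        ((d * f) ^ (-(2 : ℝ) / 3) + H ^ (-(0.05 : ℝ))) := by
  have hH0 : 0 < H := by linarith
  have hZ0 : 0 < Z := lt_of_lt_of_le (by positivity) hZ1
  have hZa := Z_le hH hZ0 hZ2
  have hZ1' : 1 ≤ Z := le_trans (Real.one_le_rpow hH.le (by norm_num)) hZ1
  set E : ℝ := ((4 * H) * Z) ^ ε with hE
  have hE1 : 1 ≤ E := Real.one_le_rpow (by nlinarith) hε
  set y0 : ℝ := (H * Z) ^ ((2 : ℝ) / 3) with hy0
  have h1 := pow_one_add (u := e * (4 * H) ^ 2 / (d ^ 2 * Z)) (p := 1 / 3) hE1 (by positivity)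
    (by norm_num) (by norm_num)
  have h2 : Z / (e * f) ≤ y0 * H ^ (-(0.05 : ℝ)) := by
    refine le_trans (div_le_self hZ0.le ?_) hZa
    nlinarith
  have h3 : Z / (e * f) * (e * (4 * H) ^ 2 / (d ^ 2 * Z)) ^ ((1 : ℝ) / 3) ≤
      4 * (y0 * (d * f) ^ (-(2 : ℝ) / 3)) := by
    rw [hy0]
    obtain ⟨z, rfl⟩ := exp_form hH hZ0
    obtain ⟨a, rfl⟩ := exp_form hH (show 0 < e by linarith)
    obtain ⟨b, rfl⟩ := exp_form hH (show 0 < d by linarith)
    obtain ⟨c, rfl⟩ := exp_form hH (show 0 < f by linarith)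
    have ha := exp_nonneg hH he
    have hb := exp_nonneg hH hd
    have hc := exp_nonneg hH hf
    have e1 : H ^ a * (4 * H) ^ 2 / ((H ^ b) ^ 2 * H ^ z) = 16 * H ^ (a + 2 - 2 * b - z) := by
      have : (H ^ b) ^ 2 = H ^ (2 * b) := by
        rw [← Real.rpow_natCast, ← Real.rpow_mul hH0.le]; congr 1; push_cast; ring
      rw [this, show a + 2 - 2 * b - z = a + 2 - (2 * b + z) by ring, Real.rpow_sub hH0,
        Real.rpow_add hH0, Real.rpow_add hH0, Real.rpow_two]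
      field_simp
      ring
    rw [e1, Real.mul_rpow (by norm_num) (by positivity), ← Real.rpow_mul hH0.le,
      Real.mul_rpow hH0.le (by positivity), ← Real.rpow_mul hH0.le,
      ← Real.rpow_add hH0 a c, ← Real.rpow_sub hH0, ← Real.rpow_add hH0 b c, ← Real.rpow_mul hH0.le,
      ← Real.rpow_add hH0, ← Real.rpow_add hH0]
    have h16 : (16 : ℝ) ^ ((1 : ℝ) / 3) ≤ 4 := by
      calc (16 : ℝ) ^ ((1 : ℝ) / 3) ≤ (64 : ℝ) ^ ((1 : ℝ) / 3) := by
            apply Real.rpow_le_rpow (by norm_num) (by norm_num) (by norm_num)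
        _ = 4 := by
            rw [show (64 : ℝ) = 4 ^ (3 : ℝ) by norm_num, ← Real.rpow_mul (by norm_num)]
            norm_num
    calc H ^ (z - (a + c)) * (16 ^ ((1 : ℝ) / 3) * H ^ ((a + 2 - 2 * b - z) * (1 / 3)))
        = 16 ^ ((1 : ℝ) / 3) * H ^ (z - (a + c) + (a + 2 - 2 * b - z) * (1 / 3)) := by
          rw [Real.rpow_add hH0]; ring
      _ ≤ 4 * H ^ (2 / 3 + z * (2 / 3) + (b + c) * (-2 / 3)) := by
          refine mul_le_mul h16 (Real.rpow_le_rpow_of_exponent_le hH.le ?_) (by positivity)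
            (by norm_num)
          linarith
  have hq : 0 ≤ Z / (e * f) := by positivity
  have hdf : 0 ≤ (d * f) ^ (-(2 : ℝ) / 3) := by positivity
  have hy00 : 0 ≤ y0 := by positivity
  have hHs : 0 ≤ H ^ (-(0.05 : ℝ)) := by positivity
  calc Z / (e * f) * (E * (1 + e * (4 * H) ^ 2 / (d ^ 2 * Z))) ^ ((1 : ℝ) / 3)
      ≤ Z / (e * f) * (4 * E ^ 2 * (1 + (e * (4 * H) ^ 2 / (d ^ 2 * Z)) ^ ((1 : ℝ) / 3))) := by
        gcongr
    _ = 4 * E ^ 2 * (Z / (e * f) +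
          Z / (e * f) * (e * (4 * H) ^ 2 / (d ^ 2 * Z)) ^ ((1 : ℝ) / 3)) := by ring
    _ ≤ 4 * E ^ 2 * (y0 * H ^ (-(0.05 : ℝ)) + 4 * (y0 * (d * f) ^ (-(2 : ℝ) / 3))) := by
        gcongr
    _ ≤ 16 * E ^ 2 * y0 * ((d * f) ^ (-(2 : ℝ) / 3) + H ^ (-(0.05 : ℝ))) := by
        have : 0 ≤ E ^ 2 * (y0 * H ^ (-(0.05 : ℝ))) := by positivity
        nlinarith

set_option maxHeartbeats 1000000 in
/-- Claim B -/
lemma claimB {H Z ε d e f p : ℝ} (hH : 1 < H) (hZ1 : H ^ (1.05 : ℝ) ≤ Z)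
    (hZ2 : Z ≤ H ^ (1.85 : ℝ)) (hε : 0 ≤ ε) (hd : 1 ≤ d) (he : 1 ≤ e) (hf : 1 ≤ f) (hed : e ≤ d)
    (hdX : d ≤ 4 * H) (hp1 : 4 / 3 ≤ p) (hp2 : p ≤ 4 / 3 + 6 / 400) :
    Z / (e * f) * (d * f / H) *
      (((4 * H) * Z) ^ ε * (1 + e * (4 * H) ^ 2 / (d ^ 2 * Z))) ^ p ≤
      2000 * (((4 * H) * Z) ^ ε) ^ 2 * (H * Z) ^ ((2 : ℝ) / 3) * H ^ (-(0.02 : ℝ)) := by
  have hH0 : 0 < H := by linarith
  have hZ0 : 0 < Z := lt_of_lt_of_le (by positivity) hZ1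
  have hZa := Z_le hH hZ0 hZ2
  have hZ1' : 1 ≤ Z := le_trans (Real.one_le_rpow hH.le (by norm_num)) hZ1
  set E : ℝ := ((4 * H) * Z) ^ ε with hE
  have hE1 : 1 ≤ E := Real.one_le_rpow (by nlinarith) hε
  set y0 : ℝ := (H * Z) ^ ((2 : ℝ) / 3) with hy0
  have hy00 : 0 ≤ y0 := by positivity
  have h1 := pow_one_add (u := e * (4 * H) ^ 2 / (d ^ 2 * Z)) (p := p) hE1 (by positivity)
    (by linarith) (by linarith)
  have hHs : H ^ (-(0.05 : ℝ)) ≤ H ^ (-(0.02 : ℝ)) :=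
    Real.rpow_le_rpow_of_exponent_le hH.le (by norm_num)
  have e0 : Z / (e * f) * (d * f / H) = Z * (d / (e * H)) := by
    field_simp
  have h2 : Z / (e * f) * (d * f / H) ≤ 4 * (y0 * H ^ (-(0.02 : ℝ))) := by
    rw [e0]
    have h4 : d / (e * H) ≤ 4 := by
      rw [div_le_iff₀ (by positivity)]
      nlinarith
    calc Z * (d / (e * H)) ≤ Z * 4 := by gcongr
      _ = 4 * Z := by ring
      _ ≤ 4 * (y0 * H ^ (-(0.05 : ℝ))) := by gcongr
      _ ≤ _ := by gcongr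
  have h3 : Z / (e * f) * (d * f / H) * (e * (4 * H) ^ 2 / (d ^ 2 * Z)) ^ p ≤
      256 * (y0 * H ^ (-(0.02 : ℝ))) := by
    rw [hy0, e0]
    obtain ⟨z, rfl⟩ := exp_form hH hZ0
    obtain ⟨a, rfl⟩ := exp_form hH (show 0 < e by linarith)
    obtain ⟨b, rfl⟩ := exp_form hH (show 0 < d by linarith)
    have ha := exp_nonneg hH he
    have hb := exp_nonneg hH hd
    have hab := (Real.rpow_le_rpow_left_iff hH).mp hed
    have hz1 := (Real.rpow_le_rpow_left_iff hH).mp hZ1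
    have hz2 := (Real.rpow_le_rpow_left_iff hH).mp hZ2
    have e1 : H ^ a * (4 * H) ^ 2 / ((H ^ b) ^ 2 * H ^ z) = 16 * H ^ (a + 2 - 2 * b - z) := by
      have : (H ^ b) ^ 2 = H ^ (2 * b) := by
        rw [← Real.rpow_natCast, ← Real.rpow_mul hH0.le]; congr 1; push_cast; ring
      rw [this, show a + 2 - 2 * b - z = a + 2 - (2 * b + z) by ring, Real.rpow_sub hH0,
        Real.rpow_add hH0, Real.rpow_add hH0, Real.rpow_two]
      field_simp
      ring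
    have e2 : H ^ z * (H ^ b / (H ^ a * H)) = H ^ (z + b - a - 1) := by
      rw [Real.rpow_sub hH0, Real.rpow_sub hH0, Real.rpow_add hH0, Real.rpow_one]
      field_simp
    rw [e1, e2, Real.mul_rpow (by norm_num) (by positivity), ← Real.rpow_mul hH0.le,
      Real.mul_rpow hH0.le (by positivity), ← Real.rpow_mul hH0.le, ← Real.rpow_add hH0,
      ← Real.rpow_add hH0]
    have h16 : (16 : ℝ) ^ p ≤ 256 := by
      calc (16 : ℝ) ^ p ≤ (16 : ℝ) ^ (2 : ℝ) :=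
            Real.rpow_le_rpow_of_exponent_le (by norm_num) (by linarith)
        _ = 256 := by norm_num
    calc H ^ (z + b - a - 1) * (16 ^ p * H ^ ((a + 2 - 2 * b - z) * p))
        = 16 ^ p * H ^ (z + b - a - 1 + (a + 2 - 2 * b - z) * p) := by
          rw [Real.rpow_add hH0]; ring
      _ ≤ 256 * H ^ (2 / 3 + z * (2 / 3) + -(0.02 : ℝ)) := by
          refine mul_le_mul h16 (Real.rpow_le_rpow_of_exponent_le hH.le ?_) (by positivity)
            (by norm_num)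
          have h5 : (a + 2 - 2 * b - z) * (p - 1) ≤ (2 - z) * (1 / 3 + 6 / 400) := by
            have h6 : (a + 2 - 2 * b - z) * (p - 1) ≤ (2 - z) * (p - 1) := by
              apply mul_le_mul_of_nonneg_right _ (by linarith)
              linarith
            have h7 : (2 - z) * (p - 1) ≤ (2 - z) * (1 / 3 + 6 / 400) := by
              apply mul_le_mul_of_nonneg_left _ (by linarith)
              linarith
            linarith
          have h8 : (2 - z) * (1 / 3 + 6 / 400) ≤ 2 / 3 - z / 3 + 0.95 * (6 / 400) := by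
            nlinarith
          nlinarith
  have hq : 0 ≤ Z / (e * f) * (d * f / H) := by positivity
  have hHs' : 0 ≤ H ^ (-(0.02 : ℝ)) := by positivity
  calc Z / (e * f) * (d * f / H) * (E * (1 + e * (4 * H) ^ 2 / (d ^ 2 * Z))) ^ p
      ≤ Z / (e * f) * (d * f / H) *
          (4 * E ^ 2 * (1 + (e * (4 * H) ^ 2 / (d ^ 2 * Z)) ^ p)) := by
        gcongr
    _ = 4 * E ^ 2 * (Z / (e * f) * (d * f / H) +
          Z / (e * f) * (d * f / H) * (e * (4 * H) ^ 2 / (d ^ 2 * Z)) ^ p) := by ring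
    _ ≤ 4 * E ^ 2 * (4 * (y0 * H ^ (-(0.02 : ℝ))) + 256 * (y0 * H ^ (-(0.02 : ℝ)))) := by
        gcongr
    _ ≤ 2000 * E ^ 2 * y0 * H ^ (-(0.02 : ℝ)) := by
        have : 0 ≤ E ^ 2 * (y0 * H ^ (-(0.02 : ℝ))) := by positivity
        nlinarith

/-- Claim C -/
lemma claimC {H d f η L' : ℝ} (hH : 1 < H) (hd : 1 ≤ d) (hf : 1 ≤ f) (hη0 : 0 ≤ η)
    (hη : η ≤ 2 / 3) (hL : 1 ≤ L') :
    (4 * H / (d * f) + L') ^ (-η) ≤ 1 ∧
      (d * f) ^ (-(2 : ℝ) / 3) * (4 * H / (d * f) + L') ^ (-η) ≤ H ^ (-η) := by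
  have hH0 : 0 < H := by linarith
  have hdf : 1 ≤ d * f := by nlinarith
  have hdf0 : 0 < d * f := by linarith
  have hN : 0 < 4 * H / (d * f) := by positivity
  constructor
  · apply Real.rpow_le_one_of_one_le_of_nonpos <;> linarith
  · have h1 : (4 * H / (d * f) + L') ^ (-η) ≤ (H / (d * f)) ^ (-η) := by
      apply Real.rpow_le_rpow_of_nonpos (by positivity) _ (by linarith)
      have : H / (d * f) ≤ 4 * H / (d * f) := by
        apply div_le_div_of_nonneg_right _ hdf0.le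
        linarith
      linarith
    have h2 : (H / (d * f)) ^ (-η) = H ^ (-η) * (d * f) ^ η := by
      rw [Real.div_rpow hH0.le hdf0.le, Real.rpow_neg hdf0.le, div_inv_eq_mul]
    have h3 : (d * f) ^ η ≤ (d * f) ^ ((2 : ℝ) / 3) :=
      Real.rpow_le_rpow_of_exponent_le hdf hη
    calc (d * f) ^ (-(2 : ℝ) / 3) * (4 * H / (d * f) + L') ^ (-η)
        ≤ (d * f) ^ (-(2 : ℝ) / 3) * (H ^ (-η) * (d * f) ^ ((2 : ℝ) / 3)) := by
          rw [h2] at h1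
          have h4 : H ^ (-η) * (d * f) ^ η ≤ H ^ (-η) * (d * f) ^ ((2 : ℝ) / 3) := by gcongr
          have h5 : 0 ≤ (d * f) ^ (-(2 : ℝ) / 3) := by positivity
          exact mul_le_mul_of_nonneg_left (h1.trans h4) h5
      _ = H ^ (-η) * ((d * f) ^ (-(2 : ℝ) / 3) * (d * f) ^ ((2 : ℝ) / 3)) := by ring
      _ = H ^ (-η) := by
          rw [← Real.rpow_add hdf0]
          norm_num

set_option maxHeartbeats 1000000 in
/-- the large part: real inequality -/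
lemma large_real {H Z ε d e f K0 : ℝ} (hH : 1 < H) (hZ1 : H ^ (1.05 : ℝ) ≤ Z)
    (hZ2 : Z ≤ H ^ (1.85 : ℝ)) (hε : 0 ≤ ε) (hd : 1 ≤ d) (he : 1 ≤ e) (hf : 1 ≤ f) (hed : e ≤ d)
    (hdX : d ≤ 4 * H) (hK : 1 ≤ K0) {L : ℝ}
    (hL : L = ((4 * H) * Z) ^ ε * (1 + e * (4 * H) ^ 2 / (d ^ 2 * Z))) (hL1 : 1 ≤ L) :
    Z / (e * f) * ((4 * H / (d * f) + L ^ (1 + 6 * ((1 : ℝ) / 400))) * L ^ ((1 : ℝ) / 3) *
      (K0 ^ (-(1 : ℝ) / 3) +
        (4 * H / (d * f) + L ^ (1 + 6 * ((1 : ℝ) / 400))) ^ (-((1 : ℝ) / 400)))) *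
      (d * f / (H / 2)) ≤
      10000 * (((4 * H) * Z) ^ ε) ^ 2 * (H * Z) ^ ((2 : ℝ) / 3) *
        (K0 ^ (-(1 : ℝ) / 3) + H ^ (-((1 : ℝ) / 400)) + H ^ (-(0.02 : ℝ))) := by
  have hH0 : 0 < H := by linarith
  have hZ0 : 0 < Z := lt_of_lt_of_le (by positivity) hZ1
  have hA := claimA hH hZ1 hZ2 hε hd he hf
  have hB := claimB (p := 1 + 6 * ((1 : ℝ) / 400) + 1 / 3) hH hZ1 hZ2 hε hd he hf hed hdX
    (by norm_num) (by norm_num)
  rw [← hL] at hA hB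
  have hL0 : 0 < L := by linarith
  have hL' : 1 ≤ L ^ (1 + 6 * ((1 : ℝ) / 400)) := Real.one_le_rpow hL1 (by norm_num)
  obtain ⟨hC1, hC2⟩ := claimC (η := 1 / 400) hH hd hf (by norm_num) (by norm_num) hL'
  rw [Real.rpow_add hL0] at hB
  set y0 : ℝ := (H * Z) ^ ((2 : ℝ) / 3) with hy0
  set E : ℝ := ((4 * H) * Z) ^ ε with hE
  set L' : ℝ := L ^ (1 + 6 * ((1 : ℝ) / 400)) with hL'd
  set L3 : ℝ := L ^ ((1 : ℝ) / 3) with hL3
  set ρ : ℝ := (4 * H / (d * f) + L') ^ (-((1 : ℝ) / 400)) with hρ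
  set k : ℝ := K0 ^ (-(1 : ℝ) / 3) with hk
  have hy00 : 0 ≤ y0 := by positivity
  have hE0 : 0 ≤ E := by positivity
  have hρ0 : 0 ≤ ρ := by positivity
  have hk0 : 0 ≤ k := by positivity
  have hk1 : k ≤ 1 := Real.rpow_le_one_of_one_le_of_nonpos hK (by norm_num)
  have hs5 : H ^ (-(0.05 : ℝ)) ≤ H ^ (-(0.02 : ℝ)) :=
    Real.rpow_le_rpow_of_exponent_le hH.le (by norm_num)
  have hs0 : 0 ≤ H ^ (-(0.05 : ℝ)) := by positivity
  have hs1 : H ^ (-(0.05 : ℝ)) ≤ 1 :=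
    Real.rpow_le_one_of_one_le_of_nonpos hH.le (by norm_num)
  set s5 : ℝ := H ^ (-(0.05 : ℝ)) with hs5d
  set s2 : ℝ := H ^ (-(0.02 : ℝ)) with hs2d
  set sη : ℝ := H ^ (-((1 : ℝ) / 400)) with hsηd
  have hsη0 : 0 ≤ sη := by positivity
  set δ : ℝ := (d * f) ^ (-(2 : ℝ) / 3) with hδ
  have hδ0 : 0 ≤ δ := by positivity
  have hδ1 : δ ≤ 1 := Real.rpow_le_one_of_one_le_of_nonpos (by nlinarith) (by norm_num)
  have e1 : Z / (e * f) * ((4 * H / (d * f) + L') * L3 * (k + ρ)) * (d * f / (H / 2)) =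
      8 * ((Z / (e * f) * L3) * (k + ρ)) +
      2 * ((Z / (e * f) * (d * f / H) * (L' * L3)) * (k + ρ)) := by
    have hd0 : 0 < d := by linarith
    have hf0 : 0 < f := by linarith
    have he0 : 0 < e := by linarith
    field_simp
    ring
  rw [e1]
  have t1 : (Z / (e * f) * L3) * (k + ρ) ≤ 16 * E ^ 2 * y0 * (2 * k + sη + s5) := by
    calc (Z / (e * f) * L3) * (k + ρ) ≤ (16 * E ^ 2 * y0 * (δ + s5)) * (k + ρ) := by
          gcongr
      _ = 16 * E ^ 2 * y0 * (δ * k + s5 * k + δ * ρ + s5 * ρ) := by ring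
      _ ≤ 16 * E ^ 2 * y0 * (1 * k + 1 * k + sη + s5 * 1) := by gcongr
      _ = _ := by ring
  have t2 : (Z / (e * f) * (d * f / H) * (L' * L3)) * (k + ρ) ≤ 2000 * E ^ 2 * y0 * s2 * 2 := by
    have : k + ρ ≤ 2 := by linarith
    gcongr
  have h0 : 0 ≤ E ^ 2 * y0 := by positivity
  calc 8 * ((Z / (e * f) * L3) * (k + ρ)) +
      2 * ((Z / (e * f) * (d * f / H) * (L' * L3)) * (k + ρ))
      ≤ 8 * (16 * E ^ 2 * y0 * (2 * k + sη + s5)) + 2 * (2000 * E ^ 2 * y0 * s2 * 2) := by gcongr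
    _ = E ^ 2 * y0 * (256 * k + 128 * sη + 128 * s5 + 8000 * s2) := by ring
    _ ≤ E ^ 2 * y0 * (10000 * k + 10000 * sη + 10000 * s2) := by
        apply mul_le_mul_of_nonneg_left _ h0
        linarith
    _ = _ := by ring

/-- small powers -/
lemma small_pow {H Z κ : ℝ} (hH : 1 < H) (hZ0 : 0 < Z) (hZ2 : Z ≤ H ^ (1.85 : ℝ)) (hκ0 : 0 < κ)
    (hκ : κ ≤ 1 / 10000) :
    (4 * H) ^ (5 * (κ / 1000)) ≤ 4 * H ^ (κ / 100) ∧
    ((4 * H) * Z) ^ (κ / 1000) ≤ 4 * H ^ (κ / 100) := by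
  have hH0 : 0 < H := by linarith
  have h4 : ∀ a : ℝ, 0 ≤ a → a ≤ 1 → (4 : ℝ) ^ a ≤ 4 := by
    intro a ha ha1
    calc (4 : ℝ) ^ a ≤ (4 : ℝ) ^ (1 : ℝ) := Real.rpow_le_rpow_of_exponent_le (by norm_num) ha1
      _ = 4 := Real.rpow_one 4
  constructor
  · rw [Real.mul_rpow (by norm_num) hH0.le]
    refine mul_le_mul (h4 _ (by positivity) (by linarith))
      (Real.rpow_le_rpow_of_exponent_le hH.le (by linarith)) (by positivity) (by norm_num)
  · calc ((4 * H) * Z) ^ (κ / 1000) ≤ ((4 * H) * H ^ (1.85 : ℝ)) ^ (κ / 1000) := by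
          apply Real.rpow_le_rpow (by positivity) _ (by positivity)
          gcongr
      _ = 4 ^ (κ / 1000) * H ^ ((1 + 1.85) * (κ / 1000)) := by
          rw [mul_assoc, Real.mul_rpow (by norm_num) (by positivity)]
          congr 1
          nth_rewrite 1 [← Real.rpow_one H]
          rw [← Real.rpow_add hH0, ← Real.rpow_mul hH0.le]
      _ ≤ 4 * H ^ (κ / 100) := by
          refine mul_le_mul (h4 _ (by positivity) (by linarith))
            (Real.rpow_le_rpow_of_exponent_le hH.le (by linarith)) (by positivity) (by norm_num)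

lemma L_le {H Z κ d e : ℝ} (hH : 1 < H) (hZ1 : H ^ (1.05 : ℝ) ≤ Z)
    (hZ2 : Z ≤ H ^ (1.85 : ℝ)) (hκ0 : 0 < κ) (hκ : κ ≤ 1 / 10000) (hd : 1 ≤ d) (he : 1 ≤ e)
    (hed : e ≤ d) :
    ((4 * H) * Z) ^ (κ / 1000) * (1 + e * (4 * H) ^ 2 / (d ^ 2 * Z)) ≤ 68 * H ∧
    1 ≤ ((4 * H) * Z) ^ (κ / 1000) * (1 + e * (4 * H) ^ 2 / (d ^ 2 * Z)) ∧
    ((4 * H) * (((4 * H) * Z) ^ (κ / 1000) * (1 + e * (4 * H) ^ 2 / (d ^ 2 * Z)))) ^ (κ / 1000) ≤
      512 * H ^ (κ / 100) := by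
  have hH0 : 0 < H := by linarith
  have hZ0 : 0 < Z := lt_of_lt_of_le (by positivity) hZ1
  have hZ1' : 1 ≤ Z := le_trans (Real.one_le_rpow hH.le (by norm_num)) hZ1
  have hs := (small_pow hH hZ0 hZ2 hκ0 hκ).2
  set E : ℝ := ((4 * H) * Z) ^ (κ / 1000) with hE
  have hE1 : 1 ≤ E := Real.one_le_rpow (by nlinarith) (by positivity)
  have hE2 : E ≤ 4 * H ^ (0.05 : ℝ) := by
    refine hs.trans ?_
    gcongr
    · exact hH.le
    · norm_num; linarith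
  have hu : e * (4 * H) ^ 2 / (d ^ 2 * Z) ≤ 16 * H ^ (0.95 : ℝ) := by
    calc e * (4 * H) ^ 2 / (d ^ 2 * Z) ≤ d ^ 2 * (4 * H) ^ 2 / (d ^ 2 * H ^ (1.05 : ℝ)) := by
          gcongr
          nlinarith
      _ = 16 * (H ^ 2 / H ^ (1.05 : ℝ)) := by
          have : 0 < d := by linarith
          field_simp
          ring
      _ = 16 * H ^ (0.95 : ℝ) := by
          rw [← Real.rpow_natCast, ← Real.rpow_sub hH0]
          norm_num
  have h1 : E * (1 + e * (4 * H) ^ 2 / (d ^ 2 * Z)) ≤ 68 * H := by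
    have h95 : 1 ≤ H ^ (0.95 : ℝ) := Real.one_le_rpow hH.le (by norm_num)
    calc E * (1 + e * (4 * H) ^ 2 / (d ^ 2 * Z))
        ≤ (4 * H ^ (0.05 : ℝ)) * (17 * H ^ (0.95 : ℝ)) := by
          gcongr
          linarith
      _ = 68 * (H ^ (0.05 : ℝ) * H ^ (0.95 : ℝ)) := by ring
      _ = 68 * H := by
          rw [← Real.rpow_add hH0]
          norm_num
  have hu0 : 0 ≤ e * (4 * H) ^ 2 / (d ^ 2 * Z) := by positivity
  refine ⟨h1, ?_, ?_⟩
  · nlinarith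
  · calc ((4 * H) * (E * (1 + e * (4 * H) ^ 2 / (d ^ 2 * Z)))) ^ (κ / 1000)
        ≤ ((4 * H) * (68 * H)) ^ (κ / 1000) := by
          apply Real.rpow_le_rpow (by positivity) _ (by positivity)
          gcongr
      _ = 272 ^ (κ / 1000) * H ^ (2 * (κ / 1000)) := by
          rw [show (4 * H) * (68 * H) = 272 * (H ^ (2 : ℝ)) by rw [Real.rpow_two]; ring,
            Real.mul_rpow (by norm_num) (by positivity), ← Real.rpow_mul hH0.le]
      _ ≤ 512 * H ^ (κ / 100) := by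
          have h272 : (272 : ℝ) ^ (κ / 1000) ≤ 512 := by
            calc (272 : ℝ) ^ (κ / 1000) ≤ (272 : ℝ) ^ (1 : ℝ) :=
                  Real.rpow_le_rpow_of_exponent_le (by norm_num) (by linarith)
              _ ≤ 512 := by norm_num
          refine mul_le_mul h272
            (Real.rpow_le_rpow_of_exponent_le hH.le (by linarith)) (by positivity) (by norm_num)

end Crest.Agent.R012.CR2
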