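import Crest.Agent.R012.CR2d_180
import Crest.Agent.R012.CR2f_180

/-!
# Row 12 (CR2), part g: the bound for one triple `d, e, f`
-/

set_option autoImplicit false
set_option linter.unusedVariables false
set_option linter.unusedSimpArgs false
set_option linter.unusedSectionVars false

noncomputable section

namespace Crest.Agent.R012.CR2

open Eis LS2 Mob705 Finset CharSum852 Tau671 MeasureTheory

local notation "cj" => starRingEnd ℂ

/-- the instance of `LargePart` which is used -/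
def LargeI (CL κ : ℝ) : Prop := open Classical in
  ∀ X L K0 : ℝ, 1 ≤ X → 1 ≤ L → 1 ≤ K0 → ∀ w : Eis → ℂ, (∀ h, w h ≠ 0 → h ∈ S X) →
  ∀ d e f : Eis, IsPrim d → IsPrim e → IsPrim f → ∀ σ t : ℝ, 0 ≤ σ → σ ≤ 1 / 2 →
    ∑ l ∈ (bl L).filter (fun l => ¬ Sm K0 l), ‖dsum w X d e f l (σ + t * Complex.I)‖ ^ 2 ≤
      CL * (X * L) ^ (κ / 1000) * (X / (nm d * nm f) + L ^ (1 + 6 * ((1 : ℝ) / 400))) *
        L ^ ((1 : ℝ) / 3) *
        (K0 ^ (-(1 : ℝ) / 3) + (X / (nm d * nm f) + L ^ (1 + 6 * ((1 : ℝ) / 400))) ^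
          (-((1 : ℝ) / 400))) * Xi w X d f σ

lemma largeI_of (hL : LargePart) {κ : ℝ} (hκ : 0 < κ) : ∃ CL : ℝ, 0 < CL ∧ LargeI CL κ := by
  obtain ⟨C, hC, h⟩ := hL (1 / 400) (κ / 1000) (by norm_num) (by norm_num) (by positivity)
  exact ⟨C, hC, h⟩

/-- the summand for one triple -/
def Trip (w : Eis → ℂ) (X Z σ : ℝ) (d e f : Eis) : ℝ :=
  Z / (nm e * nm f) * (nm e * (nm f : ℝ) ^ 2 / Z) ^ σ *
    ∫ t : ℝ, (1 + t ^ 2)⁻¹ * ∑ l ∈ bl (Lde X Z σ d e),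
      (nm l : ℝ) ^ (-σ) * ‖dsum w X d e f l (σ + t * Complex.I)‖ ^ 2

/-- real arithmetic for the trivial bound -/
lemma trivial_real {H Z ε d e f : ℝ} (hH : 1 < H) (hZ1 : H ^ (1.05 : ℝ) ≤ Z)
    (hZ2 : Z ≤ H ^ (1.85 : ℝ)) (hε : 0 ≤ ε) (hd : 1 ≤ d) (he : 1 ≤ e) (hf : 1 ≤ f) {L : ℝ}
    (hL : L = ((4 * H) * Z) ^ ε * (1 + e * (4 * H) ^ 2 / (d ^ 2 * Z))) :
    Z / (e * f) * (L ^ ((1 : ℝ) / 3) * (4 * H / (d * f))) * (d * f / (H / 2)) ≤
      128 * (((4 * H) * Z) ^ ε) ^ 2 * (H * Z) ^ ((2 : ℝ) / 3) *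
        ((d * f) ^ (-(2 : ℝ) / 3) + H ^ (-(0.05 : ℝ))) := by
  have hA := claimA hH hZ1 hZ2 hε hd he hf
  rw [← hL] at hA
  have e1 : Z / (e * f) * (L ^ ((1 : ℝ) / 3) * (4 * H / (d * f))) * (d * f / (H / 2)) =
      8 * (Z / (e * f) * L ^ ((1 : ℝ) / 3)) := by
    have hd0 : 0 < d := by linarith
    have hf0 : 0 < f := by linarith
    have he0 : 0 < e := by linarith
    have hH0 : 0 < H := by linarith
    field_simp
    ring
  rw [e1]
  linarith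

variable (H : SyFacts)
include H

set_option maxHeartbeats 2000000 in
/-- the bound for the `l`-sum, split in large and small -/
lemma F_le (hG : GFacts) {CL κ : ℝ} (hκ0 : 0 < κ) (hκ : κ ≤ 1 / 10000) (hCL : 0 < CL)
    (hL : LargeI CL κ) {H0 Z : ℝ} (hH : 1 < H0) (hZ1 : H0 ^ (1.05 : ℝ) ≤ Z)
    (hZ2 : Z ≤ H0 ^ (1.85 : ℝ)) {w : Eis → ℂ} (hw : ∀ h, w h ≠ 0 → h ∈ S (4 * H0))
    {d e f : Eis} (hd : IsPrim d) (he : IsPrim e) (hf : IsPrim f) (hed : e ∣ d) {σ t : ℝ}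
    (hσ0 : 0 ≤ σ) (hσ : σ ≤ 1 / 2) {L A1 : ℝ} (hLd : L = Lde (4 * H0) Z (κ / 1000) d e)
    (hA1 : A1 = CL * (4 * H0 * L) ^ (κ / 1000) *
        (4 * H0 / (nm d * nm f) + L ^ (1 + 6 * ((1 : ℝ) / 400))) *
        L ^ ((1 : ℝ) / 3) *
        ((H0 ^ κ) ^ (-(1 : ℝ) / 3) + (4 * H0 / (nm d * nm f) + L ^ (1 + 6 * ((1 : ℝ) / 400))) ^
          (-((1 : ℝ) / 400))) * Xi w (4 * H0) d f σ) :
    (∑ l ∈ bl L, (nm l : ℝ) ^ (-σ) * ‖dsum w (4 * H0) d e f l (σ + t * Complex.I)‖ ^ 2 ≤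
      A1 + (open Classical in
      ∑ l ∈ (bl L).filter (Sm (H0 ^ κ)), ‖dsum w (4 * H0) d e f l (σ + t * Complex.I)‖ ^ 2)) := by
  classical
  have hd1 : (1 : ℝ) ≤ nm d := by exact_mod_cast nm_pos.mpr hd.ne_zero
  have he1 : (1 : ℝ) ≤ nm e := by exact_mod_cast nm_pos.mpr he.ne_zero
  have hed1 : (nm e : ℝ) ≤ nm d := by exact_mod_cast LS448.nm_le_of_dvd hed hd.ne_zero
  have hL1 : 1 ≤ L := by
    rw [hLd]
    exact (L_le hH hZ1 hZ2 hκ0 hκ hd1 he1 hed1).2.1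
  have h1 : ∑ l ∈ bl L, (nm l : ℝ) ^ (-σ) * ‖dsum w (4 * H0) d e f l (σ + t * Complex.I)‖ ^ 2 ≤
      ∑ l ∈ bl L, ‖dsum w (4 * H0) d e f l (σ + t * Complex.I)‖ ^ 2 := by
    refine Finset.sum_le_sum fun l hl => ?_
    have hl1 : (1 : ℝ) ≤ nm l := by
      exact_mod_cast nm_pos.mpr ((mem_bl (by linarith)).mp hl).1
    have h2 : (nm l : ℝ) ^ (-σ) ≤ 1 :=
      Real.rpow_le_one_of_one_le_of_nonpos hl1 (by linarith)
    have h3 : 0 ≤ ‖dsum w (4 * H0) d e f l (σ + t * Complex.I)‖ ^ 2 := by positivity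
    nlinarith
  refine h1.trans ?_
  rw [← Finset.sum_filter_add_sum_filter_not (bl L) (Sm (H0 ^ κ)), add_comm, hA1]
  have h2 := hL (4 * H0) L (H0 ^ κ) (by linarith) hL1 (Real.one_le_rpow hH.le hκ0.le) w hw d e f
    hd he hf σ t hσ0 hσ
  have e1 : 6 * ((1 : ℝ) / 400) = 6 * (1 / 400) := rfl
  linarith

set_option maxHeartbeats 4000000 in
omit H in
/-- the pure real arithmetic of the triple bound -/
lemma trip_arith {H Z κ d e f CL Cτ τ U Xi' W L P : ℝ} (hκ0 : 0 < κ) (hκ : κ ≤ 1 / 10000)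
    (hCL : 0 < CL) (hCτ : 1 ≤ Cτ) (hH : 1 < H) (hZ1 : H ^ (1.05 : ℝ) ≤ Z)
    (hZ2 : Z ≤ H ^ (1.85 : ℝ)) (hd : 1 ≤ d) (he : 1 ≤ e) (hf : 1 ≤ f) (hed : e ≤ d)
    (hdX : d ≤ 4 * H) (hτ0 : 0 ≤ τ) (hτC : τ ≤ Cτ * H ^ (κ / 100)) (hU0 : 0 ≤ U)
    (hXi0 : 0 ≤ Xi') (hW0 : 0 ≤ W)
    (hXi : Xi' ≤ (d * f / (H / 2)) * (4 * H) ^ (2 * (κ / 1000)) * W)
    (hL : L = ((4 * H) * Z) ^ (κ / 1000) * (1 + e * (4 * H) ^ 2 / (d ^ 2 * Z)))
    (hP0 : 0 ≤ P) (hP : P ≤ Z / (e * f) * (4 * H) ^ (3 * (κ / 1000))) :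
    P * (CL * (4 * H * L) ^ (κ / 1000) *
        (4 * H / (d * f) + L ^ (1 + 6 * ((1 : ℝ) / 400))) * L ^ ((1 : ℝ) / 3) *
        ((H ^ κ) ^ (-(1 : ℝ) / 3) + (4 * H / (d * f) + L ^ (1 + 6 * ((1 : ℝ) / 400))) ^
          (-((1 : ℝ) / 400))) * Xi') ≤
      1000000000 * CL * (H ^ (κ / 100)) ^ 4 * (H * Z) ^ ((2 : ℝ) / 3) * H ^ (-κ / 3) * W ∧
    P * (L ^ ((1 : ℝ) / 3) * (4 * H / (d * f)) * Xi') ≤
      8192 * (H ^ (κ / 100)) ^ 3 * (H * Z) ^ ((2 : ℝ) / 3) *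
        ((d * f) ^ (-(2 : ℝ) / 3) + H ^ (-(0.05 : ℝ))) * W ∧
    P * L ^ ((1 : ℝ) / 3) ≤ 2048 * (H ^ (κ / 100)) ^ 3 * (H * Z) ^ ((2 : ℝ) / 3) := by
  have hH0 : 0 < H := by linarith
  have hZ0 : 0 < Z := lt_of_lt_of_le (by positivity) hZ1
  have hd0 : 0 < d := by linarith
  have hf0 : 0 < f := by linarith
  have he0 : 0 < e := by linarith
  have hK1 : 1 ≤ H ^ κ := Real.one_le_rpow hH.le hκ0.le
  obtain ⟨hX5, hE⟩ := small_pow hH hZ0 hZ2 hκ0 hκ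
  obtain ⟨hL68, hL1, hXL⟩ := L_le hH hZ1 hZ2 hκ0 hκ hd he hed
  rw [← hL] at hL68 hL1 hXL
  have hLR := large_real hH hZ1 hZ2 (by positivity : 0 ≤ κ / 1000) hd he hf hed hdX hK1 hL hL1
  have hTR := trivial_real hH hZ1 hZ2 (by positivity : 0 ≤ κ / 1000) hd he hf hL
  have hA := claimA hH hZ1 hZ2 (by positivity : 0 ≤ κ / 1000) hd he hf
  rw [← hL] at hA
  have hX52 : (4 * H) ^ (3 * (κ / 1000)) * (4 * H) ^ (2 * (κ / 1000)) =
      (4 * H) ^ (5 * (κ / 1000)) := by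
    rw [← Real.rpow_add (by positivity)]
    congr 1; ring
  have hX35 : (4 * H) ^ (3 * (κ / 1000)) ≤ (4 * H) ^ (5 * (κ / 1000)) := by
    apply Real.rpow_le_rpow_of_exponent_le (by linarith)
    nlinarith
  set X3 : ℝ := (4 * H) ^ (3 * (κ / 1000)) with hX3d
  set X2 : ℝ := (4 * H) ^ (2 * (κ / 1000)) with hX2d
  set X5 : ℝ := (4 * H) ^ (5 * (κ / 1000)) with hX5d
  set Q : ℝ := H ^ (κ / 100) with hQ
  set y0 : ℝ := (H * Z) ^ ((2 : ℝ) / 3) with hy0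
  set h : ℝ := H ^ (-κ / 3) with hh
  set E : ℝ := ((4 * H) * Z) ^ (κ / 1000) with hEd
  set XL : ℝ := (4 * H * L) ^ (κ / 1000) with hXLd
  have hX30 : 0 ≤ X3 := by positivity
  have hX20 : 0 ≤ X2 := by positivity
  have hX50 : 0 ≤ X5 := by positivity
  have hQ0 : 0 ≤ Q := by positivity
  have hy00 : 0 ≤ y0 := by positivity
  have hh0 : 0 ≤ h := by positivity
  have hE0 : 0 ≤ E := by positivity
  have hL0 : 0 < L := by linarith
  have hXL0 : 0 ≤ XL := by positivity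
  have hk : (H ^ κ) ^ (-(1 : ℝ) / 3) = h := by
    rw [hh, ← Real.rpow_mul hH0.le]; congr 1; ring
  have hη : H ^ (-((1 : ℝ) / 400)) ≤ h :=
    Real.rpow_le_rpow_of_exponent_le hH.le (by linarith)
  have h02 : H ^ (-(0.02 : ℝ)) ≤ h :=
    Real.rpow_le_rpow_of_exponent_le hH.le (by linarith)
  have hE2 : E ^ 2 ≤ 16 * Q ^ 2 := by
    calc E ^ 2 ≤ (4 * Q) ^ 2 := by gcongr
      _ = _ := by ring
  refine ⟨?_, ?_, ?_⟩
  · set B : ℝ := (4 * H / (d * f) + L ^ (1 + 6 * ((1 : ℝ) / 400))) * L ^ ((1 : ℝ) / 3) *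
        ((H ^ κ) ^ (-(1 : ℝ) / 3) + (4 * H / (d * f) + L ^ (1 + 6 * ((1 : ℝ) / 400))) ^
          (-((1 : ℝ) / 400))) with hB
    have hB0 : 0 ≤ B := by positivity
    calc P * (CL * XL * (4 * H / (d * f) + L ^ (1 + 6 * ((1 : ℝ) / 400))) * L ^ ((1 : ℝ) / 3) *
        ((H ^ κ) ^ (-(1 : ℝ) / 3) + (4 * H / (d * f) + L ^ (1 + 6 * ((1 : ℝ) / 400))) ^
          (-((1 : ℝ) / 400))) * Xi') = P * (CL * XL * B * Xi') := by rw [hB]; ring
      _ ≤ (Z / (e * f) * X3) * (CL * XL * B * ((d * f / (H / 2)) * X2 * W)) := by gcongr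
      _ = CL * XL * (X3 * X2) * W * (Z / (e * f) * B * (d * f / (H / 2))) := by ring
      _ ≤ CL * (512 * Q) * (4 * Q) * W * (10000 * (16 * Q ^ 2) * y0 * (h + h + h)) := by
          rw [hX52]
          have h5 : Z / (e * f) * B * (d * f / (H / 2)) ≤
              10000 * (16 * Q ^ 2) * y0 * (h + h + h) := by
            refine hLR.trans ?_
            rw [hk]
            gcongr
          have h6 : 0 ≤ Z / (e * f) * B * (d * f / (H / 2)) := by positivity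
          gcongr
      _ = 983040000 * (CL * Q ^ 4 * y0 * h * W) := by ring
      _ ≤ 1000000000 * (CL * Q ^ 4 * y0 * h * W) := by
          have : 0 ≤ CL * Q ^ 4 * y0 * h * W := by positivity
          linarith
      _ = _ := by ring
  · set B : ℝ := L ^ ((1 : ℝ) / 3) * (4 * H / (d * f)) with hB
    have hB0 : 0 ≤ B := by positivity
    set D : ℝ := (d * f) ^ (-(2 : ℝ) / 3) + H ^ (-(0.05 : ℝ)) with hD
    have hD0 : 0 ≤ D := by positivity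
    calc P * (B * Xi') ≤ (Z / (e * f) * X3) * (B * ((d * f / (H / 2)) * X2 * W)) := by gcongr
      _ = (X3 * X2) * W * (Z / (e * f) * B * (d * f / (H / 2))) := by ring
      _ ≤ (4 * Q) * W * (128 * (16 * Q ^ 2) * y0 * D) := by
          rw [hX52]
          have h5 : Z / (e * f) * B * (d * f / (H / 2)) ≤ 128 * (16 * Q ^ 2) * y0 * D := by
            refine hTR.trans ?_
            gcongr
          have h6 : 0 ≤ Z / (e * f) * B * (d * f / (H / 2)) := by positivity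
          gcongr
      _ = 8192 * Q ^ 3 * y0 * D * W := by ring
  · set B : ℝ := L ^ ((1 : ℝ) / 3) with hB
    have hB0 : 0 ≤ B := by positivity
    have h1 : (d * f) ^ (-(2 : ℝ) / 3) ≤ 1 :=
      Real.rpow_le_one_of_one_le_of_nonpos (by nlinarith) (by norm_num)
    have h2 : H ^ (-(0.05 : ℝ)) ≤ 1 :=
      Real.rpow_le_one_of_one_le_of_nonpos hH.le (by norm_num)
    calc P * B ≤ (Z / (e * f) * X3) * B := by gcongr
      _ = X3 * (Z / (e * f) * B) := by ring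
      _ ≤ (4 * Q) * (16 * (16 * Q ^ 2) * y0 * (1 + 1)) := by
          have h5 : Z / (e * f) * B ≤ 16 * (16 * Q ^ 2) * y0 * (1 + 1) := by
            refine hA.trans ?_
            gcongr
          have h6 : 0 ≤ Z / (e * f) * B := by positivity
          have h7 : X3 ≤ 4 * Q := hX35.trans hX5
          gcongr
      _ = 2048 * Q ^ 3 * y0 := by ring

set_option maxHeartbeats 4000000 in
/-- **the bound for one triple** -/
lemma triple_bound (hG : GFacts) {CL Cτ κ : ℝ} (hκ0 : 0 < κ) (hκ : κ ≤ 1 / 10000) (hCL : 0 < CL)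
    (hCτ : 1 ≤ Cτ) (hL : LargeI CL κ) {H0 Z : ℝ} (hH : 1 < H0) (hZ1 : H0 ^ (1.05 : ℝ) ≤ Z)
    (hZ2 : Z ≤ H0 ^ (1.85 : ℝ)) {w : Eis → ℂ} (hw : ∀ h, w h ≠ 0 → h ∈ S (4 * H0))
    (hw2 : ∀ h, w h ≠ 0 → H0 / 2 ≤ nm h) {τ : ℝ} (hτ0 : 0 ≤ τ) (hτC : τ ≤ Cτ * H0 ^ (κ / 100))
    (hτ : ∀ m ∈ bl (8 * H0), ((pdiv m).card : ℝ) ≤ τ)
    {d e f : Eis} (hd : IsPrim d) (he : IsPrim e) (hf : IsPrim f) (hed : e ∣ d)
    (hdX : (nm d : ℝ) ≤ 4 * H0) (hfX : (nm f : ℝ) ≤ 4 * H0) {U : ℝ} (hU0 : 0 ≤ U)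
    (hU : (nm d : ℝ) * nm f ≤ H0 ^ (3 * κ) → ∀ t : ℝ, |t| ≤ H0 ^ (2 * κ) →
      ∀ r ∈ bl (H0 ^ κ), ∀ g, IsPrim g → (nm g : ℝ) ≤ H0 ^ (2 * κ) →
      ‖Bg w (4 * H0) d e f r g (((κ / 1000 : ℝ) : ℂ) + t * Complex.I)‖ ^ 2 ≤ U) :
    Trip w (4 * H0) Z (κ / 1000) d e f ≤
      10000000000 * (CL + 1) * Cτ ^ 2 * (H0 ^ (κ / 100)) ^ 6 * (H0 * Z) ^ ((2 : ℝ) / 3) *
        H0 ^ (-κ / 3) * Wd w (4 * H0) d f +
      (open Classical in if (nm d : ℝ) * nm f ≤ H0 ^ (3 * κ) then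
        10000000000 * Cτ * (H0 ^ (κ / 100)) ^ 4 * (H0 * Z) ^ ((2 : ℝ) / 3) * H0 ^ (3 * κ) * U
        else 0) := by
  classical
  have hH0 : 0 < H0 := by linarith
  have hZ0 : 0 < Z := lt_of_lt_of_le (by positivity) hZ1
  have hZ1' : 1 ≤ Z := le_trans (Real.one_le_rpow hH.le (by norm_num)) hZ1
  have hd1 : (1 : ℝ) ≤ nm d := by exact_mod_cast nm_pos.mpr hd.ne_zero
  have he1 : (1 : ℝ) ≤ nm e := by exact_mod_cast nm_pos.mpr he.ne_zero
  have hf1 : (1 : ℝ) ≤ nm f := by exact_mod_cast nm_pos.mpr hf.ne_zero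
  have hed1 : (nm e : ℝ) ≤ nm d := by exact_mod_cast LS448.nm_le_of_dvd hed hd.ne_zero
  set σ : ℝ := κ / 1000 with hσ
  have hσ0 : 0 ≤ σ := by positivity
  have hσ1 : σ ≤ 1 / 2 := by linarith
  set L : ℝ := Lde (4 * H0) Z σ d e with hLd
  have hLf : L = ((4 * H0) * Z) ^ (κ / 1000) *
      (1 + (nm e : ℝ) * (4 * H0) ^ 2 / ((nm d : ℝ) ^ 2 * Z)) := by
    rw [hLd, Lde]
  obtain ⟨hL68, hL1, hXL⟩ := L_le hH hZ1 hZ2 hκ0 hκ hd1 he1 hed1
  rw [← hLf] at hL68 hL1 hXL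
  have hL0 : 0 < L := by linarith
  set M : ℝ := L ^ ((1 : ℝ) / 3) with hM
  have hM0 : 0 ≤ M := by positivity
  have hM3 : M ^ 3 = L := by
    rw [hM, ← Real.rpow_natCast, ← Real.rpow_mul hL0.le]; norm_num
  have hM8 : M ≤ 8 * H0 := by
    have h1 : M ^ 3 ≤ (8 * H0) ^ 3 := by
      rw [hM3]
      have : H0 ≤ H0 ^ 3 := by
        calc H0 = H0 ^ 1 := (pow_one _).symm
          _ ≤ H0 ^ 3 := pow_le_pow_right₀ hH.le (by norm_num)
      nlinarith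
    exact le_of_pow_le_pow_left₀ (by norm_num) (by positivity) h1
  have hτM : ∀ m ∈ bl M, ((pdiv m).card : ℝ) ≤ τ := by
    intro m hm
    apply hτ
    rw [mem_bl hM0] at hm
    rw [mem_bl (by positivity)]
    exact ⟨hm.1, hm.2.trans hM8⟩
  have hτX : ∀ m ∈ S (4 * H0), ((pdiv m).card : ℝ) ≤ τ := by
    intro m hm
    apply hτ
    rw [mem_bl (by positivity)]
    exact ⟨(S_prim (by positivity) hm).ne_zero, (S_le (by positivity) hm).trans (by linarith)⟩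
  set Xi' : ℝ := Xi w (4 * H0) d f σ with hXid
  have hXi0 : 0 ≤ Xi' := Xi_nonneg _ _ _ _ _
  set W : ℝ := Wd w (4 * H0) d f with hWd
  have hW0 : 0 ≤ W := Wd_nonneg _ _ _ _
  have hXi : Xi' ≤ (nm d * nm f / (H0 / 2)) * (4 * H0) ^ (2 * (κ / 1000)) * W :=
    Xi_le (by linarith) (by positivity) hσ0 hw hw2 hd hf
  set P : ℝ := Z / (nm e * nm f) * (nm e * (nm f : ℝ) ^ 2 / Z) ^ σ with hPd
  have hP0 : 0 ≤ P := by positivity
  have hP : P ≤ Z / (nm e * nm f) * (4 * H0) ^ (3 * (κ / 1000)) := by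
    rw [hPd]
    apply mul_le_mul_of_nonneg_left _ (by positivity)
    rw [Real.rpow_mul (by positivity)]
    apply Real.rpow_le_rpow (by positivity) _ hσ0
    calc (nm e : ℝ) * (nm f : ℝ) ^ 2 / Z ≤ (nm e : ℝ) * (nm f : ℝ) ^ 2 :=
          div_le_self (by positivity) hZ1'
      _ ≤ (4 * H0) * (4 * H0) ^ 2 := by
          gcongr
          exact hed1.trans hdX
      _ = (4 * H0) ^ (3 : ℝ) := by
          rw [show (3 : ℝ) = ((3 : ℕ) : ℝ) by norm_num, Real.rpow_natCast]; ring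
  obtain ⟨q1, q2, q3⟩ := trip_arith (U := U) (τ := τ) hκ0 hκ hCL hCτ hH hZ1 hZ2 hd1 he1 hf1 hed1
    hdX hτ0 hτC hU0 hXi0 hW0 hXi hLf hP0 hP
  set A1 : ℝ := CL * (4 * H0 * L) ^ (κ / 1000) *
        (4 * H0 / (nm d * nm f) + L ^ (1 + 6 * ((1 : ℝ) / 400))) *
        L ^ ((1 : ℝ) / 3) *
        ((H0 ^ κ) ^ (-(1 : ℝ) / 3) + (4 * H0 / (nm d * nm f) + L ^ (1 + 6 * ((1 : ℝ) / 400))) ^
          (-((1 : ℝ) / 400))) * Xi' with hA1
  set N : ℝ := 4 * H0 / (nm d * nm f) with hN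
  have hN0 : 0 ≤ N := by positivity
  set K0 : ℝ := H0 ^ κ with hK0
  have hK1 : 1 ≤ K0 := Real.one_le_rpow hH.le hκ0.le
  have hK00 : 0 ≤ K0 := by linarith
  set G0 : ℝ := H0 ^ (2 * κ) with hG0
  have hG1 : 1 ≤ G0 := Real.one_le_rpow hH.le (by positivity)
  have hG00 : 0 < G0 := by linarith
  set Q : ℝ := H0 ^ (κ / 100) with hQ
  have hQ1 : 1 ≤ Q := Real.one_le_rpow hH.le (by positivity)
  have hQ0 : 0 ≤ Q := by linarith
  set y0 : ℝ := (H0 * Z) ^ ((2 : ℝ) / 3) with hy0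
  have hy00 : 0 ≤ y0 := by positivity
  set h : ℝ := H0 ^ (-κ / 3) with hh
  have hh0 : 0 ≤ h := by positivity
  have hA10 : 0 ≤ A1 := by
    rw [hA1]
    positivity
  set F : ℝ → ℝ := fun t => ∑ l ∈ bl L,
      (nm l : ℝ) ^ (-σ) * ‖dsum w (4 * H0) d e f l (σ + t * Complex.I)‖ ^ 2 with hF
  have hF0 : ∀ t, 0 ≤ F t := fun t => Finset.sum_nonneg fun _ _ => by positivity
  have hFle : ∀ t, F t ≤ A1 + ∑ l ∈ (bl L).filter (Sm K0),
      ‖dsum w (4 * H0) d e f l (σ + t * Complex.I)‖ ^ 2 := by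
    intro t
    have := F_le H hG hκ0 hκ hCL hL hH hZ1 hZ2 hw hd he hf hed (t := t) hσ0 hσ1 hLd hA1
    convert this using 3
  set A2 : ℝ := 16 * K0 * (16 * M * (16 * N * Xi')) with hA2
  have hA20 : 0 ≤ A2 := by positivity
  have hF2 : ∀ t, F t ≤ A1 + A2 := by
    intro t
    refine (hFle t).trans ?_
    have := small_trivial H hG (by positivity : (0 : ℝ) ≤ 4 * H0) hw hd hf (e := e) (σ := σ)
      (t := t) hL0.le hM0 hM3.ge hK00
    gcongr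
  -- the quantities with P
  set D : ℝ := ((nm d : ℝ) * nm f) ^ (-(2 : ℝ) / 3) + H0 ^ (-(0.05 : ℝ)) with hD
  have hD0 : 0 ≤ D := by positivity
  have hD2 : D ≤ 2 := by
    have h1 : ((nm d : ℝ) * nm f) ^ (-(2 : ℝ) / 3) ≤ 1 :=
      Real.rpow_le_one_of_one_le_of_nonpos (by nlinarith) (by norm_num)
    have h2 : H0 ^ (-(0.05 : ℝ)) ≤ 1 :=
      Real.rpow_le_one_of_one_le_of_nonpos hH.le (by norm_num)
    linarith
  have q2' : P * A2 ≤ 33554432 * Q ^ 3 * y0 * (K0 * D) * W := by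
    calc P * A2 = 4096 * K0 * (P * (M * N * Xi')) := by rw [hA2]; ring
      _ ≤ 4096 * K0 * (8192 * Q ^ 3 * y0 * D * W) := by gcongr
      _ = _ := by ring
  have hCτ0 : 0 ≤ Cτ := by linarith
  have hQ36 : Q ^ 3 ≤ Q ^ 6 := pow_le_pow_right₀ hQ1 (by norm_num)
  have hQ46 : Q ^ 4 ≤ Q ^ 6 := pow_le_pow_right₀ hQ1 (by norm_num)
  have hQ56 : Q ^ 5 ≤ Q ^ 6 := pow_le_pow_right₀ hQ1 (by norm_num)
  have hCτ2 : 1 ≤ Cτ ^ 2 := one_le_pow₀ hCτ
  set R : ℝ := Q ^ 6 * y0 * h * W with hR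
  have hR0 : 0 ≤ R := by positivity
  have q1' : P * A1 ≤ 1000000000 * CL * R := by
    calc P * A1 ≤ 1000000000 * CL * Q ^ 4 * y0 * h * W := q1
      _ ≤ 1000000000 * CL * Q ^ 6 * y0 * h * W := by gcongr
      _ = _ := by rw [hR]; ring
  have hTrip : Trip w (4 * H0) Z σ d e f = P * ∫ t : ℝ, (1 + t ^ 2)⁻¹ * F t := rfl
  rw [hTrip]
  by_cases hdf : (nm d : ℝ) * nm f ≤ H0 ^ (3 * κ)
  · rw [if_pos hdf]
    set A3 : ℝ := 16 * K0 * (16 * τ * M * (16 * G0 * U + 16 * N / G0 * (τ * Xi'))) with hA3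
    have hA30 : 0 ≤ A3 := by positivity
    have hF3 : ∀ t, |t| ≤ G0 → F t ≤ A1 + A3 := by
      intro t ht
      refine (hFle t).trans ?_
      have := small_struct H hG (by positivity : (0 : ℝ) ≤ 4 * H0) hw hd hf (e := e) (σ := σ)
        (t := t) hL0.le hM0 hM3.ge hK00 hG1 hU0 hτ0 hτM hτX (hU hdf t ht)
      gcongr
    have hint := int_le (A := A1 + A3) (B := A2) hF0 (by positivity) hA20 hG00 hF3
      (fun t => (hF2 t).trans (by linarith))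
    have hK0T : K0 * (1 / G0) = H0 ^ (-κ) := by
      rw [hK0, hG0, one_div, ← Real.rpow_neg hH0.le, ← Real.rpow_add hH0]; congr 1; ring
    have hKh : K0 * (1 / G0) ≤ h := by
      rw [hK0T]
      exact Real.rpow_le_rpow_of_exponent_le hH.le (by linarith)
    have hKG : K0 * G0 = H0 ^ (3 * κ) := by
      rw [hK0, hG0, ← Real.rpow_add hH0]; congr 1; ring
    have r2 : P * (A2 / G0) ≤ 67108864 * R := by
      calc P * (A2 / G0) = (P * A2) * (1 / G0) := by ring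
        _ ≤ (33554432 * Q ^ 3 * y0 * (K0 * D) * W) * (1 / G0) := by gcongr
        _ = 33554432 * Q ^ 3 * y0 * ((K0 * (1 / G0)) * D) * W := by ring
        _ ≤ 33554432 * Q ^ 6 * y0 * (h * 2) * W := by gcongr
        _ = _ := by rw [hR]; ring
    have r3 : P * A3 ≤ 8388608 * Cτ * Q ^ 4 * y0 * H0 ^ (3 * κ) * U + 67108864 * Cτ ^ 2 * R := by
      calc P * A3 = 4096 * (K0 * G0) * τ * U * (P * M) +
            4096 * (K0 * (1 / G0)) * τ ^ 2 * (P * (M * N * Xi')) := by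
            rw [hA3]; field_simp; ring
        _ ≤ 4096 * (K0 * G0) * (Cτ * Q) * U * (2048 * Q ^ 3 * y0) +
            4096 * h * (Cτ * Q) ^ 2 * (8192 * Q ^ 3 * y0 * 2 * W) := by
            have q2'' : P * (M * N * Xi') ≤ 8192 * Q ^ 3 * y0 * 2 * W := by
              refine q2.trans ?_
              gcongr
            gcongr
        _ = 8388608 * Cτ * Q ^ 4 * y0 * (K0 * G0) * U +
            67108864 * Cτ ^ 2 * (Q ^ 5 * y0 * h * W) := by ring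
        _ ≤ 8388608 * Cτ * Q ^ 4 * y0 * (K0 * G0) * U +
            67108864 * Cτ ^ 2 * (Q ^ 6 * y0 * h * W) := by gcongr
        _ = _ := by rw [hKG]
    have hRC : 0 ≤ (CL + 1) * Cτ ^ 2 * R := by positivity
    have s1 : CL * R ≤ (CL + 1) * Cτ ^ 2 * R := by
      have : CL * 1 * R ≤ (CL + 1) * Cτ ^ 2 * R := by gcongr; linarith
      linarith
    have s2 : R ≤ (CL + 1) * Cτ ^ 2 * R := by
      have : (1 : ℝ) * 1 * R ≤ (CL + 1) * Cτ ^ 2 * R := by gcongr; linarith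
      linarith
    have s3 : Cτ ^ 2 * R ≤ (CL + 1) * Cτ ^ 2 * R := by
      have : (1 : ℝ) * Cτ ^ 2 * R ≤ (CL + 1) * Cτ ^ 2 * R := by gcongr; linarith
      linarith
    have s4 : 0 ≤ Cτ * Q ^ 4 * y0 * H0 ^ (3 * κ) * U := by positivity
    calc P * ∫ t : ℝ, (1 + t ^ 2)⁻¹ * F t ≤ P * (4 * (A1 + A3) + 8 * (A2 / G0)) := by gcongr
      _ = 4 * (P * A1) + 4 * (P * A3) + 8 * (P * (A2 / G0)) := by ring
      _ ≤ 4 * (1000000000 * CL * R) +
          4 * (8388608 * Cτ * Q ^ 4 * y0 * H0 ^ (3 * κ) * U + 67108864 * Cτ ^ 2 * R) +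
          8 * (67108864 * R) := by gcongr
      _ ≤ 10000000000 * ((CL + 1) * Cτ ^ 2 * R) +
          10000000000 * (Cτ * Q ^ 4 * y0 * H0 ^ (3 * κ) * U) := by
          linarith
      _ = _ := by rw [hR]; ring
  · rw [if_neg hdf, add_zero]
    have hdf' := (not_le.mp hdf).le
    have hint := int_le (A := A1 + A2) (B := 0) (T0 := 1) hF0 (by positivity) le_rfl one_pos
      (fun t _ => hF2 t) (fun t => (hF2 t).trans (by linarith))
    rw [zero_div, mul_zero, add_zero] at hint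
    have hKD : K0 * D ≤ 2 * h := by
      have h1 : ((nm d : ℝ) * nm f) ^ (-(2 : ℝ) / 3) ≤ H0 ^ (-(2 * κ)) := by
        calc ((nm d : ℝ) * nm f) ^ (-(2 : ℝ) / 3) ≤ (H0 ^ (3 * κ)) ^ (-(2 : ℝ) / 3) := by
              apply Real.rpow_le_rpow_of_nonpos (by positivity) hdf' (by norm_num)
          _ = H0 ^ (-(2 * κ)) := by
              rw [← Real.rpow_mul hH0.le]; congr 1; ring
      have h2 : K0 * H0 ^ (-(2 * κ)) ≤ h := by
        rw [hK0, ← Real.rpow_add hH0]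
        exact Real.rpow_le_rpow_of_exponent_le hH.le (by linarith)
      have h3 : K0 * H0 ^ (-(0.05 : ℝ)) ≤ h := by
        rw [hK0, ← Real.rpow_add hH0]
        exact Real.rpow_le_rpow_of_exponent_le hH.le (by norm_num; linarith)
      calc K0 * D ≤ K0 * (H0 ^ (-(2 * κ)) + H0 ^ (-(0.05 : ℝ))) := by
            rw [hD]; gcongr
        _ = K0 * H0 ^ (-(2 * κ)) + K0 * H0 ^ (-(0.05 : ℝ)) := by ring
        _ ≤ h + h := add_le_add h2 h3
        _ = 2 * h := by ring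
    have r2 : P * A2 ≤ 67108864 * R := by
      calc P * A2 ≤ 33554432 * Q ^ 3 * y0 * (K0 * D) * W := q2'
        _ ≤ 33554432 * Q ^ 6 * y0 * (2 * h) * W := by gcongr
        _ = _ := by rw [hR]; ring
    have s1 : CL * R ≤ (CL + 1) * Cτ ^ 2 * R := by
      have : CL * 1 * R ≤ (CL + 1) * Cτ ^ 2 * R := by gcongr; linarith
      linarith
    have s2 : R ≤ (CL + 1) * Cτ ^ 2 * R := by
      have : (1 : ℝ) * 1 * R ≤ (CL + 1) * Cτ ^ 2 * R := by gcongr; linarith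
      linarith
    calc P * ∫ t : ℝ, (1 + t ^ 2)⁻¹ * F t ≤ P * (4 * (A1 + A2)) := by gcongr
      _ = 4 * (P * A1) + 4 * (P * A2) := by ring
      _ ≤ 4 * (1000000000 * CL * R) + 4 * (67108864 * R) := by gcongr
      _ ≤ 10000000000 * ((CL + 1) * Cτ ^ 2 * R) := by linarith
      _ = _ := by rw [hR]; ring

end Crest.Agent.R012.CR2
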