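import Mathlib
import Crest.Agent.R012.CR2f_180

/-!
# Row 12 (CR2), part h: real arithmetic for the assembly
-/

set_option autoImplicit false
set_option linter.unusedVariables false
set_option linter.unusedSimpArgs false

noncomputable section

namespace Crest.Agent.R012.CR2

set_option maxHeartbeats 1000000 in
/-- the structured error is small -/
lemma U_arith {H Z κ A0 δ₁ K₁ KT Cτ : ℝ} (hH : 1 < H) (hZ0 : 0 < Z) (hZ2 : Z ≤ H ^ (1.85 : ℝ))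
    (hκ0 : 0 < κ) (hA0 : 0 ≤ A0) (hA : 100 * (A0 + 1) * κ ≤ 1 / 100)
    (hδ : 100 * (A0 + 1) * κ ≤ δ₁) (hK₁ : 0 < K₁) (hKT : 0 < KT) (hCτ : 1 ≤ Cτ) :
    (H ^ (3 * κ)) ^ 3 * (H ^ (κ / 100)) ^ 4 * H ^ (3 * κ) *
      ((Cτ * H ^ (κ / 100)) ^ 2 * (H ^ (38 * κ) * H ^ (2 * (κ / 1000) - 1) *
        (2 * (KT * (H ^ (38 * κ) * (1 + H ^ (2 * κ))) ^ A0 * H ^ ((5 : ℝ) / 6) *
          (K₁ * Z ^ ((5 : ℝ) / 6) * H ^ (-δ₁))) ^ 2 +
        2 * (K₁ * Z * (KT * (H ^ (38 * κ) * (1 + H ^ (2 * κ))) ^ A0 *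
          (Z * H) ^ (1 + κ / 1000)))))) ≤
      Cτ ^ 2 * (2 * (KT * K₁ * (2 : ℝ) ^ A0) ^ 2 + 2 * (KT * K₁ * (2 : ℝ) ^ A0)) *
        ((H * Z) ^ ((2 : ℝ) / 3) * Z * H ^ (-κ / 5)) := by
  have hH0 : 0 < H := by linarith
  have hAκ : 0 ≤ A0 * κ := by positivity
  have hB : (H ^ (38 * κ) * (1 + H ^ (2 * κ))) ^ A0 ≤ (2 : ℝ) ^ A0 * H ^ (40 * κ * A0) := by
    have h1 : 1 ≤ H ^ (2 * κ) := Real.one_le_rpow hH.le (by positivity)
    calc (H ^ (38 * κ) * (1 + H ^ (2 * κ))) ^ A0 ≤ (2 * H ^ (40 * κ)) ^ A0 := by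
          apply Real.rpow_le_rpow (by positivity) _ hA0
          calc H ^ (38 * κ) * (1 + H ^ (2 * κ)) ≤ H ^ (38 * κ) * (2 * H ^ (2 * κ)) := by
                gcongr; linarith
            _ = 2 * (H ^ (38 * κ) * H ^ (2 * κ)) := by ring
            _ = 2 * H ^ (40 * κ) := by
                rw [← Real.rpow_add hH0]; congr 2; ring
      _ = (2 : ℝ) ^ A0 * H ^ (40 * κ * A0) := by
          rw [Real.mul_rpow (by norm_num) (by positivity), ← Real.rpow_mul hH0.le]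
  set B : ℝ := (H ^ (38 * κ) * (1 + H ^ (2 * κ))) ^ A0 with hBd
  have hB0 : 0 ≤ B := by positivity
  set T : ℝ := (2 : ℝ) ^ A0 with hT
  have hT0 : 0 ≤ T := by positivity
  obtain ⟨z, rfl⟩ := exp_form hH hZ0
  have hz := (Real.rpow_le_rpow_left_iff hH).mp hZ2
  have pw : ∀ (a : ℝ) (n : ℕ), (H ^ a) ^ n = H ^ (a * n) := by
    intro a n
    rw [← Real.rpow_natCast, ← Real.rpow_mul hH0.le]
  have e1 : H * H ^ z = H ^ (1 + z) := by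
    rw [Real.rpow_add hH0, Real.rpow_one]
  have e2 : H ^ z * H = H ^ (1 + z) := by rw [mul_comm, e1]
  rw [e1, e2, ← Real.rpow_mul hH0.le, ← Real.rpow_mul hH0.le, ← Real.rpow_mul hH0.le]
  have t1 : (KT * B * H ^ ((5 : ℝ) / 6) * (K₁ * H ^ (z * (5 / 6)) * H ^ (-δ₁))) ^ 2 ≤
      (KT * K₁ * T) ^ 2 * H ^ (80 * κ * A0 + 5 / 3 + z * (5 / 3) - 2 * δ₁) := by
    calc (KT * B * H ^ ((5 : ℝ) / 6) * (K₁ * H ^ (z * (5 / 6)) * H ^ (-δ₁))) ^ 2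
        ≤ (KT * (T * H ^ (40 * κ * A0)) * H ^ ((5 : ℝ) / 6) *
            (K₁ * H ^ (z * (5 / 6)) * H ^ (-δ₁))) ^ 2 := by gcongr
      _ = (KT * K₁ * T) ^ 2 * (H ^ (40 * κ * A0) * H ^ ((5 : ℝ) / 6) * H ^ (z * (5 / 6)) *
            H ^ (-δ₁)) ^ 2 := by ring
      _ = _ := by
          rw [← Real.rpow_add hH0, ← Real.rpow_add hH0, ← Real.rpow_add hH0, pw]
          congr 2
          push_cast; ring
  have t2 : K₁ * H ^ z * (KT * B * H ^ ((1 + z) * (1 + κ / 1000))) ≤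
      (KT * K₁ * T) * H ^ (40 * κ * A0 + z + (1 + z) * (1 + κ / 1000)) := by
    calc K₁ * H ^ z * (KT * B * H ^ ((1 + z) * (1 + κ / 1000)))
        ≤ K₁ * H ^ z * (KT * (T * H ^ (40 * κ * A0)) * H ^ ((1 + z) * (1 + κ / 1000))) := by
          gcongr
      _ = (KT * K₁ * T) * (H ^ (40 * κ * A0) * H ^ z * H ^ ((1 + z) * (1 + κ / 1000))) := by ring
      _ = _ := by
          rw [← Real.rpow_add hH0, ← Real.rpow_add hH0]
  have hpre : (H ^ (3 * κ)) ^ 3 * (H ^ (κ / 100)) ^ 4 * H ^ (3 * κ) * (H ^ (κ / 100)) ^ 2 *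
      (H ^ (38 * κ) * H ^ (2 * (κ / 1000) - 1)) = H ^ (50 * κ + 62 * κ / 1000 - 1) := by
    rw [pw, pw, pw, ← Real.rpow_add hH0, ← Real.rpow_add hH0, ← Real.rpow_add hH0,
      ← Real.rpow_add hH0, ← Real.rpow_add hH0]
    congr 1
    push_cast; ring
  have r1 : H ^ (50 * κ + 62 * κ / 1000 - 1) *
      H ^ (80 * κ * A0 + 5 / 3 + z * (5 / 3) - 2 * δ₁) ≤
      H ^ ((1 + z) * (2 / 3)) * H ^ z * H ^ (-κ / 5) := by
    rw [← Real.rpow_add hH0, ← Real.rpow_add hH0, ← Real.rpow_add hH0]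
    apply Real.rpow_le_rpow_of_exponent_le hH.le
    nlinarith
  have r2 : H ^ (50 * κ + 62 * κ / 1000 - 1) *
      H ^ (40 * κ * A0 + z + (1 + z) * (1 + κ / 1000)) ≤
      H ^ ((1 + z) * (2 / 3)) * H ^ z * H ^ (-κ / 5) := by
    rw [← Real.rpow_add hH0, ← Real.rpow_add hH0, ← Real.rpow_add hH0]
    apply Real.rpow_le_rpow_of_exponent_le hH.le
    have : z * κ ≤ 1.85 * κ := by gcongr
    nlinarith
  set Y : ℝ := H ^ ((1 + z) * (2 / 3)) * H ^ z * H ^ (-κ / 5) with hY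
  set pre : ℝ := H ^ (50 * κ + 62 * κ / 1000 - 1) with hpred
  have hpre0 : 0 ≤ pre := by positivity
  calc _ = Cτ ^ 2 * (((H ^ (3 * κ)) ^ 3 * (H ^ (κ / 100)) ^ 4 * H ^ (3 * κ) *
        (H ^ (κ / 100)) ^ 2 * (H ^ (38 * κ) * H ^ (2 * (κ / 1000) - 1))) *
        (2 * (KT * B * H ^ ((5 : ℝ) / 6) * (K₁ * H ^ (z * (5 / 6)) * H ^ (-δ₁))) ^ 2 +
          2 * (K₁ * H ^ z * (KT * B * H ^ ((1 + z) * (1 + κ / 1000)))))) := by ring
    _ = Cτ ^ 2 * (pre *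
        (2 * (KT * B * H ^ ((5 : ℝ) / 6) * (K₁ * H ^ (z * (5 / 6)) * H ^ (-δ₁))) ^ 2 +
          2 * (K₁ * H ^ z * (KT * B * H ^ ((1 + z) * (1 + κ / 1000)))))) := by rw [hpre]
    _ ≤ Cτ ^ 2 * (pre *
        (2 * ((KT * K₁ * T) ^ 2 * H ^ (80 * κ * A0 + 5 / 3 + z * (5 / 3) - 2 * δ₁)) +
          2 * ((KT * K₁ * T) * H ^ (40 * κ * A0 + z + (1 + z) * (1 + κ / 1000))))) := by
        gcongr
    _ = Cτ ^ 2 * (2 * (KT * K₁ * T) ^ 2 *
        (pre * H ^ (80 * κ * A0 + 5 / 3 + z * (5 / 3) - 2 * δ₁)) +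
          2 * (KT * K₁ * T) * (pre * H ^ (40 * κ * A0 + z + (1 + z) * (1 + κ / 1000)))) := by
        ring
    _ ≤ Cτ ^ 2 * (2 * (KT * K₁ * T) ^ 2 * Y + 2 * (KT * K₁ * T) * Y) := by
        gcongr
    _ = _ := by rw [hY]; ring

/-- the quadratic inequality -/
lemma quad_ineq {s Y C h : ℝ} (hs : 0 ≤ s) (hY : 0 < Y) (hC : 0 ≤ C) (hh : 0 < h) (hh1 : h ≤ 1)
    (hq : s ^ 2 ≤ C * h ^ 2 * (Y * s + Y ^ 2)) : s ≤ (C + 1) * h * Y := by
  by_contra hcon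
  have hcon := not_le.mp hcon
  have h1 : 0 < (C + 1) * h * Y := by positivity
  have h2 : ((C + 1) * h * Y) * s < s * s := by
    have : 0 < s := h1.trans hcon
    exact mul_lt_mul_of_pos_right hcon this
  have h3 : C * h ^ 2 * (Y * s) ≤ C * h * Y * s := by
    have : h ^ 2 ≤ h := by nlinarith
    calc C * h ^ 2 * (Y * s) ≤ C * h * (Y * s) := by gcongr
      _ = _ := by ring
  have h4 : C * h ^ 2 * Y ^ 2 ≤ h * Y * s := by
    have h5 : h * Y * ((C + 1) * h * Y) ≤ h * Y * s := by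
      have : 0 ≤ h * Y := by positivity
      exact mul_le_mul_of_nonneg_left hcon.le this
    have h6 : 0 ≤ h ^ 2 * Y ^ 2 := by positivity
    nlinarith
  nlinarith

end Crest.Agent.R012.CR2
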