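import Crest.Agent.R012.CR2g_180
import Crest.Agent.R012.CR2h_180
import Crest.Agent.R012.CR2e_286

/-!
# Row 12 (CR2), part i: the proof of `CoreB`
-/

set_option autoImplicit false
set_option linter.unusedVariables false
set_option linter.unusedSimpArgs false
set_option linter.unusedSectionVars false

noncomputable section

namespace Crest.Agent.R012.CR2

open Eis LS2 Mob705 Finset CharSum852 Tau671 MeasureTheory

local notation "cj" => starRingEnd ℂ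

/-- counting the triples -/
lemma sum_ind_le {X D0 Λ : ℝ} (hX : 0 ≤ X) (hD0 : 0 ≤ D0) (hΛ : 0 ≤ Λ) : (open Classical in
    ∑ d ∈ S X, ∑ e ∈ (S X).filter (· ∣ d), ∑ f ∈ S X,
      (if (nm d : ℝ) * nm f ≤ D0 then Λ else 0)) ≤ (16 * D0) ^ 3 * Λ := by
  classical
  have hS : (((S X).filter (fun f => (nm f : ℝ) ≤ D0)).card : ℝ) ≤ 16 * D0 := by
    refine le_trans ?_ (card_bl_le hD0)
    have : (S X).filter (fun f => (nm f : ℝ) ≤ D0) ⊆ bl D0 := by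
      intro n hn
      rw [Finset.mem_filter] at hn
      rw [mem_bl hD0]
      exact ⟨(S_prim hX hn.1).ne_zero, hn.2⟩
    exact_mod_cast Finset.card_le_card this
  have h1 : ∀ d ∈ S X, ∑ f ∈ S X, (if (nm d : ℝ) * nm f ≤ D0 then Λ else 0) ≤
      if (nm d : ℝ) ≤ D0 then 16 * D0 * Λ else 0 := by
    intro d hd
    have hd1 : (1 : ℝ) ≤ nm d := by exact_mod_cast nm_pos.mpr (S_prim hX hd).ne_zero
    split_ifs with hdD
    · calc ∑ f ∈ S X, (if (nm d : ℝ) * nm f ≤ D0 then Λ else 0)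
          ≤ ∑ f ∈ S X, (if (nm f : ℝ) ≤ D0 then Λ else 0) := by
            refine Finset.sum_le_sum fun f hf => ?_
            by_cases h2 : (nm d : ℝ) * nm f ≤ D0
            · rw [if_pos h2, if_pos]
              have : (0 : ℝ) ≤ nm f := by positivity
              nlinarith
            · rw [if_neg h2]
              split_ifs
              · exact hΛ
              · exact le_rfl
        _ = (((S X).filter (fun f => (nm f : ℝ) ≤ D0)).card : ℝ) * Λ := by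
            rw [← Finset.sum_filter, Finset.sum_const, nsmul_eq_mul]
        _ ≤ 16 * D0 * Λ := by gcongr
    · apply le_of_eq
      apply Finset.sum_eq_zero
      intro f hf
      have hf1 : (1 : ℝ) ≤ nm f := by exact_mod_cast nm_pos.mpr (S_prim hX hf).ne_zero
      rw [if_neg]
      intro h2
      apply hdD
      nlinarith
  have h2 : ∀ d ∈ S X, ∑ e ∈ (S X).filter (· ∣ d), ∑ f ∈ S X,
      (if (nm d : ℝ) * nm f ≤ D0 then Λ else 0) ≤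
      if (nm d : ℝ) ≤ D0 then 16 * D0 * (16 * D0 * Λ) else 0 := by
    intro d hd
    refine (Finset.sum_le_sum fun e _ => h1 d hd).trans ?_
    split_ifs with hdD
    · rw [Finset.sum_const, nsmul_eq_mul]
      have : (S X).filter (· ∣ d) ⊆ (S X).filter (fun f => (nm f : ℝ) ≤ D0) := by
        intro e he
        rw [Finset.mem_filter] at he ⊢
        refine ⟨he.1, le_trans ?_ hdD⟩
        exact_mod_cast LS448.nm_le_of_dvd he.2 (S_prim hX hd).ne_zero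
      have h3 : (((S X).filter (· ∣ d)).card : ℝ) ≤ 16 * D0 :=
        le_trans (by exact_mod_cast Finset.card_le_card this) hS
      gcongr
    · simp
  calc _ ≤ ∑ d ∈ S X, (if (nm d : ℝ) ≤ D0 then 16 * D0 * (16 * D0 * Λ) else 0) :=
        Finset.sum_le_sum h2
    _ = (((S X).filter (fun f => (nm f : ℝ) ≤ D0)).card : ℝ) * (16 * D0 * (16 * D0 * Λ)) := by
        rw [← Finset.sum_filter, Finset.sum_const, nsmul_eq_mul]
    _ ≤ 16 * D0 * (16 * D0 * (16 * D0 * Λ)) := by gcongr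
    _ = _ := by ring

/-- the small range of `H` -/
lemma small_H (Hs : SyFacts) {κ K₁ H0 Z : ℝ} (hκ0 : 0 < κ) (hK₁ : 0 < K₁) (hH : 1 ≤ H0)
    (hZ1 : H0 ^ (1.05 : ℝ) ≤ Z) (hZ2 : Z ≤ H0 ^ (1.85 : ℝ)) (h9 : H0 ^ κ < 9) {b : Eis → ℂ}
    (hb : ∑ n ∈ S Z, ‖b n‖ ^ 2 ≤ K₁ * Z) :
    ∑ h ∈ (S (2 * H0)).filter (fun h => H0 < nm h), ‖Eb b Z h‖ ^ 2 ≤
      (9 * 512 * K₁ * (9 : ℝ) ^ (2.85 / κ)) * H0 ^ (-(κ / 10)) * (H0 * Z) ^ ((2 : ℝ) / 3) * Z := by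
  have hH0 : 0 < H0 := by linarith
  have hZ : 1 ≤ Z := le_trans (Real.one_le_rpow hH (by norm_num)) hZ1
  have h1 := coreB_small Hs H0 Z K₁ hH hZ b hb
  refine h1.trans ?_
  have h2 : H0 * Z ≤ (9 : ℝ) ^ (2.85 / κ) := by
    calc H0 * Z ≤ H0 * H0 ^ (1.85 : ℝ) := by gcongr
      _ = (H0 ^ κ) ^ (2.85 / κ) := by
          rw [← Real.rpow_mul hH0.le, mul_div_cancel₀ _ hκ0.ne']
          nth_rewrite 1 [← Real.rpow_one H0]
          rw [← Real.rpow_add hH0]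
          norm_num
      _ ≤ (9 : ℝ) ^ (2.85 / κ) := by
          apply Real.rpow_le_rpow (by positivity) h9.le (by positivity)
  have h3 : 1 ≤ 9 * H0 ^ (-(κ / 10)) := by
    have e1 : H0 ^ (-(κ / 10)) = ((H0 ^ κ) ^ ((1 : ℝ) / 10))⁻¹ := by
      rw [Real.rpow_neg hH0.le, ← Real.rpow_mul hH0.le]
      congr 2; ring
    have h4 : (H0 ^ κ) ^ ((1 : ℝ) / 10) ≤ 9 := by
      calc (H0 ^ κ) ^ ((1 : ℝ) / 10) ≤ (9 : ℝ) ^ ((1 : ℝ) / 10) := by
            apply Real.rpow_le_rpow (by positivity) h9.le (by norm_num)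
        _ ≤ (9 : ℝ) ^ (1 : ℝ) := Real.rpow_le_rpow_of_exponent_le (by norm_num) (by norm_num)
        _ = 9 := Real.rpow_one 9
    have h5 : 0 < (H0 ^ κ) ^ ((1 : ℝ) / 10) := by positivity
    rw [e1, ← div_eq_mul_inv, one_le_div h5]
    exact h4
  have h5 : 1 ≤ (H0 * Z) ^ ((2 : ℝ) / 3) := Real.one_le_rpow (by nlinarith) (by norm_num)
  have hZ0 : 0 < Z := by linarith
  calc 512 * K₁ * H0 * Z ^ 2 = 512 * K₁ * (H0 * Z) * Z * 1 * 1 := by ring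
    _ ≤ 512 * K₁ * ((9 : ℝ) ^ (2.85 / κ)) * Z * (9 * H0 ^ (-(κ / 10))) *
        (H0 * Z) ^ ((2 : ℝ) / 3) := by gcongr
    _ = _ := by ring

set_option maxHeartbeats 4000000 in
/-- **the main range** -/
lemma main_H (Hs : SyFacts) (hG : GFacts) {V : ℝ → ℝ} (hV0 : ∀ x, 0 ≤ V x) (hV1 : ∀ x, V x ≤ 1)
    (hVs : ∀ x, 1 ≤ x → x ≤ 2 → V x = 1) (hVz : ∀ x, x < 1 / 2 → V x = 0)
    (hV : ∀ x, 4 < x → V x = 0) {A0 δ₁ κ K₁ KT CL CD Cτ : ℝ} (hA0 : 0 ≤ A0) (hδ₁ : 0 < δ₁)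
    (hκ0 : 0 < κ) (hA : 100 * (A0 + 1) * κ ≤ 1 / 100) (hAδ : 100 * (A0 + 1) * κ ≤ δ₁)
    (hK₁ : 0 < K₁) (hKT : 0 < KT) (hCL : 0 < CL) (hCD : 0 < CD) (hCτ : 1 ≤ Cτ)
    (hT : (open Classical in ∀ r : Eis, r ≠ 0 → ∀ X Z t : ℝ, 1 ≤ X → 1 ≤ Z → Z ≤ X ^ 2 → ∃ c : ℂ,
      ‖c‖ ≤ KT * (nm r * (1 + |t|)) ^ A0 * X ^ ((5 : ℝ) / 6) ∧
      ∑ n ∈ (S Z).filter (fun n => IsCoprime n r),
        ‖NatS V (n * r) X t - c * Mn r n‖ ^ 2 ≤
        KT * (nm r * (1 + |t|)) ^ A0 * (Z * X) ^ (1 + κ / 1000)))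
    (hD : ∀ X Z : ℝ, 1 ≤ X → 1 ≤ Z → ∀ w : Eis → ℂ, (∀ h, w h ≠ 0 → h ∈ S X) →
      ∑' n : Eis, Real.exp (-(nm n : ℝ) / Z) * ‖∑ h ∈ S X, w h * sy n h‖ ^ 2 ≤
      CD * Z * ∑ h ∈ S X, ‖w h‖ ^ 2 +
      CD * ∑ d ∈ S X, ∑ e ∈ (open Classical in (S X).filter (· ∣ d)), ∑ f ∈ S X,
        Trip w X Z (κ / 1000) d e f)
    (hL : LargeI CL κ)
    (hτ : ∀ n : Eis, n ≠ 0 → ((pdiv n).card : ℝ) ≤ Cτ / 8 * (nm n : ℝ) ^ (κ / 1000))
    {H0 Z : ℝ} (hH : 1 < H0) (h9 : 9 ≤ H0 ^ κ)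
    (hZ1 : H0 ^ (1.05 : ℝ) ≤ Z) (hZ2 : Z ≤ H0 ^ (1.85 : ℝ)) {b : Eis → ℂ}
    (hb : ∑ n ∈ S Z, ‖b n‖ ^ 2 ≤ K₁ * Z)
    (hcop : ∀ n ∈ S Z, b n ≠ 0 → ∀ r : Eis, r ≠ 0 → (nm r : ℝ) ≤ H0 ^ (38 * κ) → IsCoprime n r)
    (hBil : ∀ r : Eis, r ≠ 0 → (nm r : ℝ) ≤ H0 ^ (38 * κ) →
      ‖∑ n ∈ S Z, cj (b n) * Mn r n‖ ≤ K₁ * Z ^ ((5 : ℝ) / 6) * H0 ^ (-δ₁)) :
    ∑ h ∈ (S (2 * H0)).filter (fun h => H0 < nm h), ‖Eb b Z h‖ ^ 2 ≤
      (K₁ * Real.exp 1 * CD * (2 + 20000000000 * (CL + 1) * Cτ ^ 5 + 50000000000000 * Cτ *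
        (Cτ ^ 2 * (2 * (KT * K₁ * (2 : ℝ) ^ A0) ^ 2 + 2 * (KT * K₁ * (2 : ℝ) ^ A0)))) + 1) *
      H0 ^ (-(κ / 10)) * ((H0 * Z) ^ ((2 : ℝ) / 3) * Z) := by
  classical
  have hκ : κ ≤ 1 / 10000 := by nlinarith
  have hH0 : 0 < H0 := by linarith
  have hZ : 1 ≤ Z := le_trans (Real.one_le_rpow hH.le (by norm_num)) hZ1
  have hZ0 : 0 < Z := by linarith
  have hσ0 : 0 ≤ κ / 1000 := by positivity
  have hσ1 : κ / 1000 ≤ 1 / 2 := by linarith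
  have hCτ0 : 0 ≤ Cτ := by linarith
  obtain ⟨c1, c2, c3⟩ := cs_setup Hs hV0 hV1 hVs (b := b) (H0 := H0) (Z := Z) (s := κ / 1000)
    hH.le hZ hσ0 hσ1
  have hSV0 := SV_nonneg hV0 b hH0.le Z (κ / 1000)
  set w : Eis → ℂ := wS V b H0 Z (κ / 1000) with hw
  have hwS : ∀ h, w h ≠ 0 → h ∈ S (4 * H0) := by
    intro h hne
    by_contra hc
    apply hne
    rw [hw]; unfold wS
    rw [if_neg hc]
  have hw2 : ∀ h, w h ≠ 0 → H0 / 2 ≤ nm h := by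
    intro h hne
    by_contra hc
    apply hne
    rw [hw]; unfold wS
    have : (nm h : ℝ) / H0 < 1 / 2 := by
      rw [div_lt_iff₀ hH0]
      linarith [not_le.mp hc]
    rw [hVz _ this]
    simp
  -- the divisor bound
  set Q : ℝ := H0 ^ (κ / 100) with hQ
  have hQ1 : 1 ≤ Q := Real.one_le_rpow hH.le (by positivity)
  set τ : ℝ := Cτ * Q with hτd
  have hτ0 : 0 ≤ τ := by positivity
  have hτb : ∀ m ∈ bl (8 * H0), ((pdiv m).card : ℝ) ≤ τ := by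
    intro m hm
    rw [mem_bl (by positivity)] at hm
    refine (hτ m hm.1).trans ?_
    have h1 : (nm m : ℝ) ^ (κ / 1000) ≤ 8 * Q := by
      calc (nm m : ℝ) ^ (κ / 1000) ≤ (8 * H0) ^ (κ / 1000) := by
            apply Real.rpow_le_rpow (by positivity) hm.2 hσ0
        _ = 8 ^ (κ / 1000) * H0 ^ (κ / 1000) := Real.mul_rpow (by norm_num) hH0.le
        _ ≤ 8 * Q := by
            have h8 : (8 : ℝ) ^ (κ / 1000) ≤ 8 := by
              calc (8 : ℝ) ^ (κ / 1000) ≤ (8 : ℝ) ^ (1 : ℝ) :=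
                    Real.rpow_le_rpow_of_exponent_le (by norm_num) (by linarith)
                _ = 8 := Real.rpow_one 8
            refine mul_le_mul h8 (Real.rpow_le_rpow_of_exponent_le hH.le (by linarith))
              (by positivity) (by norm_num)
    calc Cτ / 8 * (nm m : ℝ) ^ (κ / 1000) ≤ Cτ / 8 * (8 * Q) := by gcongr
      _ = τ := by rw [hτd]; ring
  have hτS : ∀ m ∈ S (4 * H0), ((pdiv m).card : ℝ) ≤ τ := by
    intro m hm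
    apply hτb
    rw [mem_bl (by positivity)]
    exact ⟨(S_prim (by positivity) hm).ne_zero, (S_le (by positivity) hm).trans (by linarith)⟩
  -- parameters
  have hD1 : 1 ≤ H0 ^ (3 * κ) := Real.one_le_rpow hH.le (by positivity)
  have hG1 : 1 ≤ H0 ^ (2 * κ) := Real.one_le_rpow hH.le (by positivity)
  have hK1 : 1 ≤ H0 ^ κ := Real.one_le_rpow hH.le (by positivity)
  have pw : ∀ (a : ℝ) (n : ℕ), (H0 ^ a) ^ n = H0 ^ (a * n) := by
    intro a n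
    rw [← Real.rpow_natCast, ← Real.rpow_mul hH0.le]
  have hR0 : 9 * (H0 ^ (3 * κ)) ^ 10 * (H0 ^ (2 * κ)) ^ 3 * H0 ^ κ ≤ H0 ^ (38 * κ) := by
    calc 9 * (H0 ^ (3 * κ)) ^ 10 * (H0 ^ (2 * κ)) ^ 3 * H0 ^ κ
        ≤ H0 ^ κ * (H0 ^ (3 * κ)) ^ 10 * (H0 ^ (2 * κ)) ^ 3 * H0 ^ κ := by gcongr
      _ = H0 ^ (38 * κ) := by
          rw [pw, pw, ← Real.rpow_add hH0, ← Real.rpow_add hH0, ← Real.rpow_add hH0]
          congr 1; push_cast; ring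
  have hR1 : H0 ^ (38 * κ) ≤ H0 := by
    calc H0 ^ (38 * κ) ≤ H0 ^ (1 : ℝ) := Real.rpow_le_rpow_of_exponent_le hH.le (by linarith)
      _ = H0 := Real.rpow_one H0
  have hZR : Z ≤ (H0 / H0 ^ (38 * κ)) ^ 2 := by
    refine hZ2.trans ?_
    have e1 : H0 / H0 ^ (38 * κ) = H0 ^ (1 - 38 * κ) := by
      rw [Real.rpow_sub hH0, Real.rpow_one]
    rw [e1, pw]
    apply Real.rpow_le_rpow_of_exponent_le hH.le
    push_cast; linarith
  set c0 : ℝ := KT * (H0 ^ (38 * κ) * (1 + H0 ^ (2 * κ))) ^ A0 * H0 ^ ((5 : ℝ) / 6) with hc0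
  set Er : ℝ := KT * (H0 ^ (38 * κ) * (1 + H0 ^ (2 * κ))) ^ A0 * (Z * H0) ^ (1 + κ / 1000) with hEr
  set Bl : ℝ := K₁ * Z ^ ((5 : ℝ) / 6) * H0 ^ (-δ₁) with hBl
  have hEr0 : 0 ≤ Er := by positivity
  have hTI : ∀ ρ : Eis, ρ ≠ 0 → (nm ρ : ℝ) ≤ H0 ^ (38 * κ) → ∀ X1 : ℝ, 1 ≤ X1 → X1 ≤ H0 →
      Z ≤ X1 ^ 2 → ∀ t : ℝ, |t| ≤ H0 ^ (2 * κ) → ∃ c : ℂ, ‖c‖ ≤ c0 ∧
        ∑ n ∈ (S Z).filter (fun n => IsCoprime n ρ), ‖NatS V (n * ρ) X1 t - c * Mn ρ n‖ ^ 2 ≤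
        Er := by
    intro ρ hρ hρR X1 hX1 hX1H hZX t ht
    obtain ⟨c, hc, hs⟩ := hT ρ hρ X1 Z t hX1 hZ hZX
    have h1 : ((nm ρ : ℝ) * (1 + |t|)) ^ A0 ≤ (H0 ^ (38 * κ) * (1 + H0 ^ (2 * κ))) ^ A0 := by
      apply Real.rpow_le_rpow (by positivity) _ hA0
      gcongr
    refine ⟨c, hc.trans ?_, hs.trans ?_⟩
    · rw [hc0]
      have h2 : X1 ^ ((5 : ℝ) / 6) ≤ H0 ^ ((5 : ℝ) / 6) :=
        Real.rpow_le_rpow (by linarith) hX1H (by norm_num)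
      gcongr
    · rw [hEr]
      have h2 : (Z * X1) ^ (1 + κ / 1000) ≤ (Z * H0) ^ (1 + κ / 1000) := by
        apply Real.rpow_le_rpow (by positivity) _ (by positivity)
        gcongr
      gcongr
  set U : ℝ := τ ^ 2 * (H0 ^ (38 * κ) * H0 ^ (2 * (κ / 1000) - 1) *
    (2 * (c0 * Bl) ^ 2 + 2 * (K₁ * Z * Er))) with hU
  have hU0 : 0 ≤ U := by positivity
  set y0 : ℝ := (H0 * Z) ^ ((2 : ℝ) / 3) with hy0
  have hy00 : 0 < y0 := by positivity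
  set h3 : ℝ := H0 ^ (-κ / 3) with hh3
  have hh30 : 0 < h3 := by positivity
  set C1 : ℝ := 10000000000 * (CL + 1) * Cτ ^ 2 with hC1
  have hC10 : 0 ≤ C1 := by positivity
  -- the bound for each triple
  have htrip : ∀ d ∈ S (4 * H0), ∀ e ∈ (S (4 * H0)).filter (· ∣ d), ∀ f ∈ S (4 * H0),
      Trip w (4 * H0) Z (κ / 1000) d e f ≤
        C1 * Q ^ 6 * y0 * h3 * Wd w (4 * H0) d f +
        (if (nm d : ℝ) * nm f ≤ H0 ^ (3 * κ) then
          10000000000 * Cτ * Q ^ 4 * y0 * H0 ^ (3 * κ) * U else 0) := by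
    intro d hd e he f hf
    rw [Finset.mem_filter] at he
    have h4 : (0 : ℝ) ≤ 4 * H0 := by positivity
    have hdp := S_prim h4 hd
    have hep := S_prim h4 he.1
    have hfp := S_prim h4 hf
    have := triple_bound Hs hG hκ0 hκ hCL hCτ hL hH hZ1 hZ2 hwS hw2 hτ0 (le_refl τ) hτb hdp hep hfp
      he.2 (S_le h4 hd) (S_le h4 hf) hU0 (fun hdf t ht =>
        Bg_bound Hs hG hV hH.le hZ hσ0 hσ1 hD1 hG1 hK1 hR0 hR1 hZR hTI hcop hBil hb hEr0 hdp hep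
          he.2 hfp hdf (hτS d hd) ht)
    convert this using 2
  have hWsum := sum_def (w := w) (X := 4 * H0) (τ := τ) (by positivity) hτ0 hwS hτS
  have hsum : ∑ d ∈ S (4 * H0), ∑ e ∈ (S (4 * H0)).filter (· ∣ d), ∑ f ∈ S (4 * H0),
      Trip w (4 * H0) Z (κ / 1000) d e f ≤
      C1 * Q ^ 6 * y0 * h3 * (τ ^ 3 * (2 * SV V b H0 Z (κ / 1000))) +
      (16 * H0 ^ (3 * κ)) ^ 3 * (10000000000 * Cτ * Q ^ 4 * y0 * H0 ^ (3 * κ) * U) := by
    calc _ ≤ ∑ d ∈ S (4 * H0), ∑ e ∈ (S (4 * H0)).filter (· ∣ d), ∑ f ∈ S (4 * H0),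
          (C1 * Q ^ 6 * y0 * h3 * Wd w (4 * H0) d f +
          (if (nm d : ℝ) * nm f ≤ H0 ^ (3 * κ) then
            10000000000 * Cτ * Q ^ 4 * y0 * H0 ^ (3 * κ) * U else 0)) := by
          refine Finset.sum_le_sum fun d hd => Finset.sum_le_sum fun e he =>
            Finset.sum_le_sum fun f hf => htrip d hd e he f hf
      _ = C1 * Q ^ 6 * y0 * h3 * (∑ d ∈ S (4 * H0), ∑ e ∈ (S (4 * H0)).filter (· ∣ d),
            ∑ f ∈ S (4 * H0), Wd w (4 * H0) d f) +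
          ∑ d ∈ S (4 * H0), ∑ e ∈ (S (4 * H0)).filter (· ∣ d), ∑ f ∈ S (4 * H0),
          (if (nm d : ℝ) * nm f ≤ H0 ^ (3 * κ) then
            10000000000 * Cτ * Q ^ 4 * y0 * H0 ^ (3 * κ) * U else 0) := by
          simp only [Finset.sum_add_distrib, Finset.mul_sum]
      _ ≤ _ := by
          have h5 : ∑ d ∈ S (4 * H0), ∑ e ∈ (S (4 * H0)).filter (· ∣ d),
            ∑ f ∈ S (4 * H0), Wd w (4 * H0) d f ≤ τ ^ 3 * (2 * SV V b H0 Z (κ / 1000)) := by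
            refine le_trans hWsum ?_
            gcongr
          have h6 := sum_ind_le (X := 4 * H0) (D0 := H0 ^ (3 * κ))
            (Λ := 10000000000 * Cτ * Q ^ 4 * y0 * H0 ^ (3 * κ) * U) (by positivity) (by positivity)
            (by positivity)
          have h7 : 0 ≤ C1 * Q ^ 6 * y0 * h3 := by positivity
          have h8 := mul_le_mul_of_nonneg_left h5 h7
          have h9 : ∑ d ∈ S (4 * H0), ∑ e ∈ (S (4 * H0)).filter (· ∣ d), ∑ f ∈ S (4 * H0),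
            (if (nm d : ℝ) * nm f ≤ H0 ^ (3 * κ) then
              10000000000 * Cτ * Q ^ 4 * y0 * H0 ^ (3 * κ) * U else 0) ≤
              (16 * H0 ^ (3 * κ)) ^ 3 *
                (10000000000 * Cτ * Q ^ 4 * y0 * H0 ^ (3 * κ) * U) := by
            convert h6 using 2
          exact add_le_add h8 h9
  have hDI := hD (4 * H0) Z (by linarith) hZ w hwS
  have hDI' : ∑' n : Eis, Real.exp (-(nm n : ℝ) / Z) * ‖∑ h ∈ S (4 * H0), w h * sy n h‖ ^ 2 ≤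
      CD * Z * (2 * SV V b H0 Z (κ / 1000)) +
      CD * (C1 * Q ^ 6 * y0 * h3 * (τ ^ 3 * (2 * SV V b H0 Z (κ / 1000))) +
      (16 * H0 ^ (3 * κ)) ^ 3 * (10000000000 * Cτ * Q ^ 4 * y0 * H0 ^ (3 * κ) * U)) := by
    refine hDI.trans ?_
    gcongr
  -- the final arithmetic
  set sv : ℝ := SV V b H0 Z (κ / 1000) with hsv
  set h5 : ℝ := H0 ^ (-κ / 5) with hh5
  have hh50 : 0 < h5 := by positivity
  have hh5' : h5 = (H0 ^ (-(κ / 10))) ^ 2 := by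
    rw [pw, hh5]; congr 1; push_cast; ring
  have a1 : Z ≤ y0 * h5 := by
    refine (Z_le hH hZ0 hZ2).trans ?_
    have : H0 ^ (-(0.05 : ℝ)) ≤ h5 :=
      Real.rpow_le_rpow_of_exponent_le hH.le (by linarith)
    gcongr
  have a2 : Q ^ 9 * h3 ≤ h5 := by
    rw [hQ, pw, hh3, hh5, ← Real.rpow_add hH0]
    apply Real.rpow_le_rpow_of_exponent_le hH.le
    push_cast; linarith
  have a3 := U_arith (H := H0) (Z := Z) (κ := κ) (A0 := A0) (δ₁ := δ₁) (K₁ := K₁) (KT := KT)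
    (Cτ := Cτ) hH hZ0 hZ2 hκ0 hA0 hA hAδ hK₁ hKT hCτ
  rw [← hc0, ← hEr, ← hBl, ← hQ, ← hτd, ← hU, ← hy0, ← hh5] at a3
  set CU : ℝ := Cτ ^ 2 * (2 * (KT * K₁ * (2 : ℝ) ^ A0) ^ 2 + 2 * (KT * K₁ * (2 : ℝ) ^ A0)) with hCU
  have hCU0 : 0 ≤ CU := by positivity
  have b1 : C1 * Q ^ 6 * y0 * h3 * (τ ^ 3 * (2 * sv)) ≤
      20000000000 * (CL + 1) * Cτ ^ 5 * (y0 * h5 * sv) := by
    calc C1 * Q ^ 6 * y0 * h3 * (τ ^ 3 * (2 * sv)) =
          20000000000 * (CL + 1) * Cτ ^ 5 * (y0 * (Q ^ 9 * h3) * sv) := by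
          rw [hC1, hτd]; ring
      _ ≤ _ := by gcongr
  have b2 : (16 * H0 ^ (3 * κ)) ^ 3 * (10000000000 * Cτ * Q ^ 4 * y0 * H0 ^ (3 * κ) * U) ≤
      50000000000000 * Cτ * CU * (y0 * (y0 * Z * h5)) := by
    calc (16 * H0 ^ (3 * κ)) ^ 3 * (10000000000 * Cτ * Q ^ 4 * y0 * H0 ^ (3 * κ) * U) =
          40960000000000 * Cτ * y0 * ((H0 ^ (3 * κ)) ^ 3 * Q ^ 4 * H0 ^ (3 * κ) * U) := by ring
      _ ≤ 40960000000000 * Cτ * y0 * (CU * (y0 * Z * h5)) := by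
          gcongr
      _ ≤ 50000000000000 * Cτ * y0 * (CU * (y0 * Z * h5)) := by
          gcongr
          norm_num
      _ = _ := by ring
  set Y : ℝ := y0 * Z with hY
  have hY0 : 0 < Y := by positivity
  set CC : ℝ := K₁ * Real.exp 1 * CD * (2 + 20000000000 * (CL + 1) * Cτ ^ 5 +
    50000000000000 * Cτ * CU) with hCC
  have hCC0 : 0 ≤ CC := by positivity
  have hfin : sv ^ 2 ≤ CC * (H0 ^ (-(κ / 10))) ^ 2 * (Y * sv + Y ^ 2) := by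
    rw [← hh5']
    calc sv ^ 2 ≤ (∑ n ∈ S Z, ‖b n‖ ^ 2) * (Real.exp 1 * ∑' n : Eis,
          Real.exp (-(nm n : ℝ) / Z) * ‖∑ h ∈ S (4 * H0), w h * sy n h‖ ^ 2) := c3
      _ ≤ (K₁ * Z) * (Real.exp 1 * (CD * (y0 * h5) * (2 * sv) +
          CD * (20000000000 * (CL + 1) * Cτ ^ 5 * (y0 * h5 * sv) +
            50000000000000 * Cτ * CU * (y0 * (y0 * Z * h5))))) := by
          have hx : 0 ≤ ∑' n : Eis,
            Real.exp (-(nm n : ℝ) / Z) * ‖∑ h ∈ S (4 * H0), w h * sy n h‖ ^ 2 :=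
            tsum_nonneg fun _ => by positivity
          have hle : ∑' n : Eis,
            Real.exp (-(nm n : ℝ) / Z) * ‖∑ h ∈ S (4 * H0), w h * sy n h‖ ^ 2 ≤
            CD * (y0 * h5) * (2 * sv) +
            CD * (20000000000 * (CL + 1) * Cτ ^ 5 * (y0 * h5 * sv) +
            50000000000000 * Cτ * CU * (y0 * (y0 * Z * h5))) := by
            refine hDI'.trans ?_
            gcongr
          gcongr
      _ = K₁ * Real.exp 1 * CD * h5 * ((2 + 20000000000 * (CL + 1) * Cτ ^ 5) * (Y * sv) +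
            50000000000000 * Cτ * CU * Y ^ 2) := by rw [hY]; ring
      _ ≤ K₁ * Real.exp 1 * CD * h5 * ((2 + 20000000000 * (CL + 1) * Cτ ^ 5 +
            50000000000000 * Cτ * CU) * (Y * sv) + (2 + 20000000000 * (CL + 1) * Cτ ^ 5 +
            50000000000000 * Cτ * CU) * Y ^ 2) := by
          have hYs : 0 ≤ Y * sv := by positivity
          have hq1 : 0 ≤ 50000000000000 * Cτ * CU := by positivity
          have hq2 : 0 ≤ 2 + 20000000000 * (CL + 1) * Cτ ^ 5 := by positivity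
          have hq3 : (2 + 20000000000 * (CL + 1) * Cτ ^ 5) * (Y * sv) ≤
            (2 + 20000000000 * (CL + 1) * Cτ ^ 5 + 50000000000000 * Cτ * CU) * (Y * sv) := by
            apply mul_le_mul_of_nonneg_right _ hYs
            linarith
          have hq4 : 50000000000000 * Cτ * CU * Y ^ 2 ≤
            (2 + 20000000000 * (CL + 1) * Cτ ^ 5 + 50000000000000 * Cτ * CU) * Y ^ 2 := by
            apply mul_le_mul_of_nonneg_right _ (by positivity)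
            linarith
          gcongr
      _ = _ := by rw [hCC]; ring
  have hres := quad_ineq hSV0 hY0 hCC0 (by positivity : 0 < H0 ^ (-(κ / 10)))
    (Real.rpow_le_one_of_one_le_of_nonpos hH.le (by linarith)) hfin
  exact c1.trans hres

end Crest.Agent.R012.CR2
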