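import Crest.Agent.R012.CR2i_180

/-!
# Row 12 (CR2), part j: `CoreB` from the dual inequality, the large part and the Type I estimate
-/

set_option autoImplicit false
set_option linter.unusedVariables false
set_option linter.unusedSimpArgs false
set_option linter.unusedSectionVars false

noncomputable section

namespace Crest.Agent.R012.CR2

open Eis LS2 Mob705 Finset CharSum852 Tau671 MeasureTheory

local notation "cj" => starRingEnd ℂ

/-- **the saved moment for abstract coefficients** -/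
theorem coreB_of (Hs : SyFacts) (hG : GFacts) (hD : DualIneq) (hL : LargePart) {V : ℝ → ℝ}
    (hV0 : ∀ x, 0 ≤ V x) (hV1 : ∀ x, V x ≤ 1) (hVs : ∀ x, 1 ≤ x → x ≤ 2 → V x = 1)
    (hVz : ∀ x, x < 1 / 2 → V x = 0) (hV : ∀ x, 4 < x → V x = 0) (hT : TypeI V) : CoreB := by
  intro δ₁ κ₀ K₁ hδ₁ hκ₀ hK₁
  obtain ⟨A0, hA0, hT⟩ := hT
  set m : ℝ := min (min (1 / 100) δ₁) κ₀ with hm
  have hm0 : 0 < m := by
    rw [hm]; positivity
  have hm1 : m ≤ 1 / 100 := (min_le_left _ _).trans (min_le_left _ _)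
  have hm2 : m ≤ δ₁ := (min_le_left _ _).trans (min_le_right _ _)
  have hm3 : m ≤ κ₀ := min_le_right _ _
  clear_value m
  set κ : ℝ := m / (100 * (A0 + 1)) with hκd
  have hκ0 : 0 < κ := by positivity
  have hκm : 100 * (A0 + 1) * κ = m := by
    rw [hκd]; field_simp
  clear_value κ
  have hA : 100 * (A0 + 1) * κ ≤ 1 / 100 := by rw [hκm]; exact hm1
  have hAδ : 100 * (A0 + 1) * κ ≤ δ₁ := by rw [hκm]; exact hm2
  have hAκ : 0 ≤ A0 * κ := by positivity
  have hκ38 : 38 * κ ≤ κ₀ := by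
    refine le_trans ?_ hm3
    rw [← hκm]
    nlinarith
  have hκ : κ ≤ 1 / 10000 := by nlinarith
  obtain ⟨KT, hKT, hT⟩ := hT (κ / 1000) (by positivity)
  obtain ⟨CD, hCD, hD⟩ := hD (κ / 1000) (κ / 1000) (by positivity) (by linarith) (by positivity)
  obtain ⟨CL, hCL, hL⟩ := largeI_of hL hκ0
  obtain ⟨Ct, hCt, hτ⟩ := Div277.tau_le_rpow (ε := κ / 1000) (by positivity)
  set C0 : ℝ := K₁ * Real.exp 1 * CD * (2 + 20000000000 * (CL + 1) * (8 * Ct) ^ 5 +
    50000000000000 * (8 * Ct) * ((8 * Ct) ^ 2 * (2 * (KT * K₁ * (2 : ℝ) ^ A0) ^ 2 +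
      2 * (KT * K₁ * (2 : ℝ) ^ A0)))) + 1 with hC0
  have hC00 : 0 < C0 := by positivity
  set C9 : ℝ := 9 * 512 * K₁ * (9 : ℝ) ^ (2.85 / κ) with hC9
  have hC90 : 0 < C9 := by positivity
  refine ⟨κ / 10, 38 * κ, C0 + C9, by positivity, by positivity, hκ38, by positivity, ?_⟩
  intro H0 Z hH hZ1 hZ2 b hb hcop hBil
  have hH0 : 0 < H0 := by linarith
  have hZ0 : 0 < Z := lt_of_lt_of_le (by positivity) hZ1
  have hpos : 0 ≤ H0 ^ (-(κ / 10)) * (H0 * Z) ^ ((2 : ℝ) / 3) * Z := by positivity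
  by_cases h9 : H0 ^ κ < 9
  · have h1 := small_H Hs hκ0 hK₁ hH hZ1 hZ2 h9 hb
    rw [← hC9] at h1
    refine h1.trans ?_
    have : 0 ≤ C0 * (H0 ^ (-(κ / 10)) * (H0 * Z) ^ ((2 : ℝ) / 3) * Z) := by positivity
    linarith
  · have h9' := not_lt.mp h9
    have hH1 : 1 < H0 := by
      rcases hH.lt_or_eq with h | h
      · exact h
      · exfalso
        rw [← h, Real.one_rpow] at h9'
        norm_num at h9'
    have h1 := main_H Hs hG hV0 hV1 hVs hVz hV (A0 := A0) (δ₁ := δ₁) (κ := κ) (K₁ := K₁) (KT := KT)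
      (CL := CL) (CD := CD) (Cτ := 8 * Ct) hA0 hδ₁ hκ0 hA hAδ hK₁ hKT hCL hCD (by linarith)
      (by
        intro r hr X Z t hX hZ hZX
        obtain ⟨c, hc, hs⟩ := hT r hr X Z t hX hZ hZX
        exact ⟨c, hc, hs⟩)
      (by
        intro X Z hX hZ w hw
        exact hD X Z hX hZ w hw)
      hL
      (by
        intro n hn
        have := hτ n hn
        rw [show 8 * Ct / 8 = Ct by ring]
        exact this)
      hH1 h9' hZ1 hZ2 hb hcop (fun r hr hrR => hBil r hr hrR)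
    rw [← hC0] at h1
    refine h1.trans ?_
    have : 0 ≤ C9 * (H0 ^ (-(κ / 10)) * (H0 * Z) ^ ((2 : ℝ) / 3) * Z) := by positivity
    linarith

end Crest.Agent.R012.CR2
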