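import Crest.Agent.R012.CR2Spec_180
import Crest.Agent.R012.BilG_811
import Crest.Agent.R012.GaussInst_880

/-!
# Row 12: the instances `CR2.GFacts` and `BilG811.GFacts`  (helper569)
-/

set_option autoImplicit false
set_option linter.unusedVariables false

namespace Crest.Agent.R012.GF569

open Crest.Agent.R012 Crest.Agent.R012.Eis

theorem gFacts : CR2.GFacts where
  mul a b ha hb := Gauss880.G_mul_all Gauss880.syG ha hb
  zero c hc h := Gauss880.G_eq_zero Gauss880.syG hc h
  le_one c hc := Gauss880.norm_G_le Gauss880.syG hc

theorem bilGFacts : BilG811.GFacts where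
  mul c d hc hd _ := Gauss880.G_mul_all Gauss880.syG hc hd
  nonsq c hc h := Gauss880.G_eq_zero Gauss880.syG hc h
  norm_le c hc := Gauss880.norm_G_le Gauss880.syG hc

end Crest.Agent.R012.GF569
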