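import Crest.Agent.R012.CR2j_180
import Crest.Agent.R012.GF_569
import Crest.Agent.R012.LS2Main_448
import Crest.Agent.R012.CR2L_569
import Crest.Agent.R012.CR2F_277

/-!
# Row 12 (CR2), part k: `CoreB` and `CR290.SavedMom` from `TypeI V` alone
-/

set_option autoImplicit false
set_option linter.unusedVariables false

noncomputable section

namespace Crest.Agent.R012.CR2

open Eis LS2

/-- a smooth bump: `1` on `[1, 2]`, supported in `[1/2, 5/2]` -/
def Vb : ContDiffBump (3 / 2 : ℝ) := ⟨1 / 2, 1, by norm_num, by norm_num⟩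

/-- the weight function used in (CR2) -/
def V0 : ℝ → ℝ := fun x => Vb x

lemma V0_contDiff : ContDiff ℝ (⊤ : ℕ∞) V0 := Vb.contDiff

lemma V0_nonneg (x : ℝ) : 0 ≤ V0 x := Vb.nonneg

lemma V0_le_one (x : ℝ) : V0 x ≤ 1 := Vb.le_one

lemma V0_one (x : ℝ) (h1 : 1 ≤ x) (h2 : x ≤ 2) : V0 x = 1 := by
  apply Vb.one_of_mem_closedBall
  rw [Metric.mem_closedBall, Real.dist_eq, abs_le]
  have : Vb.rIn = 1 / 2 := rfl
  rw [this]
  constructor <;> linarith

lemma V0_zero (x : ℝ) (h : x ≤ 1 / 2 ∨ 5 / 2 ≤ x) : V0 x = 0 := by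
  apply Vb.zero_of_le_dist
  have : Vb.rOut = 1 := rfl
  rw [this, Real.dist_eq, le_abs]
  rcases h with h | h
  · right; linarith
  · left; linarith

lemma V0_small (x : ℝ) (h : x < 1 / 2) : V0 x = 0 := V0_zero x (Or.inl h.le)

lemma V0_large (x : ℝ) (h : 4 < x) : V0 x = 0 := V0_zero x (Or.inr (by linarith))

/-- **`CoreB`** from the Type I estimate alone -/
theorem coreB (hT : TypeI V0) : CoreB :=
  coreB_of Sym645.syFacts GF569.gFacts LS448.dualIneq
    (CR2L569.largePart_of_final LS448.hb_final) V0_nonneg V0_le_one V0_one V0_small V0_large hT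

end Crest.Agent.R012.CR2

namespace Crest.Agent.R012.CR2K180

/-- **`SavedMom`** from the Type I estimate alone -/
theorem savedMom (hT : CR2.TypeI CR2.V0) : CR290.SavedMom :=
  CR2F277.savedMom LS448.hb_final (CR2.coreB hT)

end Crest.Agent.R012.CR2K180
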