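import Crest.Agent.R012.Cst6_566

/-!
# Row 12, item MC1 (7): final assembly

`first_moment_limit` : for `r = unit · λ^j`, `j ≤ 2`, and `0 < δ < 3/7`,
`SwR r w v (B^(1-δ)) B ~ (8π/81) Dc (Iw w) (mel v (5/6)) κ(r) B^((2/3)(1-δ)+5/6)`,
`κ(r) = N(r)^(-1/3)` if `3 ∣ Im r` and `0` otherwise.
-/

set_option autoImplicit false

noncomputable section

open MeasureTheory Complex Set Filter Topology
open scoped ContDiff

namespace Crest.Agent.R012.MC

open Crest.Agent.R012 Crest.Agent.R012.Eis Crest.Agent.R012.Rho777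

/-- the factor `κ(r)` -/
def kapR (r : Eis) : ℝ := if (3 : ℤ) ∣ r.im then (nm r : ℝ) ^ (-(1 / 3) : ℝ) else 0

lemma kapR_one : kapR 1 = 1 := by
  unfold kapR
  rw [if_pos (by simp)]
  simp

open Classical in
lemma tsum_split {r : Eis} {g : Eis → ℂ} (hg : Summable g) :
    ∑' k, g k = g 0 + ∑' k, (if k ∈ Cub r then g k else 0) +
      ∑' k, (if k ≠ 0 ∧ k ∉ Cub r then g k else 0) := by
  have h1 : Summable fun k : Eis => if k ∈ Cub r then g k else 0 := by
    have : (fun k : Eis => if k ∈ Cub r then g k else 0) = Set.indicator (Cub r) g := by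
      funext k; by_cases h : k ∈ Cub r <;> simp [h]
    rw [this]; exact hg.indicator _
  have h2 : Summable fun k : Eis => if k ≠ 0 ∧ k ∉ Cub r then g k else 0 := by
    have : (fun k : Eis => if k ≠ 0 ∧ k ∉ Cub r then g k else 0) =
        Set.indicator {k | k ≠ 0 ∧ k ∉ Cub r} g := by
      funext k
      by_cases h : k ≠ 0 ∧ k ∉ Cub r
      · rw [if_pos h, Set.indicator_of_mem (by exact h)]
      · rw [if_neg h, Set.indicator_of_notMem (by exact h)]
    rw [this]; exact hg.indicator _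
  have h0 : Summable fun k : Eis => if k = 0 then g k else 0 := by
    apply summable_of_hasFiniteSupport
    refine (Set.finite_singleton (0 : Eis)).subset fun k hk => ?_
    simp only [Function.mem_support, ne_eq, ite_eq_right_iff, Classical.not_imp] at hk
    exact hk.1
  have e0 : ∑' k : Eis, (if k = 0 then g k else 0) = g 0 := by
    rw [tsum_eq_single 0]
    · simp
    · intro k hk
      simp [hk]
  rw [← e0, ← h0.tsum_add h1, ← (h0.add h1).tsum_add h2]
  refine tsum_congr fun k => ?_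
  by_cases hk : k = 0
  · have : k ∉ Cub r := fun h => h.1 hk
    simp [hk]
    intro h
    exact absurd rfl h.1
  · by_cases hc : k ∈ Cub r
    · simp [hk, hc]
    · simp [hk, hc]

section

variable {w v : ℝ → ℝ}

lemma Xt_zero (N0 A B : ℝ) : Xt w v N0 A B 0 = 0 := by
  classical
  unfold Xt; rw [if_pos rfl]

lemma summable_phase_Xt (hw : Wgt w) (hv : Wgt v) {A B : ℝ} (hA : 0 < A) (hB : 0 < B) {r : Eis}
    (hr0 : r ≠ 0) (hr : ∀ b, IsPrim b → IsCoprime r b) :
    Summable (fun m : Eis => ek (r * m ^ 3) * (Xt w v (nm r) A B m : ℂ)) ∧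
    ∑' m : Eis, ek (r * m ^ 3) * (Xt w v (nm r) A B m : ℂ) =
      3 * ∑' k : Eis, (open Classical in if k ∈ Cub r then ek k * TkR r w v A B k else 0) := by
  classical
  have hS := (SwR_eq hw hv hA hB hr).1
  obtain ⟨h1, h2⟩ := tsum_cubes hr0 hS
  have e : (fun m : Eis => if m = 0 then 0 else ek (r * m ^ 3) * TkR r w v A B (r * m ^ 3)) =
      fun m : Eis => ek (r * m ^ 3) * (Xt w v (nm r) A B m : ℂ) := by
    funext m
    by_cases hm : m = 0
    · rw [if_pos hm, hm, Xt_zero]; simp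
    · rw [if_neg hm, TkR_cube hr hA.le hm]
  rw [e] at h1 h2
  exact ⟨h1, h2⟩

lemma summable_Xt_one (hw : Wgt w) (hv : Wgt v) {A B : ℝ} (hA : 0 < A) (hB : 0 < B) {r : Eis}
    (hr0 : r ≠ 0) (hr : ∀ b, IsPrim b → IsCoprime r b) : Summable (Xt w v (nm r) A B) := by
  have h := (summable_phase_Xt hw hv hA hB hr0 hr).1.norm
  refine Summable.of_norm ?_
  refine h.congr fun m => ?_
  rw [norm_mul, norm_ek, one_mul, Complex.norm_real]

/-- the sum over cubes, `3 ∣ Im r` -/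
lemma cubes_A {A B : ℝ} {r : Eis} (h3 : (3 : ℤ) ∣ r.im) :
    ∑' m : Eis, ek (r * m ^ 3) * (Xt w v (nm r) A B m : ℂ) = (Xc w v (nm r) A B : ℂ) := by
  rw [Xc_eq, Complex.ofReal_tsum]
  refine tsum_congr fun m => ?_
  rw [ek_cube_A h3, one_mul]

/-- the sum over cubes, `3 ∤ Im r` -/
lemma cubes_B (hw : Wgt w) (hv : Wgt v) {A B : ℝ} (hA : 0 < A) (hB : 0 < B) {r : Eis}
    (hr0 : r ≠ 0) (hr : ∀ b, IsPrim b → IsCoprime r b) (h3 : ¬ (3 : ℤ) ∣ r.im) :
    ∑' m : Eis, ek (r * m ^ 3) * (Xt w v (nm r) A B m : ℂ) =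
      ((3 / 2 * Xc w v (27 * nm r) A B - 1 / 2 * Xc w v (nm r) A B : ℝ) : ℂ) := by
  classical
  obtain ⟨h1, -⟩ := summable_phase_Xt hw hv hA hB hr0 hr
  have hX := summable_Xt_one hw hv hA hB hr0 hr
  set S := ∑' m : Eis, ek (r * m ^ 3) * (Xt w v (nm r) A B m : ℂ) with hS
  have hneg : ∑' m : Eis, ek (r * (-m) ^ 3) * (Xt w v (nm r) A B m : ℂ) = S := by
    rw [hS, ← (Equiv.neg Eis).tsum_eq]
    refine tsum_congr fun m => ?_
    simp only [Equiv.neg_apply, neg_neg]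
    rw [Xt_neg]
  have hsneg : Summable fun m : Eis => ek (r * (-m) ^ 3) * (Xt w v (nm r) A B m : ℂ) := by
    rw [← (Equiv.neg Eis).summable_iff]
    refine h1.congr fun m => ?_
    simp only [Function.comp, Equiv.neg_apply, neg_neg]
    rw [Xt_neg]
  have h2S : S + S = ∑' m : Eis, (3 * (if lam ∣ m then 1 else 0) - 1) *
      (Xt w v (nm r) A B m : ℂ) := by
    nth_rewrite 2 [← hneg]
    rw [hS, ← h1.tsum_add hsneg]
    refine tsum_congr fun m => ?_
    rw [← ek_cube_B h3 m]; ring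
  have hXC : Summable fun m : Eis => (Xt w v (nm r) A B m : ℂ) :=
    (Complex.ofRealCLM.summable hX)
  have hind : Summable fun m : Eis => (if lam ∣ m then (Xt w v (nm r) A B m : ℂ) else 0) := by
    have : (fun m : Eis => (if lam ∣ m then (Xt w v (nm r) A B m : ℂ) else 0)) =
        Set.indicator {m | lam ∣ m} (fun m : Eis => (Xt w v (nm r) A B m : ℂ)) := by
      funext m
      by_cases h : lam ∣ m
      · rw [if_pos h, Set.indicator_of_mem (by exact h)]
      · rw [if_neg h, Set.indicator_of_notMem (by exact h)]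
    rw [this]; exact hXC.indicator _
  have hlamsum : ∑' m : Eis, (if lam ∣ m then (Xt w v (nm r) A B m : ℂ) else 0) =
      (Xc w v (27 * nm r) A B : ℂ) := by
    have hinj : Function.Injective (fun m : Eis => lam * m) := fun x y h =>
      mul_left_cancel₀ lam_ne_zero h
    rw [← hinj.tsum_eq, Xc_eq, Complex.ofReal_tsum]
    · refine tsum_congr fun m => ?_
      rw [if_pos (dvd_mul_right _ _), Xt_lam]
    · intro m hm
      simp only [Function.mem_support, ne_eq, ite_eq_right_iff, Classical.not_imp] at hm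
      obtain ⟨t, ht⟩ := hm.1
      exact ⟨t, ht.symm⟩
  have e1 : ∀ m : Eis, (3 * (if lam ∣ m then (1 : ℂ) else 0) - 1) * (Xt w v (nm r) A B m : ℂ) =
      3 * (if lam ∣ m then (Xt w v (nm r) A B m : ℂ) else 0) - (Xt w v (nm r) A B m : ℂ) := by
    intro m
    split_ifs <;> ring
  simp_rw [e1] at h2S
  rw [(hind.mul_left 3).tsum_sub hXC, tsum_mul_left, hlamsum, ← Complex.ofReal_tsum, ← Xc_eq] at h2S
  push_cast
  linear_combination h2S / 2

/-- the value at `k = 0` vanishes for large `B` -/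
lemma TkR_zero (hv : Wgt v) : ∃ B0 : ℝ, 0 < B0 ∧ ∀ (w : ℝ → ℝ) (r : Eis) (A B : ℝ), B0 < B →
    TkR r w v A B 0 = 0 := by
  classical
  obtain ⟨c1, c2, h1, h2, h⟩ := phi_support hv
  refine ⟨1 / c1, by positivity, fun w r A B hB => ?_⟩
  have hB0 : 0 < B := lt_trans (by positivity) hB
  unfold TkR
  have : ∀ b : Eis, psi (r ^ 2 * 0) b * (phi w v B (kap A 0) (toC b) : ℂ) = 0 := by
    intro b
    rw [mul_zero]
    unfold psi
    split_ifs with hb
    · by_cases hu : IsUnit b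
      · have hb1 : b = 1 := Sym645.prim_unit_eq_one hu hb
        subst hb1
        have : phi w v B (kap A 0) (toC 1) = 0 := by
          by_contra hcon
          have h3 := (h w B _ hB0 _ hcon).1
          rw [norm_toC_sq, nm_one] at h3
          rw [div_lt_iff₀ h1] at hB
          push_cast at h3
          linarith
        rw [this]; simp
      · have : sy 0 b = 0 := by
          rw [Sym645.sy_eq_zero_iff (prim_nm hb)]
          intro hc
          exact hu (isCoprime_zero_left.mp hc)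
        rw [this, zero_mul]
    · rw [zero_mul]
  simp_rw [this]
  exact tsum_zero

/-- the noncube part -/
lemma noncube_sum (hw : Wgt w) (hv : Wgt v) {r : Eis} (hr0 : r ≠ 0)
    (hr3 : ∀ k : Eis, k ≠ 0 → (∃ m : Eis, r ^ 2 * k = m ^ 3) → ∃ m : Eis, k = r * m ^ 3)
    {δ : ℝ} (hδ0 : 0 < δ) (hδ : δ < 3 / 7) :
    ∃ θ C : ℝ, θ < 1 / 2 + δ / 3 ∧ 0 ≤ C ∧ ∀ B : ℝ, 1 ≤ B →
      ‖∑' k : Eis, (open Classical in if k ≠ 0 ∧ k ∉ Cub r then
        ek k * TkR r w v (B ^ (1 - δ)) B k else 0)‖ ≤ C * B ^ θ := by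
  classical
  obtain ⟨η, θ, C, hη, hθ, hC, h⟩ := TkR_noncube hw hv hr0 hδ0 hδ
  have hs : Summable fun k : Eis => (nm k : ℝ) ^ (-(1 + η)) := summable_nm (by linarith)
  refine ⟨θ, C * ∑' k : Eis, (nm k : ℝ) ^ (-(1 + η)), hθ, ?_, fun B hB => ?_⟩
  · exact mul_nonneg hC (tsum_nonneg fun k => by positivity)
  · have hB0 : 0 < B := by linarith
    have hb : HasSum (fun k : Eis => C * B ^ θ * (nm k : ℝ) ^ (-(1 + η)))
        (C * B ^ θ * ∑' k : Eis, (nm k : ℝ) ^ (-(1 + η))) := hs.hasSum.mul_left _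
    refine (tsum_of_norm_bounded hb fun k => ?_).trans (le_of_eq (by ring))
    split_ifs with hk
    · rw [norm_mul, norm_ek, one_mul]
      refine h B hB k hk.1 fun hm => ?_
      exact hk.2 ⟨hk.1, hr3 k hk.1 hm⟩
    · rw [norm_zero]; positivity

/-- **Item MC1.** -/
theorem first_moment_limit (hcube : CubeLimit) (hw : Wgt w) (hv : Wgt v) {r : Eis} (hr0 : r ≠ 0)
    (hr : ∀ b, IsPrim b → IsCoprime r b)
    (hr3 : ∀ k : Eis, k ≠ 0 → (∃ m : Eis, r ^ 2 * k = m ^ 3) → ∃ m : Eis, k = r * m ^ 3)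
    {δ : ℝ} (hδ0 : 0 < δ) (hδ : δ < 3 / 7) :
    Tendsto (fun B : ℝ => SwR r w v (B ^ (1 - δ)) B /
        ((B ^ (2 / 3 * (1 - δ) + 5 / 6 : ℝ) : ℝ) : ℂ)) atTop
      (𝓝 ((8 * Real.pi / 81 * Dc * Iw w * mel v (5 / 6) * kapR r : ℝ) : ℂ)) := by
  classical
  set E : ℝ := -(1 - δ) / 3 + 5 / 6 with hE
  obtain ⟨θ, C, hθ, hC, hNC⟩ := noncube_sum hw hv hr0 hr3 hδ0 hδ
  obtain ⟨B0, hB0, hz⟩ := TkR_zero hv
  set N0 : ℝ := (nm r : ℝ) with hN0
  have hN0pos : 0 < N0 := by
    have : 0 < nm r := nm_pos.mpr hr0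
    rw [hN0]; exact_mod_cast this
  set S : ℝ → ℂ := fun B => ∑' m : Eis, ek (r * m ^ 3) * (Xt w v N0 (B ^ (1 - δ)) B m : ℂ) with hS
  set NC : ℝ → ℂ := fun B => ∑' k : Eis, (if k ≠ 0 ∧ k ∉ Cub r then
        ek k * TkR r w v (B ^ (1 - δ)) B k else 0) with hNCdef
  -- the cube part
  have hSlim : Tendsto (fun B : ℝ => S B / ((B ^ E : ℝ) : ℂ)) atTop
      (𝓝 ((kapR r * (4 * Real.pi / Real.sqrt 3) * Iw w * mel v (5 / 6) * Dc : ℝ) : ℂ)) := by
    have hc1 := hcube w v hw hv N0 hN0pos δ hδ0 (by linarith)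
    by_cases h3 : (3 : ℤ) ∣ r.im
    · have hk : kapR r = N0 ^ (-(1 / 3) : ℝ) := by unfold kapR; rw [if_pos h3]
      rw [hk]
      refine ((Complex.continuous_ofReal.tendsto _).comp hc1).congr fun B => ?_
      simp only [Function.comp, hS]
      rw [cubes_A h3]
      push_cast
      rfl
    · have hk : kapR r = 0 := by unfold kapR; rw [if_neg h3]
      have hc2 := hcube w v hw hv (27 * N0) (by positivity) δ hδ0 (by linarith)
      have hc3 := (hc2.const_mul (3 / 2 : ℝ)).sub (hc1.const_mul (1 / 2 : ℝ))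
      have h27 : (27 * N0) ^ (-(1 / 3) : ℝ) = 1 / 3 * N0 ^ (-(1 / 3) : ℝ) := by
        rw [Real.mul_rpow (by norm_num) hN0pos.le]
        congr 1
        have : (27 : ℝ) = 3 ^ (3 : ℝ) := by norm_num
        rw [this, ← Real.rpow_mul (by norm_num)]
        norm_num
      rw [h27] at hc3
      have hlim0 : 3 / 2 * (1 / 3 * N0 ^ (-(1 / 3) : ℝ) * (4 * Real.pi / Real.sqrt 3) * Iw w *
          mel v (5 / 6) * Dc) - 1 / 2 * (N0 ^ (-(1 / 3) : ℝ) * (4 * Real.pi / Real.sqrt 3) * Iw w *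
          mel v (5 / 6) * Dc) =
          kapR r * (4 * Real.pi / Real.sqrt 3) * Iw w * mel v (5 / 6) * Dc := by
        rw [hk]; ring
      rw [hlim0] at hc3
      refine ((Complex.continuous_ofReal.tendsto _).comp hc3).congr' ?_
      filter_upwards [eventually_gt_atTop (0 : ℝ)] with B hB
      simp only [Function.comp, hS]
      rw [cubes_B hw hv (by positivity) hB hr0 hr h3, ← hN0]
      push_cast
      ring
  -- the noncube part
  have hNClim : Tendsto (fun B : ℝ => NC B / ((B ^ E : ℝ) : ℂ)) atTop (𝓝 0) := by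
    rw [tendsto_zero_iff_norm_tendsto_zero]
    have hlt : 0 < E - θ := by rw [hE]; linarith
    have hlim : Tendsto (fun B : ℝ => C * B ^ (-(E - θ))) atTop (𝓝 0) := by
      have := (tendsto_rpow_neg_atTop hlt).const_mul C
      rwa [mul_zero] at this
    refine squeeze_zero' (Eventually.of_forall fun B => norm_nonneg _) ?_ hlim
    filter_upwards [eventually_ge_atTop (1 : ℝ)] with B hB
    have hBpos : 0 < B := by linarith
    rw [norm_div, Complex.norm_real, Real.norm_of_nonneg (by positivity),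
      div_le_iff₀ (by positivity), mul_assoc, ← Real.rpow_add hBpos]
    have e : -(E - θ) + E = θ := by ring
    rw [e]
    exact hNC B hB
  -- assembly
  have hsum := (hSlim.const_mul (1 / 3 : ℂ)).add hNClim
  have hfin := hsum.const_mul ((2 / (9 * Real.sqrt 3) : ℝ) : ℂ)
  have h3 : Real.sqrt 3 * Real.sqrt 3 = 3 := Real.mul_self_sqrt (by norm_num)
  have h30 : Real.sqrt 3 ≠ 0 := by positivity
  have hconst : ((2 / (9 * Real.sqrt 3) : ℝ) : ℂ) * (1 / 3 *
      ((kapR r * (4 * Real.pi / Real.sqrt 3) * Iw w * mel v (5 / 6) * Dc : ℝ) : ℂ) + 0) =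
      ((8 * Real.pi / 81 * Dc * Iw w * mel v (5 / 6) * kapR r : ℝ) : ℂ) := by
    have e : (2 / (9 * Real.sqrt 3)) * (1 / 3 *
      (kapR r * (4 * Real.pi / Real.sqrt 3) * Iw w * mel v (5 / 6) * Dc)) =
      8 * Real.pi / 81 * Dc * Iw w * mel v (5 / 6) * kapR r := by
      field_simp
      have h33 : Real.sqrt 3 ^ 2 = 3 := by rw [pow_two]; exact h3
      rw [h33]
      ring
    rw [← e]
    push_cast
    ring
  rw [hconst] at hfin
  refine hfin.congr' ?_
  filter_upwards [eventually_gt_atTop (0 : ℝ), eventually_gt_atTop B0] with B hB hBB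
  have hA : 0 < B ^ (1 - δ) := by positivity
  obtain ⟨hs1, hs2⟩ := SwR_eq hw hv hA hB hr
  rw [hs2, tsum_split hs1 (r := r), hz w r _ B hBB, mul_zero, zero_add]
  have hSc := (summable_phase_Xt hw hv hA hB hr0 hr).2
  have hSc' : ∑' k : Eis, (if k ∈ Cub r then ek k * TkR r w v (B ^ (1 - δ)) B k else 0) =
      1 / 3 * S B := by
    simp only [hS]
    rw [hN0, hSc]
    ring
  rw [hSc']
  have hpow : B ^ (2 / 3 * (1 - δ) + 5 / 6 : ℝ) = B ^ (1 - δ) * B ^ E := by
    rw [← Real.rpow_add hB]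
    congr 1
    rw [hE]; ring
  rw [hpow]
  have hA' : ((B ^ (1 - δ) : ℝ) : ℂ) ≠ 0 := by exact_mod_cast hA.ne'
  have hE' : ((B ^ E : ℝ) : ℂ) ≠ 0 := by
    have : 0 < B ^ E := by positivity
    exact_mod_cast this.ne'
  have h30' : ((Real.sqrt 3 : ℝ) : ℂ) ≠ 0 := by exact_mod_cast h30
  simp only [hNCdef]
  push_cast
  field_simp

end

/-! ### the parameters `r = unit · λ^j`, `j ≤ 2` -/

lemma dvd_of_sq_dvd_cube {u : Eis} (hu : IsUnit u) {j : ℕ} (hj : j ≤ 2) {m : Eis}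
    (h : (u * lam ^ j) ^ 2 ∣ m ^ 3) : u * lam ^ j ∣ m := by
  have h1 : lam ^ j ∣ m → u * lam ^ j ∣ m := fun h => (hu.mul_left_dvd).mpr h
  apply h1
  have h2 : (lam ^ j) ^ 2 ∣ m ^ 3 := by
    refine dvd_trans ?_ h
    rw [mul_pow]
    exact dvd_mul_left _ _
  interval_cases j
  · simp
  · rw [pow_one] at h2 ⊢
    exact prime_lam.dvd_of_dvd_pow ((dvd_pow_self lam two_ne_zero).trans h2)
  · have h3 : lam ∣ m := prime_lam.dvd_of_dvd_pow
      ((dvd_pow_self lam two_ne_zero).trans ((dvd_pow_self (lam ^ 2) two_ne_zero).trans h2))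
    obtain ⟨s, rfl⟩ := h3
    have h4 : lam ∣ s ^ 3 := by
      obtain ⟨t, ht⟩ := h2
      refine ⟨t, ?_⟩
      apply mul_left_cancel₀ (pow_ne_zero 3 lam_ne_zero)
      linear_combination ht
    have h5 := prime_lam.dvd_of_dvd_pow h4
    rw [pow_two]
    exact mul_dvd_mul_left lam h5

lemma isCoprime_unit_lam {u : Eis} (hu : IsUnit u) (j : ℕ) (b : Eis) (hb : IsPrim b) :
    IsCoprime (u * lam ^ j) b := by
  refine IsCoprime.mul_left ?_ ?_
  · exact isCoprime_of_isUnit hu b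
  · exact (hb.isCoprime_lam.symm).pow_left

lemma cube_of_unit_lam {u : Eis} (hu : IsUnit u) {j : ℕ} (hj : j ≤ 2) (k : Eis) (_ : k ≠ 0)
    (h : ∃ m : Eis, (u * lam ^ j) ^ 2 * k = m ^ 3) : ∃ m : Eis, k = (u * lam ^ j) * m ^ 3 := by
  obtain ⟨m, hm⟩ := h
  have hr0 : u * lam ^ j ≠ 0 := mul_ne_zero hu.ne_zero (pow_ne_zero _ lam_ne_zero)
  obtain ⟨t, rfl⟩ := dvd_of_sq_dvd_cube hu hj ⟨k, hm.symm⟩
  refine ⟨t, ?_⟩
  apply mul_left_cancel₀ (pow_ne_zero 2 hr0)
  rw [hm]; ring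

/-- **Item MC1** for `r = unit · λ^j`, `j ≤ 2`. -/
theorem first_moment_limit_unit_lam (hcube : CubeLimit) {w v : ℝ → ℝ} (hw : Wgt w) (hv : Wgt v)
    {u : Eis} (hu : IsUnit u) {j : ℕ} (hj : j ≤ 2) {δ : ℝ} (hδ0 : 0 < δ) (hδ : δ < 3 / 7) :
    Tendsto (fun B : ℝ => SwR (u * lam ^ j) w v (B ^ (1 - δ)) B /
        ((B ^ (2 / 3 * (1 - δ) + 5 / 6 : ℝ) : ℝ) : ℂ)) atTop
      (𝓝 ((8 * Real.pi / 81 * Dc * Iw w * mel v (5 / 6) * kapR (u * lam ^ j) : ℝ) : ℂ)) :=
  first_moment_limit hcube hw hv (mul_ne_zero hu.ne_zero (pow_ne_zero _ lam_ne_zero))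
    (isCoprime_unit_lam hu j) (cube_of_unit_lam hu hj) hδ0 hδ

end Crest.Agent.R012.MC
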