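import Crest.Agent.R012.Cst3_566

/-!
# Row 12, item MC1 (4): the first moment as a dual sum; noncube terms
-/

set_option autoImplicit false

noncomputable section

open MeasureTheory Complex Set Filter Topology
open scoped ContDiff

namespace Crest.Agent.R012.MC

open Crest.Agent.R012 Crest.Agent.R012.Eis

open Classical in
/-- `b ↦ 1_{b primary} (k/b)` -/
def psi (k b : Eis) : ℂ := if IsPrim b then sy k b else 0

lemma norm_psi_le (k b : Eis) : ‖psi k b‖ ≤ 1 := by
  unfold psi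
  split_ifs with h
  · exact Sym645.norm_sy_le_one (prim_nm h) k
  · simp

/-- the dual sum over `b` at frequency `k` -/
def Tk (w v : ℝ → ℝ) (A B : ℝ) (k : Eis) : ℂ :=
  ∑' b : Eis, psi k b * (phi w v B (kap A k) (toC b) : ℂ)

/-- the facts on noncube numerators (helper766) -/
def NoncubeFacts : Prop :=
  ∀ k : Eis, k ≠ 0 → (¬ ∃ m : Eis, k = m ^ 3) → PMod (9 * k) (psi k) ∧ sumMod (9 * k) (psi k) = 0

section

variable {w v : ℝ → ℝ}

open Classical in
/-- the primary `b` in the support of the weight -/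
def Fv (hv : Wgt v) {B : ℝ} (hB : 0 < B) : Finset Eis :=
  (hv.finite_support hB).toFinset.filter IsPrim

lemma mem_Fv (hv : Wgt v) {B : ℝ} (hB : 0 < B) {b : Eis} :
    b ∈ Fv hv hB ↔ v (nm b / B) ≠ 0 ∧ IsPrim b := by
  classical
  unfold Fv
  rw [Finset.mem_filter, Set.Finite.mem_toFinset]
  rfl

lemma phi_toC (w v : ℝ → ℝ) (B κ : ℝ) (b : Eis) :
    phi w v B κ (toC b) = v (nm b / B) / Real.sqrt (nm b) * Wt w (κ / ‖toC b‖) := by
  unfold phi
  rw [norm_toC_sq, ← norm_toC]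

lemma Tk_eq_sum (hv : Wgt v) {A B : ℝ} (hB : 0 < B) (k : Eis) :
    Tk w v A B k = ∑ b ∈ Fv hv hB, sy k b * (phi w v B (kap A k) (toC b) : ℂ) := by
  classical
  unfold Tk
  rw [tsum_eq_sum (s := Fv hv hB)]
  · refine Finset.sum_congr rfl fun b hb => ?_
    rw [psi, if_pos ((mem_Fv hv hB).mp hb).2]
  · intro b hb
    rw [mem_Fv] at hb
    by_cases hp : IsPrim b
    · have : v (nm b / B) = 0 := by
        by_contra hcon
        exact hb ⟨hcon, hp⟩
      rw [phi_toC, this]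
      simp
    · rw [psi, if_neg hp, zero_mul]

lemma Mg_eq_sum (hv : Wgt v) {B : ℝ} (hB : 0 < B) (a : Eis) :
    Mg v B a = ∑ b ∈ Fv hv hB, gs a b / (Real.sqrt (nm b) : ℂ) * (v (nm b / B) : ℂ) := by
  classical
  unfold Mg
  rw [tsum_eq_sum (s := Fv hv hB)]
  · refine Finset.sum_congr rfl fun b hb => ?_
    rw [if_pos ((mem_Fv hv hB).mp hb).2]
  · intro b hb
    rw [mem_Fv] at hb
    split_ifs with hp
    · have : v (nm b / B) = 0 := by
        by_contra hcon
        exact hb ⟨hcon, hp⟩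
      rw [this]; simp
    · rfl

/-- The first moment as a sum over dual frequencies. -/
theorem Sw_eq (hw : Wgt w) (hv : Wgt v) {A B : ℝ} (hA : 0 < A) (hB : 0 < B) :
    Summable (fun k : Eis => ek k * Tk w v A B k) ∧
    Sw w v A B = ((2 * A / (9 * Real.sqrt 3) : ℝ) : ℂ) * ∑' k : Eis, ek k * Tk w v A B k := by
  classical
  set c : Eis → ℂ := fun b => (v (nm b / B) : ℂ) / (Real.sqrt (nm b) : ℂ) with hc
  have hT : ∀ k : Eis, ek k * Tk w v A B k =
      ∑ b ∈ Fv hv hB, c b * (sy k b * ek k * (Wt w (kap A k / ‖toC b‖) : ℂ)) := by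
    intro k
    rw [Tk_eq_sum hv hB, Finset.mul_sum]
    refine Finset.sum_congr rfl fun b _ => ?_
    rw [phi_toC, hc]
    push_cast
    ring
  have hsb : ∀ b ∈ Fv hv hB, Summable fun k : Eis =>
      c b * (sy k b * ek k * (Wt w (kap A k / ‖toC b‖) : ℂ)) := by
    intro b hb
    exact (dual_weight_summable hw hA ((mem_Fv hv hB).mp hb).2).mul_left _
  refine ⟨?_, ?_⟩
  · simp_rw [hT]
    exact summable_sum hsb
  · have hS : Sw w v A B = ∑' a : Eis, ∑ b ∈ Fv hv hB, c b * (chiB b a * (w (nm a / A) : ℂ)) := by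
      unfold Sw
      refine tsum_congr fun a => ?_
      split_ifs with ha
      · rw [Mg_eq_sum hv hB, Finset.mul_sum]
        refine Finset.sum_congr rfl fun b _ => ?_
        rw [chiB, if_pos ha, hc]
        ring
      · symm
        refine Finset.sum_eq_zero fun b _ => ?_
        rw [chiB, if_neg ha]; ring
    rw [hS, Summable.tsum_finsetSum]
    · simp_rw [hT]
      rw [Summable.tsum_finsetSum hsb, Finset.mul_sum]
      refine Finset.sum_congr rfl fun b hb => ?_
      rw [tsum_mul_left, tsum_mul_left, dual_weight hw hA ((mem_Fv hv hB).mp hb).2]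
      ring
    · intro b _
      apply summable_of_hasFiniteSupport
      refine (hw.finite_support hA).subset ?_
      intro a ha
      simp only [Function.mem_support] at ha
      simp only [Set.mem_ofPred_eq]
      intro h0
      apply ha
      rw [h0]; simp

/-! ### trivial bound -/

lemma Tk_trivial (hv : Wgt v) : ∃ c : ℝ, 0 < c ∧ ∀ (w : ℝ → ℝ) (A B : ℝ) (k : Eis) (M : ℝ),
    1 ≤ B → (∀ z, |phi w v B (kap A k) z| ≤ M) → ‖Tk w v A B k‖ ≤ c * B * M := by
  classical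
  obtain ⟨c1, c2, h1, h2, h⟩ := phi_support hv
  have hc2 : 0 < c2 := h1.trans h2
  refine ⟨(3 * Real.sqrt c2 + 1) ^ 2, by positivity, fun w A B k M hB hM => ?_⟩
  have hB0 : 0 < B := by linarith
  have hM0 : 0 ≤ M := (abs_nonneg _).trans (hM 0)
  obtain ⟨hDf, hDc⟩ := Strip880.disc_finite_card (0 : ℂ) (Real.sqrt (c2 * B)) (Real.sqrt_nonneg _)
  set D : Finset Eis := hDf.toFinset with hD
  have hDcard : (D.card : ℝ) ≤ (3 * Real.sqrt (c2 * B) + 1) ^ 2 := by
    rw [hD, ← Set.ncard_eq_toFinset_card _ hDf]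
    exact hDc
  have hz : ∀ b ∉ D, psi k b * (phi w v B (kap A k) (toC b) : ℂ) = 0 := by
    intro b hb
    have : phi w v B (kap A k) (toC b) = 0 := by
      by_contra hcon
      apply hb
      rw [hD, Set.Finite.mem_toFinset]
      simp only [Set.mem_ofPred_eq, sub_zero]
      exact Real.le_sqrt_of_sq_le (h w B _ hB0 _ hcon).2
    rw [this]; simp
  unfold Tk
  rw [tsum_eq_sum hz]
  calc ‖∑ b ∈ D, psi k b * (phi w v B (kap A k) (toC b) : ℂ)‖
      ≤ ∑ b ∈ D, ‖psi k b * (phi w v B (kap A k) (toC b) : ℂ)‖ := norm_sum_le _ _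
    _ ≤ ∑ b ∈ D, M := by
        refine Finset.sum_le_sum fun b _ => ?_
        rw [norm_mul, Complex.norm_real, Real.norm_eq_abs]
        calc ‖psi k b‖ * |phi w v B (kap A k) (toC b)| ≤ 1 * M :=
              mul_le_mul (norm_psi_le k b) (hM _) (abs_nonneg _) zero_le_one
          _ = M := one_mul M
    _ = D.card * M := by rw [Finset.sum_const, nsmul_eq_mul]
    _ ≤ (3 * Real.sqrt (c2 * B) + 1) ^ 2 * M := mul_le_mul_of_nonneg_right hDcard hM0
    _ ≤ (3 * Real.sqrt c2 + 1) ^ 2 * B * M := by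
        refine mul_le_mul_of_nonneg_right ?_ hM0
        have e : (3 * Real.sqrt c2 + 1) ^ 2 * B = (3 * Real.sqrt (c2 * B) + Real.sqrt B) ^ 2 := by
          rw [Real.sqrt_mul hc2.le]
          have : B = Real.sqrt B ^ 2 := (Real.sq_sqrt hB0.le).symm
          nth_rewrite 1 [this]
          ring
        rw [e]
        have h1B : 1 ≤ Real.sqrt B := Real.one_le_sqrt.mpr hB
        gcongr

/-! ### noncube frequencies -/

lemma kap_sq {B δ : ℝ} (hB : 0 < B) (k : Eis) :
    (kap (B ^ (1 - δ)) k / Real.sqrt B) ^ 2 = (nm k : ℝ) / (27 * B ^ δ) := by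
  unfold kap
  have h3 : Real.sqrt 3 ^ 2 = 3 := Real.sq_sqrt (by norm_num)
  have hA : 0 ≤ B ^ (1 - δ) := by positivity
  rw [div_pow, div_pow, mul_pow, mul_pow, Real.sq_sqrt hA, Real.sq_sqrt hB.le, norm_toC_sq, h3,
    Real.rpow_sub hB, Real.rpow_one]
  have : B ^ δ ≠ 0 := by positivity
  field_simp
  ring

theorem Tk_noncube (hNC : NoncubeFacts) (hw : Wgt w) (hv : Wgt v) {δ : ℝ} (hδ0 : 0 < δ)
    (hδ : δ ≤ 1 / 20) :
    ∃ C : ℝ, 0 ≤ C ∧ ∀ B : ℝ, 1 ≤ B → ∀ k : Eis, k ≠ 0 → (¬ ∃ m : Eis, k = m ^ 3) →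
      ‖Tk w v (B ^ (1 - δ)) B k‖ ≤ C * Real.sqrt B * ((nm k : ℝ) ^ 2)⁻¹ := by
  obtain ⟨CL, hCL, hlip⟩ := phi_lip hw hv
  obtain ⟨CS, hCS, hsize⟩ := phi_size hw hv 8
  obtain ⟨c1, c2, h1, h2, hsupp⟩ := phi_support hv
  obtain ⟨ct, hct, htriv⟩ := Tk_trivial hv
  have hc2 : 0 < c2 := h1.trans h2
  set K1 : ℝ := CL * 18 * (3 * Real.sqrt c2 + 36) ^ 2 with hK1
  set K2 : ℝ := ct * (CS * 27 ^ 4) with hK2
  have hK1' : 0 ≤ K1 := by positivity
  have hK2' : 0 ≤ K2 := by positivity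
  refine ⟨K1 + K2, by positivity, fun B hB k hk hkc => ?_⟩
  have hB0 : 0 < B := by linarith
  have hsB : 0 < Real.sqrt B := Real.sqrt_pos.mpr hB0
  set P : ℝ := B ^ δ with hP
  have hP1 : 1 ≤ P := Real.one_le_rpow hB hδ0.le
  have hP0 : 0 < P := by linarith
  have hP6 : P ^ 6 ≤ Real.sqrt B := by
    rw [hP, ← Real.rpow_natCast, ← Real.rpow_mul hB0.le, Real.sqrt_eq_rpow]
    apply Real.rpow_le_rpow_of_exponent_le hB
    push_cast
    linarith
  have hPB : P ^ 2 ≤ B := by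
    have h12 : P ^ 12 ≤ B := by
      have : P ^ 12 = (P ^ 6) ^ 2 := by ring
      rw [this]
      calc (P ^ 6) ^ 2 ≤ (Real.sqrt B) ^ 2 := pow_le_pow_left₀ (by positivity) hP6 2
        _ = B := Real.sq_sqrt hB0.le
    exact (pow_le_pow_right₀ hP1 (by norm_num : 2 ≤ 12)).trans h12
  set n : ℝ := (nm k : ℝ) with hn
  have hn1 : 1 ≤ n := by
    have : 1 ≤ nm k := nm_pos.mpr hk
    rw [hn]
    exact_mod_cast this
  have hn0 : 0 < n := by linarith
  have hkn : ‖toC k‖ = Real.sqrt n := norm_toC k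
  set β : ℝ := kap (B ^ (1 - δ)) k / Real.sqrt B with hβ
  have hβ0 : 0 ≤ β := div_nonneg (kap_nonneg _ _) hsB.le
  have hβ2 : β ^ 2 = n / (27 * P) := kap_sq hB0 k
  rcases le_or_gt n (P ^ 2) with hcase | hcase
  · -- small frequencies
    obtain ⟨hper, hmean⟩ := hNC k hk hkc
    have h9k : (9 * k : Eis) ≠ 0 := by
      refine mul_ne_zero ?_ hk
      intro h9
      have := congrArg QuadraticAlgebra.re h9
      simp at this
    have hbound := char_sum_bound h9k hper hmean (norm_psi_le k)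
      (φ := fun z => (phi w v B (kap (B ^ (1 - δ)) k) z : ℂ))
      (L := CL * (1 + β) / B) (R := Real.sqrt (c2 * B)) (by positivity) (Real.sqrt_nonneg _)
      (by
        intro z hz
        have : phi w v B (kap (B ^ (1 - δ)) k) z = 0 := by
          by_contra hcon
          have h3 := (hsupp w B _ hB0 z hcon).2
          have h4 : ‖z‖ ≤ Real.sqrt (c2 * B) := Real.le_sqrt_of_sq_le h3
          linarith
        simp only [this, Complex.ofReal_zero])
      (by
        intro z z'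
        rw [← Complex.ofReal_sub, Complex.norm_real, Real.norm_eq_abs]
        exact hlip B _ hB0 (kap_nonneg _ _) z z')
    have hq : ‖toC (9 * k)‖ = 9 * Real.sqrt n := by
      rw [map_mul, norm_mul, hkn]
      congr 1
      have : toC 9 = 9 := map_ofNat toC 9
      rw [this]; norm_num
    have hT : ‖Tk w v (B ^ (1 - δ)) B k‖ ≤
        CL * (1 + β) / B * (9 * Real.sqrt n) * (3 * Real.sqrt (c2 * B) + 4 * (9 * Real.sqrt n)) ^ 2 := by
      rw [hq] at hbound
      exact hbound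
    have hsn1 : 1 ≤ Real.sqrt n := Real.one_le_sqrt.mpr hn1
    have hβn : β ≤ Real.sqrt n := by
      apply Real.le_sqrt_of_sq_le
      rw [hβ2, div_le_iff₀ (by positivity)]
      nlinarith
    have hsnB : Real.sqrt n ≤ Real.sqrt B := Real.sqrt_le_sqrt (hcase.trans hPB)
    have hsq : (3 * Real.sqrt (c2 * B) + 4 * (9 * Real.sqrt n)) ^ 2 ≤
        (3 * Real.sqrt c2 + 36) ^ 2 * B := by
      have e : (3 * Real.sqrt c2 + 36) ^ 2 * B = (3 * Real.sqrt (c2 * B) + 36 * Real.sqrt B) ^ 2 := by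
        rw [Real.sqrt_mul hc2.le]
        have : B = Real.sqrt B ^ 2 := (Real.sq_sqrt hB0.le).symm
        nth_rewrite 1 [this]
        ring
      rw [e]
      apply pow_le_pow_left₀ (by positivity)
      linarith
    have hnn : Real.sqrt n * Real.sqrt n = n := Real.mul_self_sqrt hn0.le
    have hfin : ‖Tk w v (B ^ (1 - δ)) B k‖ ≤ K1 * n := by
      refine hT.trans ?_
      calc CL * (1 + β) / B * (9 * Real.sqrt n) * (3 * Real.sqrt (c2 * B) + 4 * (9 * Real.sqrt n)) ^ 2
          ≤ CL * (2 * Real.sqrt n) / B * (9 * Real.sqrt n) * ((3 * Real.sqrt c2 + 36) ^ 2 * B) := by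
            gcongr
            linarith
        _ = K1 * (Real.sqrt n * Real.sqrt n) := by
            rw [hK1]
            field_simp
            ring
        _ = K1 * n := by rw [hnn]
    have hn3 : n ≤ Real.sqrt B * (n ^ 2)⁻¹ := by
      rw [← div_eq_mul_inv, le_div_iff₀ (by positivity)]
      calc n * n ^ 2 = n ^ 3 := by ring
        _ ≤ (P ^ 2) ^ 3 := pow_le_pow_left₀ hn0.le hcase 3
        _ = P ^ 6 := by ring
        _ ≤ _ := hP6
    calc ‖Tk w v (B ^ (1 - δ)) B k‖ ≤ K1 * n := hfin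
      _ ≤ K1 * (Real.sqrt B * (n ^ 2)⁻¹) := mul_le_mul_of_nonneg_left hn3 hK1'
      _ ≤ (K1 + K2) * (Real.sqrt B * (n ^ 2)⁻¹) := by
          refine mul_le_mul_of_nonneg_right (by linarith) (by positivity)
      _ = _ := by ring
  · -- large frequencies
    have hβpos : 0 < β ^ 2 := by rw [hβ2]; positivity
    have hβ8 : β ^ 8 = (n / (27 * P)) ^ 4 := by
      rw [← hβ2]; ring
    have hM : ∀ z, |phi w v B (kap (B ^ (1 - δ)) k) z| ≤ CS * 27 ^ 4 * (Real.sqrt B)⁻¹ * (n ^ 2)⁻¹ := by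
      intro z
      have h3 := hsize B _ hB0 (kap_nonneg (B ^ (1 - δ)) k) z
      rw [← hβ, hβ8] at h3
      have h4 : (n / (27 * P)) ^ 4 ≥ n ^ 2 / 27 ^ 4 := by
        rw [div_pow, mul_pow, ge_iff_le, div_le_div_iff₀ (by positivity) (by positivity)]
        have h5 : P ^ 4 ≤ n ^ 2 := by
          calc P ^ 4 = (P ^ 2) ^ 2 := by ring
            _ ≤ n ^ 2 := pow_le_pow_left₀ (by positivity) hcase.le 2
        calc n ^ 2 * (27 ^ 4 * P ^ 4) = 27 ^ 4 * n ^ 2 * P ^ 4 := by ring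
          _ ≤ 27 ^ 4 * n ^ 2 * n ^ 2 := by gcongr
          _ = n ^ 4 * 27 ^ 4 := by ring
      have h6 : |phi w v B (kap (B ^ (1 - δ)) k) z| * (n ^ 2 / 27 ^ 4) ≤ CS * (Real.sqrt B)⁻¹ :=
        (mul_le_mul_of_nonneg_left h4 (abs_nonneg _)).trans h3
      have h7 : |phi w v B (kap (B ^ (1 - δ)) k) z| ≤ CS * (Real.sqrt B)⁻¹ / (n ^ 2 / 27 ^ 4) := by
        rw [le_div_iff₀ (by positivity)]
        exact h6
      refine h7.trans (le_of_eq ?_)
      field_simp
    have hT := htriv w (B ^ (1 - δ)) B k _ hB hM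
    calc ‖Tk w v (B ^ (1 - δ)) B k‖ ≤ ct * B * (CS * 27 ^ 4 * (Real.sqrt B)⁻¹ * (n ^ 2)⁻¹) := hT
      _ = K2 * (Real.sqrt B * (n ^ 2)⁻¹) := by
          rw [hK2]
          have : B = Real.sqrt B * Real.sqrt B := (Real.mul_self_sqrt hB0.le).symm
          nth_rewrite 1 [this]
          field_simp
      _ ≤ (K1 + K2) * (Real.sqrt B * (n ^ 2)⁻¹) := by
          refine mul_le_mul_of_nonneg_right (by linarith) (by positivity)
      _ = _ := by ring

end

end Crest.Agent.R012.MC
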