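import Crest.Agent.R012.Base_666

/-!
# Row 12: finite quotients of the Eisenstein integers and the API of `sumMod`
-/

set_option autoImplicit false
set_option linter.unusedSimpArgs false
set_option linter.unusedVariables false

noncomputable section


namespace Crest.Agent.R012

open Eis

/-- The quotient ring `Eis/(c)`. -/
abbrev QE (c : Eis) : Type := Eis ⧸ Ideal.span ({c} : Set Eis)

lemma algebraNorm_eq (z : Eis) : Algebra.norm ℤ z = (nm z : ℤ) := by
  rw [Algebra.norm_apply, ← norm_eq_nm, ← QuadraticAlgebra.det_toLinearMap_eq_norm]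
  congr 1

lemma card_QE (c : Eis) : Nat.card (QE c) = nm c := by
  have h := Ideal.absNorm_span_singleton (S := Eis) c
  rw [algebraNorm_eq, Int.natAbs_natCast] at h
  rw [← h, Ideal.absNorm_apply, Submodule.cardQuot_apply]

lemma finite_QE {c : Eis} (hc : c ≠ 0) : Finite (QE c) := by
  apply Nat.finite_of_card_ne_zero
  rw [card_QE]
  exact (nm_pos.mpr hc).ne'

/-- The quotient map. -/
def mkQ (c : Eis) : Eis →+* QE c := Ideal.Quotient.mk _

lemma mkQ_eq_iff {c x y : Eis} : mkQ c x = mkQ c y ↔ c ∣ x - y := by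
  unfold mkQ
  rw [Ideal.Quotient.eq, Ideal.mem_span_singleton]

lemma mkQ_surjective (c : Eis) : Function.Surjective (mkQ c) := Ideal.Quotient.mk_surjective

lemma mkQ_out {c : Eis} (q : QE c) : mkQ c (Quotient.out q) = q := by
  unfold mkQ
  exact Ideal.Quotient.mk_out q

/-- `f` is periodic modulo `c`. -/
def PMod {α : Type*} (c : Eis) (f : Eis → α) : Prop := ∀ x t : Eis, f (x + c * t) = f x

lemma PMod.congr {α : Type*} {c : Eis} {f : Eis → α} (hf : PMod c f) {x y : Eis}
    (h : c ∣ x - y) : f x = f y := by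
  obtain ⟨t, ht⟩ := h
  have : x = y + c * t := by rw [← ht]; ring
  rw [this, hf]

lemma PMod.mono {α : Type*} {c d : Eis} {f : Eis → α} (hf : PMod c f) (h : c ∣ d) : PMod d f := by
  obtain ⟨e, rfl⟩ := h
  intro x t
  rw [mul_assoc, hf]

lemma PMod.comp {α β : Type*} {c : Eis} {f : Eis → α} (hf : PMod c f) (g : α → β) :
    PMod c (fun x => g (f x)) := fun x t => by beta_reduce; rw [hf]

lemma PMod.mul {α : Type*} [Mul α] {c : Eis} {f g : Eis → α} (hf : PMod c f) (hg : PMod c g) :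
    PMod c (fun x => f x * g x) := fun x t => by beta_reduce; rw [hf, hg]

lemma PMod.add {α : Type*} [Add α] {c : Eis} {f g : Eis → α} (hf : PMod c f) (hg : PMod c g) :
    PMod c (fun x => f x + g x) := fun x t => by beta_reduce; rw [hf, hg]

lemma PMod.const {α : Type*} {c : Eis} (a : α) : PMod c (fun _ => a) := fun _ _ => rfl

lemma PMod.comp_mul {α : Type*} {c : Eis} {f : Eis → α} (hf : PMod c f) (a : Eis) :
    PMod c (fun x => f (a * x)) := fun x t => by
  have : a * (x + c * t) = a * x + c * (a * t) := by ring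
  beta_reduce
  rw [this, hf]

lemma PMod.comp_add {α : Type*} {c : Eis} {f : Eis → α} (hf : PMod c f) (a : Eis) :
    PMod c (fun x => f (x + a)) := fun x t => by
  have : x + c * t + a = (x + a) + c * t := by ring
  beta_reduce
  rw [this, hf]

/-- `S` is a complete residue system modulo `c`. -/
def IsCRS (c : Eis) (S : Finset Eis) : Prop := ∀ x : Eis, ∃! s, s ∈ S ∧ c ∣ x - s

lemma IsCRS.inj {c : Eis} {S : Finset Eis} (hS : IsCRS c S) {s t : Eis} (hs : s ∈ S) (ht : t ∈ S)
    (h : c ∣ s - t) : s = t :=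
  (hS s).unique ⟨hs, by simp⟩ ⟨ht, h⟩

lemma isCRS_iff {c : Eis} {S : Finset Eis} : IsCRS c S ↔
    (∀ x, ∃ s ∈ S, c ∣ x - s) ∧ (∀ s ∈ S, ∀ t ∈ S, c ∣ s - t → s = t) := by
  constructor
  · intro h
    exact ⟨fun x => by obtain ⟨s, hs, -⟩ := h x; exact ⟨s, hs⟩, fun s hs t ht => h.inj hs ht⟩
  · rintro ⟨h1, h2⟩ x
    obtain ⟨s, hs, hd⟩ := h1 x
    refine ⟨s, ⟨hs, hd⟩, ?_⟩
    rintro t ⟨ht, htd⟩
    exact h2 t ht s hs (by have := dvd_sub hd htd; simpa using this)

lemma sumMod_of_finite {c : Eis} (hc : c ≠ 0) (f : Eis → ℂ) :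
    let _ := @Fintype.ofFinite (QE c) (finite_QE hc)
    sumMod c f = ∑ q : QE c, f (Quotient.out q) := by
  let _ := @Fintype.ofFinite (QE c) (finite_QE hc)
  exact finsum_eq_sum_of_fintype _

/-- `sumMod` computed on any complete residue system. -/
lemma sumMod_eq_sum {c : Eis} {S : Finset Eis} (hS : IsCRS c S) {f : Eis → ℂ} (hf : PMod c f) :
    sumMod c f = ∑ s ∈ S, f s := by
  classical
  have hbij : ∀ q : QE c, ∃ s ∈ S, mkQ c s = q := fun q => by
    obtain ⟨s, ⟨hs, hd⟩, -⟩ := hS (Quotient.out q)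
    refine ⟨s, hs, ?_⟩
    rw [← mkQ_out q, mkQ_eq_iff]
    have := (dvd_neg.mpr hd); simpa using this
  have hfin : Finite (QE c) := by
    refine Finite.of_surjective (fun s : S => mkQ c (s : Eis)) ?_
    intro q; obtain ⟨s, hs, h⟩ := hbij q; exact ⟨⟨s, hs⟩, h⟩
  let _ := @Fintype.ofFinite (QE c) hfin
  unfold sumMod
  rw [finsum_eq_sum_of_fintype]
  symm
  refine Finset.sum_nbij (fun s => mkQ c s) (fun _ _ => Finset.mem_univ _) ?_ ?_ ?_
  · intro s hs t ht h
    exact hS.inj hs ht (mkQ_eq_iff.mp h)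
  · intro q _
    obtain ⟨s, hs, h⟩ := hbij q
    exact ⟨s, hs, h⟩
  · intro s _
    apply hf.congr
    rw [← mkQ_eq_iff, mkQ_out]

/-- A chosen complete residue system. -/
def crs (c : Eis) : Finset Eis :=
  open Classical in
  if hc : c ≠ 0 then
    let _ := @Fintype.ofFinite (QE c) (finite_QE hc)
    (Finset.univ : Finset (QE c)).image Quotient.out
  else ∅

lemma isCRS_crs {c : Eis} (hc : c ≠ 0) : IsCRS c (crs c) := by
  classical
  let _ := @Fintype.ofFinite (QE c) (finite_QE hc)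
  rw [isCRS_iff]
  unfold crs
  rw [dif_pos hc]
  constructor
  · intro x
    refine ⟨Quotient.out (mkQ c x), Finset.mem_image_of_mem _ (Finset.mem_univ _), ?_⟩
    rw [← mkQ_eq_iff, mkQ_out]
  · intro s hs t ht h
    obtain ⟨p, -, rfl⟩ := Finset.mem_image.mp hs
    obtain ⟨q, -, rfl⟩ := Finset.mem_image.mp ht
    rw [← mkQ_eq_iff, mkQ_out, mkQ_out] at h
    rw [h]

lemma IsCRS.card {c : Eis} {S : Finset Eis} (hS : IsCRS c S) : S.card = nm c := by
  classical
  rw [← card_QE c]
  rw [← Nat.card_eq_finsetCard S]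
  refine Nat.card_congr (Equiv.ofBijective (fun s : S => mkQ c (s : Eis)) ⟨?_, ?_⟩)
  · intro s t h
    exact Subtype.ext (hS.inj s.2 t.2 (mkQ_eq_iff.mp h))
  · intro q
    obtain ⟨s, ⟨hs, hd⟩, -⟩ := hS (Quotient.out q)
    refine ⟨⟨s, hs⟩, ?_⟩
    show mkQ c s = q
    rw [← mkQ_out q, mkQ_eq_iff]
    have := (dvd_neg.mpr hd); simpa using this

lemma card_crs {c : Eis} (hc : c ≠ 0) : (crs c).card = nm c := (isCRS_crs hc).card

lemma sumMod_congr {c : Eis} {f g : Eis → ℂ} (h : ∀ x, f x = g x) : sumMod c f = sumMod c g := by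
  unfold sumMod; exact finsum_congr fun q => h _

lemma sumMod_add {c : Eis} (hc : c ≠ 0) (f g : Eis → ℂ) :
    sumMod c (fun x => f x + g x) = sumMod c f + sumMod c g := by
  have := finite_QE hc
  exact finsum_add_distrib (Set.toFinite _) (Set.toFinite _)

lemma sumMod_sub {c : Eis} (hc : c ≠ 0) (f g : Eis → ℂ) :
    sumMod c (fun x => f x - g x) = sumMod c f - sumMod c g := by
  have := finite_QE hc
  exact finsum_sub_distrib (Set.toFinite _) (Set.toFinite _)

lemma sumMod_mul_left {c : Eis} (hc : c ≠ 0) (a : ℂ) (f : Eis → ℂ) :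
    sumMod c (fun x => a * f x) = a * sumMod c f := by
  have := finite_QE hc
  exact (mul_finsum (fun q : QE c => f (Quotient.out q)) a).symm

lemma sumMod_mul_right {c : Eis} (hc : c ≠ 0) (a : ℂ) (f : Eis → ℂ) :
    sumMod c (fun x => f x * a) = sumMod c f * a := by
  rw [mul_comm, ← sumMod_mul_left hc]; exact sumMod_congr fun x => mul_comm _ _

lemma sumMod_const {c : Eis} (hc : c ≠ 0) (a : ℂ) : sumMod c (fun _ => a) = nm c * a := by
  rw [sumMod_eq_sum (isCRS_crs hc) (PMod.const a), Finset.sum_const, card_crs hc, nsmul_eq_mul]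

lemma sumMod_finset_sum {c : Eis} (hc : c ≠ 0) {ι : Type*} (s : Finset ι) (f : ι → Eis → ℂ) :
    sumMod c (fun x => ∑ i ∈ s, f i x) = ∑ i ∈ s, sumMod c (f i) := by
  classical
  have := finite_QE hc
  let _ := Fintype.ofFinite (QE c)
  unfold sumMod
  rw [finsum_eq_sum_of_fintype, Finset.sum_comm]
  exact Finset.sum_congr rfl fun i _ => (finsum_eq_sum_of_fintype _).symm

lemma sumMod_star {c : Eis} (hc : c ≠ 0) (f : Eis → ℂ) :
    (starRingEnd ℂ) (sumMod c f) = sumMod c (fun x => (starRingEnd ℂ) (f x)) := by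
  have := finite_QE hc
  let _ := Fintype.ofFinite (QE c)
  unfold sumMod
  rw [finsum_eq_sum_of_fintype, finsum_eq_sum_of_fintype, map_sum]

lemma norm_sumMod_le {c : Eis} (hc : c ≠ 0) {f : Eis → ℂ} {B : ℝ} (h : ∀ x, ‖f x‖ ≤ B) :
    ‖sumMod c f‖ ≤ nm c * B := by
  classical
  have := finite_QE hc
  let _ := Fintype.ofFinite (QE c)
  unfold sumMod
  rw [finsum_eq_sum_of_fintype]
  refine (norm_sum_le _ _).trans ?_
  refine (Finset.sum_le_sum fun q _ => h _).trans ?_
  rw [Finset.sum_const, nsmul_eq_mul, Finset.card_univ, ← Nat.card_eq_fintype_card, card_QE]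

lemma IsCRS.add {c : Eis} {S : Finset Eis} (hS : IsCRS c S) (a : Eis) :
    IsCRS c (S.map (addRightEmbedding a)) := by
  rw [isCRS_iff]
  constructor
  · intro x
    obtain ⟨s, ⟨hs, hd⟩, -⟩ := hS (x - a)
    refine ⟨s + a, Finset.mem_map.mpr ⟨s, hs, rfl⟩, ?_⟩
    have : x - (s + a) = x - a - s := by ring
    rwa [this]
  · intro s hs t ht h
    obtain ⟨p, hp, rfl⟩ := Finset.mem_map.mp hs
    obtain ⟨q, hq, rfl⟩ := Finset.mem_map.mp ht
    have : p = q := hS.inj hp hq (by simpa using h)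
    rw [this]

lemma sumMod_shift {c : Eis} (hc : c ≠ 0) {f : Eis → ℂ} (hf : PMod c f) (a : Eis) :
    sumMod c (fun x => f (x + a)) = sumMod c f := by
  rw [sumMod_eq_sum (isCRS_crs hc) (hf.comp_add a), sumMod_eq_sum ((isCRS_crs hc).add a) hf,
    Finset.sum_map]
  rfl

lemma IsCRS.mul_coprime {c : Eis} {S : Finset Eis} (hS : IsCRS c S) {a : Eis}
    (ha : IsCoprime a c) (ha0 : a ≠ 0) :
    IsCRS c (S.map ⟨fun x => a * x, mul_right_injective₀ ha0⟩) := by
  rw [isCRS_iff]
  constructor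
  · intro x
    obtain ⟨u, v, huv⟩ := ha
    obtain ⟨s, ⟨hs, hd⟩, -⟩ := hS (u * x)
    refine ⟨a * s, Finset.mem_map.mpr ⟨s, hs, rfl⟩, ?_⟩
    obtain ⟨t, ht⟩ := hd
    refine ⟨a * t + v * x, ?_⟩
    linear_combination a * ht - x * huv
  · intro s hs t ht h
    obtain ⟨p, hp, rfl⟩ := Finset.mem_map.mp hs
    obtain ⟨q, hq, rfl⟩ := Finset.mem_map.mp ht
    simp only [Function.Embedding.coeFn_mk] at h ⊢
    rw [← mul_sub] at h
    rw [hS.inj hp hq (ha.symm.dvd_of_dvd_mul_left h)]

lemma sumMod_mul_coprime {c : Eis} (hc : c ≠ 0) {f : Eis → ℂ} (hf : PMod c f) {a : Eis}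
    (ha : IsCoprime a c) : sumMod c (fun x => f (a * x)) = sumMod c f := by
  by_cases ha0 : a = 0
  · subst ha0
    have hu : IsUnit c := isCoprime_zero_left.mp ha
    have key : ∀ x y : Eis, f x = f y := fun x y =>
      hf.congr (hu.dvd)
    exact sumMod_congr fun x => key _ _
  · rw [sumMod_eq_sum (isCRS_crs hc) (hf.comp_mul a),
      sumMod_eq_sum ((isCRS_crs hc).mul_coprime ha ha0) hf, Finset.sum_map]
    rfl

lemma isCoprime_of_isUnit {a : Eis} (h : IsUnit a) (b : Eis) : IsCoprime a b := by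
  obtain ⟨u, rfl⟩ := h
  exact ⟨((u⁻¹ : Eisˣ) : Eis), 0, by simp⟩

lemma sumMod_neg {c : Eis} (hc : c ≠ 0) {f : Eis → ℂ} (hf : PMod c f) :
    sumMod c (fun x => f (-x)) = sumMod c f := by
  have h := sumMod_mul_coprime hc hf (a := -1) (isCoprime_of_isUnit (isUnit_one.neg) _)
  rw [← h]; exact sumMod_congr fun x => by rw [neg_one_mul]

lemma isCRS_of_associated {c d : Eis} (h : Associated c d) {S : Finset Eis} (hS : IsCRS c S) :
    IsCRS d S := by
  intro x
  obtain ⟨s, ⟨hs, hd⟩, hu⟩ := hS x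
  exact ⟨s, ⟨hs, h.dvd_iff_dvd_left.mp hd⟩, fun t ht => hu t ⟨ht.1, h.dvd_iff_dvd_left.mpr ht.2⟩⟩

lemma PMod.of_associated {α : Type*} {c d : Eis} {f : Eis → α} (hf : PMod c f)
    (h : Associated c d) : PMod d f := hf.mono h.dvd

lemma sumMod_associated {c d : Eis} (hc : c ≠ 0) (h : Associated c d) {f : Eis → ℂ}
    (hf : PMod c f) : sumMod c f = sumMod d f := by
  rw [sumMod_eq_sum (isCRS_crs hc) hf,
    sumMod_eq_sum (isCRS_of_associated h (isCRS_crs hc)) (hf.of_associated h)]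

/-- Complete residue system modulo a product. -/
lemma IsCRS.tower {c d : Eis} (hc : c ≠ 0) {S T : Finset Eis} (hS : IsCRS c S) (hT : IsCRS d T) :
    Set.InjOn (fun p : Eis × Eis => p.1 + c * p.2) (S ×ˢ T : Finset (Eis × Eis)) ∧
    (open Classical in IsCRS (c * d) ((S ×ˢ T).image (fun p => p.1 + c * p.2))) := by
  classical
  have key : ∀ p q : Eis × Eis, p ∈ S ×ˢ T → q ∈ S ×ˢ T →
      c * d ∣ (p.1 + c * p.2) - (q.1 + c * q.2) → p = q := by
    intro p q hp hq h
    obtain ⟨hp1, hp2⟩ := Finset.mem_product.mp hp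
    obtain ⟨hq1, hq2⟩ := Finset.mem_product.mp hq
    have h1 : p.1 = q.1 := by
      apply hS.inj hp1 hq1
      have h2 : c ∣ (p.1 + c * p.2) - (q.1 + c * q.2) := (dvd_mul_right c d).trans h
      have : p.1 - q.1 = ((p.1 + c * p.2) - (q.1 + c * q.2)) - c * (p.2 - q.2) := by ring
      rw [this]
      exact dvd_sub h2 (dvd_mul_right _ _)
    have h3 : p.2 = q.2 := by
      apply hT.inj hp2 hq2
      rw [h1] at h
      have : (q.1 + c * p.2) - (q.1 + c * q.2) = c * (p.2 - q.2) := by ring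
      rw [this] at h
      exact (mul_dvd_mul_iff_left hc).mp h
    exact Prod.ext h1 h3
  constructor
  · intro p hp q hq h
    exact key p q hp hq (by
      have h' : p.1 + c * p.2 = q.1 + c * q.2 := h
      rw [h']; simp)
  · rw [isCRS_iff]
    constructor
    · intro x
      obtain ⟨s, ⟨hs, ⟨y, hy⟩⟩, -⟩ := hS x
      obtain ⟨t, ⟨ht, ⟨z, hz⟩⟩, -⟩ := hT y
      refine ⟨s + c * t, Finset.mem_image.mpr ⟨(s, t), Finset.mem_product.mpr ⟨hs, ht⟩, rfl⟩,
        ⟨z, ?_⟩⟩
      linear_combination hy + c * hz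
    · intro s hs t ht h
      obtain ⟨p, hp, rfl⟩ := Finset.mem_image.mp hs
      obtain ⟨q, hq, rfl⟩ := Finset.mem_image.mp ht
      rw [key p q hp hq h]

lemma sumMod_tower {c d : Eis} (hc : c ≠ 0) (hd : d ≠ 0) {f : Eis → ℂ} (hf : PMod (c * d) f) :
    sumMod (c * d) f = sumMod c (fun x => sumMod d (fun y => f (x + c * y))) := by
  classical
  obtain ⟨hinj, hcrs⟩ := (isCRS_crs hc).tower hc (isCRS_crs hd)
  have hp1 : ∀ x, PMod d (fun y => f (x + c * y)) := fun x y t => by
    have : x + c * (y + d * t) = (x + c * y) + c * d * t := by ring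
    beta_reduce
    rw [this, hf]
  have hp2 : PMod c (fun x => sumMod d (fun y => f (x + c * y))) := fun x t => by
    have h := sumMod_shift hd (hp1 x) t
    beta_reduce
    rw [← h]
    exact sumMod_congr fun y => by ring_nf
  rw [sumMod_eq_sum hcrs hf, Finset.sum_image hinj, Finset.sum_product,
    sumMod_eq_sum (isCRS_crs hc) hp2]
  exact Finset.sum_congr rfl fun x _ => (sumMod_eq_sum (isCRS_crs hd) (hp1 x)).symm

lemma sumMod_of_pmod_dvd {c d : Eis} (hc : c ≠ 0) (hd : d ≠ 0) {f : Eis → ℂ} (hf : PMod c f) :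
    sumMod (c * d) f = nm d * sumMod c f := by
  rw [sumMod_tower hc hd (hf.mono (dvd_mul_right c d))]
  rw [sumMod_congr (g := fun x => (nm d : ℂ) * f x) (fun x => ?_), sumMod_mul_left hc]
  rw [sumMod_congr (g := fun _ => f x) (fun y => hf x y), sumMod_const hd]

lemma sumMod_crt {c d : Eis} (hc : c ≠ 0) (hd : d ≠ 0) (hcd : IsCoprime c d) {f : Eis → ℂ}
    (hf : PMod (c * d) f) :
    sumMod (c * d) f = sumMod c (fun x => sumMod d (fun y => f (d * x + c * y))) := by
  rw [sumMod_tower hc hd hf]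
  have hp1 : ∀ x, PMod d (fun y => f (x + c * y)) := fun x y t => by
    have : x + c * (y + d * t) = (x + c * y) + c * d * t := by ring
    beta_reduce
    rw [this, hf]
  have hp2 : PMod c (fun x => sumMod d (fun y => f (x + c * y))) := fun x t => by
    have h := sumMod_shift hd (hp1 x) t
    beta_reduce
    rw [← h]
    exact sumMod_congr fun y => by ring_nf
  exact (sumMod_mul_coprime hc hp2 hcd.symm).symm

/-- Product form of the Chinese remainder theorem. -/
lemma sumMod_crt_mul {c d : Eis} (hc : c ≠ 0) (hd : d ≠ 0) {f g : Eis → ℂ}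
    (F : Eis → ℂ) (hcd : IsCoprime c d) (hF : PMod (c * d) F)
    (h : ∀ x y, F (d * x + c * y) = f x * g y) :
    sumMod (c * d) F = sumMod c f * sumMod d g := by
  rw [sumMod_crt hc hd hcd hF]
  rw [sumMod_congr (g := fun x => f x * sumMod d g) (fun x => ?_), sumMod_mul_right hc]
  rw [sumMod_congr (g := fun y => f x * g y) (fun y => h x y), sumMod_mul_left hd]

/-! ### Boxes -/

lemma isCRS_box {n : ℕ} (hn : n ≠ 0) :
    open Classical in IsCRS (n : Eis) ((Finset.range n ×ˢ Finset.range n).image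
      (fun p : ℕ × ℕ => (⟨(p.1 : ℤ), (p.2 : ℤ)⟩ : Eis))) := by
  classical
  have hn' : (n : ℤ) ≠ 0 := by exact_mod_cast hn
  have hpos : (0 : ℤ) < n := by positivity
  rw [isCRS_iff]
  have hdvd : ∀ z : Eis, ((n : ℕ) : Eis) ∣ z ↔ (n : ℤ) ∣ z.re ∧ (n : ℤ) ∣ z.im := by
    intro z
    have := @intCast_dvd_iff (n : ℤ) z
    rwa [Int.cast_natCast] at this
  constructor
  · intro x
    refine ⟨⟨x.re % n, x.im % n⟩, ?_, ?_⟩
    · rw [Finset.mem_image]
      refine ⟨((x.re % n).toNat, (x.im % n).toNat), ?_, ?_⟩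
      · rw [Finset.mem_product, Finset.mem_range, Finset.mem_range]
        constructor
        · have h1 := Int.emod_lt_of_pos x.re hpos
          have h2 := Int.emod_nonneg x.re hn'
          show (x.re % n).toNat < n
          omega
        · have h1 := Int.emod_lt_of_pos x.im hpos
          have h2 := Int.emod_nonneg x.im hn'
          show (x.im % n).toNat < n
          omega
      · apply ext'
        · exact Int.toNat_of_nonneg (Int.emod_nonneg _ hn')
        · exact Int.toNat_of_nonneg (Int.emod_nonneg _ hn')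
    · rw [hdvd]
      constructor
      · exact Int.dvd_self_sub_emod
      · exact Int.dvd_self_sub_emod
  · intro s hs t ht h
    obtain ⟨p, hp, rfl⟩ := Finset.mem_image.mp hs
    obtain ⟨q, hq, rfl⟩ := Finset.mem_image.mp ht
    rw [Finset.mem_product, Finset.mem_range, Finset.mem_range] at hp hq
    rw [hdvd] at h
    obtain ⟨h1, h2⟩ := h
    have e1 : (p.1 : ℤ) = q.1 := by
      have h1' : (n : ℤ) ∣ (p.1 : ℤ) - q.1 := h1
      have := Int.emod_emod_of_dvd
      have h3 := (Int.emod_eq_emod_iff_emod_sub_eq_zero).mpr (Int.emod_eq_zero_of_dvd h1')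
      rw [Int.emod_eq_of_lt (by positivity) (by exact_mod_cast hp.1),
        Int.emod_eq_of_lt (by positivity) (by exact_mod_cast hq.1)] at h3
      exact h3
    have e2 : (p.2 : ℤ) = q.2 := by
      have h1' : (n : ℤ) ∣ (p.2 : ℤ) - q.2 := h2
      have h3 := (Int.emod_eq_emod_iff_emod_sub_eq_zero).mpr (Int.emod_eq_zero_of_dvd h1')
      rw [Int.emod_eq_of_lt (by positivity) (by exact_mod_cast hp.2),
        Int.emod_eq_of_lt (by positivity) (by exact_mod_cast hq.2)] at h3
      exact h3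
    rw [e1, e2]

lemma sumMod_natCast {n : ℕ} (hn : n ≠ 0) {f : Eis → ℂ} (hf : PMod (n : Eis) f) :
    sumMod (n : Eis) f = ∑ a ∈ Finset.range n, ∑ b ∈ Finset.range n, f ⟨(a : ℤ), (b : ℤ)⟩ := by
  classical
  rw [sumMod_eq_sum (isCRS_box hn) hf, Finset.sum_image, Finset.sum_product]
  intro p _ q _ h
  have h1 := congrArg QuadraticAlgebra.re h
  have h2 := congrArg QuadraticAlgebra.im h
  simp only [Nat.cast_inj] at h1 h2
  exact Prod.ext h1 h2

/-- The box of side `nm c` contains every class modulo `c` exactly `nm c` times. -/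
lemma sum_box_nm {c : Eis} (hc : c ≠ 0) {f : Eis → ℂ} (hf : PMod c f) :
    ∑ a ∈ Finset.range (nm c), ∑ b ∈ Finset.range (nm c), f ⟨(a : ℤ), (b : ℤ)⟩ =
      nm c * sumMod c f := by
  have h0 : nm c ≠ 0 := (nm_pos.mpr hc).ne'
  have hcc : Eis.conj c ≠ 0 := by
    intro h; apply hc; rw [← Eis.conj_conj c, h, conj_zero]
  have hf' : PMod ((nm c : ℕ) : Eis) f := by rw [← Eis.mul_conj]; exact hf.mono (dvd_mul_right _ _)
  rw [← sumMod_natCast h0 hf', ← Eis.mul_conj, sumMod_of_pmod_dvd hc hcc hf, nm_conj]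

lemma sumMod_conj {c : Eis} (hc : c ≠ 0) {f : Eis → ℂ} (hf : PMod (Eis.conj c) f) :
    sumMod (Eis.conj c) f = sumMod c (fun x => f (Eis.conj x)) := by
  classical
  have hf' : PMod c (fun x => f (Eis.conj x)) := fun x t => by
    beta_reduce
    rw [conj_add, conj_mul, hf]
  have hinj : Function.Injective Eis.conj := fun x y h => by
    rw [← Eis.conj_conj x, h, Eis.conj_conj]
  have hcrs : IsCRS (Eis.conj c) ((crs c).map ⟨Eis.conj, hinj⟩) := by
    rw [isCRS_iff]
    constructor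
    · intro x
      obtain ⟨s, ⟨hs, hd⟩, -⟩ := isCRS_crs hc (Eis.conj x)
      refine ⟨Eis.conj s, Finset.mem_map.mpr ⟨s, hs, rfl⟩, ?_⟩
      have := conj_dvd_conj hd
      rwa [conj_sub, Eis.conj_conj] at this
    · intro s hs t ht h
      obtain ⟨p, hp, rfl⟩ := Finset.mem_map.mp hs
      obtain ⟨q, hq, rfl⟩ := Finset.mem_map.mp ht
      simp only [Function.Embedding.coeFn_mk] at h ⊢
      rw [← conj_sub] at h
      have := conj_dvd_conj h
      rw [Eis.conj_conj, Eis.conj_conj] at this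
      rw [(isCRS_crs hc).inj hp hq this]
  rw [sumMod_eq_sum hcrs hf, sumMod_eq_sum (isCRS_crs hc) hf', Finset.sum_map]
  rfl

/-! ### Infinite sums split in residue classes -/

/-- `Eis ≃ S × Eis` for a complete residue system `S`. -/
def crsEquiv {c : Eis} (hc : c ≠ 0) {S : Finset Eis} (hS : IsCRS c S) : S × Eis ≃ Eis :=
  Equiv.ofBijective (fun p => (p.1 : Eis) + c * p.2) (by
    constructor
    · rintro ⟨s, x⟩ ⟨t, y⟩ h
      simp only at h
      have h1 : (s : Eis) = t := hS.inj s.2 t.2 ⟨y - x, by linear_combination h⟩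
      have h2 : s = t := Subtype.ext h1
      subst h2
      have h3 : c * x = c * y := by linear_combination h
      rw [mul_left_cancel₀ hc h3]
    · intro x
      obtain ⟨s, ⟨hs, ⟨y, hy⟩⟩, -⟩ := hS x
      exact ⟨(⟨s, hs⟩, y), by simp only; linear_combination (-1 : Eis) * hy⟩)

@[simp] lemma crsEquiv_apply {c : Eis} (hc : c ≠ 0) {S : Finset Eis} (hS : IsCRS c S)
    (p : S × Eis) : crsEquiv hc hS p = (p.1 : Eis) + c * p.2 := rfl

lemma tsum_eq_sum_crs {c : Eis} (hc : c ≠ 0) {S : Finset Eis} (hS : IsCRS c S) {φ : Eis → ℂ}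
    (hφ : Summable φ) : ∑' x, φ x = ∑ s ∈ S, ∑' t : Eis, φ (s + c * t) := by
  rw [← (crsEquiv hc hS).tsum_eq, Summable.tsum_prod, tsum_fintype]
  · simp only [crsEquiv_apply]
    exact Finset.sum_coe_sort S (fun s => ∑' t : Eis, φ (s + c * t))
  · exact (crsEquiv hc hS).summable_iff.mpr hφ

lemma summable_class {c : Eis} (hc : c ≠ 0) {φ : Eis → ℂ} (hφ : Summable φ) (a : Eis) :
    Summable (fun t : Eis => φ (a + c * t)) := by
  refine hφ.comp_injective (i := fun t : Eis => a + c * t) ?_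
  intro x y h
  exact mul_left_cancel₀ hc (add_left_cancel h)

/-- Splitting a sum with a periodic factor into residue classes. -/
lemma tsum_periodic {c : Eis} (hc : c ≠ 0) {f : Eis → ℂ} (hf : PMod c f) {φ : Eis → ℂ}
    (hφ : Summable φ) (hfφ : Summable (fun x => f x * φ x)) :
    ∑' x, f x * φ x = sumMod c (fun a => f a * ∑' t : Eis, φ (a + c * t)) := by
  have hp : PMod c (fun a => f a * ∑' t : Eis, φ (a + c * t)) := fun x t => by
    beta_reduce
    rw [hf]
    congr 1
    rw [← (Equiv.addRight t).tsum_eq (fun s : Eis => φ (x + c * s))]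
    exact tsum_congr fun s => by simp only [Equiv.coe_addRight]; ring_nf
  rw [tsum_eq_sum_crs hc (isCRS_crs hc) hfφ, sumMod_eq_sum (isCRS_crs hc) hp]
  refine Finset.sum_congr rfl fun s _ => ?_
  rw [← tsum_mul_left]
  exact tsum_congr fun t => by rw [hf]

end Crest.Agent.R012
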