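import Crest.Agent.R012.Poisson_381
import Crest.Agent.R012.Quot_666
import Crest.Agent.R012.AddChar_666
import Crest.Agent.R012.Strip_880

/-!
# Row 12, item MC: definitions for the constant `|ρ(1)|²` (shared by 566 and 777)

For `w, v : ℝ → ℝ` smooth with compact support in `(0, ∞)`:

* `Mg v B a = Σ_{b primary} gs a b / √N(b) · v(N(b)/B)`
* `Sw w v A B = Σ_{a primary} w(N(a)/A) Mg v B a`
* `Zc = Σ_{k primary} N(k)⁻²`, `Dc = (2π/(9√3))/Zc`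
* `Wt w t = Re ∫_ℂ w(|z|²) e(z t) dz`, `Iw w = ∫_0^∞ Wt w u · u^(-1/3) du`
* `mel v s = ∫_0^∞ v(x) x^(s-1) dx`

Statement `MC1Statement` : `Sw w v (B^(1-δ)) B ~ (8π/81) Dc (Iw w) (mel v (5/6)) B^((2/3)(1-δ)+5/6)`.
-/

set_option autoImplicit false

noncomputable section

open MeasureTheory Complex Set Filter Topology
open scoped ContDiff

namespace Crest.Agent.R012.MC

open Crest.Agent.R012 Crest.Agent.R012.Eis

/-- Smooth weights with compact support in `(0, ∞)`. -/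
structure Wgt (w : ℝ → ℝ) : Prop where
  smooth : ContDiff ℝ ∞ w
  cpt : HasCompactSupport w
  pos : tsupport w ⊆ Set.Ioi 0

open Classical in
/-- `Σ_{b primary} gs a b / √N(b) · v(N(b)/B)`. -/
def Mg (v : ℝ → ℝ) (B : ℝ) (a : Eis) : ℂ :=
  ∑' b : Eis, if IsPrim b then gs a b / (Real.sqrt (nm b) : ℂ) * (v (nm b / B) : ℂ) else 0

open Classical in
/-- `Σ_{a primary} w(N(a)/A) Mg v B a`. -/
def Sw (w v : ℝ → ℝ) (A B : ℝ) : ℂ :=
  ∑' a : Eis, if IsPrim a then (w (nm a / A) : ℂ) * Mg v B a else 0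

open Classical in
/-- `Σ_{k primary} N(k)⁻²`. -/
def Zc : ℝ := ∑' k : Eis, if IsPrim k then ((nm k : ℝ) ^ 2)⁻¹ else 0

/-- density `D = (2π/(9√3)) / Z` -/
def Dc : ℝ := 2 * Real.pi / (9 * Real.sqrt 3) / Zc

/-- the radial transform of `w(|z|²)` -/
def Wt (w : ℝ → ℝ) (t : ℝ) : ℝ := (∫ z : ℂ, (w (‖z‖ ^ 2) : ℂ) * eC (z * (t : ℂ))).re

/-- `∫_0^∞ Wt w u · u^(-1/3) du` -/
def Iw (w : ℝ → ℝ) : ℝ := ∫ u in Set.Ioi (0 : ℝ), Wt w u * u ^ (-(1 / 3) : ℝ)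

/-- Mellin transform -/
def mel (v : ℝ → ℝ) (s : ℝ) : ℝ := ∫ x in Set.Ioi (0 : ℝ), v x * x ^ (s - 1)

/-- The statement of item MC1 (dual side of the first moment). -/
def MC1Statement : Prop :=
  ∀ w v : ℝ → ℝ, Wgt w → Wgt v → ∀ δ : ℝ, 0 < δ → δ ≤ 1 / 20 →
    Tendsto (fun B : ℝ => Sw w v (B ^ (1 - δ)) B / ((B ^ (2 / 3 * (1 - δ) + 5 / 6) : ℝ) : ℂ))
      atTop (𝓝 ((8 * Real.pi / 81 * Dc * Iw w * mel v (5 / 6) : ℝ) : ℂ))

/-! ### supports -/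

lemma Wgt.exists_bounds {w : ℝ → ℝ} (hw : Wgt w) :
    ∃ c1 c2 : ℝ, 0 < c1 ∧ c1 < c2 ∧ ∀ x, w x ≠ 0 → c1 ≤ x ∧ x ≤ c2 := by
  have hK : IsCompact (tsupport w) := hw.cpt
  rcases (tsupport w).eq_empty_or_nonempty with h | h
  · refine ⟨1, 2, one_pos, one_lt_two, fun x hx => ?_⟩
    have : x ∈ tsupport w := subset_tsupport w hx
    rw [h] at this
    exact this.elim
  · obtain ⟨a, ha, ha'⟩ := hK.exists_isLeast h
    obtain ⟨b, hb, hb'⟩ := hK.exists_isGreatest h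
    have ha0 : 0 < a := hw.pos ha
    have hab : a ≤ b := ha' hb
    refine ⟨a, b + 1, ha0, by linarith, fun x hx => ?_⟩
    have hx' : x ∈ tsupport w := subset_tsupport w hx
    exact ⟨ha' hx', by linarith [hb' hx']⟩

lemma Wgt.bounded {w : ℝ → ℝ} (hw : Wgt w) : ∃ M : ℝ, 0 < M ∧ ∀ x, |w x| ≤ M := by
  obtain ⟨C, hC⟩ := hw.cpt.exists_bound_of_continuous hw.smooth.continuous
  refine ⟨|C| + 1, by positivity, fun x => ?_⟩
  have := hC x
  rw [Real.norm_eq_abs] at this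
  linarith [le_abs_self C]

lemma finite_nm_le (X : ℝ) : {b : Eis | (nm b : ℝ) ≤ X}.Finite := by
  refine (Finset.finite_toSet (ball ⌊X⌋₊)).subset fun b hb => ?_
  simp only [Finset.mem_coe, mem_ball]
  exact Nat.le_floor hb

lemma Wgt.finite_support {w : ℝ → ℝ} (hw : Wgt w) {A : ℝ} (hA : 0 < A) :
    {b : Eis | w (nm b / A) ≠ 0}.Finite := by
  obtain ⟨c1, c2, h1, h2, h⟩ := hw.exists_bounds
  refine (finite_nm_le (c2 * A)).subset fun b hb => ?_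
  have := (h _ hb).2
  rw [div_le_iff₀ hA] at this
  exact this

end Crest.Agent.R012.MC
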