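import Crest.Agent.R012.Defs
import Crest.Agent.R012.Base_666
import Crest.Agent.R012.Strip_880
import Crest.Agent.R012.CstDefs_566

/-!
# Row 12, item MC2: the left side of the constant

Given the type I mean square asymptotics `TI ρ r` and the relations `RhoR ρ r` between the residues,
the first moment `SwR r w v A B = Σ_{a primary} w(N(a)/A) Σ_{b primary} g~(ra,b) v(N(b)/B)` with
`A = B^(1-δ)` is asymptotic to `|ρ(r)|² Z w^(2/3) v^(5/6) A^(2/3) B^(5/6)`.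
-/

set_option autoImplicit false
set_option linter.unusedSimpArgs false
set_option linter.unusedVariables false

noncomputable section

open Complex Filter Topology

namespace Crest.Agent.R012.Rho777

open Crest.Agent.R012 Crest.Agent.R012.Eis Crest.Agent.R012.MC

/-- `g~(r,a) = gs r a / √N(a)`. -/
def Gr (r a : Eis) : ℂ := gs r a / (Real.sqrt (nm a) : ℂ)

open Classical in
/-- The first moment, twisted by `r`. -/
def SwR (r : Eis) (w v : ℝ → ℝ) (A B : ℝ) : ℂ :=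
  ∑' a : Eis, if IsPrim a then ((w (nm a / A) : ℝ) : ℂ) * Mg v B (r * a) else 0

/-- Type I mean square asymptotics along the multiples of `r`. -/
def TI (ρ : Eis → ℂ) (r : Eis) : Prop :=
  ∀ v : ℝ → ℝ, Wgt v → ∀ ε : ℝ, 0 < ε → ∃ C : ℝ, ∀ A B : ℝ, 1 ≤ A → A ≤ B →
    ∑ a ∈ primBall ⌊A⌋₊,
      ‖Mg v B (r * a) - ρ (r * a) * ((mel v (5 / 6) * B ^ (5 / 6 : ℝ) : ℝ) : ℂ)‖ ^ 2
      ≤ C * (A * B) * (A * B) ^ ε

/-- The relations between the residues `ρ(r a)`, `a` primary. -/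
structure RhoR (ρ : Eis → ℂ) (r : Eis) : Prop where
  cube : ∀ a k : Eis, IsPrim a → IsPrim k → Squarefree a →
    ρ (r * (a * k ^ 3)) =
      (starRingEnd ℂ) (Gr r a) * (((nm a : ℝ) ^ (-1 / 6 : ℝ) : ℝ) : ℂ) * ρ r
  zero : ∀ a : Eis, IsPrim a →
    (¬ ∃ b k : Eis, IsPrim b ∧ IsPrim k ∧ Squarefree b ∧ a = b * k ^ 3) → ρ (r * a) = 0

/-! ### sums over primary elements -/

open Classical in
lemma tsum_prim_eq {N : ℕ} {F : Eis → ℂ} (hF : ∀ a, IsPrim a → N < nm a → F a = 0) :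
    (∑' a : Eis, if IsPrim a then F a else 0) = ∑ a ∈ primBall N, F a := by
  rw [tsum_eq_sum (s := primBall N)]
  · apply Finset.sum_congr rfl
    intro a ha
    rw [if_pos (mem_primBall.mp ha).2]
  · intro a ha
    rw [mem_primBall, not_and_or] at ha
    by_cases h : IsPrim a
    · rw [if_pos h]
      rcases ha with ha | ha
      · exact hF a h (not_le.mp ha)
      · exact absurd h ha
    · rw [if_neg h]

lemma card_primBall (N : ℕ) : ((primBall N).card : ℝ) ≤ 16 * N := by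
  obtain ⟨hf, hc⟩ := Crest.Agent.R012.Strip880.disc0_ne_card (Real.sqrt N) (Real.sqrt_nonneg _)
  have hsub : ((primBall N : Finset Eis) : Set Eis) ⊆
      {t : Eis | t ≠ 0 ∧ ‖toC t‖ ≤ Real.sqrt N} := by
    intro t ht
    have h := mem_primBall.mp (Finset.mem_coe.mp ht)
    refine ⟨h.2.ne_zero, ?_⟩
    rw [norm_toC]
    exact Real.sqrt_le_sqrt (by exact_mod_cast h.1)
  have h1 : (primBall N).card ≤ {t : Eis | t ≠ 0 ∧ ‖toC t‖ ≤ Real.sqrt N}.ncard := by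
    rw [← Set.ncard_coe_finset]
    exact Set.ncard_le_ncard hsub hf
  calc ((primBall N).card : ℝ) ≤ _ := by exact_mod_cast h1
    _ ≤ 16 * (Real.sqrt N) ^ 2 := hc
    _ = 16 * N := by rw [Real.sq_sqrt (Nat.cast_nonneg _)]

lemma prim_nm_pos {a : Eis} (h : IsPrim a) : 1 ≤ nm a := nm_pos.mpr h.ne_zero

/-! ### summability of `N(k)^(-s)` -/

lemma summable_nm {s : ℝ} (hs : 1 < s) : Summable fun z : Eis => (nm z : ℝ) ^ (-s) := by
  have h := EisensteinSeries.summable_one_div_norm_rpow (k := 2 * s) (by linarith)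
  let e : Eis ≃ (Fin 2 → ℤ) :=
    { toFun := fun z => ![z.re, z.im]
      invFun := fun f => ⟨f 0, f 1⟩
      left_inv := fun z => by cases z; rfl
      right_inv := fun f => by funext i; fin_cases i <;> rfl }
  have h2 : Summable fun z : Eis => (4 / 3 : ℝ) ^ s * ‖e z‖ ^ (-(2 * s)) :=
    ((e.summable_iff (f := fun x : Fin 2 → ℤ => ‖x‖ ^ (-(2 * s)))).mpr h).mul_left _
  refine Summable.of_nonneg_of_le (fun z => by positivity) (fun z => ?_) h2
  rcases eq_or_ne z 0 with rfl | hz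
  · simp only [nm_zero, Nat.cast_zero]
    rw [Real.zero_rpow (by linarith)]
    positivity
  have hpos : (0 : ℝ) < nm z := by exact_mod_cast nm_pos.mpr hz
  have hn : ‖e z‖ ^ 2 ≤ 4 / 3 * (nm z : ℝ) := by
    have h1 : ((nm z : ℕ) : ℝ) = (z.re : ℝ) ^ 2 - z.re * z.im + z.im ^ 2 := by
      have := nm_cast z
      exact_mod_cast this
    have h2 : ‖e z‖ = max |(z.re : ℝ)| |(z.im : ℝ)| := by
      have : ‖e z‖ = max ‖z.re‖ ‖z.im‖ := by
        apply le_antisymm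
        · rw [pi_norm_le_iff_of_nonneg (by positivity)]
          intro i
          fin_cases i
          · exact le_max_left _ _
          · exact le_max_right _ _
        · apply max_le
          · exact norm_le_pi_norm (e z) 0
          · exact norm_le_pi_norm (e z) 1
      rw [this]
      simp [Int.norm_eq_abs]
    rw [h2, h1]
    rcases max_cases |(z.re : ℝ)| |(z.im : ℝ)| with ⟨h, _⟩ | ⟨h, _⟩
    · rw [h, sq_abs]; nlinarith [sq_nonneg ((z.re : ℝ) - 2 * z.im)]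
    · rw [h, sq_abs]; nlinarith [sq_nonneg ((z.im : ℝ) - 2 * z.re)]
  have he : 0 < ‖e z‖ := by
    rw [norm_pos_iff]
    intro h
    apply hz
    have : z = e.symm (e z) := (e.symm_apply_apply z).symm
    rw [this, h]; rfl
  calc (nm z : ℝ) ^ (-s) = ((nm z : ℝ) ^ s)⁻¹ := Real.rpow_neg hpos.le _
    _ ≤ (((3 / 4 : ℝ) * ‖e z‖ ^ 2) ^ s)⁻¹ := by
        apply inv_anti₀ (by positivity)
        apply Real.rpow_le_rpow (by positivity) (by linarith) (by linarith)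
    _ = (4 / 3 : ℝ) ^ s * ‖e z‖ ^ (-(2 * s)) := by
        rw [Real.mul_rpow (by norm_num) (by positivity), mul_inv, ← Real.inv_rpow (by norm_num),
          Real.rpow_neg he.le, ← Real.rpow_natCast (‖e z‖) 2, ← Real.rpow_mul he.le]
        norm_num

open Classical in
lemma summable_prim {s : ℝ} (hs : 1 < s) :
    Summable fun k : Eis => if IsPrim k then (nm k : ℝ) ^ (-s) else 0 := by
  refine Summable.of_nonneg_of_le (fun k => ?_) (fun k => ?_) (summable_nm hs)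
  · split_ifs <;> positivity
  · split_ifs
    · exact le_rfl
    · positivity

open Classical in
/-- `Z` with real exponent. -/
def Zk : ℝ := ∑' k : Eis, if IsPrim k then (nm k : ℝ) ^ (-2 : ℝ) else 0

lemma Zk_eq : Zk = Zc := by
  unfold Zk Zc
  apply tsum_congr
  intro k
  split_ifs
  · rw [show (-2 : ℝ) = -((2 : ℕ) : ℝ) by norm_num, Real.rpow_neg (Nat.cast_nonneg _),
      Real.rpow_natCast]
  · rfl

lemma Zk_pos : 0 < Zk := by
  classical
  unfold Zk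
  have hs := summable_prim (s := 2) (by norm_num)
  refine hs.tsum_pos (fun k => ?_) 1 ?_
  · split_ifs <;> positivity
  · rw [if_pos isPrim_one]; simp

/-! ### bumps -/

lemma wgt_nonpos {v : ℝ → ℝ} (h : Wgt v) {x : ℝ} (hx : x ≤ 0) : v x = 0 := by
  by_contra hne
  have := h.pos (subset_tsupport v (Function.mem_support.mpr hne))
  exact absurd this (by simpa using hx)

lemma wgt_bound {v : ℝ → ℝ} (h : Wgt v) : ∃ K : ℝ, 0 < K ∧ ∀ x, |v x| ≤ K := by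
  obtain ⟨C, hC⟩ := h.smooth.continuous.bounded_above_of_compact_support h.cpt
  exact ⟨max C 1, by positivity, fun x => (hC x).trans (le_max_left _ _)⟩

lemma wgt_mul_rpow {w : ℝ → ℝ} (h : Wgt w) (c : ℝ) : Wgt (fun x => w x * x ^ c) := by
  have hsupp : tsupport (fun x => w x * x ^ c) ⊆ tsupport w := by
    apply closure_mono
    intro x hx
    simp only [Function.mem_support] at hx ⊢
    exact left_ne_zero_of_mul hx
  refine ⟨?_, ?_, hsupp.trans h.pos⟩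
  · rw [contDiff_iff_contDiffAt]
    intro x
    by_cases hx : 0 < x
    · exact h.smooth.contDiffAt.mul (Real.contDiffAt_rpow_const_of_ne hx.ne')
    · have hx' : x ∉ tsupport w := fun h' => hx (h.pos h')
      have : (fun x => w x * x ^ c) =ᶠ[𝓝 x] fun _ => 0 := by
        filter_upwards [(notMem_tsupport_iff_eventuallyEq.mp hx')] with y hy
        simp [hy]
      exact contDiffAt_const.congr_of_eventuallyEq this
  · exact h.cpt.mul_right

/-! ### the inner sum `a = 1` -/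

/-- For a weight vanishing on `[1, ∞)` the sums are finite. -/
lemma Mg_eq_sum {v : ℝ → ℝ} (hv1 : ∀ x, 1 ≤ x → v x = 0) {B : ℝ} (hB : 0 < B) (a : Eis) {N : ℕ}
    (hN : B ≤ N) :
    Mg v B a = ∑ b ∈ primBall N, gs a b / (Real.sqrt (nm b) : ℂ) * ((v (nm b / B) : ℝ) : ℂ) := by
  unfold Mg
  apply tsum_prim_eq
  intro b _ hb
  have : v (nm b / B) = 0 := by
    apply hv1
    rw [le_div_iff₀ hB, one_mul]
    have : (N : ℝ) < nm b := by exact_mod_cast hb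
    linarith
  rw [this]; simp

lemma Mg_eq_zero {v : ℝ → ℝ} (hv1 : ∀ x, 1 ≤ x → v x = 0) {B : ℝ} (hB : 0 < B) (hB1 : B ≤ 1)
    (a : Eis) : Mg v B a = 0 := by
  classical
  unfold Mg
  refine Eq.trans (tsum_congr (fun b => ?_)) (tsum_zero (α := ℂ) (β := Eis))
  split_ifs with hb
  · have : v (nm b / B) = 0 := by
      apply hv1
      rw [le_div_iff₀ hB, one_mul]
      have : (1 : ℝ) ≤ nm b := by exact_mod_cast prim_nm_pos hb
      linarith
    rw [this]; simp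
  · rfl

lemma Mg_r_bound {ρ : Eis → ℂ} {r : Eis} (h1 : TI ρ r) {u : ℝ → ℝ} (hu : Wgt u)
    (hu1 : ∀ x, 1 ≤ x → u x = 0) :
    ∃ C : ℝ, 0 ≤ C ∧ ∀ Y : ℝ, 0 < Y →
      ‖Mg u Y r - ρ r * ((mel u (5 / 6) * Y ^ (5 / 6 : ℝ) : ℝ) : ℂ)‖ ≤ C * Y ^ (2 / 3 : ℝ) := by
  obtain ⟨C, hC⟩ := h1 u hu (1 / 3) (by norm_num)
  refine ⟨Real.sqrt |C| + ‖ρ r‖ * |mel u (5 / 6)|, by positivity, fun Y hY => ?_⟩
  rcases le_or_gt 1 Y with hY1 | hY1
  · have h := hC 1 Y le_rfl hY1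
    have h2 : ‖Mg u Y r - ρ r * ((mel u (5 / 6) * Y ^ (5 / 6 : ℝ) : ℝ) : ℂ)‖ ^ 2
        ≤ C * (1 * Y) * (1 * Y) ^ (1 / 3 : ℝ) := by
      refine le_trans ?_ h
      have h3 := Finset.single_le_sum (f := fun a => ‖Mg u Y (r * a) -
        ρ (r * a) * ((mel u (5 / 6) * Y ^ (5 / 6 : ℝ) : ℝ) : ℂ)‖ ^ 2) (s := primBall ⌊(1 : ℝ)⌋₊)
        (a := 1) (fun i _ => by positivity) (by rw [mem_primBall]; exact ⟨by simp, isPrim_one⟩)
      simpa using h3
    have h3 : C * (1 * Y) * (1 * Y) ^ (1 / 3 : ℝ) ≤ (Real.sqrt |C| * Y ^ (2 / 3 : ℝ)) ^ 2 := by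
      rw [mul_pow, Real.sq_sqrt (abs_nonneg _), one_mul, ← Real.rpow_natCast (Y ^ (2 / 3 : ℝ)) 2,
        ← Real.rpow_mul hY.le, mul_assoc]
      have : Y * Y ^ (1 / 3 : ℝ) = Y ^ (2 / 3 * ((2 : ℕ) : ℝ) : ℝ) := by
        nth_rewrite 1 [← Real.rpow_one Y]
        rw [← Real.rpow_add hY]; norm_num
      rw [this]
      exact mul_le_mul_of_nonneg_right (le_abs_self C) (by positivity)
    have h4 := abs_le_of_sq_le_sq (h2.trans h3) (by positivity)
    rw [abs_of_nonneg (norm_nonneg _)] at h4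
    refine h4.trans ?_
    apply mul_le_mul_of_nonneg_right _ (by positivity)
    have : 0 ≤ ‖ρ r‖ * |mel u (5 / 6)| := by positivity
    linarith
  · rw [Mg_eq_zero hu1 hY hY1.le, zero_sub, norm_neg, norm_mul, Complex.norm_real, norm_mul,
      Real.norm_eq_abs, Real.norm_eq_abs, abs_of_pos (Real.rpow_pos_of_pos hY _)]
    have : Y ^ (5 / 6 : ℝ) ≤ Y ^ (2 / 3 : ℝ) :=
      Real.rpow_le_rpow_of_exponent_ge hY hY1.le (by norm_num)
    have h0 : 0 ≤ Real.sqrt |C| := Real.sqrt_nonneg _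
    have h1 : 0 ≤ ‖ρ r‖ * |mel u (5 / 6)| := by positivity
    nlinarith [Real.rpow_pos_of_pos hY (2 / 3 : ℝ),
      mul_nonneg h0 (Real.rpow_pos_of_pos hY (2 / 3 : ℝ)).le, mul_le_mul_of_nonneg_left this h1]

open Classical in
/-- The inner sum over squarefree `a₁`. -/
def Inn (r : Eis) (w : ℝ → ℝ) (Y : ℝ) : ℂ :=
  ∑' a : Eis, if IsPrim a ∧ Squarefree a then
    ((w (nm a / Y) : ℝ) : ℂ) * (starRingEnd ℂ (Gr r a) * (((nm a : ℝ) ^ (-1 / 6 : ℝ) : ℝ) : ℂ)) else 0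

lemma Inn_eq {r : Eis} (hG : ∀ c, IsPrim c → ¬ Squarefree c → gs r c = 0) {w : ℝ → ℝ}
    (hw1 : ∀ x, 1 ≤ x → w x = 0) {Y : ℝ} (hY : 0 < Y) :
    Inn r w Y = ((Y ^ (-1 / 6 : ℝ) : ℝ) : ℂ) *
      (starRingEnd ℂ) (Mg (fun x => w x * x ^ (-1 / 6 : ℝ)) Y r) := by
  classical
  have hu1 : ∀ x, 1 ≤ x → (fun x => w x * x ^ (-1 / 6 : ℝ)) x = 0 := by
    intro x hx; simp [hw1 x hx]
  obtain ⟨N, hN⟩ := exists_nat_ge Y
  rw [Mg_eq_sum hu1 hY r hN, map_sum, Finset.mul_sum]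
  unfold Inn
  have h : (∑' a : Eis, if IsPrim a ∧ Squarefree a then
    ((w (nm a / Y) : ℝ) : ℂ) * (starRingEnd ℂ (Gr r a) * (((nm a : ℝ) ^ (-1 / 6 : ℝ) : ℝ) : ℂ)) else 0)
    = ∑' a : Eis, if IsPrim a then (if Squarefree a then
    ((w (nm a / Y) : ℝ) : ℂ) * (starRingEnd ℂ (Gr r a) * (((nm a : ℝ) ^ (-1 / 6 : ℝ) : ℝ) : ℂ)) else 0)
      else 0 := by
    apply tsum_congr
    intro a
    by_cases h1 : IsPrim a <;> by_cases h2 : Squarefree a <;> simp [h1, h2]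
  rw [h, tsum_prim_eq (N := N)]
  · apply Finset.sum_congr rfl
    intro a ha
    have hap := (mem_primBall.mp ha).2
    have hpos : (0 : ℝ) < nm a := by exact_mod_cast prim_nm_pos hap
    split_ifs with hsq
    · rw [Gr, map_mul, Complex.conj_ofReal, map_div₀, Complex.conj_ofReal]
      have : ((nm a : ℝ) ^ (-1 / 6 : ℝ)) = Y ^ (-1 / 6 : ℝ) * ((nm a : ℝ) / Y) ^ (-1 / 6 : ℝ) := by
        rw [← Real.mul_rpow hY.le (by positivity)]
        congr 1
        field_simp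
      rw [this]
      push_cast
      ring
    · rw [hG a hap hsq]; simp
  · intro a hap ha
    have : w (nm a / Y) = 0 := by
      apply hw1
      rw [le_div_iff₀ hY, one_mul]
      have : (N : ℝ) < nm a := by exact_mod_cast ha
      linarith
    rw [this]; simp

lemma Inn_bound {r : Eis} (hG : ∀ c, IsPrim c → ¬ Squarefree c → gs r c = 0) {ρ : Eis → ℂ}
    (h1 : TI ρ r) {w : ℝ → ℝ} (hw : Wgt w) (hw1 : ∀ x, 1 ≤ x → w x = 0) :
    ∃ C : ℝ, 0 ≤ C ∧ ∀ Y : ℝ, 0 < Y →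
      ‖Inn r w Y - (starRingEnd ℂ) (ρ r) * ((mel w (2 / 3) * Y ^ (2 / 3 : ℝ) : ℝ) : ℂ)‖
        ≤ C * Y ^ (1 / 2 : ℝ) := by
  have hu : Wgt (fun x => w x * x ^ (-1 / 6 : ℝ)) := wgt_mul_rpow hw _
  obtain ⟨C, hC0, hC⟩ := Mg_r_bound h1 hu (by intro x hx; simp [hw1 x hx])
  refine ⟨C, hC0, fun Y hY => ?_⟩
  have hmel : mel (fun x => w x * x ^ (-1 / 6 : ℝ)) (5 / 6) = mel w (2 / 3) := by
    unfold mel
    apply MeasureTheory.setIntegral_congr_fun measurableSet_Ioi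
    intro x hx
    simp only [Set.mem_Ioi] at hx
    simp only
    rw [mul_assoc, ← Real.rpow_add hx]
    norm_num
  have h := hC Y hY
  rw [hmel] at h
  rw [Inn_eq hG hw1 hY]
  have e : ((Y ^ (-1 / 6 : ℝ) : ℝ) : ℂ) * (starRingEnd ℂ) (Mg (fun x => w x * x ^ (-1 / 6 : ℝ)) Y r)
      - (starRingEnd ℂ) (ρ r) * ((mel w (2 / 3) * Y ^ (2 / 3 : ℝ) : ℝ) : ℂ)
      = ((Y ^ (-1 / 6 : ℝ) : ℝ) : ℂ) * (starRingEnd ℂ)
        (Mg (fun x => w x * x ^ (-1 / 6 : ℝ)) Y r -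
          ρ r * ((mel w (2 / 3) * Y ^ (5 / 6 : ℝ) : ℝ) : ℂ)) := by
    rw [map_sub, map_mul, Complex.conj_ofReal, mul_sub]
    congr 1
    have : Y ^ (2 / 3 : ℝ) = Y ^ (-1 / 6 : ℝ) * Y ^ (5 / 6 : ℝ) := by
      rw [← Real.rpow_add hY]; norm_num
    rw [this]; push_cast; ring
  rw [e, norm_mul, RCLike.norm_conj, Complex.norm_real, Real.norm_eq_abs,
    abs_of_pos (Real.rpow_pos_of_pos hY _)]
  calc Y ^ (-1 / 6 : ℝ) * _ ≤ Y ^ (-1 / 6 : ℝ) * (C * Y ^ (2 / 3 : ℝ)) :=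
        mul_le_mul_of_nonneg_left h (by positivity)
    _ = C * Y ^ (1 / 2 : ℝ) := by
        have : Y ^ (1 / 2 : ℝ) = Y ^ (-1 / 6 : ℝ) * Y ^ (2 / 3 : ℝ) := by
          rw [← Real.rpow_add hY]; norm_num
        rw [this]; ring

/-! ### the sum of `w(N(a)/A) ρ(a)` -/

open Classical in
/-- `R(A) = Σ_{a primary} w(N(a)/A) ρ(ra)` -/
def RR (r : Eis) (w : ℝ → ℝ) (ρ : Eis → ℂ) (A : ℝ) : ℂ :=
  ∑' a : Eis, if IsPrim a then ((w (nm a / A) : ℝ) : ℂ) * ρ (r * a) else 0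

/-- pairs `(k, a)` with `a` squarefree -/
def PP : Set (Eis × Eis) := {p | IsPrim p.1 ∧ IsPrim p.2 ∧ Squarefree p.2}

lemma cube_factor_inj {a k b l : Eis} (ha : IsPrim a) (hk : IsPrim k) (hb : IsPrim b)
    (hl : IsPrim l) (hsa : Squarefree a) (hsb : Squarefree b) (h : a * k ^ 3 = b * l ^ 3) :
    a = b ∧ k = l := by
  -- it suffices that `k` and `l` are associated
  have key : ∀ {a k b l : Eis}, IsPrim a → IsPrim k → IsPrim b → IsPrim l → Squarefree a →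
      Squarefree b → a * k ^ 3 = b * l ^ 3 → k ∣ l := by
    intro a k b l ha hk hb hl hsa hsb h
    classical
    let _ : StrongNormalizationMonoid Eis := UniqueFactorizationMonoid.strongNormalizationMonoid
    rw [UniqueFactorizationMonoid.dvd_iff_normalizedFactors_le_normalizedFactors hk.ne_zero
      hl.ne_zero]
    rw [Multiset.le_iff_count]
    intro p
    by_cases hp : p ∈ UniqueFactorizationMonoid.normalizedFactors k
    swap
    · rw [Multiset.count_eq_zero_of_notMem hp]; exact Nat.zero_le _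
    have hpi : Irreducible p := UniqueFactorizationMonoid.irreducible_of_normalized_factor p hp
    have hpn : normalize p = p := UniqueFactorizationMonoid.normalize_normalized_factor p hp
    have e1 := congrArg UniqueFactorizationMonoid.normalizedFactors h
    rw [UniqueFactorizationMonoid.normalizedFactors_mul ha.ne_zero (pow_ne_zero _ hk.ne_zero),
      UniqueFactorizationMonoid.normalizedFactors_mul hb.ne_zero (pow_ne_zero _ hl.ne_zero),
      UniqueFactorizationMonoid.normalizedFactors_pow,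
      UniqueFactorizationMonoid.normalizedFactors_pow] at e1
    have e2 := congrArg (Multiset.count p) e1
    rw [Multiset.count_add, Multiset.count_add, Multiset.count_nsmul, Multiset.count_nsmul] at e2
    have c1 : Multiset.count p (UniqueFactorizationMonoid.normalizedFactors b) ≤ 1 := by
      have := (UniqueFactorizationMonoid.squarefree_iff_nodup_normalizedFactors hb.ne_zero).mp hsb
      exact Multiset.nodup_iff_count_le_one.mp this p
    omega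
  have h1 := key ha hk hb hl hsa hsb h
  have h2 := key hb hl ha hk hsb hsa h.symm
  have hkl : k = l := hk.eq_of_associated hl (associated_of_dvd_dvd h1 h2)
  refine ⟨?_, hkl⟩
  subst hkl
  exact mul_right_cancel₀ (pow_ne_zero 3 hk.ne_zero) h

/-- The decomposition of `R(A)`. -/
lemma RR_eq {ρ : Eis → ℂ} {r : Eis} (h2 : RhoR ρ r) {w : ℝ → ℝ} (hw1 : ∀ x, 1 ≤ x → w x = 0) {A : ℝ}
    (hA : 0 < A) :
    RR r w ρ A = ρ r * ∑' k : Eis, (open Classical in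
      if IsPrim k then Inn r w (A / (nm k : ℝ) ^ 3) else 0) := by
  classical
  obtain ⟨N, hN⟩ := exists_nat_ge A
  set F : Eis → ℂ := fun a => if IsPrim a then ((w (nm a / A) : ℝ) : ℂ) * ρ (r * a) else 0 with hF
  set f : PP → Eis := fun p => p.1.2 * p.1.1 ^ 3 with hf
  have hinj : Function.Injective f := by
    rintro ⟨⟨k, a⟩, hk, ha, hsa⟩ ⟨⟨l, b⟩, hl, hb, hsb⟩ h
    simp only [hf] at h
    obtain ⟨h1, h2⟩ := cube_factor_inj ha hk hb hl hsa hsb h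
    simp only at h1 h2
    subst h1; subst h2; rfl
  have hsupp : Function.support F ⊆ Set.range f := by
    intro a ha
    simp only [hF, Function.mem_support] at ha
    by_cases hp : IsPrim a
    · rw [if_pos hp] at ha
      by_contra hne
      apply ha
      rw [h2.zero a hp, mul_zero]
      rintro ⟨b, k, hb, hk, hsb, rfl⟩
      exact hne ⟨⟨(k, b), hk, hb, hsb⟩, rfl⟩
    · rw [if_neg hp] at ha; exact absurd rfl ha
  have e1 : RR r w ρ A = ∑' p : PP, F (f p) := by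
    rw [hinj.tsum_eq hsupp]; rfl
  have e2 : (∑' p : PP, F (f p)) = ∑' p : Eis × Eis, PP.indicator (fun p => F (p.2 * p.1 ^ 3)) p :=
    tsum_subtype PP (fun p : Eis × Eis => F (p.2 * p.1 ^ 3))
  have hw0 : ∀ {n : ℕ}, N < n → w (n / A) = 0 := by
    intro n hn
    apply hw1
    rw [le_div_iff₀ hA, one_mul]
    have : (N : ℝ) < n := by exact_mod_cast hn
    linarith
  have hz : ∀ p : Eis × Eis, p ∉ primBall N ×ˢ primBall N →
      PP.indicator (fun p => F (p.2 * p.1 ^ 3)) p = 0 := by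
    rintro ⟨k, a⟩ hp
    by_cases hP : (k, a) ∈ PP
    · rw [Set.indicator_of_mem hP]
      obtain ⟨hk, ha, hsa⟩ := hP
      simp only at hk ha hsa
      have hk1 := prim_nm_pos hk
      have ha1 := prim_nm_pos ha
      have hn : N < nm (a * k ^ 3) := by
        rw [nm_mul, nm_pow]
        by_contra hcon
        push Not at hcon
        apply hp
        simp only [Finset.mem_product, mem_primBall]
        have h3 : nm k ≤ nm k ^ 3 := Nat.le_self_pow (by norm_num) _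
        refine ⟨⟨?_, hk⟩, ⟨?_, ha⟩⟩
        · calc nm k ≤ nm k ^ 3 := h3
            _ ≤ nm a * nm k ^ 3 := Nat.le_mul_of_pos_left _ ha1
            _ ≤ N := hcon
        · calc nm a ≤ nm a * nm k ^ 3 := Nat.le_mul_of_pos_right _ (by positivity)
            _ ≤ N := hcon
      simp only [hF]
      rw [hw0 hn]; simp
    · rw [Set.indicator_of_notMem hP]
  have hsum : Summable fun p : Eis × Eis => PP.indicator (fun p => F (p.2 * p.1 ^ 3)) p :=
    summable_of_ne_finset_zero (s := primBall N ×ˢ primBall N) (fun p hp => hz p hp)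
  rw [e1, e2, hsum.tsum_prod' (fun k => ?_), ← tsum_mul_left]
  · apply tsum_congr
    intro k
    by_cases hk : IsPrim k
    swap
    · rw [if_neg hk, mul_zero]
      refine Eq.trans (tsum_congr (fun a => ?_)) (tsum_zero (α := ℂ) (β := Eis))
      rw [Set.indicator_of_notMem]
      rintro ⟨h, _, _⟩
      exact hk h
    rw [if_pos hk]
    have hkpos : (0 : ℝ) < (nm k : ℝ) ^ 3 := by
      have : (0 : ℝ) < nm k := by exact_mod_cast prim_nm_pos hk
      positivity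
    unfold Inn
    rw [← tsum_mul_left]
    apply tsum_congr
    intro a
    by_cases ha : IsPrim a ∧ Squarefree a
    · have hP : (k, a) ∈ PP := ⟨hk, ha.1, ha.2⟩
      rw [Set.indicator_of_mem hP, if_pos ha]
      simp only [hF]
      rw [if_pos (ha.1.mul (hk.pow 3)), h2.cube a k ha.1 hk ha.2, nm_mul, nm_pow]
      have : ((nm a * nm k ^ 3 : ℕ) : ℝ) / A = (nm a : ℝ) / (A / (nm k : ℝ) ^ 3) := by
        push_cast; field_simp
      rw [this]; ring
    · rw [if_neg ha, mul_zero, Set.indicator_of_notMem]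
      rintro ⟨_, h1, h2⟩
      exact ha ⟨h1, h2⟩
  · exact summable_of_ne_finset_zero (s := primBall N) (fun a ha => hz (k, a) (by
      simp only [Finset.mem_product, not_and]
      exact fun _ => ha))

/-- `R(A) = |ρ(1)|² w^(2/3) Z A^(2/3) + O(A^(1/2))`. -/
lemma RR_bound {r : Eis} (hG : ∀ c, IsPrim c → ¬ Squarefree c → gs r c = 0) {ρ : Eis → ℂ}
    (h1 : TI ρ r) (h2 : RhoR ρ r) {w : ℝ → ℝ} (hw : Wgt w) (hw1 : ∀ x, 1 ≤ x → w x = 0) :
    ∃ C : ℝ, 0 ≤ C ∧ ∀ A : ℝ, 0 < A →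
      ‖RR r w ρ A - ((‖ρ r‖ ^ 2 * mel w (2 / 3) * Zk * A ^ (2 / 3 : ℝ) : ℝ) : ℂ)‖
        ≤ C * A ^ (1 / 2 : ℝ) := by
  classical
  obtain ⟨C, hC0, hC⟩ := Inn_bound hG h1 hw hw1
  set Z2 : ℝ := ∑' k : Eis, if IsPrim k then (nm k : ℝ) ^ (-(3 / 2 : ℝ)) else 0 with hZ2
  have s1 := summable_prim (s := 3 / 2) (by norm_num)
  have s2 := summable_prim (s := 2) (by norm_num)
  have hZ20 : 0 ≤ Z2 := tsum_nonneg (fun k => by split_ifs <;> positivity)
  refine ⟨‖ρ r‖ * (C * Z2), by positivity, fun A hA => ?_⟩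
  rw [RR_eq h2 hw1 hA]
  -- the main term as a tsum
  have hmain : (((‖ρ r‖ ^ 2 * mel w (2 / 3) * Zk * A ^ (2 / 3 : ℝ) : ℝ)) : ℂ)
      = ρ r * ∑' k : Eis, (if IsPrim k then (starRingEnd ℂ) (ρ r) *
        ((mel w (2 / 3) * (A / (nm k : ℝ) ^ 3) ^ (2 / 3 : ℝ) : ℝ) : ℂ) else 0) := by
    have e : ∀ k : Eis, (if IsPrim k then (starRingEnd ℂ) (ρ r) *
        ((mel w (2 / 3) * (A / (nm k : ℝ) ^ 3) ^ (2 / 3 : ℝ) : ℝ) : ℂ) else 0)
        = ((starRingEnd ℂ) (ρ r) * ((mel w (2 / 3) * A ^ (2 / 3 : ℝ) : ℝ) : ℂ)) *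
          (((if IsPrim k then (nm k : ℝ) ^ (-(2 : ℝ)) else 0 : ℝ)) : ℂ) := by
      intro k
      split_ifs with hk
      · have hkpos : (0 : ℝ) < nm k := by exact_mod_cast prim_nm_pos hk
        rw [Real.div_rpow hA.le (by positivity), ← Real.rpow_natCast (nm k : ℝ) 3,
          ← Real.rpow_mul hkpos.le, Real.rpow_neg hkpos.le]
        have : ((3 : ℕ) : ℝ) * (2 / 3) = 2 := by norm_num
        rw [this]
        push_cast
        ring
      · simp
    rw [tsum_congr e, tsum_mul_left, ← Complex.ofReal_tsum]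
    have : (∑' k : Eis, if IsPrim k then (nm k : ℝ) ^ (-(2 : ℝ)) else 0) = Zk := rfl
    rw [this]
    have h3 : ρ r * ((starRingEnd ℂ) (ρ r) * ((mel w (2 / 3) * A ^ (2 / 3 : ℝ) : ℝ) : ℂ) * (Zk : ℂ))
        = (ρ r * (starRingEnd ℂ) (ρ r)) * ((mel w (2 / 3) * A ^ (2 / 3 : ℝ) : ℝ) : ℂ) * (Zk : ℂ) := by
      ring
    rw [h3, Complex.mul_conj, Complex.normSq_eq_norm_sq]
    push_cast
    ring
  rw [hmain, ← mul_sub, norm_mul, mul_assoc]
  apply mul_le_mul_of_nonneg_left _ (norm_nonneg _)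
  -- summability of the two families
  have sA : Summable fun k : Eis => (if IsPrim k then Inn r w (A / (nm k : ℝ) ^ 3) else 0 : ℂ) := by
    obtain ⟨N, hN⟩ := exists_nat_ge A
    refine summable_of_ne_finset_zero (s := primBall N) (fun k hk => ?_)
    by_cases hp : IsPrim k
    swap
    · rw [if_neg hp]
    rw [if_pos hp]
    have hk' : N < nm k := by
      by_contra h
      exact hk (mem_primBall.mpr ⟨not_lt.mp h, hp⟩)
    have hkpos : (0 : ℝ) < nm k := by exact_mod_cast prim_nm_pos hp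
    have hY : A / (nm k : ℝ) ^ 3 ≤ 1 := by
      rw [div_le_one (by positivity)]
      have h4 : (N : ℝ) ≤ nm k := by exact_mod_cast hk'.le
      have h5 : (1 : ℝ) ≤ nm k := by exact_mod_cast prim_nm_pos hp
      calc A ≤ N := hN
        _ ≤ nm k := h4
        _ = (nm k : ℝ) ^ 1 := (pow_one _).symm
        _ ≤ (nm k : ℝ) ^ 3 := pow_le_pow_right₀ h5 (by norm_num)
    rw [Inn_eq hG hw1 (by positivity), Mg_eq_zero (by intro x hx; simp [hw1 x hx]) (by positivity) hY]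
    simp
  have sB : Summable fun k : Eis => (if IsPrim k then (starRingEnd ℂ) (ρ r) *
        ((mel w (2 / 3) * (A / (nm k : ℝ) ^ 3) ^ (2 / 3 : ℝ) : ℝ) : ℂ) else 0 : ℂ) := by
    refine Summable.of_norm_bounded
      (g := fun k : Eis => (‖ρ r‖ * |mel w (2 / 3)| * A ^ (2 / 3 : ℝ)) *
        (if IsPrim k then (nm k : ℝ) ^ (-(2 : ℝ)) else 0)) (s2.mul_left _) (fun k => ?_)
    split_ifs with hk
    · have hkpos : (0 : ℝ) < nm k := by exact_mod_cast prim_nm_pos hk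
      rw [norm_mul, RCLike.norm_conj, Complex.norm_real, norm_mul, Real.norm_eq_abs,
        Real.norm_eq_abs, abs_of_nonneg (a := (A / (nm k : ℝ) ^ 3) ^ (2 / 3 : ℝ)) (by positivity),
        Real.div_rpow hA.le (by positivity), ← Real.rpow_natCast (nm k : ℝ) 3,
        ← Real.rpow_mul hkpos.le, Real.rpow_neg hkpos.le]
      have : ((3 : ℕ) : ℝ) * (2 / 3) = 2 := by norm_num
      rw [this]
      apply le_of_eq
      ring
    · simp
  rw [← sA.tsum_sub sB]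
  have hb : ∀ k : Eis, ‖(if IsPrim k then Inn r w (A / (nm k : ℝ) ^ 3) else 0 : ℂ) -
      (if IsPrim k then (starRingEnd ℂ) (ρ r) *
        ((mel w (2 / 3) * (A / (nm k : ℝ) ^ 3) ^ (2 / 3 : ℝ) : ℝ) : ℂ) else 0 : ℂ)‖
      ≤ (C * A ^ (1 / 2 : ℝ)) * (if IsPrim k then (nm k : ℝ) ^ (-(3 / 2 : ℝ)) else 0) := by
    intro k
    split_ifs with hk
    · have hkpos : (0 : ℝ) < nm k := by exact_mod_cast prim_nm_pos hk
      refine (hC _ (by positivity)).trans (le_of_eq ?_)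
      rw [Real.div_rpow hA.le (by positivity), ← Real.rpow_natCast (nm k : ℝ) 3,
        ← Real.rpow_mul hkpos.le, Real.rpow_neg hkpos.le]
      have : ((3 : ℕ) : ℝ) * (1 / 2) = 3 / 2 := by norm_num
      rw [this]
      ring
    · simp
  calc ‖∑' k : Eis, ((if IsPrim k then Inn r w (A / (nm k : ℝ) ^ 3) else 0 : ℂ) -
      (if IsPrim k then (starRingEnd ℂ) (ρ r) *
        ((mel w (2 / 3) * (A / (nm k : ℝ) ^ 3) ^ (2 / 3 : ℝ) : ℝ) : ℂ) else 0 : ℂ))‖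
      ≤ ∑' k : Eis, (C * A ^ (1 / 2 : ℝ)) * (if IsPrim k then (nm k : ℝ) ^ (-(3 / 2 : ℝ)) else 0) :=
        tsum_of_norm_bounded (s1.mul_left _).hasSum hb
    _ = C * Z2 * A ^ (1 / 2 : ℝ) := by rw [tsum_mul_left]; ring

/-! ### the first moment -/

lemma w_zero_of_floor {w : ℝ → ℝ} (hw1 : ∀ x, 1 ≤ x → w x = 0) {A : ℝ} (hA : 0 < A) {n : ℕ}
    (hn : ⌊A⌋₊ < n) : w (n / A) = 0 := by
  apply hw1
  rw [le_div_iff₀ hA, one_mul]
  exact (Nat.lt_of_floor_lt hn).le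

lemma SwR_eq_sum {r : Eis} {w v : ℝ → ℝ} (hw1 : ∀ x, 1 ≤ x → w x = 0) {A B : ℝ} (hA : 0 < A) :
    SwR r w v A B = ∑ a ∈ primBall ⌊A⌋₊, ((w (nm a / A) : ℝ) : ℂ) * Mg v B (r * a) := by
  unfold SwR
  apply tsum_prim_eq
  intro a _ ha
  rw [w_zero_of_floor hw1 hA ha]; simp

lemma RR_eq_sum {r : Eis} {w : ℝ → ℝ} {ρ : Eis → ℂ} (hw1 : ∀ x, 1 ≤ x → w x = 0) {A : ℝ}
    (hA : 0 < A) :
    RR r w ρ A = ∑ a ∈ primBall ⌊A⌋₊, ((w (nm a / A) : ℝ) : ℂ) * ρ (r * a) := by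
  unfold RR
  apply tsum_prim_eq
  intro a _ ha
  rw [w_zero_of_floor hw1 hA ha]; simp

lemma SwR_sub_RR {r : Eis} {ρ : Eis → ℂ} (h1 : TI ρ r) {w v : ℝ → ℝ} (hw : Wgt w)
    (hw1 : ∀ x, 1 ≤ x → w x = 0) (hv : Wgt v) {ε : ℝ} (hε : 0 < ε) :
    ∃ C : ℝ, 0 ≤ C ∧ ∀ A B : ℝ, 1 ≤ A → A ≤ B →
      ‖SwR r w v A B - ((mel v (5 / 6) * B ^ (5 / 6 : ℝ) : ℝ) : ℂ) * RR r w ρ A‖
        ≤ C * (A * B ^ (1 / 2 : ℝ) * (A * B) ^ (ε / 2)) := by
  obtain ⟨K, hK0, hK⟩ := wgt_bound hw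
  obtain ⟨C, hC⟩ := h1 v hv ε hε
  refine ⟨K * (4 * Real.sqrt |C|), by positivity, fun A B hA hAB => ?_⟩
  have hA0 : 0 < A := by linarith
  have hB0 : 0 < B := by linarith
  rw [SwR_eq_sum hw1 hA0, RR_eq_sum hw1 hA0, Finset.mul_sum, ← Finset.sum_sub_distrib]
  have e : ∀ a ∈ primBall ⌊A⌋₊, ((w (nm a / A) : ℝ) : ℂ) * Mg v B (r * a) -
      ((mel v (5 / 6) * B ^ (5 / 6 : ℝ) : ℝ) : ℂ) * (((w (nm a / A) : ℝ) : ℂ) * ρ (r * a))
      = ((w (nm a / A) : ℝ) : ℂ) *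
        (Mg v B (r * a) - ρ (r * a) * ((mel v (5 / 6) * B ^ (5 / 6 : ℝ) : ℝ) : ℂ)) := by
    intro a _; ring
  rw [Finset.sum_congr rfl e]
  have h2 : ‖∑ a ∈ primBall ⌊A⌋₊, ((w (nm a / A) : ℝ) : ℂ) *
        (Mg v B (r * a) - ρ (r * a) * ((mel v (5 / 6) * B ^ (5 / 6 : ℝ) : ℝ) : ℂ))‖
      ≤ ∑ a ∈ primBall ⌊A⌋₊, K *
        ‖Mg v B (r * a) - ρ (r * a) * ((mel v (5 / 6) * B ^ (5 / 6 : ℝ) : ℝ) : ℂ)‖ := by
    refine (norm_sum_le _ _).trans (Finset.sum_le_sum (fun a _ => ?_))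
    rw [norm_mul, Complex.norm_real, Real.norm_eq_abs]
    exact mul_le_mul_of_nonneg_right (hK _) (norm_nonneg _)
  refine h2.trans ?_
  rw [← Finset.mul_sum, mul_assoc]
  apply mul_le_mul_of_nonneg_left _ hK0.le
  have hcs : (∑ a ∈ primBall ⌊A⌋₊,
      ‖Mg v B (r * a) - ρ (r * a) * ((mel v (5 / 6) * B ^ (5 / 6 : ℝ) : ℝ) : ℂ)‖) ^ 2
      ≤ (primBall ⌊A⌋₊).card * ∑ a ∈ primBall ⌊A⌋₊,
      ‖Mg v B (r * a) - ρ (r * a) * ((mel v (5 / 6) * B ^ (5 / 6 : ℝ) : ℝ) : ℂ)‖ ^ 2 :=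
    sq_sum_le_card_mul_sum_sq
  have hcard : ((primBall ⌊A⌋₊).card : ℝ) ≤ 16 * A :=
    (card_primBall _).trans (by
      have := Nat.floor_le hA0.le
      linarith)
  have hAB0 : 0 < A * B := by positivity
  have h3 : (∑ a ∈ primBall ⌊A⌋₊,
      ‖Mg v B (r * a) - ρ (r * a) * ((mel v (5 / 6) * B ^ (5 / 6 : ℝ) : ℝ) : ℂ)‖) ^ 2
      ≤ (4 * Real.sqrt |C| * (A * B ^ (1 / 2 : ℝ) * (A * B) ^ (ε / 2))) ^ 2 := by
    refine hcs.trans ?_
    have h4 := hC A B hA hAB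
    have h5 : C * (A * B) * (A * B) ^ ε ≤ |C| * (A * B) * (A * B) ^ ε := by
      apply mul_le_mul_of_nonneg_right _ (by positivity)
      exact mul_le_mul_of_nonneg_right (le_abs_self C) (by positivity)
    have h6 : (0 : ℝ) ≤ ∑ a ∈ primBall ⌊A⌋₊,
      ‖Mg v B (r * a) - ρ (r * a) * ((mel v (5 / 6) * B ^ (5 / 6 : ℝ) : ℝ) : ℂ)‖ ^ 2 :=
      Finset.sum_nonneg (fun a _ => by positivity)
    calc _ ≤ (16 * A) * (|C| * (A * B) * (A * B) ^ ε) :=
          mul_le_mul hcard (h4.trans h5) h6 (by positivity)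
      _ = _ := by
          rw [mul_pow, mul_pow, Real.sq_sqrt (abs_nonneg _), mul_pow, mul_pow,
            ← Real.rpow_natCast (B ^ (1 / 2 : ℝ)) 2, ← Real.rpow_mul hB0.le,
            ← Real.rpow_natCast ((A * B) ^ (ε / 2)) 2, ← Real.rpow_mul hAB0.le]
          have e1 : (1 / 2 : ℝ) * ((2 : ℕ) : ℝ) = 1 := by norm_num
          have e2 : ε / 2 * ((2 : ℕ) : ℝ) = ε := by push_cast; ring
          rw [e1, e2, Real.rpow_one]
          ring
  have h7 := abs_le_of_sq_le_sq h3 (by positivity)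
  exact (le_abs_self _).trans h7

/-- **Item MC2.** The left side of the constant, `A = B^(1-δ)`, `0 < δ < 1`. -/
theorem left_asymp {r : Eis} (hG : ∀ c, IsPrim c → ¬ Squarefree c → gs r c = 0) {ρ : Eis → ℂ}
    (h1 : TI ρ r) (h2 : RhoR ρ r) {w v : ℝ → ℝ} (hw : Wgt w) (hw1 : ∀ x, 1 ≤ x → w x = 0)
    (hv : Wgt v) {δ : ℝ} (hδ : 0 < δ) (hδ1 : δ < 1) :
    Tendsto (fun B : ℝ => SwR r w v (B ^ (1 - δ)) B /
        (((B ^ (1 - δ)) ^ (2 / 3 : ℝ) * B ^ (5 / 6 : ℝ) : ℝ) : ℂ)) atTop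
      (𝓝 ((‖ρ r‖ ^ 2 * Zk * mel w (2 / 3) * mel v (5 / 6) : ℝ) : ℂ)) := by
  obtain ⟨C1, hC10, hC1⟩ := SwR_sub_RR h1 hw hw1 hv (ε := δ / 6) (by positivity)
  obtain ⟨C2, hC20, hC2⟩ := RR_bound hG h1 h2 hw hw1
  rw [tendsto_iff_norm_sub_tendsto_zero]
  have hlim : Tendsto (fun B : ℝ => C1 * B ^ (-(δ / 6 + δ ^ 2 / 12)) +
      |mel v (5 / 6)| * C2 * B ^ (-((1 - δ) / 6))) atTop (𝓝 0) := by
    have t1 := tendsto_rpow_neg_atTop (y := δ / 6 + δ ^ 2 / 12) (by positivity)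
    have t2 := tendsto_rpow_neg_atTop (y := (1 - δ) / 6) (by linarith)
    have := (t1.const_mul C1).add (t2.const_mul (|mel v (5 / 6)| * C2))
    simpa using this
  refine squeeze_zero' (Eventually.of_forall fun _ => norm_nonneg _) ?_ hlim
  filter_upwards [eventually_ge_atTop (1 : ℝ)] with B hB
  have hB0 : 0 < B := by linarith
  set A : ℝ := B ^ (1 - δ) with hAdef
  have hA1 : 1 ≤ A := Real.one_le_rpow hB (by linarith)
  have hA0 : 0 < A := by linarith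
  have hAB : A ≤ B := by
    calc A ≤ B ^ (1 : ℝ) := Real.rpow_le_rpow_of_exponent_le hB (by linarith)
      _ = B := Real.rpow_one B
  set D : ℝ := A ^ (2 / 3 : ℝ) * B ^ (5 / 6 : ℝ) with hD
  have hD0 : 0 < D := by positivity
  have hDC : (D : ℂ) ≠ 0 := by exact_mod_cast hD0.ne'
  have e : SwR r w v A B / (D : ℂ) - ((‖ρ r‖ ^ 2 * Zk * mel w (2 / 3) * mel v (5 / 6) : ℝ) : ℂ)
      = ((SwR r w v A B - ((mel v (5 / 6) * B ^ (5 / 6 : ℝ) : ℝ) : ℂ) * RR r w ρ A) +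
        ((mel v (5 / 6) * B ^ (5 / 6 : ℝ) : ℝ) : ℂ) *
        (RR r w ρ A - ((‖ρ r‖ ^ 2 * mel w (2 / 3) * Zk * A ^ (2 / 3 : ℝ) : ℝ) : ℂ))) / (D : ℂ) := by
    rw [eq_div_iff hDC, sub_mul, div_mul_cancel₀ _ hDC, hD]
    push_cast
    ring
  rw [e, norm_div, Complex.norm_real, Real.norm_eq_abs, abs_of_pos hD0, div_le_iff₀ hD0]
  refine (norm_add_le _ _).trans ?_
  rw [norm_mul, Complex.norm_real, norm_mul, Real.norm_eq_abs, Real.norm_eq_abs,
    abs_of_pos (Real.rpow_pos_of_pos hB0 _)]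
  have b1 := hC1 A B hA1 hAB
  have b2 := hC2 A hA0
  have b3 : |mel v (5 / 6)| * B ^ (5 / 6 : ℝ) *
      ‖RR r w ρ A - ((‖ρ r‖ ^ 2 * mel w (2 / 3) * Zk * A ^ (2 / 3 : ℝ) : ℝ) : ℂ)‖
      ≤ |mel v (5 / 6)| * B ^ (5 / 6 : ℝ) * (C2 * A ^ (1 / 2 : ℝ)) :=
    mul_le_mul_of_nonneg_left b2 (by positivity)
  refine (add_le_add b1 b3).trans (le_of_eq ?_)
  have r1 : A * B ^ (1 / 2 : ℝ) * (A * B) ^ (δ / 6 / 2) =
      B ^ (-(δ / 6 + δ ^ 2 / 12)) * D := by
    rw [hD, Real.mul_rpow hA0.le hB0.le, hAdef]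
    rw [← Real.rpow_mul hB0.le, ← Real.rpow_mul hB0.le, ← Real.rpow_add hB0, ← Real.rpow_add hB0,
      ← Real.rpow_add hB0, ← Real.rpow_add hB0, ← Real.rpow_add hB0]
    congr 1
    ring
  have r2 : B ^ (5 / 6 : ℝ) * A ^ (1 / 2 : ℝ) = B ^ (-((1 - δ) / 6)) * D := by
    rw [hD, hAdef]
    rw [← Real.rpow_mul hB0.le, ← Real.rpow_mul hB0.le, ← Real.rpow_add hB0, ← Real.rpow_add hB0,
      ← Real.rpow_add hB0]
    congr 1
    ring
  rw [r1]
  calc C1 * (B ^ (-(δ / 6 + δ ^ 2 / 12)) * D) +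
      |mel v (5 / 6)| * B ^ (5 / 6 : ℝ) * (C2 * A ^ (1 / 2 : ℝ))
      = C1 * (B ^ (-(δ / 6 + δ ^ 2 / 12)) * D) +
      |mel v (5 / 6)| * C2 * (B ^ (5 / 6 : ℝ) * A ^ (1 / 2 : ℝ)) := by ring
    _ = _ := by rw [r2]; ring

/-! ### the comparison -/

lemma Dc_eq : Dc = (2 * Real.pi / (9 * Real.sqrt 3)) / Zk := by
  unfold Dc; rw [Zk_eq]

lemma exists_bump : ∃ w : ℝ → ℝ, Wgt w ∧ (∀ x, 1 ≤ x → w x = 0) ∧
    ∀ s : ℝ, 0 < mel w s := by
  let f : ContDiffBump (1 / 2 : ℝ) := ⟨1 / 8, 1 / 4, by norm_num, by norm_num⟩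
  have hts : tsupport (f : ℝ → ℝ) = Metric.closedBall (1 / 2 : ℝ) (1 / 4) := f.tsupport_eq
  have hpos : tsupport (f : ℝ → ℝ) ⊆ Set.Ioi 0 := by
    rw [hts]
    intro x hx
    rw [Metric.mem_closedBall, Real.dist_eq, abs_le] at hx
    simp only [Set.mem_Ioi]; linarith [hx.1]
  have hB : Wgt (f : ℝ → ℝ) := ⟨f.contDiff, f.hasCompactSupport, hpos⟩
  refine ⟨f, hB, fun x hx => ?_, fun s => ?_⟩
  · by_contra hne
    have := subset_tsupport _ (Function.mem_support.mpr hne)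
    rw [hts, Metric.mem_closedBall, Real.dist_eq, abs_le] at this
    linarith [this.2]
  · unfold mel
    have hb2 := wgt_mul_rpow hB (s - 1)
    have e : (∫ x in Set.Ioi (0 : ℝ), f x * x ^ (s - 1)) = ∫ x : ℝ, f x * x ^ (s - 1) := by
      apply MeasureTheory.setIntegral_eq_integral_of_forall_compl_eq_zero
      intro x hx
      exact wgt_nonpos hb2 (by simpa using hx)
    rw [e]
    refine (hb2.smooth.continuous).integral_pos_of_hasCompactSupport_nonneg_nonzero hb2.cpt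
      (fun x => ?_) (x := 1 / 2) ?_
    · rcases le_or_gt x 0 with hx | hx
      · exact (wgt_nonpos hb2 hx).ge
      · exact mul_nonneg f.nonneg (Real.rpow_nonneg hx.le _)
    · have : f (1 / 2 : ℝ) = 1 := f.one_of_mem_closedBall (by simp [f])
      rw [this, one_mul]
      exact (Real.rpow_pos_of_pos (by norm_num) _).ne'

lemma gamma_comp :
    8 * Real.pi / 81 * Dc * (Real.pi ^ (1 / 3 : ℝ) * 2 ^ (-5 / 3 : ℝ) * Real.Gamma (1 / 3) /
      Real.Gamma (2 / 3)) = (pC * Dc) ^ 2 * Zk := by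
  have hZ := Zk_pos
  have hpi := Real.pi_pos
  have h3 : Real.sqrt 3 * Real.sqrt 3 = 3 := Real.mul_self_sqrt (by norm_num)
  have h30 : 0 < Real.sqrt 3 := by positivity
  have hG23 : 0 < Real.Gamma (2 / 3) := Real.Gamma_pos_of_pos (by norm_num)
  have hrefl : Real.Gamma (1 / 3) * Real.Gamma (2 / 3) = 2 * Real.pi / Real.sqrt 3 := by
    have := Real.Gamma_mul_Gamma_one_sub (1 / 3)
    rw [show (1 : ℝ) - 1 / 3 = 2 / 3 by norm_num] at this
    rw [this, show Real.pi * (1 / 3) = Real.pi / 3 by ring, Real.sin_pi_div_three]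
    field_simp
  have hG13 : Real.Gamma (1 / 3) = 2 * Real.pi / Real.sqrt 3 / Real.Gamma (2 / 3) := by
    rw [eq_div_iff hG23.ne', hrefl]
  rw [hG13]
  have hDZ : Dc * Zk = 2 * Real.pi / (9 * Real.sqrt 3) := by
    rw [Dc_eq]; field_simp
  have hp : Real.pi ^ (4 / 3 : ℝ) = Real.pi * Real.pi ^ (1 / 3 : ℝ) := by
    nth_rewrite 2 [← Real.rpow_one Real.pi]
    rw [← Real.rpow_add hpi]; norm_num
  have h2 : (2 : ℝ) ^ (4 / 3 : ℝ) = 8 * 2 ^ (-5 / 3 : ℝ) := by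
    have : (8 : ℝ) = 2 ^ (3 : ℝ) := by norm_num
    rw [this, ← Real.rpow_add (by norm_num)]; norm_num
  have hpC : pC ^ 2 = 8 * 2 ^ (-5 / 3 : ℝ) * (Real.pi * Real.pi ^ (1 / 3 : ℝ)) /
      (9 * Real.Gamma (2 / 3) ^ 2) := by
    unfold pC
    rw [div_pow, ← Real.rpow_natCast ((2 * Real.pi) ^ (2 / 3 : ℝ)) 2,
      ← Real.rpow_mul (by positivity)]
    rw [show (2 / 3 : ℝ) * ((2 : ℕ) : ℝ) = 4 / 3 by norm_num,
      Real.mul_rpow (by norm_num) hpi.le, h2, hp]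
    ring
  have : (pC * Dc) ^ 2 * Zk = pC ^ 2 * Dc * (Dc * Zk) := by ring
  rw [this, hDZ, hpC]
  field_simp
  nlinarith [h3]

/-- The conclusion, given the dual side `hR` (item MC1, with the factor `κ` for the parameter `r`)
and the gamma integral `hT`. -/
theorem rho_sq {r : Eis} (hG : ∀ c, IsPrim c → ¬ Squarefree c → gs r c = 0) {ρ : Eis → ℂ}
    (h1 : TI ρ r) (h2 : RhoR ρ r) {κ δ : ℝ} (hδ : 0 < δ) (hδ1 : δ < 1)
    (hR : ∀ w v : ℝ → ℝ, Wgt w → Wgt v →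
      Tendsto (fun B : ℝ => SwR r w v (B ^ (1 - δ)) B /
        ((B ^ (2 / 3 * (1 - δ) + 5 / 6 : ℝ) : ℝ) : ℂ)) atTop
      (𝓝 ((8 * Real.pi / 81 * Dc * Iw w * mel v (5 / 6) * κ : ℝ) : ℂ)))
    (hT : ∀ w : ℝ → ℝ, Wgt w → Iw w = Real.pi ^ (1 / 3 : ℝ) * 2 ^ (-5 / 3 : ℝ) *
      Real.Gamma (1 / 3) / Real.Gamma (2 / 3) * mel w (2 / 3)) :
    ‖ρ r‖ ^ 2 = (pC * Dc) ^ 2 * κ := by
  obtain ⟨w, hw, hw1, hm⟩ := exists_bump
  have t1 := left_asymp hG h1 h2 hw hw1 hw hδ hδ1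
  have t2 := hR w w hw hw
  have t3 : Tendsto (fun B : ℝ => SwR r w w (B ^ (1 - δ)) B /
        (((B ^ (1 - δ)) ^ (2 / 3 : ℝ) * B ^ (5 / 6 : ℝ) : ℝ) : ℂ)) atTop
      (𝓝 ((8 * Real.pi / 81 * Dc * Iw w * mel w (5 / 6) * κ : ℝ) : ℂ)) := by
    refine t2.congr' ?_
    filter_upwards [eventually_gt_atTop (0 : ℝ)] with B hB
    rw [← Real.rpow_mul hB.le, ← Real.rpow_add hB]
    congr 4
    ring
  have h := tendsto_nhds_unique t1 t3
  have h' : ‖ρ r‖ ^ 2 * Zk * mel w (2 / 3) * mel w (5 / 6) =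
      8 * Real.pi / 81 * Dc * Iw w * mel w (5 / 6) * κ := by exact_mod_cast h
  rw [hT w hw] at h'
  have m1 := hm (2 / 3)
  have m2 := hm (5 / 6)
  have hZ := Zk_pos
  have key : ‖ρ r‖ ^ 2 * Zk = ((pC * Dc) ^ 2 * κ) * Zk := by
    have e : ((pC * Dc) ^ 2 * κ) * Zk = ((pC * Dc) ^ 2 * Zk) * κ := by ring
    rw [e, ← gamma_comp]
    apply mul_right_cancel₀ (mul_pos m1 m2).ne'
    linear_combination h'
  exact mul_right_cancel₀ hZ.ne' key

end Crest.Agent.R012.Rho777
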