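import Crest.Agent.R012.CubeA_777
import Crest.Agent.R012.Cst4_566
import Crest.Agent.R012.Mob_705
import Crest.Agent.R012.Rho_777

/-!
# Row 12, item MC1c: the cube terms of the dual side of the first moment

`cube_limit` : `Xc w v N0 (B^(1-δ)) B / B^(-(1-δ)/3 + 5/6) → N0^(-1/3) (4π/√3) (Iw w) (mel v (5/6)) Dc`.

Proof: coprimality by the Moebius function `muE` over the primary divisors of `b`, then dominated
convergence over `d` (each term is `≤ C N(d)⁻²` by `sig_bound`), then `(Σ μ(d)/N(d)²) Zc = 1`.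
-/

set_option autoImplicit false

noncomputable section

open MeasureTheory Complex Set Filter Topology
open scoped ContDiff SchwartzMap FourierTransform

namespace Crest.Agent.R012.Cube777

open Crest.Agent.R012 Crest.Agent.R012.Eis Crest.Agent.R012.MC Crest.Agent.R012.LatSum413
  Crest.Agent.R012.Div277 Crest.Agent.R012.Mob705

/-- real version of `fw`. -/
def fr (g : ℝ → ℝ) (z : ℂ) : ℝ := g (‖z‖ ^ 2)

lemma fr_eq (g : ℝ → ℝ) : fr g = fun z => (fw g z).re := by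
  funext z; simp [fr, fw]

lemma fr_contDiff {g : ℝ → ℝ} (hg : Wgt g) : ContDiff ℝ ∞ (fr g) := by
  rw [fr_eq]
  exact Complex.reCLM.contDiff.comp (contDiff_fw hg)

lemma fr_compact {g : ℝ → ℝ} (hg : Wgt g) : HasCompactSupport (fr g) := by
  rw [fr_eq]
  exact (compact_fw hg).comp_left (g := Complex.re) Complex.zero_re

lemma integral_fr (g : ℝ → ℝ) : ∫ z, fr g z = Real.pi * ∫ x in Ioi (0 : ℝ), g x := by
  have h := TateC413.integral_radial (fun r : ℝ => g (r ^ 2))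
  have h0 : (∫ z, fr g z) = ∫ z : ℂ, (fun r : ℝ => g (r ^ 2)) ‖z‖ := rfl
  rw [h0, h]
  have h2 := integral_comp_rpow_Ioi_of_pos (g := fun y : ℝ => (1 / 2 : ℝ) * g y)
    (p := 2) (by norm_num)
  have e1 : ∫ x in Ioi (0 : ℝ), ((2 : ℝ) * x ^ ((2 : ℝ) - 1)) •
      (fun y : ℝ => (1 / 2 : ℝ) * g y) (x ^ (2 : ℝ)) =
      ∫ x in Ioi (0 : ℝ), x • g (x ^ 2) := by
    apply setIntegral_congr_fun measurableSet_Ioi
    intro x hx
    simp only [mem_Ioi] at hx
    simp only [smul_eq_mul]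
    have e2 : x ^ (2 : ℝ) = x ^ 2 := by
      rw [show (2 : ℝ) = ((2 : ℕ) : ℝ) by norm_num, Real.rpow_natCast]
    have e4 : x ^ ((2 : ℝ) - 1) = x := by
      rw [show (2 : ℝ) - 1 = 1 by norm_num, Real.rpow_one]
    rw [e2, e4]
    ring
  rw [← e1, h2, integral_const_mul]
  simp only [smul_eq_mul]
  ring

/-- reindexing of the primary multiples of `d`. -/
lemma tsum_prim_mult {d : Eis} (hd : IsPrim d) (F : Eis → ℝ) :
    (∑' b : Eis, open Classical in if IsPrim b ∧ d ∣ b then F b else 0) =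
      ∑' m : Eis, F (d * (1 + 3 * m)) := by
  classical
  have hinj : Function.Injective (fun m : Eis => d * (1 + 3 * m)) := by
    intro x y hxy
    have h1 := mul_left_cancel₀ hd.ne_zero hxy
    have h2 : (3 : Eis) * x = 3 * y := add_left_cancel h1
    exact mul_left_cancel₀ (by norm_num) h2
  have hp : ∀ m : Eis, IsPrim (d * (1 + 3 * m)) ∧ d ∣ d * (1 + 3 * m) := fun m =>
    ⟨hd.mul (by unfold IsPrim; exact ⟨m, by ring⟩), dvd_mul_right _ _⟩
  rw [← hinj.tsum_eq]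
  · refine tsum_congr fun m => ?_
    rw [if_pos (hp m)]
  · intro b hb
    rw [Function.mem_support] at hb
    split_ifs at hb with h
    · obtain ⟨h1, c, rfl⟩ := h
      have hc := IsPrim.of_mul_left h1 hd
      obtain ⟨m, hm⟩ := hc
      refine ⟨m, ?_⟩
      simp only
      rw [← hm]; ring
    · exact absurd rfl hb

lemma prim_limit {g : ℝ → ℝ} (hg : Wgt g) {d : Eis} (hd : IsPrim d) :
    Tendsto (fun B : ℝ => B⁻¹ * ∑' b : Eis,
      open Classical in if IsPrim b ∧ d ∣ b then g (nm b / B) else 0) atTop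
      (𝓝 (2 * Real.pi / (9 * Real.sqrt 3) / nm d * ∫ x in Ioi (0 : ℝ), g x)) := by
  classical
  have hc : Continuous (fr g) := (fr_contDiff hg).continuous
  obtain ⟨M, hM, h2⟩ := second_diff_of_contDiff ((fr_contDiff hg).of_le (by norm_cast)) (fr_compact hg)
  obtain ⟨c1, c2, h1, h12, hsup⟩ := hg.exists_bounds
  have hs : ∀ z : ℂ, Real.sqrt c2 < ‖z‖ → fr g z = 0 := by
    intro z hz
    by_contra hcon
    have h3 := (hsup _ hcon).2
    have h4 : ‖z‖ ≤ Real.sqrt c2 := Real.le_sqrt_of_sq_le h3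
    linarith
  have hd0 : (0 : ℝ) < nm d := by exact_mod_cast nm_pos.mpr hd.ne_zero
  have hdn : 0 < ‖toC d‖ := norm_toC_pos hd.ne_zero
  have key : ∀ B : ℝ, 0 < B → |B⁻¹ * ∑' b : Eis, (if IsPrim b ∧ d ∣ b then g (nm b / B) else 0) -
      2 * Real.pi / (9 * Real.sqrt 3) / nm d * ∫ x in Ioi (0 : ℝ), g x| ≤
      B⁻¹ * (8 * M * (Real.sqrt c2 + 3 * ‖toC d‖ / Real.sqrt B) ^ 2) := by
    intro B hB
    have hsB : 0 < Real.sqrt B := Real.sqrt_pos.mpr hB
    set q : ℂ := 3 * toC d / (Real.sqrt B : ℂ) with hq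
    have hqn : ‖q‖ = 3 * ‖toC d‖ / Real.sqrt B := by
      rw [hq, norm_div, norm_mul, Complex.norm_real, Real.norm_eq_abs, abs_of_pos hsB]
      norm_num
    have hq0 : q ≠ 0 := by
      rw [← norm_pos_iff, hqn]; positivity
    have h := (latSum_second hc (Real.sqrt_nonneg c2) hM hs h2 hq0 (toC d / (Real.sqrt B : ℂ))).2
    rw [smul_eq_mul, integral_fr, Real.norm_eq_abs] at h
    have e1 : ∀ m : Eis, fr g (q * toC m + toC d / (Real.sqrt B : ℂ)) =
        g (nm (d * (1 + 3 * m)) / B) := by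
      intro m
      unfold fr
      congr 1
      have e2 : q * toC m + toC d / (Real.sqrt B : ℂ) = toC (d * (1 + 3 * m)) / (Real.sqrt B : ℂ) := by
        rw [hq]
        simp only [map_mul, map_add, map_one, map_ofNat]
        ring
      rw [e2, norm_div, div_pow, norm_toC_sq, Complex.norm_real, Real.norm_eq_abs, sq_abs,
        Real.sq_sqrt hB.le]
    rw [tsum_prim_mult hd (fun b => g (nm b / B))]
    rw [tsum_congr e1, hqn] at h
    have e3 : 2 / Real.sqrt 3 / (3 * ‖toC d‖ / Real.sqrt B) ^ 2 *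
        (Real.pi * ∫ x in Ioi (0 : ℝ), g x) =
        B * (2 * Real.pi / (9 * Real.sqrt 3) / nm d * ∫ x in Ioi (0 : ℝ), g x) := by
      rw [div_pow, mul_pow, norm_toC_sq, Real.sq_sqrt hB.le]
      field_simp
      ring
    rw [e3] at h
    set S := ∑' m : Eis, g (nm (d * (1 + 3 * m)) / B) with hS
    set L := 2 * Real.pi / (9 * Real.sqrt 3) / nm d * ∫ x in Ioi (0 : ℝ), g x with hL
    have e4 : B⁻¹ * S - L = B⁻¹ * (S - B * L) := by field_simp
    rw [e4, abs_mul, abs_of_pos (inv_pos.mpr hB)]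
    exact mul_le_mul_of_nonneg_left h (inv_pos.mpr hB).le
  rw [tendsto_iff_norm_sub_tendsto_zero]
  refine squeeze_zero' (Eventually.of_forall fun _ => norm_nonneg _) 
    (g := fun B : ℝ => B⁻¹ * (8 * M * (Real.sqrt c2 + 3 * ‖toC d‖) ^ 2)) ?_ ?_
  · filter_upwards [eventually_ge_atTop 1] with B hB
    have hB0 : 0 < B := by linarith
    rw [Real.norm_eq_abs]
    refine (key B hB0).trans ?_
    have h5 : 1 ≤ Real.sqrt B := by rw [Real.one_le_sqrt]; exact hB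
    have h6 : 3 * ‖toC d‖ / Real.sqrt B ≤ 3 * ‖toC d‖ := div_le_self (by positivity) h5
    gcongr
  · have := tendsto_inv_atTop_zero (𝕜 := ℝ)
    simpa using this.mul_const (8 * M * (Real.sqrt c2 + 3 * ‖toC d‖) ^ 2)

/-! ### Step A -/

/-- `t_b = (c/N(b))^(1/6)/√3`. -/
def tb (c : ℝ) (b : Eis) : ℝ := (c / nm b) ^ ((1 : ℝ) / 6) / Real.sqrt 3

lemma nm_pos' {b : Eis} (hb : b ≠ 0) : (0 : ℝ) < nm b := by exact_mod_cast nm_pos.mpr hb

lemma tb_pos {c : ℝ} (hc : 0 < c) {b : Eis} (hb : b ≠ 0) : 0 < tb c b := by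
  have := nm_pos' hb
  unfold tb; positivity

lemma tb_sq {c : ℝ} (hc : 0 < c) {b : Eis} (hb : b ≠ 0) :
    tb c b ^ 2 = (c / nm b) ^ ((1 : ℝ) / 3) / 3 := by
  have := nm_pos' hb
  unfold tb
  rw [div_pow, Real.sq_sqrt (by norm_num), ← Real.rpow_natCast _ 2, ← Real.rpow_mul (by positivity)]
  norm_num

lemma tb_cube {c : ℝ} (hc : 0 < c) {b : Eis} (hb : b ≠ 0) :
    tb c b ^ 3 = Real.sqrt c / (3 * Real.sqrt 3) / Real.sqrt (nm b) := by
  have := nm_pos' hb
  unfold tb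
  have e1 : Real.sqrt 3 ^ 3 = 3 * Real.sqrt 3 := by
    rw [pow_succ, Real.sq_sqrt (by norm_num)]
  rw [div_pow, e1, ← Real.rpow_natCast _ 3, ← Real.rpow_mul (by positivity)]
  have e2 : (1 : ℝ) / 6 * ((3 : ℕ) : ℝ) = 1 / 2 := by norm_num
  rw [e2, ← Real.sqrt_eq_rpow, Real.sqrt_div hc.le]
  field_simp

lemma phi_f3 {w v : ℝ → ℝ} {B c : ℝ} (hc : 0 < c) {b : Eis} (hb : b ≠ 0) (m : Eis) :
    phi w v B (Real.sqrt (c * (nm m : ℝ) ^ 3) / (3 * Real.sqrt 3)) (toC b) =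
      v (nm b / B) / Real.sqrt (nm b) * f3 w ((tb c b : ℂ) * toC m) := by
  rw [phi_toC]
  congr 1
  unfold f3
  congr 1
  rw [norm_mul, mul_pow, Complex.norm_real, Real.norm_eq_abs, abs_of_pos (tb_pos hc hb),
    tb_cube hc hb, Real.sqrt_mul hc.le, norm_toC]
  have e1 : Real.sqrt ((nm m : ℝ) ^ 3) = ‖toC m‖ ^ 3 := by
    rw [← norm_toC_sq, ← pow_mul, mul_comm 2 3, pow_mul, Real.sqrt_sq (by positivity)]
  rw [e1, norm_toC]
  ring

/-! ### Step B -/

lemma summable_if {w : ℝ → ℝ} (hw : Wgt w) {t : ℂ} (ht : t ≠ 0) (P : Eis → Prop) [DecidablePred P] :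
    Summable (fun m : Eis => if m ≠ 0 ∧ P m then f3 w (t * toC m) else 0) := by
  classical
  obtain ⟨K, hK, h⟩ := f3_decay hw
  have hD : ∀ z : ℂ, z ≠ 0 → ‖f3 w z‖ ≤ K / ‖z‖ ^ 3 := fun z hz => by
    refine (h z).trans ?_
    have := mul_le_mul_of_nonneg_left (wt3_le_inv hz) hK
    rwa [mul_one_div] at this
  have hs := (summable_lsum hK hD ht).2.1
  refine Summable.of_norm_bounded hs fun m => ?_
  by_cases hm : m = 0
  · simp [hm]
  · rw [if_neg hm]
    split_ifs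
    · exact le_rfl
    · simp

lemma tsum_mult (f : ℂ → ℝ) {d : Eis} (hd : d ≠ 0) (t : ℂ) :
    (∑' m : Eis, open Classical in if m ≠ 0 ∧ d ∣ m then f (t * toC m) else 0) =
      lsum f (t * toC d) := by
  classical
  have hinj : Function.Injective (fun m : Eis => d * m) := mul_right_injective₀ hd
  unfold lsum
  rw [← hinj.tsum_eq]
  · refine tsum_congr fun m => ?_
    by_cases hm : m = 0
    · simp [hm]
    · rw [if_pos ⟨mul_ne_zero hd hm, dvd_mul_right _ _⟩, if_neg hm, map_mul]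
      congr 1; ring
  · intro b hb
    rw [Function.mem_support] at hb
    split_ifs at hb with h
    · obtain ⟨h1, c, rfl⟩ := h
      exact ⟨c, rfl⟩
    · exact absurd rfl hb

lemma cop_ind {b m : Eis} (hb : IsPrim b) (hm : m ≠ 0) :
    (open Classical in if IsCoprime m b then (1 : ℝ) else 0) =
      ∑ d ∈ dvs b, open Classical in if d ∣ m then (muE d : ℝ) else 0 := by
  classical
  have h := sum_muE_coprime hb hm
  have e1 : ∑ d ∈ dvs m, (if d ∣ b then muE d else 0) = ∑ d ∈ dvs b, (if d ∣ m then muE d else 0) := by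
    rw [← Finset.sum_filter, ← Finset.sum_filter]
    congr 1
    ext d
    simp only [Finset.mem_filter, mem_dvs hm, mem_dvs hb.ne_zero]
    tauto
  rw [e1] at h
  have h2 : ((∑ d ∈ dvs b, (if d ∣ m then muE d else 0) : ℤ) : ℝ) =
      ((if IsCoprime b m then 1 else 0 : ℤ) : ℝ) := by rw [h]
  push_cast at h2
  rw [h2]
  simp only [isCoprime_comm]

lemma tsum_cop {w : ℝ → ℝ} (hw : Wgt w) {b : Eis} (hb : IsPrim b) {t : ℂ} (ht : t ≠ 0) :
    (∑' m : Eis, open Classical in if m ≠ 0 ∧ IsCoprime m b then f3 w (t * toC m) else 0) =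
      ∑ d ∈ dvs b, (muE d : ℝ) * lsum (f3 w) (t * toC d) := by
  classical
  have e1 : ∀ m : Eis, (if m ≠ 0 ∧ IsCoprime m b then f3 w (t * toC m) else 0) =
      ∑ d ∈ dvs b, (muE d : ℝ) * (if m ≠ 0 ∧ d ∣ m then f3 w (t * toC m) else 0) := by
    intro m
    by_cases hm : m = 0
    · simp [hm]
    · have h := cop_ind hb hm
      have e2 : (if m ≠ 0 ∧ IsCoprime m b then f3 w (t * toC m) else 0) =
          (if IsCoprime m b then (1 : ℝ) else 0) * f3 w (t * toC m) := by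
        by_cases hc : IsCoprime m b <;> simp [hm, hc]
      rw [e2, h, Finset.sum_mul]
      refine Finset.sum_congr rfl fun d _ => ?_
      by_cases hc : d ∣ m <;> simp [hm, hc]
  rw [tsum_congr e1, Summable.tsum_finsetSum]
  · refine Finset.sum_congr rfl fun d hd => ?_
    rw [tsum_mul_left, tsum_mult (f3 w) (isPrim_of_mem_dvs hd).ne_zero t]
  · intro d _
    exact (summable_if hw ht (fun m => d ∣ m)).mul_left _

/-! ### Step C: the exact formula -/

open Classical in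
/-- the cube terms of the dual side of the first moment -/
def Xc (w v : ℝ → ℝ) (N0 A B : ℝ) : ℝ := ∑' m : Eis, if m = 0 then 0 else
  ∑' b : Eis, if IsPrim b ∧ IsCoprime m b then
    phi w v B (Real.sqrt (A * N0 * (nm m : ℝ) ^ 3) / (3 * Real.sqrt 3)) (toC b) else 0

/-- `v(x) x^(-1/6)` -/
def gw (v : ℝ → ℝ) (x : ℝ) : ℝ := v x * x ^ (-(1 / 6) : ℝ)

lemma wgt_gw {v : ℝ → ℝ} (hv : Wgt v) : Wgt (gw v) := Rho777.wgt_mul_rpow hv _

lemma gw_support {v : ℝ → ℝ} {x : ℝ} (h : gw v x ≠ 0) : v x ≠ 0 := left_ne_zero_of_mul h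

lemma mel_gw (v : ℝ → ℝ) : ∫ x in Ioi (0 : ℝ), gw v x = mel v (5 / 6) := by
  unfold mel gw
  norm_num

lemma Xc_eq {w v : ℝ → ℝ} (hw : Wgt w) {N0 A B : ℝ} (hc : 0 < A * N0) {N : ℕ}
    (hN : ∀ b : Eis, v (nm b / B) ≠ 0 → nm b ≤ N) :
    Xc w v N0 A B = ∑ b ∈ primBall N, v (nm b / B) / Real.sqrt (nm b) *
      ∑ d ∈ dvs b, (muE d : ℝ) * lsum (f3 w) ((tb (A * N0) b : ℂ) * toC d) := by
  classical
  have e1 : ∀ m : Eis, (if m = 0 then (0 : ℝ) else
      ∑' b : Eis, if IsPrim b ∧ IsCoprime m b then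
        phi w v B (Real.sqrt (A * N0 * (nm m : ℝ) ^ 3) / (3 * Real.sqrt 3)) (toC b) else 0) =
      ∑ b ∈ primBall N, v (nm b / B) / Real.sqrt (nm b) *
        (if m ≠ 0 ∧ IsCoprime m b then f3 w ((tb (A * N0) b : ℂ) * toC m) else 0) := by
    intro m
    by_cases hm : m = 0
    · simp [hm]
    · rw [if_neg hm, tsum_eq_sum (s := primBall N)]
      · refine Finset.sum_congr rfl fun b hb => ?_
        have hb' := (mem_primBall.mp hb).2
        rw [phi_f3 hc hb'.ne_zero]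
        by_cases hcop : IsCoprime m b
        · rw [if_pos ⟨hb', hcop⟩, if_pos ⟨hm, hcop⟩]
        · rw [if_neg (fun h => hcop h.2), if_neg (fun h => hcop h.2), mul_zero]
      · intro b hb
        split_ifs with h
        · rw [phi_f3 hc h.1.ne_zero]
          have : v (nm b / B) = 0 := by
            by_contra hcon
            exact hb (mem_primBall.mpr ⟨hN b hcon, h.1⟩)
          rw [this]; simp
        · rfl
  unfold Xc
  rw [tsum_congr e1, Summable.tsum_finsetSum]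
  · refine Finset.sum_congr rfl fun b hb => ?_
    have hb' := (mem_primBall.mp hb).2
    have ht : ((tb (A * N0) b : ℝ) : ℂ) ≠ 0 := by
      exact_mod_cast (tb_pos hc hb'.ne_zero).ne'
    rw [tsum_mul_left, tsum_cop hw hb' ht]
  · intro b hb
    have hb' := (mem_primBall.mp hb).2
    have ht : ((tb (A * N0) b : ℝ) : ℂ) ≠ 0 := by
      exact_mod_cast (tb_pos hc hb'.ne_zero).ne'
    exact (summable_if hw ht (fun m => IsCoprime m b)).mul_left _

lemma term_eq {w v : ℝ → ℝ} {c B : ℝ} (hc : 0 < c) (hB : 0 < B) {b d : Eis} (hb : b ≠ 0)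
    (hd : d ≠ 0) :
    v (nm b / B) / Real.sqrt (nm b) * lsum (f3 w) ((tb c b : ℂ) * toC d) =
      3 * c ^ (-(1 / 3) : ℝ) * B ^ (-(1 / 6) : ℝ) *
        (gw v (nm b / B) * ((nm d : ℝ)⁻¹ * sig w ((tb c b : ℂ) * toC d))) := by
  have hb0 := nm_pos' hb
  have hd0 := nm_pos' hd
  have ht := tb_pos hc hb
  unfold sig gw
  rw [norm_mul, mul_pow, Complex.norm_real, Real.norm_eq_abs, sq_abs, tb_sq hc hb, norm_toC_sq]
  set L := lsum (f3 w) ((tb c b : ℂ) * toC d)
  have e1 : (c / (nm b : ℝ)) ^ ((1 : ℝ) / 3) = c ^ ((1 : ℝ) / 3) * (nm b : ℝ) ^ (-(1 / 3) : ℝ) := by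
    rw [Real.div_rpow hc.le hb0.le, Real.rpow_neg hb0.le]; rfl
  have e2 : ((nm b : ℝ) / B) ^ (-(1 / 6) : ℝ) = (nm b : ℝ) ^ (-(1 / 6) : ℝ) * B ^ ((1 : ℝ) / 6) := by
    rw [Real.div_rpow hb0.le hB.le, Real.rpow_neg hB.le]
    field_simp
  have e3 : (Real.sqrt (nm b))⁻¹ = (nm b : ℝ) ^ (-(1 / 6) : ℝ) * (nm b : ℝ) ^ (-(1 / 3) : ℝ) := by
    rw [← Real.rpow_add hb0, Real.sqrt_eq_rpow, ← Real.rpow_neg hb0.le]
    norm_num
  have e4 : c ^ (-(1 / 3) : ℝ) * c ^ ((1 : ℝ) / 3) = 1 := by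
    rw [← Real.rpow_add hc]; norm_num
  have e5 : B ^ (-(1 / 6) : ℝ) * B ^ ((1 : ℝ) / 6) = 1 := by
    rw [← Real.rpow_add hB]; norm_num
  rw [e1, e2, div_eq_mul_inv, e3]
  have e6 : 3 * c ^ (-(1 / 3) : ℝ) * B ^ (-(1 / 6) : ℝ) *
      (v (nm b / B) * ((nm b : ℝ) ^ (-(1 / 6) : ℝ) * B ^ ((1 : ℝ) / 6)) *
        ((nm d : ℝ)⁻¹ * (c ^ ((1 : ℝ) / 3) * (nm b : ℝ) ^ (-(1 / 3) : ℝ) / 3 * (nm d) * L))) =
      (c ^ (-(1 / 3) : ℝ) * c ^ ((1 : ℝ) / 3)) * (B ^ (-(1 / 6) : ℝ) * B ^ ((1 : ℝ) / 6)) *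
      ((nm d : ℝ)⁻¹ * nm d) *
      (v (nm b / B) * ((nm b : ℝ) ^ (-(1 / 6) : ℝ) * (nm b : ℝ) ^ (-(1 / 3) : ℝ)) * L) := by
    ring
  rw [e6, e4, e5, inv_mul_cancel₀ hd0.ne']
  ring

open Classical in
/-- the `d`-th term -/
def aB (w v : ℝ → ℝ) (c B : ℝ) (N : ℕ) (d : Eis) : ℝ :=
  if IsPrim d then (muE d : ℝ) * (nm d : ℝ)⁻¹ * (B⁻¹ * ∑ b ∈ primBall N, if d ∣ b then
    gw v (nm b / B) * sig w ((tb c b : ℂ) * toC d) else 0) else 0

lemma Xc_eq_tsum {w v : ℝ → ℝ} (hw : Wgt w) {N0 A B : ℝ} (hc : 0 < A * N0) (hB : 0 < B) {N : ℕ}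
    (hN : ∀ b : Eis, v (nm b / B) ≠ 0 → nm b ≤ N) :
    Xc w v N0 A B = 3 * (A * N0) ^ (-(1 / 3) : ℝ) * B ^ (-(1 / 6) : ℝ) *
      (B * ∑' d : Eis, aB w v (A * N0) B N d) := by
  classical
  rw [Xc_eq hw hc hN]
  set c := A * N0 with hcdef
  have e1 : ∀ b ∈ primBall N, v (nm b / B) / Real.sqrt (nm b) *
      ∑ d ∈ dvs b, (muE d : ℝ) * lsum (f3 w) ((tb c b : ℂ) * toC d) =
      3 * c ^ (-(1 / 3) : ℝ) * B ^ (-(1 / 6) : ℝ) * ∑' d : Eis,
        (if IsPrim d ∧ d ∣ b then (muE d : ℝ) * (nm d : ℝ)⁻¹ *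
          (gw v (nm b / B) * sig w ((tb c b : ℂ) * toC d)) else 0) := by
    intro b hb
    have hb' := (mem_primBall.mp hb).2
    rw [tsum_eq_sum (s := dvs b), Finset.mul_sum, Finset.mul_sum]
    · refine Finset.sum_congr rfl fun d hd => ?_
      have hd' := (mem_dvs hb'.ne_zero).mp hd
      rw [if_pos hd']
      have := term_eq (w := w) (v := v) hc hB hb'.ne_zero hd'.1.ne_zero
      calc v (nm b / B) / Real.sqrt (nm b) * ((muE d : ℝ) * lsum (f3 w) ((tb c b : ℂ) * toC d))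
          = (muE d : ℝ) * (v (nm b / B) / Real.sqrt (nm b) *
              lsum (f3 w) ((tb c b : ℂ) * toC d)) := by ring
        _ = _ := by rw [this]; ring
    · intro d hd
      rw [if_neg]
      exact fun h => hd ((mem_dvs hb'.ne_zero).mpr h)
  rw [Finset.sum_congr rfl e1, ← Finset.mul_sum, ← Summable.tsum_finsetSum]
  · congr 1
    rw [← tsum_mul_left]
    refine tsum_congr fun d => ?_
    unfold aB
    by_cases hd : IsPrim d
    · rw [if_pos hd]
      have : B * ((muE d : ℝ) * (nm d : ℝ)⁻¹ * (B⁻¹ * ∑ b ∈ primBall N, if d ∣ b then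
          gw v (nm b / B) * sig w ((tb c b : ℂ) * toC d) else 0)) =
          (muE d : ℝ) * (nm d : ℝ)⁻¹ * ∑ b ∈ primBall N, (if d ∣ b then
          gw v (nm b / B) * sig w ((tb c b : ℂ) * toC d) else 0) := by
        generalize (∑ b ∈ primBall N, if d ∣ b then
          gw v (nm b / B) * sig w ((tb c b : ℂ) * toC d) else 0) = S
        field_simp
      rw [this, Finset.mul_sum]
      refine Finset.sum_congr rfl fun b _ => ?_
      by_cases hdb : d ∣ b
      · rw [if_pos ⟨hd, hdb⟩, if_pos hdb]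
      · rw [if_neg (fun h => hdb h.2), if_neg hdb, mul_zero]
    · rw [if_neg hd, mul_zero]
      apply Finset.sum_eq_zero
      intro b _
      rw [if_neg (fun h => hd h.1)]
  · intro b hb
    have hb' := (mem_primBall.mp hb).2
    apply summable_of_ne_finset_zero (s := dvs b)
    intro d hd
    rw [if_neg]
    exact fun h => hd ((mem_dvs hb'.ne_zero).mpr h)

/-! ### Step D: bounds and limits -/

open Classical in
lemma card_mult {d : Eis} (hd : IsPrim d) {X : ℝ} (hX : 0 ≤ X) :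
    (((primBall ⌊X⌋₊).filter (fun b => d ∣ b)).card : ℝ) ≤ 16 * (X / nm d) := by
  have hd0 := nm_pos' hd.ne_zero
  have hsub : (primBall ⌊X⌋₊).filter (fun b => d ∣ b) ⊆
      (primBall ⌊X / nm d⌋₊).image (fun x => d * x) := by
    intro b hb
    obtain ⟨h1, c, rfl⟩ := Finset.mem_filter.mp hb
    obtain ⟨h2, h3⟩ := mem_primBall.mp h1
    refine Finset.mem_image.mpr ⟨c, mem_primBall.mpr ⟨?_, h3.of_mul_left hd⟩, rfl⟩
    apply Nat.le_floor
    rw [le_div_iff₀ hd0]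
    have h4 : ((nm (d * c) : ℕ) : ℝ) ≤ X := (Nat.le_floor_iff hX).mp h2
    rw [nm_mul] at h4
    push_cast at h4
    linarith
  calc (((primBall ⌊X⌋₊).filter (fun b => d ∣ b)).card : ℝ)
      ≤ ((primBall ⌊X / nm d⌋₊).image (fun x => d * x)).card := by
        exact_mod_cast Finset.card_le_card hsub
    _ ≤ (primBall ⌊X / nm d⌋₊).card := by exact_mod_cast Finset.card_image_le
    _ ≤ 16 * (⌊X / nm d⌋₊ : ℝ) := Rho777.card_primBall _
    _ ≤ 16 * (X / nm d) := by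
        have := Nat.floor_le (a := X / nm d) (by positivity)
        linarith

open Classical in
lemma sum_mult_le {d : Eis} (hd : IsPrim d) {X : ℝ} (hX : 0 ≤ X) {F : Eis → ℝ} {K : ℝ}
    (hK : 0 ≤ K) (hF : ∀ b, IsPrim b → |F b| ≤ K) :
    |∑ b ∈ primBall ⌊X⌋₊, if d ∣ b then F b else 0| ≤ 16 * (X / nm d) * K := by
  rw [← Finset.sum_filter]
  refine (Finset.abs_sum_le_sum_abs _ _).trans ?_
  calc ∑ b ∈ (primBall ⌊X⌋₊).filter (fun b => d ∣ b), |F b|
      ≤ ∑ b ∈ (primBall ⌊X⌋₊).filter (fun b => d ∣ b), K := by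
        refine Finset.sum_le_sum fun b hb => hF b ?_
        exact (mem_primBall.mp (Finset.mem_filter.mp hb).1).2
    _ = (((primBall ⌊X⌋₊).filter (fun b => d ∣ b)).card : ℝ) * K := by
        rw [Finset.sum_const, nsmul_eq_mul]
    _ ≤ _ := mul_le_mul_of_nonneg_right (card_mult hd hX) hK

lemma gw_bound {v : ℝ → ℝ} (hv : Wgt v) : ∃ K : ℝ, 0 < K ∧ ∀ x, |gw v x| ≤ K :=
  Rho777.wgt_bound (wgt_gw hv)

open Classical in
lemma aB_bound {w v : ℝ → ℝ} (hw : Wgt w) (hv : Wgt v) {c2 : ℝ} (hc2 : 0 < c2) :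
    ∃ C : ℝ, 0 ≤ C ∧ ∀ c B : ℝ, 0 < c → 0 < B → ∀ d : Eis,
      |aB w v c B ⌊c2 * B⌋₊ d| ≤ C * (if IsPrim d then (nm d : ℝ) ^ (-2 : ℝ) else 0) := by
  obtain ⟨M, hM, hMb⟩ := gw_bound hv
  obtain ⟨K, hK, hK1, _⟩ := sig_bound hw
  refine ⟨16 * c2 * (M * K), by positivity, fun c B hc hB d => ?_⟩
  unfold aB
  by_cases hd : IsPrim d
  · rw [if_pos hd, if_pos hd]
    have hd0 := nm_pos' hd.ne_zero
    have h1 : |∑ b ∈ primBall ⌊c2 * B⌋₊, if d ∣ b then
        gw v (nm b / B) * sig w ((tb c b : ℂ) * toC d) else 0| ≤ 16 * (c2 * B / nm d) * (M * K) := by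
      apply sum_mult_le hd (by positivity) (by positivity)
      intro b hb
      rw [abs_mul]
      refine mul_le_mul (hMb _) (hK1 _ ?_) (abs_nonneg _) hM.le
      refine mul_ne_zero ?_ (by simpa using hd.ne_zero)
      exact_mod_cast (tb_pos hc hb.ne_zero).ne'
    rw [abs_mul, abs_mul, abs_mul, abs_of_pos (inv_pos.mpr hd0), abs_of_pos (inv_pos.mpr hB)]
    have e : (nm d : ℝ) ^ (-2 : ℝ) = (nm d : ℝ)⁻¹ * (nm d : ℝ)⁻¹ := by
      rw [show (-2 : ℝ) = -((2 : ℕ) : ℝ) by norm_num, Real.rpow_neg hd0.le, Real.rpow_natCast,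
        pow_two, mul_inv]
    rw [e]
    calc |(muE d : ℝ)| * (nm d : ℝ)⁻¹ * (B⁻¹ * |∑ b ∈ primBall ⌊c2 * B⌋₊, if d ∣ b then
        gw v (nm b / B) * sig w ((tb c b : ℂ) * toC d) else 0|)
        ≤ 1 * (nm d : ℝ)⁻¹ * (B⁻¹ * (16 * (c2 * B / nm d) * (M * K))) := by
          have := abs_muE_le_real d
          gcongr
      _ = _ := by field_simp
  · rw [if_neg hd, if_neg hd]; simp

lemma tb_le {N0 δ c1 B : ℝ} (hN0 : 0 < N0) (hc1 : 0 < c1) (hB : 0 < B) {b : Eis}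
    (hb : c1 * B ≤ nm b) :
    tb (B ^ (1 - δ) * N0) b ≤ (N0 / c1 * B ^ (-δ)) ^ ((1 : ℝ) / 6) := by
  have hb0 : (0 : ℝ) < nm b := lt_of_lt_of_le (by positivity) hb
  unfold tb
  have h1 : B ^ (1 - δ) * N0 / nm b ≤ N0 / c1 * B ^ (-δ) := by
    rw [div_le_iff₀ hb0]
    have e : B ^ (1 - δ) = B * B ^ (-δ) := by
      rw [show (1 - δ) = 1 + (-δ) by ring, Real.rpow_add hB, Real.rpow_one]
    rw [e]
    calc B * B ^ (-δ) * N0 = N0 / c1 * B ^ (-δ) * (c1 * B) := by field_simp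
      _ ≤ _ := mul_le_mul_of_nonneg_left hb (by positivity)
  have h2 : (B ^ (1 - δ) * N0 / nm b) ^ ((1 : ℝ) / 6) ≤ (N0 / c1 * B ^ (-δ)) ^ ((1 : ℝ) / 6) :=
    Real.rpow_le_rpow (by positivity) h1 (by norm_num)
  have h3 : 1 ≤ Real.sqrt 3 := by rw [Real.one_le_sqrt]; norm_num
  exact (div_le_self (by positivity) h3).trans h2

/-- the limit of `sig` at `0` -/
def s0 (w : ℝ → ℝ) : ℝ := 4 * Real.pi / (3 * Real.sqrt 3) * Iw w

/-- `2π/(9√3)` -/
def k0 : ℝ := 2 * Real.pi / (9 * Real.sqrt 3)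

open Classical in
lemma aB_limit {w v : ℝ → ℝ} (hw : Wgt w) (hv : Wgt v) {c1 c2 : ℝ} (h1 : 0 < c1) (h12 : c1 < c2)
    (hsup : ∀ x, v x ≠ 0 → c1 ≤ x ∧ x ≤ c2) {N0 δ : ℝ} (hN0 : 0 < N0) (hδ : 0 < δ) (d : Eis) :
    Tendsto (fun B : ℝ => aB w v (B ^ (1 - δ) * N0) B ⌊c2 * B⌋₊ d) atTop
      (𝓝 (if IsPrim d then (muE d : ℝ) * (nm d : ℝ)⁻¹ *
        (s0 w * (k0 / nm d * mel v (5 / 6))) else 0)) := by
  have hc2 : 0 < c2 := h1.trans h12
  unfold aB
  by_cases hd : IsPrim d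
  swap
  · simp only [if_neg hd]; exact tendsto_const_nhds
  simp only [if_pos hd]
  apply Tendsto.const_mul
  have hd0 := nm_pos' hd.ne_zero
  have hdn : 0 < ‖toC d‖ := norm_toC_pos hd.ne_zero
  obtain ⟨M, hM, hMb⟩ := gw_bound hv
  obtain ⟨K, hK, _, hK2⟩ := sig_bound hw
  -- the main part
  have hmain := (prim_limit (wgt_gw hv) hd).const_mul (s0 w)
  rw [mel_gw] at hmain
  -- the error
  set ε : ℝ → ℝ := fun B => (N0 / c1 * B ^ (-δ)) ^ ((1 : ℝ) / 6) with hε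
  have hε0 : Tendsto ε atTop (𝓝 0) := by
    have e1 : Tendsto (fun B : ℝ => N0 / c1 * B ^ (-δ)) atTop (𝓝 (N0 / c1 * 0)) :=
      (tendsto_rpow_neg_atTop hδ).const_mul _
    rw [mul_zero] at e1
    have e2 := e1.rpow_const (p := (1 : ℝ) / 6) (Or.inr (by norm_num))
    rwa [Real.zero_rpow (by norm_num)] at e2
  have herr : Tendsto (fun B : ℝ => B⁻¹ * ∑ b ∈ primBall ⌊c2 * B⌋₊, if d ∣ b then
      gw v (nm b / B) * (sig w ((tb (B ^ (1 - δ) * N0) b : ℂ) * toC d) - s0 w) else 0) atTop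
      (𝓝 0) := by
    rw [tendsto_zero_iff_norm_tendsto_zero]
    refine squeeze_zero' (Eventually.of_forall fun _ => norm_nonneg _)
      (g := fun B : ℝ => (16 * c2 / nm d * (M * K * ‖toC d‖)) * ε B) ?_ ?_
    · filter_upwards [eventually_gt_atTop 0] with B hB
      have hεB : 0 ≤ ε B := by simp only [hε]; positivity
      rw [Real.norm_eq_abs, abs_mul, abs_of_pos (inv_pos.mpr hB)]
      have h3 : |∑ b ∈ primBall ⌊c2 * B⌋₊, if d ∣ b then gw v (nm b / B) *
          (sig w ((tb (B ^ (1 - δ) * N0) b : ℂ) * toC d) - s0 w) else 0| ≤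
          16 * (c2 * B / nm d) * (M * (K * (ε B * ‖toC d‖))) := by
        apply sum_mult_le hd (by positivity) (by positivity)
        intro b hb
        by_cases hg : gw v (nm b / B) = 0
        · rw [hg]; simp; positivity
        · have h4 := (hsup _ (gw_support hg)).1
          rw [le_div_iff₀ hB] at h4
          have h5 := tb_le (δ := δ) hN0 h1 hB h4
          have ht := tb_pos (c := B ^ (1 - δ) * N0) (by positivity) hb.ne_zero
          rw [abs_mul]
          refine mul_le_mul (hMb _) ?_ (abs_nonneg _) hM.le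
          refine (hK2 _ (mul_ne_zero (by exact_mod_cast ht.ne')
            (by simpa using hd.ne_zero))).trans ?_
          rw [norm_mul, Complex.norm_real, Real.norm_eq_abs, abs_of_pos ht]
          gcongr
      calc B⁻¹ * |∑ b ∈ primBall ⌊c2 * B⌋₊, if d ∣ b then gw v (nm b / B) *
          (sig w ((tb (B ^ (1 - δ) * N0) b : ℂ) * toC d) - s0 w) else 0|
          ≤ B⁻¹ * (16 * (c2 * B / nm d) * (M * (K * (ε B * ‖toC d‖)))) :=
            mul_le_mul_of_nonneg_left h3 (inv_pos.mpr hB).le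
        _ = _ := by field_simp
    · simpa using hε0.const_mul (16 * c2 / nm d * (M * K * ‖toC d‖))
  have hsum := herr.add hmain
  rw [zero_add] at hsum
  refine hsum.congr' ?_
  filter_upwards [eventually_gt_atTop 0] with B hB
  have e1 : (∑' b : Eis, if IsPrim b ∧ d ∣ b then gw v (nm b / B) else 0) =
      ∑ b ∈ primBall ⌊c2 * B⌋₊, if d ∣ b then gw v (nm b / B) else 0 := by
    rw [tsum_eq_sum (s := primBall ⌊c2 * B⌋₊)]
    · refine Finset.sum_congr rfl fun b hb => ?_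
      have hb' := (mem_primBall.mp hb).2
      by_cases hdb : d ∣ b
      · rw [if_pos ⟨hb', hdb⟩, if_pos hdb]
      · rw [if_neg (fun h => hdb h.2), if_neg hdb]
    · intro b hb
      split_ifs with h
      · by_contra hcon
        apply hb
        refine mem_primBall.mpr ⟨?_, h.1⟩
        apply Nat.le_floor
        have := (hsup _ (gw_support hcon)).2
        rwa [div_le_iff₀ hB] at this
      · rfl
  rw [e1]
  have e2 : ∀ x y z : ℝ, s0 w * (x * y) = x * (s0 w * y) := fun x y _ => by ring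
  rw [e2 _ _ 0, ← mul_add, Finset.mul_sum, ← Finset.sum_add_distrib]
  congr 1
  refine Finset.sum_congr rfl fun b _ => ?_
  split_ifs <;> ring

/-! ### Step E : `(Σ μ(d)/N(d)²) · Zc = 1` -/

open Classical in
/-- `Σ_d μ(d)/N(d)²` -/
def Mu2 : ℝ := ∑' d : Eis, if IsPrim d then (muE d : ℝ) * ((nm d : ℝ) ^ 2)⁻¹ else 0

open Classical in
lemma summable_Zc : Summable fun k : Eis => if IsPrim k then ((nm k : ℝ) ^ 2)⁻¹ else 0 := by
  have h := Rho777.summable_prim (s := 2) (by norm_num)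
  refine h.congr fun k => ?_
  split_ifs
  · rw [show (-2 : ℝ) = -((2 : ℕ) : ℝ) by norm_num, Real.rpow_neg (Nat.cast_nonneg _),
      Real.rpow_natCast]
  · rfl

open Classical in
lemma tsum_prim_mul {d : Eis} (hd : IsPrim d) :
    HasSum (fun n : Eis => if IsPrim n ∧ d ∣ n then ((nm n : ℝ) ^ 2)⁻¹ else 0)
      (((nm d : ℝ) ^ 2)⁻¹ * Zc) := by
  have hinj : Function.Injective (fun m : Eis => d * m) := mul_right_injective₀ hd.ne_zero
  rw [← hinj.hasSum_iff]
  · have h := summable_Zc.hasSum.mul_left (((nm d : ℝ) ^ 2)⁻¹)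
    have e : ((fun n : Eis => if IsPrim n ∧ d ∣ n then ((nm n : ℝ) ^ 2)⁻¹ else 0) ∘
        fun m : Eis => d * m) =
        fun k => ((nm d : ℝ) ^ 2)⁻¹ * (if IsPrim k then ((nm k : ℝ) ^ 2)⁻¹ else 0) := by
      funext k
      simp only [Function.comp]
      by_cases hk : IsPrim k
      · rw [if_pos ⟨hd.mul hk, dvd_mul_right _ _⟩, if_pos hk, nm_mul]
        push_cast
        rw [mul_pow, mul_inv]
      · rw [if_neg (fun h => hk (h.1.of_mul_left hd)), if_neg hk, mul_zero]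
    rw [e]
    exact h
  · intro b hb
    rw [if_neg]
    rintro ⟨_, c, rfl⟩
    exact hb ⟨c, rfl⟩

lemma Mu2_mul_Zc : Mu2 * Zc = 1 := by
  classical
  set h : Eis → Eis → ℝ := fun d n =>
    if IsPrim d then (muE d : ℝ) * (if IsPrim n ∧ d ∣ n then ((nm n : ℝ) ^ 2)⁻¹ else 0) else 0
    with hh
  have hZ : 0 < Zc := by rw [← Rho777.Zk_eq]; exact Rho777.Zk_pos
  have hsum : Summable (Function.uncurry h) := by
    apply Summable.of_norm
    rw [summable_prod_of_nonneg (fun _ => norm_nonneg _)]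
    have hle : ∀ d n, ‖h d n‖ ≤ if IsPrim d then
        (if IsPrim n ∧ d ∣ n then ((nm n : ℝ) ^ 2)⁻¹ else 0) else 0 := by
      intro d n
      simp only [hh]
      split_ifs
      · rw [norm_mul, Real.norm_eq_abs, Real.norm_eq_abs]
        have h1 := abs_muE_le_real d
        have h2 : |((nm n : ℝ) ^ 2)⁻¹| = ((nm n : ℝ) ^ 2)⁻¹ := abs_of_nonneg (by positivity)
        rw [h2]
        exact mul_le_of_le_one_left (by positivity) h1
      · simp
      · simp
    have hs1 : ∀ d, Summable fun n => ‖h d n‖ := by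
      intro d
      by_cases hd : IsPrim d
      · refine Summable.of_nonneg_of_le (fun _ => norm_nonneg _) (fun n => ?_)
          (tsum_prim_mul hd).summable
        have := hle d n
        rwa [if_pos hd] at this
      · have : (fun n => ‖h d n‖) = fun _ => 0 := by
          funext n; simp only [hh]; rw [if_neg hd, norm_zero]
        rw [this]; exact summable_zero
    refine ⟨fun d => hs1 d, ?_⟩
    refine Summable.of_nonneg_of_le (fun d => tsum_nonneg fun _ => norm_nonneg _) (fun d => ?_)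
      (summable_Zc.mul_right Zc)
    by_cases hd : IsPrim d
    · rw [if_pos hd, ← (tsum_prim_mul hd).tsum_eq]
      refine (hs1 d).tsum_le_tsum (fun n => ?_) (tsum_prim_mul hd).summable
      have := hle d n
      rwa [if_pos hd] at this
    · rw [if_neg hd]
      have : (fun n => ‖Function.uncurry h (d, n)‖) = fun _ => 0 := by
        funext n; simp only [hh, Function.uncurry]; rw [if_neg hd, norm_zero]
      rw [this]; simp
  have hcomm := hsum.tsum_comm
  have hL : ∀ d, ∑' n, h d n = (if IsPrim d then (muE d : ℝ) * ((nm d : ℝ) ^ 2)⁻¹ else 0) * Zc := by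
    intro d
    simp only [hh]
    by_cases hd : IsPrim d
    · simp only [if_pos hd]
      rw [tsum_mul_left, (tsum_prim_mul hd).tsum_eq]
      ring
    · simp only [if_neg hd]; simp
  have hR : ∀ n, ∑' d, h d n = if n = 1 then 1 else 0 := by
    intro n
    simp only [hh]
    by_cases hn : IsPrim n
    · rw [tsum_eq_sum (s := dvs n)]
      · have e : ∀ d ∈ dvs n, (if IsPrim d then (muE d : ℝ) *
            (if IsPrim n ∧ d ∣ n then ((nm n : ℝ) ^ 2)⁻¹ else 0) else 0) =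
            (muE d : ℝ) * ((nm n : ℝ) ^ 2)⁻¹ := by
          intro d hd
          have hd' := (mem_dvs hn.ne_zero).mp hd
          rw [if_pos hd'.1, if_pos ⟨hn, hd'.2⟩]
        rw [Finset.sum_congr rfl e, ← Finset.sum_mul, ← Int.cast_sum, sum_dvs_muE_one hn]
        by_cases h1 : n = 1
        · simp [h1]
        · simp [h1]
      · intro d hd
        by_cases hdp : IsPrim d
        · rw [if_pos hdp, if_neg, mul_zero]
          exact fun h => hd ((mem_dvs hn.ne_zero).mpr ⟨hdp, h.2⟩)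
        · rw [if_neg hdp]
    · have h1 : n ≠ 1 := fun h => hn (h ▸ isPrim_one)
      rw [if_neg h1]
      have : (fun d => if IsPrim d then (muE d : ℝ) *
            (if IsPrim n ∧ d ∣ n then ((nm n : ℝ) ^ 2)⁻¹ else 0) else 0) = fun _ => (0 : ℝ) := by
        funext d
        rw [if_neg (fun h : IsPrim n ∧ d ∣ n => hn h.1), mul_zero, ite_self]
      rw [this]; simp
  rw [tsum_congr hL, tsum_congr hR, tsum_mul_right, tsum_ite_eq] at hcomm
  exact hcomm.symm

/-! ### the theorem -/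

/-- **Item MC1c.** -/
theorem cube_limit : ∀ w v : ℝ → ℝ, Wgt w → Wgt v → ∀ N0 : ℝ, 0 < N0 → ∀ δ : ℝ, 0 < δ → δ < 1 →
    Tendsto (fun B : ℝ => Xc w v N0 (B ^ (1 - δ)) B / B ^ (-(1 - δ) / 3 + 5 / 6)) atTop
      (𝓝 (N0 ^ (-(1 / 3) : ℝ) * (4 * Real.pi / Real.sqrt 3) * Iw w * mel v (5 / 6) * Dc)) := by
  classical
  intro w v hw hv N0 hN0 δ hδ _
  obtain ⟨c1, c2, h1, h12, hsup⟩ := hv.exists_bounds
  have hc2 : 0 < c2 := h1.trans h12
  obtain ⟨C, hC, hCb⟩ := aB_bound hw hv hc2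
  have hT : Tendsto (fun B : ℝ => ∑' d : Eis, aB w v (B ^ (1 - δ) * N0) B ⌊c2 * B⌋₊ d) atTop
      (𝓝 (∑' d : Eis, if IsPrim d then (muE d : ℝ) * (nm d : ℝ)⁻¹ *
        (s0 w * (k0 / nm d * mel v (5 / 6))) else 0)) := by
    refine tendsto_tsum_of_dominated_convergence
      ((Rho777.summable_prim (s := 2) (by norm_num)).mul_left C)
      (fun d => aB_limit hw hv h1 h12 hsup hN0 hδ d) ?_
    filter_upwards [eventually_gt_atTop 0] with B hB d
    exact hCb _ B (by positivity) hB d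
  have e1 : (∑' d : Eis, if IsPrim d then (muE d : ℝ) * (nm d : ℝ)⁻¹ *
        (s0 w * (k0 / nm d * mel v (5 / 6))) else 0) = s0 w * k0 * mel v (5 / 6) * Mu2 := by
    unfold Mu2
    rw [← tsum_mul_left]
    refine tsum_congr fun d => ?_
    split_ifs with hd
    · have := nm_pos' hd.ne_zero
      field_simp
    · simp
  have hZ : 0 < Zc := by rw [← Rho777.Zk_eq]; exact Rho777.Zk_pos
  have e2 : Mu2 = 1 / Zc := by
    rw [eq_div_iff hZ.ne']; exact Mu2_mul_Zc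
  rw [e1, e2] at hT
  have hfin := hT.const_mul (3 * N0 ^ (-(1 / 3) : ℝ))
  have e3 : 3 * N0 ^ (-(1 / 3) : ℝ) * (s0 w * k0 * mel v (5 / 6) * (1 / Zc)) =
      N0 ^ (-(1 / 3) : ℝ) * (4 * Real.pi / Real.sqrt 3) * Iw w * mel v (5 / 6) * Dc := by
    unfold s0 k0 Dc
    field_simp
  rw [e3] at hfin
  refine hfin.congr' ?_
  filter_upwards [eventually_gt_atTop 0] with B hB
  have hA : 0 < B ^ (1 - δ) := by positivity
  have hN : ∀ b : Eis, v (nm b / B) ≠ 0 → nm b ≤ ⌊c2 * B⌋₊ := by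
    intro b hb
    apply Nat.le_floor
    have := (hsup _ hb).2
    rwa [div_le_iff₀ hB] at this
  rw [Xc_eq_tsum hw (mul_pos hA hN0) hB hN]
  have e4 : (B ^ (1 - δ) * N0) ^ (-(1 / 3) : ℝ) * B ^ (-(1 / 6) : ℝ) * B =
      N0 ^ (-(1 / 3) : ℝ) * B ^ (-(1 - δ) / 3 + 5 / 6) := by
    rw [Real.mul_rpow hA.le hN0.le, ← Real.rpow_mul hB.le]
    have : B ^ ((1 - δ) * -(1 / 3)) * N0 ^ (-(1 / 3) : ℝ) * B ^ (-(1 / 6) : ℝ) * B =
        N0 ^ (-(1 / 3) : ℝ) * (B ^ ((1 - δ) * -(1 / 3)) * B ^ (-(1 / 6) : ℝ) * B ^ (1 : ℝ)) := by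
      rw [Real.rpow_one]; ring
    rw [this, ← Real.rpow_add hB, ← Real.rpow_add hB]
    congr 2
    ring
  have hP : 0 < B ^ (-(1 - δ) / 3 + 5 / 6) := by positivity
  rw [eq_div_iff hP.ne']
  calc 3 * N0 ^ (-(1 / 3) : ℝ) * (∑' d : Eis, aB w v (B ^ (1 - δ) * N0) B ⌊c2 * B⌋₊ d) *
      B ^ (-(1 - δ) / 3 + 5 / 6)
      = 3 * (∑' d : Eis, aB w v (B ^ (1 - δ) * N0) B ⌊c2 * B⌋₊ d) *
        (N0 ^ (-(1 / 3) : ℝ) * B ^ (-(1 - δ) / 3 + 5 / 6)) := by ring
    _ = _ := by rw [← e4]; ring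

end Crest.Agent.R012.Cube777
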