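import Crest.Agent.R012.Defs

/-!
# Row 12 (M-K): Kubota's theorem

For a matrix `(a b; c d)` of determinant `1`, congruent to `1` modulo `3`, and a coprime row
`(x, y)`, `3 ∣ x`, `y` primary:

  `sy (x a + y c) (x b + y d) = sy x y * sy c d`.

Everything is deduced from a small list `SyAPI` of facts on the cubic residue symbol.
-/

set_option autoImplicit false

noncomputable section

namespace Crest.Agent.R012.K695

open Eis

/-- The facts on the cubic symbol used here. -/
structure SyAPI : Prop where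
  one_right : ∀ x : Eis, sy x 1 = 1
  mul_left : ∀ x y c : Eis, IsPrim c → sy (x * y) c = sy x c * sy y c
  mul_right : ∀ x c d : Eis, IsPrim c → IsPrim d → sy x (c * d) = sy x c * sy x d
  congr : ∀ x y c : Eis, IsPrim c → c ∣ x - y → sy x c = sy y c
  norm_one : ∀ x c : Eis, IsPrim c → IsCoprime x c → ‖sy x c‖ = 1
  neg_one : ∀ c : Eis, IsPrim c → sy (-1) c = 1
  recip : ∀ a b : Eis, IsPrim a → IsPrim b → sy a b = sy b a
  w_congr : ∀ m n : Eis, IsPrim m → IsPrim n → (9 : Eis) ∣ m - n → sy w m = sy w n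
  lam_congr : ∀ m n : Eis, IsPrim m → IsPrim n → (9 : Eis) ∣ m - n → sy (1 - w) m = sy (1 - w) n

lemma SyAPI.ne_zero (H : SyAPI) (x c : Eis) (hc : IsPrim c) (h : IsCoprime x c) : sy x c ≠ 0 := by
  intro h0
  have := H.norm_one x c hc h
  rw [h0, norm_zero] at this
  exact zero_ne_one this

lemma prim_ne_zero {z : Eis} (h : IsPrim z) : z ≠ 0 := by
  rintro rfl
  obtain ⟨t, ht⟩ := h
  have := congrArg nm ht
  rw [nm_mul] at this
  have h3 : nm (3 : Eis) = 9 := by
    have := nm_natCast 3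
    simpa using this
  rw [h3] at this
  simp at this
  omega

lemma nm_three : nm (3 : Eis) = 9 := by
  have := nm_natCast 3
  simpa using this

lemma isPrim_one : IsPrim (1 : Eis) := by simp [IsPrim]

lemma prim_mul {x y : Eis} (hx : IsPrim x) (hy : IsPrim y) : IsPrim (x * y) := by
  unfold IsPrim at *
  have : x * y - 1 = (x - 1) * y + (y - 1) := by ring
  rw [this]
  exact dvd_add (hx.mul_right _) hy

lemma prim_coprime_three {x : Eis} (hx : IsPrim x) : IsCoprime x 3 := by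
  obtain ⟨t, ht⟩ := hx
  exact ⟨1, -t, by linear_combination ht⟩

/-- A primary unit is `1`. -/
lemma prim_eq_one_of_isUnit {z : Eis} (h : IsPrim z) (hu : IsUnit z) : z = 1 := by
  obtain ⟨t, ht⟩ := h
  have e2 : w ^ 2 = (⟨-1, -1⟩ : Eis) := by
    rw [w_sq]; apply ext' <;> simp
  have hre := congrArg QuadraticAlgebra.re ht
  have him := congrArg QuadraticAlgebra.im ht
  have r3 : (3 : Eis).re = 3 := rfl
  have i3 : (3 : Eis).im = 0 := rfl
  rw [re_mul', r3, i3] at hre
  rw [im_mul', r3, i3] at him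
  rcases isUnit_cases hu with rfl | rfl | rfl | rfl | rfl | rfl
  · rfl
  · exfalso; simp at hre; omega
  · exfalso; simp at him; omega
  · exfalso; simp at him; omega
  · exfalso; rw [e2] at him; simp at him; omega
  · exfalso; rw [e2] at him; simp at him; omega

/-! ### Existence of a shift making two elements coprime -/

open Classical in
lemma exists_shift {d b Y : Eis} (hdb : IsCoprime d b) (hY : IsPrim Y) :
    ∃ t : Eis, (3 : Eis) ∣ t ∧ IsCoprime (d - t * b) Y := by
  have hY0 : Y ≠ 0 := prim_ne_zero hY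
  set s : Eis := ((UniqueFactorizationMonoid.factors Y).filter (fun p => ¬ p ∣ d)).prod with hs
  refine ⟨3 * s, Dvd.intro _ rfl, ?_⟩
  apply isCoprime_of_prime_dvd
  · rintro ⟨-, h⟩; exact hY0 h
  intro p hp h1 h2
  have hp3 : ¬ p ∣ 3 := by
    intro h3
    have h4 := prim_coprime_three hY
    exact hp.not_isUnit (h4.isUnit_of_dvd' h2 h3)
  by_cases hpd : p ∣ d
  · have h5 : p ∣ 3 * s * b := by
      have := dvd_sub hpd h1
      simpa using this
    rcases hp.dvd_or_dvd h5 with h6 | h6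
    · rcases hp.dvd_or_dvd h6 with h7 | h7
      · exact hp3 h7
      · rw [hs] at h7
        obtain ⟨q, hq, hpq⟩ := hp.exists_mem_multiset_dvd h7
        rw [Multiset.mem_filter] at hq
        have hqp : Prime q := UniqueFactorizationMonoid.prime_of_factor q hq.1
        have h10 : Associated p q := (hp.dvd_prime_iff_associated hqp).mp hpq
        exact hq.2 (h10.symm.dvd.trans hpd)
    · exact hp.not_isUnit (hdb.isUnit_of_dvd' hpd h6)
  · obtain ⟨q, hq, hpq⟩ := UniqueFactorizationMonoid.exists_mem_factors_of_dvd hY0 hp.irreducible h2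
    have hqd : ¬ q ∣ d := fun h => hpd (hpq.dvd.trans h)
    have h8 : q ∣ s := Multiset.dvd_prod (Multiset.mem_filter.mpr ⟨hq, hqd⟩)
    have h9 : p ∣ 3 * s * b := (hpq.dvd.trans h8).mul_left 3 |>.mul_right b
    exact hpd (by simpa using dvd_add h1 h9)

/-! ### Divisibility by `3` and by `1 - w` -/

lemma three_re : (3 : Eis).re = 3 := rfl
lemma three_im : (3 : Eis).im = 0 := rfl

lemma three_dvd_iff {z : Eis} : (3 : Eis) ∣ z ↔ (3 : ℤ) ∣ z.re ∧ (3 : ℤ) ∣ z.im := by
  constructor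
  · rintro ⟨t, rfl⟩
    rw [re_mul', im_mul', three_re, three_im]
    exact ⟨⟨t.re, by ring⟩, ⟨t.im, by ring⟩⟩
  · rintro ⟨⟨p, hp⟩, ⟨q, hq⟩⟩
    refine ⟨⟨p, q⟩, ?_⟩
    apply ext'
    · rw [re_mul', three_re, three_im, hp]; ring
    · rw [im_mul', three_re, three_im, hq]; ring

lemma isPrim_iff {z : Eis} : IsPrim z ↔ (3 : ℤ) ∣ z.re - 1 ∧ (3 : ℤ) ∣ z.im := by
  unfold IsPrim
  rw [three_dvd_iff]
  simp

lemma lam_dvd {z : Eis} (h : (3 : ℤ) ∣ z.re + z.im) : (1 - w : Eis) ∣ z := by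
  obtain ⟨q, hq⟩ := h
  refine ⟨⟨z.re - q, q⟩, ?_⟩
  apply ext'
  · rw [re_mul']; simp
  · rw [im_mul']; simp; linarith

lemma w_sq' : w ^ 2 = (⟨-1, -1⟩ : Eis) := by
  rw [w_sq]; apply ext' <;> simp

lemma exists_unit_prim {z : Eis} (h : ¬ (1 - w : Eis) ∣ z) :
    ∃ u : Eis, IsUnit u ∧ IsPrim (u * z) := by
  have h1 : ¬ (3 : ℤ) ∣ z.re + z.im := fun h' => h (lam_dvd h')
  have hw2 : IsUnit (w ^ 2) := isUnit_w.pow 2
  have ha : z.re % 3 = 0 ∨ z.re % 3 = 1 ∨ z.re % 3 = 2 := by omega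
  have hb : z.im % 3 = 0 ∨ z.im % 3 = 1 ∨ z.im % 3 = 2 := by omega
  rcases ha with ha | ha | ha <;> rcases hb with hb | hb | hb
  · exfalso; omega
  · exact ⟨w ^ 2, hw2, isPrim_iff.mpr (by
      rw [re_mul', im_mul', w_sq']; constructor <;> simp <;> omega)⟩
  · exact ⟨-w ^ 2, hw2.neg, isPrim_iff.mpr (by
      rw [re_mul', im_mul', w_sq']; constructor <;> simp <;> omega)⟩
  · exact ⟨1, isUnit_one, isPrim_iff.mpr (by
      rw [re_mul', im_mul']; constructor <;> simp <;> omega)⟩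
  · exact ⟨-w, isUnit_w.neg, isPrim_iff.mpr (by
      rw [re_mul', im_mul']; constructor <;> simp <;> omega)⟩
  · exfalso; omega
  · exact ⟨-1, isUnit_one.neg, isPrim_iff.mpr (by
      rw [re_mul', im_mul']; constructor <;> simp <;> omega)⟩
  · exfalso; omega
  · exact ⟨w, isUnit_w, isPrim_iff.mpr (by
      rw [re_mul', im_mul']; constructor <;> simp <;> omega)⟩

lemma nm_lam : nm (1 - w : Eis) = 3 := by
  have : (nm (1 - w : Eis) : ℤ) = 3 := by
    rw [nm_cast]; simp
  exact_mod_cast this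

/-- Every nonzero element is `u * (1 - w)^k * c₀` with `u` a unit and `c₀` primary. -/
lemma exists_factor (c : Eis) (hc : c ≠ 0) :
    ∃ (u : Eis) (k : ℕ) (c0 : Eis), IsUnit u ∧ IsPrim c0 ∧ c = u * (1 - w) ^ k * c0 := by
  induction hn : nm c using Nat.strong_induction_on generalizing c with
  | _ n ih =>
    by_cases hl : (1 - w : Eis) ∣ c
    · obtain ⟨c', rfl⟩ := hl
      have hc' : c' ≠ 0 := right_ne_zero_of_mul hc
      have hpos := nm_pos.mpr hc'
      obtain ⟨u, k, c0, hu, hc0, he⟩ := ih (nm c') (by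
        rw [← hn, nm_mul, nm_lam]; omega) c' hc' rfl
      exact ⟨u, k + 1, c0, hu, hc0, by rw [he]; ring⟩
    · obtain ⟨u, hu, hp⟩ := exists_unit_prim hl
      obtain ⟨v, rfl⟩ := hu
      exact ⟨((v⁻¹ : Eisˣ) : Eis), 0, v * c, Units.isUnit _, hp, by simp⟩

/-! ### Consequences of the API -/

section

variable (H : SyAPI)
include H

lemma sy_one_left {c : Eis} (hc : IsPrim c) : sy 1 c = 1 := by
  have h1 := H.mul_left 1 1 c hc
  have h2 := H.ne_zero 1 c hc isCoprime_one_left
  rw [mul_one] at h1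
  field_simp at h1
  exact h1.symm

lemma sy_pow_left (x : Eis) {c : Eis} (hc : IsPrim c) (k : ℕ) : sy (x ^ k) c = sy x c ^ k := by
  induction k with
  | zero => simp [sy_one_left H hc]
  | succ k ih => rw [pow_succ, H.mul_left _ _ _ hc, ih, pow_succ]

lemma sy_neg_left (x : Eis) {c : Eis} (hc : IsPrim c) : sy (-x) c = sy x c := by
  have : -x = (-1) * x := by ring
  rw [this, H.mul_left _ _ _ hc, H.neg_one c hc, one_mul]

lemma sy_unit_congr {u : Eis} (hu : IsUnit u) {m n : Eis} (hm : IsPrim m) (hn : IsPrim n)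
    (h : (9 : Eis) ∣ m - n) : sy u m = sy u n := by
  obtain ⟨k, -, hk | hk⟩ := isUnit_exists hu
  · rw [hk, sy_pow_left H _ hm, sy_pow_left H _ hn, H.w_congr m n hm hn h]
  · rw [hk, sy_neg_left H _ hm, sy_neg_left H _ hn, sy_pow_left H _ hm, sy_pow_left H _ hn,
      H.w_congr m n hm hn h]

/-- The denominator periodicity: `(c/m)` depends only on `m mod 3c` for primary `m`, if `3 ∣ c`. -/
theorem sy_period {c : Eis} (hc : c ≠ 0) (hc3 : (3 : Eis) ∣ c) {m n : Eis} (hm : IsPrim m)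
    (hn : IsPrim n) (h : 3 * c ∣ m - n) : sy c m = sy c n := by
  obtain ⟨u, k, c0, hu, hc0, he⟩ := exists_factor c hc
  have h9 : (9 : Eis) ∣ m - n := by
    obtain ⟨t, ht⟩ := hc3
    refine dvd_trans ?_ h
    rw [ht]
    exact ⟨t, by ring⟩
  have hcd : c0 ∣ m - n := by
    refine dvd_trans ?_ h
    rw [he]
    exact ⟨3 * (u * (1 - w) ^ k), by ring⟩
  rw [he, H.mul_left _ _ _ hm, H.mul_left _ _ _ hm, H.mul_left _ _ _ hn, H.mul_left _ _ _ hn,
    sy_pow_left H _ hm, sy_pow_left H _ hn, sy_unit_congr H hu hm hn h9, H.lam_congr m n hm hn h9,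
    H.recip c0 m hc0 hm, H.recip c0 n hc0 hn, H.congr m n c0 hc0 hcd]

/-- Kubota's row law under a coprimality hypothesis. -/
lemma row_law_aux {a b c d x y : Eis} (hdet : a * d - b * c = 1) (hb : (3 : Eis) ∣ b)
    (hd : IsPrim d) (hx0 : x ≠ 0) (hx : (3 : Eis) ∣ x) (hy : IsPrim y)
    (hcop : IsCoprime d (x * b + y * d)) :
    sy (x * a + y * c) (x * b + y * d) = sy x y * sy c d := by
  set Y := x * b + y * d with hY
  set X := x * a + y * c with hX
  have hYp : IsPrim Y := by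
    unfold IsPrim at *
    have : Y - 1 = b * x + (y - 1) * d + (d - 1) := by rw [hY]; ring
    rw [this]
    exact dvd_add (dvd_add (hb.mul_right _) (hy.mul_right _)) hd
  have hcopxd : IsCoprime x d := by
    obtain ⟨r, s, hrs⟩ := hcop
    -- r * d + s * (x b + y d) = 1
    exact ⟨s * b, r + s * y, by rw [hY] at hrs; linear_combination hrs⟩
  have hcopbd : IsCoprime b d := ⟨-c, a, by linear_combination hdet⟩
  have hcopcd : IsCoprime c d := ⟨-b, a, by linear_combination hdet⟩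
  -- X * d ≡ x mod Y
  have h1 : sy X Y * sy d Y = sy x Y := by
    rw [← H.mul_left _ _ _ hYp]
    apply H.congr _ _ _ hYp
    refine ⟨c, ?_⟩
    rw [hX, hY]
    linear_combination x * hdet
  have h2 : sy d Y = sy x d * sy b d := by
    rw [H.recip d Y hd hYp, ← H.mul_left _ _ _ hd]
    apply H.congr _ _ _ hd
    exact ⟨y, by rw [hY]; ring⟩
  have h3 : sy b d * sy c d = 1 := by
    rw [← H.mul_left _ _ _ hd]
    rw [H.congr (b * c) (-1) d hd ⟨a, by linear_combination -hdet⟩]
    exact H.neg_one d hd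
  have h4 : sy x Y = sy x y * sy x d := by
    rw [← H.mul_right x y d hy hd]
    apply sy_period H hx0 hx hYp (prim_mul hy hd)
    obtain ⟨t, ht⟩ := hb
    exact ⟨t, by rw [hY, ht]; ring⟩
  have h5 : sy x d ≠ 0 := H.ne_zero x d hd hcopxd
  rw [h2, h4] at h1
  have h6 : sy x d * (sy X Y * (sy b d * sy c d)) = sy x d * (sy x y * sy c d) := by
    linear_combination sy c d * h1
  rw [h3, mul_one] at h6
  exact mul_left_cancel₀ h5 h6

/-- `(c/d) (b/d) = 1` for a matrix of determinant one. -/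
lemma sy_b_mul_c {a b c d : Eis} (hdet : a * d - b * c = 1) (hd : IsPrim d) :
    sy b d * sy c d = 1 := by
  rw [← H.mul_left _ _ _ hd]
  rw [H.congr (b * c) (-1) d hd ⟨a, by linear_combination -hdet⟩]
  exact H.neg_one d hd

/-- Kubota's row law. -/
theorem row_law {a b c d x y : Eis} (hdet : a * d - b * c = 1) (hb : (3 : Eis) ∣ b)
    (hd : IsPrim d) (hx : (3 : Eis) ∣ x) (hy : IsPrim y)
    (hxy : IsCoprime x y) :
    sy (x * a + y * c) (x * b + y * d) = sy x y * sy c d := by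
  by_cases hx0 : x = 0
  · subst hx0
    have hyu : IsUnit y := isCoprime_zero_left.mp hxy
    have hy1 := prim_eq_one_of_isUnit hy hyu
    subst hy1
    simp [H.one_right]
  have hcopdb : IsCoprime d b := ⟨a, -c, by linear_combination hdet⟩
  have hYp : IsPrim (x * b + y * d) := by
    unfold IsPrim at *
    have : x * b + y * d - 1 = b * x + (y - 1) * d + (d - 1) := by ring
    rw [this]
    exact dvd_add (dvd_add (hb.mul_right _) (hy.mul_right _)) hd
  obtain ⟨t, ht3, htc⟩ := exists_shift hcopdb hYp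
  -- replace `x` by `x' = x + t y`, `c` by `c' = c - t a`, `d` by `d' = d - t b`
  have hdet' : a * (d - t * b) - b * (c - t * a) = 1 := by linear_combination hdet
  have hd' : IsPrim (d - t * b) := by
    unfold IsPrim at *
    have : d - t * b - 1 = (d - 1) - t * b := by ring
    rw [this]
    exact dvd_sub hd (ht3.mul_right _)
  have hcd : sy (c - t * a) (d - t * b) = sy c d := by
    by_cases hb0 : b = 0
    · subst hb0
      have hdu : IsUnit d := IsUnit.of_mul_eq_one a (by linear_combination hdet)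
      have hd1 := prim_eq_one_of_isUnit hd hdu
      subst hd1
      simp [H.one_right]
    · have e1 := sy_b_mul_c H hdet hd
      have e2 := sy_b_mul_c H hdet' hd'
      have e3 : sy b (d - t * b) = sy b d := by
        apply sy_period H hb0 hb hd' hd
        obtain ⟨s, hs⟩ := ht3
        exact ⟨-s, by rw [hs]; ring⟩
      rw [e3] at e2
      have e4 : sy b d ≠ 0 := left_ne_zero_of_mul_eq_one e1
      exact mul_left_cancel₀ e4 (e2.trans e1.symm)
  have hxy' : sy (x + t * y) y = sy x y := H.congr _ _ _ hy ⟨t, by ring⟩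
  have eX : x * a + y * c = (x + t * y) * a + y * (c - t * a) := by ring
  have eY : x * b + y * d = (x + t * y) * b + y * (d - t * b) := by ring
  by_cases hx0' : x + t * y = 0
  · have hcop' : IsCoprime (x + t * y) y := by
      obtain ⟨r, s, hrs⟩ := hxy
      exact ⟨r, s - r * t, by linear_combination hrs⟩
    rw [hx0'] at hcop'
    have hyu : IsUnit y := isCoprime_zero_left.mp hcop'
    have hy1 := prim_eq_one_of_isUnit hy hyu
    rw [eX, eY, hx0', hy1]
    simp only [zero_mul, one_mul, zero_add, H.one_right]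
    exact hcd
  · rw [eX, eY, ← hxy', ← hcd]
    apply row_law_aux H hdet' hb hd' hx0' (dvd_add hx (ht3.mul_right _)) hy
    rw [← eY]; exact htc

end

/-! ### The group `Γ(3)` and the rows -/

/-- A row `(c, d)` which is the bottom row of a matrix of `Γ(3)`. -/
def IsRow (r : Eis × Eis) : Prop := IsCoprime r.1 r.2 ∧ (3 : Eis) ∣ r.1 ∧ IsPrim r.2

/-- The group `Γ(3) ⊆ SL₂(ℤ[ω])`. -/
def Gam : Subgroup (Matrix.SpecialLinearGroup (Fin 2) Eis) where
  carrier := {g | IsPrim (g 0 0) ∧ (3 : Eis) ∣ g 0 1 ∧ (3 : Eis) ∣ g 1 0 ∧ IsPrim (g 1 1)}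
  one_mem' := by
    simp [isPrim_one]
  mul_mem' := by
    rintro g h ⟨g1, g2, g3, g4⟩ ⟨h1, h2, h3, h4⟩
    simp only [Set.mem_ofPred_eq, Matrix.SpecialLinearGroup.coe_mul, Matrix.mul_apply,
      Fin.sum_univ_two] at *
    unfold IsPrim at *
    refine ⟨?_, ?_, ?_, ?_⟩
    · have : (g 0 0 * h 0 0 + g 0 1 * h 1 0 - 1 : Eis) =
          (g 0 0 - 1) * h 0 0 + (h 0 0 - 1) + g 0 1 * h 1 0 := by ring
      rw [this]
      exact dvd_add (dvd_add (g1.mul_right _) h1) (g2.mul_right _)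
    · exact dvd_add (h2.mul_left _) (g2.mul_right _)
    · exact dvd_add (g3.mul_right _) (h3.mul_left _)
    · have : (g 1 0 * h 0 1 + g 1 1 * h 1 1 - 1 : Eis) =
          (g 1 1 - 1) * h 1 1 + (h 1 1 - 1) + g 1 0 * h 0 1 := by ring
      rw [this]
      exact dvd_add (dvd_add (g4.mul_right _) h4) (g3.mul_right _)
  inv_mem' := by
    rintro g ⟨g1, g2, g3, g4⟩
    simp only [Set.mem_ofPred_eq, Matrix.SpecialLinearGroup.coe_inv, Matrix.adjugate_fin_two] at *
    refine ⟨by simpa using g4, by simpa using g2, by simpa using g3, by simpa using g1⟩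

lemma mem_Gam {g : Matrix.SpecialLinearGroup (Fin 2) Eis} : g ∈ Gam ↔
    IsPrim (g 0 0) ∧ (3 : Eis) ∣ g 0 1 ∧ (3 : Eis) ∣ g 1 0 ∧ IsPrim (g 1 1) := Iff.rfl

/-- Matrix entries of an element of `Γ(3)`. -/
def ga (g : Gam) : Eis := g.1 0 0
/-- Matrix entries of an element of `Γ(3)`. -/
def gb (g : Gam) : Eis := g.1 0 1
/-- Matrix entries of an element of `Γ(3)`. -/
def gc (g : Gam) : Eis := g.1 1 0
/-- Matrix entries of an element of `Γ(3)`. -/
def gd (g : Gam) : Eis := g.1 1 1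

lemma ga_prim (g : Gam) : IsPrim (ga g) := g.2.1
lemma gb_dvd (g : Gam) : (3 : Eis) ∣ gb g := g.2.2.1
lemma gc_dvd (g : Gam) : (3 : Eis) ∣ gc g := g.2.2.2.1
lemma gd_prim (g : Gam) : IsPrim (gd g) := g.2.2.2.2

lemma det_eq (g : Gam) : ga g * gd g - gb g * gc g = 1 := by
  have := g.1.2
  rw [Matrix.det_fin_two] at this
  exact this

lemma gam_ext {g h : Gam} (h1 : ga g = ga h) (h2 : gb g = gb h) (h3 : gc g = gc h)
    (h4 : gd g = gd h) : g = h := by
  apply Subtype.ext
  apply Matrix.SpecialLinearGroup.ext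
  intro i j
  fin_cases i <;> fin_cases j
  · exact h1
  · exact h2
  · exact h3
  · exact h4

/-- Build an element of `Γ(3)` from its entries. -/
def mkGam (a b c d : Eis) (hdet : a * d - b * c = 1) (ha : IsPrim a) (hb : (3 : Eis) ∣ b)
    (hc : (3 : Eis) ∣ c) (hd : IsPrim d) : Gam :=
  ⟨⟨!![a, b; c, d], by rw [Matrix.det_fin_two_of]; exact hdet⟩, ⟨ha, hb, hc, hd⟩⟩

@[simp] lemma ga_mk (a b c d : Eis) (hdet ha hb hc hd) : ga (mkGam a b c d hdet ha hb hc hd) = a := rfl
@[simp] lemma gb_mk (a b c d : Eis) (hdet ha hb hc hd) : gb (mkGam a b c d hdet ha hb hc hd) = b := rfl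
@[simp] lemma gc_mk (a b c d : Eis) (hdet ha hb hc hd) : gc (mkGam a b c d hdet ha hb hc hd) = c := rfl
@[simp] lemma gd_mk (a b c d : Eis) (hdet ha hb hc hd) : gd (mkGam a b c d hdet ha hb hc hd) = d := rfl

lemma ga_mul (g h : Gam) : ga (g * h) = ga g * ga h + gb g * gc h := by
  simp [ga, gb, gc, Matrix.mul_apply, Fin.sum_univ_two]
lemma gb_mul (g h : Gam) : gb (g * h) = ga g * gb h + gb g * gd h := by
  simp [ga, gb, gd, Matrix.mul_apply, Fin.sum_univ_two]
lemma gc_mul (g h : Gam) : gc (g * h) = gc g * ga h + gd g * gc h := by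
  simp [ga, gd, gc, Matrix.mul_apply, Fin.sum_univ_two]
lemma gd_mul (g h : Gam) : gd (g * h) = gc g * gb h + gd g * gd h := by
  simp [gc, gb, gd, Matrix.mul_apply, Fin.sum_univ_two]

@[simp] lemma ga_one : ga 1 = 1 := by simp [ga]
@[simp] lemma gb_one : gb 1 = 0 := by simp [gb]
@[simp] lemma gc_one : gc 1 = 0 := by simp [gc]
@[simp] lemma gd_one : gd 1 = 1 := by simp [gd]

lemma ga_inv (g : Gam) : ga g⁻¹ = gd g := by
  simp [ga, gd, Matrix.SpecialLinearGroup.coe_inv, Matrix.adjugate_fin_two]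
lemma gb_inv (g : Gam) : gb g⁻¹ = -gb g := by
  simp [gb, Matrix.SpecialLinearGroup.coe_inv, Matrix.adjugate_fin_two]
lemma gc_inv (g : Gam) : gc g⁻¹ = -gc g := by
  simp [gc, Matrix.SpecialLinearGroup.coe_inv, Matrix.adjugate_fin_two]
lemma gd_inv (g : Gam) : gd g⁻¹ = ga g := by
  simp [ga, gd, Matrix.SpecialLinearGroup.coe_inv, Matrix.adjugate_fin_two]

/-- The bottom row of an element of `Γ(3)`. -/
lemma isRow_gam (g : Gam) : IsRow (gc g, gd g) :=
  ⟨⟨-gb g, ga g, by linear_combination det_eq g⟩, gc_dvd g, gd_prim g⟩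

/-- The row `(c, d) γ`. -/
def rmul (r : Eis × Eis) (g : Gam) : Eis × Eis :=
  (r.1 * ga g + r.2 * gc g, r.1 * gb g + r.2 * gd g)

lemma isRow_rmul {r : Eis × Eis} (hr : IsRow r) (g : Gam) : IsRow (rmul r g) := by
  obtain ⟨⟨p, q, hpq⟩, h2, h3⟩ := hr
  refine ⟨?_, ?_, ?_⟩
  · refine ⟨p * gd g - q * gb g, q * ga g - p * gc g, ?_⟩
    simp only [rmul]
    linear_combination (p * r.1 + q * r.2) * det_eq g + hpq
  · exact dvd_add (h2.mul_right _) ((gc_dvd g).mul_left _)
  · unfold IsPrim at *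
    simp only [rmul]
    have h4 := gd_prim g
    unfold IsPrim at h4
    have : r.1 * gb g + r.2 * gd g - 1 = r.1 * gb g + (r.2 - 1) * gd g + (gd g - 1) := by ring
    rw [this]
    exact dvd_add (dvd_add (h2.mul_right _) (h3.mul_right _)) h4

lemma rmul_mul (r : Eis × Eis) (g h : Gam) : rmul r (g * h) = rmul (rmul r g) h := by
  simp only [rmul, ga_mul, gb_mul, gc_mul, gd_mul]
  ext1 <;> simp only <;> ring

lemma rmul_one (r : Eis × Eis) : rmul r 1 = r := by
  simp [rmul]

/-- The Kubota symbol of an element of `Γ(3)`. -/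
def kub (g : Gam) : ℂ := sy (gc g) (gd g)

theorem sy_rmul (H : SyAPI) {r : Eis × Eis} (hr : IsRow r) (g : Gam) :
    sy (rmul r g).1 (rmul r g).2 = sy r.1 r.2 * kub g :=
  row_law H (det_eq g) (gb_dvd g) (gd_prim g) hr.2.1 hr.2.2 hr.1

theorem kub_mul (H : SyAPI) (g h : Gam) : kub (g * h) = kub g * kub h := by
  have := sy_rmul H (isRow_gam g) h
  unfold kub at *
  rw [gc_mul, gd_mul]
  exact this

lemma norm_kub (H : SyAPI) (g : Gam) : ‖kub g‖ = 1 :=
  H.norm_one _ _ (gd_prim g) (isRow_gam g).1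

lemma kub_mul_conj (H : SyAPI) (g : Gam) : kub g * (starRingEnd ℂ) (kub g) = 1 := by
  rw [Complex.mul_conj, Complex.normSq_eq_norm_sq, norm_kub H]
  simp

lemma kub_one (H : SyAPI) : kub 1 = 1 := by
  simp [kub, H.one_right]

/-- Completion of a row to an element of `Γ(3)`. -/
lemma exists_gam {r : Eis × Eis} (hr : IsRow r) : ∃ g : Gam, gc g = r.1 ∧ gd g = r.2 := by
  obtain ⟨⟨p, q, hpq⟩, h2, h3⟩ := hr
  -- `a = q + p * r.1 * ...`: we need `a d - b c = 1` with `3 ∣ b`
  -- start from `q * d - (-p) * c = 1` and shift by a multiple of the row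
  refine ⟨mkGam (q + p * r.1) (-p + p * r.2) r.1 r.2 (by linear_combination hpq) ?_ ?_ h2 h3,
    rfl, rfl⟩
  · unfold IsPrim at *
    have : q + p * r.1 - 1 = -q * (r.2 - 1) := by linear_combination hpq
    rw [this]
    exact h3.mul_left _
  · have : -p + p * r.2 = p * (r.2 - 1) := by ring
    rw [this]
    exact h3.mul_left _

end Crest.Agent.R012.K695
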