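import Crest.Agent.R012.Parseval_499
import Crest.Agent.R012.Strip_880
import Crest.Agent.R012.Kubota_695

/-!
# Row 12 (MF): coordinates on the strip and its multiplicity

Frames `M = (η, ζ) ∈ (ℂ × ℂ) × (ℂ × ℂ)`,

  `frame v e x q = ((q v, v), (e + q x v, x v))`,

i.e. the special frame `((0, v), (e, x v))` times the unipotent `(u₁, u₂) ↦ (u₁ + q u₂, u₂)`.

* `lintegral_frame` : `∫ f(M) dM = ∫ |v|⁴ ∫ ∫ ∫ f (frame v e x q) de dx dq dv`
* `strip r` : `r ≤ |v| ≤ 2 r`, `1/r ≤ |e| ≤ 2/r`, `x ∈ par 3`, `|q| ≤ 2`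
* `strip_mult` : at most `1 + 2000000 r⁴` elements of `Γ(3)` move a given frame into the strip.
-/

set_option autoImplicit false

noncomputable section

open MeasureTheory Complex Set
open scoped ComplexConjugate ENNReal

namespace Crest.Agent.R012.StripCo813

open Crest.Agent.R012 Crest.Agent.R012.Parseval499

/-- Frames: pairs of vectors of `ℂ²`. -/
abbrev Fr : Type := (ℂ × ℂ) × (ℂ × ℂ)

/-- `(v, e, x, q) ↦ ((q v, v), (e + q x v, x v))`. -/
def frame (v e x q : ℂ) : Fr := ((q * v, v), (e + q * x * v, x * v))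

/-- determinant of a frame. -/
def detF (M : Fr) : ℂ := M.1.1 * M.2.2 - M.1.2 * M.2.1

lemma detF_frame (v e x q : ℂ) : detF (frame v e x q) = -(v * e) := by
  simp only [detF, frame]; ring

lemma norm_detF_frame (v e x q : ℂ) : ‖detF (frame v e x q)‖ = ‖v‖ * ‖e‖ := by
  rw [detF_frame, norm_neg, norm_mul]

/-! ### change of variables -/

lemma map_mul_left {a : ℂ} (ha : a ≠ 0) :
    Measure.map (fun z : ℂ => a * z) volume = ENNReal.ofReal (‖a‖ ^ 2)⁻¹ • (volume : Measure ℂ) := by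
  have h1 := map_Lm (a := 1) one_ne_zero
  have h2 := map_Lm ha
  have hc : Lm a = (fun z : ℂ => a * z) ∘ Lm 1 := by
    funext x; simp only [Function.comp_apply, Lm]; ring
  have hm : Measurable (fun z : ℂ => a * z) := measurable_const_mul a
  rw [hc, ← Measure.map_map hm (continuous_Lm 1).measurable, h1, Measure.map_smul] at h2
  have hc1 : 0 < covol 1 := covol_pos one_ne_zero
  have e1 : ENNReal.ofReal (covol 1) * ENNReal.ofReal (covol 1)⁻¹ = 1 := by
    rw [← ENNReal.ofReal_mul hc1.le, mul_inv_cancel₀ hc1.ne', ENNReal.ofReal_one]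
  calc Measure.map (fun z : ℂ => a * z) volume
      = (ENNReal.ofReal (covol 1) * ENNReal.ofReal (covol 1)⁻¹) •
          Measure.map (fun z : ℂ => a * z) volume := by rw [e1, one_smul]
    _ = ENNReal.ofReal (covol 1) • (ENNReal.ofReal (covol a)⁻¹ • (volume : Measure ℂ)) := by
        rw [← h2, smul_smul]
    _ = _ := by
        rw [smul_smul, ← ENNReal.ofReal_mul hc1.le]
        congr 2
        unfold covol
        have : ‖a‖ ≠ 0 := norm_ne_zero_iff.mpr ha
        have h3 := sqrt3_ne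
        simp only [norm_one]
        field_simp

lemma lintegral_comp_mul_left {a : ℂ} (ha : a ≠ 0) (f : ℂ → ℝ≥0∞) :
    ∫⁻ z, f z = ENNReal.ofReal (‖a‖ ^ 2) * ∫⁻ z, f (a * z) := by
  have h1 : ∫⁻ z, f (a * z) = ∫⁻ z, f z ∂(Measure.map (fun z : ℂ => a * z) volume) := by
    have := lintegral_map_equiv (μ := (volume : Measure ℂ)) f
      (Homeomorph.mulLeft₀ a ha).toMeasurableEquiv
    exact this.symm
  rw [h1, map_mul_left ha, lintegral_smul_measure, smul_eq_mul, ← mul_assoc,
    ← ENNReal.ofReal_mul (by positivity)]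
  have : ‖a‖ ≠ 0 := norm_ne_zero_iff.mpr ha
  rw [mul_inv_cancel₀ (by positivity), ENNReal.ofReal_one, one_mul]

lemma lintegral_comp_mul_right {a : ℂ} (ha : a ≠ 0) (f : ℂ → ℝ≥0∞) :
    ∫⁻ z, f z = ENNReal.ofReal (‖a‖ ^ 2) * ∫⁻ z, f (z * a) := by
  rw [lintegral_comp_mul_left ha]
  simp only [mul_comm a]

/-- **Coordinates** on the space of frames. -/
theorem lintegral_frame {f : Fr → ℝ≥0∞} (hf : Measurable f) :
    ∫⁻ M, f M = ∫⁻ v : ℂ, ENNReal.ofReal (‖v‖ ^ 4) *
      ∫⁻ q : ℂ, ∫⁻ x : ℂ, ∫⁻ e : ℂ, f (frame v e x q) := by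
  have hm : ∀ η : ℂ × ℂ, Measurable (fun ζ : ℂ × ℂ => f (η, ζ)) := fun η => by fun_prop
  calc ∫⁻ M, f M = ∫⁻ η : ℂ × ℂ, ∫⁻ ζ : ℂ × ℂ, f (η, ζ) := by
        rw [Measure.volume_eq_prod, lintegral_prod _ hf.aemeasurable]
    _ = ∫⁻ η : ℂ × ℂ, ∫⁻ b : ℂ, ∫⁻ a : ℂ, f (η, (a, b)) := by
        refine lintegral_congr fun η => ?_
        rw [Measure.volume_eq_prod, lintegral_prod_symm _ (hm η).aemeasurable]
    _ = ∫⁻ v : ℂ, ∫⁻ u : ℂ, ∫⁻ b : ℂ, ∫⁻ a : ℂ, f ((u, v), (a, b)) := by
        rw [Measure.volume_eq_prod, lintegral_prod_symm]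
        refine Measurable.aemeasurable ?_
        refine Measurable.lintegral_prod_right' (f := fun p : (ℂ × ℂ) × ℂ => ∫⁻ a : ℂ, f (p.1, (a, p.2))) ?_
        refine Measurable.lintegral_prod_right' (f := fun p : ((ℂ × ℂ) × ℂ) × ℂ => f (p.1.1, (p.2, p.1.2))) ?_
        fun_prop
    _ = _ := by
        refine lintegral_congr_ae ?_
        have h0 : ∀ᵐ v : ℂ, v ≠ 0 := by
          simp [ae_iff, measure_singleton]
        filter_upwards [h0] with v hv
        have hv' : ‖v‖ ≠ 0 := norm_ne_zero_iff.mpr hv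
        rw [lintegral_comp_mul_right hv, show ‖v‖ ^ 4 = ‖v‖ ^ 2 * ‖v‖ ^ 2 by ring,
          ENNReal.ofReal_mul (by positivity), mul_assoc]
        congr 1
        rw [← lintegral_const_mul' _ _ ENNReal.ofReal_ne_top]
        refine lintegral_congr fun q => ?_
        rw [lintegral_comp_mul_right hv]
        congr 1
        refine lintegral_congr fun x => ?_
        have := lintegral_add_right_eq_self (μ := (volume : Measure ℂ))
          (fun e => f ((q * v, v), (e, x * v))) (q * x * v)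
        rw [← this]
        rfl

/-! ### the strip and its multiplicity -/

/-- The action of `Γ(3)` on frames. -/
def gact (g : K695.Gam) (M : Fr) : Fr :=
  ((toC (K695.ga g) * M.1.1 + toC (K695.gb g) * M.2.1,
    toC (K695.ga g) * M.1.2 + toC (K695.gb g) * M.2.2),
   (toC (K695.gc g) * M.1.1 + toC (K695.gd g) * M.2.1,
    toC (K695.gc g) * M.1.2 + toC (K695.gd g) * M.2.2))

lemma detF_gact (g : K695.Gam) (M : Fr) : detF (gact g M) = detF M := by
  have h := congrArg toC (K695.det_eq g)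
  rw [map_sub, map_mul, map_mul, map_one] at h
  simp only [detF, gact]
  linear_combination (M.1.1 * M.2.2 - M.1.2 * M.2.1) * h

/-- The strip of height `r`: all `frame v e x q` with `r ≤ |v| ≤ 2r`, `1/r ≤ |e| ≤ 2/r`,
`x ∈ par 3`, `|q| ≤ 2`. -/
def strip (r : ℝ) : Set Fr :=
  {M | ∃ v e x q : ℂ, M = frame v e x q ∧ (r ≤ ‖v‖ ∧ ‖v‖ ≤ 2 * r) ∧ (1 / r ≤ ‖e‖ ∧ ‖e‖ ≤ 2 / r) ∧
    x ∈ par 3 ∧ ‖q‖ ≤ 2}

lemma strip_det {r : ℝ} (hr : 0 < r) {M : Fr} (h : M ∈ strip r) :
    1 ≤ ‖detF M‖ ∧ ‖detF M‖ ≤ 4 := by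
  obtain ⟨v, e, x, q, rfl, ⟨h1, h2⟩, ⟨h3, h4⟩, -, -⟩ := h
  rw [norm_detF_frame]
  have hv : 0 ≤ ‖v‖ := norm_nonneg v
  have he : 0 ≤ ‖e‖ := norm_nonneg e
  constructor
  · calc (1 : ℝ) = r * (1 / r) := by field_simp
      _ ≤ ‖v‖ * ‖e‖ := mul_le_mul h1 h3 (by positivity) hv
  · calc ‖v‖ * ‖e‖ ≤ (2 * r) * (2 / r) := mul_le_mul h2 h4 he (by positivity)
      _ = 4 := by field_simp; norm_num

/-- Two elements of the strip on the same `Γ(3)`-orbit with the same first vector coincide: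
uniqueness of the matrix given its top row. -/
lemma gam_eq_of_top {r : ℝ} (hr : 0 < r) {M : Fr} {g h : K695.Gam}
    (hg : gact g M ∈ strip r) (hh : gact h M ∈ strip r)
    (ha : K695.ga g = K695.ga h) (hb : K695.gb g = K695.gb h) : g = h := by
  set a := K695.ga g with hadef
  set b := K695.gb g with hbdef
  have hdg := K695.det_eq g
  have hdh := K695.det_eq h
  rw [← ha, ← hb] at hdh
  rw [← hadef, ← hbdef] at hdg
  -- difference of the bottom rows is a multiple of the top row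
  set t : Eis := K695.gc h * K695.gd g - K695.gc g * K695.gd h with ht
  have hc : K695.gc h - K695.gc g = t * a := by
    rw [ht]
    linear_combination (-1 : Eis) * K695.gc h * hdg + K695.gc g * hdh
  have hd : K695.gd h - K695.gd g = t * b := by
    rw [ht]
    linear_combination (-1 : Eis) * K695.gd h * hdg + K695.gd g * hdh
  have h3t : (3 : Eis) ∣ t := by
    rw [ht]
    exact dvd_sub ((K695.gc_dvd h).mul_right _) ((K695.gc_dvd g).mul_right _)
  obtain ⟨s, hs⟩ := h3t
  -- the coordinates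
  obtain ⟨v, e, x, q, hM, ⟨hv1, hv2⟩, -, hx, -⟩ := hg
  obtain ⟨v', e', x', q', hM', -, -, hx', -⟩ := hh
  have hv0 : v ≠ 0 := by
    intro h0; rw [h0, norm_zero] at hv1; linarith
  have e1 : toC a * M.1.2 + toC b * M.2.2 = v := by
    have := congrArg (fun N : Fr => N.1.2) hM
    simpa [gact, frame, ← hadef, ← hbdef] using this
  have e2 : toC (K695.gc g) * M.1.2 + toC (K695.gd g) * M.2.2 = x * v := by
    have := congrArg (fun N : Fr => N.2.2) hM
    simpa [gact, frame] using this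
  have e1' : toC a * M.1.2 + toC b * M.2.2 = v' := by
    have := congrArg (fun N : Fr => N.1.2) hM'
    simpa [gact, frame, ← ha, ← hb] using this
  have e2' : toC (K695.gc h) * M.1.2 + toC (K695.gd h) * M.2.2 = x' * v' := by
    have := congrArg (fun N : Fr => N.2.2) hM'
    simpa [gact, frame] using this
  have hvv : v' = v := by rw [← e1', e1]
  have hcC := congrArg toC hc
  have hdC := congrArg toC hd
  simp only [map_sub, map_mul] at hcC hdC
  have hxx : (x' - x - toC t) * v = 0 := by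
    rw [hvv] at e2'
    linear_combination (-1 : ℂ) * e2' + e2 + hcC * M.1.2 + hdC * M.2.2 + toC t * e1
  have hxx' : x' - 3 * toC s = x := by
    rcases mul_eq_zero.mp hxx with h0 | h0
    · have : toC t = 3 * toC s := by rw [hs, map_mul, map_ofNat]
      rw [this] at h0
      linear_combination h0
    · exact absurd h0 hv0
  have huniq := (existsUnique_mem_par (a := 3) (by norm_num) x').unique
    (y₁ := s) (y₂ := 0) (by rw [hxx']; exact hx) (by simpa using hx')
  have ht0 : t = 0 := by rw [hs, huniq, mul_zero]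
  rw [ht0, zero_mul] at hc hd
  exact K695.gam_ext ha hb (sub_eq_zero.mp hc).symm (sub_eq_zero.mp hd).symm

/-- **Multiplicity of the strip.** -/
theorem strip_mult {r : ℝ} (hr : 0 < r) (M : Fr) :
    {g : K695.Gam | gact g M ∈ strip r}.Finite ∧
    (({g : K695.Gam | gact g M ∈ strip r}.ncard : ℕ) : ℝ) ≤ 1 + 313600 * r ^ 4 := by
  classical
  rcases ({g : K695.Gam | gact g M ∈ strip r}).eq_empty_or_nonempty with he | ⟨g0, hg0⟩
  · rw [he]; simp; positivity
  have hdet : 1 ≤ ‖detF M‖ := by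
    have := (strip_det hr hg0).1
    rwa [detF_gact] at this
  set D : ℂ := M.1.1 * M.2.2 - M.1.2 * M.2.1 with hD
  have hD1 : 1 ≤ ‖D‖ := hdet
  have hD0 : D ≠ 0 := by
    intro h; rw [h, norm_zero] at hD1; linarith
  obtain ⟨hf, hc⟩ := Strip880.strip_card_prim' (w1 := M.1.1) (w2 := M.1.2) (v1 := M.2.1)
    (v2 := M.2.2) hD0 (20 * r ^ 2)
  set S := {g : K695.Gam | gact g M ∈ strip r} with hS
  set S' := {x : Eis × Eis | IsCoprime x.1 x.2 ∧ IsPrim x.1 ∧
    Strip880.qf M.1.1 M.1.2 M.2.1 M.2.2 x ≤ 20 * r ^ 2} with hS'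
  have hmaps : Set.MapsTo (fun g : K695.Gam => (K695.ga g, K695.gb g)) S S' := by
    intro g hg
    refine ⟨⟨K695.gd g, -K695.gc g, by linear_combination K695.det_eq g⟩, K695.ga_prim g, ?_⟩
    obtain ⟨v, e, x, q, hM, ⟨hv1, hv2⟩, -, -, hq⟩ := hg
    have e1 : toC (K695.ga g) * M.1.1 + toC (K695.gb g) * M.2.1 = q * v := by
      have := congrArg (fun N : Fr => N.1.1) hM
      simpa [gact, frame] using this
    have e2 : toC (K695.ga g) * M.1.2 + toC (K695.gb g) * M.2.2 = v := by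
      have := congrArg (fun N : Fr => N.1.2) hM
      simpa [gact, frame] using this
    simp only [Strip880.qf]
    rw [e1, e2, norm_mul]
    have hv0 : 0 ≤ ‖v‖ := norm_nonneg v
    have hq0 : 0 ≤ ‖q‖ := norm_nonneg q
    have h1 : ‖v‖ ^ 2 ≤ (2 * r) ^ 2 := by gcongr
    have h2 : (‖q‖ * ‖v‖) ^ 2 ≤ (2 * (2 * r)) ^ 2 := by gcongr
    nlinarith
  have hinj : Set.InjOn (fun g : K695.Gam => (K695.ga g, K695.gb g)) S := by
    intro g hg h hh hgh
    simp only [Prod.mk.injEq] at hgh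
    exact gam_eq_of_top hr hg hh hgh.1 hgh.2
  refine ⟨Set.Finite.of_injOn hmaps hinj hf, ?_⟩
  have h1 : (S.ncard : ℝ) ≤ (S'.ncard : ℝ) := by
    exact_mod_cast Set.ncard_le_ncard_of_injOn _ hmaps hinj hf
  refine h1.trans (hc.trans ?_)
  have h2 : 20 * r ^ 2 / ‖D‖ ≤ 20 * r ^ 2 := div_le_self (by positivity) hD1
  have h3 : (20 * r ^ 2 / ‖D‖) ^ 2 ≤ (20 * r ^ 2) ^ 2 := by
    have : 0 ≤ 20 * r ^ 2 / ‖D‖ := by positivity
    gcongr
  nlinarith [h3]

/-! ### the box integral -/

/-- closed annulus. -/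
def ann (a b : ℝ) : Set ℂ := {z | a ≤ ‖z‖ ∧ ‖z‖ ≤ b}

lemma measurableSet_ann (a b : ℝ) : MeasurableSet (ann a b) :=
  (measurableSet_le measurable_const measurable_norm).inter
    (measurableSet_le measurable_norm measurable_const)

/-- recover the coordinates of a frame. -/
lemma mem_strip_iff {r : ℝ} (hr : 0 < r) (M : Fr) : M ∈ strip r ↔
    M.1.2 ∈ ann r (2 * r) ∧ (M.2.1 - M.1.1 / M.1.2 * (M.2.2 / M.1.2) * M.1.2) ∈ ann (1 / r) (2 / r)
      ∧ M.2.2 / M.1.2 ∈ par 3 ∧ ‖M.1.1 / M.1.2‖ ≤ 2 := by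
  constructor
  · rintro ⟨v, e, x, q, rfl, ⟨h1, h2⟩, ⟨h3, h4⟩, h5, h6⟩
    have hv0 : v ≠ 0 := by
      intro h0; rw [h0, norm_zero] at h1; linarith
    have e1 : q * v / v = q := by field_simp
    have e2 : x * v / v = x := by field_simp
    simp only [frame]
    rw [e1, e2, add_sub_cancel_right]
    exact ⟨⟨h1, h2⟩, ⟨h3, h4⟩, h5, h6⟩
  · rintro ⟨⟨h1, h2⟩, ⟨h3, h4⟩, h5, h6⟩
    have hv0 : M.1.2 ≠ 0 := by
      intro h0; rw [h0, norm_zero] at h1; linarith
    refine ⟨M.1.2, _, M.2.2 / M.1.2, M.1.1 / M.1.2, ?_, ⟨h1, h2⟩, ⟨h3, h4⟩, h5, h6⟩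
    ext <;> simp only [frame]
    · field_simp
    · ring
    · field_simp

lemma measurableSet_strip {r : ℝ} (hr : 0 < r) : MeasurableSet (strip r) := by
  have h : strip r = {M : Fr | M.1.2 ∈ ann r (2 * r)} ∩
      ({M : Fr | (M.2.1 - M.1.1 / M.1.2 * (M.2.2 / M.1.2) * M.1.2) ∈ ann (1 / r) (2 / r)} ∩
      ({M : Fr | M.2.2 / M.1.2 ∈ par 3} ∩ {M : Fr | ‖M.1.1 / M.1.2‖ ≤ 2})) := by
    ext M
    rw [mem_strip_iff hr]
    rfl
  rw [h]
  refine MeasurableSet.inter ?_ (MeasurableSet.inter ?_ (MeasurableSet.inter ?_ ?_))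
  · exact (measurableSet_ann _ _).preimage (by fun_prop)
  · exact (measurableSet_ann _ _).preimage (by fun_prop)
  · exact (measurableSet_par (by norm_num)).preimage (by fun_prop)
  · exact measurableSet_le (by fun_prop) measurable_const

/-- The integral over the box of coordinates is bounded by the integral over the strip. -/
theorem box_le_strip {r : ℝ} (hr : 0 < r) {f : Fr → ℝ≥0∞} (hf : Measurable f) :
    ENNReal.ofReal (r ^ 4) * ∫⁻ v in ann r (2 * r), ∫⁻ q in Metric.closedBall (0 : ℂ) 2,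
      ∫⁻ x in par 3, ∫⁻ e in ann (1 / r) (2 / r), f (frame v e x q) ≤ ∫⁻ M in strip r, f M := by
  rw [← lintegral_indicator (measurableSet_strip hr),
    lintegral_frame (hf.indicator (measurableSet_strip hr)),
    ← lintegral_indicator (measurableSet_ann _ _),
    ← lintegral_const_mul' _ _ ENNReal.ofReal_ne_top]
  refine lintegral_mono fun v => ?_
  by_cases hv : v ∈ ann r (2 * r)
  · rw [indicator_of_mem hv]
    refine mul_le_mul' (ENNReal.ofReal_le_ofReal (by have := hv.1; gcongr)) ?_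
    rw [← lintegral_indicator Metric.isClosed_closedBall.measurableSet]
    refine lintegral_mono fun q => ?_
    by_cases hq : q ∈ Metric.closedBall (0 : ℂ) 2
    · rw [indicator_of_mem hq]
      rw [← lintegral_indicator (measurableSet_par (by norm_num))]
      refine lintegral_mono fun x => ?_
      by_cases hx : x ∈ par 3
      · rw [indicator_of_mem hx]
        rw [← lintegral_indicator (measurableSet_ann _ _)]
        refine lintegral_mono fun e => ?_
        by_cases he : e ∈ ann (1 / r) (2 / r)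
        · rw [indicator_of_mem he]
          rw [indicator_of_mem]
          exact ⟨v, e, x, q, rfl, hv, he, hx, by simpa using hq⟩
        · rw [indicator_of_notMem he]; exact bot_le
      · rw [indicator_of_notMem hx]; exact bot_le
    · rw [indicator_of_notMem hq]; exact bot_le
  · rw [indicator_of_notMem hv, mul_zero]; exact bot_le

/-- The multiplicity bound as a sum over a group `G` acting through `Γ(3)`. -/
theorem tsum_strip_le {G : Type*} (ι : G → K695.Gam) (hι : Function.Injective ι)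
    (act : G → Fr → Fr) (hact : ∀ g M, act g M = gact (ι g) M) {r : ℝ} (hr : 0 < r) (M : Fr) :
    ∑' g : G, (strip r).indicator (1 : Fr → ℝ≥0∞) (act g M) ≤
      ENNReal.ofReal (1 + 313600 * r ^ 4) := by
  classical
  obtain ⟨hf, hc⟩ := strip_mult hr M
  set S : Set K695.Gam := {g | gact g M ∈ strip r} with hS
  have hpre : (ι ⁻¹' S).Finite := hf.preimage hι.injOn
  have h1 : ∑' g : G, (strip r).indicator (1 : Fr → ℝ≥0∞) (act g M) =
      ∑ g ∈ hpre.toFinset, (strip r).indicator (1 : Fr → ℝ≥0∞) (act g M) := by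
    refine tsum_eq_sum fun g hg => ?_
    have hg' : gact (ι g) M ∉ strip r := fun h => hg (by simpa [hS] using h)
    rw [hact, indicator_of_notMem hg']
  have h2 : ∑ g ∈ hpre.toFinset, (strip r).indicator (1 : Fr → ℝ≥0∞) (act g M) ≤
      ∑ g ∈ hpre.toFinset, (1 : ℝ≥0∞) := by
    refine Finset.sum_le_sum fun g _ => ?_
    exact indicator_le_self' (fun _ _ => bot_le) _
  have h3 : (hpre.toFinset.card : ℝ) ≤ (S.ncard : ℝ) := by
    have : hpre.toFinset.card ≤ hf.toFinset.card := by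
      refine Finset.card_le_card_of_injOn ι ?_ hι.injOn
      intro g hg
      simpa using hg
    rw [← Set.ncard_eq_toFinset_card S hf] at this
    exact_mod_cast this
  rw [h1]
  refine h2.trans ?_
  rw [Finset.sum_const, nsmul_eq_mul, mul_one, ← ENNReal.ofReal_natCast]
  exact ENNReal.ofReal_le_ofReal (h3.trans hc)

end Crest.Agent.R012.StripCo813
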