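import Crest.Agent.R012.Series_695
import Crest.Agent.R012.StripCo_813

/-!
# Row 12 (MU): volume of the slab and the `c = 0` term

`∫_{M ∈ Slab q} W (det2 M) K (M.2) = (9 N(q) √3/2) (∫ W) (∫ K)`.
-/

set_option autoImplicit false

noncomputable section

open MeasureTheory Complex
open scoped ENNReal

namespace Crest.Agent.R012.K695

open Eis Parseval499

/-! ### Volumes -/

lemma cx_Lm (x : Fin 2 → ℝ) : cx (Lm 1 x) = x 0 := by
  have h := sqrt3_pos.ne'
  simp only [cx, Lm, one_mul, wC]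
  simp
  field_simp
  ring

lemma cy_Lm (x : Fin 2 → ℝ) : cy (Lm 1 x) = x 1 := by
  have h := sqrt3_pos.ne'
  simp only [cy, Lm, one_mul, wC]
  simp
  field_simp

theorem volume_P0 : (volume : Measure ℂ) P0 = ENNReal.ofReal (Real.sqrt 3 / 2) := by
  have hm : Measurable (Lm 1) := (continuous_Lm 1).measurable
  rw [volume_eq_smul_map one_ne_zero, Measure.smul_apply, Measure.map_apply hm measurableSet_P0]
  have e : Lm 1 ⁻¹' P0 = Set.pi Set.univ (fun _ : Fin 2 => Set.Ico (0 : ℝ) 1) := by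
    ext x
    simp only [Set.mem_preimage, P0, Set.mem_ofPred_eq, cx_Lm, cy_Lm, Set.mem_pi, Set.mem_univ,
      forall_true_left, Set.mem_Ico, Fin.forall_fin_two]
  rw [e, volume_pi_pi]
  simp [covol]

/-- the fibre of the slab -/
def PQ (q : Eis) : Set ℂ := {z | z / (3 * toC q) ∈ P0}

lemma measurableSet_PQ (q : Eis) : MeasurableSet (PQ q) :=
  (measurable_id.div_const _) measurableSet_P0

lemma norm_three_toC_sq (q : Eis) : ‖3 * toC q‖ ^ 2 = 9 * nm q := by
  rw [norm_mul, mul_pow, norm_toC_sq]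
  norm_num

/-- the volume of the fibre. -/
def slabVol (q : Eis) : ℝ := 9 * nm q * (Real.sqrt 3 / 2)

lemma slabVol_nonneg (q : Eis) : 0 ≤ slabVol q := by unfold slabVol; positivity

theorem volume_PQ {q : Eis} (hq : q ≠ 0) :
    (volume : Measure ℂ) (PQ q) = ENNReal.ofReal (slabVol q) := by
  have h0 : (3 * toC q) ≠ 0 := mul_ne_zero (by norm_num) (by simpa using hq)
  rw [← lintegral_indicator_one (measurableSet_PQ q), StripCo813.lintegral_comp_mul_left h0]
  have e : ∀ z : ℂ, (PQ q).indicator (1 : ℂ → ℝ≥0∞) (3 * toC q * z) = P0.indicator 1 z := by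
    intro z
    have e1 : 3 * toC q * z / (3 * toC q) = z := mul_div_cancel_left₀ z h0
    by_cases hz : z ∈ P0
    · rw [Set.indicator_of_mem hz, Set.indicator_of_mem
        (show 3 * toC q * z ∈ PQ q by simp only [PQ, Set.mem_ofPred_eq, e1]; exact hz)]
      rfl
    · rw [Set.indicator_of_notMem hz, Set.indicator_of_notMem
        (show 3 * toC q * z ∉ PQ q by simp only [PQ, Set.mem_ofPred_eq, e1]; exact hz)]
  simp_rw [e]
  rw [lintegral_indicator_one measurableSet_P0, volume_P0, norm_three_toC_sq,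
    ← ENNReal.ofReal_mul (by positivity), slabVol]

/-! ### Coordinates `η = z ζ + s ζ^⊥` -/

/-- `(z, s) ↦ z ζ + s ζ^⊥`. -/
def pz (ζ : Vec) (p : ℂ × ℂ) : Vec :=
  mact (E := ℂ) ζ.1 (-(starRingEnd ℂ) ζ.2 / (n2 ζ : ℂ)) ζ.2 ((starRingEnd ℂ) ζ.1 / (n2 ζ : ℂ)) p

lemma mp_pz {ζ : Vec} (hζ : ζ ≠ 0) :
    MeasurePreserving (pz ζ) (volume : Measure (ℂ × ℂ)) (volume : Measure Vec) := by
  have hn : (n2 ζ : ℂ) ≠ 0 := by
    rw [Ne, Complex.ofReal_eq_zero, n2_eq_zero]; exact hζ
  have hdet : ζ.1 * ((starRingEnd ℂ) ζ.1 / (n2 ζ : ℂ)) -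
      (-(starRingEnd ℂ) ζ.2 / (n2 ζ : ℂ)) * ζ.2 = 1 := by
    field_simp
    rw [n2_cast]
    ring
  exact mp_mact (E := ℂ) (volume : Measure ℂ) hdet

lemma det2_pz {ζ : Vec} (hζ : ζ ≠ 0) (p : ℂ × ℂ) : det2 (pz ζ p, ζ) = -p.2 := by
  have hn : (n2 ζ : ℂ) ≠ 0 := by
    rw [Ne, Complex.ofReal_eq_zero, n2_eq_zero]; exact hζ
  simp only [det2, pz, mact, smul_eq_mul]
  field_simp
  rw [n2_cast]
  ring

lemma zc_pz {ζ : Vec} (hζ : ζ ≠ 0) (p : ℂ × ℂ) : zc (pz ζ p, ζ) = p.1 := by
  have hn : (n2 ζ : ℂ) ≠ 0 := by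
    rw [Ne, Complex.ofReal_eq_zero, n2_eq_zero]; exact hζ
  simp only [zc, pz, mact, smul_eq_mul]
  field_simp
  rw [n2_cast]
  ring

lemma mem_slab_pz {ζ : Vec} (hζ : ζ ≠ 0) (q : Eis) (p : ℂ × ℂ) :
    ((pz ζ p, ζ) : Frm) ∈ Slab q ↔ p.1 ∈ PQ q := by
  unfold Slab PQ
  simp only [Set.mem_ofPred_eq]
  rw [zc_pz hζ]

lemma measurable_pz (ζ : Vec) : Measurable (pz ζ) := measurable_mact (E := ℂ) _ _ _ _

/-! ### The `c = 0` term -/

/-- inner integral -/
lemma lintegral_slab_fiber {q : Eis} (hq : q ≠ 0) {W : ℂ → ℝ≥0∞} (hW : Measurable W) {ζ : Vec}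
    (hζ : ζ ≠ 0) :
    ∫⁻ η : Vec, (Slab q).indicator (fun M : Frm => W (det2 M)) (η, ζ) =
      ENNReal.ofReal (slabVol q) * ∫⁻ s, W s := by
  have hm : Measurable (fun η : Vec => (Slab q).indicator (fun M : Frm => W (det2 M)) (η, ζ)) :=
    ((hW.comp measurable_det2).indicator (measurableSet_Slab q)).comp
      (measurable_id.prodMk measurable_const)
  rw [← (mp_pz hζ).lintegral_comp hm]
  have e : ∀ p : ℂ × ℂ, (Slab q).indicator (fun M : Frm => W (det2 M)) (pz ζ p, ζ) =
      (PQ q).indicator (1 : ℂ → ℝ≥0∞) p.1 * W (-p.2) := by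
    intro p
    by_cases hp : p.1 ∈ PQ q
    · rw [Set.indicator_of_mem hp, Set.indicator_of_mem ((mem_slab_pz hζ q p).mpr hp), det2_pz hζ,
        Pi.one_apply, one_mul]
    · rw [Set.indicator_of_notMem hp, Set.indicator_of_notMem
        (fun h => hp ((mem_slab_pz hζ q p).mp h)), zero_mul]
  simp_rw [e]
  have hWn : Measurable (fun s : ℂ => W (-s)) := hW.comp measurable_neg
  have h1 := lintegral_prod_mul (μ := (volume : Measure ℂ)) (ν := (volume : Measure ℂ))
    (f := (PQ q).indicator (1 : ℂ → ℝ≥0∞)) (g := fun s : ℂ => W (-s))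
    ((measurable_one.indicator (measurableSet_PQ q)).aemeasurable) hWn.aemeasurable
  rw [Measure.volume_eq_prod, h1, lintegral_indicator_one (measurableSet_PQ q), volume_PQ hq]
  congr 1
  exact lintegral_neg_eq_self W

/-- **The `c = 0` term**, nonnegative version. -/
theorem lintegral_slab_zero {q : Eis} (hq : q ≠ 0) {W : ℂ → ℝ≥0∞} (hW : Measurable W)
    {K : Vec → ℝ≥0∞} (hK : Measurable K) :
    ∫⁻ M in Slab q, W (det2 M) * K M.2 =
      ENNReal.ofReal (slabVol q) * (∫⁻ s, W s) * ∫⁻ ζ, K ζ := by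
  have hm : Measurable (fun M : Frm => W (det2 M) * K M.2) :=
    (hW.comp measurable_det2).mul (hK.comp measurable_snd)
  rw [← lintegral_indicator (measurableSet_Slab q)]
  have h1 : (volume : Measure Frm) = (volume : Measure Vec).prod (volume : Measure Vec) := rfl
  rw [h1, lintegral_prod_symm _ (hm.indicator (measurableSet_Slab q)).aemeasurable]
  have hae : ∀ᵐ ζ : Vec ∂volume, ζ ≠ 0 := by
    rw [ae_iff]; simp
  rw [← lintegral_const_mul _ hK]
  apply lintegral_congr_ae
  filter_upwards [hae] with ζ hζ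
  have e : ∀ η : Vec, (Slab q).indicator (fun M : Frm => W (det2 M) * K M.2) (η, ζ) =
      (Slab q).indicator (fun M : Frm => W (det2 M)) (η, ζ) * K ζ := by
    intro η
    by_cases hp : ((η, ζ) : Frm) ∈ Slab q
    · rw [Set.indicator_of_mem hp, Set.indicator_of_mem hp]
    · rw [Set.indicator_of_notMem hp, Set.indicator_of_notMem hp, zero_mul]
  simp_rw [e]
  have hm2 : Measurable (fun η : Vec => (Slab q).indicator (fun M : Frm => W (det2 M)) (η, ζ)) :=
    ((hW.comp measurable_det2).indicator (measurableSet_Slab q)).comp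
      (measurable_id.prodMk measurable_const)
  rw [lintegral_mul_const _ hm2, lintegral_slab_fiber hq hW hζ]

/-- inner integral, complex version -/
lemma integral_slab_fiber {q : Eis} (hq : q ≠ 0) {W : ℂ → ℂ} (hW : Measurable W) {ζ : Vec}
    (hζ : ζ ≠ 0) :
    ∫ η : Vec, (Slab q).indicator (fun M : Frm => W (det2 M)) (η, ζ) =
      (slabVol q : ℂ) * ∫ s, W s := by
  have hm : Measurable (fun η : Vec => (Slab q).indicator (fun M : Frm => W (det2 M)) (η, ζ)) :=
    ((hW.comp measurable_det2).indicator (measurableSet_Slab q)).comp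
      (measurable_id.prodMk measurable_const)
  have h1 : ∫ η : Vec, (Slab q).indicator (fun M : Frm => W (det2 M)) (η, ζ) =
      ∫ p : ℂ × ℂ, (Slab q).indicator (fun M : Frm => W (det2 M)) (pz ζ p, ζ) := by
    have h2 := integral_map (μ := (volume : Measure (ℂ × ℂ))) (measurable_pz ζ).aemeasurable
      (f := fun η : Vec => (Slab q).indicator (fun M : Frm => W (det2 M)) (η, ζ))
      hm.aestronglyMeasurable
    rw [(mp_pz hζ).map_eq] at h2
    exact h2
  rw [h1]
  have e : ∀ p : ℂ × ℂ, (Slab q).indicator (fun M : Frm => W (det2 M)) (pz ζ p, ζ) =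
      (PQ q).indicator (fun _ => (1 : ℂ)) p.1 * W (-p.2) := by
    intro p
    by_cases hp : p.1 ∈ PQ q
    · rw [Set.indicator_of_mem hp, Set.indicator_of_mem ((mem_slab_pz hζ q p).mpr hp), det2_pz hζ,
        one_mul]
    · rw [Set.indicator_of_notMem hp, Set.indicator_of_notMem
        (fun h => hp ((mem_slab_pz hζ q p).mp h)), zero_mul]
  simp_rw [e]
  rw [Measure.volume_eq_prod, integral_prod_mul (fun z => (PQ q).indicator (fun _ => (1 : ℂ)) z)
    (fun s => W (-s)), integral_indicator (measurableSet_PQ q), setIntegral_const,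
    integral_neg_eq_self W]
  congr 1
  rw [Measure.real, volume_PQ hq, ENNReal.toReal_ofReal (slabVol_nonneg q)]
  simp

theorem integrable_slab_zero {q : Eis} (hq : q ≠ 0) {W : ℂ → ℂ} (hW : Measurable W)
    (hWi : Integrable W) {K : Vec → ℂ} (hK : Measurable K) (hKi : Integrable K) :
    IntegrableOn (fun M : Frm => W (det2 M) * K M.2) (Slab q) := by
  have hm : Measurable (fun M : Frm => W (det2 M) * K M.2) :=
    (hW.comp measurable_det2).mul (hK.comp measurable_snd)
  refine ⟨hm.aestronglyMeasurable, ?_⟩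
  unfold HasFiniteIntegral
  have h := lintegral_slab_zero hq hW.enorm hK.enorm
  have e : ∀ M : Frm, ‖W (det2 M) * K M.2‖ₑ = ‖W (det2 M)‖ₑ * ‖K M.2‖ₑ := fun M => enorm_mul _ _
  simp_rw [e]
  rw [h]
  exact ENNReal.mul_lt_top (ENNReal.mul_lt_top ENNReal.ofReal_lt_top hWi.2) hKi.2

/-- **The `c = 0` term**, complex version. -/
theorem integral_slab_zero {q : Eis} (hq : q ≠ 0) {W : ℂ → ℂ} (hW : Measurable W)
    (hWi : Integrable W) {K : Vec → ℂ} (hK : Measurable K) (hKi : Integrable K) :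
    ∫ M in Slab q, W (det2 M) * K M.2 =
      (slabVol q : ℂ) * (∫ s, W s) * ∫ ζ, K ζ := by
  have hI := (integrable_slab_zero hq hW hWi hK hKi).integrable_indicator (measurableSet_Slab q)
  rw [← integral_indicator (measurableSet_Slab q)]
  have h1 : (volume : Measure Frm) = (volume : Measure Vec).prod (volume : Measure Vec) := rfl
  rw [h1] at hI ⊢
  rw [integral_prod_symm _ hI]
  have hae : ∀ᵐ ζ : Vec ∂volume, ζ ≠ 0 := by
    rw [ae_iff]; simp
  rw [← integral_const_mul]
  apply integral_congr_ae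
  filter_upwards [hae] with ζ hζ
  have e : ∀ η : Vec, (Slab q).indicator (fun M : Frm => W (det2 M) * K M.2) (η, ζ) =
      (Slab q).indicator (fun M : Frm => W (det2 M)) (η, ζ) * K ζ := by
    intro η
    by_cases hp : ((η, ζ) : Frm) ∈ Slab q
    · rw [Set.indicator_of_mem hp, Set.indicator_of_mem hp]
    · rw [Set.indicator_of_notMem hp, Set.indicator_of_notMem hp, zero_mul]
  simp_rw [e]
  rw [integral_mul_const, integral_slab_fiber hq hW hζ]

end Crest.Agent.R012.K695
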