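import Crest.Agent.R012.Trace_384

/-!
# Row 12, (MSL): product test functions

`prodF U φ (u₁,u₂) = U u₁ * φ (u₂/u₁)`, `U` smooth with support in an annulus, `φ` smooth with
compact support.  The derivatives along the orbits of `n(q) : u ↦ (u₁ + q u₂, u₂)` are finite sums
of functions of the same kind (`orbDeriv_prodF`).
-/

set_option autoImplicit false

noncomputable section

open MeasureTheory Set Filter Complex
open scoped ENNReal Topology ContDiff

namespace Crest.Agent.R012.TestFn286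

open Crest.Agent.R012.Trace384

/-- product test functions on `ℂ²`. -/
def prodF (U φ : ℂ → ℂ) (u : ℂ × ℂ) : ℂ := U u.1 * φ (u.2 / u.1)

/-- radial derivative. -/
def DrU (U : ℂ → ℂ) (z : ℂ) : ℂ := fderiv ℝ U z z

/-- angular derivative. -/
def DtU (U : ℂ → ℂ) (z : ℂ) : ℂ := fderiv ℝ U z (I * z)

/-- `x ↦ Re(c x) φ(x)`. -/
def Rm (c : ℂ) (φ : ℂ → ℂ) (x : ℂ) : ℂ := ((c * x).re : ℂ) * φ x

/-- `x ↦ Im(c x) φ(x)`. -/
def Im' (c : ℂ) (φ : ℂ → ℂ) (x : ℂ) : ℂ := ((c * x).im : ℂ) * φ x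

/-- `x ↦ φ'(x)(-c x²)`. -/
def Dm (c : ℂ) (φ : ℂ → ℂ) (x : ℂ) : ℂ := fderiv ℝ φ x (-(c * x ^ 2))

/-- the derivative of `prodF U φ` in direction `c`. -/
def D1 (c : ℂ) (U φ : ℂ → ℂ) (u : ℂ × ℂ) : ℂ :=
  prodF (DrU U) (Rm c φ) u + prodF (DtU U) (Im' c φ) u + prodF U (Dm c φ) u

/-- smooth functions supported in an annulus. -/
structure SU (a b : ℝ) (U : ℂ → ℂ) : Prop where
  cd : ContDiff ℝ ∞ U
  supp : ∀ z, ‖z‖ < a ∨ b < ‖z‖ → U z = 0

/-- smooth functions supported in a disc. -/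
structure SP (R : ℝ) (φ : ℂ → ℂ) : Prop where
  cd : ContDiff ℝ ∞ φ
  supp : ∀ z, R < ‖z‖ → φ z = 0

section closure

variable {a b R : ℝ} {U φ : ℂ → ℂ}

lemma SU.eventually_zero (h : SU a b U) {z : ℂ} (hz : ‖z‖ < a ∨ b < ‖z‖) :
    U =ᶠ[𝓝 z] fun _ => 0 := by
  rcases hz with hz | hz
  · filter_upwards [(isOpen_lt continuous_norm continuous_const).mem_nhds hz] with y hy
    exact h.supp y (Or.inl hy)
  · filter_upwards [(isOpen_lt continuous_const continuous_norm).mem_nhds hz] with y hy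
    exact h.supp y (Or.inr hy)

lemma SU.fderiv_zero (h : SU a b U) {z : ℂ} (hz : ‖z‖ < a ∨ b < ‖z‖) : fderiv ℝ U z = 0 := by
  rw [(h.eventually_zero hz).fderiv_eq]; simp

lemma SP.eventually_zero (h : SP R φ) {z : ℂ} (hz : R < ‖z‖) :
    φ =ᶠ[𝓝 z] fun _ => 0 := by
  filter_upwards [(isOpen_lt continuous_const continuous_norm).mem_nhds hz] with y hy
  exact h.supp y hy

lemma SP.fderiv_zero (h : SP R φ) {z : ℂ} (hz : R < ‖z‖) : fderiv ℝ φ z = 0 := by
  rw [(h.eventually_zero hz).fderiv_eq]; simp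

lemma SU.DrU (h : SU a b U) : SU a b (DrU U) where
  cd := by
    unfold TestFn286.DrU
    exact (h.cd.fderiv_right (m := ∞) (by simp)).clm_apply contDiff_id
  supp z hz := by unfold TestFn286.DrU; rw [h.fderiv_zero hz]; simp

lemma SU.DtU (h : SU a b U) : SU a b (DtU U) where
  cd := by
    unfold TestFn286.DtU
    exact (h.cd.fderiv_right (m := ∞) (by simp)).clm_apply (contDiff_const.mul contDiff_id)
  supp z hz := by unfold TestFn286.DtU; rw [h.fderiv_zero hz]; simp

lemma SP.Rm (h : SP R φ) (c : ℂ) : SP R (Rm c φ) where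
  cd := by
    unfold TestFn286.Rm
    refine ContDiff.mul ?_ h.cd
    exact Complex.ofRealCLM.contDiff.comp (Complex.reCLM.contDiff.comp
      (contDiff_const.mul contDiff_id))
  supp z hz := by unfold TestFn286.Rm; rw [h.supp z hz, mul_zero]

lemma SP.Im' (h : SP R φ) (c : ℂ) : SP R (Im' c φ) where
  cd := by
    unfold TestFn286.Im'
    refine ContDiff.mul ?_ h.cd
    exact Complex.ofRealCLM.contDiff.comp (Complex.imCLM.contDiff.comp
      (contDiff_const.mul contDiff_id))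
  supp z hz := by unfold TestFn286.Im'; rw [h.supp z hz, mul_zero]

lemma SP.Dm (h : SP R φ) (c : ℂ) : SP R (Dm c φ) where
  cd := by
    unfold TestFn286.Dm
    refine (h.cd.fderiv_right (m := ∞) (by simp)).clm_apply ?_
    exact (contDiff_const.mul (contDiff_id.pow 2)).neg
  supp z hz := by unfold TestFn286.Dm; rw [h.fderiv_zero hz]; simp

end closure

/-! ### derivative along the orbit -/

lemma fderiv_split (U : ℂ → ℂ) (z m : ℂ) :
    fderiv ℝ U z (m * z) = (m.re : ℂ) * DrU U z + (m.im : ℂ) * DtU U z := by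
  have h1 : m * z = m.re • z + m.im • (I * z) := by
    conv_lhs => rw [← Complex.re_add_im m]
    simp only [Complex.real_smul]
    ring
  rw [h1, map_add, map_smul, map_smul]
  simp only [DrU, DtU, Complex.real_smul]

lemma continuous_prodF {a b : ℝ} (ha : 0 < a) {U φ : ℂ → ℂ} (hU : Continuous U)
    (hs : ∀ z, ‖z‖ < a ∨ b < ‖z‖ → U z = 0) (hφ : Continuous φ) : Continuous (prodF U φ) := by
  rw [continuous_iff_continuousAt]
  intro u
  by_cases hu : u.1 = 0
  · have h0 : prodF U φ =ᶠ[𝓝 u] fun _ => 0 := by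
      have : {v : ℂ × ℂ | ‖v.1‖ < a} ∈ 𝓝 u :=
        (isOpen_lt (by fun_prop) continuous_const).mem_nhds (by simp [hu, ha])
      filter_upwards [this] with v hv
      simp only [prodF]
      rw [hs v.1 (Or.inl hv), zero_mul]
    exact continuousAt_const.congr h0.symm
  · unfold prodF
    refine (hU.continuousAt.comp continuous_fst.continuousAt).mul ?_
    exact hφ.continuousAt.comp (continuous_snd.continuousAt.div continuous_fst.continuousAt hu)

theorem hasDerivAt_prodF {a b : ℝ} (ha : 0 < a) {U φ : ℂ → ℂ} (hU : SU a b U)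
    (hφ : Differentiable ℝ φ) (c : ℂ) (u : ℂ × ℂ) :
    HasDerivAt (fun t : ℝ => prodF U φ (nq ((t : ℂ) * c) u)) (D1 c U φ u) 0 := by
  have hUd : Differentiable ℝ U := hU.cd.differentiable (by simp)
  have hlin : HasDerivAt (fun t : ℝ => u.1 + (t : ℂ) * c * u.2) (c * u.2) 0 := by
    have h1 : HasDerivAt (fun t : ℝ => (t : ℂ)) 1 0 := Complex.ofRealCLM.hasDerivAt
    have h2 := ((h1.mul_const c).mul_const u.2).const_add u.1
    simpa using h2
  by_cases hu : u.1 = 0
  · have hz : D1 c U φ u = 0 := by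
      have e0 : ‖u.1‖ < a ∨ b < ‖u.1‖ := Or.inl (by simp [hu, ha])
      simp [D1, prodF, hU.supp _ e0, hU.DrU.supp _ e0, hU.DtU.supp _ e0]
    rw [hz]
    have hev : (fun t : ℝ => prodF U φ (nq ((t : ℂ) * c) u)) =ᶠ[𝓝 0] fun _ => 0 := by
      have hc : ContinuousAt (fun t : ℝ => ‖u.1 + (t : ℂ) * c * u.2‖) 0 := by fun_prop
      have h0 : ‖u.1 + ((0 : ℝ) : ℂ) * c * u.2‖ < a := by simp [hu, ha]
      filter_upwards [hc.eventually (gt_mem_nhds h0)] with t ht
      simp only [prodF, nq]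
      rw [hU.supp _ (Or.inl ht), zero_mul]
    exact (hasDerivAt_const (0 : ℝ) (0 : ℂ)).congr_of_eventuallyEq hev
  · have e0 : u.1 + ((0 : ℝ) : ℂ) * c * u.2 = u.1 := by simp
    have hne : u.1 + ((0 : ℝ) : ℂ) * c * u.2 ≠ 0 := by rw [e0]; exact hu
    have hA : HasDerivAt (fun t : ℝ => U (u.1 + (t : ℂ) * c * u.2))
        (fderiv ℝ U u.1 (c * u.2)) 0 := by
      have := (hUd (u.1 + ((0 : ℝ) : ℂ) * c * u.2)).hasFDerivAt.comp_hasDerivAt (0 : ℝ) hlin
      rw [e0] at this
      exact this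
    have hq : HasDerivAt (fun t : ℝ => u.2 / (u.1 + (t : ℂ) * c * u.2))
        (-(c * (u.2 / u.1) ^ 2)) 0 := by
      have h1 := hlin.inv hne
      have h2 := h1.const_mul u.2
      rw [e0] at h2
      have h3 : u.2 * (-(c * u.2) / u.1 ^ 2) = -(c * (u.2 / u.1) ^ 2) := by
        field_simp
      rw [h3] at h2
      refine h2.congr_of_eventuallyEq (Eventually.of_forall fun t => ?_)
      simp [div_eq_mul_inv]
    have hB : HasDerivAt (fun t : ℝ => φ (u.2 / (u.1 + (t : ℂ) * c * u.2)))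
        (fderiv ℝ φ (u.2 / u.1) (-(c * (u.2 / u.1) ^ 2))) 0 := by
      have := (hφ (u.2 / (u.1 + ((0 : ℝ) : ℂ) * c * u.2))).hasFDerivAt.comp_hasDerivAt (0 : ℝ) hq
      rw [e0] at this
      exact this
    have hAB := hA.mul hB
    rw [e0] at hAB
    refine (hAB.congr_deriv ?_).congr_of_eventuallyEq (Eventually.of_forall fun t => rfl)
    have e1 : c * u.2 = (c * (u.2 / u.1)) * u.1 := by field_simp
    rw [e1, fderiv_split]
    simp only [D1, prodF, Rm, Im', Dm]
    ring

/-- the mixed second derivative. -/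
def D12 (c c' : ℂ) (U φ : ℂ → ℂ) (u : ℂ × ℂ) : ℂ :=
  D1 c' (DrU U) (Rm c φ) u + D1 c' (DtU U) (Im' c φ) u + D1 c' U (Dm c φ) u

lemma SP.continuous_D1 {a b R : ℝ} (ha : 0 < a) {U φ : ℂ → ℂ} (hU : SU a b U) (hφ : SP R φ)
    (c : ℂ) : Continuous (D1 c U φ) := by
  unfold D1
  refine ((continuous_prodF ha hU.DrU.cd.continuous hU.DrU.supp (hφ.Rm c).cd.continuous).add
    (continuous_prodF ha hU.DtU.cd.continuous hU.DtU.supp (hφ.Im' c).cd.continuous)).add
    (continuous_prodF ha hU.cd.continuous hU.supp (hφ.Dm c).cd.continuous)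

/-- **(3)** the derivatives of a product test function along the orbits of `n(q)`. -/
theorem orbDeriv_prodF {a b R : ℝ} (ha : 0 < a) {U φ : ℂ → ℂ} (hU : SU a b U) (hφ : SP R φ) :
    OrbDeriv (prodF U φ) (D1 1 U φ) (D1 I U φ) (D12 1 I U φ) where
  c0 := continuous_prodF ha hU.cd.continuous hU.supp hφ.cd.continuous
  c1 := SP.continuous_D1 ha hU hφ 1
  c2 := SP.continuous_D1 ha hU hφ I
  c12 := by
    unfold D12
    exact ((SP.continuous_D1 ha hU.DrU (hφ.Rm 1) I).add
      (SP.continuous_D1 ha hU.DtU (hφ.Im' 1) I)).add (SP.continuous_D1 ha hU (hφ.Dm 1) I)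
  d1 u := by
    have := hasDerivAt_prodF ha hU (hφ.cd.differentiable (by simp)) 1 u
    simpa using this
  d2 u := hasDerivAt_prodF ha hU (hφ.cd.differentiable (by simp)) I u
  d12 u := by
    unfold D12
    exact ((hasDerivAt_prodF ha hU.DrU ((hφ.Rm 1).cd.differentiable (by simp)) I u).add
      (hasDerivAt_prodF ha hU.DtU ((hφ.Im' 1).cd.differentiable (by simp)) I u)).add
      (hasDerivAt_prodF ha hU ((hφ.Dm 1).cd.differentiable (by simp)) I u)

end Crest.Agent.R012.TestFn286
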