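import Crest.Agent.R012.Four_813
import Crest.Agent.R012.TestFn_286

/-!
# Row 12, (ML/MSL): the statements K1 and K3

`Uf om l B z = om(|z|²/B) (z/|z|)^l`, `Cls a b K T` the class of profiles `om`, `BX` the box integral.

* `K1_Prop` : if `l ≠ 0` or `∫ om x^{1/3} = 0` then the box integral of
  `Σ_d conj g(u,d) Uf om l B (d e)` is small.
* `K3_Prop` : there are numbers `ρ_u` such that for `l = 0` the difference with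
  `(B/|e|²)^{4/3} (∫ om x^{1/3}) ρ_u` is small.
-/

set_option autoImplicit false

noncomputable section

open MeasureTheory Set Filter Complex
open scoped ENNReal Topology ContDiff

namespace Crest.Agent.R012.ML384

open Crest.Agent.R012 Crest.Agent.R012.Parseval499 Crest.Agent.R012.StripCo813
open Crest.Agent.R012.Four813

/-- `U_{om,l,B}(z) = om(|z|²/B) (z/|z|)^l`. -/
def Uf (om : ℝ → ℂ) (l : ℤ) (B : ℝ) (z : ℂ) : ℂ := om (‖z‖ ^ 2 / B) * (z / (‖z‖ : ℂ)) ^ l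

/-- The class of radial profiles: smooth, supported in `[a,b]`, `|om^{(j)}| ≤ K T^j` (`j ≤ 2`). -/
structure Cls (a b K T : ℝ) (om : ℝ → ℂ) : Prop where
  cd : ContDiff ℝ ∞ om
  supp : ∀ x, x < a ∨ b < x → om x = 0
  bd : ∀ j : ℕ, j ≤ 2 → ∀ x, ‖iteratedDeriv j om x‖ ≤ K * T ^ j

/-- `∫_0^∞ om(x) x^{1/3} dx`. -/
def mom (om : ℝ → ℂ) : ℂ := ∫ x in Ioi (0 : ℝ), om x * ((x ^ ((1 : ℝ) / 3) : ℝ) : ℂ)

/-- The weight `|e/v|⁴ |φ^(u e / (3 √-3 v))|²` of the box integral, `φ(p) = φ0(T p)`. -/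
def wtB (T : ℝ) (φ0 : ℂ → ℂ) (u : Eis) (v e : ℂ) : ℝ :=
  ‖e / v‖ ^ 4 * ‖phat (fun p => φ0 ((T : ℂ) * p)) (frq 3 u * e / v)‖ ^ 2

/-- The box integral. -/
def BX (r T : ℝ) (φ0 : ℂ → ℂ) (S : Finset Eis) (f : Eis → ℂ → ℂ) : ℝ≥0∞ :=
  ∫⁻ v in ann r (2 * r), ∫⁻ e in ann (1 / r) (2 / r),
    ∑ u ∈ S, ‖f u e‖ₑ ^ 2 * ENNReal.ofReal (wtB T φ0 u v e)

/-- The bound for the box integral. -/
def RH (C r K T B τ : ℝ) : ℝ :=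
  C * ((1 + r ^ 4) * (r ^ 4)⁻¹ * K ^ 2 * B ^ 2 * (T ^ 2)⁻¹ * (1 + B) ^ τ)

/-- **K1.** -/
def K1_Prop : Prop :=
  ∀ (a b : ℝ) (l : ℤ) (φ0 : ℂ → ℂ) (τ : ℝ), 0 < a → a ≤ b → TestFn286.SP (1 / 4) φ0 → 0 < τ →
    ∃ C : ℝ, 0 ≤ C ∧ ∀ (K T : ℝ) (om : ℝ → ℂ) (B r : ℝ) (S : Finset Eis),
      Cls a b K T om → 0 ≤ K → 1 ≤ T → 0 < B → 0 < r → (l ≠ 0 ∨ mom om = 0) →
      BX r T φ0 S (fun u e => Sg (fun _ => 1) (Uf om l B) u e) ≤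
        ENNReal.ofReal (RH C r K T B τ)

/-- **K3.** -/
def K3_Prop (ρ : Eis → ℂ) : Prop :=
  ∀ (a b : ℝ) (φ0 : ℂ → ℂ) (τ : ℝ), 0 < a → a ≤ b → TestFn286.SP (1 / 4) φ0 → 0 < τ →
    ∃ C : ℝ, 0 ≤ C ∧ ∀ (K T : ℝ) (om : ℝ → ℂ) (B r : ℝ) (S : Finset Eis),
      Cls a b K T om → 0 ≤ K → 1 ≤ T → 0 < B → 0 < r →
      BX r T φ0 S (fun u e => Sg (fun _ => 1) (Uf om 0 B) u e -
        (((B / ‖e‖ ^ 2) ^ ((4 : ℝ) / 3) : ℝ) : ℂ) * mom om * ρ u) ≤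
        ENNReal.ofReal (RH C r K T B τ)

end Crest.Agent.R012.ML384
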