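import Crest.Agent.R012.GramD_858
import Crest.Agent.R012.GramEx_988
import Crest.Agent.R012.SlabVol_681
import Crest.Agent.R012.SpecK_384

/-!
# Row 12, item MG (part N): the Gram formula at level 1 and the norm bound

* `gram_one` : `∫ w(|det|) E_{F'} conj E_F dν = slabVol 1 ∫W ∫F' conj F + (1/3) Σ_m ...`
* `mU_Uf` : `mU (Uf om l B) = 0` if `l ≠ 0` or `mom om = 0`
* `norm_bound` : the norm bound for `E_F`, `F = prodF (Uf om l B) φ`.
-/

set_option autoImplicit false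

noncomputable section

open MeasureTheory Set Complex Filter
open scoped ENNReal ComplexConjugate Topology

namespace Crest.Agent.R012.Gram858

open Crest.Agent.R012.Eis Crest.Agent.R012.LatSum413 Crest.Agent.R012.Div277
  Crest.Agent.R012.Mob705 Crest.Agent.R012.K695 Crest.Agent.R012.K695.Gram988
  Crest.Agent.R012.ML384

/-! ## The coefficients at level 1 -/

/-- The cut-off as a function on `ℂ`. -/
def cutW (w : ℝ → ℝ) (z : ℂ) : ℂ := ((w ‖z‖ : ℝ) : ℂ)

lemma cut_cutW {w : ℝ → ℝ} (hwm : Measurable w) {W₀ : ℝ} (hwb : ∀ x, |w x| ≤ W₀) {α : ℝ}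
    (hα : 0 < α) (hw : ∀ x < α, w x = 0) : Cut (cutW w) where
  meas := Complex.measurable_ofReal.comp (hwm.comp measurable_norm)
  bdd := ⟨W₀, fun z => by
    unfold cutW
    rw [Complex.norm_real, Real.norm_eq_abs]
    exact hwb _⟩
  supp := ⟨α, hα, fun z hz => by unfold cutW; rw [hw _ hz]; simp⟩

lemma sumMod_bco (Hs : CharSum852.SyFacts) {c : Eis} (hc : c ≠ 0) (h3 : (3 : Eis) ∣ c) :
    sumMod (3 * 1 * c) (fun d => bco ⊤ (c, d)) = conj (CharSum852.Ssum c) := by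
  have h3c : (3 * c : Eis) ≠ 0 := mul_ne_zero (by
    intro h
    have := congrArg QuadraticAlgebra.re h
    simp at this) hc
  rw [mul_one, CharSum852.Ssum, sumMod_star h3c]
  apply sumMod_congr
  intro d
  classical
  unfold bco CharSum852.fS
  rw [rowsOf_top]
  by_cases hd : IsPrim d
  · by_cases hcd : IsCoprime c d
    · have : ((c, d) : Eis × Eis) ∈ {r : Eis × Eis | IsRow r} := ⟨hcd, h3, hd⟩
      rw [if_pos this, if_pos hd]
    · have : ((c, d) : Eis × Eis) ∉ {r : Eis × Eis | IsRow r} := fun h => hcd h.1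
      rw [if_neg this, if_pos hd, (Hs.eq_zero c d hd).mpr hcd, map_zero]
  · have : ((c, d) : Eis × Eis) ∉ {r : Eis × Eis | IsRow r} := fun h => hd h.2.2
    rw [if_neg this, if_neg hd, map_zero]

lemma sumMod_bco_zero {c : Eis} (hc : c ≠ 0) (h3 : ¬ (3 : Eis) ∣ c) :
    sumMod (3 * 1 * c) (fun d => bco ⊤ (c, d)) = 0 := by
  have h3c : (3 * 1 * c : Eis) ≠ 0 := mul_ne_zero (by
    intro h
    have := congrArg QuadraticAlgebra.re h
    simp at this) hc
  have h0 : ∀ d : Eis, bco ⊤ (c, d) = 0 := by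
    intro d
    classical
    unfold bco
    rw [rowsOf_top]
    have : ((c, d) : Eis × Eis) ∉ {r : Eis × Eis | IsRow r} := fun h => h3 h.2.1
    rw [if_neg this]
  rw [sumMod_congr (g := fun _ => 0) h0, sumMod_const h3c, mul_zero]

lemma norm_toC_lam : ‖toC lam‖ = Real.sqrt 3 := by
  rw [norm_toC, Eis.nm_lam]; norm_num

lemma rho3_eq (m : Eis) : rho3 m = ‖toC (lam * m)‖ := by
  rw [map_mul, norm_mul, norm_toC_lam]; rfl

lemma rho3_pow_six (m : Eis) : rho3 m ^ 6 = (nm ((lam * m) ^ 3) : ℝ) := by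
  rw [rho3_eq, nm_pow]
  push_cast
  rw [← norm_toC_sq]
  ring

variable {w : ℝ → ℝ}

/-- The value of `gterm` at `(λ m)^3`. -/
lemma gterm_cube (Hs : CharSum852.SyFacts) (w : ℝ → ℝ) (F' F : Vec → ℂ) (m : Eis) :
    gterm 1 (bco ⊤) (cutW w) F' F ((lam * m) ^ 3) =
      if m = 0 then (0 : ℂ) else ((PE m : ℝ) : ℂ) * (((rho3 m ^ 6)⁻¹ : ℝ) : ℂ) *
        ∫ p : X2, ((w (‖dt p.1 p.2‖ / rho3 m ^ 3) : ℝ) : ℂ) * FF F' F p := by
  by_cases hm : m = 0
  · subst hm
    simp [gterm]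
  have hlm : lam * m ≠ 0 := mul_ne_zero lam_ne_zero hm
  have hc : (lam * m) ^ 3 ≠ 0 := pow_ne_zero 3 hlm
  have h3 : (3 : Eis) ∣ (lam * m) ^ 3 := by
    have h1 : (lam * m) ^ 3 = lam ^ 2 * (lam * m ^ 3) := by ring
    rw [h1]
    exact three_dvd_lam_sq.mul_right _
  rw [if_neg hm, gterm, if_neg hc, sumMod_bco Hs hc h3, CharSum852.Ssum_cube Hs hlm,
    psi_lam_cube hm, Complex.conj_ofReal]
  have hN : (nm ((lam * m) ^ 3) : ℝ) ≠ 0 := by
    exact_mod_cast (nm_pos.mpr hc).ne'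
  have hI : ∫ M, G0 (cutW w) F' F (toC ((lam * m) ^ 3)) M =
      ∫ p : X2, ((w (‖dt p.1 p.2‖ / rho3 m ^ 3) : ℝ) : ℂ) * FF F' F p := by
    congr 1
    ext M
    unfold G0 cutW FF
    have h1 : ‖det2 M / toC ((lam * m) ^ 3)‖ = ‖dt M.1 M.2‖ / rho3 m ^ 3 := by
      rw [norm_div, map_pow, norm_pow, rho3_eq]
      rfl
    rw [h1, mul_assoc]
  rw [hI, rho3_pow_six]
  have h2 : (((nm ((lam * m) ^ 3) : ℝ) * PE m : ℝ) : ℂ) *
      ((((nm ((lam * m) ^ 3) : ℝ) ^ 2)⁻¹ : ℝ) : ℂ) =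
      ((PE m : ℝ) : ℂ) * ((((nm ((lam * m) ^ 3) : ℝ))⁻¹ : ℝ) : ℂ) := by
    rw [← Complex.ofReal_mul, ← Complex.ofReal_mul]
    congr 1
    field_simp
  rw [h2]

/-- **Gram formula at level 1.** -/
theorem gram_one (H : SyAPI) (Hs : CharSum852.SyFacts) {w : ℝ → ℝ} (hwm : Measurable w)
    {W₀ : ℝ} (hwb : ∀ x, |w x| ≤ W₀) {α : ℝ} (hα : 0 < α) (hw : ∀ x < α, w x = 0)
    (hwi : Integrable (cutW w)) {F' F : Vec → ℂ} (hF' : BS F') (hF : BS F) :
    Integrable (fun M => cutW w (det2 M) * EC (bco ⊤) F' M * conj (EC (bco ⊤) F M)) (nu ⊤ 1) ∧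
    ∫ M, cutW w (det2 M) * EC (bco ⊤) F' M * conj (EC (bco ⊤) F M) ∂(nu ⊤ 1) =
      (slabVol 1 : ℂ) * (∫ s, cutW w s) * (∫ ζ, F' ζ * conj (F ζ)) +
        (1 / 3) * ∑' m : Eis, if m = 0 then (0 : ℂ) else ((PE m : ℝ) : ℂ) *
          (((rho3 m ^ 6)⁻¹ : ℝ) : ℂ) *
          ∫ p : X2, ((w (‖dt p.1 p.2‖ / rho3 m ^ 3) : ℝ) : ℂ) * FF F' F p := by
  have hcut := cut_cutW hwm hwb hα hw
  have hKm : Measurable (fun ζ : Vec => F' ζ * conj (F ζ)) :=
    hF'.meas.mul (Complex.continuous_conj.measurable.comp hF.meas)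
  have hKi : Integrable (fun ζ : Vec => F' ζ * conj (F ζ)) := by
    obtain ⟨C, hC⟩ := hF'.bdd
    have h1 : Integrable (fun u : Vec => conj (F u)) :=
      Complex.conjCLE.toContinuousLinearMap.integrable_comp (BS.integrable hF)
    exact h1.bdd_mul (c := C) hF'.meas.aestronglyMeasurable (Filter.Eventually.of_forall hC)
  have h0 := integrable_slab_zero (q := 1) one_ne_zero hcut.meas hwi hKm hKi
  have h0' : IntegrableOn (fun M : K695.Frm => cutW w (det2 M) * F' M.2 * conj (F M.2)) (Slab 1) := by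
    refine h0.congr (Filter.Eventually.of_forall fun M => ?_)
    simp only
    ring
  obtain ⟨hI, hG⟩ := gram H isLev_top (isCoef_bco H ⊤) hcut hF' hF h0'
  refine ⟨hI, ?_⟩
  rw [hG]
  have h1 : bco ⊤ ((0 : Eis), (1 : Eis)) = 1 := by
    classical
    unfold bco
    rw [if_pos (one_mem_rowsOf ⊤), H.one_right, map_one]
  have h2 : ∫ M in Slab 1, cutW w (det2 M) * F' M.2 * conj (F M.2) =
      (slabVol 1 : ℂ) * (∫ s, cutW w s) * (∫ ζ, F' ζ * conj (F ζ)) := by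
    rw [← integral_slab_zero (q := 1) one_ne_zero hcut.meas hwi hKm hKi]
    congr 1
    ext M
    ring
  rw [h1, one_mul, h2]
  congr 1
  rw [tsum_cubes_lam]
  · congr 1
    apply tsum_congr
    intro m
    exact gterm_cube Hs w F' F m
  · simp [gterm]
  · intro c hc
    by_contra hn
    apply hc
    unfold gterm
    by_cases hc0 : c = 0
    · simp [hc0]
    rw [if_neg hc0]
    by_cases h3 : (3 : Eis) ∣ c
    · rw [sumMod_bco Hs hc0 h3, CharSum852.Ssum_eq_zero Hs hc0 h3 hn]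
      simp
    · rw [sumMod_bco_zero hc0 h3]; simp
  · intro c hc
    by_contra hn
    apply hc
    unfold gterm
    by_cases hc0 : c = 0
    · simp [hc0]
    rw [if_neg hc0, sumMod_bco_zero hc0 hn]; simp
  · obtain ⟨K, hK⟩ := gterm_eq_zero hcut hF' hF
    apply summable_of_ne_finset_zero (s := ball K)
    intro m hm
    rw [mem_ball, not_le] at hm
    apply hK
    rw [nm_pow]
    have hm1 : 1 ≤ nm m := by omega
    calc K < nm m := hm
      _ = nm m ^ 1 := (pow_one _).symm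
      _ ≤ nm m ^ 3 := Nat.pow_le_pow_right hm1 (by norm_num)

end Crest.Agent.R012.Gram858
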