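import Crest.Agent.R012.Series_695
import Crest.Agent.R012.AbsUnfold_681
import Crest.Agent.R012.Quot_666

/-!
# Row 12 (MU): comparison of the invariant measures of two levels, the group `Δ_p`

* `lintegral_nu_index` : `∫ φ dν(D₁) = [D : D₁] ∫ φ dν(D)` for `D`-invariant `φ`
* `integral_nu_index`  : the same for integrable complex functions and finite index
* `DelP p = {g : 3 p ∣ g_b}`, `isLev_DelP`, `rowsOf_DelP`, `index_DelP_le`
-/

set_option autoImplicit false

noncomputable section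

open MeasureTheory Complex
open scoped ENNReal

namespace Crest.Agent.R012.K695

open Eis AU681

/-- The index as an extended nonnegative number. -/
def eidx (D1 D : Subgroup Gam) : ℝ≥0∞ := ∑' _ : D ⧸ D1.subgroupOf D, (1 : ℝ≥0∞)

lemma eidx_eq {D1 D : Subgroup Gam} (h : D1.relIndex D ≠ 0) :
    eidx D1 D = (D1.relIndex D : ℝ≥0∞) := by
  have : (D1.subgroupOf D).FiniteIndex := ⟨h⟩
  exact tsum_one_eq_index

lemma eidx_le_of_injective {D1 D : Subgroup Gam} {α : Type*} [Finite α]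
    (f : D ⧸ D1.subgroupOf D → α) (hf : Function.Injective f) :
    eidx D1 D ≤ (Nat.card α : ℝ≥0∞) := by
  have h := Finite.of_injective f hf
  have := Fintype.ofFinite (D ⧸ D1.subgroupOf D)
  unfold eidx
  rw [tsum_fintype, Finset.sum_const, Finset.card_univ, nsmul_eq_mul, mul_one,
    ← Nat.card_eq_fintype_card]
  exact_mod_cast Nat.card_le_card_of_injective f hf

/-- Sum of the weight of the smaller group over the larger group. -/
theorem tsum_rho_index {D1 D : Subgroup Gam} {q1 : Eis} (hle : D1 ≤ D) (hL1 : IsLev D1 q1)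
    {M : Frm} (hM : det2 M ≠ 0) :
    ∑' g : D, rho D1 q1 (act g.1 M) = eidx D1 D := by
  have e : ∑' g : D, rho D1 q1 (act g.1 M) = ∑' g : D, rho D1 q1 (act (g.1)⁻¹ M) :=
    ((Equiv.inv D).tsum_eq (fun g : D => rho D1 q1 (act g.1 M))).symm
  rw [e, ← (cosEquiv (D1.subgroupOf D)).tsum_eq (fun g : D => rho D1 q1 (act (g.1)⁻¹ M)),
    ENNReal.tsum_prod', eidx]
  refine tsum_congr fun x => ?_
  have h0 : det2 (act ((Quotient.out x : D) : Gam)⁻¹ M) ≠ 0 := by rwa [det2_act]
  rw [← tsum_rho_inv hL1 h0]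
  have e4 := (Subgroup.subgroupOfEquivOfLe hle).toEquiv.tsum_eq
    (fun k : D1 => rho D1 q1 (act (k.1)⁻¹ (act ((Quotient.out x : D) : Gam)⁻¹ M)))
  rw [← e4]
  refine tsum_congr fun k => ?_
  have e2 : ((cosEquiv (D1.subgroupOf D) (x, k) : D) : Gam) =
      ((Quotient.out x : D) : Gam) * ((k : D) : Gam) := rfl
  have e3 : (((Subgroup.subgroupOfEquivOfLe hle).toEquiv k : D1) : Gam) = ((k : D) : Gam) := rfl
  rw [e2, e3, mul_inv_rev, act_mul]

/-- **Comparison of levels** for nonnegative functions. -/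
theorem lintegral_nu_index {D1 D : Subgroup Gam} {q1 q : Eis} (hle : D1 ≤ D)
    (hL1 : IsLev D1 q1) (hL : IsLev D q) {φ : Frm → ℝ≥0∞} (hφ : Measurable φ)
    (hinv : ∀ g ∈ D, ∀ M, φ (act g M) = φ M) :
    ∫⁻ M, φ M ∂(nu D1 q1) = eidx D1 D * ∫⁻ M, φ M ∂(nu D q) := by
  have h1 := lintegral_nu_tsum' hL (f := fun M => φ M * rho D1 q1 M)
    (hφ.mul (measurable_rho D1 q1))
  have e1 : ∫⁻ M, φ M ∂(nu D1 q1) = ∫⁻ M, φ M * rho D1 q1 M := by
    rw [nu, lintegral_withDensity_eq_lintegral_mul _ (measurable_rho D1 q1) hφ]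
    congr 1
    ext M
    rw [Pi.mul_apply, mul_comm]
  rw [e1, ← h1, ← lintegral_const_mul _ hφ]
  have hac : nu D q ≪ (volume : Measure Frm) := withDensity_absolutelyContinuous _ _
  apply lintegral_congr_ae
  filter_upwards [hac.ae_le ae_det_ne] with M hM
  have e2 : ∀ g : D, φ (act g.1 M) * rho D1 q1 (act g.1 M) = φ M * rho D1 q1 (act g.1 M) := by
    intro g; rw [hinv g.1 g.2]
  rw [tsum_congr e2, ENNReal.tsum_mul_left, tsum_rho_index hle hL1 hM, mul_comm]

lemma rho_ne_top {D : Subgroup Gam} {q : Eis} (hL : IsLev D q) :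
    ∀ᵐ M : Frm ∂volume, rho D q M < ∞ := by
  filter_upwards [ae_det_ne] with M hM
  exact lt_of_le_of_lt (rho_le_one hL hM) ENNReal.one_lt_top

/-- Integrability of an invariant function at the smaller level. -/
theorem integrable_nu_index {D1 D : Subgroup Gam} {q1 q : Eis} (hle : D1 ≤ D)
    (hL1 : IsLev D1 q1) (hL : IsLev D q) (hidx : D1.relIndex D ≠ 0) {Φ : Frm → ℂ}
    (hΦ : Measurable Φ) (hinv : ∀ g ∈ D, ∀ M, ‖Φ (act g M)‖ = ‖Φ M‖)
    (hint : Integrable Φ (nu D q)) : Integrable Φ (nu D1 q1) := by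
  refine ⟨hΦ.aestronglyMeasurable, ?_⟩
  unfold HasFiniteIntegral
  rw [lintegral_nu_index hle hL1 hL hΦ.enorm (fun g hg M => ?_), eidx_eq hidx]
  · exact ENNReal.mul_lt_top (ENNReal.natCast_lt_top _) hint.2
  · rw [← ofReal_norm, ← ofReal_norm, hinv g hg M]

/-- **Comparison of levels** for complex functions. -/
theorem integral_nu_index {D1 D : Subgroup Gam} {q1 q : Eis} (hle : D1 ≤ D)
    (hL1 : IsLev D1 q1) (hL : IsLev D q) (hidx : D1.relIndex D ≠ 0) {Φ : Frm → ℂ}
    (hΦ : Measurable Φ) (hinv : ∀ g ∈ D, ∀ M, Φ (act g M) = Φ M)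
    (hint : Integrable Φ (nu D q)) :
    ∫ M, Φ M ∂(nu D1 q1) = (D1.relIndex D : ℂ) * ∫ M, Φ M ∂(nu D q) := by
  have hint1 : Integrable Φ (nu D1 q1) := integrable_nu_index hle hL1 hL hidx hΦ
    (fun g hg M => by rw [hinv g hg M]) hint
  have e1 : ∫ M, Φ M ∂(nu D1 q1) = ∫ M, (rho D1 q1 M).toReal • Φ M :=
    integral_withDensity_eq_integral_toReal_smul (measurable_rho D1 q1) (rho_ne_top hL1) Φ
  have hfi : Integrable (fun M => (rho D1 q1 M).toReal • Φ M) volume := by
    have := (integrable_withDensity_iff_integrable_smul₀'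
      (measurable_rho D1 q1).aemeasurable (rho_ne_top hL1)).mp hint1
    exact this
  have hfm : Measurable (fun M => (rho D1 q1 M).toReal • Φ M) :=
    (measurable_rho D1 q1).ennreal_toReal.smul hΦ
  have h1 := (integral_nu_tsum hL hfm hfi).2
  rw [e1, ← h1, ← integral_const_mul]
  have hac : nu D q ≪ (volume : Measure Frm) := withDensity_absolutelyContinuous _ _
  apply integral_congr_ae
  filter_upwards [hac.ae_le ae_det_ne] with M hM
  have e2 : ∀ g : D, (rho D1 q1 (act g.1 M)).toReal • Φ (act g.1 M) =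
      (rho D1 q1 (act g.1 M)).toReal • Φ M := by
    intro g; rw [hinv g.1 g.2]
  rw [tsum_congr e2]
  have h3 := tsum_rho_index hle hL1 hM
  rw [eidx_eq hidx] at h3
  have hne : ∑' g : D, rho D1 q1 (act g.1 M) ≠ ∞ := by rw [h3]; exact ENNReal.natCast_ne_top _
  have h4 := ENNReal.hasSum_toReal hne
  have h5 : ∑' g : D, (rho D1 q1 (act g.1 M)).toReal = (D1.relIndex D : ℝ) := by
    rw [← ENNReal.tsum_toReal_eq (fun g => ENNReal.ne_top_of_tsum_ne_top hne g), h3]
    simp
  rw [h5] at h4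
  have h6 := h4.smul_const (Φ M)
  rw [h6.tsum_eq, Complex.real_smul]
  push_cast
  rfl

/-! ### The level `p` group -/

/-- `Δ_p = {γ ∈ Γ(3) : 3p ∣ b}`. -/
def DelP (p : Eis) : Subgroup Gam where
  carrier := {g | 3 * p ∣ gb g}
  one_mem' := by simp
  mul_mem' := by
    intro g h hg hh
    simp only [Set.mem_ofPred_eq] at *
    rw [gb_mul]
    exact dvd_add (hh.mul_left _) (hg.mul_right _)
  inv_mem' := by
    intro g hg
    simp only [Set.mem_ofPred_eq] at *
    rw [gb_inv]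
    exact hg.neg_right

lemma mem_DelP {p : Eis} {g : Gam} : g ∈ DelP p ↔ 3 * p ∣ gb g := Iff.rfl

lemma three_ne_zero' : (3 : Eis) ≠ 0 := by
  intro h
  have := congrArg nm h
  rw [nm_three] at this
  simp at this

lemma isLev_DelP {p : Eis} (hp : p ≠ 0) : IsLev (DelP p) p := by
  refine ⟨hp, fun b => ?_⟩
  rw [mem_DelP]
  have : gb (nU b) = 3 * b := by simp [nU]
  rw [this]
  exact mul_dvd_mul_iff_left three_ne_zero'

theorem rowsOf_DelP {p : Eis} : rowsOf (DelP p) = {r | IsRow r ∧ IsCoprime p r.2} := by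
  ext r
  constructor
  · rintro ⟨g, hg, rfl⟩
    refine ⟨isRow_gam g, ?_⟩
    obtain ⟨t, ht⟩ := (mem_DelP.mp hg)
    refine ⟨-(3 * t * gc g), ga g, ?_⟩
    have := det_eq g
    rw [ht] at this
    simp only [row]
    linear_combination this
  · rintro ⟨hr, hcop⟩
    obtain ⟨g, h1, h2⟩ := exists_gam hr
    obtain ⟨b', hb'⟩ := gb_dvd g
    obtain ⟨u, v, huv⟩ := hcop
    -- `t = -b' v`
    refine ⟨nU (-(b' * v)) * g, ?_, ?_⟩
    · rw [mem_DelP, gb_mul]
      have e1 : ga (nU (-(b' * v))) = 1 := by simp [nU]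
      have e2 : gb (nU (-(b' * v))) = 3 * (-(b' * v)) := by simp [nU]
      rw [e1, e2, hb', h2]
      refine ⟨b' * u, ?_⟩
      linear_combination (-3 * b') * huv
    · rw [row_mul]
      have e3 : row (nU (-(b' * v))) = (0, 1) := by simp [row, nU]
      rw [e3]
      simp only [rmul, zero_mul, one_mul, zero_add, h1, h2]

lemma rowsOf_DelP_one : rowsOf (DelP 1) = {r | IsRow r} := by
  rw [rowsOf_DelP]
  ext r
  simp [isCoprime_one_left]

lemma mem_DelP_mul {p : Eis} (g h : Gam) :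
    g⁻¹ * h ∈ DelP p ↔ 3 * p ∣ gd g * gb h - gb g * gd h := by
  rw [mem_DelP, gb_mul, ga_inv, gb_inv]
  have : gd g * gb h + -gb g * gd h = gd g * gb h - gb g * gd h := by ring
  rw [this]

open Classical in
/-- the point of `P¹(Eis/p)` attached to an element. -/
def p1 (p : Eis) (hp : Prime p) (g : Gam) : Option (QE p) :=
  if h : p ∣ gd g then none
  else some (Ideal.Quotient.mk _ (gb g * ((hp.irreducible.coprime_iff_not_dvd.mpr h).choose_spec.choose)))

lemma p1_spec {p : Eis} (hp : Prime p) {g : Gam} (h : ¬ p ∣ gd g) :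
    ∃ x : Eis, p ∣ gd g * x - 1 ∧ p1 p hp g = some (Ideal.Quotient.mk _ (gb g * x)) := by
  refine ⟨_, ?_, by rw [p1, dif_neg h]⟩
  have h2 := (hp.irreducible.coprime_iff_not_dvd.mpr h).choose_spec.choose_spec
  refine ⟨-(hp.irreducible.coprime_iff_not_dvd.mpr h).choose, ?_⟩
  linear_combination h2

lemma p1_inj {p : Eis} (hp : Prime p) (hpp : IsPrim p) {g h : Gam} (e : p1 p hp g = p1 p hp h) :
    g⁻¹ * h ∈ DelP p := by
  rw [mem_DelP_mul]
  have h3 : (3 : Eis) ∣ gd g * gb h - gb g * gd h :=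
    dvd_sub ((gb_dvd h).mul_left _) ((gb_dvd g).mul_right _)
  have hp3 : p ∣ gd g * gb h - gb g * gd h := by
    by_cases hg : p ∣ gd g
    · by_cases hh : p ∣ gd h
      · exact dvd_sub (hg.mul_right _) (hh.mul_left _)
      · obtain ⟨x, -, hx⟩ := p1_spec hp hh
        rw [p1, dif_pos hg, hx] at e
        exact absurd e (by simp)
    · by_cases hh : p ∣ gd h
      · obtain ⟨x, -, hx⟩ := p1_spec hp hg
        rw [hx, p1, dif_pos hh] at e
        exact absurd e (by simp)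
      · obtain ⟨x, ⟨s, hs⟩, hx⟩ := p1_spec hp hg
        obtain ⟨y, ⟨t, ht⟩, hy⟩ := p1_spec hp hh
        rw [hx, hy, Option.some_inj, Ideal.Quotient.eq, Ideal.mem_span_singleton] at e
        obtain ⟨u, hu⟩ := e
        refine ⟨-(gd g * gd h * u) + gd h * gb g * s - gd g * gb h * t, ?_⟩
        linear_combination (-(gd g * gd h)) * hu + (gd h * gb g) * hs - (gd g * gb h) * ht
  exact (prim_coprime_three hpp).symm.mul_dvd h3 hp3

lemma card_option_QE {p : Eis} (hp : p ≠ 0) : Finite (Option (QE p)) ∧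
    Nat.card (Option (QE p)) = nm p + 1 := by
  have := finite_QE hp
  have := Fintype.ofFinite (QE p)
  refine ⟨inferInstance, ?_⟩
  rw [Nat.card_eq_fintype_card, Fintype.card_option, ← Nat.card_eq_fintype_card, card_QE p]

/-- the coset map. -/
def p1q (p : Eis) (hp : Prime p) (x : (⊤ : Subgroup Gam) ⧸ (DelP p).subgroupOf ⊤) : Option (QE p) :=
  p1 p hp (Quotient.out x : (⊤ : Subgroup Gam))

lemma p1q_inj {p : Eis} (hp : Prime p) (hpp : IsPrim p) : Function.Injective (p1q p hp) := by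
  intro x y e
  have h := p1_inj hp hpp e
  rw [← QuotientGroup.out_eq' x, ← QuotientGroup.out_eq' y, QuotientGroup.eq]
  rw [Subgroup.mem_subgroupOf]
  exact h

theorem eidx_DelP_le {p : Eis} (hp : Prime p) (hpp : IsPrim p) :
    eidx (DelP p) ⊤ ≤ (nm p : ℝ≥0∞) + 1 := by
  obtain ⟨h1, h2⟩ := card_option_QE hp.ne_zero
  have := eidx_le_of_injective (p1q p hp) (p1q_inj hp hpp)
  rw [h2] at this
  exact_mod_cast this

theorem relIndex_DelP {p : Eis} (hp : Prime p) (hpp : IsPrim p) :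
    (DelP p).relIndex ⊤ ≠ 0 ∧ (DelP p).relIndex ⊤ ≤ nm p + 1 := by
  obtain ⟨h1, h2⟩ := card_option_QE hp.ne_zero
  have h3 := Finite.of_injective (p1q p hp) (p1q_inj hp hpp)
  constructor
  · exact Nat.card_pos.ne'
  · rw [← h2]
    exact Nat.card_le_card_of_injective (p1q p hp) (p1q_inj hp hpp)

/-- `∫ φ dν_p ≤ (N p + 1) ∫ φ dν`. -/
theorem lintegral_nu_DelP_le {p : Eis} (hp : Prime p) (hpp : IsPrim p) {φ : Frm → ℝ≥0∞}
    (hφ : Measurable φ) (hinv : ∀ g M, φ (act g M) = φ M) :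
    ∫⁻ M, φ M ∂(nu (DelP p) p) ≤ ((nm p : ℝ≥0∞) + 1) * ∫⁻ M, φ M ∂(nu ⊤ 1) := by
  rw [lintegral_nu_index le_top (isLev_DelP hp.ne_zero) isLev_top hφ (fun g _ M => hinv g M)]
  gcongr
  exact eidx_DelP_le hp hpp

end Crest.Agent.R012.K695
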