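import Crest.Agent.R012.Sym6_645
import Crest.Agent.R012.Kubota_695

/-!
# Row 12, R2: the instance `K695.SyAPI`
-/

set_option autoImplicit false

noncomputable section

open Crest.Agent.R012 Crest.Agent.R012.Eis

namespace Crest.Agent.R012.Sym645

theorem syAPI : K695.SyAPI where
  one_right x := sy_unit_right x isUnit_one
  mul_left x y _ hc := sy_mul_left (prim_nm_mod hc) x y
  mul_right x _ _ hc hd := sy_mul_right x (prim_ne_zero hc) (prim_ne_zero hd)
  congr _ _ _ hc h := sy_congr (prim_nm_mod hc) h
  norm_one _ _ hc h := norm_sy_of_isCoprime (prim_nm_mod hc) h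
  neg_one _ hc := by rw [sy_neg (prim_nm_mod hc), sy_one_left (prim_nm_mod hc)]
  recip _ _ ha hb := sy_reciprocity ha hb
  w_congr _ _ hm hn h := sy_w_congr hm hn h
  lam_congr _ _ hm hn h := sy_lam_congr hm hn h

end Crest.Agent.R012.Sym645
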