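import Crest.Agent.R012.ResLev_61
import Crest.Agent.R012.ResOut_785
import Crest.Agent.R012.Index_681
import Crest.Agent.R012.SymK_645

/-!
# Row 12, item MR / H3: the residue relations from the level-`p` Gram input

* `psiP p d = [p ∤ d] - N/(N+1)`; `isCoef_psiP`
* `SW_of_Wt` : `x ↦ conj (v x) x^{-1/2}`
* `SSp_eq_SgR`, `tendsto_SSp` : `GramO (DelP p) p (psiP p) W → SSp p v h X / X^(5/6) → 0`
* `rhoRel_of_MS1_lim`, `rhoRel_of_gram`
-/

set_option autoImplicit false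
set_option linter.unusedVariables false
set_option linter.unusedSectionVars false

noncomputable section

open MeasureTheory Complex Set Filter Topology
open scoped ENNReal ContDiff ComplexConjugate

namespace Crest.Agent.R012.ResFin61

open Crest.Agent.R012 Crest.Agent.R012.Eis Crest.Agent.R012.ResLim61 Crest.Agent.R012.ResLev61
open Crest.Agent.R012.StripIneq813 Crest.Agent.R012.K695

open Classical in
/-- `[p ∤ d] - N/(N+1)`. -/
def psiP (p d : Eis) : ℂ := (if p ∣ d then 0 else 1) - (nm p : ℂ) / ((nm p : ℂ) + 1)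

lemma psiP_real (p d : Eis) : conj (psiP p d) = psiP p d := by
  classical
  unfold psiP
  split_ifs <;> simp

lemma norm_psiP_le (p d : Eis) : ‖psiP p d‖ ≤ 1 := by
  classical
  have hN : (0 : ℝ) ≤ nm p := Nat.cast_nonneg _
  have h1 : (0 : ℝ) ≤ (nm p : ℝ) / ((nm p : ℝ) + 1) := by positivity
  have h2 : (nm p : ℝ) / ((nm p : ℝ) + 1) ≤ 1 := by
    rw [div_le_one (by positivity)]; linarith
  unfold psiP
  split_ifs with h
  · rw [zero_sub, norm_neg]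
    have : ((nm p : ℂ) / ((nm p : ℂ) + 1)) = (((nm p : ℝ) / ((nm p : ℝ) + 1) : ℝ) : ℂ) := by
      push_cast; ring
    rw [this, Complex.norm_real, Real.norm_of_nonneg h1]
    exact h2
  · have : (1 : ℂ) - ((nm p : ℂ) / ((nm p : ℂ) + 1)) =
        ((1 - (nm p : ℝ) / ((nm p : ℝ) + 1) : ℝ) : ℂ) := by
      push_cast; ring
    rw [this, Complex.norm_real, Real.norm_of_nonneg (by linarith)]
    linarith

lemma dvd_rmul_iff {p : Eis} {g : Gam} (hg : g ∈ DelP p) (r : Eis × Eis) :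
    p ∣ (rmul r g).2 ↔ p ∣ r.2 := by
  have h1 : p ∣ gb g := (dvd_mul_left p 3).trans (mem_DelP.mp hg)
  have h2 : (rmul r g).2 = r.1 * gb g + r.2 * gd g := rfl
  rw [h2]
  have hd := det_eq g
  constructor
  · intro h
    have h3 : p ∣ r.2 * gd g := (dvd_add_right (h1.mul_left r.1)).mp h
    have h4 : r.2 = r.2 * gd g * ga g - gb g * (gc g * r.2) := by
      linear_combination (-r.2) * hd
    rw [h4]
    exact dvd_sub (h3.mul_right _) (h1.mul_right _)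
  · intro h
    exact dvd_add (h1.mul_left _) (h.mul_right _)

lemma psiP_rmul {p : Eis} {g : Gam} (hg : g ∈ DelP p) (r : Eis × Eis) :
    psiP p (rmul r g).2 = psiP p r.2 := by
  classical
  unfold psiP
  simp only [dvd_rmul_iff hg r]

lemma isCoef_psiP (p : Eis) : IsCoef (DelP p) (coefK (Four813.ker (psiP p))) :=
  isCoef_ker Sym645.syAPI Sym645.syFacts (norm_psiP_le p) (fun g hg r _ => psiP_rmul hg r)

/-! ### The weight -/

/-- `conj (v x) x^{-1/2}`. -/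
def wv (v : ℝ → ℂ) (x : ℝ) : ℂ := conj (v x) * ((x ^ (-(1 / 2) : ℝ) : ℝ) : ℂ)

lemma SW_of_Wt {v : ℝ → ℂ} (hv : M49.Wt v) : ∃ a b : ℝ, SW a b (wv v) := by
  obtain ⟨a, b, ha, hab, hs⟩ := hv.supp
  refine ⟨a, b, ha, hab.le, ?_, ?_⟩
  · rw [contDiff_iff_contDiffAt]
    intro x
    rcases lt_or_ge x a with hx | hx
    · have h0 : wv v =ᶠ[𝓝 x] fun _ => 0 := by
        filter_upwards [gt_mem_nhds hx] with y hy
        simp [wv, hs y (Or.inl hy)]
      exact (contDiffAt_const (c := (0 : ℂ))).congr_of_eventuallyEq h0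
    · have hx0 : x ≠ 0 := (ha.trans_le hx).ne'
      unfold wv
      refine ContDiffAt.mul ?_ ?_
      · exact (Complex.conjCLE.contDiff.comp hv.smooth).contDiffAt
      · exact Complex.ofRealCLM.contDiff.contDiffAt.comp x
          (Real.contDiffAt_rpow_const_of_ne hx0)
  · intro x hx
    simp [wv, hs x hx]

lemma SSp_eq_SgR {p : Eis} (hp : IsPrim p) (v : ℝ → ℂ) (h : Eis) {X : ℝ} (hX : 0 < X) :
    M49.SSp p v h X = -(1 + 1 / (nm p : ℂ)) * ((X ^ (-(1 / 2) : ℝ) : ℝ) : ℂ) *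
      conj (SgR (psiP p) (wv v) h X 1) := by
  classical
  have hN : (0 : ℝ) < nm p := by exact_mod_cast nm_pos.mpr hp.ne_zero
  have hNc : (nm p : ℂ) ≠ 0 := by exact_mod_cast (by exact_mod_cast hN.ne' : nm p ≠ 0)
  have hN1 : ((nm p : ℂ) + 1) ≠ 0 := by
    have : ((nm p : ℝ) + 1 : ℝ) ≠ 0 := by positivity
    exact_mod_cast this
  unfold M49.SSp SgR
  rw [Complex.conj_tsum, ← tsum_mul_left]
  refine tsum_congr fun d => ?_
  by_cases hd : IsPrim d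
  · rw [if_pos hd, if_pos hd]
    have hNd : (0 : ℝ) < nm d := by exact_mod_cast nm_pos.mpr hd.ne_zero
    simp only [map_mul, Complex.conj_conj, psiP_real, wv, Complex.conj_ofReal, one_mul]
    have e1 : ((nm d : ℝ) / X) ^ (-(1 / 2) : ℝ) = X ^ ((1 / 2) : ℝ) * (Real.sqrt (nm d))⁻¹ := by
      rw [Real.div_rpow hNd.le hX.le, Real.rpow_neg hNd.le, Real.rpow_neg hX.le,
        ← Real.sqrt_eq_rpow (nm d : ℝ)]
      field_simp
    have e2 : (((X ^ (-(1 / 2) : ℝ) : ℝ)) : ℂ) * ((X ^ ((1 / 2) : ℝ) : ℝ) : ℂ) = 1 := by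
      rw [← Complex.ofReal_mul, ← Real.rpow_add hX]
      norm_num
    have e3 : M49.aP p d = -(1 + 1 / (nm p : ℂ)) * psiP p d := by
      unfold M49.aP psiP
      split_ifs with h1
      · field_simp
        ring
      · field_simp
        ring
    rw [e1, e3]
    push_cast
    linear_combination ((1 + 1 / (nm p : ℂ)) * psiP p d * (gs h d / (Real.sqrt (nm d) : ℂ)) *
      v (nm d / X)) * e2
  · rw [if_neg hd, if_neg hd]
    simp

/-- **The level-`p` sums have no main term.** -/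
theorem tendsto_SSp {p : Eis} (hp : IsPrim p) {W : ℂ → ℝ≥0∞} (hW : Measurable W)
    (hW1 : ∀ z : ℂ, 1 ≤ ‖z‖ → ‖z‖ ≤ 4 → 1 ≤ W z) (hG : GramO (DelP p) p (psiP p) W)
    {v : ℝ → ℂ} (hv : M49.Wt v) (h : Eis) :
    Tendsto (fun X : ℝ => M49.SSp p v h X / ((X ^ ((5 : ℝ) / 6) : ℝ) : ℂ)) atTop (𝓝 0) := by
  obtain ⟨a, b, hw⟩ := SW_of_Wt hv
  have h1 := limit_SgR Sym645.syAPI Sym645.syFacts (isLev_DelP hp.ne_zero)
    (norm_psiP_le p) (isCoef_psiP p) hW hW1 hG hw h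
  have h2 := ((Complex.continuous_conj.tendsto 0).comp h1).const_mul (-(1 + 1 / (nm p : ℂ)))
  rw [map_zero, mul_zero] at h2
  refine h2.congr' ?_
  filter_upwards [eventually_gt_atTop (0 : ℝ)] with X hX
  rw [SSp_eq_SgR hp v h hX]
  simp only [Function.comp, map_div₀, Complex.conj_ofReal]
  have e1 : (X ^ ((4 : ℝ) / 3) : ℝ) = X ^ ((5 : ℝ) / 6) * X ^ ((1 / 2) : ℝ) := by
    rw [← Real.rpow_add hX]; norm_num
  have e2 : (X ^ (-(1 / 2) : ℝ) : ℝ) = (X ^ ((1 / 2) : ℝ))⁻¹ := Real.rpow_neg hX.le _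
  have h3 : ((X ^ ((1 / 2) : ℝ) : ℝ) : ℂ) ≠ 0 := by
    exact_mod_cast (Real.rpow_pos_of_pos hX _).ne'
  have h4 : ((X ^ ((5 : ℝ) / 6) : ℝ) : ℂ) ≠ 0 := by
    exact_mod_cast (Real.rpow_pos_of_pos hX _).ne'
  rw [e1, e2]
  push_cast
  field_simp

/-! ### The residue relations -/

/-- limit of `SS 0 0 v h X / X^(5/6)` from the mean square theorem. -/
theorem tendsto_SS_of_MS1 {ρ : Eis → ℂ} (hMS : M49.MS1 ρ) {v : ℝ → ℂ} (hv : M49.Wt v) (h : Eis) :
    Tendsto (fun X : ℝ => M49.SS 0 0 v h X / ((X ^ ((5 : ℝ) / 6) : ℝ) : ℂ)) atTop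
      (𝓝 (ρ h * mellin v (((5 / 6 : ℝ) : ℂ)))) := by
  obtain ⟨C, hC⟩ := hMS 0 v hv (1 / 6) (by norm_num)
  set N : ℕ := nm h + 1 with hN
  have hN1 : 1 ≤ N := by omega
  have hmem : h ∈ ball N := by rw [mem_ball]; omega
  have hNpos : (0 : ℝ) < N := by exact_mod_cast hN1
  -- pointwise bound
  have key : ∀ X : ℝ, 1 ≤ X →
      ‖M49.SS 0 0 v h X / ((X ^ ((5 : ℝ) / 6) : ℝ) : ℂ) - ρ h * mellin v (((5 / 6 : ℝ) : ℂ))‖ ^ 2 ≤
        (C * (N : ℝ) ^ (1 / 6 : ℝ) * N) * X ^ (-(1 / 2 : ℝ)) := by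
    intro X hX
    have hX0 : 0 < X := by linarith
    have h1 := hC N X 0 hN1 hX
    have h2 := (Finset.single_le_sum (f := fun h : Eis =>
      ‖M49.SS 0 0 v h X - (if (0 : ℤ) = 0 then
        ρ h * mellin v ((5 : ℂ) / 6 + ((0 : ℝ) : ℂ) * Complex.I) *
          (X : ℂ) ^ ((5 : ℂ) / 6 + ((0 : ℝ) : ℂ) * Complex.I)
        else 0)‖ ^ 2) (fun _ _ => sq_nonneg _) hmem).trans h1
    simp only [if_true, Complex.ofReal_zero, zero_mul, add_zero] at h2
    have e1 : ((5 : ℂ) / 6) = (((5 / 6 : ℝ)) : ℂ) := by push_cast; ring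
    rw [e1, ← Complex.ofReal_cpow hX0.le] at h2
    have hpos : (0 : ℝ) < X ^ (5 / 6 : ℝ) := Real.rpow_pos_of_pos hX0 _
    have hne : (((X ^ (5 / 6 : ℝ) : ℝ)) : ℂ) ≠ 0 := by exact_mod_cast hpos.ne'
    have e2 : M49.SS 0 0 v h X / ((X ^ ((5 : ℝ) / 6) : ℝ) : ℂ) -
        ρ h * mellin v (((5 / 6 : ℝ) : ℂ)) =
        (M49.SS 0 0 v h X - ρ h * mellin v (((5 / 6 : ℝ) : ℂ)) * ((X ^ (5 / 6 : ℝ) : ℝ) : ℂ)) /
          ((X ^ (5 / 6 : ℝ) : ℝ) : ℂ) := by
      field_simp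
    rw [e2, norm_div, div_pow, Complex.norm_real, Real.norm_of_nonneg hpos.le,
      div_le_iff₀ (by positivity)]
    refine h2.trans (le_of_eq ?_)
    simp only [abs_zero, add_zero, one_mul]
    rw [Real.mul_rpow hX0.le hNpos.le]
    have e3 : X ^ (1 / 6 : ℝ) * X = X ^ (-(1 / 2 : ℝ)) * (X ^ (5 / 6 : ℝ)) ^ 2 := by
      rw [← Real.rpow_natCast (X ^ (5 / 6 : ℝ)) 2, ← Real.rpow_mul hX0.le,
        ← Real.rpow_add hX0]
      nth_rewrite 2 [← Real.rpow_one X]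
      rw [← Real.rpow_add hX0]
      norm_num
    have e4 : ((0 : ℝ) ^ 2) = 0 := by norm_num
    rw [e4, add_zero]
    calc C * (X ^ (1 / 6 : ℝ) * (N : ℝ) ^ (1 / 6 : ℝ)) * (N * X)
        = C * (N : ℝ) ^ (1 / 6 : ℝ) * N * (X ^ (1 / 6 : ℝ) * X) := by ring
      _ = _ := by rw [e3]; ring
  rw [tendsto_iff_norm_sub_tendsto_zero]
  have hlim : Tendsto (fun X : ℝ =>
      (C * (N : ℝ) ^ (1 / 6 : ℝ) * N) * X ^ (-(1 / 2 : ℝ))) atTop (𝓝 0) := by
    have := (tendsto_rpow_neg_atTop (y := 1 / 2) (by norm_num)).const_mul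
      (C * (N : ℝ) ^ (1 / 6 : ℝ) * N)
    simpa using this
  have hsq : Tendsto (fun X : ℝ => ‖M49.SS 0 0 v h X / ((X ^ ((5 : ℝ) / 6) : ℝ) : ℂ) -
      ρ h * mellin v (((5 / 6 : ℝ) : ℂ))‖ ^ 2) atTop (𝓝 0) := by
    refine squeeze_zero' (Filter.Eventually.of_forall fun _ => sq_nonneg _) ?_ hlim
    filter_upwards [eventually_ge_atTop (1 : ℝ)] with X hX using key X hX
  have := hsq.sqrt
  simpa [Real.sqrt_sq_eq_abs] using this

/-- the level-`p` input in the limit form. -/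
def SSpLim : Prop := ∀ p : Eis, Prime p → IsPrim p → ∀ (v : ℝ → ℂ), M49.Wt v → ∀ h : Eis,
  Tendsto (fun X : ℝ => M49.SSp p v h X / ((X ^ ((5 : ℝ) / 6) : ℝ) : ℂ)) atTop (𝓝 0)

/-- the Gram input at all levels `p`. -/
def GramP : Prop := ∀ p : Eis, Prime p → IsPrim p → ∃ W : ℂ → ℝ≥0∞, Measurable W ∧
  (∀ z : ℂ, 1 ≤ ‖z‖ → ‖z‖ ≤ 4 → 1 ≤ W z) ∧ GramO (DelP p) p (psiP p) W

theorem SSpLim_of_GramP (hG : GramP) : SSpLim := by
  intro p hpp hp v hv h
  obtain ⟨W, hW, hW1, hGO⟩ := hG p hpp hp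
  exact tendsto_SSp hp hW hW1 hGO hv h

/-- **Residue relations from the mean square theorem and the level-`p` limits.** -/
theorem rhoRel_of_MS1_lim {ρ : Eis → ℂ} (hMS : M49.MS1 ρ) (hS : SSpLim) : M49.RhoRel ρ := by
  obtain ⟨v, hv, hm⟩ := Res785.exists_Wt
  obtain ⟨a, b, ha, hab, hsupp⟩ := hv.supp
  have hb : ∀ x, b < x → v x = 0 := fun x hx => hsupp x (Or.inr hx)
  exact Res785.rhoRel_of_tendsto (v := v) hb (m := mellin v (((5 / 6 : ℝ) : ℂ))) (hm _)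
    (tendsto_SS_of_MS1 hMS hv) (fun p hpp hp h => hS p hpp hp v hv h)

/-- **Residue relations from the mean square theorem and the level-`p` Gram formula.** -/
theorem rhoRel_of_gram {ρ : Eis → ℂ} (hMS : M49.MS1 ρ) (hG : GramP) : M49.RhoRel ρ :=
  rhoRel_of_MS1_lim hMS (SSpLim_of_GramP hG)

end Crest.Agent.R012.ResFin61
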