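import Crest.Agent.R012.GramP_988
import Crest.Agent.R012.GramN_858
import Crest.Agent.R012.ResFin_61

/-!
# Row 12 (M-R), H2: the level `p` norm has no main term (end)

* `norm_level_p` : `∫ w(|det|) |E_{ψ_p, F}|² dν_p ≤ C ...`
* `gramO_level_p`, `gramP : ResFin61.GramP`
-/

set_option autoImplicit false

noncomputable section

open MeasureTheory Complex Filter Set
open scoped ComplexConjugate ENNReal Topology

namespace Crest.Agent.R012.K695.GramQ988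

open Crest.Agent.R012 Crest.Agent.R012.Eis Crest.Agent.R012.Gram858 Crest.Agent.R012.Mob705
  Crest.Agent.R012.LatP988 Crest.Agent.R012.K695.Gram988 Crest.Agent.R012.StripIneq813
  Crest.Agent.R012.Four813 Crest.Agent.R012.K695.GramP988

variable {w : ℝ → ℝ} {α β : ℝ} {p : Eis}

lemma dvd_lam_mul_cube_iff (hp : Prime p) (hpp : IsPrim p) (m : Eis) :
    p ∣ (lam * m) ^ 3 ↔ p ∣ m := by
  constructor
  · intro h
    have h1 := hp.dvd_of_dvd_pow h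
    rcases hp.dvd_or_dvd h1 with h2 | h2
    · exfalso
      have h3 : Associated p lam := (hp.dvd_prime_iff_associated prime_lam).mp h2
      exact hpp.not_lam_dvd h3.symm.dvd
    · exact h2
  · intro h
    exact dvd_pow (h.mul_left _) (by norm_num)

/-- The general term of `DD`. -/
lemma gdiff_eq (Hs : CharSum852.SyFacts) (hp : Prime p) (hpp : IsPrim p) (w : ℝ → ℝ)
    (F' F : Vec → ℂ) {c : Eis} (hc0 : c ≠ 0) (hc : (3 : Eis) ∣ c) :
    gterm p (bco (DelP p)) (wC' w) F' F c - LL p * gterm p (bco ⊤) (wC' w) F' F c =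
      conj (CharSum852.Ssum c) * ((open Classical in if p ∣ c then (1 : ℂ) else 0) -
        1 / ((nm p : ℂ) + 1)) * ((((nm c : ℝ) ^ 2)⁻¹ : ℝ) : ℂ) *
        ∫ M, G0 (wC' w) F' F (toC c) M := by
  have h := sumMod_diff Hs hp hpp hc0 hc
  unfold gterm
  rw [if_neg hc0, if_neg hc0]
  rw [← h]
  ring

lemma gdiff_zero (w : ℝ → ℝ) (F' F : Vec → ℂ) {c : Eis} (hc : ¬ (3 : Eis) ∣ c) :
    gterm p (bco (DelP p)) (wC' w) F' F c - LL p * gterm p (bco ⊤) (wC' w) F' F c = 0 := by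
  unfold gterm
  by_cases hc0 : c = 0
  · simp [hc0]
  rw [if_neg hc0, if_neg hc0, sumMod_zero (fun d => not_row_bco _ hc d),
    sumMod_zero (fun d => not_row_bco _ hc d)]
  ring

lemma gdiff_cube (Hs : CharSum852.SyFacts) (hp : Prime p) (hpp : IsPrim p) (w : ℝ → ℝ)
    (F' F : Vec → ℂ) (m : Eis) :
    gterm p (bco (DelP p)) (wC' w) F' F ((lam * m) ^ 3) -
      LL p * gterm p (bco ⊤) (wC' w) F' F ((lam * m) ^ 3) =
      if m = 0 then (0 : ℂ) else Pp p m * (((rho3 m ^ 6)⁻¹ : ℝ) : ℂ) *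
        ∫ q : X2, ((w (‖dt q.1 q.2‖ / rho3 m ^ 3) : ℝ) : ℂ) * FF F' F q := by
  classical
  by_cases hm : m = 0
  · subst hm
    simp [gterm]
  have hlm : lam * m ≠ 0 := mul_ne_zero lam_ne_zero hm
  have hc : (lam * m) ^ 3 ≠ 0 := pow_ne_zero 3 hlm
  have h3 : (3 : Eis) ∣ (lam * m) ^ 3 := by
    have h1 : (lam * m) ^ 3 = lam ^ 2 * (lam * m ^ 3) := by ring
    rw [h1]
    exact three_dvd_lam_sq.mul_right _
  rw [if_neg hm, gdiff_eq Hs hp hpp w F' F hc h3, CharSum852.Ssum_cube Hs hlm,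
    psi_lam_cube hm, Complex.conj_ofReal]
  have hN : (nm ((lam * m) ^ 3) : ℝ) ≠ 0 := by
    exact_mod_cast (nm_pos.mpr hc).ne'
  have hI : ∫ M, G0 (wC' w) F' F (toC ((lam * m) ^ 3)) M =
      ∫ q : X2, ((w (‖dt q.1 q.2‖ / rho3 m ^ 3) : ℝ) : ℂ) * FF F' F q := by
    congr 1
    ext M
    unfold G0 wC' FF
    have h1 : ‖det2 M / toC ((lam * m) ^ 3)‖ = ‖dt M.1 M.2‖ / rho3 m ^ 3 := by
      rw [norm_div, map_pow, norm_pow, rho3_eq]
      rfl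
    rw [h1, mul_assoc]
  rw [hI, rho3_pow_six]
  have h2 : (((nm ((lam * m) ^ 3) : ℝ) * PE m : ℝ) : ℂ) *
      ((((nm ((lam * m) ^ 3) : ℝ) ^ 2)⁻¹ : ℝ) : ℂ) =
      ((PE m : ℝ) : ℂ) * ((((nm ((lam * m) ^ 3) : ℝ))⁻¹ : ℝ) : ℂ) := by
    rw [← Complex.ofReal_mul, ← Complex.ofReal_mul]
    congr 1
    field_simp
  have hPp : Pp p m = ((PE m : ℝ) : ℂ) * ((if p ∣ (lam * m) ^ 3 then (1 : ℂ) else 0) -
      1 / ((nm p : ℂ) + 1)) := by
    unfold Pp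
    simp only [dvd_lam_mul_cube_iff hp hpp]
  rw [hPp]
  linear_combination ((if p ∣ (lam * m) ^ 3 then (1 : ℂ) else 0) - 1 / ((nm p : ℂ) + 1)) *
    (∫ q : X2, ((w (‖dt q.1 q.2‖ / rho3 m ^ 3) : ℝ) : ℂ) * FF F' F q) * h2

/-- The sum in `DD` is a cube sum. -/
theorem tsum_gdiff (Hs : CharSum852.SyFacts) (hp : Prime p) (hpp : IsPrim p) (hw : RCut w α β)
    {F' F : Vec → ℂ} (hF' : BS F') (hF : BS F) :
    ∑' c : Eis, (gterm p (bco (DelP p)) (wC' w) F' F c - LL p * gterm p (bco ⊤) (wC' w) F' F c) =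
      (1 / 3) * ∑' m : Eis, if m = 0 then (0 : ℂ) else Pp p m * (((rho3 m ^ 6)⁻¹ : ℝ) : ℂ) *
        ∫ q : X2, ((w (‖dt q.1 q.2‖ / rho3 m ^ 3) : ℝ) : ℂ) * FF F' F q := by
  rw [tsum_cubes_lam]
  · congr 1
    apply tsum_congr
    intro m
    exact gdiff_cube Hs hp hpp w F' F m
  · simp [gterm]
  · intro c hc
    by_contra hn
    apply hc
    by_cases hc0 : c = 0
    · simp [gterm, hc0]
    by_cases h3 : (3 : Eis) ∣ c
    · rw [gdiff_eq Hs hp hpp w F' F hc0 h3, CharSum852.Ssum_eq_zero Hs hc0 h3 hn]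
      simp
    · exact gdiff_zero w F' F h3
  · intro c hc
    by_contra hn
    exact hc (gdiff_zero w F' F hn)
  · obtain ⟨K, hK⟩ := gterm_eq_zero hw.cut hF' hF
    apply summable_of_ne_finset_zero (s := ball K)
    intro m hm
    rw [mem_ball, not_le] at hm
    have h1 : K < nm (m ^ 3) := by
      rw [nm_pow]
      have hm1 : 1 ≤ nm m := by omega
      calc K < nm m := hm
        _ = nm m ^ 1 := (pow_one _).symm
        _ ≤ nm m ^ 3 := Nat.pow_le_pow_right hm1 (by norm_num)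
    rw [hK _ _ _ h1, hK _ _ _ h1]
    ring

/-! ### The bound -/

lemma Fr.bs {r₁ r₂ r₃ K : ℝ} {F : Vec → ℂ} (hF : Fr r₁ r₂ r₃ K F) : BS F where
  meas := hF.meas
  bdd := ⟨K, hF.bd⟩
  supp := by
    refine ⟨r₂ ^ 2 + r₃ ^ 2, fun u hu => ?_⟩
    by_contra h
    obtain ⟨_, h2, h3⟩ := hF.supp u h
    unfold n2 at hu
    have e2 : ‖u.1‖ ^ 2 ≤ r₂ ^ 2 := by gcongr
    have e3 : ‖u.2‖ ^ 2 ≤ r₃ ^ 2 := by gcongr
    linarith

lemma norm_int_sq_le {r₁ r₂ r₃ K : ℝ} {F : Vec → ℂ} (hF : Fr r₁ r₂ r₃ K F)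
    (hr₂ : 0 ≤ r₂) (hr₃ : 0 ≤ r₃) :
    ‖∫ u, F u * conj (F u)‖ ≤ K ^ 2 * (Real.pi * r₂ ^ 2 * (Real.pi * r₃ ^ 2)) := by
  set S : Set (ℂ × ℂ) := Metric.closedBall (0 : ℂ) r₂ ×ˢ Metric.closedBall (0 : ℂ) r₃ with hS
  have hvol : volume S = ENNReal.ofReal (Real.pi * r₂ ^ 2 * (Real.pi * r₃ ^ 2)) := by
    rw [hS, Measure.volume_eq_prod, Measure.prod_prod, Complex.volume_closedBall,
      Complex.volume_closedBall, ENNReal.ofReal_mul (by positivity),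
      ENNReal.ofReal_mul Real.pi_pos.le, ENNReal.ofReal_mul Real.pi_pos.le,
      ENNReal.ofReal_pow hr₂, ENNReal.ofReal_pow hr₃]
    have : ENNReal.ofReal Real.pi = (NNReal.pi : ℝ≥0∞) := by
      rw [ENNReal.ofReal, NNReal.pi]
      congr 1
      exact Real.toNNReal_of_nonneg Real.pi_pos.le
    rw [this]
    ring
  have h1 : ∫ u, F u * conj (F u) = ∫ u in S, F u * conj (F u) := by
    symm
    apply setIntegral_eq_integral_of_forall_compl_eq_zero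
    intro u hu
    by_contra h
    have h2 : F u ≠ 0 := left_ne_zero_of_mul h
    obtain ⟨_, a2, a3⟩ := hF.supp u h2
    apply hu
    rw [hS]
    exact ⟨by rw [mem_closedBall_zero_iff]; exact a2, by rw [mem_closedBall_zero_iff]; exact a3⟩
  rw [h1]
  have h2 := norm_setIntegral_le_of_norm_le_const (μ := (volume : Measure (ℂ × ℂ))) (s := S)
    (f := fun u => F u * conj (F u)) (C := K ^ 2) (by rw [hvol]; exact ENNReal.ofReal_lt_top)
    (fun u _ => by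
      rw [norm_mul, RCLike.norm_conj, ← sq]
      have := hF.bd u
      gcongr)
  refine h2.trans (le_of_eq ?_)
  rw [measureReal_def, hvol, ENNReal.toReal_ofReal (by positivity)]

/-- **The level `p` norm.** -/
theorem norm_level_p (H : SyAPI) (Hs : CharSum852.SyFacts) (hw : RCut w α β) {τ : ℝ}
    (hτ0 : 0 < τ) (hτ : τ < 2 / 3) :
    ∃ C₀ : ℝ, 0 ≤ C₀ ∧ ∀ p : Eis, Prime p → IsPrim p → ∀ (r₁ r₂ r₃ K Y : ℝ) (F : Vec → ℂ),
      Fr r₁ r₂ r₃ K F → 0 < r₁ → 0 ≤ r₂ → 0 ≤ r₃ → 0 ≤ K → 1 ≤ Y → 2 * (r₂ * r₃) ≤ Y →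
      Integrable (fun M => w ‖det2 M‖ * ‖EC (coefK (ker (psiP p))) F M‖ ^ 2) (nu (DelP p) p) ∧
      ∫ M, w ‖det2 M‖ * ‖EC (coefK (ker (psiP p))) F M‖ ^ 2 ∂(nu (DelP p) p) ≤
        C₀ * (K ^ 2 * (r₂ ^ 2 * r₃ ^ 2)) + C₀ * (Gram858.gc r₂ K r₁ r₂ r₃ K * Y ^ τ) := by
  obtain ⟨C₁, hC₁, hL⟩ := latHyp_level_p hw.smooth hw.apos hw.bnonneg hw.supp hτ0 hτ
  obtain ⟨W₀, hW₀⟩ := hw.bdd
  set A : ℝ := slabVol 1 * ‖∫ s, wC' w s‖ * Real.pi ^ 2 with hA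
  set B : ℝ := (1 / 3) * (|C₁| * 4 * (1 + α ^ (-(2 / 3) : ℝ)) *
    (2 * Real.pi * (3 / 2 + 1 / τ))) with hB
  have hs1 : 0 ≤ slabVol 1 := by unfold slabVol; positivity
  have hA0 : 0 ≤ A := by rw [hA]; positivity
  have hα := hw.apos
  have hB0 : 0 ≤ B := by rw [hB]; positivity
  refine ⟨A + B, by positivity, ?_⟩
  intro p hp hpp r₁ r₂ r₃ K Y F hF hr₁ hr₂ hr₃ hK hY1 hY
  obtain ⟨h1, h2⟩ := norm_expand H Hs hp hpp hw (Fr.bs hF)
  refine ⟨h1, h2.trans ?_⟩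
  unfold DD
  rw [tsum_gdiff Hs hp hpp hw (Fr.bs hF) (Fr.bs hF)]
  refine (norm_add_le _ _).trans ?_
  have hN : (0 : ℝ) < nm p := by exact_mod_cast nm_pos.mpr hp.ne_zero
  have e1 : ‖(1 / ((nm p : ℂ) + 1)) * ((slabVol p : ℂ) * (∫ s, wC' w s) *
      ∫ u, F u * conj (F u))‖ ≤ A * (K ^ 2 * (r₂ ^ 2 * r₃ ^ 2)) := by
    rw [norm_mul, norm_mul, norm_mul]
    have f1 : ‖(1 / ((nm p : ℂ) + 1))‖ = 1 / ((nm p : ℝ) + 1) := by
      have : (1 / ((nm p : ℂ) + 1)) = ((1 / ((nm p : ℝ) + 1) : ℝ) : ℂ) := by push_cast; ring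
      rw [this, Complex.norm_real, Real.norm_of_nonneg (by positivity)]
    have f2 : ‖(slabVol p : ℂ)‖ = nm p * slabVol 1 := by
      rw [slabVol_p, Complex.norm_real, Real.norm_of_nonneg (by positivity)]
    rw [f1, f2]
    have f3 := norm_int_sq_le hF hr₂ hr₃
    have f4 : 1 / ((nm p : ℝ) + 1) * nm p ≤ 1 := by
      rw [one_div, inv_mul_le_iff₀ (by positivity)]; linarith
    calc 1 / ((nm p : ℝ) + 1) * (nm p * slabVol 1 * ‖∫ s, wC' w s‖ * ‖∫ u, F u * conj (F u)‖)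
        = (1 / ((nm p : ℝ) + 1) * nm p) *
          (slabVol 1 * ‖∫ s, wC' w s‖ * ‖∫ u, F u * conj (F u)‖) := by ring
      _ ≤ 1 * (slabVol 1 * ‖∫ s, wC' w s‖ *
          (K ^ 2 * (Real.pi * r₂ ^ 2 * (Real.pi * r₃ ^ 2)))) := by gcongr
      _ = A * (K ^ 2 * (r₂ ^ 2 * r₃ ^ 2)) := by rw [hA]; ring
  have e2 : ‖(1 / 3 : ℂ) * ∑' m : Eis, if m = 0 then (0 : ℂ) else
      Pp p m * (((rho3 m ^ 6)⁻¹ : ℝ) : ℂ) *
        ∫ q : X2, ((w (‖dt q.1 q.2‖ / rho3 m ^ 3) : ℝ) : ℂ) * FF F F q‖ ≤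
      B * (Gram858.gc r₂ K r₁ r₂ r₃ K * Y ^ τ) := by
    have g := gram_main hw.smooth.continuous.measurable hW₀ (hL p ⟨hpp, hp⟩) hα hw.small hτ0 hτ
      hF hF hr₁ hK hK hr₂ hr₃ hr₂ hr₃ hY1 (by linarith [mul_comm r₂ r₃])
    rw [zero_mul, sub_zero, norm_zero, zero_mul, zero_add] at g
    rw [norm_mul]
    have f1 : ‖(1 / 3 : ℂ)‖ = 1 / 3 := by norm_num
    rw [f1]
    refine (mul_le_mul_of_nonneg_left g (by norm_num)).trans (le_of_eq ?_)
    rw [hB]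
    ring
  have hg : 0 ≤ Gram858.gc r₂ K r₁ r₂ r₃ K := by unfold Gram858.gc; positivity
  calc _ ≤ A * (K ^ 2 * (r₂ ^ 2 * r₃ ^ 2)) + B * (Gram858.gc r₂ K r₁ r₂ r₃ K * Y ^ τ) :=
        add_le_add e1 e2
    _ ≤ (A + B) * (K ^ 2 * (r₂ ^ 2 * r₃ ^ 2)) + (A + B) * (Gram858.gc r₂ K r₁ r₂ r₃ K * Y ^ τ) := by
        have h0 : 0 ≤ Y ^ τ := by positivity
        gcongr <;> linarith

/-! ### The limit -/

open Crest.Agent.R012.ResLev61

lemma CF.bdd {a b : ℝ} {F : ℂ × ℂ → ℂ} (hF : CF a b F) : ∃ K : ℝ, 0 ≤ K ∧ ∀ u, ‖F u‖ ≤ K := by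
  have hc : HasCompactSupport F := by
    apply HasCompactSupport.of_support_subset_isCompact
      ((isCompact_closedBall (0 : ℂ) b).prod (isCompact_closedBall (0 : ℂ) b))
    intro u hu
    obtain ⟨_, h2, h3⟩ := hF.supp u hu
    exact ⟨by rw [mem_closedBall_zero_iff]; exact h2, by rw [mem_closedBall_zero_iff]; exact h3⟩
  obtain ⟨C, hC⟩ := hc.exists_bound_of_continuous hF.cont
  exact ⟨C, (norm_nonneg _).trans (hC 0), hC⟩

lemma CF.dil_Fr {a b K : ℝ} {F : ℂ × ℂ → ℂ} (hF : CF a b F) (hK : ∀ u, ‖F u‖ ≤ K) {B : ℝ}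
    (hB : 0 < B) :
    Fr (a * Real.sqrt B) (b * Real.sqrt B) (b * Real.sqrt B) K (dilB B F) where
  meas := (hF.cont.comp (continuous_const_smul _)).measurable
  bd u := hK _
  supp u hu := by
    have hs : 0 < Real.sqrt B := Real.sqrt_pos.mpr hB
    obtain ⟨h1, h2, h3⟩ := hF.supp _ hu
    have e1 : ‖((((Real.sqrt B)⁻¹ : ℝ) • u : ℂ × ℂ)).1‖ = (Real.sqrt B)⁻¹ * ‖u.1‖ := by
      rw [Prod.smul_fst, norm_smul, Real.norm_of_nonneg (by positivity)]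
    have e2 : ‖((((Real.sqrt B)⁻¹ : ℝ) • u : ℂ × ℂ)).2‖ = (Real.sqrt B)⁻¹ * ‖u.2‖ := by
      rw [Prod.smul_snd, norm_smul, Real.norm_of_nonneg (by positivity)]
    rw [e1] at h1 h2
    rw [e2] at h3
    rw [inv_mul_eq_div] at h1 h2 h3
    rw [le_div_iff₀ hs] at h1
    rw [div_le_iff₀ hs] at h2 h3
    exact ⟨h1, h2, h3⟩

/-- the profile as a weight. -/
def wE (w : ℝ → ℝ) (z : ℂ) : ℝ≥0∞ := ENNReal.ofReal (w ‖z‖)

lemma LN_eq {F : Vec → ℂ} {ψ : Eis → ℂ} {Δ : Subgroup Gam} {q : Eis} (hw0 : ∀ x, 0 ≤ w x)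
    (hi : Integrable (fun M => w ‖det2 M‖ * ‖EC (coefK (ker ψ)) F M‖ ^ 2) (nu Δ q)) :
    LN Δ q ψ (wE w) F =
      ENNReal.ofReal (∫ M, w ‖det2 M‖ * ‖EC (coefK (ker ψ)) F M‖ ^ 2 ∂(nu Δ q)) := by
  rw [ofReal_integral_eq_lintegral_ofReal hi
    (Filter.Eventually.of_forall fun M => mul_nonneg (hw0 _) (by positivity))]
  unfold LN
  refine lintegral_congr fun M => ?_
  unfold wE
  rw [ENNReal.ofReal_mul (hw0 _), ENNReal.ofReal_pow (norm_nonneg _), ofReal_norm]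

/-- **No main term at level `p`.** -/
theorem gramO_level_p (H : SyAPI) (Hs : CharSum852.SyFacts) (hw : RCut w α β) (hp : Prime p)
    (hpp : IsPrim p) : GramO (DelP p) p (psiP p) (wE w) := by
  intro a b F ha hF
  obtain ⟨K, hK0, hK⟩ := CF.bdd hF
  obtain ⟨C₀, hC₀, hn⟩ := norm_level_p H Hs hw (τ := 1 / 3) (by norm_num) (by norm_num)
  -- trivial case
  rcases lt_or_ge b 0 with hb | hb
  · have hF0 : ∀ u, F u = 0 := by
      intro u
      by_contra h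
      obtain ⟨_, h2, _⟩ := hF.supp u h
      linarith [norm_nonneg u.1]
    have h0 : ∀ B : ℝ, LN (DelP p) p (psiP p) (wE w) (dilB B F) = 0 := by
      intro B
      unfold LN
      have : ∀ M, EC (coefK (ker (psiP p))) (dilB B F) M = 0 := by
        intro M
        unfold EC
        simp [dilB, hF0]
      simp [this]
    simp [h0]
  set D : ℝ := C₀ * (K ^ 2 * b ^ 4) +
    C₀ * (Real.pi ^ 3 * (K * K * b ^ 2 * b ^ 2 * b ^ 2 / a ^ 2) * (2 * b ^ 2 + 1)) with hD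
  have hD0 : 0 ≤ D := by rw [hD]; positivity
  have hle : ∀ᶠ B : ℝ in atTop, LN (DelP p) p (psiP p) (wE w) (dilB B F) /
      ENNReal.ofReal (B ^ ((8 : ℝ) / 3)) ≤ ENNReal.ofReal (D * B ^ (-(1 / 3) : ℝ)) := by
    filter_upwards [eventually_ge_atTop (1 : ℝ)] with B hB1
    have hB : 0 < B := by linarith
    have hs : 0 < Real.sqrt B := Real.sqrt_pos.mpr hB
    have hs2 : Real.sqrt B ^ 2 = B := Real.sq_sqrt hB.le
    obtain ⟨h1, h2⟩ := hn p hp hpp (a * Real.sqrt B) (b * Real.sqrt B) (b * Real.sqrt B) K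
      ((2 * b ^ 2 + 1) * B) (dilB B F) (CF.dil_Fr hF hK hB) (by positivity) (by positivity)
      (by positivity) hK0 (by nlinarith [sq_nonneg b]) (by
        have : b * Real.sqrt B * (b * Real.sqrt B) = b ^ 2 * B := by
          linear_combination b ^ 2 * hs2
        rw [this]; nlinarith)
    rw [LN_eq hw.nonneg h1, ← ENNReal.ofReal_div_of_pos (by positivity)]
    apply ENNReal.ofReal_le_ofReal
    rw [div_le_iff₀ (by positivity)]
    refine h2.trans ?_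
    have e3 : B ^ (-(1 / 3) : ℝ) * B ^ ((8 : ℝ) / 3) = B ^ 2 * B ^ ((1 : ℝ) / 3) := by
      rw [← Real.rpow_add hB, ← Real.rpow_natCast B 2, ← Real.rpow_add hB]
      norm_num
    have hB3 : 1 ≤ B ^ ((1 : ℝ) / 3) := Real.one_le_rpow hB1 (by norm_num)
    have e4 : ((2 * b ^ 2 + 1) * B) ^ ((1 : ℝ) / 3) ≤ (2 * b ^ 2 + 1) * B ^ ((1 : ℝ) / 3) := by
      rw [Real.mul_rpow (by positivity) hB.le]
      have : (2 * b ^ 2 + 1) ^ ((1 : ℝ) / 3) ≤ (2 * b ^ 2 + 1) ^ (1 : ℝ) :=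
        Real.rpow_le_rpow_of_exponent_le (by nlinarith [sq_nonneg b]) (by norm_num)
      rw [Real.rpow_one] at this
      gcongr
    have e5 : Gram858.gc (b * Real.sqrt B) K (a * Real.sqrt B) (b * Real.sqrt B)
        (b * Real.sqrt B) K =
        Real.pi ^ 3 * (K * K * b ^ 2 * b ^ 2 * b ^ 2 / a ^ 2) * B ^ 2 := by
      unfold Gram858.gc
      simp only [mul_pow, hs2]
      field_simp
    have e6 : (b * Real.sqrt B) ^ 2 * (b * Real.sqrt B) ^ 2 = b ^ 4 * B ^ 2 := by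
      simp only [mul_pow, hs2]; ring
    rw [e5, e6, mul_assoc D, e3]
    calc C₀ * (K ^ 2 * (b ^ 4 * B ^ 2)) + C₀ * (Real.pi ^ 3 *
          (K * K * b ^ 2 * b ^ 2 * b ^ 2 / a ^ 2) * B ^ 2 *
          ((2 * b ^ 2 + 1) * B) ^ ((1 : ℝ) / 3))
        ≤ C₀ * (K ^ 2 * (b ^ 4 * (B ^ 2 * B ^ ((1 : ℝ) / 3)))) + C₀ * (Real.pi ^ 3 *
          (K * K * b ^ 2 * b ^ 2 * b ^ 2 / a ^ 2) * B ^ 2 *
          ((2 * b ^ 2 + 1) * B ^ ((1 : ℝ) / 3))) := by
          have : B ^ 2 ≤ B ^ 2 * B ^ ((1 : ℝ) / 3) := le_mul_of_one_le_right (by positivity) hB3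
          gcongr
      _ = D * (B ^ 2 * B ^ ((1 : ℝ) / 3)) := by rw [hD]; ring
  refine tendsto_of_tendsto_of_tendsto_of_le_of_le' tendsto_const_nhds ?_
    (Filter.Eventually.of_forall fun _ => zero_le) hle
  have h1 : Tendsto (fun B : ℝ => D * B ^ (-(1 / 3) : ℝ)) atTop (𝓝 0) := by
    have := (tendsto_rpow_neg_atTop (y := 1 / 3) (by norm_num)).const_mul D
    rwa [mul_zero] at this
  have h2 := ENNReal.tendsto_ofReal h1
  rwa [ENNReal.ofReal_zero] at h2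

/-- There is a cut-off. -/
lemma exists_RCut : ∃ w : ℝ → ℝ, RCut w (1 / 2) (9 / 2) ∧ ∀ x, 1 ≤ x → x ≤ 4 → 1 ≤ w x := by
  let f : ContDiffBump (5 / 2 : ℝ) := ⟨3 / 2, 2, by norm_num, by norm_num⟩
  refine ⟨f, ⟨f.contDiff, by norm_num, by norm_num, fun x => f.nonneg, ?_⟩, ?_⟩
  · intro x hx
    have h1 : x ∈ Function.support f := hx
    rw [f.support_eq, Metric.mem_ball, Real.dist_eq, abs_lt] at h1
    change -2 < x - 5 / 2 ∧ x - 5 / 2 < 2 at h1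
    constructor <;> linarith [h1.1, h1.2]
  · intro x h1 h4
    have : x ∈ Metric.closedBall (5 / 2 : ℝ) f.rIn := by
      rw [Metric.mem_closedBall, Real.dist_eq, abs_le]
      change -(3 / 2) ≤ x - 5 / 2 ∧ x - 5 / 2 ≤ 3 / 2
      constructor <;> linarith
    rw [f.one_of_mem_closedBall this]

/-- **The Gram input at all levels `p`.** -/
theorem gramP : ResFin61.GramP := by
  intro p hp hpp
  obtain ⟨w, hw, hw1⟩ := exists_RCut
  refine ⟨wE w, ?_, ?_, ?_⟩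
  · exact ENNReal.measurable_ofReal.comp (hw.smooth.continuous.measurable.comp measurable_norm)
  · intro z h1 h4
    unfold wE
    rw [← ENNReal.ofReal_one]
    exact ENNReal.ofReal_le_ofReal (hw1 _ h1 h4)
  · exact gramO_level_p Sym645.syAPI Sym645.syFacts hw hp hpp

/-- **Residue relations from the mean square theorem.** -/
theorem rhoRel_of_MS1 {ρ : Eis → ℂ} (hMS : M49.MS1 ρ) : M49.RhoRel ρ :=
  ResFin61.rhoRel_of_gram hMS gramP

end Crest.Agent.R012.K695.GramQ988
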