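import Crest.Agent.R012.GramN_858

/-!
# Row 12, item MG: the norm bound (N)

* `mU_Uf` : `mU (Uf om l B) = 0` if `l ≠ 0` or `mom om = 0`
* `norm_bound` : the norm bound for `E_F`, `F = prodF (Uf om l B) φ`.
-/

set_option autoImplicit false

noncomputable section

open MeasureTheory Set Complex Filter
open scoped ENNReal ComplexConjugate Topology

namespace Crest.Agent.R012.Gram858

open Crest.Agent.R012.Eis Crest.Agent.R012.LatSum413 Crest.Agent.R012.Div277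
  Crest.Agent.R012.Mob705 Crest.Agent.R012.K695 Crest.Agent.R012.K695.Gram988
  Crest.Agent.R012.ML384

/-! ## The moment `mU (Uf om l B)` -/

lemma mU_Uf_of_ne {om : ℝ → ℂ} {l : ℤ} (hl : l ≠ 0) (B : ℝ) : mU (Uf om l B) = 0 := by
  set c : ℂ := Complex.exp (Real.pi * I / l) with hc
  have hc0 : c ≠ 0 := Complex.exp_ne_zero _
  have hcn : ‖c‖ = 1 := by
    rw [hc]
    have : (Real.pi : ℂ) * I / l = ((Real.pi / l : ℝ) : ℂ) * I := by push_cast; ring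
    rw [this, Complex.norm_exp_ofReal_mul_I]
  have hcl : c ^ l = -1 := by
    rw [hc, ← Complex.exp_int_mul]
    have : (l : ℂ) * (Real.pi * I / l) = Real.pi * I := by
      have : (l : ℂ) ≠ 0 := by exact_mod_cast hl
      field_simp
    rw [this, Complex.exp_pi_mul_I]
  have h1 := integral_mul_left' hc0 (fun z : ℂ => Uf om l B z * ((‖z‖ ^ (2 / 3 : ℝ) : ℝ) : ℂ))
  rw [hcn] at h1
  simp only [one_pow, inv_one, one_smul] at h1
  have h2 : ∀ z : ℂ, Uf om l B (c * z) * ((‖c * z‖ ^ (2 / 3 : ℝ) : ℝ) : ℂ) =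
      -1 * (Uf om l B z * ((‖z‖ ^ (2 / 3 : ℝ) : ℝ) : ℂ)) := by
    intro z
    unfold Uf
    rw [norm_mul, hcn, one_mul, mul_div_assoc, mul_zpow, hcl]
    ring
  simp_rw [h2] at h1
  rw [integral_const_mul] at h1
  unfold mU
  linear_combination (-1 / 2 : ℂ) * h1

lemma mU_Uf_of_mom {om : ℝ → ℂ} (hom : mom om = 0) {B : ℝ} (hB : 0 < B) :
    mU (Uf om 0 B) = 0 := by
  set f : ℝ → ℂ := fun r => om (r ^ 2 / B) * ((r ^ (2 / 3 : ℝ) : ℝ) : ℂ) with hf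
  have h1 : mU (Uf om 0 B) = ∫ z : ℂ, f ‖z‖ := by
    unfold mU Uf
    simp [hf]
  rw [h1, integral_fun_norm_addHaar]
  set g : ℝ → ℂ := fun y => (1 / 2 : ℂ) * (om (y / B) * ((y ^ ((1 : ℝ) / 3) : ℝ) : ℂ)) with hg
  have h2 : ∫ y in Ioi (0 : ℝ), y ^ (Module.finrank ℝ ℂ - 1) • f y = ∫ y in Ioi (0 : ℝ), g y := by
    rw [← integral_comp_rpow_Ioi g (two_ne_zero)]
    refine setIntegral_congr_fun measurableSet_Ioi (fun r hr => ?_)
    have hr0 : (0 : ℝ) < r := hr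
    simp only [hf, hg, Complex.finrank_real_complex]
    have h3 : r ^ (2 : ℝ) = r ^ 2 := Real.rpow_natCast r 2
    have h4 : (r ^ 2) ^ ((1 : ℝ) / 3) = r ^ (2 / 3 : ℝ) := by
      rw [← Real.rpow_natCast, ← Real.rpow_mul hr0.le]; norm_num
    rw [h3, h4]
    have h5 : |(2 : ℝ)| * r ^ ((2 : ℝ) - 1) = 2 * r := by
      rw [abs_of_pos (by norm_num : (0 : ℝ) < 2)]
      norm_num
    rw [h5]
    simp only [Nat.add_one_sub_one, pow_one, Complex.real_smul]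
    push_cast
    ring
  have h6 : ∫ y in Ioi (0 : ℝ), g y = 0 := by
    have h7 := integral_comp_mul_left_Ioi (fun x => (1 / 2 : ℂ) *
      (om x * (((B * x) ^ ((1 : ℝ) / 3) : ℝ) : ℂ))) 0 (b := B⁻¹) (by positivity)
    have h8 : ∀ y : ℝ, (1 / 2 : ℂ) * (om (B⁻¹ * y) * (((B * (B⁻¹ * y)) ^ ((1 : ℝ) / 3) : ℝ) : ℂ))
        = g y := by
      intro y
      simp only [hg]
      have e : y / B = B⁻¹ * y := div_eq_inv_mul y B
      rw [← mul_assoc B, mul_inv_cancel₀ hB.ne', one_mul, e]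
    simp_rw [h8] at h7
    rw [h7, mul_zero]
    have h9 : ∫ x in Ioi (0 : ℝ), (1 / 2 : ℂ) * (om x * (((B * x) ^ ((1 : ℝ) / 3) : ℝ) : ℂ)) =
        ∫ x in Ioi (0 : ℝ), ((1 / 2 : ℂ) * ((B ^ ((1 : ℝ) / 3) : ℝ) : ℂ)) *
          (om x * ((x ^ ((1 : ℝ) / 3) : ℝ) : ℂ)) := by
      refine setIntegral_congr_fun measurableSet_Ioi (fun x hx => ?_)
      have hx0 : (0 : ℝ) < x := hx
      rw [Real.mul_rpow hB.le hx0.le]
      push_cast
      ring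
    rw [h9, integral_const_mul]
    have : ∫ x in Ioi (0 : ℝ), om x * ((x ^ ((1 : ℝ) / 3) : ℝ) : ℂ) = 0 := hom
    rw [this]
    simp
  rw [h2, h6]
  simp

lemma mU_Uf {om : ℝ → ℂ} {l : ℤ} {B : ℝ} (hB : 0 < B) (h : l ≠ 0 ∨ mom om = 0) :
    mU (Uf om l B) = 0 := by
  by_cases hl : l = 0
  · subst hl
    rcases h with h | h
    · exact absurd rfl h
    · exact mU_Uf_of_mom h hB
  · exact mU_Uf_of_ne hl B

/-! ## The test functions -/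

lemma norm_Uf_le {om : ℝ → ℂ} {K : ℝ} (hK : ∀ x, ‖om x‖ ≤ K) (l : ℤ) (B : ℝ) (z : ℂ) :
    ‖Uf om l B z‖ ≤ K := by
  have hK0 : 0 ≤ K := (norm_nonneg _).trans (hK 0)
  unfold Uf
  rw [norm_mul, norm_zpow]
  have h1 : ‖z / (‖z‖ : ℂ)‖ ^ l ≤ 1 := by
    by_cases hz : z = 0
    · subst hz
      simp only [norm_zero, Complex.ofReal_zero, div_zero]
      by_cases hl : l = 0
      · subst hl; simp
      · rw [zero_zpow l hl]; exact zero_le_one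
    · have : ‖z / (‖z‖ : ℂ)‖ = 1 := by
        rw [norm_div, Complex.norm_real, norm_norm, div_self (norm_ne_zero_iff.mpr hz)]
      rw [this, one_zpow]
  calc ‖om (‖z‖ ^ 2 / B)‖ * ‖z / (‖z‖ : ℂ)‖ ^ l ≤ K * 1 := by
        gcongr
        · exact hK _
    _ = K := mul_one K

lemma measurable_Uf {om : ℝ → ℂ} (hom : Measurable om) (l : ℤ) (B : ℝ) :
    Measurable (Uf om l B) := by
  unfold Uf
  apply Measurable.mul
  · apply hom.comp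
    fun_prop
  · apply Measurable.pow_const
    fun_prop

lemma Fr_prodF {om : ℝ → ℂ} (hom : Measurable om) {K M a b B s : ℝ} (ha : 0 < a)
    (hK : ∀ x, ‖om x‖ ≤ K) (hsupp : ∀ x, x < a ∨ b < x → om x = 0) (l : ℤ)
    {φ : ℂ → ℂ} (hφ : Measurable φ) (hM : ∀ p, ‖φ p‖ ≤ M) (hφs : ∀ p, s < ‖p‖ → φ p = 0)
    (hB : 0 < B) (hs : 0 ≤ s) :
    Fr (Real.sqrt (a * B)) (Real.sqrt (b * B)) (s * Real.sqrt (b * B)) (K * M)
      (prodF (Uf om l B) φ) where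
  meas := by
    unfold prodF
    exact ((measurable_Uf hom l B).comp measurable_fst).mul
      (hφ.comp (measurable_snd.div measurable_fst))
  bd u := by
    have hK0 : 0 ≤ K := (norm_nonneg _).trans (hK 0)
    unfold prodF
    rw [norm_mul]
    exact mul_le_mul (norm_Uf_le hK l B _) (hM _) (norm_nonneg _) hK0
  supp u hu := by
    unfold prodF Uf at hu
    have h1 : om (‖u.1‖ ^ 2 / B) ≠ 0 := by
      intro h; apply hu; rw [h]; ring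
    have h2 : φ (u.2 / u.1) ≠ 0 := by
      intro h; apply hu; rw [h]; ring
    have h3 : a ≤ ‖u.1‖ ^ 2 / B ∧ ‖u.1‖ ^ 2 / B ≤ b := by
      by_contra h
      rw [not_and_or, not_le, not_le] at h
      exact h1 (hsupp _ h)
    have h4 : ‖u.2 / u.1‖ ≤ s := by
      by_contra h
      exact h2 (hφs _ (not_le.mp h))
    rw [le_div_iff₀ hB, div_le_iff₀ hB] at h3
    have h5 : ‖u.1‖ ≤ Real.sqrt (b * B) := Real.le_sqrt_of_sq_le h3.2
    have h6 : 0 < ‖u.1‖ := by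
      rcases (norm_nonneg u.1).eq_or_lt with h | h
      · rw [← h] at h3
        have : 0 < a * B := mul_pos ha hB
        have h7 := h3.1
        norm_num at h7
        linarith
      · exact h
    refine ⟨?_, h5, ?_⟩
    · rw [show ‖u.1‖ = Real.sqrt (‖u.1‖ ^ 2) from (Real.sqrt_sq h6.le).symm]
      exact Real.sqrt_le_sqrt h3.1
    · rw [norm_div, div_le_iff₀ h6] at h4
      calc ‖u.2‖ ≤ s * ‖u.1‖ := h4
        _ ≤ s * Real.sqrt (b * B) := by gcongr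

lemma Fr.BS {r₁ r₂ r₃ K : ℝ} {F : ℂ × ℂ → ℂ} (hF : Fr r₁ r₂ r₃ K F) : K695.BS F where
  meas := hF.meas
  bdd := ⟨K, hF.bd⟩
  supp := ⟨r₂ ^ 2 + r₃ ^ 2, fun u hu => by
    by_contra h
    obtain ⟨-, h2, h3⟩ := hF.supp u h
    have h4 : ‖u.1‖ ^ 2 ≤ r₂ ^ 2 := by gcongr
    have h5 : ‖u.2‖ ^ 2 ≤ r₃ ^ 2 := by gcongr
    unfold n2 at hu
    linarith⟩

lemma integral_normsq_le {r₁ r₂ r₃ K : ℝ} {F : ℂ × ℂ → ℂ} (hF : Fr r₁ r₂ r₃ K F)
    (hr₂ : 0 ≤ r₂) (hr₃ : 0 ≤ r₃) (hK : 0 ≤ K) :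
    ‖∫ u, F u * conj (F u)‖ ≤ K ^ 2 * (Real.pi * r₂ ^ 2) * (Real.pi * r₃ ^ 2) := by
  classical
  set A : Set (ℂ × ℂ) := (Metric.closedBall (0 : ℂ) r₂) ×ˢ (Metric.closedBall (0 : ℂ) r₃) with hA
  have hmA : MeasurableSet A :=
    Metric.isClosed_closedBall.measurableSet.prod Metric.isClosed_closedBall.measurableSet
  have hvA : (volume : Measure (ℂ × ℂ)) A =
      ENNReal.ofReal ((Real.pi * r₂ ^ 2) * (Real.pi * r₃ ^ 2)) := by
    have hpi : (NNReal.pi : ℝ≥0∞) = ENNReal.ofReal Real.pi := by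
      rw [← NNReal.coe_real_pi, ENNReal.ofReal_coe_nnreal]
    rw [hA, Measure.volume_eq_prod, Measure.prod_prod, volume_closedBall_C, volume_closedBall_C,
      hpi, ← ENNReal.ofReal_pow hr₂, ← ENNReal.ofReal_pow hr₃, ← ENNReal.ofReal_mul (by positivity),
      ← ENNReal.ofReal_mul (by positivity), ← ENNReal.ofReal_mul (by positivity)]
    congr 1
    ring
  have hlt : (volume : Measure (ℂ × ℂ)) A < ⊤ := by
    rw [hvA]; exact ENNReal.ofReal_lt_top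
  have h1 : ∫ u, F u * conj (F u) = ∫ u in A, F u * conj (F u) := by
    rw [setIntegral_eq_integral_of_forall_compl_eq_zero]
    intro u hu
    by_contra h
    apply hu
    have h2 : F u ≠ 0 := by
      intro h3; apply h; rw [h3, zero_mul]
    obtain ⟨-, h4, h5⟩ := hF.supp u h2
    rw [hA, mem_prod, mem_closedBall_zero_iff, mem_closedBall_zero_iff]
    exact ⟨h4, h5⟩
  rw [h1]
  refine (norm_setIntegral_le_of_norm_le_const hlt (C := K ^ 2) (fun u _ => ?_)).trans ?_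
  · rw [norm_mul, RCLike.norm_conj, ← pow_two]
    have := hF.bd u
    gcongr
  · rw [Measure.real, hvA, ENNReal.toReal_ofReal (by positivity)]
    exact le_of_eq (by ring)

/-! ## Asymptotic Gram formula and norm bounds -/

/-- The square norm as a complex integral. -/
lemma lintegral_norm_eq {w : ℝ → ℝ} (hw0 : ∀ x, 0 ≤ w x) {F : Vec → ℂ}
    (hI : Integrable (fun M => cutW w (det2 M) * EC (bco ⊤) F M * conj (EC (bco ⊤) F M))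
      (nu ⊤ 1)) :
    ∫⁻ M, ENNReal.ofReal (w ‖det2 M‖) * ‖EC (bco ⊤) F M‖ₑ ^ 2 ∂(nu ⊤ 1) =
      ENNReal.ofReal ‖∫ M, cutW w (det2 M) * EC (bco ⊤) F M * conj (EC (bco ⊤) F M) ∂(nu ⊤ 1)‖ := by
  have h1 : ∀ M : K695.Frm, cutW w (det2 M) * EC (bco ⊤) F M * conj (EC (bco ⊤) F M) =
      ((w ‖det2 M‖ * ‖EC (bco ⊤) F M‖ ^ 2 : ℝ) : ℂ) := by
    intro M
    unfold cutW
    rw [mul_assoc, Complex.mul_conj, Complex.normSq_eq_norm_sq]
    push_cast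
    ring
  simp_rw [h1] at hI ⊢
  have hI' : Integrable (fun M : K695.Frm => w ‖det2 M‖ * ‖EC (bco ⊤) F M‖ ^ 2) (nu ⊤ 1) := by
    refine hI.re.congr (Filter.Eventually.of_forall fun M => ?_)
    exact Complex.ofReal_re _
  have hnn : ∀ M : K695.Frm, 0 ≤ w ‖det2 M‖ * ‖EC (bco ⊤) F M‖ ^ 2 := fun M =>
    mul_nonneg (hw0 _) (sq_nonneg _)
  rw [integral_complex_ofReal, Complex.norm_real, Real.norm_of_nonneg (integral_nonneg hnn),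
    ofReal_integral_eq_lintegral_ofReal hI' (Filter.Eventually.of_forall hnn)]
  congr 1
  ext M
  rw [ENNReal.ofReal_mul (hw0 _)]
  congr 1
  rw [← ofReal_norm, ENNReal.ofReal_pow (norm_nonneg _)]

lemma integrable_cutW {w : ℝ → ℝ} (hwc : Continuous w) {α β : ℝ}
    (hw : ∀ x, w x ≠ 0 → α ≤ x ∧ x ≤ β) : Integrable (cutW w) := by
  have hc : Continuous (cutW w) := Complex.continuous_ofReal.comp (hwc.comp continuous_norm)
  apply hc.integrable_of_hasCompactSupport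
  apply HasCompactSupport.of_support_subset_isCompact (isCompact_closedBall (0 : ℂ) β)
  intro z hz
  rw [Function.mem_support] at hz
  rw [mem_closedBall_zero_iff]
  have : w ‖z‖ ≠ 0 := by
    intro h; apply hz; unfold cutW; rw [h]; simp
  exact (hw _ this).2

lemma bdd_of_supp {w : ℝ → ℝ} (hwc : Continuous w) {α β : ℝ}
    (hw : ∀ x, w x ≠ 0 → α ≤ x ∧ x ≤ β) : ∃ W₀ : ℝ, ∀ x, |w x| ≤ W₀ := by
  obtain ⟨C, hC⟩ := (isCompact_Icc (a := α) (b := β)).exists_bound_of_continuousOn hwc.continuousOn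
  refine ⟨max C 0, fun x => ?_⟩
  by_cases h : w x = 0
  · rw [h, abs_zero]; exact le_max_right _ _
  · exact (hC x (hw x h)).trans (le_max_left _ _)

/-- **Asymptotic Gram formula at level 1** for the class `Fr`. -/
theorem gram_asymp (H : SyAPI) (Hs : CharSum852.SyFacts) {w : ℝ → ℝ} (hwd : ContDiff ℝ 2 w)
    {α β : ℝ} (hα : 0 < α) (hβ : 0 ≤ β) (hw : ∀ x, w x ≠ 0 → α ≤ x ∧ x ≤ β)
    {τ : ℝ} (hτ0 : 0 < τ) (hτ : τ < 2 / 3) :
    ∃ C : ℝ, 0 ≤ C ∧ ∀ {r₁ r₂ r₃ K s₁ s₂ s₃ L Y : ℝ} {F' F : ℂ × ℂ → ℂ},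
      Fr r₁ r₂ r₃ K F' → Fr s₁ s₂ s₃ L F → 0 < s₁ → 0 ≤ K → 0 ≤ L → 0 ≤ r₂ → 0 ≤ r₃ → 0 ≤ s₂ →
      0 ≤ s₃ → 1 ≤ Y → r₂ * s₃ + r₃ * s₂ ≤ Y →
      Integrable (fun M => cutW w (det2 M) * EC (bco ⊤) F' M * conj (EC (bco ⊤) F M)) (nu ⊤ 1) ∧
      ‖∫ M, cutW w (det2 M) * EC (bco ⊤) F' M * conj (EC (bco ⊤) F M) ∂(nu ⊤ 1) -
        (kap1 w / 3) * ∫ p : X2, ((‖dt p.1 p.2‖ ^ (-(4 / 3) : ℝ) : ℝ) : ℂ) * FF F' F p‖ ≤
        C * (‖∫ u, F' u * conj (F u)‖ + K * L * r₂ ^ 2 * s₂ ^ 2 * s₃ ^ 2 / s₁ ^ 2 * Y ^ τ) := by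
  obtain ⟨C₀, hC₀, hLat⟩ := latHyp_PE hwd hα hβ hw hτ0 hτ
  obtain ⟨W₀, hW₀⟩ := bdd_of_supp hwd.continuous hw
  have hwm : Measurable w := hwd.continuous.measurable
  have hw' : ∀ x < α, w x = 0 := by
    intro x hx
    by_contra hne
    exact absurd (hw x hne).1 (not_le.mpr hx)
  have hwi := integrable_cutW hwd.continuous hw
  set C₁ : ℝ := ‖kap1 w‖ * (1 + α) ^ (2 / 3 : ℝ) + |C₀| * 4 * (1 + α ^ (-(2 / 3) : ℝ)) with hC₁
  have hC₁0 : 0 ≤ C₁ := by rw [hC₁]; positivity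
  set A : ℝ := slabVol 1 * ‖∫ s, cutW w s‖ with hA
  have hA0 : 0 ≤ A := mul_nonneg (slabVol_nonneg 1) (norm_nonneg _)
  set D : ℝ := (1 / 3) * (C₁ * (Real.pi ^ 3 * (2 * Real.pi * (3 / 2 + 1 / τ)))) with hD
  have hD0 : 0 ≤ D := by rw [hD]; positivity
  refine ⟨A + D, by positivity, ?_⟩
  intro r₁ r₂ r₃ K s₁ s₂ s₃ L Y F' F hF' hF hs₁ hK hL hr₂ hr₃ hs₂ hs₃ hY1 hY
  obtain ⟨hI, hG⟩ := gram_one H Hs hwm hW₀ hα hw' hwi hF'.BS hF.BS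
  refine ⟨hI, ?_⟩
  have hM := gram_main hwm hW₀ hLat hα hw' hτ0 hτ hF' hF hs₁ hK hL hr₂ hr₃ hs₂ hs₃ hY1 hY
  rw [hG]
  set S : ℂ := ∑' m : Eis, if m = 0 then (0 : ℂ) else ((PE m : ℝ) : ℂ) *
          (((rho3 m ^ 6)⁻¹ : ℝ) : ℂ) *
          ∫ p : X2, ((w (‖dt p.1 p.2‖ / rho3 m ^ 3) : ℝ) : ℂ) * FF F' F p with hS
  set J : ℂ := ∫ p : X2, ((‖dt p.1 p.2‖ ^ (-(4 / 3) : ℝ) : ℝ) : ℂ) * FF F' F p with hJ
  have h1 : (slabVol 1 : ℂ) * (∫ s, cutW w s) * (∫ ζ, F' ζ * conj (F ζ)) + 1 / 3 * S -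
      kap1 w / 3 * J = (slabVol 1 : ℂ) * (∫ s, cutW w s) * (∫ ζ, F' ζ * conj (F ζ)) +
      1 / 3 * (S - kap1 w * J) := by ring
  rw [h1]
  refine (norm_add_le _ _).trans ?_
  rw [norm_mul, norm_mul, norm_mul, Complex.norm_real, Real.norm_of_nonneg (slabVol_nonneg 1)]
  have h2 : ‖(1 / 3 : ℂ)‖ = 1 / 3 := by norm_num
  rw [h2]
  have hY0 : 0 ≤ Y := by linarith
  have h3 : (1 / 3 : ℝ) * ‖S - kap1 w * J‖ ≤
      D * (K * L * r₂ ^ 2 * s₂ ^ 2 * s₃ ^ 2 / s₁ ^ 2 * Y ^ τ) := by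
    calc (1 / 3 : ℝ) * ‖S - kap1 w * J‖ ≤ (1 / 3) * (C₁ *
          (gc r₂ K s₁ s₂ s₃ L * (2 * Real.pi * (3 / 2 + 1 / τ) * Y ^ τ))) := by gcongr
      _ = D * (K * L * r₂ ^ 2 * s₂ ^ 2 * s₃ ^ 2 / s₁ ^ 2 * Y ^ τ) := by
        rw [hD]; unfold gc; ring
  have h4 : 0 ≤ K * L * r₂ ^ 2 * s₂ ^ 2 * s₃ ^ 2 / s₁ ^ 2 * Y ^ τ := by positivity
  have h5 : 0 ≤ ‖∫ ζ, F' ζ * conj (F ζ)‖ := norm_nonneg _
  have h6 : slabVol 1 * ‖∫ s, cutW w s‖ * ‖∫ ζ, F' ζ * conj (F ζ)‖ =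
      A * ‖∫ ζ, F' ζ * conj (F ζ)‖ := by rw [hA]
  rw [h6]
  nlinarith [mul_nonneg hA0 h4, mul_nonneg hD0 h5]

/-- **Norm bound (N).** -/
theorem norm_bound (H : SyAPI) (Hs : CharSum852.SyFacts) {w : ℝ → ℝ} (hwd : ContDiff ℝ 2 w)
    {α β : ℝ} (hα : 0 < α) (hβ : 0 ≤ β) (hw : ∀ x, w x ≠ 0 → α ≤ x ∧ x ≤ β) (hw0 : ∀ x, 0 ≤ w x)
    {a b : ℝ} (ha : 0 < a) (hab : a ≤ b) {τ : ℝ} (hτ0 : 0 < τ) :
    ∃ C : ℝ, 0 ≤ C ∧ ∀ (l : ℤ) (K M s B : ℝ) (om : ℝ → ℂ) (φ : ℂ → ℂ),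
      Measurable om → (∀ x, ‖om x‖ ≤ K) → (∀ x, x < a ∨ b < x → om x = 0) →
      (l ≠ 0 ∨ mom om = 0) → Measurable φ → (∀ p, ‖φ p‖ ≤ M) → (∀ p, s < ‖p‖ → φ p = 0) →
      0 < B → 0 < s → s ≤ 1 →
      ∫⁻ X, ENNReal.ofReal (w ‖det2 X‖) * ‖EC (bco ⊤) (prodF (Uf om l B) φ) X‖ₑ ^ 2 ∂(nu ⊤ 1) ≤
        ENNReal.ofReal (C * (K ^ 2 * M ^ 2 * B ^ 2 * s ^ 2 * (1 + B) ^ τ)) := by
  -- reduce to a small exponent
  set τ' : ℝ := min τ (1 / 2) with hτ'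
  have hτ'0 : 0 < τ' := lt_min hτ0 (by norm_num)
  have hτ'1 : τ' < 2 / 3 := lt_of_le_of_lt (min_le_right _ _) (by norm_num)
  have hτ'τ : τ' ≤ τ := min_le_left _ _
  obtain ⟨C, hC, h⟩ := gram_asymp H Hs hwd hα hβ hw hτ'0 hτ'1
  have hb : 0 < b := lt_of_lt_of_le ha hab
  refine ⟨C * (Real.pi ^ 2 * b ^ 2 + b ^ 3 / a * (2 + 2 * b) ^ τ'), by positivity, ?_⟩
  intro l K M s B om φ hom hK hsupp hl hφ hM hφs hB hs hs1
  have hK0 : 0 ≤ K := (norm_nonneg _).trans (hK 0)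
  have hM0 : 0 ≤ M := (norm_nonneg _).trans (hM 0)
  have hKM : 0 ≤ K * M := mul_nonneg hK0 hM0
  have hFr := Fr_prodF hom ha hK hsupp l hφ hM hφs hB hs.le
  set F := prodF (Uf om l B) φ with hFdef
  have hr1 : 0 < Real.sqrt (a * B) := Real.sqrt_pos.mpr (by positivity)
  have hr2 : 0 ≤ Real.sqrt (b * B) := Real.sqrt_nonneg _
  have hr3 : 0 ≤ s * Real.sqrt (b * B) := by positivity
  have hsq2 : Real.sqrt (b * B) ^ 2 = b * B := Real.sq_sqrt (by positivity)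
  have hsq1 : Real.sqrt (a * B) ^ 2 = a * B := Real.sq_sqrt (by positivity)
  set Y : ℝ := 1 + 2 * (b * B) with hYdef
  have hY1 : 1 ≤ Y := by rw [hYdef]; nlinarith [mul_pos hb hB]
  have hY : Real.sqrt (b * B) * (s * Real.sqrt (b * B)) + s * Real.sqrt (b * B) *
      Real.sqrt (b * B) ≤ Y := by
    have : Real.sqrt (b * B) * (s * Real.sqrt (b * B)) + s * Real.sqrt (b * B) *
      Real.sqrt (b * B) = 2 * s * Real.sqrt (b * B) ^ 2 := by ring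
    rw [this, hsq2, hYdef]
    nlinarith [mul_pos hb hB]
  obtain ⟨hI, hbd⟩ := h hFr hFr hr1 hKM hKM hr2 hr3 hr2 hr3 hY1 hY
  rw [lintegral_norm_eq hw0 hI]
  apply ENNReal.ofReal_le_ofReal
  -- the main term vanishes
  have hmain : ∫ p : X2, ((‖dt p.1 p.2‖ ^ (-(4 / 3) : ℝ) : ℝ) : ℂ) * FF F F p = 0 := by
    have hint : Integrable (fun p : X2 => ((‖dt p.1 p.2‖ ^ (-(4 / 3) : ℝ) : ℝ) : ℂ) *
        FF F F p) := by
      have hmeas : Measurable fun D : ℝ => ((D ^ (-(4 / 3) : ℝ) : ℝ) : ℂ) := by fun_prop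
      refine (integrable_of_bound hFr hFr hr1 hKM hKM hr2 hr3 hr2 hr3 hY1 hY hτ'0 hτ'1 hmeas
        (C := Y ^ (2 / 3 - τ')) (by positivity) ?_).1
      intro D hD0 hDY
      rw [Complex.norm_real, Real.norm_of_nonneg (by positivity)]
      exact rpow_le_mm hD0 hDY hY1 hτ'1
    rw [hFdef, prod_formula (hFdef ▸ hint), mU_Uf hB hl]
    ring
  rw [hmain, mul_zero, sub_zero] at hbd
  refine hbd.trans ?_
  have hn := integral_normsq_le hFr hr2 hr3 hKM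
  rw [mul_pow s, hsq2] at hn
  rw [mul_pow s, hsq2, hsq1]
  have hYτ : Y ^ τ' ≤ (2 + 2 * b) ^ τ' * (1 + B) ^ τ := by
    have h1 : Y ≤ (2 + 2 * b) * (1 + B) := by
      rw [hYdef]; nlinarith [mul_pos hb hB]
    calc Y ^ τ' ≤ ((2 + 2 * b) * (1 + B)) ^ τ' := by gcongr
      _ = (2 + 2 * b) ^ τ' * (1 + B) ^ τ' := Real.mul_rpow (by positivity) (by positivity)
      _ ≤ (2 + 2 * b) ^ τ' * (1 + B) ^ τ := by
        gcongr
        · linarith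
  have hBτ : 1 ≤ (1 + B) ^ τ := Real.one_le_rpow (by linarith) hτ0.le
  have e1 : K * M * (K * M) * (b * B) * (b * B) * (s ^ 2 * (b * B)) / (a * B) =
      (b ^ 3 / a) * (K ^ 2 * M ^ 2 * B ^ 2 * s ^ 2) := by
    field_simp
  rw [e1]
  have hQ : 0 ≤ K ^ 2 * M ^ 2 * B ^ 2 * s ^ 2 := by positivity
  have e2 : (K * M) ^ 2 * (Real.pi * (b * B)) * (Real.pi * (s ^ 2 * (b * B))) =
      Real.pi ^ 2 * b ^ 2 * (K ^ 2 * M ^ 2 * B ^ 2 * s ^ 2) := by ring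
  rw [e2] at hn
  calc C * (‖∫ u, F u * conj (F u)‖ + b ^ 3 / a * (K ^ 2 * M ^ 2 * B ^ 2 * s ^ 2) * Y ^ τ')
      ≤ C * (Real.pi ^ 2 * b ^ 2 * (K ^ 2 * M ^ 2 * B ^ 2 * s ^ 2) * (1 + B) ^ τ +
          b ^ 3 / a * (K ^ 2 * M ^ 2 * B ^ 2 * s ^ 2) * ((2 + 2 * b) ^ τ' * (1 + B) ^ τ)) := by
        gcongr
        refine hn.trans ?_
        have : 0 ≤ Real.pi ^ 2 * b ^ 2 * (K ^ 2 * M ^ 2 * B ^ 2 * s ^ 2) := by positivity
        nlinarith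
    _ = _ := by ring

end Crest.Agent.R012.Gram858
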