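import Crest.Agent.R012.K1_384
import Crest.Agent.R012.NormB_858
import Crest.Agent.R012.Sym6_645
import Crest.Agent.R012.SymK_645

/-!
# Row 12, (N) and K1: the norm bound in the form `NB cutE`, and `K1_Prop` with no hypothesis.
-/

set_option autoImplicit false

noncomputable section

open MeasureTheory Set Filter Complex
open scoped ENNReal Topology ContDiff

namespace Crest.Agent.R012.Gram858

open Crest.Agent.R012 Crest.Agent.R012.K695 Crest.Agent.R012.ML384

/-- **(N)** in the form used by `K1_384`. -/
theorem nb_cutE : NB cutE := by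
  intro a b l τ ha hab hτ
  obtain ⟨C, hC, h⟩ := norm_bound Sym645.syAPI Sym645.syFacts
    (w := cut) (contDiff_infty.mp cut_contDiff 2) (α := 1 / 2) (β := 9 / 2)
    (by norm_num) (by norm_num) (fun x hx => cut_supp hx) cut_nonneg ha hab hτ
  refine ⟨C / 16, by positivity, ?_⟩
  intro K L T om B φ hK hL hT hB hom hφ hφs hφL hcase
  have hT0 : 0 < T := by linarith
  have h1 := h l K L (1 / (4 * T)) B om φ hom.cont.measurable hom.bd hom.supp hcase
    hφ.measurable hφL hφs hB (by positivity) (by
      rw [div_le_one (by positivity)]; linarith)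
  refine le_trans (le_of_eq rfl) (h1.trans (le_of_eq ?_))
  congr 1
  field_simp
  ring

/-- **K1**, no hypotheses. -/
theorem k1 : K1_Prop := K1_of_NB nb_cutE

end Crest.Agent.R012.Gram858
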