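import Crest.Agent.R012.ThetaFE_131

/-!
# Row 12, item MTH (part 5): from the weighted sums `Σ g̃(h,d) φ_b(N(d)/D)` to `ThAs`
-/

set_option autoImplicit false

noncomputable section

open MeasureTheory Complex Set Filter Topology

namespace Crest.Agent.R012.Theta131

open Crest.Agent.R012 Crest.Agent.R012.Eis Crest.Agent.R012.Poisson381

/-- `φ_b(x) = x^(-1/2) exp(-x - b/x)` -/
def phi (b x : ℝ) : ℝ := x ^ (-(1 / 2) : ℝ) * Real.exp (-x - b / x)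

open Classical in
/-- `Σ_{d primary} g(h,d)/√N(d) φ_b(N(d)/D)` -/
def Ph (b D : ℝ) (h : Eis) : ℂ :=
  ∑' d : Eis, (if IsPrim d then
    gs h d / ((Real.sqrt (nm d) : ℝ) : ℂ) * ((phi b (nm d / D) : ℝ) : ℂ) else 0)

/-- the asymptotics for the weights `φ_b`, with constants. -/
def PhiAs (ρ : Eis → ℂ) : Prop :=
  ∀ b0 : ℝ, 0 < b0 → ∃ K θ : ℝ, θ < 5 / 6 ∧ ∀ b : ℝ, b0 ≤ b → ∀ D : ℝ, 1 ≤ D → ∀ h : Eis, h ≠ 0 →
    ‖Ph b D h - ρ h * (((∫ x in Ioi (0 : ℝ), phi b x * x ^ (-(1 / 6) : ℝ)) * D ^ (5 / 6 : ℝ) : ℝ) : ℂ)‖ ≤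
      K * (1 + nm h : ℝ) ^ K * Real.exp (-Real.sqrt b) * D ^ θ

lemma Tk_eq_Ph {Y D : ℝ} (hD : 0 < D) (k : Eis) :
    Tk (Y * D) D k = ((D ^ (-(1 / 2) : ℝ) : ℝ) : ℂ) * Ph (be0 * Y * nm k) D k := by
  classical
  unfold Tk Ph
  rw [← tsum_mul_left]
  refine tsum_congr fun d => ?_
  unfold tt
  by_cases hd : IsPrim d
  · rw [if_pos hd, if_pos hd]
    have hn : (0 : ℝ) < nm d := by exact_mod_cast nm_pos.2 hd.ne_zero
    have hs : 0 < Real.sqrt (nm d) := Real.sqrt_pos.mpr hn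
    unfold phi
    have e1 : -(nm d / D : ℝ) - be0 * (Y * D) * nm k / nm d =
        -(nm d / D : ℝ) - be0 * Y * nm k / (nm d / D) := by
      field_simp
    have e2 : D ^ (-(1 / 2) : ℝ) * (nm d / D : ℝ) ^ (-(1 / 2) : ℝ) = (Real.sqrt (nm d))⁻¹ := by
      rw [Real.div_rpow hn.le hD.le, Real.rpow_neg hn.le, Real.sqrt_eq_rpow]
      have := Real.rpow_pos_of_pos hD (-(1 / 2) : ℝ)
      field_simp
    have e3 : (nm d : ℂ) = ((Real.sqrt (nm d) : ℝ) : ℂ) * ((Real.sqrt (nm d) : ℝ) : ℂ) := by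
      rw [← Complex.ofReal_mul, Real.mul_self_sqrt hn.le]
      push_cast; rfl
    rw [e1]
    have hs' : ((Real.sqrt (nm d) : ℝ) : ℂ) ≠ 0 := by exact_mod_cast hs.ne'
    calc gs k d / (nm d : ℂ) * ((Real.exp (-(nm d / D : ℝ) - be0 * Y * nm k / (nm d / D)) : ℝ) : ℂ)
        = gs k d / ((Real.sqrt (nm d) : ℝ) : ℂ) * ((((Real.sqrt (nm d))⁻¹ : ℝ) : ℂ) *
          ((Real.exp (-(nm d / D : ℝ) - be0 * Y * nm k / (nm d / D)) : ℝ) : ℂ)) := by
          rw [e3]; push_cast; field_simp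
      _ = _ := by rw [← e2]; push_cast; ring
  · rw [if_neg hd, if_neg hd, mul_zero]

lemma int_phi (b : ℝ) : ∫ x in Ioi (0 : ℝ), phi b x * x ^ (-(1 / 6) : ℝ) =
    ∫ x in Ioi (0 : ℝ), x ^ (-(2 / 3) : ℝ) * Real.exp (-x - b / x) := by
  refine setIntegral_congr_fun measurableSet_Ioi fun x hx => ?_
  have hx' : 0 < x := hx
  unfold phi
  have : x ^ (-(2 / 3) : ℝ) = x ^ (-(1 / 2) : ℝ) * x ^ (-(1 / 6) : ℝ) := by
    rw [← Real.rpow_add hx']; norm_num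
  rw [this]
  ring

lemma exp_neg_sqrt_le (c : ℝ) (hc : 0 < c) (m : ℕ) : ∃ C : ℝ, 0 < C ∧ ∀ x : ℝ, 0 ≤ x →
    Real.exp (-Real.sqrt (c * x)) ≤ C * ((1 + x) ^ m)⁻¹ := by
  refine ⟨2 ^ m * (1 + (Nat.factorial (2 * m)) / c ^ m), by positivity, fun x hx => ?_⟩
  have h1 : (Real.sqrt (c * x)) ^ (2 * m) / Nat.factorial (2 * m) ≤ Real.exp (Real.sqrt (c * x)) :=
    Real.pow_div_factorial_le_exp _ (by positivity) _
  have h2 : (Real.sqrt (c * x)) ^ (2 * m) = c ^ m * x ^ m := by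
    rw [pow_mul, Real.sq_sqrt (by positivity), mul_pow]
  have h3 : 1 ≤ Real.exp (Real.sqrt (c * x)) := by rw [Real.one_le_exp_iff]; positivity
  rw [h2] at h1
  have h4 : x ^ m ≤ Nat.factorial (2 * m) / c ^ m * Real.exp (Real.sqrt (c * x)) := by
    have hf : (0 : ℝ) < Nat.factorial (2 * m) := by positivity
    rw [div_le_iff₀ hf] at h1
    rw [div_mul_eq_mul_div, le_div_iff₀ (by positivity)]
    linarith
  have h5 : (1 + x) ^ m ≤ 2 ^ m * (1 + x ^ m) := by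
    rcases le_total x 1 with h | h
    · calc (1 + x) ^ m ≤ 2 ^ m := pow_le_pow_left₀ (by positivity) (by linarith) m
        _ ≤ 2 ^ m * (1 + x ^ m) := by
          have : 0 ≤ x ^ m := by positivity
          nlinarith [pow_pos (show (0 : ℝ) < 2 by norm_num) m]
    · calc (1 + x) ^ m ≤ (2 * x) ^ m := pow_le_pow_left₀ (by positivity) (by linarith) m
        _ = 2 ^ m * x ^ m := mul_pow _ _ _
        _ ≤ 2 ^ m * (1 + x ^ m) := by
          nlinarith [pow_pos (show (0 : ℝ) < 2 by norm_num) m]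
  rw [Real.exp_neg, ← div_eq_mul_inv, le_div_iff₀ (by positivity), inv_mul_le_iff₀ (Real.exp_pos _)]
  calc (1 + x) ^ m ≤ 2 ^ m * (1 + x ^ m) := h5
    _ ≤ 2 ^ m * (Real.exp (Real.sqrt (c * x)) +
        Nat.factorial (2 * m) / c ^ m * Real.exp (Real.sqrt (c * x))) := by gcongr
    _ = _ := by ring

lemma summable_nm_two : Summable fun k : Eis => ((1 + nm k : ℝ) ^ 2)⁻¹ := by
  have h0 := (summable_eis (b := 4) (by norm_num)).mul_left 4
  refine Summable.of_nonneg_of_le (fun k => by positivity) (fun k => ?_) h0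
  have hn : (0 : ℝ) ≤ nm k := by positivity
  have h1 : (0 : ℝ) < 1 + ‖toC k‖ := by positivity
  rw [Real.rpow_neg h1.le, ← div_eq_mul_inv, ← one_div, div_le_div_iff₀ (by positivity)
    (Real.rpow_pos_of_pos h1 4)]
  have h4 : (1 + ‖toC k‖) ^ (4 : ℝ) = (1 + ‖toC k‖) ^ 4 := by
    rw [← Real.rpow_natCast]; norm_num
  rw [h4]
  have h5 : ‖toC k‖ ^ 2 = nm k := norm_toC_sq k
  have h6 : (1 + ‖toC k‖) ^ 2 ≤ 2 * (1 + nm k) := by nlinarith [sq_nonneg (‖toC k‖ - 1)]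
  have h8 := pow_le_pow_left₀ (by positivity) h6 2
  nlinarith

/-- the error coefficients -/
lemma summable_err (K c : ℝ) (hc : 0 < c) :
    Summable fun k : Eis => |K| * (1 + nm k : ℝ) ^ K * Real.exp (-Real.sqrt (c * nm k)) := by
  obtain ⟨m, hm⟩ := exists_nat_ge (K + 2)
  obtain ⟨C, hC, hb⟩ := exp_neg_sqrt_le c hc m
  refine Summable.of_nonneg_of_le (fun k => by positivity) (fun k => ?_)
    (summable_nm_two.mul_left (|K| * C))
  have hn : (0 : ℝ) ≤ nm k := by positivity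
  have h1 : (1 : ℝ) ≤ 1 + nm k := by linarith
  have h2 := hb (nm k) hn
  have h3 : (1 + nm k : ℝ) ^ K * ((1 + nm k : ℝ) ^ m)⁻¹ ≤ ((1 + nm k : ℝ) ^ 2)⁻¹ := by
    rw [← Real.rpow_natCast, ← Real.rpow_natCast, ← Real.rpow_neg (by positivity),
      ← Real.rpow_neg (by positivity), ← Real.rpow_add (by positivity)]
    apply Real.rpow_le_rpow_of_exponent_le h1
    push_cast
    linarith
  calc |K| * (1 + nm k : ℝ) ^ K * Real.exp (-Real.sqrt (c * nm k))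
      ≤ |K| * (1 + nm k : ℝ) ^ K * (C * ((1 + nm k : ℝ) ^ m)⁻¹) := by gcongr
    _ = |K| * C * ((1 + nm k : ℝ) ^ K * ((1 + nm k : ℝ) ^ m)⁻¹) := by ring
    _ ≤ |K| * C * ((1 + nm k : ℝ) ^ 2)⁻¹ := by gcongr

theorem ThAs_of_PhiAs {ρ : Eis → ℂ} (H : PhiAs ρ) : ThAs ρ := by
  have key : ∀ Y : ℝ, 0 < Y → ∃ K θ : ℝ, θ < 0 ∧ ∀ D : ℝ, 1 ≤ D → ∀ h : Eis, h ≠ 0 →
      ‖Tk (Y * D) D h / ((D ^ (1 / 3 : ℝ) : ℝ) : ℂ) - ρ h * ((Jt (Y * nm h) : ℝ) : ℂ)‖ ≤
        |K| * (1 + nm h : ℝ) ^ K * Real.exp (-Real.sqrt (be0 * Y * nm h)) * D ^ θ := by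
    intro Y hY
    have hb := be0_pos
    obtain ⟨K, θ, hθ, hK⟩ := H (be0 * Y) (by positivity)
    refine ⟨K, θ - 5 / 6, by linarith, fun D hD h hh => ?_⟩
    have hD0 : 0 < D := by linarith
    have hn : (1 : ℝ) ≤ nm h := by exact_mod_cast nm_pos.2 hh
    have hb1 : be0 * Y ≤ be0 * Y * nm h := by
      have : 0 < be0 * Y := by positivity
      nlinarith
    have h1 := hK _ hb1 D hD h hh
    have h13 : 0 < D ^ (1 / 3 : ℝ) := Real.rpow_pos_of_pos hD0 _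
    have h56 : 0 < D ^ (-(5 / 6) : ℝ) := Real.rpow_pos_of_pos hD0 _
    have eJ : (∫ x in Ioi (0 : ℝ), phi (be0 * Y * nm h) x * x ^ (-(1 / 6) : ℝ)) = Jt (Y * nm h) := by
      rw [int_phi]
      unfold Jt
      simp only [mul_assoc]
    rw [eJ] at h1
    have e1 : Tk (Y * D) D h / ((D ^ (1 / 3 : ℝ) : ℝ) : ℂ) - ρ h * ((Jt (Y * nm h) : ℝ) : ℂ) =
        ((D ^ (-(5 / 6) : ℝ) : ℝ) : ℂ) * (Ph (be0 * Y * nm h) D h -
          ρ h * ((Jt (Y * nm h) * D ^ (5 / 6 : ℝ) : ℝ) : ℂ)) := by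
      rw [Tk_eq_Ph hD0]
      have e2 : D ^ (-(1 / 2) : ℝ) = D ^ (-(5 / 6) : ℝ) * D ^ (1 / 3 : ℝ) := by
        rw [← Real.rpow_add hD0]; norm_num
      have e3 : D ^ (-(5 / 6) : ℝ) * D ^ (5 / 6 : ℝ) = 1 := by
        rw [← Real.rpow_add hD0]; norm_num
      have e4 : ((D ^ (-(5 / 6) : ℝ) : ℝ) : ℂ) * ((D ^ (5 / 6 : ℝ) : ℝ) : ℂ) = 1 := by
        rw [← Complex.ofReal_mul, e3, Complex.ofReal_one]
      have h13' : ((D ^ (1 / 3 : ℝ) : ℝ) : ℂ) ≠ 0 := by exact_mod_cast h13.ne'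
      rw [e2]
      push_cast
      rw [mul_sub]
      congr 1
      · field_simp
      · calc ρ h * ((Jt (Y * nm h) : ℝ) : ℂ) = ρ h * ((Jt (Y * nm h) : ℝ) : ℂ) *
              (((D ^ (-(5 / 6) : ℝ) : ℝ) : ℂ) * ((D ^ (5 / 6 : ℝ) : ℝ) : ℂ)) := by
              rw [e4, mul_one]
          _ = _ := by ring
    rw [e1, norm_mul, Complex.norm_real, Real.norm_of_nonneg h56.le]
    have e5 : D ^ (-(5 / 6) : ℝ) * D ^ θ = D ^ (θ - 5 / 6) := by
      rw [← Real.rpow_add hD0]; congr 1; ring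
    calc D ^ (-(5 / 6) : ℝ) * _ ≤ D ^ (-(5 / 6) : ℝ) *
          (K * (1 + nm h : ℝ) ^ K * Real.exp (-Real.sqrt (be0 * Y * nm h)) * D ^ θ) := by
          gcongr
      _ ≤ D ^ (-(5 / 6) : ℝ) *
          (|K| * (1 + nm h : ℝ) ^ K * Real.exp (-Real.sqrt (be0 * Y * nm h)) * D ^ θ) := by
          gcongr
          exact le_abs_self K
      _ = |K| * (1 + nm h : ℝ) ^ K * Real.exp (-Real.sqrt (be0 * Y * nm h)) *
          (D ^ (-(5 / 6) : ℝ) * D ^ θ) := by ring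
      _ = _ := by rw [e5]
  constructor
  · intro Y hY k hk
    obtain ⟨K, θ, hθ, hK⟩ := key Y hY
    rw [tendsto_iff_norm_sub_tendsto_zero]
    have h1 : Tendsto (fun D : ℝ => |K| * (1 + nm k : ℝ) ^ K *
        Real.exp (-Real.sqrt (be0 * Y * nm k)) * D ^ θ) atTop
        (𝓝 (|K| * (1 + nm k : ℝ) ^ K * Real.exp (-Real.sqrt (be0 * Y * nm k)) * 0)) := by
      have h2 := tendsto_rpow_neg_atTop (y := -θ) (by linarith)
      rw [neg_neg] at h2
      exact h2.const_mul _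
    rw [mul_zero] at h1
    refine squeeze_zero' (Eventually.of_forall fun _ => norm_nonneg _) ?_ h1
    filter_upwards [eventually_ge_atTop 1] with D hD
    exact hK D hD k hk
  · intro Y hY
    have hb := be0_pos
    obtain ⟨K, θ, hθ, hK⟩ := key Y hY
    set E : Eis → ℝ := fun k => |K| * (1 + nm k : ℝ) ^ K * Real.exp (-Real.sqrt (be0 * Y * nm k)) with hE
    have hEs : Summable E := summable_err K (be0 * Y) (by positivity)
    set B : ℝ := ∑' d : Eis, ex (2 * 1) d with hB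
    set r : ℝ := be0 * Y / 2 with hr
    have hms : Summable (mk r) := summable_mk (by positivity)
    refine ⟨fun k => (B * mk r k + E k) + E k, ((hms.mul_left B).add hEs).add hEs, ?_⟩
    have hT1 : ∀ k : Eis, ‖Tk (Y * 1) 1 k‖ ≤ B * mk r k := by
      intro k
      have h1 : ∀ d : Eis, ‖tt (Y * 1) 1 k d‖ ≤ ex (2 * 1) d * mk r k := by
        intro d
        have := norm_tt_le (C := Y * 1) (D := 1) (by positivity) one_pos k d
        rw [hr]
        convert this using 3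
        ring
      have h2 : Summable fun d : Eis => ex (2 * 1) d * mk r k :=
        (summable_ex (by norm_num)).mul_right _
      unfold Tk
      refine (norm_tsum_le_tsum_norm (Summable.of_nonneg_of_le (fun _ => norm_nonneg _) h1 h2)).trans ?_
      rw [hB, ← tsum_mul_right]
      exact Summable.tsum_le_tsum h1 (Summable.of_nonneg_of_le (fun _ => norm_nonneg _) h1 h2) h2
    intro D hD k hk
    have h1 := hK D hD k hk
    have h2 := hK 1 le_rfl k hk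
    rw [Real.one_rpow, mul_one, Real.one_rpow, Complex.ofReal_one, div_one] at h2
    have hE0 : 0 ≤ E k := by rw [hE]; positivity
    have h3 : D ^ θ ≤ 1 := Real.rpow_le_one_of_one_le_of_nonpos hD hθ.le
    have h4 : |K| * (1 + nm k : ℝ) ^ K * Real.exp (-Real.sqrt (be0 * Y * nm k)) * D ^ θ ≤ E k := by
      calc _ = E k * D ^ θ := rfl
        _ ≤ E k * 1 := by gcongr
        _ = E k := mul_one _
    have h5 : ‖ρ k * ((Jt (Y * nm k) : ℝ) : ℂ)‖ ≤ B * mk r k + E k := by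
      have h6 := norm_sub_norm_le (ρ k * ((Jt (Y * nm k) : ℝ) : ℂ)) (Tk (Y * 1) 1 k)
      rw [norm_sub_rev] at h6
      have h7 := hT1 k
      rw [mul_one] at h6 h7
      have h8 : E k = |K| * (1 + nm k : ℝ) ^ K * Real.exp (-Real.sqrt (be0 * Y * nm k)) := rfl
      linarith
    have h9 := norm_sub_norm_le (Tk (Y * D) D k / ((D ^ (1 / 3 : ℝ) : ℝ) : ℂ))
      (ρ k * ((Jt (Y * nm k) : ℝ) : ℂ))
    linarith

end Crest.Agent.R012.Theta131
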