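import Crest.Agent.R012.MSgenD_49
import Crest.Agent.R012.ThetaDom_131

/-!
# Row 12, item MTH: `PhiAs` (hence `ThAs`) from the mean square theorem `MS` with general weights
-/

set_option autoImplicit false

noncomputable section

open MeasureTheory Complex Set Filter Topology

namespace Crest.Agent.R012.PhiAs858

open Crest.Agent.R012 Crest.Agent.R012.Eis Crest.Agent.R012.Theta131 Crest.Agent.R012.MSgen49

/-! ### polynomial times exponential -/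

lemma pow_mul_exp_le (n : ℕ) {c : ℝ} (hc : 0 < c) : ∃ C : ℝ, 0 < C ∧ ∀ t : ℝ, 0 ≤ t →
    (1 + t) ^ n * Real.exp (-(c * t)) ≤ C := by
  refine ⟨n.factorial / c ^ n * Real.exp c, by positivity, fun t ht => ?_⟩
  have h1 : (c * (1 + t)) ^ n / n.factorial ≤ Real.exp (c * (1 + t)) :=
    Real.pow_div_factorial_le_exp _ (by positivity) _
  have hf : (0 : ℝ) < n.factorial := by positivity
  have hcn : (0 : ℝ) < c ^ n := by positivity
  rw [div_le_iff₀ hf, mul_pow] at h1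
  have h2 : (1 + t) ^ n ≤ n.factorial / c ^ n * Real.exp (c * (1 + t)) := by
    rw [div_mul_eq_mul_div, le_div_iff₀ hcn]
    linarith
  calc (1 + t) ^ n * Real.exp (-(c * t))
      ≤ (n.factorial / c ^ n * Real.exp (c * (1 + t))) * Real.exp (-(c * t)) := by gcongr
    _ = n.factorial / c ^ n * Real.exp c := by
      rw [mul_assoc, ← Real.exp_add]
      congr 2
      ring

/-! ### the chain of derivatives -/

/-- `E(u) = exp(-u/2 - e^u - b e^(-u))` -/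
def EE0 (b u : ℝ) : ℝ := Real.exp (-(1 / 2) * u - Real.exp u - b * Real.exp (-u))

def g0 (b u : ℝ) : ℝ := -(1 / 2) - Real.exp u + b * Real.exp (-u)
def g1 (b u : ℝ) : ℝ := -Real.exp u - b * Real.exp (-u)
def g2 (b u : ℝ) : ℝ := -Real.exp u + b * Real.exp (-u)

def E1 (b u : ℝ) : ℝ := g0 b u * EE0 b u
def E2 (b u : ℝ) : ℝ := (g1 b u + g0 b u ^ 2) * EE0 b u
def E3 (b u : ℝ) : ℝ := (g2 b u + 3 * (g0 b u * g1 b u) + g0 b u ^ 3) * EE0 b u

lemma hd_neg (u : ℝ) : HasDerivAt (fun u : ℝ => Real.exp (-u)) (-Real.exp (-u)) u := by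
  have := (hasDerivAt_neg u).exp
  simpa using this

lemma hd_E0 (b u : ℝ) : HasDerivAt (EE0 b) (E1 b u) u := by
  have h1 : HasDerivAt (fun u : ℝ => -(1 / 2) * u - Real.exp u - b * Real.exp (-u))
      (-(1 / 2) * 1 - Real.exp u - b * (-Real.exp (-u))) u :=
    (((hasDerivAt_id u).const_mul _).sub (Real.hasDerivAt_exp u)).sub ((hd_neg u).const_mul b)
  have h2 := h1.exp
  unfold EE0 E1
  convert h2 using 1
  unfold EE0 g0
  ring

lemma hd_g0 (b u : ℝ) : HasDerivAt (g0 b) (g1 b u) u := by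
  have h1 : HasDerivAt (fun u : ℝ => -(1 / 2) - Real.exp u + b * Real.exp (-u))
      (0 - Real.exp u + b * (-Real.exp (-u))) u :=
    ((hasDerivAt_const u _).sub (Real.hasDerivAt_exp u)).add ((hd_neg u).const_mul b)
  unfold g0 g1
  convert h1 using 1
  ring

lemma hd_g1 (b u : ℝ) : HasDerivAt (g1 b) (g2 b u) u := by
  have h1 : HasDerivAt (fun u : ℝ => -Real.exp u - b * Real.exp (-u))
      (-Real.exp u - b * (-Real.exp (-u))) u :=
    ((Real.hasDerivAt_exp u).neg).sub ((hd_neg u).const_mul b)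
  unfold g1 g2
  convert h1 using 1
  ring

lemma hd_E1 (b u : ℝ) : HasDerivAt (E1 b) (E2 b u) u := by
  have h := (hd_g0 b u).mul (hd_E0 b u)
  refine h.congr_deriv ?_
  unfold E2 E1
  ring

lemma hd_E2 (b u : ℝ) : HasDerivAt (E2 b) (E3 b u) u := by
  have h := ((hd_g1 b u).add ((hd_g0 b u).pow 2)).mul (hd_E0 b u)
  refine h.congr_deriv ?_
  unfold E3 E1
  simp only [Pi.add_apply, Pi.pow_apply, Nat.cast_ofNat]
  ring

lemma cont_E3 (b : ℝ) : Continuous (E3 b) := by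
  unfold E3 EE0 g0 g1 g2
  fun_prop

/-- the chain -/
def DD (b : ℝ) : ℕ → ℝ → ℂ
  | 0 => fun u => (EE0 b u : ℂ)
  | 1 => fun u => (E1 b u : ℂ)
  | 2 => fun u => (E2 b u : ℂ)
  | _ => fun u => (E3 b u : ℂ)

lemma abs_bounds {b : ℝ} (hb : 0 ≤ b) (u : ℝ) :
    |g0 b u| ≤ 1 + (Real.exp u + b * Real.exp (-u)) ∧
    |g1 b u| ≤ 1 + (Real.exp u + b * Real.exp (-u)) ∧
    |g2 b u| ≤ 1 + (Real.exp u + b * Real.exp (-u)) := by
  have h1 := Real.exp_pos u
  have h2 : 0 ≤ b * Real.exp (-u) := by positivity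
  unfold g0 g1 g2
  refine ⟨?_, ?_, ?_⟩ <;> rw [abs_le] <;> constructor <;> linarith

lemma poly_bounds {b : ℝ} (hb : 0 ≤ b) (u : ℝ) (j : ℕ) :
    ‖DD b j u‖ ≤ 5 * (1 + (Real.exp u + b * Real.exp (-u))) ^ 3 * EE0 b u := by
  set y : ℝ := 1 + (Real.exp u + b * Real.exp (-u)) with hy
  have hy1 : 1 ≤ y := by
    have h1 := Real.exp_pos u
    have h2 : 0 ≤ b * Real.exp (-u) := by positivity
    linarith
  obtain ⟨h0, h1, h2⟩ := abs_bounds hb u
  rw [← hy] at h0 h1 h2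
  have hE : 0 < EE0 b u := Real.exp_pos _
  have hy2 : y ≤ y ^ 2 := by nlinarith
  have hy3 : y ^ 2 ≤ y ^ 3 := by nlinarith [sq_nonneg y]
  have key : ∀ p : ℝ, |p| ≤ 5 * y ^ 3 → ‖((p * EE0 b u : ℝ) : ℂ)‖ ≤ 5 * y ^ 3 * EE0 b u := by
    intro p hp
    rw [Complex.norm_real, norm_mul, Real.norm_eq_abs, Real.norm_eq_abs, abs_of_pos hE]
    gcongr
  have h02 : |g0 b u ^ 2| ≤ y ^ 2 := by
    rw [abs_pow]; exact pow_le_pow_left₀ (abs_nonneg _) h0 2
  have h03 : |g0 b u ^ 3| ≤ y ^ 3 := by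
    rw [abs_pow]; exact pow_le_pow_left₀ (abs_nonneg _) h0 3
  have h01 : |g0 b u * g1 b u| ≤ y ^ 2 := by
    rw [abs_mul, sq]; exact mul_le_mul h0 h1 (abs_nonneg _) (by linarith)
  match j with
  | 0 =>
    have := key 1 (by rw [abs_one]; linarith)
    simpa [DD] using this
  | 1 => exact key _ (by linarith)
  | 2 =>
    refine key _ ((abs_add_le _ _).trans ?_)
    linarith
  | (n + 3) =>
    refine key _ ((abs_add_le _ _).trans ?_)
    have := abs_add_le (g2 b u) (3 * (g0 b u * g1 b u))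
    rw [abs_mul 3, abs_of_pos (show (0 : ℝ) < 3 by norm_num)] at this
    linarith

lemma EE0_eq (b u : ℝ) : EE0 b u = Real.exp (-(1 / 2) * u) *
    Real.exp (-(Real.exp u + b * Real.exp (-u))) := by
  unfold EE0
  rw [← Real.exp_add]
  congr 1
  ring

/-- uniform bound with the envelope. -/
lemma env_bound {b0 : ℝ} (hb0 : 0 < b0) : ∃ C : ℝ, 0 < C ∧ ∀ b : ℝ, b0 ≤ b → ∀ u : ℝ,
    5 * (1 + (Real.exp u + b * Real.exp (-u))) ^ 3 * EE0 b u ≤
      C * Real.exp (-Real.sqrt b) * env u := by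
  obtain ⟨C1, hC1, h1⟩ := pow_mul_exp_le 3 (show (0 : ℝ) < 1 / 4 by norm_num)
  obtain ⟨C2, hC2, h2⟩ := pow_mul_exp_le 2 (show (0 : ℝ) < 1 / 4 by norm_num)
  obtain ⟨C3, hC3, h3⟩ := pow_mul_exp_le 1 (show (0 : ℝ) < b0 / 4 by positivity)
  refine ⟨5 * C1 * C2 * C3, by positivity, fun b hb u => ?_⟩
  have hb' : 0 < b := by linarith
  set x : ℝ := Real.exp u with hx
  have hx0 : 0 < x := Real.exp_pos u
  have hxi : Real.exp (-u) = x⁻¹ := Real.exp_neg u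
  rw [EE0_eq, ← hx, hxi]
  set y : ℝ := x + b * x⁻¹ with hy
  have hy0 : 0 ≤ y := by positivity
  -- AM-GM
  have hamgm : 2 * Real.sqrt b ≤ y := by
    have hs : Real.sqrt b * Real.sqrt b = b := Real.mul_self_sqrt hb'.le
    have h : 0 ≤ (x - Real.sqrt b) ^ 2 * x⁻¹ := by positivity
    have h' : (x - Real.sqrt b) ^ 2 * x⁻¹ =
        x - 2 * Real.sqrt b + (Real.sqrt b * Real.sqrt b) * x⁻¹ := by
      field_simp
      ring
    rw [hs] at h'
    linarith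
  have e1 : Real.exp (-y) ≤ Real.exp (-Real.sqrt b) *
      (Real.exp (-(1 / 4 * y)) * (Real.exp (-(1 / 4 * x)) * Real.exp (-(b0 / 4 * x⁻¹)))) := by
    rw [← Real.exp_add, ← Real.exp_add, ← Real.exp_add]
    apply Real.exp_le_exp.mpr
    have : b0 * x⁻¹ ≤ b * x⁻¹ := by gcongr
    have h5 : y = x + b * x⁻¹ := hy
    linarith
  have e2 : Real.exp (-(1 / 2) * u) ≤ 1 + x⁻¹ := by
    rw [← hxi]
    rcases le_total 0 u with h | h
    · have : Real.exp (-(1 / 2) * u) ≤ Real.exp 0 := Real.exp_le_exp.mpr (by linarith)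
      rw [Real.exp_zero] at this
      linarith [Real.exp_pos (-u)]
    · have : Real.exp (-(1 / 2) * u) ≤ Real.exp (-u) := Real.exp_le_exp.mpr (by linarith)
      linarith
  have e3 : 1 ≤ (1 + x) ^ 2 * env u := by
    unfold env
    rw [← hx, mul_div_cancel₀ _ (by positivity)]
    exact Real.one_le_rpow (by linarith [Real.exp_pos (-u)]) (by norm_num)
  have f1 := h1 y hy0
  have f2 := h2 x hx0.le
  have f3 := h3 x⁻¹ (by positivity)
  rw [pow_one] at f3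
  have henv := env_pos u
  calc 5 * (1 + y) ^ 3 * (Real.exp (-(1 / 2) * u) * Real.exp (-y))
      ≤ 5 * (1 + y) ^ 3 * ((1 + x⁻¹) * (Real.exp (-Real.sqrt b) *
        (Real.exp (-(1 / 4 * y)) * (Real.exp (-(1 / 4 * x)) * Real.exp (-(b0 / 4 * x⁻¹)))))) := by
        gcongr
    _ = 5 * ((1 + y) ^ 3 * Real.exp (-(1 / 4 * y))) * ((1 + x⁻¹) * Real.exp (-(b0 / 4 * x⁻¹))) *
        (Real.exp (-(1 / 4 * x)) * 1) * Real.exp (-Real.sqrt b) := by ring
    _ ≤ 5 * C1 * C3 * (Real.exp (-(1 / 4 * x)) * ((1 + x) ^ 2 * env u)) *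
        Real.exp (-Real.sqrt b) := by
        gcongr
    _ = 5 * C1 * C3 * ((1 + x) ^ 2 * Real.exp (-(1 / 4 * x))) * env u *
        Real.exp (-Real.sqrt b) := by ring
    _ ≤ 5 * C1 * C3 * C2 * env u * Real.exp (-Real.sqrt b) := by gcongr
    _ = _ := by ring

lemma phi_exp (b u : ℝ) : phi b (Real.exp u) = EE0 b u := by
  unfold phi EE0
  rw [← Real.exp_mul, ← Real.exp_add]
  congr 1
  rw [Real.exp_neg]
  field_simp
  ring

/-- **the weights `φ_b` are admissible**, uniformly for `b ≥ b₀`. -/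
theorem logW_phi {b0 : ℝ} (hb0 : 0 < b0) : ∃ C : ℝ, 0 < C ∧ ∀ b : ℝ, b0 ≤ b →
    LogW (fun u => ((phi b (Real.exp u) : ℝ) : ℂ)) (C * Real.exp (-Real.sqrt b)) := by
  obtain ⟨C, hC, h⟩ := env_bound hb0
  refine ⟨C, hC, fun b hb => ⟨DD b, ?_, ?_, ?_, ?_⟩⟩
  · funext u
    simp only [DD, phi_exp]
  · intro j hj u
    interval_cases j
    · exact (hd_E0 b u).ofReal_comp
    · exact (hd_E1 b u).ofReal_comp
    · exact (hd_E2 b u).ofReal_comp
  · exact Complex.continuous_ofReal.comp (cont_E3 b)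
  · intro j _ u
    exact (poly_bounds (by linarith) u j).trans (h b hb u)

/-! ### the sums -/

lemma SS_eq_Ph (b D : ℝ) (h : Eis) :
    M49.SS 0 0 (fun x => ((phi b x : ℝ) : ℂ)) h D = Ph b D h := by
  unfold M49.SS Ph
  refine tsum_congr fun d => ?_
  by_cases hd : IsPrim d
  · rw [if_pos hd, if_pos hd]
    simp [ang]
  · rw [if_neg hd, if_neg hd]

lemma mellin_phi (b : ℝ) : mellin (fun x => ((phi b x : ℝ) : ℂ))
    ((5 : ℂ) / 6 + ((0 : ℝ) : ℂ) * Complex.I) =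
      ((∫ x in Ioi (0 : ℝ), phi b x * x ^ (-(1 / 6) : ℝ) : ℝ) : ℂ) := by
  rw [mellin, ← integral_complex_ofReal]
  refine setIntegral_congr_fun measurableSet_Ioi fun x hx => ?_
  have hx' : 0 < x := hx
  simp only [smul_eq_mul]
  rw [show (5 : ℂ) / 6 + ((0 : ℝ) : ℂ) * Complex.I - 1 = ((-(1 / 6) : ℝ) : ℂ) by
    push_cast; ring, ← Complex.ofReal_cpow hx'.le, ← Complex.ofReal_mul, mul_comm]

/-- **`PhiAs` from `MS`.** -/
theorem phiAs_of_MS {ρ : Eis → ℂ} (H : M49.MS ρ) : PhiAs ρ := by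
  intro b0 hb0
  obtain ⟨C, hC, hW⟩ := logW_phi hb0
  obtain ⟨C', hC', hM⟩ := MS_gen H 0 (δ := 1 / 2) (by norm_num)
  set A : ℝ := Real.sqrt (C' * C ^ 2 * 2) with hA
  refine ⟨A + 1, 3 / 4, by norm_num, fun b hb D hD h hh => ?_⟩
  have hn : 1 ≤ nm h := nm_pos.2 hh
  have hn' : (1 : ℝ) ≤ nm h := by exact_mod_cast hn
  have hD0 : 0 < D := by linarith
  have hA0 : 0 ≤ A := Real.sqrt_nonneg _
  have h1 := hM (fun x => ((phi b x : ℝ) : ℂ)) _ (hW b hb) (nm h) D 0 hn hD0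
  have h2 := (Finset.single_le_sum (f := fun h => ‖M49.SS 0 0 (fun x => ((phi b x : ℝ) : ℂ)) h D -
      (if (0 : ℤ) = 0 then
        ρ h * mellin (fun x => ((phi b x : ℝ) : ℂ)) ((5 : ℂ) / 6 + ((0 : ℝ) : ℂ) * Complex.I) *
          (D : ℂ) ^ ((5 : ℂ) / 6 + ((0 : ℝ) : ℂ) * Complex.I) else 0)‖ ^ 2)
    (fun i _ => sq_nonneg _) (mem_ball.mpr le_rfl : h ∈ ball (nm h))).trans h1
  simp only [if_true] at h2
  rw [SS_eq_Ph, mellin_phi] at h2
  have e1 : (D : ℂ) ^ ((5 : ℂ) / 6 + ((0 : ℝ) : ℂ) * Complex.I) = ((D ^ (5 / 6 : ℝ) : ℝ) : ℂ) := by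
    rw [show (5 : ℂ) / 6 + ((0 : ℝ) : ℂ) * Complex.I = ((5 / 6 : ℝ) : ℂ) by push_cast; ring,
      ← Complex.ofReal_cpow hD0.le]
  rw [e1, mul_assoc, ← Complex.ofReal_mul] at h2
  set Z : ℂ := Ph b D h - ρ h * (((∫ x in Ioi (0 : ℝ), phi b x * x ^ (-(1 / 6) : ℝ)) *
    D ^ (5 / 6 : ℝ) : ℝ) : ℂ) with hZ
  -- right-hand side
  have h3 : C' * (C * Real.exp (-Real.sqrt b)) ^ 2 *
      ((1 + |(0 : ℝ)|) * (1 + D) * (nm h : ℝ)) ^ (1 / 2 : ℝ) * (((nm h : ℝ) + 0 ^ 2) * D) ≤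
      (A * (nm h : ℝ) * Real.exp (-Real.sqrt b) * D ^ (3 / 4 : ℝ)) ^ 2 := by
    have hsq : A ^ 2 = C' * C ^ 2 * 2 := Real.sq_sqrt (by positivity)
    have g1 : ((1 + |(0 : ℝ)|) * (1 + D) * (nm h : ℝ)) ^ (1 / 2 : ℝ) ≤
        2 * (D ^ (1 / 2 : ℝ) * (nm h : ℝ)) := by
      rw [abs_zero, add_zero, one_mul]
      calc ((1 + D) * (nm h : ℝ)) ^ (1 / 2 : ℝ)
          ≤ ((2 * 2 * D) * ((nm h : ℝ) * nm h)) ^ (1 / 2 : ℝ) := by
            apply Real.rpow_le_rpow (by positivity) _ (by norm_num)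
            apply mul_le_mul _ _ (by positivity) (by positivity)
            · linarith
            · nlinarith
        _ = 2 * (D ^ (1 / 2 : ℝ) * (nm h : ℝ)) := by
            rw [Real.mul_rpow (by positivity) (by positivity),
              Real.mul_rpow (by norm_num) hD0.le, ← Real.sqrt_eq_rpow, ← Real.sqrt_eq_rpow,
              ← Real.sqrt_eq_rpow, Real.sqrt_mul_self (by norm_num),
              Real.sqrt_mul_self (by positivity)]
            ring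
    have g2 : (D ^ (3 / 4 : ℝ)) ^ 2 = D ^ (1 / 2 : ℝ) * D := by
      rw [← Real.rpow_natCast, ← Real.rpow_mul hD0.le]
      nth_rewrite 3 [← Real.rpow_one D]
      rw [← Real.rpow_add hD0]
      norm_num
    calc C' * (C * Real.exp (-Real.sqrt b)) ^ 2 *
        ((1 + |(0 : ℝ)|) * (1 + D) * (nm h : ℝ)) ^ (1 / 2 : ℝ) * (((nm h : ℝ) + 0 ^ 2) * D)
        ≤ C' * (C * Real.exp (-Real.sqrt b)) ^ 2 * (2 * (D ^ (1 / 2 : ℝ) * (nm h : ℝ))) *
          (((nm h : ℝ) + 0 ^ 2) * D) := by gcongr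
      _ = C' * C ^ 2 * 2 * ((nm h : ℝ) * Real.exp (-Real.sqrt b)) ^ 2 * (D ^ (1 / 2 : ℝ) * D) := by
          ring
      _ = _ := by rw [← hsq, ← g2]; ring
  have h4 : ‖Z‖ ≤ A * (nm h : ℝ) * Real.exp (-Real.sqrt b) * D ^ (3 / 4 : ℝ) :=
    le_of_sq_le_sq (h2.trans h3) (by positivity)
  refine h4.trans ?_
  have h5 : (nm h : ℝ) ≤ (1 + nm h : ℝ) ^ (A + 1) := by
    calc (nm h : ℝ) ≤ (1 + nm h : ℝ) ^ (1 : ℝ) := by rw [Real.rpow_one]; linarith
      _ ≤ _ := Real.rpow_le_rpow_of_exponent_le (by linarith) (by linarith)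
  gcongr
  linarith

/-- **`ThAs` from `MS`.** -/
theorem thAs_of_MS {ρ : Eis → ℂ} (H : M49.MS ρ) : ThAs ρ := ThAs_of_PhiAs (phiAs_of_MS H)

end Crest.Agent.R012.PhiAs858
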