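import Crest.Agent.R012.AddChar_666

/-!
# Row 12 (R3b): Gauss sums of multiplicative characters modulo `c` and the cubic Gauss sums `gs`, `G`

Part 1 (abstract): `IsCh c χ` : `χ : Eis → ℂ` is a character modulo `c`;
`gsum χ r c = Σ_{x mod c} χ(x) e(r x / c)`.

Part 2 (cubic): everything about `gs r c = Σ (x/c)_3 e(r x/c)` and `G c` that follows from the
basic facts `SyG` on the cubic symbol (proved in the `Sym` file):

* `gs_mul_of_coprime` : `gs (r u) c = conj (sy u c) * gs r c`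
* `gs_crt` : `gs r (c d) = sy c d * sy d c * (gs r c * gs r d)`
* `norm_gs_sq` : `‖gs r c‖² = nm c` (`c` squarefree primary, `(r,c)=1`)
* `gs_eq_zero_of_dvd` (`p ∥ c`, `p ∣ r`), `gs_eq_zero_of_sq_dvd` (`p² ∣ c`, `p ∤ r`)
* `G_mul` : `G (a b) = G a * G b * conj (sy a b)`, `norm_G` , `G_eq_zero`
* `gs_conj` : `gs (conj r) (conj c) = conj (gs r c)`.
-/

set_option autoImplicit false

noncomputable section

open Complex

namespace Crest.Agent.R012.Gauss880

open Crest.Agent.R012 Crest.Agent.R012.Eis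

/-! ### Part 1 : abstract characters -/

/-- `χ` is a (not necessarily primitive) character modulo `c`. -/
structure IsCh (c : Eis) (χ : Eis → ℂ) : Prop where
  one : χ 1 = 1
  mul : ∀ x y, χ (x * y) = χ x * χ y
  per : PMod c χ
  zero : ∀ x, ¬ IsCoprime x c → χ x = 0

/-- The Gauss sum. -/
def gsum (χ : Eis → ℂ) (r c : Eis) : ℂ :=
  sumMod c (fun x => χ x * eC (toC r * toC x / toC c))

lemma gs_eq_gsum (r c : Eis) : gs r c = gsum (fun x => sy x c) r c := rfl

variable {c d : Eis} {χ ψ : Eis → ℂ}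

lemma IsCh.pow (hχ : IsCh c χ) (x : Eis) (n : ℕ) : χ (x ^ n) = χ x ^ n := by
  induction n with
  | zero => simpa using hχ.one
  | succ n ih => rw [pow_succ, hχ.mul, ih, pow_succ]

lemma exists_pow_sub_one (hc : c ≠ 0) {x : Eis} (hx : IsCoprime x c) :
    ∃ n : ℕ, 0 < n ∧ c ∣ x ^ n - 1 := by
  have := finite_QE hc
  have hu : IsUnit (mkQ c x) := by
    obtain ⟨a, b, hab⟩ := hx
    refine IsUnit.of_mul_eq_one (mkQ c a) ?_
    rw [← map_mul, ← map_one (mkQ c), mkQ_eq_iff]
    exact ⟨-b, by linear_combination hab⟩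
  obtain ⟨u, hu⟩ := hu
  have hfo : IsOfFinOrder u := isOfFinOrder_of_finite u
  obtain ⟨n, hn, h⟩ := hfo.exists_pow_eq_one
  refine ⟨n, hn, ?_⟩
  rw [← mkQ_eq_iff, map_pow, map_one, ← hu, ← Units.val_pow_eq_pow_val, h, Units.val_one]

lemma IsCh.norm_eq_one (hχ : IsCh c χ) (hc : c ≠ 0) {x : Eis} (hx : IsCoprime x c) :
    ‖χ x‖ = 1 := by
  obtain ⟨n, hn, h⟩ := exists_pow_sub_one hc hx
  have h1 : χ x ^ n = 1 := by
    rw [← hχ.pow, hχ.per.congr h, hχ.one]
  exact norm_eq_one_of_pow_eq_one h1 hn.ne'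

lemma IsCh.norm_le_one (hχ : IsCh c χ) (hc : c ≠ 0) (x : Eis) : ‖χ x‖ ≤ 1 := by
  by_cases hx : IsCoprime x c
  · exact (hχ.norm_eq_one hc hx).le
  · rw [hχ.zero x hx]; simp

lemma IsCh.ne_zero (hχ : IsCh c χ) (hc : c ≠ 0) {x : Eis} (hx : IsCoprime x c) : χ x ≠ 0 := by
  intro h
  have := hχ.norm_eq_one hc hx
  rw [h] at this; simp at this

lemma IsCh.mul_conj_self (hχ : IsCh c χ) (hc : c ≠ 0) {x : Eis} (hx : IsCoprime x c) :
    χ x * (starRingEnd ℂ) (χ x) = 1 := by
  rw [Complex.mul_conj, Complex.normSq_eq_norm_sq, hχ.norm_eq_one hc hx]; simp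

lemma IsCh.conj (hχ : IsCh c χ) : IsCh c (fun x => (starRingEnd ℂ) (χ x)) where
  one := by rw [hχ.one, map_one]
  mul x y := by rw [hχ.mul, map_mul]
  per := hχ.per.comp _
  zero x hx := by rw [hχ.zero x hx, map_zero]

lemma IsCh.mul_same (hχ : IsCh c χ) (hψ : IsCh c ψ) : IsCh c (fun x => χ x * ψ x) where
  one := by rw [hχ.one, hψ.one, mul_one]
  mul x y := by rw [hχ.mul, hψ.mul]; ring
  per := hχ.per.mul hψ.per
  zero x hx := by rw [hχ.zero x hx, zero_mul]

/-- product of characters modulo `c` and `d` is a character modulo `c d`. -/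
lemma IsCh.mul_char (hχ : IsCh c χ) (hψ : IsCh d ψ) : IsCh (c * d) (fun x => χ x * ψ x) where
  one := by rw [hχ.one, hψ.one, mul_one]
  mul x y := by rw [hχ.mul, hψ.mul]; ring
  per := (hχ.per.mono (dvd_mul_right c d)).mul (hψ.per.mono (dvd_mul_left d c))
  zero x hx := by
    by_cases h1 : IsCoprime x c
    · by_cases h2 : IsCoprime x d
      · exact absurd (h1.mul_right h2) hx
      · rw [hψ.zero x h2, mul_zero]
    · rw [hχ.zero x h1, zero_mul]

lemma per_gsum (hχ : IsCh c χ) (r : Eis) :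
    PMod c (fun x => χ x * eC (toC r * toC x / toC c)) := hχ.per.mul (pmod_eC r c)

/-- periodicity in `r`. -/
lemma gsum_congr {r s : Eis} (h : c ∣ r - s) : gsum χ r c = gsum χ s c :=
  sumMod_congr fun x => by rw [eC_congr_left h]

lemma pmod_gsum : PMod c (fun r => gsum χ r c) := fun x t => gsum_congr (by simp)

/-- `g(r u) = conj χ(u) g(r)`. -/
theorem gsum_mul_of_coprime (hc : c ≠ 0) (hχ : IsCh c χ) (r : Eis) {u : Eis}
    (hu : IsCoprime u c) :
    gsum χ (r * u) c = (starRingEnd ℂ) (χ u) * gsum χ r c := by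
  have h1 : χ u * gsum χ (r * u) c = gsum χ r c := by
    unfold gsum
    rw [← sumMod_mul_left hc, ← sumMod_mul_coprime hc (per_gsum hχ r) hu]
    refine sumMod_congr fun x => ?_
    rw [hχ.mul, ← mul_assoc]
    congr 2
    rw [map_mul, map_mul]; ring
  have h2 := hχ.mul_conj_self hc hu
  calc gsum χ (r * u) c = (χ u * (starRingEnd ℂ) (χ u)) * gsum χ (r * u) c := by rw [h2, one_mul]
    _ = (starRingEnd ℂ) (χ u) * (χ u * gsum χ (r * u) c) := by ring
    _ = _ := by rw [h1]

theorem gsum_of_coprime (hc : c ≠ 0) (hχ : IsCh c χ) {r : Eis} (hr : IsCoprime r c) :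
    gsum χ r c = (starRingEnd ℂ) (χ r) * gsum χ 1 c := by
  have := gsum_mul_of_coprime hc hχ 1 hr
  rwa [one_mul] at this

/-- twisted multiplicativity. -/
theorem gsum_crt (hc : c ≠ 0) (hd : d ≠ 0) (hcd : IsCoprime c d) (hχ : IsCh c χ)
    (hψ : IsCh d ψ) (r : Eis) :
    gsum (fun x => χ x * ψ x) r (c * d) = χ d * ψ c * (gsum χ r c * gsum ψ r d) := by
  have hc' := toC_ne_zero hc
  have hd' := toC_ne_zero hd
  have hP : PMod (c * d) (fun x => χ x * ψ x * eC (toC r * toC x / toC (c * d))) :=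
    (hχ.mul_char hψ).per.mul (pmod_eC r (c * d))
  have key := sumMod_crt_mul (f := fun x => χ d * (χ x * eC (toC r * toC x / toC c)))
    (g := fun y => ψ c * (ψ y * eC (toC r * toC y / toC d))) hc hd _ hcd hP (fun x y => ?_)
  · unfold gsum
    rw [key, sumMod_mul_left hc, sumMod_mul_left hd]; ring
  · have h1 : χ (d * x + c * y) = χ d * χ x := by
      rw [hχ.per, hχ.mul]
    have h2 : ψ (d * x + c * y) = ψ c * ψ y := by
      rw [add_comm, hψ.per, hψ.mul]
    have h3 : toC r * toC (d * x + c * y) / toC (c * d)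
        = toC r * toC x / toC c + toC r * toC y / toC d := by
      rw [map_add, map_mul, map_mul, map_mul]; field_simp
    rw [h1, h2, h3, eC_add]; ring

lemma conj_gsum (hc : c ≠ 0) (r : Eis) :
    (starRingEnd ℂ) (gsum χ r c) = gsum (fun x => (starRingEnd ℂ) (χ x)) (-r) c := by
  unfold gsum
  rw [sumMod_star hc (fun x => χ x * eC (toC r * toC x / toC c))]
  refine sumMod_congr fun x => ?_
  rw [map_mul, star_eC]
  congr 2
  rw [map_neg]; ring

lemma norm_gsum_le (hc : c ≠ 0) (hχ : IsCh c χ) (r : Eis) : ‖gsum χ r c‖ ≤ nm c := by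
  unfold gsum
  refine (norm_sumMod_le (B := 1) hc (fun x => ?_)).trans (by rw [mul_one])
  rw [norm_mul, eC_eq, Complex.norm_exp_ofReal_mul_I, mul_one]
  exact hχ.norm_le_one hc x

/-- Primitivity in the form needed for Gauss sums. -/
def Primitive (c : Eis) (χ : Eis → ℂ) : Prop := ∀ r, ¬ IsCoprime r c → gsum χ r c = 0

/-- Gauss sums of primitive characters at every `r`. -/
theorem gsum_primitive (hc : c ≠ 0) (hχ : IsCh c χ) (hp : Primitive c χ) (r : Eis) :
    gsum χ r c = (starRingEnd ℂ) (χ r) * gsum χ 1 c := by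
  by_cases hr : IsCoprime r c
  · exact gsum_of_coprime hc hχ hr
  · rw [hp r hr, hχ.zero r hr, map_zero, zero_mul]

/-- Parseval for `gsum`. -/
theorem sumMod_gsum_sq (hc : ¬ lam ∣ c) (χ : Eis → ℂ) :
    sumMod c (fun r => gsum χ r c * (starRingEnd ℂ) (gsum χ r c))
      = nm c * sumMod c (fun x => χ x * (starRingEnd ℂ) (χ x)) := by
  classical
  have hc0 : c ≠ 0 := by rintro rfl; exact hc (dvd_zero _)
  have hcrs := isCRS_crs hc0
  have hfin := finite_QE hc0
  let _ : Fintype (QE c) := Fintype.ofFinite _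
  have hS : ∀ f : Eis → ℂ, sumMod c f = ∑ q : QE c, f (Quotient.out q) := fun f =>
    sumMod_of_finite hc0 f
  have e1 : ∀ r : Eis, gsum χ r c * (starRingEnd ℂ) (gsum χ r c)
      = ∑ q : QE c, ∑ q' : QE c, χ (Quotient.out q) * (starRingEnd ℂ) (χ (Quotient.out q')) *
        eC (toC (Quotient.out q - Quotient.out q') * toC r / toC c) := by
    intro r
    unfold gsum
    rw [hS, map_sum, Finset.sum_mul_sum]
    refine Finset.sum_congr rfl fun q _ => Finset.sum_congr rfl fun q' _ => ?_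
    rw [map_mul, star_eC]
    have : toC (Quotient.out q - Quotient.out q') * toC r / toC c
        = toC r * toC (Quotient.out q) / toC c + -(toC r * toC (Quotient.out q') / toC c) := by
      rw [map_sub]; ring
    rw [this, eC_add]; ring
  rw [sumMod_congr e1]
  rw [sumMod_finset_sum hc0]
  have e2 : ∀ q : QE c, sumMod c (fun r => ∑ q' : QE c,
      χ (Quotient.out q) * (starRingEnd ℂ) (χ (Quotient.out q')) *
        eC (toC (Quotient.out q - Quotient.out q') * toC r / toC c))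
      = nm c * (χ (Quotient.out q) * (starRingEnd ℂ) (χ (Quotient.out q))) := by
    intro q
    rw [sumMod_finset_sum hc0]
    rw [Finset.sum_eq_single q]
    · rw [sumMod_mul_left hc0, sumMod_eC_of_not_lam_dvd hc]
      rw [if_pos (by simp)]; ring
    · intro q' _ hq'
      rw [sumMod_mul_left hc0, sumMod_eC_of_not_lam_dvd hc, if_neg, mul_zero]
      rw [← mkQ_eq_iff, mkQ_out, mkQ_out]
      exact fun h => hq' h.symm
    · intro h; exact absurd (Finset.mem_univ q) h
  rw [Finset.sum_congr rfl (fun q _ => e2 q), ← Finset.mul_sum,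
    hS (fun x => χ x * (starRingEnd ℂ) (χ x))]

/-- `|g(χ)|² = N(c)` for primitive `χ`. -/
theorem norm_gsum_sq (hc : ¬ lam ∣ c) (hχ : IsCh c χ) (hp : Primitive c χ) {r : Eis}
    (hr : IsCoprime r c) : ‖gsum χ r c‖ ^ 2 = nm c := by
  have hc0 : c ≠ 0 := by rintro rfl; exact hc (dvd_zero _)
  have h1 : ‖gsum χ r c‖ = ‖gsum χ 1 c‖ := by
    rw [gsum_of_coprime hc0 hχ hr, norm_mul, RCLike.norm_conj, hχ.norm_eq_one hc0 hr, one_mul]
  rw [h1]
  have h2 := sumMod_gsum_sq hc χ
  set P := sumMod c (fun x => χ x * (starRingEnd ℂ) (χ x)) with hP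
  have h3 : sumMod c (fun r => gsum χ r c * (starRingEnd ℂ) (gsum χ r c))
      = ((‖gsum χ 1 c‖ ^ 2 : ℝ) : ℂ) * P := by
    rw [hP, ← sumMod_mul_left hc0]
    refine sumMod_congr fun r => ?_
    rw [gsum_primitive hc0 hχ hp r, map_mul, Complex.conj_conj]
    have : gsum χ 1 c * (starRingEnd ℂ) (gsum χ 1 c) = ((‖gsum χ 1 c‖ ^ 2 : ℝ) : ℂ) := by
      rw [Complex.mul_conj, Complex.normSq_eq_norm_sq]
    rw [← this]; ring
  rw [h3] at h2
  -- P is nonzero : it is a sum of nonnegative reals with at least one 1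
  have hP0 : P ≠ 0 := by
    have hfin := finite_QE hc0
    let _ : Fintype (QE c) := Fintype.ofFinite _
    have hS : ∀ f : Eis → ℂ, sumMod c f = ∑ q : QE c, f (Quotient.out q) := fun f =>
      sumMod_of_finite hc0 f
    have hPr : P = ((∑ q : QE c, ‖χ (Quotient.out q)‖ ^ 2 : ℝ) : ℂ) := by
      rw [hP, hS]; push_cast
      refine Finset.sum_congr rfl fun q _ => ?_
      rw [Complex.mul_conj, Complex.normSq_eq_norm_sq]; push_cast; rfl
    rw [hPr, Ne, Complex.ofReal_eq_zero]
    have hpos : 0 < ∑ q : QE c, ‖χ (Quotient.out q)‖ ^ 2 := by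
      refine Finset.sum_pos' (fun q _ => by positivity) ⟨mkQ c 1, Finset.mem_univ _, ?_⟩
      have : χ (Quotient.out (mkQ c 1)) = 1 := by
        rw [← hχ.one]
        apply hχ.per.congr
        rw [← mkQ_eq_iff, mkQ_out]
      rw [this]; simp
    exact hpos.ne'
  have h4 : ((‖gsum χ 1 c‖ ^ 2 : ℝ) : ℂ) = nm c := mul_right_cancel₀ hP0 h2
  exact_mod_cast h4

/-- A nontrivial character has zero sum. -/
lemma sumMod_ch_eq_zero (hc : c ≠ 0) (hχ : IsCh c χ) {u : Eis} (hu : IsCoprime u c)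
    (h : χ u ≠ 1) : sumMod c χ = 0 := by
  have h1 := sumMod_mul_coprime hc hχ.per hu
  rw [sumMod_congr (g := fun x => χ u * χ x) (fun x => hχ.mul u x), sumMod_mul_left hc] at h1
  have h2 : (χ u - 1) * sumMod c χ = 0 := by linear_combination h1
  rcases mul_eq_zero.mp h2 with h3 | h3
  · exact absurd (sub_eq_zero.mp h3) h
  · exact h3

/-- nontrivial characters modulo a prime are primitive. -/
lemma primitive_of_prime {p : Eis} (hp : Prime p) (hχ : IsCh p χ) {u : Eis}
    (hu : IsCoprime u p) (h : χ u ≠ 1) : Primitive p χ := by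
  intro r hr
  have hpr : p ∣ r := by
    by_contra hcon
    exact hr ((hp.irreducible.coprime_iff_not_dvd.mpr hcon).symm)
  have h1 : gsum χ r p = gsum χ 0 p := gsum_congr (by simpa using hpr)
  rw [h1]
  unfold gsum
  rw [sumMod_congr (g := χ) (fun x => by simp [eC])]
  exact sumMod_ch_eq_zero hp.ne_zero hχ hu h

/-- product of primitive characters with coprime moduli. -/
lemma Primitive.mul (hc : c ≠ 0) (hd : d ≠ 0) (hcd : IsCoprime c d) (hχ : IsCh c χ)
    (hψ : IsCh d ψ) (h1 : Primitive c χ) (h2 : Primitive d ψ) :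
    Primitive (c * d) (fun x => χ x * ψ x) := by
  intro r hr
  rw [gsum_crt hc hd hcd hχ hψ]
  by_cases hrc : IsCoprime r c
  · by_cases hrd : IsCoprime r d
    · exact absurd (hrc.mul_right hrd) hr
    · rw [h2 r hrd]; ring
  · rw [h1 r hrc]; ring

/-! ### Part 2 : the cubic symbol -/

/-- The facts on the cubic symbol which are used here. -/
structure SyG : Prop where
  mul_left : ∀ x y c : Eis, IsPrim c → sy (x * y) c = sy x c * sy y c
  mul_right : ∀ x c d : Eis, IsPrim c → IsPrim d → sy x (c * d) = sy x c * sy x d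
  congr : ∀ x y c : Eis, IsPrim c → c ∣ x - y → sy x c = sy y c
  eq_zero : ∀ x c : Eis, IsPrim c → (sy x c = 0 ↔ ¬ IsCoprime x c)
  cube : ∀ x c : Eis, IsPrim c → IsCoprime x c → sy x c ^ 3 = 1
  recip : ∀ a b : Eis, IsPrim a → IsPrim b → sy a b = sy b a
  nontriv : ∀ p : Eis, IsPrim p → Prime p → ∃ x, IsCoprime x p ∧ sy x p ≠ 1
  conj : ∀ x c : Eis, IsPrim c → sy (Eis.conj x) (Eis.conj c) = (starRingEnd ℂ) (sy x c)

section cubic

variable (H : SyG)
include H

lemma sy_one_left {c : Eis} (hc : IsPrim c) : sy 1 c = 1 := by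
  have h1 : sy 1 c ≠ 0 := by
    intro h
    rw [H.eq_zero 1 c hc] at h
    exact h isCoprime_one_left
  have h2 := H.mul_left 1 1 c hc
  rw [mul_one] at h2
  exact (mul_left_cancel₀ h1 (by rw [mul_one, ← h2]))

lemma isCh_sy {c : Eis} (hc : IsPrim c) : IsCh c (fun x => sy x c) where
  one := sy_one_left H hc
  mul x y := H.mul_left x y c hc
  per x t := H.congr _ _ _ hc (by simp)
  zero x hx := (H.eq_zero x c hc).mpr hx

lemma sy_neg_one {c : Eis} (hc : IsPrim c) : sy (-1) c = 1 := by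
  have h1 : IsCoprime (-1 : Eis) c := isCoprime_of_isUnit (isUnit_one.neg) _
  have h2 := H.cube (-1) c hc h1
  have h3 := H.mul_left (-1) (-1) c hc
  rw [neg_mul_neg, one_mul, sy_one_left H hc] at h3
  have h4 : sy (-1) c ^ 3 = sy (-1) c * (sy (-1) c * sy (-1) c) := by ring
  rw [h4, ← h3, mul_one] at h2
  exact h2

lemma sy_conj_mul_self {x c : Eis} (hc : IsPrim c) (hx : IsCoprime x c) :
    sy x c * (starRingEnd ℂ) (sy x c) = 1 := (isCh_sy H hc).mul_conj_self hc.ne_zero hx

lemma sy_sq_eq_conj {x c : Eis} (hc : IsPrim c) : sy x c ^ 2 = (starRingEnd ℂ) (sy x c) := by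
  by_cases hx : IsCoprime x c
  · have h1 := H.cube x c hc hx
    have h2 := sy_conj_mul_self H hc hx
    have h0 : sy x c ≠ 0 := (isCh_sy H hc).ne_zero hc.ne_zero hx
    apply mul_left_cancel₀ h0
    rw [h2, ← h1]; ring
  · have : sy x c = 0 := (H.eq_zero x c hc).mpr hx
    rw [this]; simp

lemma norm_sy {x c : Eis} (hc : IsPrim c) (hx : IsCoprime x c) : ‖sy x c‖ = 1 :=
  (isCh_sy H hc).norm_eq_one hc.ne_zero hx

lemma norm_sy_le {x c : Eis} (hc : IsPrim c) : ‖sy x c‖ ≤ 1 :=
  (isCh_sy H hc).norm_le_one hc.ne_zero x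

omit H in
/-- periodicity in `r`. -/
lemma gs_congr {r s c : Eis} (h : c ∣ r - s) : gs r c = gs s c := gsum_congr h

/-- `g(r u, c) = conj (u/c) g(r, c)`. -/
theorem gs_mul_of_coprime {c : Eis} (hc : IsPrim c) (r : Eis) {u : Eis} (hu : IsCoprime u c) :
    gs (r * u) c = (starRingEnd ℂ) (sy u c) * gs r c :=
  gsum_mul_of_coprime hc.ne_zero (isCh_sy H hc) r hu

theorem gs_of_coprime {c : Eis} (hc : IsPrim c) {r : Eis} (hr : IsCoprime r c) :
    gs r c = (starRingEnd ℂ) (sy r c) * gs 1 c :=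
  gsum_of_coprime hc.ne_zero (isCh_sy H hc) hr

/-- twisted multiplicativity. -/
theorem gs_crt {c d : Eis} (hc : IsPrim c) (hd : IsPrim d) (hcd : IsCoprime c d) (r : Eis) :
    gs r (c * d) = sy d c * sy c d * (gs r c * gs r d) := by
  have h := gsum_crt hc.ne_zero hd.ne_zero hcd (isCh_sy H hc) (isCh_sy H hd) r
  rw [← gs_eq_gsum, ← gs_eq_gsum] at h
  rw [← h, gs_eq_gsum]
  unfold gsum
  refine sumMod_congr fun x => ?_
  beta_reduce
  rw [H.mul_right x c d hc hd]

/-- twisted multiplicativity after reciprocity. -/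
theorem gs_mul {c d : Eis} (hc : IsPrim c) (hd : IsPrim d) (hcd : IsCoprime c d) (r : Eis) :
    gs r (c * d) = (starRingEnd ℂ) (sy c d) * (gs r c * gs r d) := by
  rw [gs_crt H hc hd hcd, H.recip d c hd hc, ← sy_sq_eq_conj H hd]; ring

/-- `g(r, c d) = g(r d?, c)...` : `gs r (c d) = gs (r d) c * gs r d * sy c d * sy d c * sy d c`;
most useful form: `g(r, c d) = g(r d, c) g(r c, d) · (sy c d)^4`, i.e. -/
theorem gs_mul' {c d : Eis} (hc : IsPrim c) (hd : IsPrim d) (hcd : IsCoprime c d) (r : Eis) :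
    gs r (c * d) = gs (r * d) c * gs r d := by
  rw [gs_mul H hc hd hcd, gs_mul_of_coprime H hc r hcd.symm, H.recip c d hc hd]; ring

/-- If `p ∥ c` and `p ∣ r` then `g(r,c) = 0`. -/
theorem gs_eq_zero_of_dvd {p c r : Eis} (hp : Prime p) (hpp : IsPrim p) (hc : IsPrim c)
    (hpc : IsCoprime p c) (hr : p ∣ r) : gs r (p * c) = 0 := by
  rw [gs_crt H hpp hc hpc]
  obtain ⟨x, hx, hx1⟩ := H.nontriv p hpp hp
  have : gs r p = 0 := primitive_of_prime hp (isCh_sy H hpp) hx hx1 r (fun h => by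
    have h2 : IsCoprime p p := (IsCoprime.of_isCoprime_of_dvd_left h hr)
    rw [isCoprime_self] at h2
    exact hp.not_isUnit h2)
  rw [this]; ring

/-- If `p² ∣ c` and `p ∤ r` then `g(r,c) = 0`. -/
theorem gs_eq_zero_of_sq_dvd {p c r : Eis} (hp : Prime p) (hpp : IsPrim p) (hc : IsPrim c)
    (hpc : p ^ 2 ∣ c) (hr : ¬ p ∣ r) : gs r c = 0 := by
  obtain ⟨e, rfl⟩ := hpc
  have he : IsPrim e := hc.of_mul_left (hpp.pow 2)
  have hpe : IsPrim (p * e) := hpp.mul he
  have hc0 := hc.ne_zero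
  have hp0 := toC_ne_zero hp.ne_zero
  have he0 := toC_ne_zero he.ne_zero
  -- choose the shift
  have hlp : ¬ lam ∣ p := hpp.not_lam_dvd
  have hex : ∃ t : Eis, eC (toC r * toC t / toC p) ≠ 1 := by
    by_contra hcon
    push Not at hcon
    have := dvd_of_eC_eq_one hp.ne_zero hcon
    rw [dvd_sq3_mul_iff hlp] at this
    exact hr this
  obtain ⟨t, ht⟩ := hex
  have hper : PMod (p ^ 2 * e) (fun x => sy x (p ^ 2 * e) * eC (toC r * toC x / toC (p ^ 2 * e))) :=
    per_gsum (isCh_sy H hc) r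
  have h1 := sumMod_shift hc0 hper (p * e * t)
  have hsy : ∀ x, sy (x + p * e * t) (p ^ 2 * e) = sy x (p ^ 2 * e) := by
    intro x
    have e1 : p ^ 2 * e = p * (p * e) := by ring
    rw [e1, H.mul_right _ p (p * e) hpp hpe, H.mul_right _ p (p * e) hpp hpe]
    rw [H.congr (x + p * e * t) x p hpp ⟨e * t, by ring⟩,
      H.congr (x + p * e * t) x (p * e) hpe ⟨t, by ring⟩]
  have h2 : ∀ x : Eis, sy (x + p * e * t) (p ^ 2 * e) *
      eC (toC r * toC (x + p * e * t) / toC (p ^ 2 * e))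
      = eC (toC r * toC t / toC p) * (sy x (p ^ 2 * e) * eC (toC r * toC x / toC (p ^ 2 * e))) := by
    intro x
    have e2 : toC r * toC (x + p * e * t) / toC (p ^ 2 * e)
        = toC r * toC t / toC p + toC r * toC x / toC (p ^ 2 * e) := by
      simp only [map_add, map_mul, map_pow]
      field_simp
      ring
    rw [hsy, e2, eC_add]; ring
  rw [sumMod_congr h2, sumMod_mul_left hc0] at h1
  unfold gs
  set S := sumMod (p ^ 2 * e) (fun x => sy x (p ^ 2 * e) * eC (toC r * toC x / toC (p ^ 2 * e)))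
  have h3 : (eC (toC r * toC t / toC p) - 1) * S = 0 := by linear_combination h1
  rcases mul_eq_zero.mp h3 with h4 | h4
  · exact absurd (sub_eq_zero.mp h4) ht
  · exact h4

omit H in
/-- a non-unit primary element has a primary prime divisor. -/
lemma exists_prim_prime_dvd {c : Eis} (hc : IsPrim c) (h1 : c ≠ 1) :
    ∃ p, Prime p ∧ IsPrim p ∧ p ∣ c := by
  have hnu : ¬ IsUnit c := by
    intro hu
    apply h1
    exact hc.eq_of_associated isPrim_one (associated_one_iff_isUnit.mpr hu)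
  obtain ⟨q, hq, hqc⟩ := WfDvdMonoid.exists_irreducible_factor hnu hc.ne_zero
  have hql : ¬ lam ∣ q := fun h => hc.not_lam_dvd (h.trans hqc)
  refine ⟨prim q, ?_, prim_isPrim hql, ?_⟩
  · exact (prim_associated q).prime_iff.mp hq.prime
  · exact (prim_associated q).symm.dvd.trans hqc

/-- `x ↦ (x/c)` is primitive modulo `c` if `c` is squarefree. -/
theorem primitive_sy {c : Eis} (hc : IsPrim c) (hsf : Squarefree c) :
    Primitive c (fun x => sy x c) := by
  intro r hr
  rw [← gs_eq_gsum]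
  -- a common prime factor
  have hex : ∃ p, Prime p ∧ p ∣ r ∧ p ∣ c := by
    by_contra hcon
    push Not at hcon
    apply hr
    refine isCoprime_of_prime_dvd (fun h => hc.ne_zero h.2) (fun p hp hpr hpc => ?_)
    exact hcon p hp hpr hpc
  obtain ⟨q, hq, hqr, hqc⟩ := hex
  have hql : ¬ lam ∣ q := fun h => hc.not_lam_dvd (h.trans hqc)
  have ha := prim_associated q
  have hp : Prime (prim q) := ha.prime_iff.mp hq
  have hpp := prim_isPrim hql
  have hpr : prim q ∣ r := ha.symm.dvd.trans hqr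
  obtain ⟨e, he⟩ := ha.symm.dvd.trans hqc
  have hpe : IsPrim e := by rw [he] at hc; exact hc.of_mul_left hpp
  have hcop : IsCoprime (prim q) e := by
    rw [hp.irreducible.coprime_iff_not_dvd]
    intro hd
    have : prim q * prim q ∣ c := by rw [he]; exact mul_dvd_mul_left _ hd
    exact hp.not_isUnit (hsf _ this)
  rw [he]
  exact gs_eq_zero_of_dvd H hp hpp hpe hcop hpr

/-- `g(r,c) = conj (r/c) g(1,c)` for ALL `r` if `c` is squarefree. -/
theorem gs_squarefree {c : Eis} (hc : IsPrim c) (hsf : Squarefree c) (r : Eis) :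
    gs r c = (starRingEnd ℂ) (sy r c) * gs 1 c :=
  gsum_primitive hc.ne_zero (isCh_sy H hc) (primitive_sy H hc hsf) r

theorem norm_gs_sq {c : Eis} (hc : IsPrim c) (hsf : Squarefree c) {r : Eis}
    (hr : IsCoprime r c) : ‖gs r c‖ ^ 2 = nm c :=
  norm_gsum_sq hc.not_lam_dvd (isCh_sy H hc) (primitive_sy H hc hsf) hr

theorem norm_gs {c : Eis} (hc : IsPrim c) (hsf : Squarefree c) {r : Eis}
    (hr : IsCoprime r c) : ‖gs r c‖ = Real.sqrt (nm c) := by
  rw [← norm_gs_sq H hc hsf hr, Real.sqrt_sq (norm_nonneg _)]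

theorem gs_one_eq_zero {c : Eis} (hc : IsPrim c) (hsf : ¬ Squarefree c) : gs 1 c = 0 := by
  -- a prime whose square divides `c`
  have hex : ∃ q : Eis, Prime q ∧ q * q ∣ c := by
    by_contra hcon
    push Not at hcon
    apply hsf
    rw [squarefree_iff_no_irreducibles hc.ne_zero]
    intro q hq h
    exact hcon q hq.prime h
  obtain ⟨q, hq, hqq⟩ := hex
  have hqc : q ∣ c := (dvd_mul_right q q).trans hqq
  have hql : ¬ lam ∣ q := fun h => hc.not_lam_dvd (h.trans hqc)
  have ha := prim_associated q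
  have hp : Prime (prim q) := ha.prime_iff.mp hq
  refine gs_eq_zero_of_sq_dvd H hp (prim_isPrim hql) hc ?_ ?_
  · rw [pow_two]
    exact (ha.symm.mul_mul ha.symm).dvd.trans hqq
  · intro h
    exact hp.not_isUnit (isUnit_of_dvd_one h)

/-! #### conjugation -/

theorem gs_conj {c : Eis} (hc : IsPrim c) (r : Eis) :
    gs (Eis.conj r) (Eis.conj c) = (starRingEnd ℂ) (gs r c) := by
  have hcc := hc.conj
  have h1 : gs (Eis.conj r) (Eis.conj c)
      = sumMod c (fun x => sy (Eis.conj x) (Eis.conj c) *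
          eC (toC (Eis.conj r) * toC (Eis.conj x) / toC (Eis.conj c))) := by
    unfold gs
    exact sumMod_conj hc.ne_zero (per_gsum (isCh_sy H hcc) (Eis.conj r))
  rw [h1]
  have h2 : ∀ x, sy (Eis.conj x) (Eis.conj c) *
      eC (toC (Eis.conj r) * toC (Eis.conj x) / toC (Eis.conj c))
      = (starRingEnd ℂ) (sy x c) * eC (toC r * toC x / toC c) := by
    intro x
    rw [H.conj x c hc]
    congr 1
    rw [toC_conj, toC_conj, toC_conj, ← map_mul, ← map_div₀, eC_conj]
  rw [sumMod_congr h2]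
  -- conj (gs r c) = Σ conj sy x c * e(-r x / c) = Σ conj sy (-x) c e(r x/c)
  rw [gs_eq_gsum, conj_gsum hc.ne_zero]
  unfold gsum
  have h3 := sumMod_neg hc.ne_zero
    (f := fun x => (starRingEnd ℂ) (sy x c) * eC (toC (-r) * toC x / toC c))
    (((isCh_sy H hc).conj).per.mul (pmod_eC (-r) c))
  rw [← h3]
  refine sumMod_congr fun x => ?_
  have h4 : sy (-x) c = sy x c := by
    have := H.mul_left (-1) x c hc
    rw [neg_one_mul, sy_neg_one H hc, one_mul] at this
    exact this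
  rw [h4]
  congr 2
  rw [map_neg, map_neg]; ring

/-- `gs (-r) c = gs r c`. -/
theorem gs_neg {c : Eis} (hc : IsPrim c) (r : Eis) : gs (-r) c = gs r c := by
  have h := gs_mul_of_coprime H hc r (u := -1) (isCoprime_of_isUnit (isUnit_one.neg) _)
  rw [sy_neg_one H hc, map_one, one_mul, mul_neg_one] at h
  exact h

/-! #### the normalised Gauss sum -/

omit H in
lemma sqrt_nm_ne_zero {c : Eis} (hc : c ≠ 0) : ((Real.sqrt (nm c) : ℝ) : ℂ) ≠ 0 := by
  rw [Ne, Complex.ofReal_eq_zero]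
  have : (0 : ℝ) < nm c := by exact_mod_cast nm_pos.mpr hc
  positivity

theorem G_mul {a b : Eis} (ha : IsPrim a) (hb : IsPrim b) (hab : IsCoprime a b) :
    G (a * b) = G a * G b * (starRingEnd ℂ) (sy a b) := by
  unfold G
  rw [gs_mul H ha hb hab, nm_mul, Nat.cast_mul, Real.sqrt_mul (by positivity)]
  have h1 := sqrt_nm_ne_zero ha.ne_zero
  have h2 := sqrt_nm_ne_zero hb.ne_zero
  push_cast
  field_simp

theorem norm_G {c : Eis} (hc : IsPrim c) (hsf : Squarefree c) : ‖G c‖ = 1 := by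
  unfold G
  rw [norm_div, norm_gs H hc hsf isCoprime_one_left, Complex.norm_real, Real.norm_eq_abs,
    abs_of_nonneg (Real.sqrt_nonneg _)]
  have : (0 : ℝ) < nm c := by exact_mod_cast nm_pos.mpr hc.ne_zero
  exact div_self (Real.sqrt_pos.mpr this).ne'

theorem G_eq_zero {c : Eis} (hc : IsPrim c) (hsf : ¬ Squarefree c) : G c = 0 := by
  unfold G; rw [gs_one_eq_zero H hc hsf, zero_div]

theorem norm_G_le {c : Eis} (hc : IsPrim c) : ‖G c‖ ≤ 1 := by
  by_cases h : Squarefree c
  · exact (norm_G H hc h).le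
  · rw [G_eq_zero H hc h]; simp

theorem G_mul_conj {c : Eis} (hc : IsPrim c) (hsf : Squarefree c) :
    G c * (starRingEnd ℂ) (G c) = 1 := by
  rw [Complex.mul_conj, Complex.normSq_eq_norm_sq, norm_G H hc hsf]; simp

theorem G_conj {c : Eis} (hc : IsPrim c) : G (Eis.conj c) = (starRingEnd ℂ) (G c) := by
  unfold G
  have := gs_conj H hc 1
  rw [conj_one] at this
  rw [this, nm_conj, map_div₀, Complex.conj_ofReal]

omit H in
theorem gs_one_eq {c : Eis} (hc : IsPrim c) : gs 1 c = (Real.sqrt (nm c) : ℂ) * G c := by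
  unfold G
  have := sqrt_nm_ne_zero hc.ne_zero
  field_simp

/-- `g(r,c)/√N(c)` for squarefree `c`. -/
theorem gs_eq_G {c : Eis} (hc : IsPrim c) (hsf : Squarefree c) (r : Eis) :
    gs r c = (starRingEnd ℂ) (sy r c) * ((Real.sqrt (nm c) : ℂ) * G c) := by
  rw [gs_squarefree H hc hsf, gs_one_eq hc]

/-- `G(a b)` for all primary `a, b` (zero when not coprime). -/
theorem G_mul_all {a b : Eis} (ha : IsPrim a) (hb : IsPrim b) :
    G (a * b) = G a * G b * (starRingEnd ℂ) (sy a b) := by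
  by_cases hab : IsCoprime a b
  · exact G_mul H ha hb hab
  · have h0 : sy a b = 0 := (H.eq_zero a b hb).mpr hab
    rw [h0, map_zero, mul_zero]
    apply G_eq_zero H (ha.mul hb)
    intro hsf
    apply hab
    refine isCoprime_of_prime_dvd (fun h => ha.ne_zero h.1) (fun p hp hpa hpb => ?_)
    exact hp.not_isUnit (hsf p (mul_dvd_mul hpa hpb))

end cubic

end Crest.Agent.R012.Gauss880
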