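import Crest.Agent.R012.Defs

/-!
# Row 12, part (M): interface (definitions + `Prop`s), sub-captain helper49

Everything in part (M) is stated through the explicit objects below; NO quotient space, NO
fundamental domain appears in the interface.

Convention: rows `v = (c, d)`, `3 ∣ c`, `d ≡ 1 (3)`, coprime, symbol `sy c d = (c/d)_3`,
frames `(η, ζ) ∈ ℂ² × ℂ²`, `v ↦ c η + d ζ`, unipotent direction `ζ ↦ ζ + x η`, `x` mod `3 Eis`.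
-/

set_option autoImplicit false

noncomputable section

open MeasureTheory Complex Set Filter Topology
open Crest.Agent.R012.Eis

namespace Crest.Agent.R012.M49

/-! ## Rows, frames -/

/-- `√-3 = 1 + 2ω`. -/
def sq3 : Eis := 1 + 2 * w

/-- admissible rows `(c,d)`: `3 ∣ c`, `d ≡ 1 mod 3`, coprime. -/
def IsRow (v : Eis × Eis) : Prop := (3 : Eis) ∣ v.1 ∧ IsPrim v.2 ∧ IsCoprime v.1 v.2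

abbrev Row : Type := {v : Eis × Eis // IsRow v}

/-- `c η + d ζ`. -/
def act (v : Eis × Eis) (η ζ : ℂ × ℂ) : ℂ × ℂ := toC v.1 • η + toC v.2 • ζ

/-- `η₁ ζ₂ - η₂ ζ₁`. -/
def det2 (η ζ : ℂ × ℂ) : ℂ := η.1 * ζ.2 - η.2 * ζ.1

/-- the dual vector: `det2 η (perp η) = 1`. -/
def perp (η : ℂ × ℂ) : ℂ × ℂ :=
  (-(starRingEnd ℂ) η.2 / ((‖η.1‖ ^ 2 + ‖η.2‖ ^ 2 : ℝ) : ℂ),
    (starRingEnd ℂ) η.1 / ((‖η.1‖ ^ 2 + ‖η.2‖ ^ 2 : ℝ) : ℂ))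

/-- class of test functions on `ℂ²`. -/
def Dec (F : ℂ × ℂ → ℂ) : Prop :=
  Measurable F ∧ ∃ C : ℝ, ∀ u, ‖F u‖ ≤ C * (1 + ‖u‖) ^ (-(12 : ℝ))

/-- pseudo-Eisenstein series `E_F(η,ζ) = Σ_{(c,d)} a(c,d) (c/d)_3 F(cη + dζ)`. -/
def ES (a : Eis × Eis → ℂ) (F : ℂ × ℂ → ℂ) (η ζ : ℂ × ℂ) : ℂ :=
  ∑' v : Row, a v.1 * sy v.1.1 v.1.2 * F (act v.1 η ζ)

/-! ## The Gram form -/

/-- smooth cut-off in `|det|`. -/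
structure IsW (ww : ℝ → ℝ) : Prop where
  smooth : ContDiff ℝ ((⊤ : ℕ∞) : WithTop ℕ∞) ww
  nonneg : ∀ s, 0 ≤ ww s
  le_one : ∀ s, ww s ≤ 1
  one_on : ∀ s, 1 / 2 ≤ s → s ≤ 2 → ww s = 1
  supp_lo : ∀ s, s < 1 / 4 → ww s = 0
  supp_hi : ∀ s, 4 < s → ww s = 0

/-- Möbius function on primary elements. -/
def mob (e : Eis) : ℝ := by
  classical
  exact if Squarefree e then (-1) ^ (Multiset.card (UniqueFactorizationMonoid.factors e)) else 0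

/-- `E(m) = ∏_{p ∣ m, p ∤ 3} (1 - 1/N p) = Σ_{e primary, e ∣ m} μ(e)/N(e)` (`m ≠ 0`). -/
def EE (m : Eis) : ℝ := by
  classical
  exact ∑ e ∈ (primBall (nm m)).filter (fun e => e ∣ m), mob e / nm e

/-- `K_{F,F'}(s) = ∫∫ F(u) conj F'(y) w(|u ∧ y|/s) du dy`. -/
def KK (ww : ℝ → ℝ) (F F' : ℂ × ℂ → ℂ) (s : ℝ) : ℂ :=
  ∫ p : (ℂ × ℂ) × (ℂ × ℂ), F p.1 * (starRingEnd ℂ) (F' p.2) * (ww (‖det2 p.1 p.2‖ / s) : ℂ)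

/-- `Gram_β(F,F') = vol(ℂ/3Eis) W₀ β(0) ∫ F conj F' +
 (1/3) Σ_{m ≠ 0} β(m) E(m) (3 N m)^{-3} K_{F,F'}((3 N m)^{3/2})`.
(`h = (√-3 m)³`, each `h` comes from 3 `m`'s; `S(h)/|h|⁴ = E(m)/N(h)`.) -/
def Gram (ww : ℝ → ℝ) (β : Eis → ℝ) (F F' : ℂ × ℂ → ℂ) : ℂ :=
  ((9 * Real.sqrt 3 / 2 * (∫ z : ℂ, ww ‖z‖) * β 0 : ℝ) : ℂ) *
      (∫ u : ℂ × ℂ, F u * (starRingEnd ℂ) (F' u)) +
    (1 / 3) * ∑' m : Eis, (if m = 0 then 0 else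
      ((β m * EE m / (3 * nm m : ℝ) ^ 3 : ℝ) : ℂ) * KK ww F F' ((3 * nm m : ℝ) ^ ((3 : ℝ) / 2)))

/-! ## Fourier coefficients in the strip -/

/-- `∫_ℂ F(d (x η + δ η^⊥)) e(-h x/(3√-3)) dx`. -/
def coefInt (F : ℂ × ℂ → ℂ) (h d : Eis) (η : ℂ × ℂ) (δ : ℂ) : ℂ :=
  ∫ x : ℂ, F (toC d • (x • η + δ • perp η)) * eC (-(toC h * x / toC (3 * sq3)))

/-- `A_h(η,δ) = (2/(9√3)) Σ_{d ≡ 1 (3)} a(d) g(h,d) ∫ F(d(xη+δη^⊥)) e(-hx/(3√-3)) dx`. -/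
def coefA (a : Eis → ℂ) (F : ℂ × ℂ → ℂ) (h : Eis) (η : ℂ × ℂ) (δ : ℂ) : ℂ := by
  classical
  exact ((2 / (9 * Real.sqrt 3) : ℝ) : ℂ) *
    ∑' d : Eis, (if IsPrim d then a d * gs h d * coefInt F h d η δ else 0)

/-- region of frame directions: `1/2 ≤ |k₁| ≤ 2`, `|k₂| ≤ 1`, `1/2 ≤ |δ| ≤ 2`. -/
def stripReg : Set ((ℂ × ℂ) × ℂ) :=
  {p | 1 / 2 ≤ ‖p.1.1‖ ∧ ‖p.1.1‖ ≤ 2 ∧ ‖p.1.2‖ ≤ 1 ∧ 1 / 2 ≤ ‖p.2‖ ∧ ‖p.2‖ ≤ 2}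

/-- weights of the level-`p` step. -/
def aP (p : Eis) (d : Eis) : ℂ := by
  classical
  exact if p ∣ d then 1 else -(1 / (nm p : ℂ))

def bP (p : Eis) (m : Eis) : ℝ := by
  classical
  exact (1 + 1 / (nm p : ℝ)) * (if p ∣ m then 1 else -(1 / (nm p : ℝ)))

/-- **(M-GS)** the Gram–strip inequality = Kubota + unfolding + multiplicity + Bessel. -/
def GS (ww : ℝ → ℝ) : Prop :=
  ∃ C : ℝ, ∀ F : ℂ × ℂ → ℂ, Dec F → ∀ ε : ℝ, 0 < ε → ε ≤ 1 → ∀ S : Finset Eis,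
    ∫⁻ p in stripReg, ∑ h ∈ S, ‖coefA (fun _ => 1) F h ((ε⁻¹ : ℝ) • p.1) p.2‖ₑ ^ 2 ≤
      ENNReal.ofReal (C * (Gram ww (fun _ => 1) F F).re)

/-- **(M-GSp)** the same at a primary prime `p` with weights `aP`, `bP` (lines of `P¹(𝔽_p)`). -/
def GSp (ww : ℝ → ℝ) : Prop :=
  ∀ p : Eis, Prime p → IsPrim p → ∃ C : ℝ, ∀ F : ℂ × ℂ → ℂ, Dec F →
    ∀ ε : ℝ, 0 < ε → ε ≤ 1 → ∀ S : Finset Eis,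
    ∫⁻ q in stripReg, ∑ h ∈ S, ‖coefA (aP p) F h ((ε⁻¹ : ℝ) • q.1) q.2‖ₑ ^ 2 ≤
      ENNReal.ofReal (C * (Gram ww (bP p) F F).re)

/-! ## Asymptotics of the Gram form -/

/-- **(M-LL)** lattice sum over cubes, error exponent `θ < 2` arbitrary. -/
def LL (ww : ℝ → ℝ) : Prop :=
  ∃ c : ℝ, 0 < c ∧ ∀ θ : ℝ, 4 / 3 < θ → θ < 2 → ∃ C : ℝ, ∀ P : ℝ, 0 < P →
    |(∑' m : Eis, (if m = 0 then 0 else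
        EE m / (3 * nm m : ℝ) ^ 3 * ww (P / (3 * nm m : ℝ) ^ ((3 : ℝ) / 2)))) -
      c * P ^ (-(4 : ℝ) / 3)| ≤ C * P ^ (-θ)

/-- **(M-LLp)** at level `p` the main term cancels. -/
def LLp (ww : ℝ → ℝ) : Prop :=
  ∀ p : Eis, Prime p → IsPrim p → ∀ θ : ℝ, 4 / 3 < θ → θ < 2 → ∃ C : ℝ, ∀ P : ℝ, 0 < P →
    |∑' m : Eis, (if m = 0 then 0 else
        bP p m * EE m / (3 * nm m : ℝ) ^ 3 * ww (P / (3 * nm m : ℝ) ^ ((3 : ℝ) / 2)))| ≤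
      C * P ^ (-θ)

/-- `∫∫ F(u) conj F'(y) |u ∧ y|^{-4/3}`. -/
def BB (F F' : ℂ × ℂ → ℂ) : ℂ :=
  ∫ p : (ℂ × ℂ) × (ℂ × ℂ), F p.1 * (starRingEnd ℂ) (F' p.2) *
    ((‖det2 p.1 p.2‖ ^ (-(4 : ℝ) / 3) : ℝ) : ℂ)

/-- `∫∫ |F(u)| |F'(y)| |u ∧ y|^{-θ}`. -/
def JJ (θ : ℝ) (F F' : ℂ × ℂ → ℂ) : ℝ :=
  ∫ p : (ℂ × ℂ) × (ℂ × ℂ), ‖F p.1‖ * ‖F' p.2‖ * ‖det2 p.1 p.2‖ ^ (-θ)

/-- dilation `F_T(u) = F(u/T)`. -/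
def dil (T : ℝ) (F : ℂ × ℂ → ℂ) : ℂ × ℂ → ℂ := fun u => F ((T⁻¹ : ℝ) • u)

/-- product test functions: `Φ₁` bounded with decay, `Φ₂` bounded, supported in the annulus
`a ≤ |u| ≤ b`. -/
structure ProdF (a b C : ℝ) (Φ₁ Φ₂ : ℂ → ℂ) : Prop where
  apos : 0 < a
  ab : a ≤ b
  m1 : Measurable Φ₁
  m2 : Measurable Φ₂
  dec1 : ∀ z, ‖Φ₁ z‖ ≤ C * (1 + ‖z‖) ^ (-(12 : ℝ))
  bd2 : ∀ z, ‖Φ₂ z‖ ≤ C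
  supp2 : ∀ z, ‖z‖ < a ∨ b < ‖z‖ → Φ₂ z = 0

/-- `F_κ(u₁,u₂) = κ^{-2} Φ₁(u₁/κ) Φ₂(u₂)`. -/
def FK (κ : ℝ) (Φ₁ Φ₂ : ℂ → ℂ) : ℂ × ℂ → ℂ :=
  fun u => ((κ ^ (-(2 : ℝ)) : ℝ) : ℂ) * Φ₁ (((κ⁻¹ : ℝ) : ℂ) * u.1) * Φ₂ u.2

/-- **(M-GA)** Gram asymptotics, uniform in everything:
`|Gram(F_{κ,T}, F_{κ,T'}) - c (TT')^{8/3} κ^{-4/3} BB| ≤ C ((TT')^{4-θ} κ^{-θ} + (TT')² κ^{-2})`. -/
def GA (ww : ℝ → ℝ) : Prop :=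
  ∃ c : ℝ, 0 < c ∧ ∀ θ : ℝ, 4 / 3 < θ → θ < 2 → ∀ a b C₀ : ℝ, ∃ C : ℝ, ∀ Φ₁ Φ₂ : ℂ → ℂ,
    ProdF a b C₀ Φ₁ Φ₂ → ∀ κ T T' : ℝ, 0 < κ → κ ≤ 1 → 0 < T → 0 < T' →
    ‖Gram ww (fun _ => 1) (dil T (FK κ Φ₁ Φ₂)) (dil T' (FK κ Φ₁ Φ₂)) -
      ((c * (T * T') ^ ((8 : ℝ) / 3) * κ ^ (-(4 : ℝ) / 3) : ℝ) : ℂ) *
        BB (FK 1 Φ₁ Φ₂) (FK 1 Φ₁ Φ₂)‖ ≤
      C * ((T * T') ^ (4 - θ) * κ ^ (-θ) + (T * T') ^ (2 : ℝ) * κ ^ (-(2 : ℝ)))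

/-- **(M-GAp)** level `p`: no main term. -/
def GAp (ww : ℝ → ℝ) : Prop :=
  ∀ p : Eis, Prime p → IsPrim p → ∀ θ : ℝ, 4 / 3 < θ → θ < 2 → ∀ a b C₀ : ℝ, ∃ C : ℝ,
    ∀ Φ₁ Φ₂ : ℂ → ℂ, ProdF a b C₀ Φ₁ Φ₂ → ∀ T : ℝ, 0 < T →
    ‖Gram ww (bP p) (dil T (FK 1 Φ₁ Φ₂)) (dil T (FK 1 Φ₁ Φ₂))‖ ≤
      C * (T ^ (8 - 2 * θ) + T ^ (4 : ℝ))

/-- **(M-GAl)** angular case: no main term at all. -/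
def GAl (ww : ℝ → ℝ) : Prop :=
  ∀ a b C₀ : ℝ, ∃ C : ℝ, ∀ (l : ℤ) (Φ₁ Φ₂ : ℂ → ℂ), l ≠ 0 → ProdF a b C₀ Φ₁ Φ₂ →
    (∀ z u : ℂ, ‖u‖ = 1 → Φ₁ (u * z) = Φ₁ z) →
    (∀ z u : ℂ, ‖u‖ = 1 → Φ₂ (u * z) = u ^ l * Φ₂ z) →
    ∀ κ T : ℝ, 0 < κ → κ ≤ 1 → 0 < T →
    ‖Gram ww (fun _ => 1) (dil T (FK κ Φ₁ Φ₂)) (dil T (FK κ Φ₁ Φ₂))‖ ≤
      C * (T ^ (4 : ℝ) * κ ^ (-(2 : ℝ)))

/-! ## Flat test functions -/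

/-- smooth compactly supported weights on `(0,∞)`. -/
structure Wt (v : ℝ → ℂ) : Prop where
  smooth : ContDiff ℝ ((⊤ : ℕ∞) : WithTop ℕ∞) v
  supp : ∃ a b : ℝ, 0 < a ∧ a < b ∧ ∀ x, x < a ∨ b < x → v x = 0

/-- `Φ₂(u) = |u| v(|u|²) (u/|u|)^l |u|^{2iτ}`. -/
def Phi2 (v : ℝ → ℂ) (l : ℤ) (τ : ℝ) (u : ℂ) : ℂ :=
  ((‖u‖ : ℝ) : ℂ) * v (‖u‖ ^ 2) * (u / ((‖u‖ : ℝ) : ℂ)) ^ l *
    ((‖u‖ : ℝ) : ℂ) ^ (2 * (τ : ℂ) * Complex.I)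

/-- `Φ₁`: radial, Schwartz, with `∫ Φ₁(z) e(-ξ z) dz = 1` for `|ξ| ≤ 1`. -/
structure Flat (Φ₁ : ℂ → ℂ) : Prop where
  cont : Continuous Φ₁
  rad : ∀ z u : ℂ, ‖u‖ = 1 → Φ₁ (u * z) = Φ₁ z
  dec : ∀ n : ℕ, ∃ C : ℝ, ∀ z, ‖Φ₁ z‖ ≤ C * (1 + ‖z‖) ^ (-(n : ℝ))
  flat : ∀ ξ : ℂ, ‖ξ‖ ≤ 1 → ∫ z : ℂ, Φ₁ z * eC (-(ξ * z)) = 1

/-- **(M-FL)** there is a flat `Φ₁` such that smearing by `κ z q` does not change `Φ₂`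
up to `O_J((κ(1+|τ|))^J (1+|α|)^{-6})`, uniformly.  (`ξ α` is what stays bounded: for small `|α|`
the left integral is tiny by decay of `Φ₁` whatever `ξ` is.) -/
def FL : Prop :=
  ∃ Φ₁ : ℂ → ℂ, Flat Φ₁ ∧
    ∀ v : ℝ → ℂ, Wt v → ∃ c₀ : ℝ, 0 < c₀ ∧ ∀ (l : ℤ) (J : ℕ), ∃ C : ℝ,
      ∀ (τ κ : ℝ) (q α ξ : ℂ), 0 < κ → κ ≤ 1 → ‖q‖ ≤ 2 → ‖ξ‖ * ‖α‖ ≤ c₀ →
      ‖(∫ z : ℂ, Φ₁ z * Phi2 v l τ (α + (κ : ℂ) * q * z) * eC (-(ξ * z))) - Phi2 v l τ α‖ ≤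
        C * (κ * (1 + |τ|)) ^ J * (1 + ‖α‖) ^ (-(6 : ℝ))

/-! ## The sums `S_h` and the mean-square theorem -/

/-- `S_h(X) = Σ_{d ≡ 1 (3)} g̃(h,d) (d/|d|)^l v(N d/X) (N d)^{iτ}`, `g̃(h,d) = g(h,d)/√N(d)`. -/
def SS (l : ℤ) (τ : ℝ) (v : ℝ → ℂ) (h : Eis) (X : ℝ) : ℂ := by
  classical
  exact ∑' d : Eis, (if IsPrim d then
    gs h d / ((Real.sqrt (nm d) : ℝ) : ℂ) * ang l d * v (nm d / X) *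
      (nm d : ℂ) ^ ((τ : ℂ) * Complex.I) else 0)

/-- sums with the level-`p` weight. -/
def SSp (p : Eis) (v : ℝ → ℂ) (h : Eis) (X : ℝ) : ℂ := by
  classical
  exact ∑' d : Eis, (if IsPrim d then
    aP p d * (gs h d / ((Real.sqrt (nm d) : ℝ) : ℂ)) * v (nm d / X) else 0)

/-- **(M-ST)** one dyadic step: two scales `X` and `r X`, `1 ≤ r ≤ 2`. -/
def ST : Prop :=
  ∀ (l : ℤ) (v : ℝ → ℂ), Wt v → ∀ δ : ℝ, 0 < δ → ∃ C : ℝ, ∀ (N : ℕ) (X r τ : ℝ),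
    1 ≤ N → 0 < X → 1 ≤ r → r ≤ 2 →
    ∑ h ∈ ball N, ‖SS l τ v h X - (r : ℂ) ^ (-((5 : ℂ) / 6 + τ * Complex.I)) * SS l τ v h (r * X)‖ ^ 2 ≤
      C * ((1 + |τ|) * (1 + X)) ^ δ * ((N + τ ^ 2) * X)

/-- **(M-STl)** angular case. -/
def STl : Prop :=
  ∀ (l : ℤ) (v : ℝ → ℂ), l ≠ 0 → Wt v → ∀ δ : ℝ, 0 < δ → ∃ C : ℝ, ∀ (N : ℕ) (X τ : ℝ),
    1 ≤ N → 0 < X →
    ∑ h ∈ ball N, ‖SS l τ v h X‖ ^ 2 ≤ C * ((1 + |τ|) * (1 + X)) ^ δ * ((N + τ ^ 2) * X)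

/-- **(M-STp)** level `p`, fixed `h` (exponent any number `< 5/6`). -/
def STp : Prop :=
  ∀ (v : ℝ → ℂ), Wt v → ∀ p : Eis, Prime p → IsPrim p → ∀ h : Eis, ∃ C : ℝ, ∀ X : ℝ, 1 ≤ X →
    ‖SSp p v h X‖ ≤ C * X ^ ((3 : ℝ) / 4)

/-- **(M-MS)** mean square theorem with residues `ρ` (`X > 0` arbitrary). -/
def MS (ρ : Eis → ℂ) : Prop :=
  ∀ (l : ℤ) (v : ℝ → ℂ), Wt v → ∀ δ : ℝ, 0 < δ → ∃ C : ℝ, ∀ (N : ℕ) (X τ : ℝ),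
    1 ≤ N → 0 < X →
    ∑ h ∈ ball N, ‖SS l τ v h X - (if l = 0 then
        ρ h * mellin v ((5 : ℂ) / 6 + τ * Complex.I) * (X : ℂ) ^ ((5 : ℂ) / 6 + τ * Complex.I)
        else 0)‖ ^ 2 ≤
      C * ((1 + |τ|) * (1 + X) * N) ^ δ * ((N + τ ^ 2) * X)

/-- **(M-MS1)** the same for `X ≥ 1` only (this is what 384/663 have to deliver;
`MS1 ρ → MS ρ` is proved in `MSgen_49`). -/
def MS1 (ρ : Eis → ℂ) : Prop :=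
  ∀ (l : ℤ) (v : ℝ → ℂ), Wt v → ∀ δ : ℝ, 0 < δ → ∃ C : ℝ, ∀ (N : ℕ) (X τ : ℝ),
    1 ≤ N → 1 ≤ X →
    ∑ h ∈ ball N, ‖SS l τ v h X - (if l = 0 then
        ρ h * mellin v ((5 : ℂ) / 6 + τ * Complex.I) * (X : ℂ) ^ ((5 : ℂ) / 6 + τ * Complex.I)
        else 0)‖ ^ 2 ≤
      C * ((1 + |τ|) * X * N) ^ δ * ((N + τ ^ 2) * X)

/-- **(M-R)** relations between the residues. -/
structure RhoRel (ρ : Eis → ℂ) : Prop where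
  one_p : ∀ p h : Eis, Prime p → IsPrim p → ¬ p ∣ h →
    ρ (h * p) = (starRingEnd ℂ) (gs h p / ((Real.sqrt (nm p) : ℝ) : ℂ)) *
      (((nm p : ℝ) ^ (-(1 : ℝ) / 6) : ℝ) : ℂ) * ρ h
  two_p : ∀ p h : Eis, Prime p → IsPrim p → ¬ p ∣ h → ρ (h * p ^ 2) = 0
  three_p : ∀ p h : Eis, Prime p → IsPrim p → ρ (h * p ^ 3) = ρ h

/-- `ζ_K(2)` without the factor at 3. -/
def zeta2 : ℝ := by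
  classical
  exact ∑' m : Eis, (if IsPrim m then 1 / (nm m : ℝ) ^ 2 else 0)

/-- density of squarefree primary elements: `#{b sqfree primary, N b ≤ x} ~ Dsf x`. -/
def Dsf : ℝ := 2 * Real.pi / (9 * Real.sqrt 3) / zeta2

/-- **(M-C)** `|ρ(1)|² = (pC Dsf)²`, **(M-Sg)** sign. -/
def RhoOne (ρ : Eis → ℂ) : Prop := ρ 1 = ((pC * Dsf : ℝ) : ℂ)

/-! ## Final output of (M) -/

/-- Type I sums `Σ_b G(ab) λ^l(b) v(N b/X) N(b)^{iτ}`. -/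
def TT (l : ℤ) (τ : ℝ) (v : ℝ → ℂ) (a : Eis) (X : ℝ) : ℂ := by
  classical
  exact ∑' b : Eis, (if IsPrim b then
    G (a * b) * ang l b * v (nm b / X) * (nm b : ℂ) ^ ((τ : ℂ) * Complex.I) else 0)

/-- `∏_{p ∣ a} (1 + 1/N p)^{-1}` for squarefree primary `a`. -/
def ga (a : Eis) : ℝ :=
  ((UniqueFactorizationMonoid.factors a).map (fun p => (1 + 1 / (nm p : ℝ))⁻¹)).prod

/-- **(M-FINAL)** Type I in mean square, for squarefree primary moduli. -/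
def TypeI : Prop :=
  ∀ (l : ℤ) (v : ℝ → ℂ), Wt v → ∀ δ : ℝ, 0 < δ → ∃ C : ℝ, ∀ (N : ℕ) (X τ : ℝ),
    1 ≤ N → 0 < X →
    ∑ a ∈ (by classical exact (primBall N).filter (fun a => Squarefree a)),
      ‖TT l τ v a X - (if l = 0 then
        ((pC * Dsf * ga a * (nm a : ℝ) ^ (-(1 : ℝ) / 6) : ℝ) : ℂ) *
        mellin v ((5 : ℂ) / 6 + τ * Complex.I) * (X : ℂ) ^ ((5 : ℂ) / 6 + τ * Complex.I)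
        else 0)‖ ^ 2 ≤
      C * ((1 + |τ|) * (1 + X) * N) ^ δ * ((N + τ ^ 2) * X)

end Crest.Agent.R012.M49
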