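import Crest.Agent.R012.Rho_777
import Crest.Agent.R012.SpecM_49
import Crest.Agent.R012.Gauss_880
import Crest.Agent.R012.Sym4_645
import Crest.Agent.R012.Dec_766

/-!
# Row 12, item MC2: from the interface `SpecM_49` to the hypotheses of `Rho_777`
-/

set_option autoImplicit false
set_option linter.unusedSimpArgs false
set_option linter.unusedVariables false

noncomputable section

open Complex Filter Topology

namespace Crest.Agent.R012.Rho777

open Crest.Agent.R012 Crest.Agent.R012.Eis Crest.Agent.R012.MC Crest.Agent.R012.Gauss880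
open Crest.Agent.R012.Sym645 (prim_induction)
open Crest.Agent.R012.Char766 (exists_prim_cubic_decomp)

/-! ### the mean square theorem -/

lemma wt_of_wgt {v : ℝ → ℝ} (hv : Wgt v) : M49.Wt (fun x => ((v x : ℝ) : ℂ)) := by
  obtain ⟨a, b, ha, hab, h⟩ := hv.exists_bounds
  refine ⟨Complex.ofRealCLM.contDiff.comp hv.smooth, a, b, ha, hab, fun x hx => ?_⟩
  have : v x = 0 := by
    by_contra hne
    obtain ⟨h1, h2⟩ := h x hne
    rcases hx with hx | hx <;> linarith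
  simp [this]

lemma SS_eq_Mg (v : ℝ → ℝ) (h : Eis) (X : ℝ) :
    M49.SS 0 0 (fun x => ((v x : ℝ) : ℂ)) h X = Mg v X h := by
  unfold M49.SS Mg
  apply tsum_congr
  intro d
  split_ifs with hd
  · simp [ang]
  · rfl

lemma mellin_eq_mel {v : ℝ → ℝ} (s : ℝ) :
    mellin (fun x => ((v x : ℝ) : ℂ)) (s : ℂ) = ((mel v s : ℝ) : ℂ) := by
  unfold mellin mel
  rw [← integral_complex_ofReal]
  apply MeasureTheory.setIntegral_congr_fun measurableSet_Ioi
  intro x hx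
  simp only [Set.mem_Ioi] at hx
  simp only [smul_eq_mul]
  rw [show (s : ℂ) - 1 = ((s - 1 : ℝ) : ℂ) by push_cast; ring, ← Complex.ofReal_cpow hx.le]
  push_cast
  ring

/-- The mean square theorem of `SpecM_49` gives `TI` for every nonzero `r`. -/
theorem TI_of_MS {ρ : Eis → ℂ} (hMS : M49.MS ρ) {r : Eis} (hr : r ≠ 0) : TI ρ r := by
  intro v hv ε hε
  obtain ⟨C, hC⟩ := hMS 0 _ (wt_of_wgt hv) ε hε
  have hR : (1 : ℝ) ≤ nm r := by exact_mod_cast nm_pos.mpr hr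
  refine ⟨|C| * (2 * nm r : ℝ) ^ ε * nm r, fun A B hA hAB => ?_⟩
  have hA0 : 0 < A := by linarith
  have hB0 : 0 < B := by linarith
  have hB1 : 1 ≤ B := by linarith
  set N : ℕ := nm r * ⌊A⌋₊ with hN
  have hfl : 1 ≤ ⌊A⌋₊ := Nat.le_floor (by simpa using hA)
  have hN1 : 1 ≤ N := Nat.mul_pos (nm_pos.mpr hr) hfl
  have h := hC N B 0 hN1 hB0
  -- compare the left sides
  have hle : ∑ a ∈ primBall ⌊A⌋₊,
      ‖Mg v B (r * a) - ρ (r * a) * ((mel v (5 / 6) * B ^ (5 / 6 : ℝ) : ℝ) : ℂ)‖ ^ 2 ≤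
      ∑ h ∈ ball N, ‖M49.SS 0 0 (fun x => ((v x : ℝ) : ℂ)) h B - (if (0 : ℤ) = 0 then
        ρ h * mellin (fun x => ((v x : ℝ) : ℂ)) ((5 : ℂ) / 6 + (0 : ℝ) * Complex.I) *
          (B : ℂ) ^ ((5 : ℂ) / 6 + (0 : ℝ) * Complex.I) else 0)‖ ^ 2 := by
    have hinj : Set.InjOn (fun a : Eis => r * a) ((primBall ⌊A⌋₊ : Finset Eis) : Set Eis) :=
      fun a _ b _ hab => mul_left_cancel₀ hr hab
    have e : ∑ a ∈ primBall ⌊A⌋₊,
        ‖Mg v B (r * a) - ρ (r * a) * ((mel v (5 / 6) * B ^ (5 / 6 : ℝ) : ℝ) : ℂ)‖ ^ 2 =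
        ∑ h ∈ (primBall ⌊A⌋₊).image (fun a => r * a),
        ‖Mg v B h - ρ h * ((mel v (5 / 6) * B ^ (5 / 6 : ℝ) : ℝ) : ℂ)‖ ^ 2 := by
      rw [Finset.sum_image hinj]
    rw [e]
    have e2 : ∀ h : Eis, ‖M49.SS 0 0 (fun x => ((v x : ℝ) : ℂ)) h B - (if (0 : ℤ) = 0 then
        ρ h * mellin (fun x => ((v x : ℝ) : ℂ)) ((5 : ℂ) / 6 + (0 : ℝ) * Complex.I) *
          (B : ℂ) ^ ((5 : ℂ) / 6 + (0 : ℝ) * Complex.I) else 0)‖ ^ 2 =
        ‖Mg v B h - ρ h * ((mel v (5 / 6) * B ^ (5 / 6 : ℝ) : ℝ) : ℂ)‖ ^ 2 := by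
      intro h
      rw [if_pos rfl, SS_eq_Mg]
      have h1 : ((5 : ℂ) / 6 + (0 : ℝ) * Complex.I) = ((5 / 6 : ℝ) : ℂ) := by push_cast; ring
      rw [h1, mellin_eq_mel, ← Complex.ofReal_cpow hB0.le]
      push_cast
      ring_nf
    rw [Finset.sum_congr rfl (fun h _ => e2 h)]
    apply Finset.sum_le_sum_of_subset_of_nonneg
    · intro h hh
      obtain ⟨a, ha, rfl⟩ := Finset.mem_image.mp hh
      rw [mem_ball, nm_mul, hN]
      exact Nat.mul_le_mul_left _ (mem_primBall.mp ha).1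
    · intro i _ _; positivity
  refine hle.trans (h.trans ?_)
  -- compare the right sides
  have hNA : (N : ℝ) ≤ nm r * A := by
    rw [hN]; push_cast
    exact mul_le_mul_of_nonneg_left (Nat.floor_le hA0.le) (by positivity)
  have hN0 : (0 : ℝ) < N := by exact_mod_cast hN1
  simp only [abs_zero, add_zero, one_mul, ne_eq, OfNat.ofNat_ne_zero, not_false_eq_true, zero_pow]
  have b1 : ((1 + B) * N) ^ ε ≤ (2 * nm r : ℝ) ^ ε * (A * B) ^ ε := by
    rw [← Real.mul_rpow (by positivity) (by positivity)]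
    apply Real.rpow_le_rpow (by positivity) _ hε.le
    calc (1 + B) * N ≤ (2 * B) * (nm r * A) :=
          mul_le_mul (by linarith) hNA hN0.le (by positivity)
      _ = 2 * nm r * (A * B) := by ring
  have b2 : (N : ℝ) * B ≤ nm r * (A * B) := by
    calc (N : ℝ) * B ≤ (nm r * A) * B := mul_le_mul_of_nonneg_right hNA hB0.le
      _ = nm r * (A * B) := by ring
  calc C * ((1 + B) * N) ^ ε * ((N : ℝ) * B)
      ≤ |C| * ((1 + B) * N) ^ ε * ((N : ℝ) * B) := by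
        apply mul_le_mul_of_nonneg_right _ (by positivity)
        exact mul_le_mul_of_nonneg_right (le_abs_self C) (by positivity)
    _ ≤ |C| * ((2 * nm r : ℝ) ^ ε * (A * B) ^ ε) * (nm r * (A * B)) := by
        apply mul_le_mul _ b2 (by positivity) (by positivity)
        exact mul_le_mul_of_nonneg_left b1 (abs_nonneg _)
    _ = |C| * (2 * nm r : ℝ) ^ ε * nm r * (A * B) * (A * B) ^ ε := by ring

/-! ### the relations between the residues -/

/-- `r` is divisible by no primary prime, i.e. `r = unit · λ^j`. -/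
def Lamish (r : Eis) : Prop := r ≠ 0 ∧ ∀ p, Prime p → IsPrim p → ¬ p ∣ r

lemma lamish_one : Lamish 1 :=
  ⟨one_ne_zero, fun p hp _ h => hp.not_isUnit (isUnit_of_dvd_one h)⟩

lemma Lamish.isCoprime {r : Eis} (hr : Lamish r) {c : Eis} (hc : IsPrim c) : IsCoprime r c := by
  refine isCoprime_of_prime_dvd (fun h => hc.ne_zero h.2) (fun q hq hqr hqc => ?_)
  have hql : ¬ lam ∣ q := fun h => hc.not_lam_dvd (h.trans hqc)
  have h1 : Prime (prim q) := (prim_associated q).prime_iff.mp hq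
  exact hr.2 (prim q) h1 (prim_isPrim hql) ((prim_associated q).symm.dvd.trans hqr)

/-- `gs r c = 0` for non-squarefree primary `c`. -/
lemma gs_zero (H : SyG) {r : Eis} (hr : Lamish r) (c : Eis) (hc : IsPrim c)
    (hsf : ¬ Squarefree c) : gs r c = 0 := by
  rw [gs_of_coprime H hc (hr.isCoprime hc), gs_one_eq_zero H hc hsf, mul_zero]

lemma rho_cube_pow {ρ : Eis → ℂ} (hρ : M49.RhoRel ρ) {k : Eis} (hk : IsPrim k) :
    ∀ h : Eis, ρ (h * k ^ 3) = ρ h := by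
  refine prim_induction ?_ ?_ hk
  · intro h; simp
  · intro p b hp hpp hb ih h
    rw [mul_pow, show h * (p ^ 3 * b ^ 3) = (h * b ^ 3) * p ^ 3 by ring, hρ.three_p p _ hp hpp, ih]

lemma rho_sqf (H : SyG) {ρ : Eis → ℂ} (hρ : M49.RhoRel ρ) {r : Eis} (hr : Lamish r) {a : Eis}
    (ha : IsPrim a) : Squarefree a →
    ρ (r * a) = (starRingEnd ℂ) (Gr r a) * (((nm a : ℝ) ^ (-1 / 6 : ℝ) : ℝ) : ℂ) * ρ r := by
  refine prim_induction ?_ ?_ ha
  · intro _
    have h1 : gs r 1 = 1 := by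
      rw [gs_of_coprime H isPrim_one isCoprime_one_right]
      have h2 : ‖gs 1 1‖ ^ 2 = nm 1 := norm_gs_sq H isPrim_one squarefree_one isCoprime_one_right
      have h3 : gs (1 : Eis) 1 = gs 1 1 * gs 1 1 := by
        simpa using gs_mul' H isPrim_one isPrim_one isCoprime_one_right 1
      have h4 : gs (1 : Eis) 1 ≠ 0 := by
        intro h; rw [h] at h2; simp at h2
      have h5 : gs (1 : Eis) 1 = 1 :=
        mul_left_cancel₀ h4 (by rw [mul_one]; exact h3.symm)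
      have h6 : sy r 1 = 1 := by simp [sy, UniqueFactorizationMonoid.factors_one]
      rw [h5, h6]; simp
    simp [Gr, h1]
  · intro p b hp hpp hb ih hsf
    have hsb : Squarefree b := hsf.of_mul_right
    have hpb : ¬ p ∣ b := by
      intro h
      obtain ⟨t, rfl⟩ := h
      exact hp.not_isUnit (hsf p ⟨t, by ring⟩)
    have hprb : ¬ p ∣ r * b := by
      intro h
      rcases hp.dvd_or_dvd h with h | h
      · exact hr.2 p hp hpp h
      · exact hpb h
    rw [show r * (p * b) = (r * b) * p by ring, hρ.one_p p (r * b) hp hpp hprb, ih hsb]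
    have hcop : IsCoprime p b := hp.irreducible.coprime_iff_not_dvd.mpr hpb
    have hg := gs_mul' H hpp hb hcop r
    have hp0 : (0 : ℝ) < nm p := by exact_mod_cast nm_pos.mpr hp.ne_zero
    have hb0 : (0 : ℝ) < nm b := by exact_mod_cast nm_pos.mpr hb.ne_zero
    have e1 : (((nm (p * b) : ℕ) : ℝ)) = nm p * nm b := by rw [nm_mul]; push_cast; ring
    unfold Gr
    rw [hg, e1, Real.sqrt_mul hp0.le, Real.mul_rpow hp0.le hb0.le]
    have e2 : (-(1 : ℝ) / 6) = (-1 / 6 : ℝ) := by norm_num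
    rw [e2]
    simp only [map_div₀, map_mul, Complex.ofReal_mul]
    ring

lemma rhoR_of_rhoRel (H : SyG) {ρ : Eis → ℂ} (hρ : M49.RhoRel ρ) {r : Eis} (hr : Lamish r) :
    RhoR ρ r := by
  constructor
  · intro a k ha hk hsa
    rw [← mul_assoc, rho_cube_pow hρ hk, rho_sqf H hρ hr ha hsa]
  · intro a ha hne
    obtain ⟨k1, k2, m, h1, h2, h3, s1, s2, hc, rfl⟩ := exists_prim_cubic_decomp ha
    have hk2 : k2 ≠ 1 := by
      rintro rfl
      exact hne ⟨k1, m, h1, h3, s1, by ring⟩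
    obtain ⟨p, hp, hpp, hpk⟩ := exists_prim_prime_dvd h2 hk2
    obtain ⟨t, rfl⟩ := hpk
    rw [show r * (k1 * (p * t) ^ 2 * m ^ 3) = (r * k1 * t ^ 2 * p ^ 2) * m ^ 3 by ring,
      rho_cube_pow hρ h3]
    apply hρ.two_p p _ hp hpp
    intro h
    rcases hp.dvd_or_dvd h with h | h
    · rcases hp.dvd_or_dvd h with h | h
      · exact hr.2 p hp hpp h
      · have := hc.isUnit_of_dvd' h (dvd_mul_right p t)
        exact hp.not_isUnit this
    · have h' := hp.dvd_of_dvd_pow h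
      obtain ⟨s, rfl⟩ := h'
      exact hp.not_isUnit (s2 p ⟨s, by ring⟩)

/-- **Item MC2, final form**: from the interface of part (M). -/
theorem rho_sq_of_spec (H : SyG) {ρ : Eis → ℂ} (hMS : M49.MS ρ) (hρ : M49.RhoRel ρ) {r : Eis}
    (hr : Lamish r) {κ δ : ℝ} (hδ : 0 < δ) (hδ1 : δ < 1)
    (hR : ∀ w v : ℝ → ℝ, Wgt w → Wgt v →
      Tendsto (fun B : ℝ => SwR r w v (B ^ (1 - δ)) B /
        ((B ^ (2 / 3 * (1 - δ) + 5 / 6 : ℝ) : ℝ) : ℂ)) atTop
      (𝓝 ((8 * Real.pi / 81 * Dc * Iw w * mel v (5 / 6) * κ : ℝ) : ℂ)))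
    (hT : ∀ w : ℝ → ℝ, Wgt w → Iw w = Real.pi ^ (1 / 3 : ℝ) * 2 ^ (-5 / 3 : ℝ) *
      Real.Gamma (1 / 3) / Real.Gamma (2 / 3) * mel w (2 / 3)) :
    ‖ρ r‖ ^ 2 = (pC * Dc) ^ 2 * κ :=
  rho_sq (gs_zero H hr) (TI_of_MS hMS hr.1) (rhoR_of_rhoRel H hρ hr) hδ hδ1 hR hT

lemma Dsf_eq : M49.Dsf = Dc := by
  unfold M49.Dsf Dc M49.zeta2 Zc
  congr 1
  apply tsum_congr
  intro m
  split_ifs
  · rw [one_div]
  · rfl

end Crest.Agent.R012.Rho777
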