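import Crest.Agent.R012.RhoSym_51

/-!
# Row 12, part (Sg): `ρ(1) = pC · Dsf` from its absolute value and the inversion identity
-/

set_option autoImplicit false
set_option linter.unusedVariables false

noncomputable section

open Filter Topology MeasureTheory Set

namespace Crest.Agent.R012.Sg51

open Eis M49

lemma pC_pos : 0 < pC := by
  unfold pC
  have : 0 < Real.Gamma (2 / 3) := Real.Gamma_pos_of_pos (by norm_num)
  positivity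

lemma zeta2_nonneg : 0 ≤ zeta2 := by
  unfold zeta2
  apply tsum_nonneg
  intro m
  split_ifs <;> positivity

lemma Dsf_nonneg : 0 ≤ Dsf := by
  unfold Dsf
  have := zeta2_nonneg
  positivity

theorem rhoOne_of {ρ : Eis → ℂ} (hpos : 0 < (ρ 1).re) (him : (ρ 1).im = 0)
    (hsq : ‖ρ 1‖ ^ 2 = (pC * Dsf) ^ 2) : RhoOne ρ := by
  unfold RhoOne
  have h1 : ρ 1 = (((ρ 1).re : ℝ) : ℂ) := by
    apply Complex.ext
    · simp
    · simp [him]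
  have h2 : ‖ρ 1‖ = (ρ 1).re := by
    rw [h1, Complex.norm_real, Real.norm_of_nonneg]
    · simp
    · simpa using hpos.le
  rw [h2] at hsq
  have h3 : (ρ 1).re = pC * Dsf := by
    have h4 : 0 ≤ pC * Dsf := mul_nonneg pC_pos.le Dsf_nonneg
    exact (pow_left_inj₀ hpos.le h4 (by norm_num)).mp hsq
  rw [h1, h3]

/-- **Sign of `ρ(1)` from the identity of helper131**, with a phase `eps k` equal to `1` when
`3 ∣ k.im`. -/
theorem rho_one_pos_MS {ρ : Eis → ℂ} (H : MS ρ) (HR : RhoRel ρ)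
    (h18 : ∀ u : Eis, IsUnit u → ∀ j : ℕ, j ≤ 2 → ‖ρ (u * lam ^ j)‖ ≤ ‖ρ 1‖)
    (h18v : ∀ u : Eis, IsUnit u → ∀ j : ℕ, j ≤ 2 → ¬ 3 ∣ (u * lam ^ j).im →
      ρ (u * lam ^ j) = 0)
    (ξ : Eis → ℂ) (C0 A : ℝ) (hC0 : 0 < C0) (hA : 0 < A)
    (hξ : ∀ r : Eis, ‖ξ r‖ = ‖toC r‖ / (3 * Real.sqrt 3))
    (eps : Eis → ℂ) (heps : ∀ k : Eis, 3 ∣ k.im → eps k = 1)
    (hid : ((C0 * (y0 ^ ((2 : ℝ) / 3) - y0 ^ (-(2 : ℝ) / 3)) : ℝ) : ℂ) =
      ∑' r : Eis, (if r = 0 then 0 else (eps r * ρ r) * ((A : ℂ) *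
        (((y0 ^ (-(2 : ℝ) / 3) : ℝ) : ℂ) * Jf (ξ r * ((y0⁻¹ : ℝ) : ℂ)) -
          ((y0 ^ ((2 : ℝ) / 3) : ℝ) : ℂ) * Jf (ξ r * ((y0 : ℝ) : ℂ)))))) :
    0 < (ρ 1).re := by
  obtain ⟨hle, hvan⟩ := rho_bd HR (rho_lam3 H) h18 h18v
  apply rho_one_pos_J ρ ξ C0 A hC0 hA hξ hle hvan (rho_neg H 1) (rho_one_im H)
  rw [hid]
  apply tsum_congr
  intro r
  split_ifs with hr
  · rfl
  · by_cases h3 : 3 ∣ r.im
    · rw [heps r h3, one_mul]
    · rw [hvan r h3, mul_zero]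

end Crest.Agent.R012.Sg51
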