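import Crest.Agent.R012.KRho_813
import Mathlib.Analysis.Calculus.BumpFunction.FiniteDimension

/-!
# Row 12, (ML): K1 implies K3 (second part)
-/

set_option autoImplicit false

noncomputable section

open MeasureTheory Set Filter Complex
open scoped ENNReal Topology ContDiff ComplexConjugate

namespace Crest.Agent.R012.KRho813

open Crest.Agent.R012 Crest.Agent.R012.Eis Crest.Agent.R012.Parseval499
open Crest.Agent.R012.StripCo813 Crest.Agent.R012.Four813 Crest.Agent.R012.ML384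

/-! ### profiles -/

/-- smooth with support in `[a,b]`. -/
structure Sup (a b : ℝ) (om : ℝ → ℂ) : Prop where
  cd : ContDiff ℝ ∞ om
  supp : ∀ x, x < a ∨ b < x → om x = 0

lemma Sup.hcs {a b : ℝ} {om : ℝ → ℂ} (h : Sup a b om) : HasCompactSupport om := by
  refine HasCompactSupport.intro (isCompact_Icc (a := a) (b := b)) fun x hx => ?_
  refine h.supp x ?_
  by_contra hc
  push Not at hc
  exact hx hc

lemma _root_.Crest.Agent.R012.ML384.Cls.sup {a b K T : ℝ} {om : ℝ → ℂ} (h : Cls a b K T om) :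
    Sup a b om := ⟨h.cd, h.supp⟩

lemma Sup.om1 {a b : ℝ} {om : ℝ → ℂ} (h : Sup a b om) : Sup a b (om1 om) where
  cd := by
    have hd : ContDiff ℝ ∞ (deriv om) := by
      have := contDiff_infty_iff_deriv.mp h.cd
      exact this.2
    unfold KRho813.om1
    exact (contDiff_const.mul h.cd).sub (Complex.ofRealCLM.contDiff.mul hd)
  supp x hx := by
    rcases hx with hx | hx
    · exact om1_supp' (fun y hy => h.supp y (Or.inl hy)) x hx
    · exact om1_supp (fun y hy => h.supp y (Or.inr hy)) x hx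

lemma Sup.bound {a b : ℝ} {om : ℝ → ℂ} (h : Sup a b om) :
    ∃ K : ℝ, 0 ≤ K ∧ ∀ j : ℕ, j ≤ 2 → ∀ x, ‖iteratedDeriv j om x‖ ≤ K := by
  have h1 : ∀ j : ℕ, ∃ K : ℝ, ∀ x, ‖iteratedDeriv j om x‖ ≤ K := by
    intro j
    have hc : Continuous (iteratedFDeriv ℝ j om) :=
      h.cd.continuous_iteratedFDeriv (by exact_mod_cast le_top)
    obtain ⟨K, hK⟩ := (h.hcs.iteratedFDeriv (𝕜 := ℝ) j).exists_bound_of_continuous hc
    refine ⟨K, fun x => ?_⟩
    rw [← norm_iteratedFDeriv_eq_norm_iteratedDeriv]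
    exact hK x
  choose K hK using h1
  refine ⟨|K 0| + |K 1| + |K 2|, by positivity, fun j hj x => ?_⟩
  have h0 := abs_nonneg (K 0)
  have h1 := abs_nonneg (K 1)
  have h2 := abs_nonneg (K 2)
  refine (hK j x).trans ?_
  interval_cases j
  · linarith [le_abs_self (K 0)]
  · linarith [le_abs_self (K 1)]
  · linarith [le_abs_self (K 2)]

lemma Sup.cls {a b : ℝ} {om : ℝ → ℂ} (h : Sup a b om) :
    ∃ K : ℝ, 0 ≤ K ∧ ∀ T : ℝ, 1 ≤ T → Cls a b K T om := by
  obtain ⟨K, hK0, hK⟩ := h.bound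
  refine ⟨K, hK0, fun T hT => ⟨h.cd, h.supp, fun j hj x => (hK j hj x).trans ?_⟩⟩
  exact le_mul_of_one_le_right hK0 (one_le_pow₀ hT)

lemma continuous_third : Continuous fun x : ℝ => ((x ^ ((1 : ℝ) / 3) : ℝ) : ℂ) :=
  Complex.continuous_ofReal.comp (Real.continuous_rpow_const (by norm_num))

lemma Sup.integrable {a b : ℝ} {om : ℝ → ℂ} (h : Sup a b om) :
    Integrable fun x : ℝ => om x * ((x ^ ((1 : ℝ) / 3) : ℝ) : ℂ) := by
  refine Continuous.integrable_of_hasCompactSupport (h.cd.continuous.mul continuous_third) ?_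
  exact h.hcs.mul_right

lemma mom_sub_smul {a b a' b' : ℝ} {om om' : ℝ → ℂ} (h : Sup a b om) (h' : Sup a' b' om')
    (c : ℂ) : mom (fun x => om x - c * om' x) = mom om - c * mom om' := by
  unfold mom
  rw [← integral_const_mul, ← integral_sub h.integrable.integrableOn
    (h'.integrable.integrableOn.const_mul c)]
  refine integral_congr_ae (Eventually.of_forall fun x => ?_)
  simp only
  ring

lemma mom_om1 {a b : ℝ} {om : ℝ → ℂ} (h : Sup a b om) : mom (om1 om) = 0 := by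
  have hd : Differentiable ℝ om := h.cd.differentiable (by simp)
  have hF : ∀ x ∈ Ici (0 : ℝ), HasDerivAt (fun x : ℝ => om x * ((x ^ ((4 : ℝ) / 3) : ℝ) : ℂ))
      (-(om1 om x * ((x ^ ((1 : ℝ) / 3) : ℝ) : ℂ))) x := by
    intro x hx
    have hx0 : (0 : ℝ) ≤ x := hx
    have h1 : HasDerivAt (fun y : ℝ => y ^ ((4 : ℝ) / 3)) (((4 : ℝ) / 3) * x ^ ((4 : ℝ) / 3 - 1)) x :=
      Real.hasDerivAt_rpow_const (Or.inr (by norm_num))
    refine ((hd x).hasDerivAt.fun_mul h1.ofReal_comp).congr_deriv ?_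
    have e1 : (4 : ℝ) / 3 - 1 = 1 / 3 := by norm_num
    have e2 : x ^ ((4 : ℝ) / 3) = x * x ^ ((1 : ℝ) / 3) := by
      rw [← Real.rpow_one_add' hx0 (by norm_num)]
      norm_num
    rw [e1, e2]
    unfold om1
    push_cast
    ring
  have hlim : Tendsto (fun x : ℝ => om x * ((x ^ ((4 : ℝ) / 3) : ℝ) : ℂ)) atTop (𝓝 0) := by
    refine tendsto_const_nhds.congr' ?_
    filter_upwards [eventually_gt_atTop b] with x hx
    rw [h.supp x (Or.inr hx), zero_mul]
  have hI := integral_Ioi_of_hasDerivAt_of_tendsto' hF h.om1.integrable.integrableOn.neg hlim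
  unfold mom
  rw [integral_neg] at hI
  have e0 : ((0 : ℝ) ^ ((4 : ℝ) / 3) : ℝ) = 0 := Real.zero_rpow (by norm_num)
  rw [e0] at hI
  simpa using hI

lemma norm_mom_le {a b K T : ℝ} {om : ℝ → ℂ} (h : Cls a b K T om) (ha : 0 < a) (hb : a ≤ b)
    (hK : 0 ≤ K) : ‖mom om‖ ≤ K * (b * b ^ ((1 : ℝ) / 3)) := by
  have h1 : mom om = ∫ x in Ioc (0 : ℝ) b, om x * ((x ^ ((1 : ℝ) / 3) : ℝ) : ℂ) := by
    unfold mom
    rw [← integral_indicator measurableSet_Ioi, ← integral_indicator measurableSet_Ioc]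
    congr 1
    funext x
    by_cases hx : x ∈ Ioc (0 : ℝ) b
    · rw [indicator_of_mem hx, indicator_of_mem (show x ∈ Ioi (0 : ℝ) from hx.1)]
    · rw [indicator_of_notMem hx]
      by_cases hx0 : x ∈ Ioi (0 : ℝ)
      · rw [indicator_of_mem hx0, h.supp x (Or.inr ?_), zero_mul]
        by_contra hc
        exact hx ⟨hx0, not_lt.mp hc⟩
      · rw [indicator_of_notMem hx0]
  rw [h1]
  have hb0 : 0 < b := ha.trans_le hb
  have h2 := norm_setIntegral_le_of_norm_le_const (μ := volume) (s := Ioc (0 : ℝ) b)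
    (f := fun x => om x * ((x ^ ((1 : ℝ) / 3) : ℝ) : ℂ)) (C := K * b ^ ((1 : ℝ) / 3))
    (by simp) (fun x hx => by
      rw [norm_mul, Complex.norm_real, Real.norm_of_nonneg (Real.rpow_nonneg hx.1.le _)]
      have h3 := h.bd 0 (by norm_num) x
      simp only [iteratedDeriv_zero, pow_zero, mul_one] at h3
      have h4 : x ^ ((1 : ℝ) / 3) ≤ b ^ ((1 : ℝ) / 3) :=
        Real.rpow_le_rpow hx.1.le hx.2 (by norm_num)
      have := Real.rpow_nonneg hx.1.le ((1 : ℝ) / 3)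
      gcongr)
  refine h2.trans (le_of_eq ?_)
  rw [Real.volume_real_Ioc_of_le hb0.le]
  ring

/-- A fixed profile with `∫ om x^{1/3} = 1`. -/
lemma exists_om0 : ∃ om0 : ℝ → ℂ, Sup 1 2 om0 ∧ mom om0 = 1 := by
  let f : ContDiffBump (3 / 2 : ℝ) := ⟨1 / 4, 1 / 2, by norm_num, by norm_num⟩
  have hs0 : ∀ x : ℝ, x < 1 ∨ 2 < x → f x = 0 := by
    intro x hx
    refine f.zero_of_le_dist ?_
    change (1 / 2 : ℝ) ≤ dist x (3 / 2)
    rw [Real.dist_eq]
    rcases hx with hx | hx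
    · rw [abs_of_neg (by linarith)]; linarith
    · rw [abs_of_pos (by linarith)]; linarith
  have hS : Sup 1 2 (fun x => (f x : ℂ)) := by
    refine ⟨?_, fun x hx => by rw [hs0 x hx]; simp⟩
    exact Complex.ofRealCLM.contDiff.comp f.contDiff
  set c : ℝ := ∫ x in Ioi (0 : ℝ), f x * x ^ ((1 : ℝ) / 3) with hc
  have hmc : mom (fun x => (f x : ℂ)) = (c : ℂ) := by
    unfold mom
    rw [hc, ← integral_complex_ofReal]
    refine integral_congr_ae (Eventually.of_forall fun x => ?_)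
    simp
  have hc0 : 0 < c := by
    rw [hc, setIntegral_pos_iff_support_of_nonneg_ae]
    · have : Ioo (5 / 4 : ℝ) (7 / 4) ⊆
          (Function.support fun x : ℝ => f x * x ^ ((1 : ℝ) / 3)) ∩ Ioi 0 := by
        intro x hx
        have hx0 : 0 < x := by linarith [hx.1]
        refine ⟨?_, hx0⟩
        rw [Function.mem_support]
        refine mul_ne_zero ?_ (by positivity)
        refine (f.pos_of_mem_ball ?_).ne'
        have hr : f.rOut = 1 / 2 := rfl
        rw [Metric.mem_ball, Real.dist_eq, abs_lt, hr]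
        constructor <;> linarith [hx.1, hx.2]
      refine lt_of_lt_of_le ?_ (measure_mono this)
      simp
      norm_num
    · refine (ae_restrict_iff' measurableSet_Ioi).mpr (Eventually.of_forall fun x hx => ?_)
      have := f.nonneg' x
      have hx0 : 0 < x := hx
      simp only [Pi.zero_apply]
      positivity
    · refine Integrable.integrableOn ?_
      have h := hS.integrable
      have h2 := h.re
      refine h2.congr (Eventually.of_forall fun x => ?_)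
      simp
  refine ⟨fun x => 0 - (-(c : ℂ)⁻¹) * (f x : ℂ), ⟨?_, ?_⟩, ?_⟩
  · exact contDiff_const.sub (contDiff_const.mul hS.cd)
  · intro x hx
    rw [hs0 x hx]; simp
  · have h := mom_sub_smul (a := 1) (b := 2) (om := fun _ => 0) ⟨contDiff_const, fun _ _ => rfl⟩ hS
      (-(c : ℂ)⁻¹)
    rw [h, hmc]
    have : mom (fun _ => 0) = 0 := by simp [mom]
    rw [this]
    have hc' : (c : ℂ) ≠ 0 := by exact_mod_cast hc0.ne'
    field_simp
    ring

/-! ### the bound integrated over scales -/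

lemma RH_scale {C r K T B τ k : ℝ} (hC : 0 ≤ C) (hr : 0 < r) (hB : 0 < B) (hT : 1 ≤ T)
    (hτ : 0 < τ) (hk : 1 ≤ k) : RH C r K T (k * B) τ ≤ k ^ (2 + τ) * RH C r K T B τ := by
  unfold RH
  have hk0 : 0 < k := by linarith
  have h1 : (1 + k * B) ^ τ ≤ k ^ τ * (1 + B) ^ τ := by
    rw [← Real.mul_rpow hk0.le (by linarith)]
    exact Real.rpow_le_rpow (by positivity) (by nlinarith) hτ.le
  have h2 : k ^ (2 + τ) = k ^ 2 * k ^ τ := by
    rw [Real.rpow_add hk0]; norm_num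
  rw [h2]
  calc C * ((1 + r ^ 4) * (r ^ 4)⁻¹ * K ^ 2 * (k * B) ^ 2 * (T ^ 2)⁻¹ * (1 + k * B) ^ τ)
      ≤ C * ((1 + r ^ 4) * (r ^ 4)⁻¹ * K ^ 2 * (k * B) ^ 2 * (T ^ 2)⁻¹ *
          (k ^ τ * (1 + B) ^ τ)) := by gcongr
    _ = _ := by ring

lemma RH_nonneg {C r K T B τ : ℝ} (hC : 0 ≤ C) (hB : 0 < B) : 0 ≤ RH C r K T B τ := by
  unfold RH
  have : 0 ≤ (r ^ 4)⁻¹ := by positivity
  positivity

/-- The integral over the scales of the K1 bound. -/
theorem int_scales {F : ℝ → ℝ≥0∞} {C r K T B τ : ℝ} (hC : 0 ≤ C) (hr : 0 < r) (hB : 0 < B)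
    (hT : 1 ≤ T) (hτ : 0 < τ) (hτ' : τ ≤ 1 / 6)
    (hF : ∀ k, 1 < k → F k ≤ ENNReal.ofReal (RH C r K T (k * B) τ)) :
    ∫⁻ k in Ioi (1 : ℝ), ENNReal.ofReal (k ^ (-(10 : ℝ) / 3)) * F k ≤
      ENNReal.ofReal (6 * RH C r K T B τ) := by
  have hR := RH_nonneg (r := r) (K := K) (T := T) (τ := τ) hC hB
  calc ∫⁻ k in Ioi (1 : ℝ), ENNReal.ofReal (k ^ (-(10 : ℝ) / 3)) * F k
      ≤ ∫⁻ k in Ioi (1 : ℝ), ENNReal.ofReal (k ^ (-(4 : ℝ) / 3 + τ)) *
          ENNReal.ofReal (RH C r K T B τ) := by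
        refine setLIntegral_mono' measurableSet_Ioi fun k hk => ?_
        have hk1 : (1 : ℝ) < k := hk
        have hk0 : 0 < k := by linarith
        refine (mul_le_mul_right (hF k hk1) _).trans ?_
        rw [← ENNReal.ofReal_mul (by positivity), ← ENNReal.ofReal_mul (by positivity)]
        refine ENNReal.ofReal_le_ofReal ?_
        calc k ^ (-(10 : ℝ) / 3) * RH C r K T (k * B) τ
            ≤ k ^ (-(10 : ℝ) / 3) * (k ^ (2 + τ) * RH C r K T B τ) := by
              gcongr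
              exact RH_scale hC hr hB hT hτ hk1.le
          _ = k ^ (-(4 : ℝ) / 3 + τ) * RH C r K T B τ := by
              rw [← mul_assoc, ← Real.rpow_add hk0]
              ring_nf
    _ = (∫⁻ k in Ioi (1 : ℝ), ENNReal.ofReal (k ^ (-(4 : ℝ) / 3 + τ))) *
          ENNReal.ofReal (RH C r K T B τ) := lintegral_mul_const' _ _ ENNReal.ofReal_ne_top
    _ ≤ ENNReal.ofReal 6 * ENNReal.ofReal (RH C r K T B τ) := by
        gcongr
        rw [lint_rpow (by linarith) one_pos]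
        refine ENNReal.ofReal_le_ofReal ?_
        rw [Real.one_rpow, div_le_iff_of_neg (by linarith)]
        linarith
    _ = _ := by rw [← ENNReal.ofReal_mul (by norm_num)]

/-! ### existence of the limit from K1 -/

lemma exists_phi0 : ∃ φ0 : ℂ → ℂ, TestFn286.SP (1 / 4) φ0 ∧ phat φ0 0 ≠ 0 := by
  let f : ContDiffBump (0 : ℂ) := ⟨1 / 8, 1 / 4, by norm_num, by norm_num⟩
  refine ⟨fun z => (f z : ℂ), ⟨?_, ?_⟩, ?_⟩
  · exact Complex.ofRealCLM.contDiff.comp f.contDiff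
  · intro z hz
    rw [f.zero_of_le_dist ?_]
    · simp
    · change (1 / 4 : ℝ) ≤ dist z 0
      rw [dist_zero_right]; exact hz.le
  · have h1 : phat (fun z => (f z : ℂ)) 0 = ((∫ z, f z : ℝ) : ℂ) := by
      unfold phat
      rw [← integral_complex_ofReal]
      refine integral_congr_ae (Eventually.of_forall fun z => ?_)
      simp
    rw [h1]
    have h2 : 0 < ∫ z, f z := f.integral_pos
    exact_mod_cast h2.ne'

lemma volume_ann_ne_zero : (volume : Measure ℂ) (ann 1 2) ≠ 0 := by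
  have h : Metric.ball (3 / 2 : ℂ) (1 / 4) ⊆ ann 1 2 := by
    intro z hz
    rw [Metric.mem_ball, dist_eq_norm] at hz
    have h3 : ‖(3 / 2 : ℂ)‖ = 3 / 2 := by norm_num
    have h1 := norm_sub_norm_le z (3 / 2)
    have h2 := norm_sub_norm_le (3 / 2) z
    rw [norm_sub_rev] at h2
    rw [h3] at h1 h2
    exact ⟨by linarith, by linarith⟩
  have h0 : 0 < (volume : Measure ℂ) (Metric.ball (3 / 2 : ℂ) (1 / 4)) :=
    Metric.measure_ball_pos _ _ (by norm_num)
  exact (h0.trans_le (measure_mono h)).ne'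

theorem finite_of_K1 (hK1 : K1_Prop) {om : ℝ → ℂ} (h : Sup 1 2 om) (hm : mom om = 0) (u : Eis) :
    ∃ Y0 : ℝ, 0 < Y0 ∧
      ∫⁻ y in Ioi Y0, ENNReal.ofReal (y ^ (-(10 : ℝ) / 3)) * ‖St om u y‖ₑ ^ 2 ≠ ⊤ := by
  obtain ⟨φ0, hφ, hφ0⟩ := exists_phi0
  obtain ⟨K, hK0, hK⟩ := h.cls
  obtain ⟨C, hC, hC1⟩ := hK1 1 2 0 φ0 (1 / 6) one_pos (by norm_num) hφ (by norm_num)
  have hint0 : Integrable φ0 := by
    have := integrable_dil hφ one_pos
    simpa using this
  -- choose `T`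
  have hcont := continuous_phat hint0
  have hev : ∀ᶠ ξ in 𝓝 (0 : ℂ), phat φ0 ξ ≠ 0 := hcont.continuousAt.eventually_ne hφ0
  obtain ⟨δ, hδ, hδ'⟩ := Metric.eventually_nhds_iff.mp hev
  obtain ⟨T, hT1, hT2⟩ : ∃ T : ℝ, 1 ≤ T ∧ 2 * ‖frq 3 u‖ / T < δ := by
    refine ⟨max 1 (2 * ‖frq 3 u‖ / δ + 1), le_max_left _ _, ?_⟩
    have h1 : 2 * ‖frq 3 u‖ / δ + 1 ≤ max 1 (2 * ‖frq 3 u‖ / δ + 1) := le_max_right _ _
    have h2 : 0 < max 1 (2 * ‖frq 3 u‖ / δ + 1) := lt_of_lt_of_le one_pos (le_max_left _ _)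
    rw [div_lt_iff₀ h2]
    have h3 : 2 * ‖frq 3 u‖ / δ < max 1 (2 * ‖frq 3 u‖ / δ + 1) := by linarith
    rw [div_lt_iff₀ hδ] at h3
    linarith
  have hT0 : 0 < T := by linarith
  have hw : ∀ v ∈ ann (1 : ℝ) (2 * 1), ∀ e ∈ ann (1 / 1 : ℝ) (2 / 1), 0 < wtB T φ0 u v e := by
    intro v hv e he
    have hv1 : (1 : ℝ) ≤ ‖v‖ := hv.1
    have he1 : (1 : ℝ) ≤ ‖e‖ := by have := he.1; simpa using this
    have he2 : ‖e‖ ≤ 2 := by have := he.2; simpa using this
    have hv0 : v ≠ 0 := by rw [← norm_pos_iff]; linarith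
    have he0 : e ≠ 0 := by rw [← norm_pos_iff]; linarith
    have hTc : (T : ℂ) ≠ 0 := by exact_mod_cast hT0.ne'
    have h1 : phat (fun p => φ0 ((T : ℂ) * p)) (frq 3 u * e / v) ≠ 0 := by
      have h2 : phat (fun p => φ0 ((T : ℂ) * p)) (frq 3 u * e / v) =
          ((‖(T : ℂ)‖ ^ 2)⁻¹ : ℝ) * phat φ0 (frq 3 u * e / v / (T : ℂ)) :=
        integral_dilate hTc φ0 _
      rw [h2]
      refine mul_ne_zero ?_ (hδ' ?_)
      · have : 0 < ‖(T : ℂ)‖ := norm_pos_iff.mpr hTc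
        exact_mod_cast (by positivity : (0 : ℝ) < (‖(T : ℂ)‖ ^ 2)⁻¹).ne'
      · rw [dist_zero_right, norm_div, norm_div, norm_mul, Complex.norm_real,
          Real.norm_of_nonneg hT0.le]
        refine lt_of_le_of_lt ?_ hT2
        have h3 := norm_nonneg (frq 3 u)
        gcongr
        rw [div_le_iff₀ (by linarith)]
        nlinarith
    unfold wtB
    have h4 : 0 < ‖phat (fun p => φ0 ((T : ℂ) * p)) (frq 3 u * e / v)‖ := norm_pos_iff.mpr h1
    have h5 : 0 < ‖e / v‖ := norm_pos_iff.mpr (div_ne_zero he0 hv0)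
    positivity
  set H : ℂ → ℝ≥0∞ := fun e => ∫⁻ k in Ioi (1 : ℝ), ENNReal.ofReal (k ^ (-(10 : ℝ) / 3)) *
        ‖St om u (k * (1 / ‖e‖ ^ 2))‖ₑ ^ 2 with hH
  have hton := tonelli h.cd.continuous (fun x hx => h.supp x (Or.inr hx)) (by norm_num) hφ hT0
    (r := 1) (B := 1) one_pos one_pos {u}
  have hfin : ∫⁻ v in ann (1 : ℝ) (2 * 1), ∫⁻ e in ann (1 / 1 : ℝ) (2 / 1),
      H e * ENNReal.ofReal (wtB T φ0 u v e) ≠ ⊤ := by
    simp only [Finset.sum_singleton] at hton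
    rw [hH, hton]
    refine ne_top_of_le_ne_top ENNReal.ofReal_ne_top
      (int_scales (C := C) (r := 1) (K := K) (T := T) (B := 1) (τ := 1 / 6) hC one_pos one_pos hT1
        (by norm_num) le_rfl fun k hk => ?_)
    exact hC1 K T om (k * 1) 1 {u} (hK T hT1) hK0 hT1 (by linarith) one_pos (Or.inr hm)
  obtain ⟨e, he, hHe⟩ : ∃ e ∈ ann (1 / 1 : ℝ) (2 / 1), H e ≠ ⊤ := by
    by_contra hc
    push Not at hc
    refine hfin ?_
    have h1 : ∫⁻ v in ann (1 : ℝ) (2 * 1), ∫⁻ e in ann (1 / 1 : ℝ) (2 / 1),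
        H e * ENNReal.ofReal (wtB T φ0 u v e) =
        ∫⁻ v in ann (1 : ℝ) (2 * 1), ∫⁻ e in ann (1 / 1 : ℝ) (2 / 1), ⊤ := by
      refine setLIntegral_congr_fun (measurableSet_ann _ _) fun v hv => ?_
      refine setLIntegral_congr_fun (measurableSet_ann _ _) fun e he => ?_
      rw [hc e he, ENNReal.top_mul]
      exact (ENNReal.ofReal_pos.mpr (hw v hv e he)).ne'
    rw [h1]
    have h2 : (volume : Measure ℂ) (ann (1 / 1 : ℝ) (2 / 1)) ≠ 0 := by
      simpa using volume_ann_ne_zero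
    have h3 : (volume : Measure ℂ) (ann (1 : ℝ) (2 * 1)) ≠ 0 := by
      simpa using volume_ann_ne_zero
    rw [setLIntegral_const, setLIntegral_const, ENNReal.top_mul h2, ENNReal.top_mul h3]
  have he0 : 0 < ‖e‖ := lt_of_lt_of_le (by norm_num) he.1
  refine ⟨1 / ‖e‖ ^ 2, by positivity, ?_⟩
  have hY : 0 < 1 / ‖e‖ ^ 2 := by positivity
  have h4 := lint_scale hY (fun y => ENNReal.ofReal (y ^ (-(10 : ℝ) / 3)) * ‖St om u y‖ₑ ^ 2) 1
  rw [one_mul] at h4
  rw [h4]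
  have h5 : ∫⁻ k in Ioi (1 : ℝ), ENNReal.ofReal ((k * (1 / ‖e‖ ^ 2)) ^ (-(10 : ℝ) / 3)) *
      ‖St om u (k * (1 / ‖e‖ ^ 2))‖ₑ ^ 2 = ENNReal.ofReal ((1 / ‖e‖ ^ 2) ^ (-(10 : ℝ) / 3)) *
      H e := by
    rw [hH]
    simp only
    rw [← lintegral_const_mul' _ _ ENNReal.ofReal_ne_top]
    refine setLIntegral_congr_fun measurableSet_Ioi fun k hk => ?_
    have hk0 : (0 : ℝ) < k := zero_lt_one.trans hk
    rw [Real.mul_rpow hk0.le hY.le, ENNReal.ofReal_mul (by positivity)]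
    ring
  rw [h5]
  exact ENNReal.mul_ne_top ENNReal.ofReal_ne_top (ENNReal.mul_ne_top ENNReal.ofReal_ne_top hHe)

/-! ### splitting -/

lemma St_split {a b a' b' : ℝ} {om om' : ℝ → ℂ} (h : Sup a b om) (h' : Sup a' b' om') (c : ℂ)
    (u : Eis) {Y : ℝ} (hY : 0 < Y) :
    St (fun x => om x - c * om' x) u Y = St om u Y - c * St om' u Y := by
  classical
  have hs : ∀ x, max b b' < x → om x = 0 := fun x hx => h.supp x (Or.inr ((le_max_left _ _).trans_lt hx))
  have hs' : ∀ x, max b b' < x → om' x = 0 :=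
    fun x hx => h'.supp x (Or.inr ((le_max_right _ _).trans_lt hx))
  have hs'' : ∀ x, max b b' < x → om x - c * om' x = 0 := by
    intro x hx; rw [hs x hx, hs' x hx]; simp
  obtain ⟨N, hN⟩ := exists_nat_ge (max b b' * Y)
  rw [St_eq_sum hs u hY hN, St_eq_sum hs' u hY hN, St_eq_sum hs'' u hY hN, Finset.mul_sum,
    ← Finset.sum_sub_distrib]
  refine Finset.sum_congr rfl fun d _ => ?_
  split_ifs
  · ring
  · simp

lemma enorm_add_sq_le (x y : ℂ) : ‖x + y‖ₑ ^ 2 ≤ 2 * ‖x‖ₑ ^ 2 + 2 * ‖y‖ₑ ^ 2 := by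
  have h : ‖x + y‖ ^ 2 ≤ 2 * ‖x‖ ^ 2 + 2 * ‖y‖ ^ 2 := by
    have h1 := norm_add_le x y
    have h2 := norm_nonneg (x + y)
    nlinarith [sq_nonneg (‖x‖ - ‖y‖)]
  have e : ∀ z : ℂ, ‖z‖ₑ ^ 2 = ENNReal.ofReal (‖z‖ ^ 2) := by
    intro z
    rw [ENNReal.ofReal_pow (norm_nonneg _), ofReal_norm]
  rw [e, e, e]
  have e2 : (2 : ℝ≥0∞) = ENNReal.ofReal 2 := by norm_num
  rw [e2, ← ENNReal.ofReal_mul (by norm_num), ← ENNReal.ofReal_mul (by norm_num),
    ← ENNReal.ofReal_add (by positivity) (by positivity)]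
  exact ENNReal.ofReal_le_ofReal h

lemma BX_congr {r T : ℝ} (hr : 0 < r) {φ0 : ℂ → ℂ} {S : Finset Eis} {f g : Eis → ℂ → ℂ}
    (h : ∀ u, ∀ e : ℂ, e ≠ 0 → f u e = g u e) : BX r T φ0 S f = BX r T φ0 S g := by
  unfold BX
  refine lintegral_congr fun v => ?_
  refine setLIntegral_congr_fun (measurableSet_ann _ _) fun e he => ?_
  have he0 : e ≠ 0 := by
    rw [← norm_pos_iff]; exact lt_of_lt_of_le (by positivity) he.1
  refine Finset.sum_congr rfl fun u _ => ?_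
  rw [h u e he0]

lemma BX_add_le {r T : ℝ} (hT : 0 < T) {φ0 : ℂ → ℂ} (hφ : TestFn286.SP (1 / 4) φ0)
    {S : Finset Eis} {f g : Eis → ℂ → ℂ} (hf : ∀ u, Measurable (f u)) :
    BX r T φ0 S (fun u e => f u e + g u e) ≤ 2 * BX r T φ0 S f + 2 * BX r T φ0 S g := by
  have hm : Measurable fun p : ℂ × ℂ =>
      ∑ u ∈ S, ‖f u p.2‖ₑ ^ 2 * ENNReal.ofReal (wtB T φ0 u p.1 p.2) := by
    refine Finset.measurable_fun_sum _ fun u _ => ?_
    have h1 : Measurable fun p : ℂ × ℂ => ‖f u p.2‖ₑ ^ 2 :=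
      ((hf u).comp measurable_snd).enorm.pow_const 2
    exact h1.mul (measurable_wtB hφ hT u).ennreal_ofReal
  have hm1 : ∀ v, Measurable fun e =>
      2 * ∑ u ∈ S, ‖f u e‖ₑ ^ 2 * ENNReal.ofReal (wtB T φ0 u v e) := by
    intro v
    exact (hm.comp (by fun_prop : Measurable fun e : ℂ => (v, e))).const_mul 2
  have hm2 : Measurable fun v => ∫⁻ e in ann (1 / r) (2 / r),
      2 * ∑ u ∈ S, ‖f u e‖ₑ ^ 2 * ENNReal.ofReal (wtB T φ0 u v e) :=
    (hm.const_mul 2).lintegral_prod_right'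
  unfold BX
  calc ∫⁻ v in ann r (2 * r), ∫⁻ e in ann (1 / r) (2 / r),
        ∑ u ∈ S, ‖f u e + g u e‖ₑ ^ 2 * ENNReal.ofReal (wtB T φ0 u v e)
      ≤ ∫⁻ v in ann r (2 * r), ∫⁻ e in ann (1 / r) (2 / r),
          (2 * ∑ u ∈ S, ‖f u e‖ₑ ^ 2 * ENNReal.ofReal (wtB T φ0 u v e) +
            2 * ∑ u ∈ S, ‖g u e‖ₑ ^ 2 * ENNReal.ofReal (wtB T φ0 u v e)) := by
        refine lintegral_mono fun v => lintegral_mono fun e => ?_
        rw [Finset.mul_sum, Finset.mul_sum, ← Finset.sum_add_distrib]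
        refine Finset.sum_le_sum fun u _ => ?_
        rw [← mul_assoc, ← mul_assoc, ← add_mul]
        gcongr
        exact enorm_add_sq_le _ _
    _ = ∫⁻ v in ann r (2 * r), ((∫⁻ e in ann (1 / r) (2 / r),
          2 * ∑ u ∈ S, ‖f u e‖ₑ ^ 2 * ENNReal.ofReal (wtB T φ0 u v e)) +
          ∫⁻ e in ann (1 / r) (2 / r),
            2 * ∑ u ∈ S, ‖g u e‖ₑ ^ 2 * ENNReal.ofReal (wtB T φ0 u v e)) := by
        refine lintegral_congr fun v => ?_
        exact lintegral_add_left (hm1 v) _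
    _ = (∫⁻ v in ann r (2 * r), ∫⁻ e in ann (1 / r) (2 / r),
          2 * ∑ u ∈ S, ‖f u e‖ₑ ^ 2 * ENNReal.ofReal (wtB T φ0 u v e)) +
          ∫⁻ v in ann r (2 * r), ∫⁻ e in ann (1 / r) (2 / r),
            2 * ∑ u ∈ S, ‖g u e‖ₑ ^ 2 * ENNReal.ofReal (wtB T φ0 u v e) :=
        lintegral_add_left hm2 _
    _ = _ := by
        have h2 : ∀ F : ℂ → ℂ → ℝ≥0∞, ∫⁻ v in ann r (2 * r), ∫⁻ e in ann (1 / r) (2 / r),
            2 * F v e = 2 * ∫⁻ v in ann r (2 * r), ∫⁻ e in ann (1 / r) (2 / r), F v e := by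
          intro F
          rw [← lintegral_const_mul' _ _ (by norm_num)]
          refine lintegral_congr fun v => ?_
          rw [← lintegral_const_mul' _ _ (by norm_num)]
        rw [h2, h2]

lemma BX_const_mul {r T : ℝ} {φ0 : ℂ → ℂ} {S : Finset Eis} (c : ℂ) (f : Eis → ℂ → ℂ) :
    BX r T φ0 S (fun u e => c * f u e) = ‖c‖ₑ ^ 2 * BX r T φ0 S f := by
  have hc : ‖c‖ₑ ^ 2 ≠ ⊤ := by finiteness
  unfold BX
  rw [← lintegral_const_mul' _ _ hc]
  refine lintegral_congr fun v => ?_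
  rw [← lintegral_const_mul' _ _ hc]
  refine lintegral_congr fun e => ?_
  rw [Finset.mul_sum]
  refine Finset.sum_congr rfl fun u _ => ?_
  rw [enorm_mul, mul_pow, mul_assoc]

/-! ### the theorem -/

theorem K3_of_K1 (hK1 : K1_Prop) : ∃ ρ : Eis → ℂ, K3_Prop ρ := by
  obtain ⟨om0, h0, hm0⟩ := exists_om0
  have hd0 : Differentiable ℝ om0 := h0.cd.differentiable (by simp)
  have hex : ∀ u : Eis, ∃ ρ : ℂ, ∀ Y, 0 < Y →
      ‖St om0 u Y - ((Y ^ ((4 : ℝ) / 3) : ℝ) : ℂ) * ρ‖ₑ ^ 2 ≤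
      3 * ∫⁻ k in Ioi (1 : ℝ), ENNReal.ofReal (k ^ (-(10 : ℝ) / 3)) *
        ‖St (om1 om0) u (k * Y)‖ₑ ^ 2 := by
    intro u
    obtain ⟨Y0, hY0, hfin⟩ := finite_of_K1 hK1 h0.om1 (mom_om1 h0) u
    exact St_bound hd0 h0.om1.cd.continuous (fun x hx => h0.supp x (Or.inr hx)) (by norm_num) u
      hY0 hfin
  choose ρ hρ using hex
  refine ⟨ρ, ?_⟩
  intro a b φ0 τ0 ha hab hφ hτ0
  obtain ⟨K0, hK0, hK0'⟩ := h0.bound
  obtain ⟨K1, hK1c, hK1'⟩ := h0.om1.cls
  set τ : ℝ := min τ0 (1 / 6) with hτdef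
  have hτ : 0 < τ := lt_min hτ0 (by norm_num)
  have hτ6 : τ ≤ 1 / 6 := min_le_right _ _
  have hττ : τ ≤ τ0 := min_le_left _ _
  obtain ⟨C1, hC1, hB1⟩ := hK1 (min a 1) (max b 2) 0 φ0 τ (lt_min ha one_pos)
    (by
      have h1 := min_le_right a 1
      have h2 := le_max_right b 2
      linarith) hφ hτ
  obtain ⟨C2, hC2, hB2⟩ := hK1 1 2 0 φ0 τ one_pos (by norm_num) hφ hτ
  set cm : ℝ := b * b ^ ((1 : ℝ) / 3) with hcm
  have hb0 : 0 < b := ha.trans_le hab
  have hcm0 : 0 ≤ cm := by positivity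
  refine ⟨2 * (C1 * (1 + cm * K0) ^ 2) + 36 * (cm ^ 2 * (C2 * K1 ^ 2)), by positivity, ?_⟩
  intro K T om B r S hom hK hT hB hr
  have hT0 : 0 < T := by linarith
  have hSup := hom.sup
  set m : ℂ := mom om with hmdef
  have hm : ‖m‖ ≤ K * cm := norm_mom_le hom ha hab hK
  set rest : ℝ → ℂ := fun x => om x - m * om0 x with hrest
  have hSr : Sup (min a 1) (max b 2) rest := by
    refine ⟨hom.cd.sub (contDiff_const.mul h0.cd), fun x hx => ?_⟩
    have h1 : om x = 0 := by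
      refine hom.supp x ?_
      rcases hx with hx | hx
      · exact Or.inl (hx.trans_le (min_le_left _ _))
      · exact Or.inr ((le_max_left _ _).trans_lt hx)
    have h2 : om0 x = 0 := by
      refine h0.supp x ?_
      rcases hx with hx | hx
      · exact Or.inl (hx.trans_le (min_le_right _ _))
      · exact Or.inr ((le_max_right _ _).trans_lt hx)
    simp only [hrest, h1, h2, mul_zero, sub_zero]
  have hmr : mom rest = 0 := by
    rw [hrest, mom_sub_smul hSup h0 m, hm0, ← hmdef]; ring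
  have hClr : Cls (min a 1) (max b 2) (K * (1 + cm * K0)) T rest := by
    refine ⟨hSr.cd, hSr.supp, fun j hj x => ?_⟩
    have h1 : iteratedDeriv j rest x = iteratedDeriv j om x - m * iteratedDeriv j om0 x := by
      have hc1 : ContDiffAt ℝ j om x := (hom.cd.of_le (by exact_mod_cast le_top)).contDiffAt
      have hc2 : ContDiffAt ℝ j om0 x := (h0.cd.of_le (by exact_mod_cast le_top)).contDiffAt
      have h2 : rest = om - fun x => m * om0 x := rfl
      rw [h2, iteratedDeriv_sub hc1 (contDiffAt_const.mul hc2), iteratedDeriv_const_mul _ hc2]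
    rw [h1]
    have hTj : 1 ≤ T ^ j := one_le_pow₀ hT
    calc ‖iteratedDeriv j om x - m * iteratedDeriv j om0 x‖
        ≤ ‖iteratedDeriv j om x‖ + ‖m‖ * ‖iteratedDeriv j om0 x‖ := by
          refine (norm_sub_le _ _).trans ?_
          rw [norm_mul]
      _ ≤ K * T ^ j + (K * cm) * K0 := by
          have := hom.bd j hj x
          have := hK0' j hj x
          gcongr
      _ ≤ K * T ^ j + (K * cm) * K0 * T ^ j := by
          have : 0 ≤ (K * cm) * K0 := by positivity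
          nlinarith
      _ = K * (1 + cm * K0) * T ^ j := by ring
  -- the two pieces
  have hBr := hB1 (K * (1 + cm * K0)) T rest B r S hClr (by positivity) hT hB hr (Or.inr hmr)
  set f1 : Eis → ℂ → ℂ := fun u e => Sm rest u (B / ‖e‖ ^ 2) with hf1
  set f2 : Eis → ℂ → ℂ := fun u e =>
    St om0 u (B / ‖e‖ ^ 2) - (((B / ‖e‖ ^ 2) ^ ((4 : ℝ) / 3) : ℝ) : ℂ) * ρ u with hf2
  have hsplit : BX r T φ0 S (fun u e => Sg (fun _ => 1) (Uf om 0 B) u e -
        (((B / ‖e‖ ^ 2) ^ ((4 : ℝ) / 3) : ℝ) : ℂ) * m * ρ u) =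
      BX r T φ0 S (fun u e => f1 u e + m * f2 u e) := by
    refine BX_congr hr fun u e he => ?_
    have hY : 0 < B / ‖e‖ ^ 2 := by
      have := norm_pos_iff.mpr he
      positivity
    rw [Sg_Uf_zero, hf1, hf2]
    simp only
    rw [Sm_eq _ _ hY, hrest, St_split hSup h0 m u hY]
    ring
  have hf1m : ∀ u, Measurable (f1 u) := by
    intro u
    exact (measurable_Sm hSr.cd.continuous (fun x hx => hSr.supp x (Or.inr hx))
      (le_trans (by norm_num) (le_max_right b 2)) u).comp (by fun_prop)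
  have hBf1 : BX r T φ0 S f1 ≤ ENNReal.ofReal (RH C1 r (K * (1 + cm * K0)) T B τ) := by
    refine le_trans (le_of_eq ?_) hBr
    refine BX_congr hr fun u e he => ?_
    have hY : 0 < B / ‖e‖ ^ 2 := by
      have := norm_pos_iff.mpr he
      positivity
    rw [Sg_Uf_zero, hf1]
    simp only
    rw [Sm_eq _ _ hY]
  have hBf2 : BX r T φ0 S f2 ≤ 3 * ENNReal.ofReal (6 * RH C2 r K1 T B τ) := by
    have hton := tonelli h0.om1.cd.continuous (fun x hx => h0.om1.supp x (Or.inr hx))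
      (by norm_num) hφ hT0 hr hB S
    calc BX r T φ0 S f2
        ≤ ∫⁻ v in ann r (2 * r), ∫⁻ e in ann (1 / r) (2 / r), 3 * ∑ u ∈ S,
          (∫⁻ k in Ioi (1 : ℝ), ENNReal.ofReal (k ^ (-(10 : ℝ) / 3)) *
            ‖St (om1 om0) u (k * (B / ‖e‖ ^ 2))‖ₑ ^ 2) * ENNReal.ofReal (wtB T φ0 u v e) := by
          unfold BX
          refine lintegral_mono fun v => ?_
          refine setLIntegral_mono' (measurableSet_ann _ _) fun e he => ?_
          have he0 : 0 < ‖e‖ := lt_of_lt_of_le (by positivity) he.1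
          rw [Finset.mul_sum]
          refine Finset.sum_le_sum fun u _ => ?_
          rw [← mul_assoc]
          gcongr
          exact hρ u (B / ‖e‖ ^ 2) (by positivity)
      _ = 3 * ∫⁻ v in ann r (2 * r), ∫⁻ e in ann (1 / r) (2 / r), ∑ u ∈ S,
          (∫⁻ k in Ioi (1 : ℝ), ENNReal.ofReal (k ^ (-(10 : ℝ) / 3)) *
            ‖St (om1 om0) u (k * (B / ‖e‖ ^ 2))‖ₑ ^ 2) * ENNReal.ofReal (wtB T φ0 u v e) := by
          rw [← lintegral_const_mul' _ _ (by norm_num)]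
          refine lintegral_congr fun v => ?_
          rw [← lintegral_const_mul' _ _ (by norm_num)]
      _ ≤ _ := by
          rw [hton]
          gcongr
          refine int_scales hC2 hr hB hT hτ hτ6 fun k hk => ?_
          exact hB2 K1 T (om1 om0) (k * B) r S (hK1' T hT) hK1c hT (by positivity) hr
            (Or.inr (mom_om1 h0))
  rw [hsplit]
  refine (BX_add_le hT0 hφ hf1m).trans ?_
  rw [BX_const_mul]
  have hme : ‖m‖ₑ ^ 2 ≤ ENNReal.ofReal ((K * cm) ^ 2) := by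
    rw [← ofReal_norm, ← ENNReal.ofReal_pow (norm_nonneg _)]
    refine ENNReal.ofReal_le_ofReal ?_
    have := norm_nonneg m
    gcongr
  have hR1 := RH_nonneg (r := r) (K := K * (1 + cm * K0)) (T := T) (τ := τ) hC1 hB
  have hR2 := RH_nonneg (r := r) (K := K1) (T := T) (τ := τ) hC2 hB
  calc 2 * BX r T φ0 S f1 + 2 * (‖m‖ₑ ^ 2 * BX r T φ0 S f2)
      ≤ 2 * ENNReal.ofReal (RH C1 r (K * (1 + cm * K0)) T B τ) +
        2 * (ENNReal.ofReal ((K * cm) ^ 2) * (3 * ENNReal.ofReal (6 * RH C2 r K1 T B τ))) := by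
        gcongr
    _ = ENNReal.ofReal (2 * RH C1 r (K * (1 + cm * K0)) T B τ +
        36 * ((K * cm) ^ 2 * RH C2 r K1 T B τ)) := by
        rw [ENNReal.ofReal_add (by positivity) (by positivity)]
        have e2 : (2 : ℝ≥0∞) = ENNReal.ofReal 2 := by norm_num
        have e3 : (3 : ℝ≥0∞) = ENNReal.ofReal 3 := by norm_num
        rw [e2, e3, ← ENNReal.ofReal_mul (by norm_num), ← ENNReal.ofReal_mul (by norm_num),
          ← ENNReal.ofReal_mul (by positivity), ← ENNReal.ofReal_mul (by norm_num)]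
        congr 2
        ring
    _ ≤ _ := by
        refine ENNReal.ofReal_le_ofReal ?_
        unfold RH
        have hpow : (1 + B) ^ τ ≤ (1 + B) ^ τ0 :=
          Real.rpow_le_rpow_of_exponent_le (by linarith) hττ
        have hX : 0 ≤ (r ^ 4)⁻¹ := by positivity
        calc 2 * (C1 * ((1 + r ^ 4) * (r ^ 4)⁻¹ * (K * (1 + cm * K0)) ^ 2 * B ^ 2 * (T ^ 2)⁻¹ *
              (1 + B) ^ τ)) + 36 * ((K * cm) ^ 2 * (C2 * ((1 + r ^ 4) * (r ^ 4)⁻¹ * K1 ^ 2 * B ^ 2 *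
              (T ^ 2)⁻¹ * (1 + B) ^ τ)))
            = (2 * (C1 * (1 + cm * K0) ^ 2) + 36 * (cm ^ 2 * (C2 * K1 ^ 2))) *
              ((1 + r ^ 4) * (r ^ 4)⁻¹ * K ^ 2 * B ^ 2 * (T ^ 2)⁻¹ * (1 + B) ^ τ) := by ring
          _ ≤ _ := by gcongr

end Crest.Agent.R012.KRho813
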