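import Crest.Agent.R012.SpecK_384
import Crest.Agent.R012.SpecM_49

/-!
# Row 12, (ML): `K1_Prop → K3_Prop ρ → Lim4 φ (ρ/π)`

Adapter between `SpecK_384` and the final Type I assembly.
-/

set_option autoImplicit false

noncomputable section

open MeasureTheory Set Filter Complex
open scoped ENNReal Topology ContDiff

namespace Crest.Agent.R012.Lim4_47

open Crest.Agent.R012 Crest.Agent.R012.Parseval499 Crest.Agent.R012.StripCo813
open Crest.Agent.R012.Four813 Crest.Agent.R012.ML384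

/-- `w(|z|²/B) |z|^{2it} (z/|z|)^l`. -/
def Ww (w : ℝ → ℂ) (t : ℝ) (l : ℤ) (B : ℝ) (z : ℂ) : ℂ :=
  w (‖z‖ ^ 2 / B) * ((‖z‖ : ℝ) : ℂ) ^ (2 * (t : ℂ) * I) * (z / ((‖z‖ : ℝ) : ℂ)) ^ l

/-- `∫ U(z) |z|^(2/3) dz` -/
def mU (U : ℂ → ℂ) : ℂ := ∫ z : ℂ, U z * ((‖z‖ ^ (2 / 3 : ℝ) : ℝ) : ℂ)

/-- The limit theorem, `t`-uniform form. -/
def Lim4 (phi : ℂ → ℂ) (rho : Eis → ℂ) : Prop :=
  ∀ (l : ℤ) (w : ℝ → ℂ) (d : ℝ), 0 < d → M49.Wt w →
    ∃ C : ℝ, 0 ≤ C ∧ ∀ (t s B r : ℝ), 0 < s → s * (1 + |t|) ≤ 1 → 0 < B → 0 < r →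
      ∀ S : Finset Eis,
      ∫⁻ v in ann r (2 * r), ∫⁻ e in ann (1 / r) (2 / r), ∑ u ∈ S,
        ENNReal.ofReal (‖Sg (fun _ => 1) (Ww w t l B) u e -
            mU (fun z => Ww w t l B (z * e)) * rho u‖ ^ 2 *
          (‖e / v‖ ^ 4 * ‖phat (fun z => phi (z / s)) (frq 3 u * e / v)‖ ^ 2)) ≤
        ENNReal.ofReal (C * ((1 + r ^ 4) / r ^ 4) * (B ^ 2 * s ^ 2) * (1 + B) ^ d)

/-! ### the profile `w(x) x^{it}` -/

/-- `w(x) x^{it}`. -/
def omt (w : ℝ → ℂ) (t : ℝ) (x : ℝ) : ℂ := w x * (x : ℂ) ^ ((t : ℂ) * I)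

/-- `w(x) / x`. -/
def winv (w : ℝ → ℂ) (x : ℝ) : ℂ := ((x⁻¹ : ℝ) : ℂ) * w x

/-- smooth, supported in `[a,b]`. -/
structure SS (a b : ℝ) (w : ℝ → ℂ) : Prop where
  cd : ContDiff ℝ ∞ w
  supp : ∀ x, x < a ∨ b < x → w x = 0

section

variable {a b : ℝ} {w : ℝ → ℂ}

lemma SS.ev_zero (h : SS a b w) {x : ℝ} (hx : x < a ∨ b < x) :
    w =ᶠ[𝓝 x] fun _ => 0 := by
  rcases hx with hx | hx
  · filter_upwards [gt_mem_nhds hx] with y hy
    exact h.supp y (Or.inl hy)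
  · filter_upwards [lt_mem_nhds hx] with y hy
    exact h.supp y (Or.inr hy)

lemma SS.deriv (h : SS a b w) : SS a b (deriv w) where
  cd := (contDiff_infty_iff_deriv.mp h.cd).2
  supp x hx := by rw [(h.ev_zero hx).deriv_eq]; simp

lemma SS.winv (ha : 0 < a) (h : SS a b w) : SS a b (winv w) where
  cd := by
    rw [contDiff_iff_contDiffAt]
    intro x
    by_cases hx : x < a
    · have : Lim4_47.winv w =ᶠ[𝓝 x] fun _ => 0 := by
        filter_upwards [gt_mem_nhds hx] with y hy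
        simp [Lim4_47.winv, h.supp y (Or.inl hy)]
      exact contDiffAt_const.congr_of_eventuallyEq this
    · have hx0 : x ≠ 0 := by
        have : a ≤ x := not_lt.mp hx
        linarith
      unfold Lim4_47.winv
      refine ContDiffAt.mul ?_ (h.cd.contDiffAt)
      exact (Complex.ofRealCLM.contDiff.contDiffAt).comp x (contDiffAt_inv ℝ hx0)
  supp x hx := by simp [Lim4_47.winv, h.supp x hx]

lemma SS.bdd (h : SS a b w) : ∃ K : ℝ, 0 ≤ K ∧ ∀ x, ‖w x‖ ≤ K := by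
  obtain ⟨C, hC⟩ := (isCompact_Icc (a := a) (b := b)).exists_bound_of_continuousOn
    (h.cd.continuous.continuousOn)
  refine ⟨max C 0, le_max_right _ _, fun x => ?_⟩
  by_cases hx : x < a ∨ b < x
  · rw [h.supp x hx, norm_zero]; exact le_max_right _ _
  · rw [not_or, not_lt, not_lt] at hx
    exact (hC x ⟨hx.1, hx.2⟩).trans (le_max_left _ _)

lemma cpow_eq {x : ℝ} (hx : 0 < x) (t : ℝ) :
    (x : ℂ) ^ ((t : ℂ) * I) = cexp (((Real.log x : ℝ) : ℂ) * ((t : ℂ) * I)) := by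
  rw [Complex.cpow_def_of_ne_zero (by exact_mod_cast hx.ne'), Complex.ofReal_log hx.le]

lemma norm_cpow_it {x : ℝ} (hx : 0 < x) (t : ℝ) : ‖(x : ℂ) ^ ((t : ℂ) * I)‖ = 1 := by
  rw [Complex.norm_cpow_eq_rpow_re_of_pos hx]
  simp

lemma norm_omt (ha : 0 < a) (h : SS a b w) (t x : ℝ) : ‖omt w t x‖ = ‖w x‖ := by
  by_cases hx : x < a
  · simp [omt, h.supp x (Or.inl hx)]
  · have hx0 : 0 < x := lt_of_lt_of_le ha (not_lt.mp hx)
    rw [omt, norm_mul, norm_cpow_it hx0, mul_one]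

lemma hasDerivAt_cpow {x : ℝ} (hx : 0 < x) (t : ℝ) :
    HasDerivAt (fun y : ℝ => (y : ℂ) ^ ((t : ℂ) * I))
      (((x⁻¹ : ℝ) : ℂ) * ((t : ℂ) * I) * (x : ℂ) ^ ((t : ℂ) * I)) x := by
  have h1 : HasDerivAt (fun y : ℝ => cexp (((Real.log y : ℝ) : ℂ) * ((t : ℂ) * I)))
      (cexp (((Real.log x : ℝ) : ℂ) * ((t : ℂ) * I)) * (((x⁻¹ : ℝ) : ℂ) * ((t : ℂ) * I))) x := by
    have h2 : HasDerivAt (fun y : ℝ => ((Real.log y : ℝ) : ℂ)) ((x⁻¹ : ℝ) : ℂ) x :=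
      (Real.hasDerivAt_log hx.ne').ofReal_comp
    exact (h2.mul_const _).cexp
  rw [cpow_eq hx t]
  have h3 : (fun y : ℝ => (y : ℂ) ^ ((t : ℂ) * I)) =ᶠ[𝓝 x]
      fun y : ℝ => cexp (((Real.log y : ℝ) : ℂ) * ((t : ℂ) * I)) := by
    filter_upwards [lt_mem_nhds hx] with y hy
    exact cpow_eq hy t
  refine (h1.congr_of_eventuallyEq h3).congr_deriv ?_
  ring

lemma contDiffAt_cpow {x : ℝ} (hx : 0 < x) (t : ℝ) :
    ContDiffAt ℝ ∞ (fun y : ℝ => (y : ℂ) ^ ((t : ℂ) * I)) x := by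
  have h3 : (fun y : ℝ => (y : ℂ) ^ ((t : ℂ) * I)) =ᶠ[𝓝 x]
      fun y : ℝ => cexp (((Real.log y : ℝ) : ℂ) * ((t : ℂ) * I)) := by
    filter_upwards [lt_mem_nhds hx] with y hy
    exact cpow_eq hy t
  refine ContDiffAt.congr_of_eventuallyEq ?_ h3
  refine ContDiffAt.cexp ?_
  refine ContDiffAt.mul ?_ contDiffAt_const
  exact (Complex.ofRealCLM.contDiff.contDiffAt).comp x (Real.contDiffAt_log.mpr hx.ne')

lemma SS.omt (ha : 0 < a) (h : SS a b w) (t : ℝ) : SS a b (omt w t) where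
  cd := by
    rw [contDiff_iff_contDiffAt]
    intro x
    by_cases hx : x < a
    · have : Lim4_47.omt w t =ᶠ[𝓝 x] fun _ => 0 := by
        filter_upwards [gt_mem_nhds hx] with y hy
        simp [Lim4_47.omt, h.supp y (Or.inl hy)]
      exact contDiffAt_const.congr_of_eventuallyEq this
    · have hx0 : 0 < x := lt_of_lt_of_le ha (not_lt.mp hx)
      exact (h.cd.contDiffAt).mul (contDiffAt_cpow hx0 t)
  supp x hx := by simp [Lim4_47.omt, h.supp x hx]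

/-- `(w x^{it})' = w' x^{it} + it (w/x) x^{it}`. -/
lemma deriv_omt (ha : 0 < a) (h : SS a b w) (t : ℝ) :
    deriv (omt w t) = fun x => omt (deriv w) t x + ((t : ℂ) * I) * omt (winv w) t x := by
  funext x
  by_cases hx : x < a
  · rw [((h.omt ha t).ev_zero (Or.inl hx)).deriv_eq]
    simp [omt, winv, h.supp x (Or.inl hx), h.deriv.supp x (Or.inl hx)]
  · have hx0 : 0 < x := lt_of_lt_of_le ha (not_lt.mp hx)
    have h1 : HasDerivAt w (deriv w x) x := (h.cd.differentiable (by simp) x).hasDerivAt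
    have h2 := h1.mul (hasDerivAt_cpow hx0 t)
    have h3 : deriv (omt w t) x = _ := h2.deriv
    rw [h3]
    simp only [omt, winv]
    ring

lemma deriv_const_mul_omt (c : ℂ) (ha : 0 < a) (h : SS a b w) (t x : ℝ) :
    DifferentiableAt ℝ (fun x => c * omt w t x) x :=
  ((h.omt ha t).cd.differentiable (by simp) x).const_mul c

/-- uniform bounds of the derivatives. -/
theorem cls_omt (ha : 0 < a) (h : SS a b w) :
    ∃ K : ℝ, 0 ≤ K ∧ ∀ t T : ℝ, 1 + |t| ≤ T → Cls a b K T (omt w t) := by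
  obtain ⟨K0, hK0, h0⟩ := h.bdd
  obtain ⟨K1, hK1, h1⟩ := h.deriv.bdd
  obtain ⟨K2, hK2, h2⟩ := (h.winv ha).bdd
  obtain ⟨K3, hK3, h3⟩ := h.deriv.deriv.bdd
  obtain ⟨K4, hK4, h4⟩ := (h.deriv.winv ha).bdd
  obtain ⟨K5, hK5, h5⟩ := (h.winv ha).deriv.bdd
  obtain ⟨K6, hK6, h6⟩ := ((h.winv ha).winv ha).bdd
  refine ⟨K0 + K1 + K2 + K3 + K4 + K5 + K6, by positivity, fun t T hT => ?_⟩
  have ht : 0 ≤ |t| := abs_nonneg t
  have hT1 : 1 ≤ T := by linarith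
  have htT : |t| ≤ T := by linarith
  have hnt : ‖(t : ℂ) * I‖ = |t| := by
    rw [norm_mul, Complex.norm_I, mul_one, Complex.norm_real, Real.norm_eq_abs]
  have hom := h.omt ha t
  refine ⟨hom.cd, hom.supp, fun j hj x => ?_⟩
  have hTT : T ≤ T ^ 2 := by nlinarith
  interval_cases j
  · rw [iteratedDeriv_zero, pow_zero, mul_one, norm_omt ha h]
    have := h0 x
    linarith
  · rw [iteratedDeriv_one, pow_one, deriv_omt ha h]
    have e1 : ‖omt (deriv w) t x + (t : ℂ) * I * omt (winv w) t x‖ ≤ K1 + |t| * K2 := by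
      refine (norm_add_le _ _).trans ?_
      rw [norm_mul, hnt, norm_omt ha h.deriv, norm_omt ha (h.winv ha)]
      gcongr
      · exact h1 x
      · exact h2 x
    refine e1.trans ?_
    calc K1 + |t| * K2 ≤ K1 * T + T * K2 := by
          gcongr
          nlinarith
      _ ≤ (K0 + K1 + K2 + K3 + K4 + K5 + K6) * T := by nlinarith
  · rw [iteratedDeriv_succ, iteratedDeriv_one, deriv_omt ha h]
    have hd1 : DifferentiableAt ℝ (fun x => omt (deriv w) t x) x :=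
      (h.deriv.omt ha t).cd.differentiable (by simp) x
    have hd2 : DifferentiableAt ℝ (fun x => (t : ℂ) * I * omt (winv w) t x) x :=
      deriv_const_mul_omt _ ha (h.winv ha) t x
    have e0 : deriv (fun x => omt (deriv w) t x + (t : ℂ) * I * omt (winv w) t x) x =
        deriv (omt (deriv w) t) x + (t : ℂ) * I * deriv (omt (winv w) t) x := by
      rw [deriv_fun_add hd1 hd2]
      congr 1
      exact deriv_const_mul _ ((h.winv ha).omt ha t |>.cd.differentiable (by simp) x)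
    rw [e0, deriv_omt ha h.deriv, deriv_omt ha (h.winv ha)]
    have e1 : ‖omt (deriv (deriv w)) t x + (t : ℂ) * I * omt (winv (deriv w)) t x +
        (t : ℂ) * I * (omt (deriv (winv w)) t x + (t : ℂ) * I * omt (winv (winv w)) t x)‖ ≤
        K3 + |t| * K4 + |t| * (K5 + |t| * K6) := by
      refine (norm_add_le _ _).trans ?_
      refine add_le_add ?_ ?_
      · refine (norm_add_le _ _).trans ?_
        rw [norm_mul, hnt, norm_omt ha h.deriv.deriv, norm_omt ha (h.deriv.winv ha)]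
        gcongr
        · exact h3 x
        · exact h4 x
      · rw [norm_mul, hnt]
        gcongr
        refine (norm_add_le _ _).trans ?_
        rw [norm_mul, hnt, norm_omt ha (h.winv ha).deriv, norm_omt ha ((h.winv ha).winv ha)]
        gcongr
        · exact h5 x
        · exact h6 x
    refine e1.trans ?_
    have e2 : |t| * |t| ≤ T ^ 2 := by nlinarith
    have e3 : |t| ≤ T ^ 2 := by linarith
    have e4 : 1 ≤ T ^ 2 := by nlinarith
    calc K3 + |t| * K4 + |t| * (K5 + |t| * K6) = K3 * 1 + |t| * K4 + |t| * K5 + |t| * |t| * K6 := by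
          ring
      _ ≤ K3 * T ^ 2 + T ^ 2 * K4 + T ^ 2 * K5 + T ^ 2 * K6 := by gcongr
      _ ≤ (K0 + K1 + K2 + K3 + K4 + K5 + K6) * T ^ 2 := by
        have : 0 ≤ (K0 + K1 + K2) * T ^ 2 := by positivity
        nlinarith

end

/-! ### the Mellin moment -/

lemma Ww_eq (w : ℝ → ℂ) (h0 : w 0 = 0) (t : ℝ) (l : ℤ) {B : ℝ} (hB : 0 < B) (z : ℂ) :
    Ww w t l B z = (B : ℂ) ^ ((t : ℂ) * I) * Uf (omt w t) l B z := by
  by_cases hz : z = 0
  · simp [Ww, Uf, omt, hz, h0]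
  · have hn : 0 < ‖z‖ := norm_pos_iff.mpr hz
    have hn2 : 0 < ‖z‖ ^ 2 / B := by positivity
    have e1 : ((‖z‖ : ℝ) : ℂ) ^ (2 * (t : ℂ) * I) =
        (B : ℂ) ^ ((t : ℂ) * I) * ((‖z‖ ^ 2 / B : ℝ) : ℂ) ^ ((t : ℂ) * I) := by
      rw [cpow_eq hB, cpow_eq hn2, ← Complex.exp_add,
        Complex.cpow_def_of_ne_zero (by exact_mod_cast hn.ne'), ← Complex.ofReal_log hn.le,
        Real.log_div (by positivity) hB.ne', Real.log_pow]
      congr 1
      push_cast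
      ring
    unfold Ww Uf omt
    rw [e1]
    ring

lemma norm_B_it {B : ℝ} (hB : 0 < B) (t : ℝ) : ‖(B : ℂ) ^ ((t : ℂ) * I)‖ = 1 :=
  norm_cpow_it hB t

lemma mU_const_mul (c : ℂ) (U : ℂ → ℂ) : mU (fun z => c * U z) = c * mU U := by
  unfold mU
  rw [← integral_const_mul]
  congr 1
  funext z
  ring

/-- dilation. -/
lemma mU_dil (U : ℂ → ℂ) {e : ℂ} (he : e ≠ 0) :
    mU (fun z => U (z * e)) = ((‖e‖ ^ (-(8 / 3) : ℝ) : ℝ) : ℂ) * mU U := by
  have hn : 0 < ‖e‖ := norm_pos_iff.mpr he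
  unfold mU
  rw [integral_comp_mul_left' he (fun z => U z * ((‖z‖ ^ (2 / 3 : ℝ) : ℝ) : ℂ)),
    Complex.real_smul, ← mul_assoc, ← integral_const_mul]
  congr 1
  funext z
  rw [norm_mul, Real.mul_rpow hn.le (norm_nonneg _), mul_comm e z]
  have e1 : ‖e‖ ^ (-(8 / 3) : ℝ) * ‖e‖ ^ 2 * ‖e‖ ^ (2 / 3 : ℝ) = 1 := by
    rw [← Real.rpow_natCast, ← Real.rpow_add hn, ← Real.rpow_add hn]
    norm_num
  have e2 : (((‖e‖ ^ (-(8 / 3) : ℝ) : ℝ) : ℂ) * ((‖e‖ ^ 2 : ℝ) : ℂ)) *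
      ((‖e‖ ^ (2 / 3 : ℝ) : ℝ) : ℂ) = 1 := by
    rw [← Complex.ofReal_mul, ← Complex.ofReal_mul, e1, Complex.ofReal_one]
  push_cast at e2 ⊢
  linear_combination (-(U (z * e)) * ((‖z‖ ^ (2 / 3 : ℝ) : ℝ) : ℂ)) * e2

lemma mU_rot (U : ℂ → ℂ) {ζ c : ℂ} (hζ : ‖ζ‖ = 1) (hU : ∀ z, U (z * ζ) = c * U z) (hc : c ≠ 1) :
    mU U = 0 := by
  have hζ0 : ζ ≠ 0 := by
    intro h; rw [h, norm_zero] at hζ; exact zero_ne_one hζ
  have h1 := mU_dil U hζ0
  have h2 : (fun z => U (z * ζ)) = fun z => c * U z := funext hU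
  rw [h2, mU_const_mul, hζ, Real.one_rpow, Complex.ofReal_one, one_mul] at h1
  have h3 : (c - 1) * mU U = 0 := by rw [sub_mul, h1]; ring
  rcases mul_eq_zero.mp h3 with h | h
  · exact absurd (sub_eq_zero.mp h) hc
  · exact h

lemma Uf_rot (om : ℝ → ℂ) (l : ℤ) (B : ℝ) {ζ : ℂ} (hζ : ‖ζ‖ = 1) (z : ℂ) :
    Uf om l B (z * ζ) = ζ ^ l * Uf om l B z := by
  unfold Uf
  rw [norm_mul, hζ, mul_one, show z * ζ / (‖z‖ : ℂ) = ζ * (z / (‖z‖ : ℂ)) by ring, mul_zpow]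
  ring

/-- angular case. -/
lemma mU_Uf_ne (om : ℝ → ℂ) {l : ℤ} (hl : l ≠ 0) (B : ℝ) : mU (Uf om l B) = 0 := by
  have hl' : (l : ℂ) ≠ 0 := by exact_mod_cast hl
  refine mU_rot (ζ := cexp ((Real.pi / l : ℝ) * I)) (c := -1) _
    (Complex.norm_exp_ofReal_mul_I _) (fun z => ?_) (by norm_num)
  rw [Uf_rot om l B (Complex.norm_exp_ofReal_mul_I _)]
  congr 1
  rw [← Complex.exp_int_mul]
  have : (l : ℂ) * (((Real.pi / l : ℝ) : ℂ) * I) = Real.pi * I := by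
    push_cast
    field_simp
  rw [this, Complex.exp_pi_mul_I]

/-- radial case. -/
lemma mU_Uf_zero (om : ℝ → ℂ) {B : ℝ} (hB : 0 < B) :
    mU (Uf om 0 B) = (Real.pi : ℂ) * ((B ^ ((4 : ℝ) / 3) : ℝ) : ℂ) * mom om := by
  have e1 : mU (Uf om 0 B) = ∫ z : ℂ,
      (fun r : ℝ => om (r ^ 2 / B) * ((r ^ (2 / 3 : ℝ) : ℝ) : ℂ)) ‖z‖ := by
    unfold mU Uf
    simp
  have e2 := integral_fun_norm_addHaar (volume : Measure ℂ)
    (fun r : ℝ => om (r ^ 2 / B) * ((r ^ (2 / 3 : ℝ) : ℝ) : ℂ))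
  rw [e1, e2, Complex.finrank_real_complex]
  have e3 : (volume : Measure ℂ).real (Metric.ball 0 1) = Real.pi := by
    rw [Measure.real, Complex.volume_ball]
    simp
  rw [e3]
  set g : ℝ → ℂ := fun x => om (x / B) * ((x ^ ((1 : ℝ) / 3) : ℝ) : ℂ) with hg
  have e4 : ∫ y in Ioi (0 : ℝ), y ^ (2 - 1) • (om (y ^ 2 / B) * ((y ^ (2 / 3 : ℝ) : ℝ) : ℂ)) =
      (1 / 2 : ℂ) * ∫ y in Ioi (0 : ℝ), g y := by
    rw [← integral_comp_rpow_Ioi_of_pos (g := g) (p := 2) (by norm_num), ← integral_const_mul]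
    refine setIntegral_congr_fun measurableSet_Ioi fun y hy => ?_
    have hy' : (0 : ℝ) < y := hy
    simp only [hg, Complex.real_smul]
    have e5 : (y ^ (2 : ℝ)) ^ ((1 : ℝ) / 3) = y ^ (2 / 3 : ℝ) := by
      rw [← Real.rpow_mul hy'.le]; norm_num
    rw [e5]
    have e6 : y ^ ((2 : ℝ) - 1) = y := by norm_num
    rw [e6, Real.rpow_two]
    push_cast
    ring
  have e7 : ∫ y in Ioi (0 : ℝ), g y = ((B ^ ((4 : ℝ) / 3) : ℝ) : ℂ) * mom om := by
    have h1 := integral_comp_mul_left_Ioi' g 0 hB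
    rw [mul_zero] at h1
    rw [← h1, Complex.real_smul]
    unfold mom
    rw [← integral_const_mul, ← integral_const_mul]
    refine setIntegral_congr_fun measurableSet_Ioi fun y hy => ?_
    have hy' : (0 : ℝ) < y := hy
    simp only [hg]
    rw [mul_div_cancel_left₀ _ hB.ne', Real.mul_rpow hB.le hy'.le]
    have e8 : (B : ℝ) ^ ((4 : ℝ) / 3) = B * B ^ ((1 : ℝ) / 3) := by
      rw [← Real.rpow_one_add' hB.le (by norm_num)]
      norm_num
    rw [e8]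
    push_cast
    ring
  rw [e4, e7]
  simp only [Complex.real_smul, nsmul_eq_mul]
  push_cast
  ring

lemma mU_Ww (w : ℝ → ℂ) (h0 : w 0 = 0) (t : ℝ) (l : ℤ) {B : ℝ} (hB : 0 < B) {e : ℂ}
    (he : e ≠ 0) :
    mU (fun z => Ww w t l B (z * e)) =
      (B : ℂ) ^ ((t : ℂ) * I) * (if l = 0 then
        (Real.pi : ℂ) * (((B / ‖e‖ ^ 2) ^ ((4 : ℝ) / 3) : ℝ) : ℂ) * mom (omt w t) else 0) := by
  have e1 : (fun z => Ww w t l B (z * e)) = fun z => (B : ℂ) ^ ((t : ℂ) * I) *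
      Uf (omt w t) l B (z * e) := by
    funext z; exact Ww_eq w h0 t l hB _
  rw [e1, mU_const_mul, mU_dil _ he]
  congr 1
  by_cases hl : l = 0
  · rw [if_pos hl, hl, mU_Uf_zero _ hB]
    have hn : 0 < ‖e‖ := norm_pos_iff.mpr he
    have e2 : (B / ‖e‖ ^ 2) ^ ((4 : ℝ) / 3) = B ^ ((4 : ℝ) / 3) * ‖e‖ ^ (-(8 / 3) : ℝ) := by
      rw [Real.div_rpow hB.le (by positivity), ← Real.rpow_natCast, ← Real.rpow_mul hn.le,
        div_eq_mul_inv, ← Real.rpow_neg hn.le]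
      norm_num
    rw [e2]
    push_cast
    ring
  · rw [if_neg hl, mU_Uf_ne _ hl, mul_zero]

/-! ### the sums -/

lemma Sg_const_mul (c : ℂ) (W : ℂ → ℂ) (ψ : Eis → ℂ) (u : Eis) (e : ℂ) :
    Sg ψ (fun z => c * W z) u e = c * Sg ψ W u e := by
  classical
  unfold Sg
  rw [← tsum_mul_left]
  refine tsum_congr fun d => ?_
  by_cases hd : IsPrim d
  · simp only [hd, if_true]; ring
  · simp [hd]

lemma Sg_Ww (w : ℝ → ℂ) (h0 : w 0 = 0) (t : ℝ) (l : ℤ) {B : ℝ} (hB : 0 < B) (ψ : Eis → ℂ)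
    (u : Eis) (e : ℂ) :
    Sg ψ (Ww w t l B) u e = (B : ℂ) ^ ((t : ℂ) * I) * Sg ψ (Uf (omt w t) l B) u e := by
  rw [← Sg_const_mul]
  congr 1
  funext z
  exact Ww_eq w h0 t l hB z

lemma RH_eq {C r K s B τ : ℝ} (hs : 0 < s) :
    RH C r K s⁻¹ B τ = (C * K ^ 2) * ((1 + r ^ 4) / r ^ 4) * (B ^ 2 * s ^ 2) * (1 + B) ^ τ := by
  unfold RH
  have : ((s⁻¹ ^ 2 : ℝ))⁻¹ = s ^ 2 := by rw [inv_pow, inv_inv]
  rw [this]
  ring

lemma norm_sq_ofReal (x : ℂ) {y : ℝ} (hy : 0 ≤ y) :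
    ENNReal.ofReal (‖x‖ ^ 2 * y) = ‖x‖ₑ ^ 2 * ENNReal.ofReal y := by
  rw [ENNReal.ofReal_mul (by positivity), ENNReal.ofReal_pow (norm_nonneg _), ofReal_norm]

/-- **The adapter.** -/
theorem lim4 {ρ : Eis → ℂ} {phi : ℂ → ℂ} (hK1 : K1_Prop) (hK3 : K3_Prop ρ)
    (hφ : TestFn286.SP (1 / 4) phi) : Lim4 phi (fun u => ρ u / Real.pi) := by
  intro l w d hd hw
  obtain ⟨a, b, ha, hab, hsupp⟩ := hw.supp
  have hw0 : w 0 = 0 := hsupp 0 (Or.inl ha)
  have hS : SS a b w := ⟨hw.smooth, hsupp⟩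
  obtain ⟨K, hK, hcls⟩ := cls_omt ha hS
  have hpi : (Real.pi : ℂ) ≠ 0 := by exact_mod_cast Real.pi_ne_zero
  -- common part
  have key : ∀ (C : ℝ) (F : ℝ → ℝ → Eis → ℂ → ℂ),
      (∀ (t B : ℝ) (u : Eis) (e : ℂ), 0 < B → e ≠ 0 →
        ‖Sg (fun _ => 1) (Ww w t l B) u e -
            mU (fun z => Ww w t l B (z * e)) * (ρ u / Real.pi)‖ = ‖F t B u e‖) →
      (∀ (t T B r : ℝ) (S : Finset Eis), 1 + |t| ≤ T → 0 < B → 0 < r →
        BX r T phi S (F t B) ≤ ENNReal.ofReal (RH C r K T B d)) →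
      ∀ (t s B r : ℝ), 0 < s → s * (1 + |t|) ≤ 1 → 0 < B → 0 < r → ∀ S : Finset Eis,
      ∫⁻ v in ann r (2 * r), ∫⁻ e in ann (1 / r) (2 / r), ∑ u ∈ S,
        ENNReal.ofReal (‖Sg (fun _ => 1) (Ww w t l B) u e -
            mU (fun z => Ww w t l B (z * e)) * (ρ u / Real.pi)‖ ^ 2 *
          (‖e / v‖ ^ 4 * ‖phat (fun z => phi (z / s)) (frq 3 u * e / v)‖ ^ 2)) ≤
        ENNReal.ofReal ((C * K ^ 2) * ((1 + r ^ 4) / r ^ 4) * (B ^ 2 * s ^ 2) * (1 + B) ^ d) := by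
    intro C F hF hBX t s B r hs hst hB hr S
    have hT : 1 + |t| ≤ s⁻¹ := by
      rw [le_inv_comm₀ (by positivity) hs, ← one_div, le_div_iff₀ (by positivity)]
      exact hst
    have h := hBX t s⁻¹ B r S hT hB hr
    rw [RH_eq hs] at h
    refine le_trans (le_of_eq ?_) h
    unfold BX
    refine lintegral_congr fun v => ?_
    refine setLIntegral_congr_fun (measurableSet_ann _ _) fun e he => ?_
    have he0 : e ≠ 0 := by
      intro h0
      rw [h0] at he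
      have : 1 / r ≤ ‖(0 : ℂ)‖ := he.1
      rw [norm_zero] at this
      have : 0 < 1 / r := by positivity
      linarith
    refine Finset.sum_congr rfl fun u _ => ?_
    rw [hF t B u e hB he0, norm_sq_ofReal _ (by positivity)]
    congr 2
    unfold wtB
    congr 3
    congr 1
    funext z
    congr 1
    push_cast
    rw [div_eq_mul_inv, mul_comm]
  by_cases hl : l = 0
  · subst hl
    obtain ⟨C, hC, h3⟩ := hK3 a b phi d ha hab.le hφ hd
    refine ⟨C * K ^ 2, by positivity, ?_⟩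
    refine key C (fun t B u e => Sg (fun _ => 1) (Uf (omt w t) 0 B) u e -
        (((B / ‖e‖ ^ 2) ^ ((4 : ℝ) / 3) : ℝ) : ℂ) * mom (omt w t) * ρ u) ?_ ?_
    · intro t B u e hB he
      rw [Sg_Ww w hw0 t 0 hB, mU_Ww w hw0 t 0 hB he, if_pos rfl]
      have : (B : ℂ) ^ ((t : ℂ) * I) * Sg (fun _ => 1) (Uf (omt w t) 0 B) u e -
          (B : ℂ) ^ ((t : ℂ) * I) * ((Real.pi : ℂ) *
            (((B / ‖e‖ ^ 2) ^ ((4 : ℝ) / 3) : ℝ) : ℂ) * mom (omt w t)) * (ρ u / Real.pi) =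
          (B : ℂ) ^ ((t : ℂ) * I) * (Sg (fun _ => 1) (Uf (omt w t) 0 B) u e -
            (((B / ‖e‖ ^ 2) ^ ((4 : ℝ) / 3) : ℝ) : ℂ) * mom (omt w t) * ρ u) := by
        field_simp
      rw [this, norm_mul, norm_B_it hB, one_mul]
    · intro t T B r S hT hB hr
      have hT1 : 1 ≤ T := by
        have := abs_nonneg t
        linarith
      exact h3 K T (omt w t) B r S (hcls t T hT) hK hT1 hB hr
  · obtain ⟨C, hC, h1⟩ := hK1 a b l phi d ha hab.le hφ hd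
    refine ⟨C * K ^ 2, by positivity, ?_⟩
    refine key C (fun t B u e => Sg (fun _ => 1) (Uf (omt w t) l B) u e) ?_ ?_
    · intro t B u e hB he
      rw [Sg_Ww w hw0 t l hB, mU_Ww w hw0 t l hB he, if_neg hl, mul_zero, zero_mul, sub_zero,
        norm_mul, norm_B_it hB, one_mul]
    · intro t T B r S hT hB hr
      have hT1 : 1 ≤ T := by
        have := abs_nonneg t
        linarith
      exact h1 K T (omt w t) B r S (hcls t T hT) hK hT1 hB hr (Or.inl hl)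

end Crest.Agent.R012.Lim4_47
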