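import Crest.Agent.R012.TItFinal_663
import Crest.Agent.R012.Lim4_47
import Crest.Agent.R012.KRho2_813

/-!
# Row 12, (M): `K1_Prop → ∃ ρ, MS1 ρ` (helper663)
-/

set_option autoImplicit false

noncomputable section

open MeasureTheory Complex Set Filter Topology
open Crest.Agent.R012.Eis
open scoped ComplexConjugate ENNReal ContDiff

namespace Crest.Agent.R012.TIt663

open Crest.Agent.R012 Crest.Agent.R012.M49 Crest.Agent.R012.Four813
open Crest.Agent.R012.Parseval499

lemma norm_eC (z : ℂ) : ‖eC z‖ = 1 := by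
  unfold eC
  have h1 : z + conj z = ((2 * z.re : ℝ) : ℂ) := by
    rw [Complex.add_conj]
  rw [h1, show 2 * (Real.pi : ℂ) * Complex.I * ((2 * z.re : ℝ) : ℂ) =
    ((2 * Real.pi * (2 * z.re) : ℝ) : ℂ) * Complex.I by push_cast; ring]
  exact Complex.norm_exp_ofReal_mul_I _

lemma continuous_eC : Continuous eC := by
  unfold eC
  fun_prop

lemma phat_dil (φ : ℂ → ℂ) {s : ℝ} (hs : 0 < s) (ξ : ℂ) :
    phat (fun z => φ (z / s)) ξ = ((s ^ 2 : ℝ) : ℂ) * phat φ (s * ξ) := by
  unfold phat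
  have hs0 : (s : ℂ) ≠ 0 := by exact_mod_cast hs.ne'
  rw [integral_comp_mul_left' hs0 (fun z => φ (z / s) * eC (-(ξ * z)))]
  rw [Complex.norm_real, Real.norm_of_nonneg hs.le, Complex.real_smul]
  congr 1
  refine integral_congr_ae (Filter.Eventually.of_forall fun z => ?_)
  simp only
  rw [mul_div_cancel_left₀ _ hs0]
  congr 2
  ring

lemma continuous_phat {φ : ℂ → ℂ} (hφ : Integrable φ) : Continuous (phat φ) := by
  unfold phat
  refine continuous_of_dominated (bound := fun z => ‖φ z‖) ?_ ?_ hφ.norm ?_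
  · intro ξ
    refine hφ.aestronglyMeasurable.mul ?_
    exact (continuous_eC.comp (by fun_prop)).aestronglyMeasurable
  · intro ξ
    refine Filter.Eventually.of_forall fun z => ?_
    rw [norm_mul, norm_eC, mul_one]
  · refine Filter.Eventually.of_forall fun z => ?_
    exact continuous_const.mul (continuous_eC.comp (by fun_prop))

lemma phiLow_of_integral {φ : ℂ → ℂ} (hφ : Integrable φ) (h0 : ∫ z, φ z ≠ 0) : PhiLow φ := by
  have hc := continuous_phat hφ
  have h1 : phat φ 0 = ∫ z, φ z := by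
    unfold phat
    refine integral_congr_ae (Filter.Eventually.of_forall fun z => ?_)
    simp [eC]
  set m : ℝ := ‖∫ z, φ z‖ with hm
  have hm0 : 0 < m := norm_pos_iff.mpr h0
  have h2 : ∀ᶠ ξ in 𝓝 (0 : ℂ), m / 2 < ‖phat φ ξ‖ := by
    have h3 : Tendsto (fun ξ => ‖phat φ ξ‖) (𝓝 0) (𝓝 ‖phat φ 0‖) := (hc.norm.tendsto 0)
    rw [h1] at h3
    exact h3.eventually_const_lt (by rw [← hm]; linarith)
  rw [Metric.eventually_nhds_iff] at h2
  obtain ⟨ε, hε, h4⟩ := h2
  refine ⟨ε / 2, m / 2, by positivity, by positivity, fun s hs ξ hξ => ?_⟩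
  rw [phat_dil φ hs, norm_mul, Complex.norm_real, Real.norm_of_nonneg (by positivity), mul_comm]
  have h5 : m / 2 < ‖phat φ (s * ξ)‖ := by
    apply h4
    rw [dist_zero_right, norm_mul, Complex.norm_real, Real.norm_of_nonneg hs.le]
    linarith
  exact mul_le_mul_of_nonneg_left h5.le (by positivity)

/-- existence of the test function. -/
lemma exists_phi : ∃ φ : ℂ → ℂ, TestFn286.SP (1 / 4) φ ∧ PhiLow φ := by
  let f : ContDiffBump (0 : ℂ) := ⟨1 / 16, 1 / 8, by norm_num, by norm_num⟩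
  refine ⟨fun z => ((f z : ℝ) : ℂ), ⟨?_, ?_⟩, ?_⟩
  · exact Complex.ofRealCLM.contDiff.comp f.contDiff
  · intro z hz
    have : f z = 0 := by
      apply f.zero_of_le_dist
      rw [dist_zero_right]
      have : f.rOut = 1 / 8 := rfl
      rw [this]; linarith
    simp [this]
  · refine phiLow_of_integral ?_ ?_
    · exact (f.continuous.integrable_of_hasCompactSupport f.hasCompactSupport).ofReal
    · have e : ∫ z, ((f z : ℝ) : ℂ) = ((∫ z, f z : ℝ) : ℂ) := integral_ofReal
      rw [e]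
      have := f.integral_pos (μ := (volume : Measure ℂ))
      exact_mod_cast this.ne'

/-- adapter to `Lim4_47`. -/
lemma lim4_adapt {φ : ℂ → ℂ} {ρ : Eis → ℂ} (H : Lim4_47.Lim4 φ ρ) : Lim4 φ ρ := by
  intro l w d hd hw
  obtain ⟨C, _, h⟩ := H l w d hd hw
  exact ⟨C, h⟩

/-- **Mean square theorem from `K1_Prop`.** -/
theorem MS1_of_K1 (H : ML384.K1_Prop) : ∃ ρ : Eis → ℂ, MS1 ρ := by
  obtain ⟨ρ, hρ⟩ := KRho813.K3_of_K1 H
  obtain ⟨φ, h1, h2⟩ := exists_phi
  exact ⟨_, MS1_of_Lim4 h2 (lim4_adapt (Lim4_47.lim4 H hρ h1))⟩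

end Crest.Agent.R012.TIt663
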