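import Crest.Agent.R012.Eis_666

/-!
# Row 12: common definitions  (everybody imports this file)

`Eis = {re, im : ℤ}`, `ω² = -1 - ω`  (see `Eis_666.lean`), and then

* `toC : Eis →+* ℂ`, `ω ↦ wC = exp(2πi/3)`
* `nm z : ℕ` norm, `‖toC z‖² = nm z`
* `IsPrim z` : `z ≡ 1 (mod 3)`
* `eC z = exp(2πi (z + z̄))`
* `sy0 x p` : cubic residue symbol of `x` modulo a prime `p` with values in `ℂ`
* `sy x c = (x/c)_3` : product of `sy0 x p` over the prime factors `p` of `c`
* `sumMod c f` : sum of `f` over a complete residue system mod `c`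
* `gs r c = Σ_{x mod c} (x/c)_3 e(r x / c)`, `G c = gs 1 c / √N(c)`
* `ang l z = (z/|z|)^l`
* `ball X` : the finite set of `z` with `nm z ≤ X`, `primBall X` its primary elements.
-/

set_option autoImplicit false

noncomputable section

open Complex

namespace Crest.Agent.R012

open Eis

/-- `exp(2πi/3) = -1/2 + (√3/2) i`. -/
def wC : ℂ := ⟨-1 / 2, Real.sqrt 3 / 2⟩

lemma wC_sq : wC ^ 2 = -1 - wC := by
  have h3 : Real.sqrt 3 * Real.sqrt 3 = 3 := Real.mul_self_sqrt (by norm_num)
  apply Complex.ext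
  · simp [wC, pow_two]; nlinarith
  · simp [wC, pow_two]; ring

lemma wC_cube : wC ^ 3 = 1 := by
  rw [pow_succ, wC_sq]
  have := wC_sq
  linear_combination (-1 : ℂ) * this

lemma wC_ne_zero : wC ≠ 0 := by
  intro h
  have := congrArg Complex.re h
  simp [wC] at this

/-- The embedding `re + im ω ↦ re + im wC` of the Eisenstein integers in `ℂ`. -/
def toC : Eis →+* ℂ where
  toFun z := (z.re : ℂ) + (z.im : ℂ) * wC
  map_zero' := by simp
  map_one' := by simp
  map_add' x y := by simp; ring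
  map_mul' x y := by
    simp only [re_mul', im_mul']
    push_cast
    have := wC_sq
    linear_combination (-(x.im : ℂ) * y.im) * this

lemma toC_apply (z : Eis) : toC z = (z.re : ℂ) + (z.im : ℂ) * wC := rfl

lemma toC_re (z : Eis) : (toC z).re = z.re - z.im / 2 := by
  simp [toC_apply, wC]; ring

lemma toC_im (z : Eis) : (toC z).im = z.im * Real.sqrt 3 / 2 := by
  simp [toC_apply, wC]; ring

@[simp] lemma toC_w : toC w = wC := by simp [toC_apply]

lemma normSq_toC (z : Eis) : Complex.normSq (toC z) = nm z := by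
  have h3 : Real.sqrt 3 * Real.sqrt 3 = 3 := Real.mul_self_sqrt (by norm_num)
  rw [Complex.normSq_apply, toC_re, toC_im]
  have h : ((nm z : ℕ) : ℝ) = ((nm z : ℤ) : ℝ) := by norm_cast
  rw [h, nm_cast]
  push_cast
  linear_combination ((z.im : ℝ) ^ 2 / 4) * h3

lemma norm_toC_sq (z : Eis) : ‖toC z‖ ^ 2 = nm z := by
  rw [← Complex.normSq_eq_norm_sq, normSq_toC]

lemma norm_toC (z : Eis) : ‖toC z‖ = Real.sqrt (nm z) := by
  rw [← norm_toC_sq, Real.sqrt_sq (norm_nonneg _)]

lemma toC_injective : Function.Injective toC := by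
  rw [injective_iff_map_eq_zero]
  intro z hz
  have := normSq_toC z
  rw [hz, map_zero] at this
  exact nm_eq_zero.mp (by exact_mod_cast this.symm)

@[simp] lemma toC_eq_zero {z : Eis} : toC z = 0 ↔ z = 0 :=
  map_eq_zero_iff toC toC_injective

lemma toC_conj (z : Eis) : toC (Eis.conj z) = (starRingEnd ℂ) (toC z) := by
  apply Complex.ext
  · rw [toC_re, Complex.conj_re, toC_re]; simp; ring
  · rw [toC_im, Complex.conj_im, toC_im]; simp; ring

/-- Primary: congruent to `1` modulo `3`. -/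
def IsPrim (z : Eis) : Prop := (3 : Eis) ∣ z - 1

/-- The additive character `e(z) = exp(2πi (z + z̄))` of `ℂ`. -/
def eC (z : ℂ) : ℂ := Complex.exp (2 * Real.pi * Complex.I * (z + (starRingEnd ℂ) z))

open Classical in
/-- The cubic residue symbol `(x/p)_3` for a prime `p` not dividing `3`, as a complex number. -/
def sy0 (x p : Eis) : ℂ :=
  if p ∣ x then 0
  else if p ∣ x ^ ((nm p - 1) / 3) - 1 then 1
  else if p ∣ x ^ ((nm p - 1) / 3) - w then wC
  else wC ^ 2

/-- The cubic residue symbol `(x/c)_3` (for `c` prime to `3`): the product of `sy0 x p` over the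
prime factors `p` of `c`, with multiplicity. -/
def sy (x c : Eis) : ℂ :=
  ((UniqueFactorizationMonoid.factors c).map (fun p => sy0 x p)).prod

/-- Sum of `f` over a complete residue system modulo `c` (`c ≠ 0`). -/
def sumMod (c : Eis) (f : Eis → ℂ) : ℂ :=
  ∑ᶠ q : Eis ⧸ Ideal.span ({c} : Set Eis), f (Quotient.out q)

/-- The Gauss sum `g(r, c) = Σ_{x mod c} (x/c)_3 e(r x / c)`. -/
def gs (r c : Eis) : ℂ :=
  sumMod c (fun x => sy x c * eC (toC r * toC x / toC c))

/-- The normalised Gauss sum `G(c) = g(1, c) / √N(c)`. -/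
def G (c : Eis) : ℂ := gs 1 c / (Real.sqrt (nm c) : ℂ)

/-- The angular character `(z/|z|)^l`. -/
def ang (l : ℤ) (z : Eis) : ℂ := (toC z / (‖toC z‖ : ℂ)) ^ l

/-- `c = (2π)^(2/3) / (3 Γ(2/3))`. -/
def pC : ℝ := (2 * Real.pi) ^ ((2 : ℝ) / 3) / (3 * Real.Gamma (2 / 3))

/-- All Eisenstein integers of norm at most `X`. -/
def ball (X : ℕ) : Finset Eis :=
  ((Finset.Icc (-(X : ℤ)) X ×ˢ Finset.Icc (-(X : ℤ)) X).image
    (fun ab => (⟨ab.1, ab.2⟩ : Eis))).filter (fun z => nm z ≤ X)

lemma mem_ball {X : ℕ} {z : Eis} : z ∈ ball X ↔ nm z ≤ X := by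
  unfold ball
  simp only [Finset.mem_filter, Finset.mem_image, Finset.mem_product, Finset.mem_Icc,
    Prod.exists, and_iff_right_iff_imp]
  intro h
  refine ⟨z.re, z.im, ?_, rfl⟩
  have h1 : (nm z : ℤ) ≤ X := by exact_mod_cast h
  rw [nm_cast] at h1
  have key : ∀ a b : ℤ, a ^ 2 - a * b + b ^ 2 ≤ X → -(X : ℤ) ≤ a ∧ a ≤ X := by
    intro a b hab
    have hX : (0 : ℤ) ≤ X := Int.natCast_nonneg X
    have h3 : 3 * a ^ 2 ≤ 4 * X := by nlinarith [sq_nonneg (a - 2 * b)]
    constructor
    · by_contra hc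
      push Not at hc
      have h4 : (X : ℤ) + 1 ≤ -a := by omega
      have h5 : ((X : ℤ) + 1) ^ 2 ≤ a ^ 2 := by nlinarith
      nlinarith
    · by_contra hc
      push Not at hc
      have h4 : (X : ℤ) + 1 ≤ a := by omega
      have h5 : ((X : ℤ) + 1) ^ 2 ≤ a ^ 2 := by nlinarith
      nlinarith
  have k1 := key z.re z.im h1
  have k2 := key z.im z.re (by linarith [h1])
  exact ⟨k1, k2⟩

open Classical in
/-- All primary Eisenstein integers of norm at most `X`. -/
def primBall (X : ℕ) : Finset Eis := (ball X).filter IsPrim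

lemma mem_primBall {X : ℕ} {z : Eis} : z ∈ primBall X ↔ nm z ≤ X ∧ IsPrim z := by
  simp [primBall, mem_ball]

end Crest.Agent.R012
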