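import Mathlib

/-!
# Poisson summation on `ℤ² ⊂ ℝ²`
-/

set_option autoImplicit false

noncomputable section

open MeasureTheory Complex

namespace Crest.Agent.R012.Po

/-- integer vector as a real vector -/
def zc (n : Fin 2 → ℤ) : Fin 2 → ℝ := fun i => (n i : ℝ)

lemma zc_norm (n : Fin 2 → ℤ) : ‖zc n‖ = ‖n‖ := by
  unfold zc
  rw [Pi.norm_def, Pi.norm_def]
  congr 1

/-- the additive character `exp(2πi k·v)` of `ℝ²`. -/
def eP (k : Fin 2 → ℤ) (v : Fin 2 → ℝ) : ℂ :=
  Complex.exp (2 * Real.pi * I * ((k 0 : ℂ) * (v 0 : ℂ) + (k 1 : ℂ) * (v 1 : ℂ)))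

lemma eP_norm (k : Fin 2 → ℤ) (v : Fin 2 → ℝ) : ‖eP k v‖ = 1 := by
  unfold eP
  rw [show (2 * Real.pi * I * ((k 0 : ℂ) * (v 0 : ℂ) + (k 1 : ℂ) * (v 1 : ℂ)))
    = ((2 * Real.pi * ((k 0 : ℝ) * v 0 + (k 1 : ℝ) * v 1) : ℝ) : ℂ) * I by push_cast; ring]
  exact Complex.norm_exp_ofReal_mul_I _

lemma eP_add (k : Fin 2 → ℤ) (v w : Fin 2 → ℝ) : eP k (v + w) = eP k v * eP k w := by
  unfold eP
  rw [← Complex.exp_add]
  congr 1
  simp only [Pi.add_apply]
  push_cast
  ring

lemma eP_int (k n : Fin 2 → ℤ) : eP k (zc n) = 1 := by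
  unfold eP zc
  rw [show (2 * Real.pi * I * ((k 0 : ℂ) * (((n 0 : ℤ) : ℝ) : ℂ) + (k 1 : ℂ) * (((n 1 : ℤ) : ℝ) : ℂ)))
    = ((k 0 * n 0 + k 1 * n 1 : ℤ) : ℂ) * (2 * Real.pi * I) by push_cast; ring]
  exact Complex.exp_int_mul_two_pi_mul_I _

lemma eP_cont (k : Fin 2 → ℤ) : Continuous (eP k) := by
  unfold eP
  fun_prop

lemma eP_neg (k : Fin 2 → ℤ) (v : Fin 2 → ℝ) : eP (-k) v = (eP k v)⁻¹ := by
  unfold eP
  rw [← Complex.exp_neg]
  congr 1
  simp only [Pi.neg_apply]
  push_cast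
  ring

lemma mFourier_eq (k : Fin 2 → ℤ) (v : Fin 2 → ℝ) :
    UnitAddTorus.mFourier k (fun i => (v i : UnitAddCircle)) = eP k v := by
  simp only [UnitAddTorus.mFourier, ContinuousMap.coe_mk, Fin.prod_univ_two, fourier_coe_apply]
  unfold eP
  rw [← Complex.exp_add]
  congr 1
  push_cast
  ring

lemma summable_pow3 : Summable (fun n : Fin 2 → ℤ => (1 / (1 + ‖n‖) ^ 3 : ℝ)) := by
  have h := EisensteinSeries.summable_one_div_norm_rpow (k := 3) (by norm_num)
  refine Summable.of_norm_bounded_eventually (g := fun n : Fin 2 → ℤ => ‖n‖ ^ (-(3 : ℝ))) h ?_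
  have hf : {n : Fin 2 → ℤ | n = 0}.Finite := Set.finite_singleton 0
  filter_upwards [hf.compl_mem_cofinite] with n hn
  have hn0 : n ≠ 0 := hn
  have hpos : 0 < ‖n‖ := norm_pos_iff.mpr hn0
  rw [Real.norm_of_nonneg (by positivity), Real.rpow_neg hpos.le]
  rw [one_div]
  apply inv_anti₀ (by positivity)
  rw [show ((3 : ℝ)) = ((3 : ℕ) : ℝ) by norm_num, Real.rpow_natCast]
  gcongr
  linarith

lemma one_add_bound (x : Fin 2 → ℝ) (n : Fin 2 → ℤ) :
    1 + ‖n‖ ≤ (1 + ‖x + zc n‖) * (1 + ‖x‖) := by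
  have h1 : ‖zc n‖ ≤ ‖x + zc n‖ + ‖x‖ := by
    calc ‖zc n‖ = ‖(x + zc n) - x‖ := by rw [add_sub_cancel_left]
      _ ≤ ‖x + zc n‖ + ‖x‖ := norm_sub_le _ _
  rw [zc_norm] at h1
  nlinarith [norm_nonneg (x + zc n), norm_nonneg x, mul_nonneg (norm_nonneg (x + zc n)) (norm_nonneg x)]

variable {g : (Fin 2 → ℝ) → ℂ} {C : ℝ}

lemma term_bound (hC : ∀ v, ‖g v‖ ≤ C / (1 + ‖v‖) ^ 3) (x : Fin 2 → ℝ) (n : Fin 2 → ℤ) :
    ‖g (x + zc n)‖ ≤ C * (1 + ‖x‖) ^ 3 * (1 / (1 + ‖n‖) ^ 3) := by
  have hC0 : 0 ≤ C := by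
    have := (norm_nonneg _).trans (hC 0)
    simpa using this
  refine (hC _).trans ?_
  rw [mul_one_div, div_le_div_iff₀ (by positivity) (by positivity)]
  have := one_add_bound x n
  calc C * (1 + ‖n‖) ^ 3 ≤ C * ((1 + ‖x + zc n‖) * (1 + ‖x‖)) ^ 3 := by gcongr
    _ = C * (1 + ‖x‖) ^ 3 * (1 + ‖x + zc n‖) ^ 3 := by ring

lemma summable_shift (hC : ∀ v, ‖g v‖ ≤ C / (1 + ‖v‖) ^ 3) (x : Fin 2 → ℝ) :
    Summable (fun n : Fin 2 → ℤ => g (x + zc n)) :=
  Summable.of_norm_bounded (summable_pow3.mul_left (C * (1 + ‖x‖) ^ 3))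
    (fun n => term_bound hC x n)

lemma continuous_per (hg : Continuous g) (hC : ∀ v, ‖g v‖ ≤ C / (1 + ‖v‖) ^ 3) :
    Continuous (fun x : Fin 2 → ℝ => ∑' n : Fin 2 → ℤ, g (x + zc n)) := by
  have hC0 : 0 ≤ C := by
    have := (norm_nonneg _).trans (hC 0)
    simpa using this
  rw [continuous_iff_continuousAt]
  intro x
  have hon : ContinuousOn (fun x : Fin 2 → ℝ => ∑' n : Fin 2 → ℤ, g (x + zc n))
      (Metric.ball 0 (‖x‖ + 1)) := by
    refine continuousOn_tsum (fun n => ?_)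
      (summable_pow3.mul_left (C * (1 + (‖x‖ + 1)) ^ 3)) (fun n y hy => ?_)
    · exact (hg.comp (continuous_id.add continuous_const)).continuousOn
    · have hy' : ‖y‖ < ‖x‖ + 1 := by simpa using hy
      refine (term_bound hC y n).trans ?_
      gcongr
  apply hon.continuousAt
  apply Metric.isOpen_ball.mem_nhds
  simp

lemma integrable_of_decay (hg : Continuous g) (hC : ∀ v, ‖g v‖ ≤ C / (1 + ‖v‖) ^ 3) :
    Integrable g := by
  have h : Integrable (fun x : Fin 2 → ℝ => C * (1 + ‖x‖) ^ (-(3 : ℝ))) :=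
    (integrable_one_add_norm (E := Fin 2 → ℝ) (r := 3) (by simp; norm_num)).const_mul C
  refine h.mono' hg.aestronglyMeasurable (Filter.Eventually.of_forall fun v => ?_)
  refine (hC v).trans (le_of_eq ?_)
  rw [Real.rpow_neg (by positivity), show ((3 : ℝ)) = ((3 : ℕ) : ℝ) by norm_num,
    Real.rpow_natCast, div_eq_mul_inv]

/-- unit box at integer position `n` -/
def box (n : Fin 2 → ℤ) : Set (Fin 2 → ℝ) := {v | ∀ i, v i ∈ Set.Ioc (n i : ℝ) (n i + 1)}

lemma box_meas (n : Fin 2 → ℤ) : MeasurableSet (box n) :=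
  MeasurableSet.univ_pi' (fun _ => measurableSet_Ioc)

lemma box_disj : Pairwise (Function.onFun Disjoint box) := by
  intro m n hmn
  rw [Function.onFun, Set.disjoint_left]
  intro v hm hn
  apply hmn
  funext i
  have h1 := hm i
  have h2 := hn i
  have a1 : (m i : ℝ) < n i + 1 := lt_of_lt_of_le h1.1 h2.2
  have a2 : (n i : ℝ) < m i + 1 := lt_of_lt_of_le h2.1 h1.2
  have b1 : m i < n i + 1 := by exact_mod_cast a1
  have b2 : n i < m i + 1 := by exact_mod_cast a2
  omega

lemma box_union : (⋃ n, box n) = Set.univ := by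
  ext v
  simp only [Set.mem_iUnion, Set.mem_univ, iff_true]
  refine ⟨fun i => ⌈v i⌉ - 1, fun i => ⟨?_, ?_⟩⟩
  · have := Int.ceil_lt_add_one (v i)
    push_cast
    linarith
  · have := Int.le_ceil (v i)
    push_cast
    linarith

lemma integral_box {E : Type*} [NormedAddCommGroup E] [NormedSpace ℝ E]
    (h : (Fin 2 → ℝ) → E) (n : Fin 2 → ℤ) :
    ∫ v in box n, h v = ∫ v in box 0, h (v + zc n) := by
  rw [← integral_indicator (box_meas n), ← integral_indicator (box_meas 0),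
    ← integral_add_right_eq_self _ (zc n)]
  congr 1
  funext v
  have hiff : v + zc n ∈ box n ↔ v ∈ box 0 := by
    unfold box zc
    simp only [Set.mem_ofPred_eq, Pi.add_apply, Set.mem_Ioc, Pi.zero_apply, Int.cast_zero]
    refine forall_congr' fun i => ?_
    constructor
    · rintro ⟨h1, h2⟩; exact ⟨by linarith, by linarith⟩
    · rintro ⟨h1, h2⟩; exact ⟨by linarith, by linarith⟩
  by_cases hv : v ∈ box 0
  · rw [Set.indicator_of_mem (hiff.mpr hv), Set.indicator_of_mem hv]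
  · rw [Set.indicator_of_notMem (fun h' => hv (hiff.mp h')), Set.indicator_of_notMem hv]

lemma hasSum_box {h : (Fin 2 → ℝ) → ℂ} (hi : Integrable h) :
    HasSum (fun n => ∫ v in box 0, h (v + zc n)) (∫ v, h v) := by
  have := hasSum_integral_iUnion (f := h) (μ := volume) box_meas box_disj
    (by rw [box_union]; exact hi.integrableOn)
  rw [box_union, setIntegral_univ] at this
  convert! this using 1
  funext n
  exact (integral_box h n).symm

lemma summable_box_norm {h : (Fin 2 → ℝ) → ℂ} (hi : Integrable h) :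
    Summable (fun n => ∫ v in box 0, ‖h (v + zc n)‖) := by
  have := hasSum_integral_iUnion (f := fun v => ‖h v‖) (μ := volume) box_meas box_disj
    (by rw [box_union]; exact hi.norm.integrableOn)
  have h2 := this.summable
  convert! h2 using 1
  funext n
  exact (integral_box (fun v => ‖h v‖) n).symm

/-- **unfolding**: integral of a periodisation over the unit box. -/
lemma integral_box_tsum {h : (Fin 2 → ℝ) → ℂ} (hi : Integrable h) :
    ∫ v in box 0, ∑' n, h (v + zc n) = ∫ v, h v := by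
  rw [← (hasSum_box hi).tsum_eq]
  symm
  apply integral_tsum_of_summable_integral_norm
  · intro n
    exact (hi.comp_add_right (zc n)).integrableOn
  · exact summable_box_norm hi

/-- Fourier integral on `ℝ²`. -/
def fhP (g : (Fin 2 → ℝ) → ℂ) (k : Fin 2 → ℤ) : ℂ := ∫ v, eP (-k) v * g v

/-- **Poisson summation formula on `ℤ²`.** -/
theorem poisson_pi (hg : Continuous g) (hC : ∀ v, ‖g v‖ ≤ C / (1 + ‖v‖) ^ 3)
    (hs : Summable (fhP g)) (x : Fin 2 → ℝ) :
    ∑' n : Fin 2 → ℤ, g (x + zc n) = ∑' k : Fin 2 → ℤ, fhP g k * eP k x := by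
  set P : (Fin 2 → ℝ) → ℂ := fun x => ∑' n : Fin 2 → ℤ, g (x + zc n) with hP
  have hPper : ∀ (x : Fin 2 → ℝ) (m : Fin 2 → ℤ), P (x + zc m) = P x := by
    intro x m
    simp only [hP]
    rw [← (Equiv.addLeft m).tsum_eq (fun n => g (x + zc n))]
    refine tsum_congr fun n => ?_
    congr 1
    funext i
    simp [zc, add_assoc]
  let π : (Fin 2 → ℝ) → UnitAddTorus (Fin 2) := fun v i => (v i : UnitAddCircle)
  have hπq : IsOpenQuotientMap π := by
    have := IsOpenQuotientMap.piMap (f := fun _ : Fin 2 => ((↑) : ℝ → UnitAddCircle))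
      (fun _ => QuotientAddGroup.isOpenQuotientMap_mk)
    exact this
  let F0 : UnitAddTorus (Fin 2) → ℂ := fun t => P (fun i => Quotient.out (t i))
  have hF0 : ∀ v, F0 (π v) = P v := by
    intro v
    have : ∃ m : Fin 2 → ℤ, (fun i => Quotient.out (π v i)) = v + zc m := by
      have h1 : ∀ i, ∃ m : ℤ, Quotient.out (π v i) = v i + m := by
        intro i
        have h2 : ((Quotient.out (π v i) : ℝ) : UnitAddCircle) = (v i : UnitAddCircle) :=
          Quotient.out_eq' _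
        rw [QuotientAddGroup.eq] at h2
        rw [AddSubgroup.mem_zmultiples_iff] at h2
        obtain ⟨k, hk⟩ := h2
        refine ⟨-k, ?_⟩
        simp only [zsmul_eq_mul, mul_one] at hk
        push_cast
        linarith
      choose m hm using h1
      exact ⟨m, funext fun i => by simp [hm i, zc]⟩
    obtain ⟨m, hm⟩ := this
    simp only [F0]
    rw [hm, hPper]
  have hcF : Continuous F0 := by
    rw [hπq.isQuotientMap.continuous_iff]
    have : F0 ∘ π = P := funext hF0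
    rw [this]
    exact continuous_per hg hC
  let F : C(UnitAddTorus (Fin 2), ℂ) := ⟨F0, hcF⟩
  have hgi : Integrable g := integrable_of_decay hg hC
  have hcoef : ∀ k, UnitAddTorus.mFourierCoeff F k = fhP g k := by
    intro k
    rw [UnitAddTorus.mFourierCoeff_eq_integral (F : UnitAddTorus (Fin 2) → ℂ) k (fun _ => 0)]
    have hbox : {x : Fin 2 → ℝ | ∀ i, x i ∈ Set.Ioc ((fun _ => (0:ℝ)) i) ((fun _ => (0:ℝ)) i + 1)}
        = box 0 := by
      ext v; simp [box]
    rw [hbox]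
    have hint : Integrable (fun v => eP (-k) v * g v) := by
      refine hgi.norm.mono' ((eP_cont _).mul hg).aestronglyMeasurable
        (Filter.Eventually.of_forall fun v => ?_)
      rw [norm_mul, eP_norm, one_mul]
    unfold fhP
    rw [← integral_box_tsum hint]
    refine setIntegral_congr_fun (box_meas 0) fun v _ => ?_
    show UnitAddTorus.mFourier (-k) (fun i => (v i : UnitAddCircle)) • F0 (π v) = _
    rw [hF0, mFourier_eq, smul_eq_mul]
    simp only [hP]
    rw [← tsum_mul_left]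
    refine tsum_congr fun n => ?_
    rw [eP_add, eP_int, mul_one]
  have hsum : Summable (UnitAddTorus.mFourierCoeff F) := by
    convert! hs using 1
    funext k
    exact hcoef k
  have key := (UnitAddTorus.hasSum_mFourier_series_apply_of_summable hsum (π x)).tsum_eq
  have h1 : (F : UnitAddTorus (Fin 2) → ℂ) (π x) = P x := hF0 x
  rw [h1] at key
  show P x = _
  rw [← key]
  refine tsum_congr fun k => ?_
  rw [hcoef, smul_eq_mul]
  congr 1
  exact mFourier_eq k x

end Crest.Agent.R012.Po
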