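import Mathlib
import Crest.Agent.R012.Defs
import Crest.Agent.R012.PoissonPi_581

/-!
# Poisson summation over the Eisenstein integers

`fC f ξ = ∫ f(z) e(-ξ z) dz` with `e(z) = exp(2πi (z + z̄))`, `dl k = k/(i√3)` (dual lattice).
-/

set_option autoImplicit false

noncomputable section

open MeasureTheory Complex
open scoped FourierTransform

namespace Crest.Agent.R012.Po581

open Eis

/-! ### the character `eC` -/

lemma eC_eq (z : ℂ) : eC z = Complex.exp (((2 * Real.pi * (2 * z.re) : ℝ) : ℂ) * I) := by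
  unfold eC
  congr 1
  have : z + (starRingEnd ℂ) z = ((2 * z.re : ℝ) : ℂ) := by
    rw [Complex.add_conj]
  rw [this]; push_cast; ring

lemma eC_norm (z : ℂ) : ‖eC z‖ = 1 := by
  rw [eC_eq]; exact Complex.norm_exp_ofReal_mul_I _

lemma eC_add' (z w : ℂ) : eC (z + w) = eC z * eC w := by
  unfold eC
  rw [← Complex.exp_add, map_add]
  congr 1; ring

lemma eC_neg' (z : ℂ) : eC (-z) = (eC z)⁻¹ := by
  unfold eC
  rw [← Complex.exp_neg, map_neg]
  congr 1; ring

lemma eC_zero' : eC 0 = 1 := by simp [eC]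

lemma eC_sub' (z w : ℂ) : eC (z - w) = eC z * (eC w)⁻¹ := by
  rw [sub_eq_add_neg, eC_add', eC_neg']

lemma eC_ne_zero' (z : ℂ) : eC z ≠ 0 := Complex.exp_ne_zero _

lemma eC_continuous : Continuous eC := by
  unfold eC; fun_prop

lemma eC_conj' (z : ℂ) : (starRingEnd ℂ) (eC z) = eC (-z) := by
  rw [eC_eq, eC_eq, ← Complex.exp_conj, map_mul, Complex.conj_ofReal, Complex.conj_I]
  congr 1
  rw [neg_re]
  push_cast
  ring

lemma eC_conj_arg (z : ℂ) : eC ((starRingEnd ℂ) z) = eC z := by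
  unfold eC; rw [Complex.conj_conj, add_comm]

/-- `√-3 = 1 + 2ω` -/
def sq3 : Eis := ⟨1, 2⟩

/-- `i √3` -/
def iS3 : ℂ := I * (Real.sqrt 3 : ℂ)

lemma toC_sq3 : toC sq3 = iS3 := by
  apply Complex.ext
  · rw [toC_re]; simp [sq3, iS3]
  · rw [toC_im]; simp [sq3, iS3]

lemma iS3_sq : iS3 ^ 2 = -3 := by
  unfold iS3
  rw [mul_pow, I_sq, ← ofReal_pow, Real.sq_sqrt (by norm_num)]
  push_cast; ring

lemma iS3_ne_zero : iS3 ≠ 0 := by
  intro h
  have := iS3_sq
  rw [h] at this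
  norm_num at this

lemma norm_iS3 : ‖iS3‖ = Real.sqrt 3 := by
  unfold iS3
  rw [norm_mul, Complex.norm_I, one_mul, Complex.norm_real, Real.norm_of_nonneg (Real.sqrt_nonneg _)]

/-- dual lattice element `k/(i√3)` -/
def dl (k : Eis) : ℂ := toC k / iS3

lemma dl_re (k : Eis) : (dl k).re = (k.im : ℝ) / 2 := by
  have h3 : Real.sqrt 3 * Real.sqrt 3 = 3 := Real.mul_self_sqrt (by norm_num)
  have h0 : Real.sqrt 3 ≠ 0 := by positivity
  unfold dl
  have : toC k / iS3 = (((toC k).im / Real.sqrt 3 : ℝ) : ℂ) + ((-(toC k).re / Real.sqrt 3 : ℝ) : ℂ) * I := by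
    rw [div_eq_iff iS3_ne_zero]
    unfold iS3
    have h0' : (Real.sqrt 3 : ℂ) ≠ 0 := by exact_mod_cast h0
    push_cast
    field_simp
    apply Complex.ext
    · simp
    · simp
  rw [this]
  simp only [add_re, ofReal_re, mul_re, I_re, mul_zero, ofReal_im, I_im, mul_one, sub_self, add_zero]
  rw [toC_im]
  field_simp

/-- the pairing between `E` and the dual lattice is integral -/
lemma eC_dl_mul (k x : Eis) : eC (dl k * toC x) = 1 := by
  have h : dl k * toC x = dl (k * x) := by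
    unfold dl; rw [map_mul]; ring
  rw [h, eC_eq, dl_re]
  rw [show (((2 * Real.pi * (2 * (((k * x).im : ℝ) / 2)) : ℝ)) : ℂ) * I
    = (((k * x).im : ℤ) : ℂ) * (2 * Real.pi * I) by push_cast; ring]
  exact Complex.exp_int_mul_two_pi_mul_I _

lemma eC_toC (x : Eis) : eC (toC x) = 1 := by
  have := eC_dl_mul sq3 x
  rwa [show dl sq3 = 1 by unfold dl; rw [toC_sq3, div_self iS3_ne_zero], one_mul] at this

/-! ### the lattice map -/

/-- `v ↦ v₀ + v₁ ω` -/
def Lf (v : Fin 2 → ℝ) : ℂ := (v 0 : ℂ) + (v 1 : ℂ) * wC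

lemma Lf_re (v : Fin 2 → ℝ) : (Lf v).re = v 0 - v 1 / 2 := by
  simp [Lf, wC]; ring

lemma Lf_im (v : Fin 2 → ℝ) : (Lf v).im = v 1 * Real.sqrt 3 / 2 := by
  simp [Lf, wC]; ring

lemma Lf_add (v w : Fin 2 → ℝ) : Lf (v + w) = Lf v + Lf w := by
  simp [Lf]; ring

lemma Lf_continuous : Continuous Lf := by unfold Lf; fun_prop

/-- integer vectors as Eisenstein integers -/
def eZ : (Fin 2 → ℤ) ≃ Eis where
  toFun n := ⟨n 0, n 1⟩
  invFun x := ![x.re, x.im]
  left_inv n := by funext i; fin_cases i <;> rfl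
  right_inv x := by rfl

lemma Lf_zc (n : Fin 2 → ℤ) : Lf (Po.zc n) = toC (eZ n) := by
  rw [toC_apply]
  rfl

/-- parametrisation of the dual lattice -/
def eD : (Fin 2 → ℤ) ≃ Eis where
  toFun n := ⟨n 0 + n 1, n 0⟩
  invFun x := ![x.im, x.re - x.im]
  left_inv n := by funext i; fin_cases i <;> simp
  right_inv x := by
    apply Eis.ext'
    · simp
    · simp

lemma dl_eD_pair (k : Fin 2 → ℤ) (v : Fin 2 → ℝ) : eC (dl (eD k) * Lf v) = Po.eP k v := by
  have h1 : (dl (eD k)).re = (k 0 : ℝ) / 2 := by rw [dl_re]; rfl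
  have h2 : (dl (eD k) * wC).re = (k 1 : ℝ) / 2 := by
    have : dl (eD k) * wC = dl (eD k * w) := by
      unfold dl; rw [map_mul, toC_w]; ring
    rw [this, dl_re]
    congr 1
    simp [eD]
  rw [eC_eq]
  have h3 : (dl (eD k) * Lf v).re = v 0 * ((k 0 : ℝ) / 2) + v 1 * ((k 1 : ℝ) / 2) := by
    unfold Lf
    rw [mul_add, add_re, show dl (eD k) * ((v 1 : ℂ) * wC) = (v 1 : ℂ) * (dl (eD k) * wC) by ring,
      mul_comm (dl (eD k)) (v 0 : ℂ), Complex.re_ofReal_mul, Complex.re_ofReal_mul, h1, h2]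
  rw [h3]
  unfold Po.eP
  congr 1
  push_cast
  ring

/-- the homeomorphism `ℝ² ≃ ℂ` given by the basis `1, ω`. -/
def LH : (Fin 2 → ℝ) ≃ₜ ℂ where
  toFun := Lf
  invFun z := ![z.re + z.im / Real.sqrt 3, 2 * z.im / Real.sqrt 3]
  left_inv v := by
    have h0 : Real.sqrt 3 ≠ 0 := by positivity
    funext i
    fin_cases i
    · simp [Lf_re, Lf_im]; field_simp; ring
    · simp [Lf_im]; field_simp
  right_inv z := by
    have h0 : Real.sqrt 3 ≠ 0 := by positivity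
    apply Complex.ext
    · rw [Lf_re]; simp; field_simp; ring
    · rw [Lf_im]; simp
  continuous_toFun := Lf_continuous
  continuous_invFun := by fun_prop

lemma Lf_symm_norm (z : ℂ) : ‖LH.symm z‖ ≤ 2 * ‖z‖ := by
  have h0 : (1:ℝ) ≤ Real.sqrt 3 := by
    rw [show (1:ℝ) = Real.sqrt 1 by simp]
    exact Real.sqrt_le_sqrt (by norm_num)
  have h1 : |z.im| / Real.sqrt 3 ≤ ‖z‖ := by
    rw [div_le_iff₀ (by positivity)]
    calc |z.im| ≤ ‖z‖ := Complex.abs_im_le_norm z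
      _ ≤ ‖z‖ * Real.sqrt 3 := by nlinarith [norm_nonneg z]
  rw [pi_norm_le_iff_of_nonneg (by positivity)]
  intro i
  fin_cases i
  · show ‖z.re + z.im / Real.sqrt 3‖ ≤ _
    rw [Real.norm_eq_abs]
    calc |z.re + z.im / Real.sqrt 3| ≤ |z.re| + |z.im / Real.sqrt 3| := abs_add_le _ _
      _ = |z.re| + |z.im| / Real.sqrt 3 := by
          rw [abs_div, abs_of_nonneg (Real.sqrt_nonneg 3)]
      _ ≤ ‖z‖ + ‖z‖ := add_le_add (Complex.abs_re_le_norm z) h1
      _ = 2 * ‖z‖ := by ring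
  · show ‖2 * z.im / Real.sqrt 3‖ ≤ _
    rw [Real.norm_eq_abs, abs_div, abs_mul, abs_of_nonneg (Real.sqrt_nonneg 3), abs_two, mul_div_assoc]
    linarith

lemma norm_le_Lf (v : Fin 2 → ℝ) : ‖v‖ ≤ 2 * ‖Lf v‖ := by
  have := Lf_symm_norm (Lf v)
  rwa [show LH.symm (Lf v) = v from LH.left_inv v] at this

lemma map_Lf : Measure.map Lf (volume : Measure (Fin 2 → ℝ)) =
    ENNReal.ofReal (2 / Real.sqrt 3) • (volume : Measure ℂ) := by
  let M : Matrix (Fin 2) (Fin 2) ℝ := !![1, -1/2; 0, Real.sqrt 3 / 2]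
  have hdet : M.det = Real.sqrt 3 / 2 := by
    simp [M, Matrix.det_fin_two_of]
  have hne : M.det ≠ 0 := by rw [hdet]; positivity
  have h1 := Real.map_matrix_volume_pi_eq_smul_volume_pi hne
  have h2 : Lf = (fun p => Complex.measurableEquivPi.symm p) ∘ (Matrix.toLin' M) := by
    funext v
    apply Complex.ext
    · rw [Lf_re]
      simp [M, Matrix.toLin'_apply, Matrix.mulVec, dotProduct, Fin.sum_univ_two]
      ring
    · rw [Lf_im]
      simp [M, Matrix.toLin'_apply, Matrix.mulVec, dotProduct, Fin.sum_univ_two]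
      ring
  rw [h2, ← Measure.map_map Complex.measurableEquivPi.symm.measurable
    (LinearMap.continuous_of_finiteDimensional _).measurable, h1, Measure.map_smul]
  have h3 := Complex.volume_preserving_equiv_pi.symm.map_eq
  rw [h3, hdet]
  congr 2
  rw [abs_of_nonneg (by positivity)]
  rw [inv_div]

lemma integral_Lf {E : Type*} [NormedAddCommGroup E] [NormedSpace ℝ E] (h : ℂ → E) :
    ∫ v : Fin 2 → ℝ, h (Lf v) = (2 / Real.sqrt 3) • ∫ z, h z := by
  have h1 : MeasurableEmbedding Lf := LH.toMeasurableEquiv.measurableEmbedding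
  rw [← h1.integral_map, map_Lf, integral_smul_measure, ENNReal.toReal_ofReal (by positivity)]

lemma integral_comp_affine {E : Type*} [NormedAddCommGroup E] [NormedSpace ℝ E] (h : ℂ → E)
    {q : ℂ} (hq : q ≠ 0) (t : ℂ) :
    ∫ z, h (q * z + t) = (‖q‖ ^ 2)⁻¹ • ∫ z, h z := by
  have hdet : LinearMap.det (LinearMap.mulLeft ℝ q) = ‖q‖ ^ 2 := by
    have := Algebra.norm_complex_apply q
    rw [Algebra.norm_apply, Complex.normSq_eq_norm_sq] at this
    exact this
  have hne : LinearMap.det (LinearMap.mulLeft ℝ q) ≠ 0 := by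
    rw [hdet]; positivity
  have h1 := Measure.map_linearMap_addHaar_eq_smul_addHaar (volume : Measure ℂ) hne
  have h2 : ∫ z, h (q * z + t) = ∫ z, (fun y => h (y + t)) (q * z) := rfl
  rw [h2]
  have hemb : MeasurableEmbedding (fun z : ℂ => q * z) :=
    (Homeomorph.mulLeft₀ q hq).toMeasurableEquiv.measurableEmbedding
  rw [← hemb.integral_map (fun y => h (y + t))]
  have h3 : Measure.map (fun z : ℂ => q * z) volume = ENNReal.ofReal (|(‖q‖ ^ 2)⁻¹|) • volume := by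
    rw [← hdet]; exact h1
  rw [h3, integral_smul_measure, ENNReal.toReal_ofReal (abs_nonneg _), abs_of_nonneg (by positivity),
    integral_add_right_eq_self]

/-! ### the Fourier transform -/

/-- Fourier transform with respect to the character `e(z) = exp(2πi (z + z̄))`. -/
def fC (f : ℂ → ℂ) (ξ : ℂ) : ℂ := ∫ z, f z * eC (-(ξ * z))

lemma fC_affine (f : ℂ → ℂ) {q : ℂ} (hq : q ≠ 0) (t ξ : ℂ) :
    fC (fun z => f (q * z + t)) ξ = (((‖q‖ ^ 2)⁻¹ : ℝ) : ℂ) * (eC (ξ / q * t) * fC f (ξ / q)) := by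
  unfold fC
  have h1 : ∀ z, f (q * z + t) * eC (-(ξ * z)) =
      (fun y => f y * eC (-(ξ / q * y)) * eC (ξ / q * t)) (q * z + t) := by
    intro z
    simp only
    rw [mul_assoc, ← eC_add']
    congr 2
    field_simp
    ring
  rw [integral_congr_ae (Filter.Eventually.of_forall h1),
    integral_comp_affine (fun y => f y * eC (-(ξ / q * y)) * eC (ξ / q * t)) hq t,
    integral_mul_const, Complex.real_smul]
  ring

lemma fC_eq_fourier (f : ℂ → ℂ) (ξ : ℂ) : fC f ξ = 𝓕 f (2 * (starRingEnd ℂ) ξ) := by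
  unfold fC
  rw [Real.fourier_eq']
  congr 1
  funext z
  rw [smul_eq_mul, mul_comm]
  congr 1
  rw [eC_eq]
  congr 1
  rw [Complex.inner]
  simp
  ring

/-- decay hypothesis used for Poisson summation -/
lemma lattice_decay {f : ℂ → ℂ} {C : ℝ} (hC : ∀ z, ‖f z‖ ≤ C / (1 + ‖z‖) ^ 3)
    {q : ℂ} (hq : q ≠ 0) (t : ℂ) (v : Fin 2 → ℝ) :
    ‖f (q * Lf v + t)‖ ≤ (C * ((1 + 2 / ‖q‖) * (1 + ‖t‖)) ^ 3) / (1 + ‖v‖) ^ 3 := by
  have hC0 : 0 ≤ C := by
    have := (norm_nonneg _).trans (hC 0)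
    simpa using this
  have hq' : 0 < ‖q‖ := norm_pos_iff.mpr hq
  refine (hC _).trans ?_
  rw [div_le_div_iff₀ (by positivity) (by positivity)]
  have key : 1 + ‖v‖ ≤ ((1 + 2 / ‖q‖) * (1 + ‖t‖)) * (1 + ‖q * Lf v + t‖) := by
    have h1 := norm_le_Lf v
    have h2 : ‖Lf v‖ ≤ (‖q * Lf v + t‖ + ‖t‖) / ‖q‖ := by
      rw [le_div_iff₀ hq']
      calc ‖Lf v‖ * ‖q‖ = ‖(q * Lf v + t) - t‖ := by rw [add_sub_cancel_right, norm_mul, mul_comm]
        _ ≤ ‖q * Lf v + t‖ + ‖t‖ := norm_sub_le _ _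
    set a := ‖q * Lf v + t‖
    set b := ‖t‖
    have ha : 0 ≤ a := norm_nonneg _
    have hb : 0 ≤ b := norm_nonneg _
    have h3 : 1 + ‖v‖ ≤ 1 + 2 / ‖q‖ * (a + b) := by
      calc 1 + ‖v‖ ≤ 1 + 2 * ((a + b) / ‖q‖) := by linarith
        _ = 1 + 2 / ‖q‖ * (a + b) := by ring
    refine h3.trans ?_
    have h4 : 0 ≤ 2 / ‖q‖ := by positivity
    nlinarith [mul_nonneg ha hb, mul_nonneg h4 (mul_nonneg ha hb), mul_nonneg h4 ha, mul_nonneg h4 hb]
  calc C * (1 + ‖v‖) ^ 3 ≤ C * (((1 + 2 / ‖q‖) * (1 + ‖t‖)) * (1 + ‖q * Lf v + t‖)) ^ 3 := by gcongr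
    _ = C * ((1 + 2 / ‖q‖) * (1 + ‖t‖)) ^ 3 * (1 + ‖q * Lf v + t‖) ^ 3 := by ring

lemma fhP_eq (f : ℂ → ℂ) {q : ℂ} (hq : q ≠ 0) (t : ℂ) (k : Fin 2 → ℤ) :
    Po.fhP (fun v => f (q * Lf v + t)) k =
      ((2 / (Real.sqrt 3 * ‖q‖ ^ 2) : ℝ) : ℂ) *
        (fC f (dl (eD k) / q) * eC (dl (eD k) / q * t)) := by
  unfold Po.fhP
  have h1 : ∀ v : Fin 2 → ℝ, Po.eP (-k) v * f (q * Lf v + t) =
      (fun z => f (q * z + t) * eC (-(dl (eD k) * z))) (Lf v) := by
    intro v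
    simp only
    rw [Po.eP_neg, ← dl_eD_pair, eC_neg', mul_comm]
  rw [integral_congr_ae (Filter.Eventually.of_forall h1),
    integral_Lf (fun z => f (q * z + t) * eC (-(dl (eD k) * z)))]
  have h2 := fC_affine f hq t (dl (eD k))
  unfold fC at h2 ⊢
  rw [h2, Complex.real_smul]
  push_cast
  have h0 : (Real.sqrt 3 : ℂ) ≠ 0 := by
    have : Real.sqrt 3 ≠ 0 := by positivity
    exact_mod_cast this
  have hq' : (‖q‖ : ℂ) ≠ 0 := by
    have : ‖q‖ ≠ 0 := norm_ne_zero_iff.mpr hq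
    exact_mod_cast this
  field_simp

/-- **Poisson summation over the lattice `q E + t`**, general form. -/
theorem poisson_eis {f : ℂ → ℂ} {C : ℝ} (hf : Continuous f)
    (hC : ∀ z, ‖f z‖ ≤ C / (1 + ‖z‖) ^ 3) {q : ℂ} (hq : q ≠ 0)
    (hs : Summable (fun k : Eis => fC f (dl k / q))) (t : ℂ) :
    ∑' x : Eis, f (q * toC x + t) =
      ((2 / (Real.sqrt 3 * ‖q‖ ^ 2) : ℝ) : ℂ) *
        ∑' k : Eis, fC f (dl k / q) * eC (dl k / q * t) := by
  have hs' : Summable (fun k : Eis => fC f (dl k / q) * eC (dl k / q * t)) := by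
    apply Summable.of_norm
    convert! hs.norm using 1
    funext k
    rw [norm_mul, eC_norm, mul_one]
  have hg : Continuous (fun v : Fin 2 → ℝ => f (q * Lf v + t)) :=
    hf.comp ((continuous_const.mul Lf_continuous).add continuous_const)
  have hsP : Summable (Po.fhP (fun v => f (q * Lf v + t))) := by
    have h1 : Summable (fun k : Fin 2 → ℤ => ((2 / (Real.sqrt 3 * ‖q‖ ^ 2) : ℝ) : ℂ) *
        (fC f (dl (eD k) / q) * eC (dl (eD k) / q * t))) :=
      ((eD.summable_iff (f := fun k : Eis => fC f (dl k / q) * eC (dl k / q * t))).mpr hs').mul_left _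
    convert! h1 using 1
    funext k
    exact fhP_eq f hq t k
  have key := Po.poisson_pi hg (fun v => lattice_decay hC hq t v) hsP 0
  have h1 : ∑' n : Fin 2 → ℤ, f (q * Lf (0 + Po.zc n) + t) = ∑' x : Eis, f (q * toC x + t) := by
    rw [← eZ.tsum_eq]
    refine tsum_congr fun n => ?_
    rw [zero_add, Lf_zc]
  rw [← h1, key, ← tsum_mul_left, ← eD.tsum_eq]
  refine tsum_congr fun k => ?_
  rw [fhP_eq f hq t k]
  rw [show Po.eP k 0 = 1 by simp [Po.eP], mul_one]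

end Crest.Agent.R012.Po581
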