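import Mathlib
import Crest.Agent.R012.Poisson_581

/-!
# Poisson summation over the Eisenstein integers: Schwartz functions, residue classes, characters
-/

set_option autoImplicit false

noncomputable section

open MeasureTheory Complex
open scoped FourierTransform SchwartzMap

namespace Crest.Agent.R012.Po581

open Eis

/-! ### summability over `Eis` -/

lemma toC_norm_ge (x : Eis) : ‖eZ.symm x‖ ≤ 2 * ‖toC x‖ := by
  have h := norm_le_Lf (Po.zc (eZ.symm x))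
  rw [Po.zc_norm, Lf_zc, Equiv.apply_symm_apply] at h
  exact h

/-- `∑ 1/(1+|x|)^3 < ∞` over `Eis`. -/
lemma summable_eis_pow3 : Summable (fun x : Eis => (1 / (1 + ‖toC x‖) ^ 3 : ℝ)) := by
  rw [← eZ.summable_iff]
  refine Summable.of_nonneg_of_le (fun n => by simp only [Function.comp]; positivity) (fun n => ?_)
    (Po.summable_pow3.mul_left 8)
  have h := toC_norm_ge (eZ n)
  rw [Equiv.symm_apply_apply] at h
  simp only [Function.comp]
  rw [mul_one_div, div_le_div_iff₀ (by positivity) (by positivity)]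
  have h2 : (1 + ‖n‖) ^ 3 ≤ (2 * (1 + ‖toC (eZ n)‖)) ^ 3 := by
    gcongr
    linarith
  nlinarith

/-- decaying functions are summable along an affine image of `Eis` -/
lemma summable_affine {f : ℂ → ℂ} {C : ℝ} (hC : ∀ z, ‖f z‖ ≤ C / (1 + ‖z‖) ^ 3)
    {q : ℂ} (hq : q ≠ 0) (t : ℂ) : Summable (fun x : Eis => f (q * toC x + t)) := by
  rw [← eZ.summable_iff]
  refine Summable.of_norm_bounded (g := fun n : Fin 2 → ℤ =>
    (C * ((1 + 2 / ‖q‖) * (1 + ‖t‖)) ^ 3) * (1 / (1 + ‖n‖) ^ 3))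
    (Po.summable_pow3.mul_left _) (fun n => ?_)
  have h := lattice_decay hC hq t (Po.zc n)
  rw [Lf_zc, Po.zc_norm] at h
  rw [mul_one_div]
  exact h

/-- Schwartz functions decay like `(1+|z|)^{-3}`. -/
lemma schwartz_decay (f : 𝓢(ℂ, ℂ)) : ∃ C : ℝ, ∀ z, ‖f z‖ ≤ C / (1 + ‖z‖) ^ 3 := by
  refine ⟨2 ^ 3 * (Finset.Iic (3, 0)).sup (fun m => SchwartzMap.seminorm ℝ m.1 m.2) f, fun z => ?_⟩
  have h := SchwartzMap.one_add_le_sup_seminorm_apply (𝕜 := ℝ) (m := (3, 0)) (k := 3) (n := 0)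
    le_rfl le_rfl f z
  rw [norm_iteratedFDeriv_zero] at h
  rw [le_div_iff₀ (by positivity), mul_comm]
  exact h

/-- Schwartz functions decay like `(1+|z|)^{-k}`. -/
lemma schwartz_decay' (f : 𝓢(ℂ, ℂ)) (k : ℕ) : ∃ C : ℝ, 0 ≤ C ∧ ∀ z, ‖f z‖ ≤ C / (1 + ‖z‖) ^ k := by
  refine ⟨2 ^ k * (Finset.Iic (k, 0)).sup (fun m => SchwartzMap.seminorm ℝ m.1 m.2) f,
    by positivity, fun z => ?_⟩
  have h := SchwartzMap.one_add_le_sup_seminorm_apply (𝕜 := ℝ) (m := (k, 0)) (k := k) (n := 0)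
    le_rfl le_rfl f z
  rw [norm_iteratedFDeriv_zero] at h
  rw [le_div_iff₀ (by positivity), mul_comm]
  exact h

/-- `fC f` decays fast for Schwartz `f`. -/
lemma fC_decay (f : 𝓢(ℂ, ℂ)) (k : ℕ) : ∃ C : ℝ, 0 ≤ C ∧ ∀ ξ, ‖fC f ξ‖ ≤ C / (1 + ‖ξ‖) ^ k := by
  obtain ⟨C, hC0, hC⟩ := schwartz_decay' (𝓕 f) k
  refine ⟨C, hC0, fun ξ => ?_⟩
  rw [fC_eq_fourier]
  have h := hC (2 * (starRingEnd ℂ) ξ)
  rw [SchwartzMap.fourier_coe] at h
  refine h.trans ?_
  have h2 : ‖(2 : ℂ) * (starRingEnd ℂ) ξ‖ = 2 * ‖ξ‖ := by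
    rw [norm_mul, Complex.norm_conj]; norm_num
  rw [h2]
  gcongr
  linarith [norm_nonneg ξ]

lemma fC_continuous (f : 𝓢(ℂ, ℂ)) : Continuous (fC f) := by
  have h : fC f = fun ξ => (𝓕 f) (2 * (starRingEnd ℂ) ξ) := by
    funext ξ
    rw [fC_eq_fourier, SchwartzMap.fourier_coe]
  rw [h]
  exact (𝓕 f).continuous.comp (continuous_const.mul Complex.continuous_conj)

lemma fC_summable (f : 𝓢(ℂ, ℂ)) {q : ℂ} (hq : q ≠ 0) :
    Summable (fun k : Eis => fC f (dl k / q)) := by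
  obtain ⟨C, hC0, hC⟩ := fC_decay f 3
  have h := summable_affine hC (q := (iS3 * q)⁻¹) (inv_ne_zero (mul_ne_zero iS3_ne_zero hq)) 0
  convert! h using 1
  funext k
  congr 1
  unfold dl
  field_simp
  ring

/-- **Poisson summation over `E` for Schwartz functions**, lattice `q E + t`. -/
theorem poisson_schwartz (f : 𝓢(ℂ, ℂ)) {q : ℂ} (hq : q ≠ 0) (t : ℂ) :
    ∑' x : Eis, f (q * toC x + t) =
      ((2 / (Real.sqrt 3 * ‖q‖ ^ 2) : ℝ) : ℂ) *
        ∑' k : Eis, fC f (dl k / q) * eC (dl k / q * t) := by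
  obtain ⟨C, hC⟩ := schwartz_decay f
  exact poisson_eis f.continuous hC hq (fC_summable f hq) t

lemma summable_schwartz (f : 𝓢(ℂ, ℂ)) {q : ℂ} (hq : q ≠ 0) (t : ℂ) :
    Summable (fun x : Eis => f (q * toC x + t)) := by
  obtain ⟨C, hC⟩ := schwartz_decay f
  exact summable_affine hC hq t

lemma summable_schwartz_one (f : 𝓢(ℂ, ℂ)) : Summable (fun x : Eis => f (toC x)) := by
  have := summable_schwartz f one_ne_zero 0
  simpa using this

/-- the plain case `∑_{x ∈ E} f(x) = (2/√3) ∑_k f̂(k/√-3)`. -/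
theorem poisson_schwartz_one (f : 𝓢(ℂ, ℂ)) :
    ∑' x : Eis, f (toC x) = ((2 / Real.sqrt 3 : ℝ) : ℂ) * ∑' k : Eis, fC f (dl k) := by
  have h := poisson_schwartz f one_ne_zero 0
  simp only [one_mul, add_zero, div_one, mul_zero, eC_zero', mul_one, norm_one, one_pow] at h
  exact h

/-! ### residue classes -/

instance finite_quot (c : Eis) [NeZero c] : Finite (Eis ⧸ Ideal.span ({c} : Set Eis)) := by
  have hc : c ≠ 0 := NeZero.ne c
  have hn : (nm c : ℤ) ≠ 0 := by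
    have : nm c ≠ 0 := fun h => hc (nm_eq_zero.mp h)
    exact_mod_cast this
  -- map `(a, b) ∈ {0..N-1}²` onto the quotient
  let N : ℕ := nm c
  have hN : N ≠ 0 := fun h => hc (nm_eq_zero.mp h)
  have hdvd : c ∣ ((N : ℤ) : Eis) := by
    refine ⟨Eis.conj c, ?_⟩
    apply toC_injective
    rw [map_mul, toC_conj, Complex.mul_conj, normSq_toC]
    simp [N]
  let φ : Fin N × Fin N → Eis ⧸ Ideal.span ({c} : Set Eis) :=
    fun p => Ideal.Quotient.mk _ (⟨(p.1 : ℤ), (p.2 : ℤ)⟩ : Eis)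
  refine Finite.of_surjective φ ?_
  intro y
  obtain ⟨x, rfl⟩ := Ideal.Quotient.mk_surjective y
  have hNpos : (0 : ℤ) < N := by exact_mod_cast Nat.pos_of_ne_zero hN
  have h1 := Int.emod_nonneg x.re hNpos.ne'
  have h2 := Int.emod_lt_of_pos x.re hNpos
  have h3 := Int.emod_nonneg x.im hNpos.ne'
  have h4 := Int.emod_lt_of_pos x.im hNpos
  refine ⟨(⟨(x.re % N).toNat, by omega⟩, ⟨(x.im % N).toNat, by omega⟩), ?_⟩
  simp only [φ]
  rw [Ideal.Quotient.eq, Ideal.mem_span_singleton]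
  refine hdvd.trans ?_
  refine ⟨-⟨x.re / N, x.im / N⟩, ?_⟩
  have e1 : ((x.re % N).toNat : ℤ) = x.re % N := Int.toNat_of_nonneg h1
  have e2 : ((x.im % N).toNat : ℤ) = x.im % N := Int.toNat_of_nonneg h3
  have d1 := Int.emod_add_mul_ediv x.re N
  have d2 := Int.emod_add_mul_ediv x.im N
  apply Eis.ext'
  · simp [e1]; linarith
  · simp [e2]; linarith

lemma finite_quot' {c : Eis} (hc : c ≠ 0) : Finite (Eis ⧸ Ideal.span ({c} : Set Eis)) :=
  haveI : NeZero c := ⟨hc⟩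
  finite_quot c

/-- decomposition of `Eis` into residue classes: `x = out r + c y` -/
def resEquiv {c : Eis} (hc : c ≠ 0) : (Eis ⧸ Ideal.span ({c} : Set Eis)) × Eis ≃ Eis where
  toFun p := Quotient.out p.1 + c * p.2
  invFun x := (Ideal.Quotient.mk _ x,
    (x - Quotient.out (Ideal.Quotient.mk (Ideal.span ({c} : Set Eis)) x)) / c)
  left_inv := by
    rintro ⟨r, y⟩
    have h0 : Ideal.Quotient.mk (Ideal.span ({c} : Set Eis)) (Quotient.out r + c * y) = r := by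
      rw [map_add]
      have h1 : Ideal.Quotient.mk (Ideal.span ({c} : Set Eis)) (c * y) = 0 := by
        rw [Ideal.Quotient.eq_zero_iff_mem, Ideal.mem_span_singleton]
        exact dvd_mul_right _ _
      rw [h1, add_zero]
      exact Quotient.out_eq' r
    simp only [h0]
    rw [add_sub_cancel_left, mul_div_cancel_left₀ _ hc]
  right_inv := by
    intro x
    simp only
    have h1 : c ∣ x - Quotient.out (Ideal.Quotient.mk (Ideal.span ({c} : Set Eis)) x) := by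
      rw [← Ideal.mem_span_singleton, ← Ideal.Quotient.eq]
      exact (Quotient.out_eq' _).symm
    rw [EuclideanDomain.mul_div_cancel' hc h1]
    ring

/-- `χ` is periodic modulo `c`. -/
def PerMod (c : Eis) (χ : Eis → ℂ) : Prop := ∀ x y, χ (x + c * y) = χ x

lemma tsum_res {c : Eis} (hc : c ≠ 0) {F : Eis → ℂ} (hF : Summable F) :
    ∑' x : Eis, F x = sumMod c (fun a => ∑' y : Eis, F (a + c * y)) := by
  have := finite_quot' hc
  have := Fintype.ofFinite (Eis ⧸ Ideal.span ({c} : Set Eis))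
  unfold sumMod
  rw [finsum_eq_sum_of_fintype, ← (resEquiv hc).tsum_eq]
  have h := Summable.tsum_prod ((resEquiv hc).summable_iff.mpr hF)
  refine h.trans ?_
  rw [tsum_fintype]
  rfl

lemma toC_ne_zero {c : Eis} (hc : c ≠ 0) : toC c ≠ 0 := fun h => hc (toC_eq_zero.mp h)

/-- **Poisson summation in a residue class** `x ≡ a (mod c)`. -/
theorem poisson_class (f : 𝓢(ℂ, ℂ)) {c : Eis} (hc : c ≠ 0) (a : Eis) :
    ∑' y : Eis, f (toC (a + c * y)) =
      ((2 / (Real.sqrt 3 * nm c) : ℝ) : ℂ) *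
        ∑' k : Eis, fC f (dl k / toC c) * eC (dl k / toC c * toC a) := by
  have h := poisson_schwartz f (toC_ne_zero hc) (toC a)
  rw [norm_toC_sq] at h
  rw [← h]
  refine tsum_congr fun y => ?_
  rw [map_add, map_mul, add_comm]

/-- finite character sum on the dual side -/
def dualSum (c : Eis) (χ : Eis → ℂ) (k : Eis) : ℂ :=
  sumMod c (fun a => χ a * eC (dl k / toC c * toC a))

lemma sumMod_norm_le {c : Eis} (hc : c ≠ 0) {F : Eis → ℂ} {B : ℝ} (hB : ∀ x, ‖F x‖ ≤ B) :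
    ‖sumMod c F‖ ≤ (Nat.card (Eis ⧸ Ideal.span ({c} : Set Eis)) : ℝ) * B := by
  have := finite_quot' hc
  have := Fintype.ofFinite (Eis ⧸ Ideal.span ({c} : Set Eis))
  unfold sumMod
  rw [finsum_eq_sum_of_fintype]
  refine (norm_sum_le _ _).trans ?_
  refine (Finset.sum_le_sum (fun q _ => hB _)).trans ?_
  rw [Finset.sum_const, nsmul_eq_mul, Nat.card_eq_fintype_card]
  rfl

lemma perMod_bdd {c : Eis} (hc : c ≠ 0) {χ : Eis → ℂ} (hχ : PerMod c χ) :
    ∃ B : ℝ, 0 ≤ B ∧ ∀ x, ‖χ x‖ ≤ B := by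
  have := finite_quot' hc
  have := Fintype.ofFinite (Eis ⧸ Ideal.span ({c} : Set Eis))
  refine ⟨∑ r : Eis ⧸ Ideal.span ({c} : Set Eis), ‖χ (Quotient.out r)‖,
    Finset.sum_nonneg (fun _ _ => norm_nonneg _), fun x => ?_⟩
  obtain ⟨⟨r, y⟩, rfl⟩ := (resEquiv hc).surjective x
  show ‖χ (Quotient.out r + c * y)‖ ≤ _
  rw [hχ]
  exact Finset.single_le_sum (f := fun r : Eis ⧸ Ideal.span ({c} : Set Eis) => ‖χ (Quotient.out r)‖)
    (fun _ _ => norm_nonneg _) (Finset.mem_univ r)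

lemma summable_mul_bdd {χ : Eis → ℂ} {B : ℝ} (hB : ∀ x, ‖χ x‖ ≤ B) {F : Eis → ℂ}
    (hF : Summable F) : Summable (fun x => χ x * F x) := by
  refine Summable.of_norm_bounded (hF.norm.mul_left B) (fun x => ?_)
  rw [norm_mul]
  exact mul_le_mul_of_nonneg_right (hB x) (norm_nonneg _)

/-- **Poisson summation with a periodic weight** `χ` modulo `c`. -/
theorem poisson_periodic (f : 𝓢(ℂ, ℂ)) {c : Eis} (hc : c ≠ 0) {χ : Eis → ℂ} (hχ : PerMod c χ) :
    ∑' x : Eis, χ x * f (toC x) =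
      ((2 / (Real.sqrt 3 * nm c) : ℝ) : ℂ) *
        ∑' k : Eis, dualSum c χ k * fC f (dl k / toC c) := by
  have := finite_quot' hc
  have := Fintype.ofFinite (Eis ⧸ Ideal.span ({c} : Set Eis))
  obtain ⟨B, hB0, hB⟩ := perMod_bdd hc hχ
  have hs : Summable (fun x : Eis => χ x * f (toC x)) :=
    summable_mul_bdd hB (summable_schwartz_one f)
  rw [tsum_res hc hs]
  unfold dualSum sumMod
  rw [finsum_eq_sum_of_fintype]
  simp_rw [finsum_eq_sum_of_fintype]
  have h1 : ∀ r : Eis ⧸ Ideal.span ({c} : Set Eis),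
      ∑' y : Eis, χ (Quotient.out r + c * y) * f (toC (Quotient.out r + c * y)) =
      ((2 / (Real.sqrt 3 * nm c) : ℝ) : ℂ) * ∑' k : Eis, χ (Quotient.out r) *
        eC (dl k / toC c * toC (Quotient.out r)) * fC f (dl k / toC c) := by
    intro r
    have h2 : ∀ y, χ (Quotient.out r + c * y) = χ (Quotient.out r) := fun y => hχ _ _
    simp_rw [h2]
    rw [tsum_mul_left, poisson_class f hc]
    rw [mul_left_comm, ← tsum_mul_left]
    congr 1
    refine tsum_congr fun k => ?_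
    ring
  simp_rw [h1]
  rw [← Finset.mul_sum]
  congr 1
  rw [← Summable.tsum_finsetSum]
  · refine tsum_congr fun k => ?_
    rw [Finset.sum_mul]
  · intro r _
    have := summable_mul_bdd (χ := fun k => χ (Quotient.out r) * eC (dl k / toC c * toC (Quotient.out r)))
      (B := ‖χ (Quotient.out r)‖) (fun k => by rw [norm_mul, eC_norm, mul_one])
      (fC_summable f (toC_ne_zero hc))
    exact this

lemma dualSum_bdd {c : Eis} (hc : c ≠ 0) {χ : Eis → ℂ} (hχ : PerMod c χ) :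
    ∃ B : ℝ, ∀ k, ‖dualSum c χ k‖ ≤ B := by
  obtain ⟨B, hB0, hB⟩ := perMod_bdd hc hχ
  refine ⟨(Nat.card (Eis ⧸ Ideal.span ({c} : Set Eis)) : ℝ) * B, fun k => ?_⟩
  exact sumMod_norm_le hc (fun x => by rw [norm_mul, eC_norm, mul_one]; exact hB x)

lemma poisson_periodic_summable (f : 𝓢(ℂ, ℂ)) {c : Eis} (hc : c ≠ 0) {χ : Eis → ℂ}
    (hχ : PerMod c χ) :
    Summable (fun k : Eis => dualSum c χ k * fC f (dl k / toC c)) := by
  obtain ⟨B, hB⟩ := dualSum_bdd hc hχ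
  exact summable_mul_bdd hB (fC_summable f (toC_ne_zero hc))

/-! ### the Gaussian -/

/-- Gaussian transform: `∫ exp(-π a |z|²) e(-ξ z) dz = a⁻¹ exp(-4π|ξ|²/a)`. -/
lemma fC_gauss {a : ℝ} (ha : 0 < a) (ξ : ℂ) :
    fC (fun z => (Real.exp (-(Real.pi * a * ‖z‖ ^ 2)) : ℂ)) ξ =
      ((a⁻¹ * Real.exp (-(4 * Real.pi * ‖ξ‖ ^ 2 / a)) : ℝ) : ℂ) := by
  rw [fC_eq_fourier]
  have h := fourier_gaussian_innerProductSpace (V := ℂ) (b := ((Real.pi * a : ℝ) : ℂ))
    (by rw [Complex.ofReal_re]; positivity) (2 * (starRingEnd ℂ) ξ)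
  have h1 : (fun z : ℂ => (Real.exp (-(Real.pi * a * ‖z‖ ^ 2)) : ℂ)) =
      fun v : ℂ => cexp (-((Real.pi * a : ℝ) : ℂ) * (‖v‖ : ℂ) ^ 2) := by
    funext z
    rw [Complex.ofReal_exp]
    congr 1
    push_cast
    ring
  rw [h1, h]
  have hpi : (Real.pi : ℂ) ≠ 0 := by exact_mod_cast Real.pi_ne_zero
  have hac : (a : ℂ) ≠ 0 := by exact_mod_cast ha.ne'
  have h2 : ‖(2 : ℂ) * (starRingEnd ℂ) ξ‖ = 2 * ‖ξ‖ := by
    rw [norm_mul, Complex.norm_conj]; norm_num
  rw [h2, Complex.finrank_real_complex]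
  have h3 : ((Real.pi : ℂ) / ((Real.pi * a : ℝ) : ℂ)) = (a : ℂ)⁻¹ := by
    push_cast; field_simp
  rw [h3]
  have h4 : ((2 : ℕ) / 2 : ℂ) = 1 := by norm_num
  rw [h4, Complex.cpow_one]
  push_cast
  congr 2
  field_simp
  ring

end Crest.Agent.R012.Po581
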