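import Crest.Agent.R012.MSgenF_49
import Crest.Agent.R012.TItMS1_663
import Crest.Agent.R012.NB_858
import Crest.Agent.R012.GramQ_988
import Crest.Agent.R012.RhoOneFin_51
import Crest.Agent.R012.Rho2_777
import Crest.Agent.R012.Cst7_566
import Crest.Agent.R012.Cube_777
import Crest.Agent.R012.TateS_413
import Crest.Agent.R012.PhiAs_858

/-!
# Row 12, part (M): final assembly (helper49)

* `ms_all : ∃ ρ, MS1 ρ ∧ MS ρ ∧ RhoRel ρ`
* `rho_sq : ‖ρ (u λ^j)‖² = (pC Dsf)² κ(u λ^j)`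
* `rhoOne_of_thAs : MS ρ → RhoRel ρ → ThAs ρ → RhoOne ρ`
* `m_final : ∃ ρ, MS ρ ∧ RhoRel ρ ∧ RhoOne ρ`
-/

set_option autoImplicit false

noncomputable section

open MeasureTheory Complex Set Filter Topology
open Crest.Agent.R012.Eis

namespace Crest.Agent.R012.MFinal49

/-- **(M-MS), (M-R).** -/
theorem ms_all : ∃ ρ : Eis → ℂ, M49.MS1 ρ ∧ M49.MS ρ ∧ M49.RhoRel ρ := by
  obtain ⟨ρ, hρ⟩ := TIt663.MS1_of_K1 Gram858.k1
  exact ⟨ρ, hρ, MSgen49.MS_of_MS1 hρ, K695.GramQ988.rhoRel_of_MS1 hρ⟩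

lemma cubeLimit : MC.CubeLimit := Cube777.cube_limit

lemma lamish_unit_lam {u : Eis} (hu : IsUnit u) (j : ℕ) : Rho777.Lamish (u * lam ^ j) := by
  refine ⟨mul_ne_zero hu.ne_zero (pow_ne_zero _ lam_ne_zero), fun p hp hpp hd => ?_⟩
  rcases hp.dvd_or_dvd hd with h | h
  · exact hp.not_isUnit (isUnit_of_dvd_unit h hu)
  · have h1 := hp.dvd_of_dvd_pow h
    have h2 : IsCoprime p lam := by
      have := MC.isCoprime_unit_lam isUnit_one 1 p hpp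
      simpa using this.symm
    exact hp.not_isUnit (h2.isUnit_of_dvd' dvd_rfl h1)

/-- **(M-C)** absolute values of the 18 basic residues. -/
theorem rho_sq {ρ : Eis → ℂ} (hMS : M49.MS ρ) (hR : M49.RhoRel ρ) {u : Eis} (hu : IsUnit u)
    {j : ℕ} (hj : j ≤ 2) :
    ‖ρ (u * lam ^ j)‖ ^ 2 = (pC * M49.Dsf) ^ 2 * MC.kapR (u * lam ^ j) := by
  rw [Rho777.Dsf_eq]
  refine Rho777.rho_sq_of_spec Gauss880.syG hMS hR (lamish_unit_lam hu j) (δ := 2 / 5)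
    (by norm_num) (by norm_num) ?_ ?_
  · intro w v hw hv
    exact MC.first_moment_limit_unit_lam cubeLimit hw hv hu hj (by norm_num) (by norm_num)
  · intro w hw
    have := TateC413.Iw_eq hw
    rw [this]
    norm_num

lemma kapR_le_one {r : Eis} (hr : r ≠ 0) : MC.kapR r ≤ 1 := by
  unfold MC.kapR
  split_ifs
  · apply Real.rpow_le_one_of_one_le_of_nonpos _ (by norm_num)
    exact_mod_cast nm_pos.2 hr
  · exact zero_le_one

lemma rho_one_sq {ρ : Eis → ℂ} (hMS : M49.MS ρ) (hR : M49.RhoRel ρ) :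
    ‖ρ 1‖ ^ 2 = (pC * M49.Dsf) ^ 2 := by
  have := rho_sq hMS hR isUnit_one (j := 0) (by norm_num)
  simpa [MC.kapR_one] using this

lemma h18 {ρ : Eis → ℂ} (hMS : M49.MS ρ) (hR : M49.RhoRel ρ) (u : Eis) (hu : IsUnit u) (j : ℕ)
    (hj : j ≤ 2) : ‖ρ (u * lam ^ j)‖ ≤ ‖ρ 1‖ := by
  have h1 := rho_sq hMS hR hu hj
  have h2 := rho_one_sq hMS hR
  rw [← sq_le_sq₀ (norm_nonneg _) (norm_nonneg _), h1, h2]
  have h3 := kapR_le_one (mul_ne_zero hu.ne_zero (pow_ne_zero j lam_ne_zero))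
  nlinarith [sq_nonneg (pC * M49.Dsf)]

lemma h18v {ρ : Eis → ℂ} (hMS : M49.MS ρ) (hR : M49.RhoRel ρ) (u : Eis) (hu : IsUnit u) (j : ℕ)
    (hj : j ≤ 2) (h3 : ¬ 3 ∣ (u * lam ^ j).im) : ρ (u * lam ^ j) = 0 := by
  have h1 := rho_sq hMS hR hu hj
  have h4 : MC.kapR (u * lam ^ j) = 0 := by
    unfold MC.kapR; rw [if_neg h3]
  rw [h4, mul_zero] at h1
  exact norm_eq_zero.mp (pow_eq_zero_iff (by norm_num) |>.mp h1)

lemma eps_eq_ek (k : Eis) : Theta131.eps k = MC.ek k := by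
  unfold Theta131.eps MC.ek
  have h : Poisson381.s3 = Po581.iS3 := by
    unfold Poisson381.s3 Po581.iS3
    apply Complex.ext <;> simp
  rw [h]

/-- **(M-Sg)** given the asymptotics `ThAs` of helper131. -/
theorem rhoOne_of_thAs {ρ : Eis → ℂ} (hMS : M49.MS ρ) (hR : M49.RhoRel ρ)
    (hTh : Theta131.ThAs ρ) : M49.RhoOne ρ := by
  refine Sg51.rhoOne_of ?_ (Sg51.rho_one_im hMS) (rho_one_sq hMS hR)
  obtain ⟨hle, hvan⟩ := Sg51.rho_bd hR (Sg51.rho_lam3 hMS) (h18 hMS hR) (h18v hMS hR)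
  refine Sg51.rho_one_pos ρ Theta131.C00 1 Theta131.C00_pos one_pos hle hvan
    (Sg51.rho_neg hMS 1) (Sg51.rho_one_im hMS) ?_
  have hy : 0 < Sg51.y0 := by unfold Sg51.y0; norm_num
  rw [Theta131.hid_of hTh hy]
  apply tsum_congr
  intro r
  by_cases h3 : 3 ∣ r.im
  · rw [eps_eq_ek, (MC.ek_one_iff r).mpr h3, one_mul]
  · rw [hvan r h3, mul_zero]

/-- **(M), final**: the mean square theorem, the relations and the value at `1`. -/
theorem m_final : ∃ ρ : Eis → ℂ, M49.MS ρ ∧ M49.RhoRel ρ ∧ M49.RhoOne ρ := by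
  obtain ⟨ρ, _, hMS, hR⟩ := ms_all
  exact ⟨ρ, hMS, hR, rhoOne_of_thAs hMS hR (PhiAs858.thAs_of_MS hMS)⟩

end Crest.Agent.R012.MFinal49
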