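import Crest.Agent.R012.TI7B_569

/-!
# Row 12, CR2 type I: `CR2.TypeI V` from `M49.MS` and `M49.RhoRel`  (helper569)
-/

set_option autoImplicit false

noncomputable section

open Complex
open scoped ENNReal

namespace Crest.Agent.R012.TI569

open Crest.Agent.R012 Eis LS2 Mob705 M49 TypeI941

local notation "cj" => starRingEnd ℂ

lemma four_pow_card_le {P : Finset Eis} (hP : PPSet P) :
    (4 : ℝ) ^ P.card ≤ nm (∏ q ∈ P, q) := by
  rw [nm_prod, ← Finset.prod_const]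
  push_cast
  apply Finset.prod_le_prod (fun _ _ => by norm_num)
  intro q hq
  exact_mod_cast (hP q hq).four_le_nm

lemma nm_le_of_dvd' {x y : Eis} (h : x ∣ y) (hy : y ≠ 0) : (nm x : ℝ) ≤ nm y := by
  obtain ⟨z, rfl⟩ := h
  have hz : z ≠ 0 := right_ne_zero_of_mul hy
  have h1 : 1 ≤ nm z := nm_pos.mpr hz
  rw [nm_mul]
  push_cast
  have h2 : (1 : ℝ) ≤ nm z := by exact_mod_cast h1
  have h3 : (0 : ℝ) ≤ nm x := Nat.cast_nonneg _
  nlinarith

lemma norm_cst_le {ρ : Eis → ℂ} {v : ℝ → ℂ} {C : ℝ} (hC : 0 ≤ C)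
    (hb : ∀ (h : Eis), h ≠ 0 → ∀ τ : ℝ, ‖ρ h * mellin v (se τ)‖ ≤ C * (nm h * (1 + |τ|)) ^ 2)
    {r r0 a b m : Eis} (hr : r ≠ 0) (h : RDec r r0 a b m) {X : ℝ} (hX : 1 ≤ X) (t : ℝ) :
    ‖cst ρ v r0 a b m X t‖ ≤ C * (nm r * (1 + |t|)) ^ 2 * X ^ ((5 : ℝ) / 6) := by
  classical
  have hX0 : (0 : ℝ) < X := by linarith
  unfold cst
  split_ifs with hb1
  · have hra : r0 * a ≠ 0 := mul_ne_zero (h.ne_zero hr) h.ha.ne_zero
    have hdvd : r0 * a ∣ r := by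
      rw [h.heq]; exact ⟨m ^ 3 * b ^ 2, by ring⟩
    have h1 := nm_le_of_dvd' hdvd hr
    have hre : (se t).re = 5 / 6 := by unfold se; simp
    rw [norm_mul, norm_cpow_eq_rpow_re_of_pos hX0, hre]
    have e : ‖ρ (r0 * a) * dens (pp a ∪ (P2 a b m ∪ pp b)) * mellin v (se t)‖ =
        ‖dens (pp a ∪ (P2 a b m ∪ pp b))‖ * ‖ρ (r0 * a) * mellin v (se t)‖ := by
      rw [norm_mul, norm_mul, norm_mul]; ring
    rw [e]
    have h2 := hb (r0 * a) hra t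
    have h3 := norm_dens_le (P := pp a ∪ (P2 a b m ∪ pp b))
    have h4 : (nm (r0 * a) * (1 + |t|) : ℝ) ^ 2 ≤ (nm r * (1 + |t|)) ^ 2 := by gcongr
    have h5 : ‖dens (pp a ∪ (P2 a b m ∪ pp b))‖ * ‖ρ (r0 * a) * mellin v (se t)‖ ≤
        1 * (C * (nm r * (1 + |t|)) ^ 2) := by
      apply mul_le_mul h3 _ (norm_nonneg _) zero_le_one
      exact h2.trans (mul_le_mul_of_nonneg_left h4 hC)
    rw [one_mul] at h5
    exact mul_le_mul_of_nonneg_right h5 (by positivity)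
  · rw [norm_zero]; positivity

/-- final numerical comparison -/
lemma num_bound {Cτ C1 ε1 nr na ns t D X ε p1 p2 : ℝ} (hCτ : 0 ≤ Cτ) (hC1 : 0 ≤ C1)
    (hε1 : 0 < ε1) (hε2 : ε1 ≤ 1 / 2) (hε : 2 * ε1 ≤ ε) (hnr : 1 ≤ nr) (hna : 1 ≤ na)
    (hns : 1 ≤ ns) (hna' : na ≤ nr) (hns' : ns ≤ nr) (hD : 1 ≤ D) (hX : 1 ≤ X) (hp1 : 0 ≤ p1)
    (hp2 : 0 ≤ p2) (hp1' : p1 ≤ nr) (hp2' : p2 ≤ nr) :
    Cτ * D ^ ε1 * p1 * p2 * ((C1 * (1 + |t|) ^ ε1 * ns ^ (1 + ε1)) * (D * na) ^ ε1 *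
      (D * na + t ^ 2) * X ^ (1 + ε1)) ≤
      Cτ * C1 * (nr * (1 + |t|)) ^ (8 : ℝ) * (D * X) ^ (1 + ε) := by
  have hT : 1 ≤ 1 + |t| := by linarith [abs_nonneg t]
  have hnr0 : 0 < nr := by linarith
  have hD0 : 0 < D := by linarith
  have hX0 : 0 < X := by linarith
  have hTn : 1 ≤ nr * (1 + |t|) := one_le_mul_of_one_le_of_one_le hnr hT
  have h1 : (1 + |t|) ^ ε1 ≤ (1 + |t|) := by
    calc (1 + |t|) ^ ε1 ≤ (1 + |t|) ^ (1 : ℝ) :=
          Real.rpow_le_rpow_of_exponent_le hT (by linarith)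
      _ = _ := Real.rpow_one _
  have h2 : ns ^ (1 + ε1) ≤ nr ^ 2 := by
    calc ns ^ (1 + ε1) ≤ nr ^ (1 + ε1) := Real.rpow_le_rpow (by linarith) hns' (by linarith)
      _ ≤ nr ^ ((2 : ℕ) : ℝ) := Real.rpow_le_rpow_of_exponent_le hnr (by push_cast; linarith)
      _ = nr ^ 2 := Real.rpow_natCast _ _
  have h3 : (D * na) ^ ε1 ≤ D ^ ε1 * nr := by
    rw [Real.mul_rpow hD0.le (by linarith)]
    apply mul_le_mul_of_nonneg_left _ (by positivity)
    calc na ^ ε1 ≤ nr ^ ε1 := Real.rpow_le_rpow (by linarith) hna' hε1.le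
      _ ≤ nr ^ (1 : ℝ) := Real.rpow_le_rpow_of_exponent_le hnr (by linarith)
      _ = nr := Real.rpow_one _
  have h4 : D * na + t ^ 2 ≤ D * nr * (1 + |t|) ^ 2 := by
    have e : t ^ 2 = |t| ^ 2 := (sq_abs t).symm
    rw [e]
    have h5 := abs_nonneg t
    have h6 : 1 ≤ D * nr := one_le_mul_of_one_le_of_one_le hD hnr
    have h7 : (1 + |t|) ^ 2 = 1 + 2 * |t| + |t| ^ 2 := by ring
    rw [h7]
    have h8 : D * na ≤ D * nr := by gcongr
    have h9 : |t| ^ 2 ≤ D * nr * |t| ^ 2 := le_mul_of_one_le_left (by positivity) h6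
    have h10 : 0 ≤ D * nr * (2 * |t|) := by positivity
    nlinarith
  have h5 : X ^ (1 + ε1) ≤ X ^ (1 + ε) := Real.rpow_le_rpow_of_exponent_le hX (by linarith)
  have hna0 : 0 ≤ na := by linarith
  have hns0 : 0 ≤ ns := by linarith
  calc Cτ * D ^ ε1 * p1 * p2 * ((C1 * (1 + |t|) ^ ε1 * ns ^ (1 + ε1)) * (D * na) ^ ε1 *
      (D * na + t ^ 2) * X ^ (1 + ε1))
      ≤ Cτ * D ^ ε1 * nr * nr * ((C1 * (1 + |t|) * nr ^ 2) * (D ^ ε1 * nr) *
      (D * nr * (1 + |t|) ^ 2) * X ^ (1 + ε)) := by gcongr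
    _ = Cτ * C1 * (nr ^ 6 * (1 + |t|) ^ 3) * (D ^ ε1 * D ^ ε1 * D) * X ^ (1 + ε) := by ring
    _ ≤ Cτ * C1 * (nr * (1 + |t|)) ^ (8 : ℝ) * D ^ (1 + ε) * X ^ (1 + ε) := by
        have h6 : nr ^ 6 * (1 + |t|) ^ 3 ≤ (nr * (1 + |t|)) ^ (8 : ℝ) := by
          have e8 : (nr * (1 + |t|)) ^ (8 : ℝ) = (nr * (1 + |t|)) ^ 8 := by
            rw [← Real.rpow_natCast]; norm_num
          rw [e8, mul_pow]
          apply mul_le_mul
          · exact pow_le_pow_right₀ hnr (by norm_num)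
          · exact pow_le_pow_right₀ hT (by norm_num)
          · positivity
          · positivity
        have h7 : D ^ ε1 * D ^ ε1 * D ≤ D ^ (1 + ε) := by
          calc D ^ ε1 * D ^ ε1 * D = D ^ (ε1 + ε1 + 1) := by
                rw [Real.rpow_add hD0, Real.rpow_add hD0, Real.rpow_one]
            _ ≤ D ^ (1 + ε) := Real.rpow_le_rpow_of_exponent_le hD (by linarith)
        gcongr
    _ = _ := by rw [Real.mul_rpow hD0.le hX0.le]; ring

set_option maxHeartbeats 1000000 in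
/-- **Type I mean square for the natural sums with a fixed twist.** -/
theorem typeI_nat {ρ : Eis → ℂ} (hMS : MS ρ) (hρ : RhoRel ρ) {V : ℝ → ℝ}
    (hV : Wt (fun x => ((V x : ℝ) : ℂ))) : CR2.TypeI V := by
  classical
  refine ⟨8, by norm_num, ?_⟩
  intro ε hε
  set v : ℝ → ℂ := fun x => ((V x : ℝ) : ℂ) with hv
  set ε1 : ℝ := min (ε / 2) (1 / 2) with hε1def
  have hε1 : 0 < ε1 := lt_min (by positivity) (by norm_num)
  have hε1a : ε1 ≤ ε / 2 := min_le_left _ _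
  have hε1b : ε1 ≤ 1 / 2 := min_le_right _ _
  obtain ⟨C1, hC1, hM⟩ := hM_of_MS hMS 0 hV hε1 hε1b
  obtain ⟨C2, hC2, hρb⟩ := rho_mellin_le hMS hV
  obtain ⟨Cτ, hCτ, hτ⟩ := Div277.tau_le_rpow hε1
  have hCτ0 : 0 ≤ Cτ := by linarith
  have hZtop : (TypeI941.Z ε1) ^ 7 ≠ ⊤ := ENNReal.pow_ne_top (Z_lt_top hε1).ne
  set zr : ℝ := ((TypeI941.Z ε1) ^ 7).toReal with hzr
  have hzr0 : 0 ≤ zr := ENNReal.toReal_nonneg
  refine ⟨C2 + zr * (Cτ * C1) + 1, by positivity, ?_⟩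
  intro r hr X D t hX hD hDX
  obtain ⟨r0, a, b, m, h⟩ := exists_dec hr
  have hX0 : (0 : ℝ) < X := by linarith
  have hD0 : (0 : ℝ) < D := by linarith
  have hnr : (1 : ℝ) ≤ nm r := by exact_mod_cast nm_pos.mpr hr
  have hT1 : 1 ≤ 1 + |t| := by linarith [abs_nonneg t]
  have hTn : 1 ≤ nm r * (1 + |t|) := one_le_mul_of_one_le_of_one_le hnr hT1
  have hT8 : (nm r * (1 + |t|)) ^ 2 ≤ (nm r * (1 + |t|)) ^ (8 : ℝ) := by
    have e8 : (nm r * (1 + |t|)) ^ (8 : ℝ) = (nm r * (1 + |t|)) ^ 8 := by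
      rw [← Real.rpow_natCast]; norm_num
    rw [e8]
    exact pow_le_pow_right₀ hTn (by norm_num)
  refine ⟨cst ρ v r0 a b m X t, ?_, ?_⟩
  · refine (norm_cst_le hC2 hρb hr h hX t).trans ?_
    have h1 : C2 ≤ C2 + zr * (Cτ * C1) + 1 := by
      have : 0 ≤ zr * (Cτ * C1) := by positivity
      linarith
    gcongr
  · -- the mean square
    have hs0 : r0 * b ^ 2 ≠ 0 := mul_ne_zero (h.ne_zero hr) (pow_ne_zero _ h.hb.ne_zero)
    have hterm : ∀ n ∈ (S D).filter (fun n => IsCoprime n r),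
        ‖CR2.NatS V (n * r) X t - cst ρ v r0 a b m X t * (sy r n * cj (G n) *
          (((nm n : ℝ) ^ (-(1 : ℝ) / 6) * CR2.phi n : ℝ) : ℂ))‖ =
        ‖Ef 0 t v ρ (r0 * (∏ q ∈ pp b, q) ^ 2 * ∏ q ∈ pp n ∪ pp a, q)
          ((pp n ∪ pp a) ∪ (P2 a b m ∪ pp b)) X‖ := by
      intro n hn
      rw [Finset.mem_filter, mem_S hD0.le] at hn
      obtain ⟨⟨_, hnp, hns⟩, hnc⟩ := hn
      have hdisj : Disjoint (pp n) (pp a) := by
        apply pp_disjoint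
        rw [h.heq] at hnc
        exact hnc.of_mul_right_right.of_mul_right_left
      have e1 : r0 * (∏ q ∈ pp b, q) ^ 2 * ∏ q ∈ pp n ∪ pp a, q = r0 * b ^ 2 * (n * a) := by
        rw [prod_pp h.hb h.hsb, Finset.prod_union hdisj, prod_pp hnp hns, prod_pp h.ha h.hsa]
      rw [e1, h.natS_eq hnp, ← h.main_eq hρ hnp hns hnc]
      rfl
    have hmain := (rec_Ef hρ hV 0 t).meanSq (P1 := pp a) (P2 := P2 a b m) (P3 := pp b)
      (ppSet_pp a) (ppset_P2 a b m) (ppSet_pp b)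
      (by
        rw [Finset.disjoint_left]
        intro p hp1 hp2
        exact (mem_P2.mp hp2).2.1 hp1)
      (pp_disjoint h.hab)
      (by
        rw [Finset.disjoint_left]
        intro p hp1 hp2
        exact (mem_P2.mp hp1).2.2 hp2)
      (r0 := r0) h.hr0 (ε := ε1)
      (K := C1 * (1 + |t|) ^ ε1 * (nm (r0 * b ^ 2) : ℝ) ^ (1 + ε1)) (τ := t ^ 2)
      (Λ := Cτ * D ^ ε1) (D := D) hε1 (by positivity) (by positivity) hD
      (by
        intro d hd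
        rw [mem_S hD0.le] at hd
        have h1 := hτ d hd.2.1.ne_zero
        have h2 : (2 : ℝ) ^ (pp d).card ≤ Div277.tau d := by
          exact_mod_cast two_pow_pp_le hd.2.1.ne_zero
        refine h2.trans (h1.trans ?_)
        gcongr
        exact hd.1)
      (by
        intro H hH Y hY
        have h1 := hM (r0 * b ^ 2) hs0 t H Y hH hY
        rw [prod_pp h.hb h.hsb]
        calc ∑ h ∈ (S H).filter (fun h => ∀ p ∈ pp b, ¬ p ∣ h),
              ‖Ef 0 t v ρ (r0 * b ^ 2 * h) ∅ Y‖ₑ ^ 2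
            ≤ ∑ h ∈ S H, ‖Ef 0 t v ρ (r0 * b ^ 2 * h) ∅ Y‖ₑ ^ 2 :=
              Finset.sum_le_sum_of_subset (Finset.filter_subset _ _)
          _ = ENNReal.ofReal (∑ h ∈ S H, ‖Ef 0 t v ρ (r0 * b ^ 2 * h) ∅ Y‖ ^ 2) := by
              rw [ENNReal.ofReal_sum_of_nonneg (fun _ _ => by positivity)]
              refine Finset.sum_congr rfl fun x _ => ?_
              rw [ENNReal.ofReal_pow (norm_nonneg _), ofReal_norm_eq_enorm]
          _ ≤ _ := by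
              rw [← ENNReal.ofReal_mul (by positivity)]
              exact ENNReal.ofReal_le_ofReal h1)
      (Y := X) hX0
    -- back to the reals
    set B : ℝ := Cτ * D ^ ε1 * 2 ^ (pp a).card * 4 ^ (P2 a b m).card *
        (C1 * (1 + |t|) ^ ε1 * (nm (r0 * b ^ 2) : ℝ) ^ (1 + ε1) *
          (D * nm (∏ q ∈ pp a, q)) ^ ε1 * (D * nm (∏ q ∈ pp a, q) + t ^ 2) * X ^ (1 + ε1)) with hB
    have hB0 : 0 ≤ B := by positivity
    have hreal : ∑ n ∈ (S D).filter (fun n => IsCoprime n r),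
        ‖Ef 0 t v ρ (r0 * (∏ q ∈ pp b, q) ^ 2 * ∏ q ∈ pp n ∪ pp a, q)
          ((pp n ∪ pp a) ∪ (P2 a b m ∪ pp b)) X‖ ^ 2 ≤ zr * B := by
      have h1 : ENNReal.ofReal (∑ n ∈ (S D).filter (fun n => IsCoprime n r),
          ‖Ef 0 t v ρ (r0 * (∏ q ∈ pp b, q) ^ 2 * ∏ q ∈ pp n ∪ pp a, q)
            ((pp n ∪ pp a) ∪ (P2 a b m ∪ pp b)) X‖ ^ 2) ≤
          (TypeI941.Z ε1) ^ 7 * ENNReal.ofReal B := by
        rw [ENNReal.ofReal_sum_of_nonneg (fun _ _ => by positivity)]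
        refine le_trans ?_ hmain
        refine le_trans (le_of_eq ?_) (Finset.sum_le_sum_of_subset (s :=
          (S D).filter (fun n => IsCoprime n r)) ?_)
        · refine Finset.sum_congr rfl fun x _ => ?_
          rw [ENNReal.ofReal_pow (norm_nonneg _), ofReal_norm_eq_enorm]
        · intro n hn
          rw [Finset.mem_filter] at hn ⊢
          refine ⟨hn.1, fun p hp hpn => ?_⟩
          have hpp := ppset_all a b m p hp
          exact hpp.prime.not_isUnit (hn.2.isUnit_of_dvd' hpn ((h.mem_iff hpp).mp hp))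
      have h2 : (TypeI941.Z ε1) ^ 7 * ENNReal.ofReal B = ENNReal.ofReal (zr * B) := by
        rw [ENNReal.ofReal_mul hzr0, hzr, ENNReal.ofReal_toReal hZtop]
      rw [h2] at h1
      exact (ENNReal.ofReal_le_ofReal_iff (by positivity)).mp h1
    have hBle : B ≤ Cτ * C1 * (nm r * (1 + |t|)) ^ (8 : ℝ) * (D * X) ^ (1 + ε) := by
      rw [hB, prod_pp h.ha h.hsa]
      have hna : (1 : ℝ) ≤ nm a := by exact_mod_cast nm_pos.mpr h.ha.ne_zero
      have hns : (1 : ℝ) ≤ nm (r0 * b ^ 2) := by exact_mod_cast nm_pos.mpr hs0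
      have hna' : (nm a : ℝ) ≤ nm r :=
        nm_le_of_dvd' (by rw [h.heq]; exact ⟨r0 * m ^ 3 * b ^ 2, by ring⟩) hr
      have hns' : (nm (r0 * b ^ 2) : ℝ) ≤ nm r :=
        nm_le_of_dvd' (by rw [h.heq]; exact ⟨m ^ 3 * a, by ring⟩) hr
      have hm' : (nm m : ℝ) ≤ nm r :=
        nm_le_of_dvd' (by rw [h.heq]; exact ⟨r0 * m ^ 2 * (a * b ^ 2), by ring⟩) hr
      have hp1 : (2 : ℝ) ^ (pp a).card ≤ nm r := by
        calc (2 : ℝ) ^ (pp a).card ≤ 4 ^ (pp a).card := by gcongr; norm_num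
          _ ≤ nm (∏ q ∈ pp a, q) := four_pow_card_le (ppSet_pp a)
          _ = nm a := by rw [prod_pp h.ha h.hsa]
          _ ≤ nm r := hna'
      have hp2 : (4 : ℝ) ^ (P2 a b m).card ≤ nm r := by
        calc (4 : ℝ) ^ (P2 a b m).card ≤ nm (∏ q ∈ P2 a b m, q) :=
              four_pow_card_le (ppset_P2 a b m)
          _ ≤ nm m := nm_le_of_dvd' ((ppset_P2 a b m).prod_dvd.mpr fun p hp =>
              dvd_of_mem_pp (mem_P2.mp hp).1) h.hm.ne_zero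
          _ ≤ nm r := hm'
      exact num_bound hCτ0 hC1 hε1 hε1b (by linarith) hnr hna hns hna' hns' hD hX
        (by positivity) (by positivity) hp1 hp2
    calc _ = ∑ n ∈ (S D).filter (fun n => IsCoprime n r),
          ‖Ef 0 t v ρ (r0 * (∏ q ∈ pp b, q) ^ 2 * ∏ q ∈ pp n ∪ pp a, q)
            ((pp n ∪ pp a) ∪ (P2 a b m ∪ pp b)) X‖ ^ 2 := by
          refine Finset.sum_congr rfl fun n hn => ?_
          rw [hterm n hn]
      _ ≤ zr * B := hreal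
      _ ≤ zr * (Cτ * C1 * (nm r * (1 + |t|)) ^ (8 : ℝ) * (D * X) ^ (1 + ε)) := by gcongr
      _ = (zr * (Cτ * C1)) * (nm r * (1 + |t|)) ^ (8 : ℝ) * (D * X) ^ (1 + ε) := by ring
      _ ≤ (C2 + zr * (Cτ * C1) + 1) * (nm r * (1 + |t|)) ^ (8 : ℝ) * (D * X) ^ (1 + ε) := by
          gcongr
          linarith

end Crest.Agent.R012.TI569
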