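import Crest.Agent.R012.CR2k_180
import Crest.Agent.R012.TypeI7_569
import Crest.Agent.R012.MFinal_49

/-!
# Row 12 (CR2), part l: `CoreB` and `SavedMom`, unconditional
-/

set_option autoImplicit false
set_option linter.unusedVariables false

noncomputable section

namespace Crest.Agent.R012.CR2K180

open CR2

lemma wt_V0 : M49.Wt (fun x => ((V0 x : ℝ) : ℂ)) where
  smooth := by
    have h : ContDiff ℝ ((⊤ : ℕ∞) : WithTop ℕ∞) V0 := V0_contDiff
    exact Complex.ofRealCLM.contDiff.comp h
  supp := by
    refine ⟨1 / 2, 5 / 2, by norm_num, by norm_num, fun x hx => ?_⟩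
    have : V0 x = 0 := by
      apply V0_zero
      rcases hx with h | h
      · exact Or.inl h.le
      · exact Or.inr h.le
    simp [this]

/-- the Type I estimate, unconditional -/
theorem typeI : CR2.TypeI V0 := by
  obtain ⟨ρ, h1, h2, _⟩ := MFinal49.m_final
  exact TI569.typeI_nat h1 h2 wt_V0

/-- **`CoreB`**, unconditional -/
theorem coreB_final : CR2.CoreB := CR2.coreB typeI

/-- **`SavedMom`**, unconditional -/
theorem savedMom_final : CR290.SavedMom := savedMom typeI

end Crest.Agent.R012.CR2K180
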