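import Crest.Agent.R012.CR3b_436

/-!
# Row 12, (CRC): passage from squarefree to cubefree numerators (helper436)

`coreCubU` : `CoreU u → GLS → OrdLS → CoreCubU u` for `0 < u < 1`, hence
`coreCub  : Core → GLS → OrdLS → CoreCub`.
-/

set_option autoImplicit false

noncomputable section

open Finset

namespace Crest.Agent.R012.CR3436

open Eis Div277 CR290

/-- `Core` with a general upper exponent `u` for the prime variable. -/
def CoreU (u : ℝ) : Prop := ∀ ν : ℝ, 0 < ν → ∃ δ e₀ K : ℝ, 0 < δ ∧ 0 < e₀ ∧ 0 < K ∧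
  ∀ H C D : ℝ, 1 ≤ H → H ^ ν ≤ C → C ≤ H ^ u → 1 ≤ D → C * D ≤ H ^ (1 + e₀) →
  ∀ S P T : Finset Eis, IsSF S H → IsPP P C → IsPB T D →
  ∀ γ ξ : Eis → ℂ, (∀ p ∈ P, ‖γ p‖ ≤ 1) → (∀ d ∈ T, ‖ξ d‖ ≤ 1) →
    ∑ h ∈ S, ‖F P γ h‖ ^ 2 * ‖F T ξ h‖ ^ 2 ≤ K * H ^ (7 / 3 - δ)

/-- `CoreCub` with a general upper exponent `u` for the prime variable. -/
def CoreCubU (u : ℝ) : Prop := ∀ ν : ℝ, 0 < ν → ∃ δ e₀ K : ℝ, 0 < δ ∧ 0 < e₀ ∧ 0 < K ∧
  ∀ B C D : ℝ, 1 ≤ B → B ^ ν ≤ C → C ≤ B ^ u → 1 ≤ D → C * D ≤ B ^ (1 + e₀) →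
  ∀ (S : Finset Tup) (P T : Finset Eis), IsTS S (B ^ (1 + e₀)) → IsPP P C → IsPB T D →
  ∀ γ ξ : Eis → ℂ, (∀ p ∈ P, ‖γ p‖ ≤ 1) → (∀ d ∈ T, ‖ξ d‖ ≤ 1) →
    ∑ x ∈ S, ‖F P γ (num x)‖ ^ 2 * ‖F T ξ (num x)‖ ^ 2 ≤ K * B ^ (7 / 3 - δ)

lemma F_twist {P : Finset Eis} (hP : ∀ p ∈ P, IsPrim p) (γ : Eis → ℂ) (u h : Eis) :
    F P γ (u * h) = F P (fun c => γ c * sy u c) h := by
  unfold F
  refine sum_congr rfl fun n hn => ?_
  rw [Sym645.sy_mul_left (prim_mod (hP n hn))]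
  ring

lemma twist_le {P : Finset Eis} (hP : ∀ p ∈ P, IsPrim p) {γ : Eis → ℂ} (hγ : ∀ p ∈ P, ‖γ p‖ ≤ 1)
    (u : Eis) : ∀ p ∈ P, ‖γ p * sy u p‖ ≤ 1 := fun p hp => by
  rw [norm_mul]
  exact mul_le_one₀ (hγ p hp) (norm_nonneg _) (Sym645.norm_sy_le_one (prim_mod (hP p hp)) _)

/-! ### R1 : small `k₂` -/

lemma part_core {u : ℝ} (hu : 0 < u) (hCo : CoreU u) {ν : ℝ} (hν : 0 < ν) :
    ∃ d K : ℝ, 0 < d ∧ 0 < K ∧ ∀ a e B C D : ℝ, 0 ≤ a → 0 ≤ e → e ≤ 1 → 1 ≤ B → B ^ ν ≤ C →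
      C ≤ B ^ u → 1 ≤ D → C * D ≤ B ^ (1 + e) →
      ∀ (S : Finset Tup) (P T : Finset Eis), IsTS S (B ^ (1 + e)) → IsPP P C → IsPB T D →
      (∀ x ∈ S, (nm x.2.2 : ℝ) ≤ B ^ a) →
      ∀ γ ξ : Eis → ℂ, (∀ p ∈ P, ‖γ p‖ ≤ 1) → (∀ d ∈ T, ‖ξ d‖ ≤ 1) →
        ∑ x ∈ S, ‖F P γ (num x)‖ ^ 2 * ‖F T ξ (num x)‖ ^ 2 ≤
          K * B ^ ((1 + e) * (7 / 3 - d) + a) := by
  obtain ⟨d, e₀, K, hd, he₀, hK, h⟩ := hCo (ν / 2) (by positivity)
  refine ⟨d, 900 * K, hd, by positivity, ?_⟩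
  intro a e B C D ha he he1 hB hBC hCB hD hCD S P T hS hP hT hk γ ξ hγ hξ
  have hB0 : (0 : ℝ) < B := by linarith
  set H : ℝ := B ^ (1 + e) with hH
  have hH1 : 1 ≤ H := Real.one_le_rpow hB (by linarith)
  have hBH : B ≤ H := by
    calc B = B ^ (1 : ℝ) := (Real.rpow_one B).symm
      _ ≤ H := Real.rpow_le_rpow_of_exponent_le hB (by linarith)
  have h1 : H ^ (ν / 2) ≤ C := by
    refine le_trans ?_ hBC
    rw [hH, ← Real.rpow_mul hB0.le]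
    exact Real.rpow_le_rpow_of_exponent_le hB (by nlinarith)
  have h2 : C ≤ H ^ u := hCB.trans (Real.rpow_le_rpow hB0.le hBH hu.le)
  have h3 : C * D ≤ H ^ (1 + e₀) := by
    refine hCD.trans ?_
    calc H = H ^ (1 : ℝ) := (Real.rpow_one H).symm
      _ ≤ _ := Real.rpow_le_rpow_of_exponent_le hH1 (by linarith)
  have hPp : ∀ p ∈ P, IsPrim p := fun p hp => (hP p hp).1
  have hTp : ∀ p ∈ T, IsPrim p := fun p hp => (hT p hp).1
  have h4 := sum_tup_le hS (SFp (B ^ a)) (fun x hx => mem_SFp.mpr ⟨hk x hx, (hS x hx).1.2.2.2.1,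
    (hS x hx).1.2.2.2.2.2.1⟩) (fun x => ‖F P γ (num x)‖ ^ 2 * ‖F T ξ (num x)‖ ^ 2)
    (fun _ => by positivity)
  refine h4.trans ?_
  have h5 : ∀ b ∈ ij, ∀ k ∈ SFp (B ^ a), ∑ h ∈ SFp (H / (nm k : ℝ) ^ 2),
      ‖F P γ (num (b, (h, k)))‖ ^ 2 * ‖F T ξ (num (b, (h, k)))‖ ^ 2 ≤ K * H ^ (7 / 3 - d) := by
    intro b _ k hk'
    have hk1 := one_le_nm_of_prim (mem_SFp.mp hk').2.1
    simp only [num_eq, F_twist hPp, F_twist hTp]
    refine h H C D hH1 h1 h2 hD h3 _ P T ?_ hP hT _ _ (twist_le hPp hγ _) (twist_le hTp hξ _)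
    intro n hn
    obtain ⟨g1, g2, g3⟩ := isSF_SFp _ n hn
    exact ⟨g1, g2, g3.trans (div_le_self (by linarith) (one_le_pow₀ hk1))⟩
  have hcard : (#(SFp (B ^ a)) : ℝ) ≤ 100 * B ^ a := card_SFp_le (by positivity)
  calc ∑ b ∈ ij, ∑ k ∈ SFp (B ^ a), ∑ h ∈ SFp (H / (nm k : ℝ) ^ 2),
      ‖F P γ (num (b, (h, k)))‖ ^ 2 * ‖F T ξ (num (b, (h, k)))‖ ^ 2
      ≤ ∑ b ∈ ij, ∑ k ∈ SFp (B ^ a), K * H ^ (7 / 3 - d) :=
        sum_le_sum fun b hb => sum_le_sum fun k hk' => h5 b hb k hk'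
    _ = 9 * (#(SFp (B ^ a)) * (K * H ^ (7 / 3 - d))) := by
        rw [sum_const, card_ij, sum_const, nsmul_eq_mul, nsmul_eq_mul]; norm_num
    _ ≤ 9 * (100 * B ^ a * (K * H ^ (7 / 3 - d))) := by gcongr
    _ = 900 * K * (B ^ ((1 + e) * (7 / 3 - d)) * B ^ a) := by
        rw [hH, ← Real.rpow_mul hB0.le]; ring
    _ = _ := by rw [← Real.rpow_add hB0]

/-! ### R3 : `k₂ ≈ B^(1/3)` -/

/-- counting tuples. -/
lemma card_tup_le {S : Finset Tup} {X L₀ L : ℝ} (hS : IsTS S X) (hX : 0 ≤ X) (hL₀ : 0 < L₀)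
    (hL : 0 ≤ L) (hk : ∀ x ∈ S, L₀ ≤ (nm x.2.2 : ℝ) ∧ (nm x.2.2 : ℝ) ≤ L) :
    (#S : ℝ) ≤ 90000 * (L * (X / L₀ ^ 2)) := by
  classical
  have h1 := sum_tup_le hS ((SFp L).filter (fun k => L₀ ≤ (nm k : ℝ))) (fun x hx => by
    rw [mem_filter, mem_SFp]
    exact ⟨⟨(hk x hx).2, (hS x hx).1.2.2.2.1, (hS x hx).1.2.2.2.2.2.1⟩, (hk x hx).1⟩)
    (fun _ => (1 : ℝ)) (fun _ => by norm_num)
  have h0 : (#S : ℝ) = ∑ x ∈ S, (1 : ℝ) := by simp
  rw [h0]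
  refine h1.trans ?_
  calc ∑ a ∈ ij, ∑ k ∈ (SFp L).filter (fun k => L₀ ≤ (nm k : ℝ)),
        ∑ h ∈ SFp (X / (nm k : ℝ) ^ 2), (1 : ℝ)
      ≤ ∑ a ∈ ij, ∑ k ∈ (SFp L).filter (fun k => L₀ ≤ (nm k : ℝ)), 100 * (X / L₀ ^ 2) := by
        refine sum_le_sum fun a _ => sum_le_sum fun k hk' => ?_
        rw [mem_filter] at hk'
        have : X / (nm k : ℝ) ^ 2 ≤ X / L₀ ^ 2 := by
          apply div_le_div_of_nonneg_left hX (by positivity)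
          exact pow_le_pow_left₀ hL₀.le hk'.2 2
        calc ∑ h ∈ SFp (X / (nm k : ℝ) ^ 2), (1 : ℝ) = #(SFp (X / (nm k : ℝ) ^ 2)) := by simp
          _ ≤ 100 * (X / (nm k : ℝ) ^ 2) := card_SFp_le (by positivity)
          _ ≤ _ := by linarith
    _ = 9 * (#((SFp L).filter (fun k => L₀ ≤ (nm k : ℝ))) * (100 * (X / L₀ ^ 2))) := by
        rw [sum_const, card_ij, sum_const, nsmul_eq_mul, nsmul_eq_mul]; norm_num
    _ ≤ 9 * ((100 * L) * (100 * (X / L₀ ^ 2))) := by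
        have : (#((SFp L).filter (fun k => L₀ ≤ (nm k : ℝ))) : ℝ) ≤ 100 * L :=
          (Nat.cast_le.mpr (card_le_card (filter_subset _ _))).trans (card_SFp_le hL)
        gcongr
    _ = _ := by ring

/-- moments in exponent form, uniformly for `j ≤ J`. -/
lemma mom_exp (hL : OrdLS) (J : ℕ) {ε : ℝ} (hε : 0 < ε) : ∃ K : ℝ, 0 < K ∧ ∀ j ≤ J,
    ∀ (B q z g : ℝ), 1 ≤ B → 0 ≤ q → 0 ≤ z → z ≤ 2 → 2 * q ≤ g → j * z ≤ g →
    ∀ (S : Finset Tup) (T : Finset Eis),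
    (∀ x ∈ S, IsTup x ∧ (nm x.2.1 : ℝ) * nm x.2.2 ≤ B ^ q) → IsPB T (2 * B ^ z) →
    ∀ γ : Eis → ℂ, (∀ c ∈ T, ‖γ c‖ ≤ 1) →
      ∑ x ∈ S, ‖F T γ (num x)‖ ^ (2 * j) ≤ K * B ^ (ε + g + j * z) := by
  choose K hK h using fun j : ℕ => mom_ord hL j (ε := ε / 2) (by positivity)
  set KS : ℝ := ∑ j ∈ range (J + 1), K j with hKS
  have hKle : ∀ j ≤ J, K j ≤ KS := fun j hj =>
    single_le_sum (f := K) (fun i _ => (hK i).le) (mem_range.mpr (by omega))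
  have hKS0 : 0 < KS := lt_of_lt_of_le (hK 0) (hKle 0 (Nat.zero_le _))
  refine ⟨KS * 2 ^ (ε / 2) * (1 + 2 ^ J) * 2 ^ J, by positivity, ?_⟩
  intro j hj B q z g hB hq hz hz2 hqg hjg S T hS hT γ hγ
  have hB0 : (0 : ℝ) < B := by linarith
  have hZ : (1 : ℝ) ≤ 2 * B ^ z := by
    have := Real.one_le_rpow hB hz
    linarith
  have h1 := h j (B ^ q) (2 * B ^ z) (Real.one_le_rpow hB hq) hZ S T hS hT γ hγ
  have e1 : (2 * B ^ z) ^ (ε / 2) ≤ 2 ^ (ε / 2) * B ^ ε := by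
    rw [Real.mul_rpow (by norm_num) (by positivity), ← Real.rpow_mul hB0.le]
    apply mul_le_mul_of_nonneg_left _ (by positivity)
    exact Real.rpow_le_rpow_of_exponent_le hB (by nlinarith)
  have e2 : (2 * B ^ z) ^ j ≤ 2 ^ J * B ^ (j * z) := by
    rw [mul_pow, ← Real.rpow_natCast (B ^ z), ← Real.rpow_mul hB0.le, mul_comm z]
    apply mul_le_mul_of_nonneg_right _ (by positivity)
    exact pow_le_pow_right₀ (by norm_num) hj
  have e3 : (B ^ q) ^ 2 ≤ B ^ g := by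
    rw [← Real.rpow_natCast (B ^ q), ← Real.rpow_mul hB0.le]
    apply Real.rpow_le_rpow_of_exponent_le hB
    push_cast
    linarith
  have e4 : (2 * B ^ z) ^ j ≤ 2 ^ J * B ^ g := e2.trans (by
    apply mul_le_mul_of_nonneg_left _ (by positivity)
    exact Real.rpow_le_rpow_of_exponent_le hB hjg)
  calc ∑ x ∈ S, ‖F T γ (num x)‖ ^ (2 * j)
      ≤ K j * (2 * B ^ z) ^ (ε / 2) * ((B ^ q) ^ 2 + (2 * B ^ z) ^ j) * (2 * B ^ z) ^ j := h1
    _ ≤ KS * (2 ^ (ε / 2) * B ^ ε) * (B ^ g + 2 ^ J * B ^ g) * (2 ^ J * B ^ (j * z)) := by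
        have := hKle j hj
        gcongr
    _ = KS * 2 ^ (ε / 2) * (1 + 2 ^ J) * 2 ^ J * (B ^ ε * B ^ g * B ^ (j * z)) := by ring
    _ = _ := by rw [← Real.rpow_add hB0, ← Real.rpow_add hB0]

/-- the Hölder step. -/
lemma holder_step {S : Finset Tup} {f g : Tup → ℝ} (hf : ∀ x, 0 ≤ f x) (hg : ∀ x, 0 ≤ g x)
    {j : ℕ} (hj : 2 ≤ j) {K B n m₁ m₂ t : ℝ} (hK : 0 ≤ K) (hB : 1 ≤ B)
    (h0 : (#S : ℝ) ≤ K * B ^ n) (h1 : ∑ x ∈ S, f x ^ (2 * j) ≤ K * B ^ m₁)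
    (h2 : ∑ x ∈ S, g x ^ 4 ≤ K * B ^ m₂)
    (ht : n * (1 / 2 - 1 / (j : ℝ)) + m₁ * (1 / (j : ℝ)) + m₂ * (1 / 2) ≤ t) :
    ∑ x ∈ S, f x ^ 2 * g x ^ 2 ≤ K * B ^ t := by
  have hj0 : (0 : ℝ) < j := by
    have : 0 < j := by omega
    exact_mod_cast this
  have hj2 : (2 : ℝ) ≤ j := by exact_mod_cast hj
  have hu : (0 : ℝ) ≤ 1 / 2 - 1 / (j : ℝ) := by
    rw [sub_nonneg]
    exact one_div_le_one_div_of_le (by norm_num) hj2
  have h3 := CRmom569.holder_moments S f g (fun x _ => hf x) (fun x _ => hg x) 0 (2 * j) 0 0 0 4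
    (1 / 2 - 1 / (j : ℝ)) (1 / (j : ℝ)) (1 / 2) hu (by positivity) (by norm_num) (by ring)
    (by push_cast; field_simp; ring) (by norm_num)
  refine h3.trans ?_
  have h4 := CRmom569.three_bound (A₁ := ∑ x ∈ S, f x ^ 0 * g x ^ 0)
    (A₂ := ∑ x ∈ S, f x ^ (2 * j) * g x ^ 0) (A₃ := ∑ x ∈ S, f x ^ 0 * g x ^ 4) (K := K) (H := B)
    (e₁ := n) (e₂ := m₁) (e₃ := m₂) (u := 1 / 2 - 1 / (j : ℝ)) (v := 1 / (j : ℝ)) (w := 1 / 2)
    (by simp) (sum_nonneg fun x _ => mul_nonneg (pow_nonneg (hf x) _) (pow_nonneg (hg x) _))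
    (sum_nonneg fun x _ => mul_nonneg (pow_nonneg (hf x) _) (pow_nonneg (hg x) _)) hK
    (by linarith) hu (by positivity) (by norm_num) (by ring)
    (by simpa using h0) (by simpa using h1) (by simpa using h2)
  refine h4.trans ?_
  apply mul_le_mul_of_nonneg_left _ hK
  exact Real.rpow_le_rpow_of_exponent_le hB ht

/-- The range `k₂ ≈ B^(1/3)`, `f` shorter than `g`. -/
lemma part_mid (hL : OrdLS) {ν : ℝ} (hν : 0 < ν) (hν1 : ν ≤ 1 / 3) {K₀ : ℝ} (hK₀ : 0 < K₀) :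
    ∃ K : ℝ, 0 < K ∧ ∀ (B z₁ z₂ η : ℝ), 1 ≤ B → ν ≤ z₁ → z₁ ≤ z₂ → 0 ≤ η → η ≤ ν / 60 →
      z₁ + z₂ ≤ 1 + η →
      ∀ (S : Finset Tup) (T₁ T₂ : Finset Eis),
      (∀ x ∈ S, IsTup x ∧ (nm x.2.1 : ℝ) * nm x.2.2 ≤ B ^ (2 / 3 + η)) →
      (#S : ℝ) ≤ K₀ * B ^ (2 / 3 + η) →
      IsPB T₁ (2 * B ^ z₁) → IsPB T₂ (2 * B ^ z₂) →
      ∀ γ₁ γ₂ : Eis → ℂ, (∀ p ∈ T₁, ‖γ₁ p‖ ≤ 1) → (∀ p ∈ T₂, ‖γ₂ p‖ ≤ 1) →
        ∑ x ∈ S, ‖F T₁ γ₁ (num x)‖ ^ 2 * ‖F T₂ γ₂ (num x)‖ ^ 2 ≤ K * B ^ (7 / 3 - ν / 12) := by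
  set J : ℕ := max (⌈1 / ν⌉₊) 3 with hJ
  obtain ⟨K, hK, h⟩ := mom_exp hL J (ε := ν / 60) (by positivity)
  refine ⟨K + K₀, by positivity, ?_⟩
  intro B z₁ z₂ η hB hz hzz hη hην hsum S T₁ T₂ hS hcard hT₁ hT₂ γ₁ γ₂ hγ₁ hγ₂
  have hB0 : (0 : ℝ) < B := by linarith
  have hKK : ∀ e : ℝ, K * B ^ e ≤ (K + K₀) * B ^ e := fun e => by
    have : 0 ≤ B ^ e := by positivity
    nlinarith
  have hKK' : ∀ e : ℝ, K₀ * B ^ e ≤ (K + K₀) * B ^ e := fun e => by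
    have : 0 ≤ B ^ e := by positivity
    nlinarith
  have hc := hcard.trans (hKK' _)
  by_cases hz3 : 1 / 3 ≤ z₁
  · -- `j = 3`
    have h1 := (h 3 (by rw [hJ]; exact le_max_right _ _) B (2 / 3 + η) z₁ (3 / 2 + 2 * η) hB
      (by positivity) (by linarith) (by linarith) (by linarith) (by push_cast; linarith)
      S T₁ hS hT₁ γ₁ hγ₁).trans (hKK _)
    have h2 := (h 2 (by rw [hJ]; exact le_trans (by norm_num) (le_max_right _ _)) B (2 / 3 + η) z₂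
      (4 / 3 + 2 * η) hB (by positivity) (by linarith) (by linarith) (by linarith)
      (by push_cast; linarith) S T₂ hS hT₂ γ₂ hγ₂).trans (hKK _)
    refine holder_step (f := fun x => ‖F T₁ γ₁ (num x)‖) (g := fun x => ‖F T₂ γ₂ (num x)‖)
      (fun _ => norm_nonneg _) (fun _ => norm_nonneg _) (j := 3) (by norm_num) (by positivity) hB hc
      h1 h2 ?_
    push_cast
    linarith
  · -- `j = ⌈1/z₁⌉`
    push Not at hz3
    have hz0 : 0 < z₁ := by linarith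
    set j : ℕ := ⌈1 / z₁⌉₊ with hj
    have hj1 : 1 ≤ (j : ℝ) * z₁ := by
      have := Nat.le_ceil (1 / z₁)
      calc (1 : ℝ) = 1 / z₁ * z₁ := by field_simp
        _ ≤ _ := mul_le_mul_of_nonneg_right this hz0.le
    have hj2 : (j : ℝ) * z₁ ≤ 1 + z₁ := by
      have := (Nat.ceil_lt_add_one (a := 1 / z₁) (by positivity)).le
      calc (j : ℝ) * z₁ ≤ (1 / z₁ + 1) * z₁ := mul_le_mul_of_nonneg_right this hz0.le
        _ = 1 + z₁ := by field_simp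
    have hj3 : (3 : ℝ) ≤ j := by
      by_contra hcon
      push Not at hcon
      nlinarith
    have hj3' : 3 ≤ j := by exact_mod_cast hj3
    have hjJ : j ≤ J := by
      rw [hJ]
      refine le_trans ?_ (le_max_left _ _)
      exact Nat.ceil_le_ceil (one_div_le_one_div_of_le hν hz)
    have h1 := (h j hjJ B (2 / 3 + η) z₁ (4 / 3 + 2 * η) hB
      (by positivity) (by linarith) (by linarith) (by linarith) (by linarith)
      S T₁ hS hT₁ γ₁ hγ₁).trans (hKK _)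
    have h2 := (h 2 (by rw [hJ]; exact le_trans (by norm_num) (le_max_right _ _)) B (2 / 3 + η) z₂
      (2 * (1 - z₁) + 2 * η) hB (by positivity) (by linarith) (by linarith) (by linarith)
      (by push_cast; linarith) S T₂ hS hT₂ γ₂ hγ₂).trans (hKK _)
    refine holder_step (f := fun x => ‖F T₁ γ₁ (num x)‖) (g := fun x => ‖F T₂ γ₂ (num x)‖)
      (fun _ => norm_nonneg _) (fun _ => norm_nonneg _) (j := j) (by omega) (by positivity) hB hc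
      h1 h2 ?_
    -- exponents
    have hjpos : (0 : ℝ) < j := by linarith
    set r : ℝ := 1 / (j : ℝ) with hr
    have hr0 : 0 < r := by positivity
    have hrj : r * j = 1 := by rw [hr]; field_simp
    have hrz : r ≤ z₁ := by
      have : r * 1 ≤ r * (j * z₁) := mul_le_mul_of_nonneg_left hj1 hr0.le
      rw [mul_one, ← mul_assoc, hrj, one_mul] at this
      exact this
    have hr3 : r ≤ 1 / 3 := one_div_le_one_div_of_le (by norm_num) hj3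
    have hrν : 3 / 4 * ν ≤ r := by
      -- `z₁ ≤ r (1 + z₁) ≤ 4/3 r`
      have : r * (j * z₁) ≤ r * (1 + z₁) := mul_le_mul_of_nonneg_left hj2 hr0.le
      rw [← mul_assoc, hrj, one_mul] at this
      nlinarith
    have hz2' : z₂ ≤ 1 + η - z₁ := by linarith
    push_cast
    have e1 : (ν / 60 + (4 / 3 + 2 * η) + j * z₁) * r = (ν / 60 + 4 / 3 + 2 * η) * r + z₁ := by
      have : (j : ℝ) * z₁ * r = z₁ := by
        calc (j : ℝ) * z₁ * r = (r * j) * z₁ := by ring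
          _ = z₁ := by rw [hrj, one_mul]
      nlinarith
    rw [e1]
    nlinarith [mul_nonneg hη hr0.le, mul_nonneg hν.le hr0.le]

/-! ### R2 and R4 -/

lemma ex_prod {P T : Finset Eis} {B C D e : ℝ} (hC : 0 ≤ C)
    (hCD : C * D ≤ B ^ (1 + e)) (hP : IsPB P (2 * C)) (hT : IsPB T D) (hD : 0 ≤ D)
    {γ ξ : Eis → ℂ} (hγ : ∀ p ∈ P, ‖γ p‖ ≤ 1) (hξ : ∀ p ∈ T, ‖ξ p‖ ≤ 1) :
    Ex (2 * B ^ (1 + e)) (20000 * B ^ (1 + e)) 1 (fun x => F P γ x * F T ξ x) := by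
  have h1 := (ex_F hP hγ).mul (ex_F hT hξ) (by positivity)
  refine h1.mono (by linarith) ?_ le_rfl
  calc (#P : ℝ) * #T ≤ (100 * (2 * C)) * (100 * D) :=
        mul_le_mul (card_le_of_isPB hP (by positivity)) (card_le_of_isPB hT hD) (by positivity)
          (by positivity)
    _ = 20000 * (C * D) := by ring
    _ ≤ _ := by linarith

/-- The range `k₂ ∈ [B^a, B^(1/3-a)]`. -/
lemma part_low (hG : GLS) {a e : ℝ} (ha : 0 < a) (ha1 : a ≤ 1 / 6) (he : 0 ≤ e) (hea : e ≤ a / 10) :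
    ∃ K : ℝ, 0 < K ∧ ∀ B : ℝ, 1 ≤ B → ∀ S : Finset Tup, IsTS S (B ^ (1 + e)) →
      (∀ x ∈ S, B ^ a ≤ (nm x.2.2 : ℝ) ∧ (nm x.2.2 : ℝ) ≤ B ^ (1 / 3 - a)) → ∀ (A : ℝ) (f : Eis → ℂ),
      Ex (2 * B ^ (1 + e)) A 1 f →
        ∑ x ∈ S, ‖f (num x)‖ ^ 2 ≤ K * B ^ (7 / 3 - a / 20) := by
  obtain ⟨K, hK, h⟩ := part_gls hG 1 (ε := a / 80) (by positivity)
  refine ⟨K * 2 ^ (a / 80) * (1 + 2 + 2 ^ (2 / 3 : ℝ)) * 2, by positivity, ?_⟩
  intro B hB S hS hk A f hf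
  have hB0 : (0 : ℝ) < B := by linarith
  have hX1 : 1 ≤ B ^ (1 + e) := Real.one_le_rpow hB (by linarith)
  have h1 := h (B ^ (1 + e)) (2 * B ^ (1 + e)) A (B ^ a) (B ^ (1 / 3 - a)) hX1 (by linarith)
    (Real.one_le_rpow hB ha.le) (Real.one_le_rpow hB (by linarith)) S hS hk f hf
  refine h1.trans ?_
  have hmono : ∀ {x y : ℝ}, x ≤ y → B ^ x ≤ B ^ y := fun hxy =>
    Real.rpow_le_rpow_of_exponent_le hB hxy
  have e0 : B ^ (1 + e) * (2 * B ^ (1 + e)) = 2 * B ^ (2 * (1 + e)) := by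
    rw [two_mul (1 + e), Real.rpow_add hB0 (1 + e) (1 + e)]; ring
  have e1 : (B ^ (1 + e) * (2 * B ^ (1 + e))) ^ (a / 80) ≤ 2 ^ (a / 80) * B ^ (3 * (a / 80)) := by
    rw [e0, Real.mul_rpow (by norm_num) (by positivity), ← Real.rpow_mul hB0.le]
    apply mul_le_mul_of_nonneg_left _ (by positivity)
    exact hmono (by nlinarith)
  have e2 : (B ^ (1 / 3 - a)) ^ (a / 80) ≤ B ^ (a / 80) := by
    rw [← Real.rpow_mul hB0.le]
    exact hmono (by nlinarith)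
  set g : ℝ := 4 / 3 + 4 / 3 * e - a / 3 with hg
  have e3 : B ^ (1 + e) * (B ^ a)⁻¹ ≤ B ^ g := by
    rw [← Real.rpow_neg hB0.le, ← Real.rpow_add hB0]
    exact hmono (by rw [hg]; linarith)
  have e4 : B ^ (1 / 3 - a) * (2 * B ^ (1 + e)) ≤ 2 * B ^ g := by
    calc B ^ (1 / 3 - a) * (2 * B ^ (1 + e)) = 2 * (B ^ (1 / 3 - a) * B ^ (1 + e)) := by ring
      _ = 2 * B ^ (1 / 3 - a + (1 + e)) := by rw [← Real.rpow_add hB0]
      _ ≤ _ := by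
        apply mul_le_mul_of_nonneg_left _ (by norm_num)
        exact hmono (by rw [hg]; linarith)
  have e5 : (B ^ (1 + e) * (2 * B ^ (1 + e))) ^ (2 / 3 : ℝ) * (B ^ a) ^ (-(1 / 3) : ℝ) ≤
      2 ^ (2 / 3 : ℝ) * B ^ g := by
    rw [e0, Real.mul_rpow (by norm_num) (by positivity), ← Real.rpow_mul hB0.le,
      ← Real.rpow_mul hB0.le, mul_assoc, ← Real.rpow_add hB0]
    apply mul_le_mul_of_nonneg_left _ (by positivity)
    exact hmono (by rw [hg]; linarith)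
  calc K * (B ^ (1 + e) * (2 * B ^ (1 + e))) ^ (a / 80) * (B ^ (1 / 3 - a)) ^ (a / 80) *
        (B ^ (1 + e) * (B ^ a)⁻¹ + B ^ (1 / 3 - a) * (2 * B ^ (1 + e)) +
          (B ^ (1 + e) * (2 * B ^ (1 + e))) ^ (2 / 3 : ℝ) * (B ^ a) ^ (-(1 / 3) : ℝ)) *
          (2 * B ^ (1 + e))
      ≤ K * (2 ^ (a / 80) * B ^ (3 * (a / 80))) * B ^ (a / 80) *
        (B ^ g + 2 * B ^ g + 2 ^ (2 / 3 : ℝ) * B ^ g) * (2 * B ^ (1 + e)) := by
        gcongr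
    _ = K * 2 ^ (a / 80) * (1 + 2 + 2 ^ (2 / 3 : ℝ)) * 2 *
          (B ^ (3 * (a / 80)) * B ^ (a / 80) * B ^ g * B ^ (1 + e)) := by ring
    _ = K * 2 ^ (a / 80) * (1 + 2 + 2 ^ (2 / 3 : ℝ)) * 2 *
          B ^ (3 * (a / 80) + a / 80 + g + (1 + e)) := by
        rw [← Real.rpow_add hB0, ← Real.rpow_add hB0, ← Real.rpow_add hB0]
    _ ≤ _ := by
        apply mul_le_mul_of_nonneg_left _ (by positivity)
        exact hmono (by rw [hg]; linarith)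

/-- The range `k₂ > B^(1/3+a)`. -/
lemma part_high (hL : OrdLS) {a e : ℝ} (ha : 0 < a) (ha1 : a ≤ 1 / 6) (he : 0 ≤ e)
    (hea : e ≤ a / 10) :
    ∃ K : ℝ, 0 < K ∧ ∀ B : ℝ, 1 ≤ B → ∀ S : Finset Tup,
      (∀ x ∈ S, IsTup x ∧ (nm x.2.1 : ℝ) * nm x.2.2 ≤ B ^ (2 / 3 - a + e)) → ∀ (f : Eis → ℂ),
      Ex (2 * B ^ (1 + e)) (20000 * B ^ (1 + e)) 1 f →
        ∑ x ∈ S, ‖f (num x)‖ ^ 2 ≤ K * B ^ (7 / 3 - a / 20) := by
  obtain ⟨K, hK, h⟩ := ord_ex hL 1 (ε := a / 80) (by positivity)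
  refine ⟨K * 2 ^ (a / 80) * 3 * 20000, by positivity, ?_⟩
  intro B hB S hS f hf
  have hB0 : (0 : ℝ) < B := by linarith
  have hX1 : 1 ≤ B ^ (1 + e) := Real.one_le_rpow hB (by linarith)
  have hmono : ∀ {x y : ℝ}, x ≤ y → B ^ x ≤ B ^ y := fun hxy =>
    Real.rpow_le_rpow_of_exponent_le hB hxy
  have h1 := h (B ^ (2 / 3 - a + e)) (2 * B ^ (1 + e)) _ (Real.one_le_rpow hB (by linarith))
    (by linarith) S hS f hf
  refine h1.trans ?_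
  have e1 : (2 * B ^ (1 + e)) ^ (a / 80) ≤ 2 ^ (a / 80) * B ^ (2 * (a / 80)) := by
    rw [Real.mul_rpow (by norm_num) (by positivity), ← Real.rpow_mul hB0.le]
    apply mul_le_mul_of_nonneg_left _ (by positivity)
    exact hmono (by nlinarith)
  set g : ℝ := 4 / 3 - 2 * a + 2 * e with hg
  have e2 : (B ^ (2 / 3 - a + e)) ^ 2 ≤ B ^ g := by
    rw [← Real.rpow_natCast (B ^ (2 / 3 - a + e)), ← Real.rpow_mul hB0.le]
    exact hmono (by rw [hg]; push_cast; linarith)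
  have e3 : 2 * B ^ (1 + e) ≤ 2 * B ^ g := by
    apply mul_le_mul_of_nonneg_left _ (by norm_num)
    by_cases h6 : e ≤ 1 / 3 - 2 * a + 2 * e
    · exact hmono (by rw [hg]; linarith)
    · exfalso; apply h6; linarith
  calc K * (2 * B ^ (1 + e)) ^ (a / 80) * ((B ^ (2 / 3 - a + e)) ^ 2 + 2 * B ^ (1 + e)) *
        (20000 * B ^ (1 + e))
      ≤ K * (2 ^ (a / 80) * B ^ (2 * (a / 80))) * (B ^ g + 2 * B ^ g) * (20000 * B ^ (1 + e)) := by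
        gcongr
    _ = K * 2 ^ (a / 80) * 3 * 20000 * (B ^ (2 * (a / 80)) * B ^ g * B ^ (1 + e)) := by ring
    _ = K * 2 ^ (a / 80) * 3 * 20000 * B ^ (2 * (a / 80) + g + (1 + e)) := by
        rw [← Real.rpow_add hB0, ← Real.rpow_add hB0]
    _ ≤ _ := by
        apply mul_le_mul_of_nonneg_left _ (by positivity)
        exact hmono (by rw [hg]; linarith)

/-! ### assembly -/

lemma exists_exp {B C ν u : ℝ} (hB : 1 ≤ B) (hνu : ν ≤ u) (h1 : B ^ ν ≤ C) (h2 : C ≤ B ^ u) :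
    ∃ c : ℝ, ν ≤ c ∧ c ≤ u ∧ C = B ^ c := by
  rcases hB.eq_or_lt with hB1 | hB1
  · refine ⟨ν, le_rfl, hνu, ?_⟩
    rw [← hB1, Real.one_rpow] at h1 h2 ⊢
    linarith
  · have hB0 : 0 < B := by linarith
    have hC0 : 0 < C := lt_of_lt_of_le (by positivity) h1
    have hlB : 0 < Real.log B := Real.log_pos hB1
    refine ⟨Real.log C / Real.log B, ?_, ?_, ?_⟩
    · rw [le_div_iff₀ hlB, ← Real.log_rpow hB0]
      exact Real.log_le_log (by positivity) h1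
    · rw [div_le_iff₀ hlB, ← Real.log_rpow hB0]
      exact Real.log_le_log hC0 h2
    · rw [Real.rpow_def_of_pos hB0, mul_div_cancel₀ _ hlB.ne', Real.exp_log hC0]

set_option maxHeartbeats 1000000 in
/-- **(CRC)** with a general upper exponent. -/
theorem coreCubU {u : ℝ} (hu : 0 < u) (hu1 : u < 1) (hCo : CoreU u) (hG : GLS) (hL : OrdLS) :
    CoreCubU u := by
  intro ν₀ hν₀
  set ν : ℝ := min (min ν₀ (1 / 3)) (min u (1 - u)) with hνdef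
  have hν : 0 < ν := by
    rw [hνdef]
    refine lt_min (lt_min hν₀ (by norm_num)) (lt_min hu (by linarith))
  have hν3 : ν ≤ 1 / 3 := (min_le_left _ _).trans (min_le_right _ _)
  have hνν : ν ≤ ν₀ := (min_le_left _ _).trans (min_le_left _ _)
  have hνu : ν ≤ u := (min_le_right _ _).trans (min_le_left _ _)
  have hνu1 : ν ≤ 1 - u := (min_le_right _ _).trans (min_le_right _ _)
  obtain ⟨d, K1, hd, hK1, H1⟩ := part_core hu hCo hν
  set a : ℝ := min (ν / 240) (d / 8) with hadef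
  have ha : 0 < a := lt_min (by positivity) (by positivity)
  have haν : a ≤ ν / 240 := min_le_left _ _
  have had : a ≤ d / 8 := min_le_right _ _
  have ha6 : a ≤ 1 / 6 := by linarith
  set e : ℝ := a / 10 with hedef
  have he : 0 < e := by positivity
  obtain ⟨K2, hK2, H2⟩ := part_low hG ha ha6 he.le le_rfl
  obtain ⟨K3, hK3, H3⟩ := part_mid hL hν hν3 (K₀ := 90000) (by norm_num)
  obtain ⟨K4, hK4, H4⟩ := part_high hL ha ha6 he.le le_rfl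
  refine ⟨a / 20, e, K1 + (K2 + (K3 + K4)), by positivity, he, by positivity, ?_⟩
  intro B C D hB hBC hCB hD hCD S P T hS hP hT γ ξ hγ hξ
  have hB0 : (0 : ℝ) < B := by linarith
  have hmono : ∀ {x y : ℝ}, x ≤ y → B ^ x ≤ B ^ y := fun hxy =>
    Real.rpow_le_rpow_of_exponent_le hB hxy
  have hBC' : B ^ ν ≤ C := (hmono hνν).trans hBC
  obtain ⟨c, hc1, hc2, hcC⟩ := exists_exp hB hνu hBC' hCB
  have hC0 : 0 < C := lt_of_lt_of_le (by positivity) hBC'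
  have hPB : IsPB P (2 * C) := fun p hp => ⟨(hP p hp).1, (hP p hp).2.2.2⟩
  have hX0 : (0 : ℝ) < B ^ (1 + e) := by positivity
  have hf := ex_prod hC0.le hCD hPB hT (by linarith) hγ hξ
  have hconv : ∀ x : Tup, ‖F P γ (num x)‖ ^ 2 * ‖F T ξ (num x)‖ ^ 2 =
      ‖F P γ (num x) * F T ξ (num x)‖ ^ 2 := fun x => by rw [norm_mul, mul_pow]
  set G : Tup → ℝ := fun x => ‖F P γ (num x)‖ ^ 2 * ‖F T ξ (num x)‖ ^ 2 with hGdef
  -- splitting
  rw [← sum_filter_add_sum_filter_not S (fun x => (nm x.2.2 : ℝ) ≤ B ^ a)]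
  rw [← sum_filter_add_sum_filter_not (S.filter (fun x => ¬ (nm x.2.2 : ℝ) ≤ B ^ a))
    (fun x => (nm x.2.2 : ℝ) ≤ B ^ (1 / 3 - a))]
  rw [← sum_filter_add_sum_filter_not ((S.filter (fun x => ¬ (nm x.2.2 : ℝ) ≤ B ^ a)).filter
    (fun x => ¬ (nm x.2.2 : ℝ) ≤ B ^ (1 / 3 - a))) (fun x => (nm x.2.2 : ℝ) ≤ B ^ (1 / 3 + a))]
  have hcond : ∀ x ∈ S, (nm x.2.1 : ℝ) * nm x.2.2 * nm x.2.2 ≤ B ^ (1 + e) := fun x hx => by
    have := nm_kk_le (hS x hx).2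
    nlinarith
  have b1 : ∑ x ∈ S.filter (fun x => (nm x.2.2 : ℝ) ≤ B ^ a), G x ≤ K1 * B ^ (7 / 3 - a / 20) := by
    refine (H1 a e B C D ha.le he.le (by linarith) hB hBC' hCB hD hCD _ P T
      (fun x hx => hS x (mem_filter.mp hx).1) hP hT (fun x hx => (mem_filter.mp hx).2)
      γ ξ hγ hξ).trans ?_
    apply mul_le_mul_of_nonneg_left _ hK1.le
    exact hmono (by nlinarith [mul_nonneg he.le hd.le])
  have b2 : ∑ x ∈ (S.filter (fun x => ¬ (nm x.2.2 : ℝ) ≤ B ^ a)).filter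
      (fun x => (nm x.2.2 : ℝ) ≤ B ^ (1 / 3 - a)), G x ≤ K2 * B ^ (7 / 3 - a / 20) := by
    have := H2 B hB ((S.filter (fun x => ¬ (nm x.2.2 : ℝ) ≤ B ^ a)).filter
      (fun x => (nm x.2.2 : ℝ) ≤ B ^ (1 / 3 - a)))
      (fun x hx => hS x (mem_filter.mp (mem_filter.mp hx).1).1)
      (fun x hx => ⟨(not_le.mp (mem_filter.mp (mem_filter.mp hx).1).2).le, (mem_filter.mp hx).2⟩)
      _ _ hf
    simp only [hGdef, hconv]
    exact this
  have b4 : ∑ x ∈ ((S.filter (fun x => ¬ (nm x.2.2 : ℝ) ≤ B ^ a)).filter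
    (fun x => ¬ (nm x.2.2 : ℝ) ≤ B ^ (1 / 3 - a))).filter
      (fun x => ¬ (nm x.2.2 : ℝ) ≤ B ^ (1 / 3 + a)), G x ≤ K4 * B ^ (7 / 3 - a / 20) := by
    have := H4 B hB (((S.filter (fun x => ¬ (nm x.2.2 : ℝ) ≤ B ^ a)).filter
      (fun x => ¬ (nm x.2.2 : ℝ) ≤ B ^ (1 / 3 - a))).filter
      (fun x => ¬ (nm x.2.2 : ℝ) ≤ B ^ (1 / 3 + a)))
      (fun x hx => by
        have hxS := (mem_filter.mp (mem_filter.mp (mem_filter.mp hx).1).1).1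
        refine ⟨(hS x hxS).1, ?_⟩
        have hk := not_le.mp (mem_filter.mp hx).2
        have h5 := hcond x hxS
        have h6 : (nm x.2.1 : ℝ) * nm x.2.2 * B ^ (1 / 3 + a) ≤ B ^ (1 + e) := by
          refine le_trans ?_ h5
          exact mul_le_mul_of_nonneg_left hk.le (by positivity)
        have h7 : B ^ (2 / 3 - a + e) = B ^ (1 + e) / B ^ (1 / 3 + a) := by
          rw [← Real.rpow_sub hB0]; congr 1; ring
        rw [h7, le_div_iff₀ (by positivity)]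
        exact h6)
      _ hf
    simp only [hGdef, hconv]
    exact this
  have b3 : ∑ x ∈ ((S.filter (fun x => ¬ (nm x.2.2 : ℝ) ≤ B ^ a)).filter
    (fun x => ¬ (nm x.2.2 : ℝ) ≤ B ^ (1 / 3 - a))).filter
      (fun x => (nm x.2.2 : ℝ) ≤ B ^ (1 / 3 + a)), G x ≤ K3 * B ^ (7 / 3 - a / 20) := by
    set S' : Finset Tup := ((S.filter (fun x => ¬ (nm x.2.2 : ℝ) ≤ B ^ a)).filter
      (fun x => ¬ (nm x.2.2 : ℝ) ≤ B ^ (1 / 3 - a))).filter
      (fun x => (nm x.2.2 : ℝ) ≤ B ^ (1 / 3 + a)) with hS'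
    have hS'1 : ∀ x ∈ S', x ∈ S ∧ B ^ (1 / 3 - a) ≤ (nm x.2.2 : ℝ) ∧
        (nm x.2.2 : ℝ) ≤ B ^ (1 / 3 + a) := fun x hx =>
      ⟨(mem_filter.mp (mem_filter.mp (mem_filter.mp hx).1).1).1,
        (not_le.mp (mem_filter.mp (mem_filter.mp hx).1).2).le, (mem_filter.mp hx).2⟩
    set η : ℝ := 4 * a with hη
    have hq : ∀ x ∈ S', IsTup x ∧ (nm x.2.1 : ℝ) * nm x.2.2 ≤ B ^ (2 / 3 + η) := fun x hx => by
      obtain ⟨g1, g2, g3⟩ := hS'1 x hx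
      refine ⟨(hS x g1).1, ?_⟩
      have h5 := hcond x g1
      have h6 : (nm x.2.1 : ℝ) * nm x.2.2 * B ^ (1 / 3 - a) ≤ B ^ (1 + e) := by
        refine le_trans ?_ h5
        exact mul_le_mul_of_nonneg_left g2 (by positivity)
      have h7 : (nm x.2.1 : ℝ) * nm x.2.2 ≤ B ^ (1 + e) / B ^ (1 / 3 - a) := by
        rw [le_div_iff₀ (by positivity)]
        exact h6
      refine h7.trans ?_
      rw [← Real.rpow_sub hB0]
      exact hmono (by linarith)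
    have hcard : (#S' : ℝ) ≤ 90000 * B ^ (2 / 3 + η) := by
      have h8 := card_tup_le (S := S') (X := B ^ (1 + e)) (L₀ := B ^ (1 / 3 - a))
        (L := B ^ (1 / 3 + a)) (fun x hx => hS x (hS'1 x hx).1) hX0.le (by positivity)
        (by positivity) (fun x hx => (hS'1 x hx).2)
      refine h8.trans ?_
      apply mul_le_mul_of_nonneg_left _ (by norm_num)
      rw [← Real.rpow_natCast (B ^ (1 / 3 - a)) 2, ← Real.rpow_mul hB0.le, ← Real.rpow_sub hB0,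
        ← Real.rpow_add hB0]
      exact hmono (by push_cast; linarith)
    have hT2 : IsPB T (2 * B ^ (1 + e - c)) := fun n hn => by
      obtain ⟨g1, g2⟩ := hT n hn
      refine ⟨g1, g2.trans ?_⟩
      have h9 : D ≤ B ^ (1 + e - c) := by
        rw [Real.rpow_sub hB0, le_div_iff₀ (by positivity), ← hcC, mul_comm]
        exact hCD
      have : 0 < B ^ (1 + e - c) := by positivity
      linarith
    have hP2 : IsPB P (2 * B ^ c) := by rw [← hcC]; exact hPB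
    by_cases hcc : c ≤ 1 + e - c
    · refine (H3 B c (1 + e - c) η hB hc1 hcc (by positivity) (by linarith) (by linarith) S' P T hq
        hcard hP2 hT2 γ ξ hγ hξ).trans ?_
      apply mul_le_mul_of_nonneg_left _ hK3.le
      exact hmono (by linarith)
    · push Not at hcc
      have h10 := H3 B (1 + e - c) c η hB (by linarith) hcc.le (by positivity) (by linarith)
        (by linarith) S' T P hq hcard hT2 hP2 ξ γ hξ hγ
      have h11 : ∑ x ∈ S', G x = ∑ x ∈ S', ‖F T ξ (num x)‖ ^ 2 * ‖F P γ (num x)‖ ^ 2 :=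
        sum_congr rfl fun x _ => mul_comm _ _
      rw [h11]
      refine h10.trans ?_
      apply mul_le_mul_of_nonneg_left _ hK3.le
      exact hmono (by linarith)
  calc _ ≤ K1 * B ^ (7 / 3 - a / 20) + (K2 * B ^ (7 / 3 - a / 20) +
        (K3 * B ^ (7 / 3 - a / 20) + K4 * B ^ (7 / 3 - a / 20))) :=
        add_le_add b1 (add_le_add b2 (add_le_add b3 b4))
    _ = _ := by ring

lemma coreU_of_core (h : Core) : CoreU 0.9 := h

lemma CoreCubU.mono {u u' : ℝ} (huu : u' ≤ u) (h : CoreCubU u) : CoreCubU u' := by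
  intro ν hν
  obtain ⟨δ, e₀, K, h1, h2, h3, h4⟩ := h ν hν
  refine ⟨δ, e₀, K, h1, h2, h3, ?_⟩
  intro B C D hB hBC hCB
  exact h4 B C D hB hBC (hCB.trans (Real.rpow_le_rpow_of_exponent_le hB huu))

/-- **(CRC)**. -/
theorem coreCub (h : Core) (hG : GLS) (hL : OrdLS) : CoreCub :=
  coreCubU (by norm_num) (by norm_num) (coreU_of_core h) hG hL

end Crest.Agent.R012.CR3436
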