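import Crest.Agent.R012.LS2Spec_381
import Crest.Agent.R012.Spec_CR_290
import Crest.Agent.R012.Div_277
import Crest.Agent.R012.Sym4_645

/-!
# Row 12, (CR-3): algebra of finite "Dirichlet polynomials" in the cubic symbol

`Ex Z A k f` : `f h = ∑_{n ∈ T} a n * sy h n` with `T` a finite set of primary elements of norm
`≤ Z`, `‖a n‖ ≤ (tau n)^k`, `∑ ‖a n‖ ≤ A`.  Closed under products, powers and twists.
-/

set_option autoImplicit false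

noncomputable section

open Finset

namespace Crest.Agent.R012.CR3436

open Eis Div277 CR290

/-- finite combination of the symbols `(·/n)`. -/
def Ex (Z A : ℝ) (k : ℕ) (f : Eis → ℂ) : Prop :=
  ∃ (T : Finset Eis) (a : Eis → ℂ), (∀ n ∈ T, IsPrim n ∧ (nm n : ℝ) ≤ Z) ∧
    (∀ n ∈ T, ‖a n‖ ≤ (tau n : ℝ) ^ k) ∧ (∑ n ∈ T, ‖a n‖ ≤ A) ∧ ∀ h, f h = ∑ n ∈ T, a n * sy h n

lemma prim_mod {n : Eis} (h : IsPrim n) : nm n % 3 = 1 := Sym645.prim_nm_mod h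

lemma Ex.mono {Z A Z' A' : ℝ} {k k' : ℕ} {f : Eis → ℂ} (h : Ex Z A k f) (hZ : Z ≤ Z') (hA : A ≤ A')
    (hk : k ≤ k') : Ex Z' A' k' f := by
  obtain ⟨T, a, h1, h2, h3, h4⟩ := h
  refine ⟨T, a, fun n hn => ⟨(h1 n hn).1, (h1 n hn).2.trans hZ⟩, fun n hn => (h2 n hn).trans ?_,
    h3.trans hA, h4⟩
  exact pow_le_pow_right₀ (by exact_mod_cast one_le_tau (h1 n hn).1.ne_zero) hk

lemma ex_one : Ex 1 1 0 (fun _ => 1) := by
  refine ⟨{1}, fun _ => 1, ?_, ?_, ?_, ?_⟩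
  · intro n hn
    rw [mem_singleton] at hn
    subst hn
    exact ⟨isPrim_one, by simp [nm_one]⟩
  · intro n _; simp
  · simp
  · intro h; simp

lemma ex_F {P : Finset Eis} {γ : Eis → ℂ} {C : ℝ} (hP : IsPB P C)
    (hγ : ∀ c ∈ P, ‖γ c‖ ≤ 1) : Ex C #P 0 (F P γ) := by
  refine ⟨P, γ, hP, fun n hn => by simpa using hγ n hn, ?_, fun h => rfl⟩
  calc ∑ n ∈ P, ‖γ n‖ ≤ ∑ n ∈ P, (1 : ℝ) := sum_le_sum hγ
    _ = #P := by simp

lemma Ex.twist {Z A : ℝ} {k : ℕ} {f : Eis → ℂ} (h : Ex Z A k f) (u : Eis) :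
    Ex Z A k (fun x => f (u * x)) := by
  obtain ⟨T, a, h1, h2, h3, h4⟩ := h
  have hle : ∀ n ∈ T, ‖a n * sy u n‖ ≤ ‖a n‖ := fun n hn => by
    rw [norm_mul]
    exact mul_le_of_le_one_right (norm_nonneg _) (Sym645.norm_sy_le_one (prim_mod (h1 n hn).1) u)
  refine ⟨T, fun n => a n * sy u n, h1, fun n hn => (hle n hn).trans (h2 n hn),
    (sum_le_sum hle).trans h3, fun x => ?_⟩
  show f (u * x) = _
  rw [h4]
  refine sum_congr rfl fun n hn => ?_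
  rw [Sym645.sy_mul_left (prim_mod (h1 n hn).1)]
  ring

open Classical in
lemma Ex.mul {Z A Z' A' : ℝ} {k k' : ℕ} {f g : Eis → ℂ} (hf : Ex Z A k f) (hg : Ex Z' A' k' g)
    (hA : 0 ≤ A) : Ex (Z * Z') (A * A') (k + k' + 1) (fun x => f x * g x) := by
  obtain ⟨T, a, h1, h2, h3, h4⟩ := hf
  obtain ⟨T', a', h1', h2', h3', h4'⟩ := hg
  let S : Finset (Eis × Eis) := T ×ˢ T'
  let mm : Eis × Eis → Eis := fun p => p.1 * p.2
  let b : Eis → ℂ := fun n => ∑ p ∈ S with mm p = n, a p.1 * a' p.2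
  have hS : ∀ p ∈ S, IsPrim p.1 ∧ IsPrim p.2 := fun p hp => by
    rw [mem_product] at hp
    exact ⟨(h1 _ hp.1).1, (h1' _ hp.2).1⟩
  have hbn : ∀ n, ‖b n‖ ≤ ∑ p ∈ S with mm p = n, ‖a p.1‖ * ‖a' p.2‖ := fun n =>
    (norm_sum_le _ _).trans (le_of_eq (sum_congr rfl fun p _ => norm_mul _ _))
  have hmaps : ∀ p ∈ S, mm p ∈ S.image mm := fun p hp => mem_image_of_mem _ hp
  refine ⟨S.image mm, b, ?_, ?_, ?_, ?_⟩
  · intro n hn
    obtain ⟨p, hp, rfl⟩ := mem_image.mp hn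
    have hp' := mem_product.mp hp
    refine ⟨(hS p hp).1.mul (hS p hp).2, ?_⟩
    show (nm (p.1 * p.2) : ℝ) ≤ Z * Z'
    rw [nm_mul]
    push_cast
    exact mul_le_mul (h1 _ hp'.1).2 (h1' _ hp'.2).2 (by positivity)
      ((Nat.cast_nonneg _).trans (h1 _ hp'.1).2)
  · intro n hn
    obtain ⟨q, hq, hqn⟩ := mem_image.mp hn
    have hn0 : n ≠ 0 := by
      rw [← hqn]
      exact mul_ne_zero (hS q hq).1.ne_zero (hS q hq).2.ne_zero
    have ht1 : (1 : ℝ) ≤ tau n := by exact_mod_cast one_le_tau hn0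
    have hterm : ∀ p ∈ S.filter (fun p => mm p = n), ‖a p.1‖ * ‖a' p.2‖ ≤ (tau n : ℝ) ^ (k + k') := by
      intro p hp
      rw [mem_filter] at hp
      have hp' := mem_product.mp hp.1
      have hd1 : p.1 ∣ n := ⟨p.2, hp.2.symm⟩
      have hd2 : p.2 ∣ n := ⟨p.1, by rw [← hp.2]; exact mul_comm _ _⟩
      rw [pow_add]
      refine mul_le_mul ((h2 _ hp'.1).trans ?_) ((h2' _ hp'.2).trans ?_) (norm_nonneg _)
        (by positivity)
      · exact pow_le_pow_left₀ (by positivity) (by exact_mod_cast tau_le_of_dvd hn0 hd1) _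
      · exact pow_le_pow_left₀ (by positivity) (by exact_mod_cast tau_le_of_dvd hn0 hd2) _
    have hcard : #(S.filter (fun p => mm p = n)) ≤ tau n := by
      refine card_le_card_of_injOn (fun p => p.1) ?_ ?_
      · intro p hp
        rw [mem_coe, mem_filter] at hp
        rw [mem_coe, mem_dvs hn0]
        exact ⟨(hS p hp.1).1, ⟨p.2, hp.2.symm⟩⟩
      · intro p hp p' hp' h
        rw [mem_coe, mem_filter] at hp hp'
        have e1 : p.1 * p.2 = p'.1 * p'.2 := hp.2.trans hp'.2.symm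
        have h' : p.1 = p'.1 := h
        refine Prod.ext h' ?_
        rw [← h'] at e1
        exact mul_left_cancel₀ (hS p hp.1).1.ne_zero e1
    calc ‖b n‖ ≤ ∑ p ∈ S with mm p = n, ‖a p.1‖ * ‖a' p.2‖ := hbn n
      _ ≤ ∑ p ∈ S with mm p = n, (tau n : ℝ) ^ (k + k') := sum_le_sum hterm
      _ = #(S.filter (fun p => mm p = n)) * (tau n : ℝ) ^ (k + k') := by
          rw [sum_const, nsmul_eq_mul]
      _ ≤ (tau n : ℝ) * (tau n : ℝ) ^ (k + k') :=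
          mul_le_mul_of_nonneg_right (by exact_mod_cast hcard) (by positivity)
      _ = (tau n : ℝ) ^ (k + k' + 1) := by rw [pow_succ]; ring
  · calc ∑ n ∈ S.image mm, ‖b n‖ ≤ ∑ n ∈ S.image mm, ∑ p ∈ S with mm p = n, ‖a p.1‖ * ‖a' p.2‖ :=
          sum_le_sum fun n _ => hbn n
      _ = ∑ p ∈ S, ‖a p.1‖ * ‖a' p.2‖ := sum_fiberwise_of_maps_to hmaps _
      _ = (∑ n ∈ T, ‖a n‖) * ∑ n ∈ T', ‖a' n‖ := by rw [sum_mul_sum, sum_product]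
      _ ≤ A * A' := mul_le_mul h3 h3' (sum_nonneg fun _ _ => norm_nonneg _) hA
  · intro h
    have e : ∀ n ∈ S.image mm, b n * sy h n = ∑ p ∈ S with mm p = n, a p.1 * a' p.2 * sy h (mm p) := by
      intro n _
      show (∑ p ∈ S with mm p = n, a p.1 * a' p.2) * sy h n = _
      rw [sum_mul]
      refine sum_congr rfl fun p hp => ?_
      rw [(mem_filter.mp hp).2]
    rw [sum_congr rfl e, sum_fiberwise_of_maps_to hmaps (fun p => a p.1 * a' p.2 * sy h (mm p))]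
    show f h * g h = _
    rw [h4, h4', sum_mul_sum, ← sum_product']
    refine sum_congr rfl fun p hp => ?_
    show _ = a p.1 * a' p.2 * sy h (p.1 * p.2)
    rw [Sym645.sy_mul_right h (hS p hp).1.ne_zero (hS p hp).2.ne_zero]
    ring

lemma Ex.pow {Z A : ℝ} {k : ℕ} {f : Eis → ℂ} (hf : Ex Z A k f) (hA : 0 ≤ A) (j : ℕ) :
    Ex (Z ^ j) (A ^ j) ((k + 1) * j) (fun x => f x ^ j) := by
  induction j with
  | zero => simpa using ex_one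
  | succ j ih =>
    have h := ih.mul hf (by positivity)
    have e1 : (k + 1) * j + k + 1 = (k + 1) * (j + 1) := by ring
    rw [e1] at h
    simpa only [pow_succ] using h

/-! ### bounds -/

lemma card_le_of_isPB {T : Finset Eis} {Z : ℝ} (hT : IsPB T Z) (hZ : 0 ≤ Z) :
    (#T : ℝ) ≤ 100 * Z := by
  have h1 : T ⊆ primBall ⌊Z⌋₊ := fun n hn => by
    rw [mem_primBall]
    exact ⟨Nat.le_floor (hT n hn).2, (hT n hn).1⟩
  calc (#T : ℝ) ≤ #(primBall ⌊Z⌋₊) := by exact_mod_cast card_le_card h1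
    _ ≤ 100 * (⌊Z⌋₊ : ℝ) := Lat277.card_primBall_le _
    _ ≤ 100 * Z := by
        have := Nat.floor_le hZ
        linarith

/-- divisor bound, powers. -/
lemma tau_pow_le (k : ℕ) {ε : ℝ} (hε : 0 < ε) : ∃ K : ℝ, 1 ≤ K ∧ ∀ (Z : ℝ) (n : Eis),
    IsPrim n → (nm n : ℝ) ≤ Z → (tau n : ℝ) ^ k ≤ K * Z ^ ε := by
  obtain ⟨C, hC, h⟩ := tau_le_rpow (ε := ε / (k + 1)) (by positivity)
  refine ⟨C ^ k, one_le_pow₀ hC, fun Z n hn hZ => ?_⟩
  have hn1 : (1 : ℝ) ≤ nm n := by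
    have := nm_pos.mpr hn.ne_zero
    exact_mod_cast this
  have hZ1 : 1 ≤ Z := hn1.trans hZ
  have hk0 : (0 : ℝ) < k + 1 := by positivity
  calc (tau n : ℝ) ^ k ≤ (C * (nm n : ℝ) ^ (ε / (k + 1))) ^ k :=
        pow_le_pow_left₀ (by positivity) (h n hn.ne_zero) _
    _ = C ^ k * (nm n : ℝ) ^ (ε / (k + 1) * k) := by
        rw [mul_pow, ← Real.rpow_natCast ((nm n : ℝ) ^ (ε / (k + 1))), ← Real.rpow_mul (by positivity)]
    _ ≤ C ^ k * Z ^ ε := by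
        apply mul_le_mul_of_nonneg_left _ (by positivity)
        calc (nm n : ℝ) ^ (ε / (k + 1) * k) ≤ Z ^ (ε / (k + 1) * k) :=
              Real.rpow_le_rpow (by positivity) hZ (by positivity)
          _ ≤ Z ^ ε := by
              apply Real.rpow_le_rpow_of_exponent_le hZ1
              rw [div_mul_eq_mul_div, div_le_iff₀ hk0]
              nlinarith

/-- general large sieve (GLS) for `Ex`. -/
lemma gls_ex (hG : GLS) (k : ℕ) {ε : ℝ} (hε : 0 < ε) : ∃ K : ℝ, 0 < K ∧ ∀ (M Z A : ℝ),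
    1 ≤ M → 1 ≤ Z → ∀ (S : Finset Eis), IsSF S M → ∀ f : Eis → ℂ, Ex Z A k f →
      ∑ h ∈ S, ‖f h‖ ^ 2 ≤ K * (M * Z) ^ ε * (M + Z + (M * Z) ^ (2 / 3 : ℝ)) * Z := by
  obtain ⟨K1, hK1, h1⟩ := hG (ε / 2) (by positivity)
  obtain ⟨K2, hK2, h2⟩ := tau_pow_le k (ε := ε / 4) (by positivity)
  refine ⟨K1 * K2 ^ 2, by positivity, fun M Z A hM hZ S hS f hf => ?_⟩
  obtain ⟨T, a, g1, g2, _, g4⟩ := hf
  set R : ℝ := K2 * Z ^ (ε / 4) with hR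
  have hZp : (1 : ℝ) ≤ Z ^ (ε / 4) := Real.one_le_rpow hZ (by positivity)
  have hRpos : 0 < R := by positivity
  have ha : ∀ n ∈ T, ‖a n / (R : ℂ)‖ ≤ 1 := fun n hn => by
    rw [norm_div, Complex.norm_real, Real.norm_of_nonneg hRpos.le, div_le_one hRpos]
    exact (g2 n hn).trans (h2 Z n (g1 n hn).1 (g1 n hn).2)
  have h3 := h1 M Z hM hZ S T hS g1 (fun n => a n / (R : ℂ)) ha
  have h4 : ∀ h : Eis, f h = R * F T (fun n => a n / (R : ℂ)) h := fun h => by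
    rw [g4, F, mul_sum]
    refine sum_congr rfl fun n _ => ?_
    have : (R : ℂ) ≠ 0 := by exact_mod_cast hRpos.ne'
    field_simp
  have h5 : ∀ h : Eis, ‖f h‖ ^ 2 = R ^ 2 * ‖F T (fun n => a n / (R : ℂ)) h‖ ^ 2 := fun h => by
    rw [h4, norm_mul, Complex.norm_real, Real.norm_of_nonneg hRpos.le, mul_pow]
  rw [sum_congr rfl fun h _ => h5 h, ← mul_sum]
  have hMZ : (1 : ℝ) ≤ M * Z := by nlinarith
  have hZMZ : Z ≤ M * Z := by nlinarith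
  have h6 : R ^ 2 ≤ K2 ^ 2 * (M * Z) ^ (ε / 2) := by
    rw [hR, mul_pow, ← Real.rpow_natCast (Z ^ (ε / 4)), ← Real.rpow_mul (by positivity)]
    apply mul_le_mul_of_nonneg_left _ (by positivity)
    calc Z ^ (ε / 4 * ((2 : ℕ) : ℝ)) ≤ (M * Z) ^ (ε / 4 * ((2 : ℕ) : ℝ)) :=
          Real.rpow_le_rpow (by positivity) hZMZ (by positivity)
      _ = (M * Z) ^ (ε / 2) := by congr 1; push_cast; ring
  have h7 : (M * Z) ^ (ε / 2) * (M * Z) ^ (ε / 2) = (M * Z) ^ ε := by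
    rw [← Real.rpow_add (by positivity)]; congr 1; ring
  calc R ^ 2 * ∑ h ∈ S, ‖F T (fun n => a n / (R : ℂ)) h‖ ^ 2
      ≤ (K2 ^ 2 * (M * Z) ^ (ε / 2)) *
        (K1 * (M * Z) ^ (ε / 2) * (M + Z + (M * Z) ^ (2 / 3 : ℝ)) * Z) :=
        mul_le_mul h6 h3 (sum_nonneg fun _ _ => by positivity) (by positivity)
    _ = K1 * K2 ^ 2 * ((M * Z) ^ (ε / 2) * (M * Z) ^ (ε / 2)) *
          (M + Z + (M * Z) ^ (2 / 3 : ℝ)) * Z := by ring
    _ = _ := by rw [h7]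

/-- ordinary large sieve for `Ex`. -/
lemma ord_ex (hL : OrdLS) (k : ℕ) {ε : ℝ} (hε : 0 < ε) : ∃ K : ℝ, 0 < K ∧ ∀ (Q Z A : ℝ),
    1 ≤ Q → 1 ≤ Z → ∀ (S : Finset Tup),
    (∀ x ∈ S, IsTup x ∧ (nm x.2.1 : ℝ) * nm x.2.2 ≤ Q) → ∀ f : Eis → ℂ, Ex Z A k f →
      ∑ x ∈ S, ‖f (num x)‖ ^ 2 ≤ K * Z ^ ε * (Q ^ 2 + Z) * A := by
  obtain ⟨K1, hK1, h1⟩ := hL
  obtain ⟨K2, hK2, h2⟩ := tau_pow_le k (ε := ε) hε
  refine ⟨K1 * K2, by positivity, fun Q Z A hQ hZ S hS f hf => ?_⟩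
  obtain ⟨T, a, g1, g2, g3, g4⟩ := hf
  have h3 := h1 Q Z hQ hZ S T hS g1 a
  have h4 : ∑ n ∈ T, ‖a n‖ ^ 2 ≤ K2 * Z ^ ε * A := by
    calc ∑ n ∈ T, ‖a n‖ ^ 2 ≤ ∑ n ∈ T, (K2 * Z ^ ε) * ‖a n‖ := by
          refine sum_le_sum fun n hn => ?_
          rw [sq]
          exact mul_le_mul_of_nonneg_right
            ((g2 n hn).trans (h2 Z n (g1 n hn).1 (g1 n hn).2)) (norm_nonneg _)
      _ = (K2 * Z ^ ε) * ∑ n ∈ T, ‖a n‖ := by rw [mul_sum]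
      _ ≤ K2 * Z ^ ε * A := mul_le_mul_of_nonneg_left g3 (by positivity)
  calc ∑ x ∈ S, ‖f (num x)‖ ^ 2 = ∑ x ∈ S, ‖F T a (num x)‖ ^ 2 :=
        sum_congr rfl fun x _ => by rw [g4]; rfl
    _ ≤ K1 * (Q ^ 2 + Z) * ∑ n ∈ T, ‖a n‖ ^ 2 := h3
    _ ≤ K1 * (Q ^ 2 + Z) * (K2 * Z ^ ε * A) := mul_le_mul_of_nonneg_left h4 (by positivity)
    _ = _ := by ring

/-- moments from the ordinary large sieve. -/
lemma mom_ord (hL : OrdLS) (j : ℕ) {ε : ℝ} (hε : 0 < ε) : ∃ K : ℝ, 0 < K ∧ ∀ (Q Z : ℝ),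
    1 ≤ Q → 1 ≤ Z → ∀ (S : Finset Tup) (T : Finset Eis),
    (∀ x ∈ S, IsTup x ∧ (nm x.2.1 : ℝ) * nm x.2.2 ≤ Q) → IsPB T Z →
    ∀ γ : Eis → ℂ, (∀ c ∈ T, ‖γ c‖ ≤ 1) →
      ∑ x ∈ S, ‖F T γ (num x)‖ ^ (2 * j) ≤ K * Z ^ ε * (Q ^ 2 + Z ^ j) * Z ^ j := by
  obtain ⟨K, hK, h⟩ := ord_ex hL ((0 + 1) * j) (ε := ε / (j + 1)) (by positivity)
  refine ⟨K * 100 ^ j, by positivity, fun Q Z hQ hZ S T hS hT γ hγ => ?_⟩
  have h1 := (ex_F hT hγ).pow (by positivity) j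
  have hZj : (1 : ℝ) ≤ Z ^ j := one_le_pow₀ hZ
  have h2 := h Q (Z ^ j) _ hQ hZj S hS _ h1
  have hj0 : (0 : ℝ) < j + 1 := by positivity
  have h3 : (Z ^ j) ^ (ε / (j + 1)) ≤ Z ^ ε := by
    rw [← Real.rpow_natCast Z j, ← Real.rpow_mul (by positivity)]
    apply Real.rpow_le_rpow_of_exponent_le hZ
    rw [mul_div_assoc', div_le_iff₀ hj0]
    nlinarith
  have h4 : (#T : ℝ) ^ j ≤ 100 ^ j * Z ^ j := by
    rw [← mul_pow]
    exact pow_le_pow_left₀ (by positivity) (card_le_of_isPB hT (by positivity)) _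
  calc ∑ x ∈ S, ‖F T γ (num x)‖ ^ (2 * j) = ∑ x ∈ S, ‖F T γ (num x) ^ j‖ ^ 2 := by
        refine sum_congr rfl fun x _ => ?_
        rw [norm_pow, ← pow_mul, mul_comm]
    _ ≤ K * (Z ^ j) ^ (ε / (j + 1)) * (Q ^ 2 + Z ^ j) * (#T : ℝ) ^ j := h2
    _ ≤ K * Z ^ ε * (Q ^ 2 + Z ^ j) * (100 ^ j * Z ^ j) := by gcongr
    _ = _ := by ring

end Crest.Agent.R012.CR3436
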