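import Crest.Agent.R012.Defs

/-!
# Row 12, critical range (CR), item CRH: Hölder interpolation  (helper569)

* `holder_prod` : weighted Hölder inequality for finitely many factors and finite sums.
* `holder_three` : the same for three factors.
* `core_holder` : from the moment bounds of `C(h)` and `D(h)` (generic ones critical, one of
  the moments of `C` with a power saving) the power saving for `∑ |C(h)|² |D(h)|²`.
-/

set_option autoImplicit false

noncomputable section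

open Finset

namespace Crest.Agent.R012.CRmom569

/-! ### Weighted Hölder inequality -/

/-- Weighted Hölder for finitely many factors and finite sums. -/
theorem holder_prod {ι κ : Type*} (s : Finset ι) (t : Finset κ) (a : κ → ι → ℝ) (w : κ → ℝ)
    (ha : ∀ k ∈ t, ∀ i ∈ s, 0 ≤ a k i) (hw : ∀ k ∈ t, 0 ≤ w k) (hw1 : ∑ k ∈ t, w k = 1) :
    ∑ i ∈ s, ∏ k ∈ t, a k i ^ w k ≤ ∏ k ∈ t, (∑ i ∈ s, a k i) ^ w k := by
  classical
  by_cases hz : ∃ k ∈ t, 0 < w k ∧ ∑ i ∈ s, a k i = 0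
  · obtain ⟨k, hk, hwk, hS⟩ := hz
    have h0 : ∀ i ∈ s, a k i = 0 := (Finset.sum_eq_zero_iff_of_nonneg (ha k hk)).mp hS
    have : ∑ i ∈ s, ∏ k ∈ t, a k i ^ w k = 0 := by
      refine Finset.sum_eq_zero (fun i hi => Finset.prod_eq_zero hk ?_)
      rw [h0 i hi, Real.zero_rpow hwk.ne']
    rw [this]
    exact Finset.prod_nonneg (fun k hk => Real.rpow_nonneg
      (Finset.sum_nonneg (fun i hi => ha k hk i hi)) _)
  push Not at hz
  set S : κ → ℝ := fun k => ∑ i ∈ s, a k i with hSdef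
  have hS0 : ∀ k ∈ t, 0 ≤ S k := fun k hk => Finset.sum_nonneg (fun i hi => ha k hk i hi)
  have hSpos : ∀ k ∈ t, 0 < w k → 0 < S k := fun k hk hwk =>
    lt_of_le_of_ne (hS0 k hk) (Ne.symm (hz k hk hwk))
  -- factor `a k i ^ w k = (a k i / S k) ^ w k * S k ^ w k`
  have hfac : ∀ i ∈ s, ∀ k ∈ t, a k i ^ w k = (a k i / S k) ^ w k * S k ^ w k := by
    intro i hi k hk
    rcases (hw k hk).eq_or_lt with h | h
    · rw [← h]; simp
    · rw [← Real.mul_rpow (div_nonneg (ha k hk i hi) (hS0 k hk)) (hS0 k hk),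
        div_mul_cancel₀ _ (hSpos k hk h).ne']
  calc ∑ i ∈ s, ∏ k ∈ t, a k i ^ w k
      = ∑ i ∈ s, (∏ k ∈ t, (a k i / S k) ^ w k) * ∏ k ∈ t, S k ^ w k := by
        refine Finset.sum_congr rfl (fun i hi => ?_)
        rw [← Finset.prod_mul_distrib]
        exact Finset.prod_congr rfl (fun k hk => hfac i hi k hk)
    _ = (∑ i ∈ s, ∏ k ∈ t, (a k i / S k) ^ w k) * ∏ k ∈ t, S k ^ w k := by
        rw [Finset.sum_mul]
    _ ≤ 1 * ∏ k ∈ t, S k ^ w k := by
        apply mul_le_mul_of_nonneg_right _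
          (Finset.prod_nonneg (fun k hk => Real.rpow_nonneg (hS0 k hk) _))
        calc ∑ i ∈ s, ∏ k ∈ t, (a k i / S k) ^ w k
            ≤ ∑ i ∈ s, ∑ k ∈ t, w k * (a k i / S k) := by
              refine Finset.sum_le_sum (fun i hi => ?_)
              exact Real.geom_mean_le_arith_mean_weighted t w (fun k => a k i / S k) hw hw1
                (fun k hk => div_nonneg (ha k hk i hi) (hS0 k hk))
          _ = ∑ k ∈ t, w k * ∑ i ∈ s, (a k i / S k) := by
              rw [Finset.sum_comm]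
              exact Finset.sum_congr rfl (fun k _ => by rw [Finset.mul_sum])
          _ ≤ ∑ k ∈ t, w k := by
              refine Finset.sum_le_sum (fun k hk => ?_)
              rcases (hw k hk).eq_or_lt with h | h
              · rw [← h]; simp
              · rw [← Finset.sum_div]
                have : (∑ i ∈ s, a k i) / S k = 1 := div_self (hSpos k hk h).ne'
                rw [this, mul_one]
          _ = 1 := hw1
    _ = ∏ k ∈ t, S k ^ w k := one_mul _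

/-- Three-factor weighted Hölder inequality. -/
theorem holder_three {ι : Type*} (s : Finset ι) (a b c : ι → ℝ) (u v w : ℝ)
    (ha : ∀ i ∈ s, 0 ≤ a i) (hb : ∀ i ∈ s, 0 ≤ b i) (hc : ∀ i ∈ s, 0 ≤ c i)
    (hu : 0 ≤ u) (hv : 0 ≤ v) (hw : 0 ≤ w) (h1 : u + v + w = 1) :
    ∑ i ∈ s, a i ^ u * b i ^ v * c i ^ w
      ≤ (∑ i ∈ s, a i) ^ u * (∑ i ∈ s, b i) ^ v * (∑ i ∈ s, c i) ^ w := by
  have h := holder_prod s (Finset.univ : Finset (Fin 3)) ![a, b, c] ![u, v, w]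
    (by intro k _ i hi; fin_cases k <;> simp [ha i hi, hb i hi, hc i hi])
    (by intro k _; fin_cases k <;> simp [hu, hv, hw])
    (by simp [Fin.sum_univ_three, h1])
  simpa [Fin.prod_univ_three] using h

/-- The shape in which the three-factor Hölder inequality is used:
`∑ F² G² ≤ (∑ F^{2j})^u (∑ F^{2l})^v (∑ G^{2i})^w` and variants; all exponents are natural
numbers `m₁, m₂, m₃ (for F)`, `n₁, n₂, n₃ (for G)` with the balance conditions. -/
theorem holder_moments {ι : Type*} (s : Finset ι) (F G : ι → ℝ) (hF : ∀ h ∈ s, 0 ≤ F h)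
    (hG : ∀ h ∈ s, 0 ≤ G h) (m₁ m₂ m₃ n₁ n₂ n₃ : ℕ) (u v w : ℝ)
    (hu : 0 ≤ u) (hv : 0 ≤ v) (hw : 0 ≤ w) (h1 : u + v + w = 1)
    (hm : (m₁ : ℝ) * u + m₂ * v + m₃ * w = 2) (hn : (n₁ : ℝ) * u + n₂ * v + n₃ * w = 2) :
    ∑ h ∈ s, F h ^ 2 * G h ^ 2
      ≤ (∑ h ∈ s, F h ^ m₁ * G h ^ n₁) ^ u * (∑ h ∈ s, F h ^ m₂ * G h ^ n₂) ^ v
        * (∑ h ∈ s, F h ^ m₃ * G h ^ n₃) ^ w := by
  have key : ∀ x : ℝ, 0 ≤ x → ∀ (p₁ p₂ p₃ : ℕ), (p₁ : ℝ) * u + p₂ * v + p₃ * w = 2 →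
      x ^ 2 = (x ^ p₁) ^ u * (x ^ p₂) ^ v * (x ^ p₃) ^ w := by
    intro x hx p₁ p₂ p₃ hp
    rw [← Real.rpow_natCast x p₁, ← Real.rpow_natCast x p₂, ← Real.rpow_natCast x p₃,
      ← Real.rpow_mul hx, ← Real.rpow_mul hx, ← Real.rpow_mul hx]
    rw [← Real.rpow_add_of_nonneg hx (by positivity) (by positivity),
      ← Real.rpow_add_of_nonneg hx (by positivity) (by positivity), hp]
    norm_num
  refine le_trans (le_of_eq ?_) (holder_three s (fun h => F h ^ m₁ * G h ^ n₁)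
    (fun h => F h ^ m₂ * G h ^ n₂) (fun h => F h ^ m₃ * G h ^ n₃) u v w
    (fun h hh => mul_nonneg (pow_nonneg (hF h hh) _) (pow_nonneg (hG h hh) _))
    (fun h hh => mul_nonneg (pow_nonneg (hF h hh) _) (pow_nonneg (hG h hh) _))
    (fun h hh => mul_nonneg (pow_nonneg (hF h hh) _) (pow_nonneg (hG h hh) _)) hu hv hw h1)
  refine Finset.sum_congr rfl (fun h hh => ?_)
  have hFh := hF h hh
  have hGh := hG h hh
  rw [key (F h) hFh m₁ m₂ m₃ hm, key (G h) hGh n₁ n₂ n₃ hn]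
  rw [Real.mul_rpow (pow_nonneg hFh _) (pow_nonneg hGh _),
    Real.mul_rpow (pow_nonneg hFh _) (pow_nonneg hGh _),
    Real.mul_rpow (pow_nonneg hFh _) (pow_nonneg hGh _)]
  ring

/-- Bound a weighted product of three sums by powers of `H`. -/
lemma three_bound {A₁ A₂ A₃ K H e₁ e₂ e₃ u v w : ℝ} (hA₁ : 0 ≤ A₁) (hA₂ : 0 ≤ A₂) (hA₃ : 0 ≤ A₃)
    (hK : 0 ≤ K) (hH : 0 < H) (hu : 0 ≤ u) (hv : 0 ≤ v) (hw : 0 ≤ w) (h1 : u + v + w = 1)
    (b₁ : A₁ ≤ K * H ^ e₁) (b₂ : A₂ ≤ K * H ^ e₂) (b₃ : A₃ ≤ K * H ^ e₃) :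
    A₁ ^ u * A₂ ^ v * A₃ ^ w ≤ K * H ^ (e₁ * u + e₂ * v + e₃ * w) := by
  have hp : ∀ A e p : ℝ, 0 ≤ A → 0 ≤ p → A ≤ K * H ^ e → A ^ p ≤ K ^ p * H ^ (e * p) := by
    intro A e p hA hp hb
    calc A ^ p ≤ (K * H ^ e) ^ p := Real.rpow_le_rpow hA hb hp
      _ = K ^ p * H ^ (e * p) := by
          rw [Real.mul_rpow hK (Real.rpow_nonneg hH.le _), ← Real.rpow_mul hH.le]
  have p1 := hp A₁ e₁ u hA₁ hu b₁
  have p2 := hp A₂ e₂ v hA₂ hv b₂
  have p3 := hp A₃ e₃ w hA₃ hw b₃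
  calc A₁ ^ u * A₂ ^ v * A₃ ^ w
      ≤ (K ^ u * H ^ (e₁ * u)) * (K ^ v * H ^ (e₂ * v)) * (K ^ w * H ^ (e₃ * w)) := by
        gcongr
    _ = (K ^ u * K ^ v * K ^ w) * (H ^ (e₁ * u) * H ^ (e₂ * v) * H ^ (e₃ * w)) := by ring
    _ = K * H ^ (e₁ * u + e₂ * v + e₃ * w) := by
        rw [← Real.rpow_add_of_nonneg hK hu hv, ← Real.rpow_add_of_nonneg hK (by linarith) hw, h1,
          Real.rpow_one, ← Real.rpow_add hH, ← Real.rpow_add hH]

/-- The generic moment bound at `Z = H^z`, `1/2 - e ≤ z ≤ 2 + 2e`, in critical form. -/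
lemma generic_crit {H K e z Z A : ℝ} (hH : 1 < H) (hK : 0 ≤ K) (he : 0 ≤ e) (hZ : Z = H ^ z)
    (hz1 : 1 / 2 - e ≤ z) (hz2 : z ≤ 2 + 2 * e)
    (hA : A ≤ K * H ^ e * (H + Z + (H * Z) ^ ((2 : ℝ) / 3)) * Z) :
    A ≤ 3 * K * H ^ (2 / 3 + 5 / 3 * z + 2 * e) := by
  have hH0 : (0 : ℝ) < H := by linarith
  set g : ℝ := 2 / 3 * (1 + z) + 2 / 3 * e with hg
  have h1 : H ≤ H ^ g := by
    calc H = H ^ (1 : ℝ) := (Real.rpow_one H).symm
      _ ≤ _ := Real.rpow_le_rpow_of_exponent_le hH.le (by rw [hg]; linarith)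
  have h2 : Z ≤ H ^ g := by
    rw [hZ]
    exact Real.rpow_le_rpow_of_exponent_le hH.le (by rw [hg]; linarith)
  have h3 : (H * Z) ^ ((2 : ℝ) / 3) ≤ H ^ g := by
    have : H * Z = H ^ (1 + z) := by rw [hZ, Real.rpow_add hH0, Real.rpow_one]
    rw [this, ← Real.rpow_mul hH0.le]
    exact Real.rpow_le_rpow_of_exponent_le hH.le (by rw [hg]; linarith)
  have hZ0 : 0 ≤ Z := by rw [hZ]; exact Real.rpow_nonneg hH0.le _
  have he0 : 0 ≤ H ^ e := Real.rpow_nonneg hH0.le _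
  calc A ≤ K * H ^ e * (H + Z + (H * Z) ^ ((2 : ℝ) / 3)) * Z := hA
    _ ≤ K * H ^ e * (H ^ g + H ^ g + H ^ g) * Z := by gcongr
    _ = 3 * K * (H ^ e * H ^ g * H ^ z) := by rw [hZ]; ring
    _ = 3 * K * H ^ (e + g + z) := by
        rw [← Real.rpow_add hH0, ← Real.rpow_add hH0]
    _ ≤ 3 * K * H ^ (2 / 3 + 5 / 3 * z + 2 * e) := by
        apply mul_le_mul_of_nonneg_left _ (by linarith)
        exact Real.rpow_le_rpow_of_exponent_le hH.le (by rw [hg]; linarith)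

/-- The number of moments needed in `core_holder`. -/
def Jof (ν : ℝ) : ℕ := max (⌈1.15 / ν⌉₊ + 1) 20

set_option maxHeartbeats 1000000 in
/-- **Item CRH.**  `F h = |C(h)|`, `G h = |D(h)|`.  Generic (critical) moment bounds for `C`
and `D`, and the saved moments of `C` give a power saving for `∑ |C|²|D|²`. -/
theorem core_holder (ν : ℝ) (hν : 0 < ν) (d₂ : ℝ) (hd₂ : 0 < d₂) :
    ∃ d₁ : ℝ, 0 < d₁ ∧ ∃ e₀ : ℝ, 0 < e₀ ∧ e₀ ≤ 1 / 20 ∧
      ∀ {ι : Type*} (s : Finset ι) (F G : ι → ℝ) (H C D K : ℝ),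
        (∀ h ∈ s, 0 ≤ F h) → (∀ h ∈ s, 0 ≤ G h) → 1 ≤ H → 0 ≤ K → 0 < C → 0 < D →
        H ^ ν ≤ C → C ≤ H ^ (0.9 : ℝ) → H ^ (1 - e₀) ≤ C * D → C * D ≤ H ^ (1 + e₀) →
        (∀ j : ℕ, 1 ≤ j → j ≤ Jof ν → ∑ h ∈ s, F h ^ (2 * j)
          ≤ K * H ^ e₀ * (H + C ^ j + (H * C ^ j) ^ ((2 : ℝ) / 3)) * C ^ j) →
        (∀ j : ℕ, 1 ≤ j → j ≤ Jof ν → ∑ h ∈ s, G h ^ (2 * j)
          ≤ K * H ^ e₀ * (H + D ^ j + (H * D ^ j) ^ ((2 : ℝ) / 3)) * D ^ j) →
        (∀ j : ℕ, 2 ≤ j → j ≤ Jof ν → H ^ (1.1 : ℝ) ≤ C ^ j → C ^ j ≤ H ^ (1.8 : ℝ) →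
          ∑ h ∈ s, F h ^ (2 * j) ≤ K * (H * C ^ j) ^ ((2 : ℝ) / 3) * C ^ j * H ^ (-d₂)) →
        ∑ h ∈ s, F h ^ 2 * G h ^ 2 ≤ 3 * K * H ^ (7 / 3 - d₁) := by
  set J₀ : ℕ := ⌈1.15 / ν⌉₊ + 1 with hJ₀def
  have hJ₀ : 1.15 / ν + 1 ≤ J₀ := by
    rw [hJ₀def]; push_cast
    linarith [Nat.le_ceil (1.15 / ν)]
  set J : ℕ := Jof ν with hJdef
  have hJJ : J = max J₀ 20 := rfl
  have hJ20 : 20 ≤ J := by rw [hJJ]; exact le_max_right _ _
  have hJ20' : (20 : ℝ) ≤ J := by exact_mod_cast hJ20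
  have hJpos : (0 : ℝ) < J := by linarith
  set e₀ : ℝ := min (d₂ / (8 * J)) (1 / 20) with he₀def
  have he₀ : 0 < e₀ := lt_min (by positivity) (by norm_num)
  have he₀1 : e₀ ≤ d₂ / (8 * J) := min_le_left _ _
  have he₀2 : e₀ ≤ 1 / 20 := min_le_right _ _
  have hgain : 4 * e₀ ≤ d₂ / J / 2 := by
    have : d₂ / (8 * J) = d₂ / J / 8 := by rw [div_div, mul_comm]
    rw [this] at he₀1; linarith
  refine ⟨d₂ / J / 2, by positivity, e₀, he₀, he₀2, ?_⟩
  intro ι s F G H C D K hF hG hH' hK hC hD hC1 hC2 hCD1 hCD2 hMC hMD hMS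
  rcases hH'.eq_or_lt with hH1 | hH
  · -- the degenerate case `H = 1`
    subst hH1
    simp only [Real.one_rpow] at hC1 hC2 hCD1 hCD2
    have hC' : C = 1 := le_antisymm hC2 hC1
    subst hC'
    have hD' : D = 1 := by rw [one_mul] at hCD1 hCD2; exact le_antisymm hCD2 hCD1
    subst hD'
    have m1 := hMC 2 (by norm_num) (by omega)
    have m2 := hMD 2 (by norm_num) (by omega)
    simp only [Real.one_rpow, one_pow, mul_one] at m1 m2
    norm_num at m1 m2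
    have hb := holder_moments s F G hF hG 4 0 0 0 0 4 (1 / 2) 0 (1 / 2)
      (by norm_num) le_rfl (by norm_num) (by norm_num) (by norm_num) (by norm_num)
    simp only [pow_zero, mul_one, one_mul, Real.rpow_zero] at hb
    refine hb.trans ?_
    have h3K : (0 : ℝ) ≤ 3 * K := by linarith
    have e1 : (∑ h ∈ s, F h ^ 4) ^ ((1 : ℝ) / 2) ≤ (3 * K) ^ ((1 : ℝ) / 2) :=
      Real.rpow_le_rpow (Finset.sum_nonneg (fun h hh => pow_nonneg (hF h hh) _)) (by linarith)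
        (by norm_num)
    have e2 : (∑ h ∈ s, G h ^ 4) ^ ((1 : ℝ) / 2) ≤ (3 * K) ^ ((1 : ℝ) / 2) :=
      Real.rpow_le_rpow (Finset.sum_nonneg (fun h hh => pow_nonneg (hG h hh) _)) (by linarith)
        (by norm_num)
    rw [Real.one_rpow, mul_one]
    calc (∑ h ∈ s, F h ^ 4) ^ ((1 : ℝ) / 2) * (∑ h ∈ s, G h ^ 4) ^ ((1 : ℝ) / 2)
        ≤ (3 * K) ^ ((1 : ℝ) / 2) * (3 * K) ^ ((1 : ℝ) / 2) :=
          mul_le_mul e1 e2 (Real.rpow_nonneg (Finset.sum_nonneg
            (fun h hh => pow_nonneg (hG h hh) _)) _) (Real.rpow_nonneg h3K _)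
      _ = 3 * K := by
          rw [← Real.rpow_add_of_nonneg h3K (by norm_num) (by norm_num)]
          norm_num
  have hH0 : (0 : ℝ) < H := by linarith
  have hL : 0 < Real.log H := Real.log_pos hH
  set k : ℝ := Real.log C / Real.log H with hk
  set t : ℝ := Real.log D / Real.log H with ht
  have hCk : C = H ^ k := by
    rw [hk, Real.rpow_def_of_pos hH0, mul_div_cancel₀ _ hL.ne', Real.exp_log hC]
  have hDt : D = H ^ t := by
    rw [ht, Real.rpow_def_of_pos hH0, mul_div_cancel₀ _ hL.ne', Real.exp_log hD]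
  have hmono : ∀ x y : ℝ, H ^ x ≤ H ^ y → x ≤ y := fun x y h =>
    (Real.rpow_le_rpow_left_iff hH).mp h
  have hk1 : ν ≤ k := hmono _ _ (by rw [← hCk]; exact hC1)
  have hk2 : k ≤ 0.9 := hmono _ _ (by rw [← hCk]; exact hC2)
  have hkt : C * D = H ^ (k + t) := by rw [Real.rpow_add hH0, ← hCk, ← hDt]
  have hkt1 : 1 - e₀ ≤ k + t := hmono _ _ (by rw [← hkt]; exact hCD1)
  have hkt2 : k + t ≤ 1 + e₀ := hmono _ _ (by rw [← hkt]; exact hCD2)
  have hCj : ∀ j : ℕ, C ^ j = H ^ ((j : ℝ) * k) := by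
    intro j
    rw [hCk, ← Real.rpow_natCast, ← Real.rpow_mul hH0.le, mul_comm]
  have hDj : ∀ j : ℕ, D ^ j = H ^ ((j : ℝ) * t) := by
    intro j
    rw [hDt, ← Real.rpow_natCast, ← Real.rpow_mul hH0.le, mul_comm]
  have hFs : ∀ n : ℕ, 0 ≤ ∑ h ∈ s, F h ^ n := fun n =>
    Finset.sum_nonneg (fun h hh => pow_nonneg (hF h hh) _)
  have hGs : ∀ n : ℕ, 0 ≤ ∑ h ∈ s, G h ^ n := fun n =>
    Finset.sum_nonneg (fun h hh => pow_nonneg (hG h hh) _)
  -- critical bounds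
  have critC : ∀ j : ℕ, 1 ≤ j → j ≤ J → 1 / 2 - e₀ ≤ j * k → j * k ≤ 2 + 2 * e₀ →
      ∑ h ∈ s, F h ^ (2 * j) ≤ 3 * K * H ^ (2 / 3 + 5 / 3 * (j * k) + 2 * e₀) :=
    fun j h1 h2 h3 h4 => generic_crit hH hK he₀.le (hCj j) h3 h4 (hMC j h1 h2)
  have critD : ∀ j : ℕ, 1 ≤ j → j ≤ J → 1 / 2 - e₀ ≤ j * t → j * t ≤ 2 + 2 * e₀ →
      ∑ h ∈ s, G h ^ (2 * j) ≤ 3 * K * H ^ (2 / 3 + 5 / 3 * (j * t) + 2 * e₀) :=
    fun j h1 h2 h3 h4 => generic_crit hH hK he₀.le (hDj j) h3 h4 (hMD j h1 h2)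
  have saveC : ∀ j : ℕ, 2 ≤ j → j ≤ J → 1.1 ≤ j * k → j * k ≤ 1.8 →
      ∑ h ∈ s, F h ^ (2 * j) ≤ 3 * K * H ^ (2 / 3 + 5 / 3 * (j * k) - d₂) := by
    intro j h1 h2 h3 h4
    have h5 := hMS j h1 h2 (by rw [hCj]; exact Real.rpow_le_rpow_of_exponent_le hH.le h3)
      (by rw [hCj]; exact Real.rpow_le_rpow_of_exponent_le hH.le h4)
    rw [hCj] at h5
    have h6 : K * (H * H ^ ((j : ℝ) * k)) ^ ((2 : ℝ) / 3) * H ^ ((j : ℝ) * k) * H ^ (-d₂)
        = K * H ^ (2 / 3 + 5 / 3 * (j * k) - d₂) := by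
      have : H * H ^ ((j : ℝ) * k) = H ^ (1 + (j : ℝ) * k) := by
        rw [Real.rpow_add hH0, Real.rpow_one]
      rw [this, ← Real.rpow_mul hH0.le, mul_assoc, mul_assoc, ← Real.rpow_add hH0,
        ← Real.rpow_add hH0]
      congr 2; ring
    rw [h6] at h5
    have h7 : 0 ≤ K * H ^ (2 / 3 + 5 / 3 * (j * k) - d₂) := by positivity
    linarith
  -- final comparison of exponents
  have fin : ∀ E : ℝ, E ≤ 2 / 3 + 5 / 3 * (k + t) + 2 * e₀ - d₂ / J →
      3 * K * H ^ E ≤ 3 * K * H ^ (7 / 3 - d₂ / J / 2) := by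
    intro E hE
    apply mul_le_mul_of_nonneg_left _ (by linarith)
    apply Real.rpow_le_rpow_of_exponent_le hH.le
    linarith
  rcases le_or_gt k (1 / 2) with hkh | hkh
  · -- case A : `k ≤ 1/2`
    have hkpos : 0 < k := by linarith
    set j : ℕ := ⌈1.15 / k⌉₊ with hj
    have hj1 : 1.15 ≤ j * k := by
      have := Nat.le_ceil (1.15 / k)
      rwa [← hj, div_le_iff₀ hkpos] at this
    have hj2 : j * k ≤ 1.15 + k := by
      have := (Nat.ceil_lt_add_one (show 0 ≤ 1.15 / k by positivity)).le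
      rw [← hj] at this
      calc (j : ℝ) * k ≤ (1.15 / k + 1) * k := mul_le_mul_of_nonneg_right this hkpos.le
        _ = 1.15 + k := by field_simp
    have hj3 : 3 ≤ j := by
      by_contra hc
      have h9 : (j : ℝ) ≤ 2 := by exact_mod_cast (show j ≤ 2 by omega)
      have h10 : (j : ℝ) * k ≤ 2 * (1 / 2) := mul_le_mul h9 hkh hkpos.le (by norm_num)
      norm_num at h10 hj1
      linarith
    have hj3' : (3 : ℝ) ≤ j := by exact_mod_cast hj3
    have hjJ : j ≤ J := by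
      have h1 : (j : ℝ) ≤ J₀ := by
        have h2 := (Nat.ceil_lt_add_one (show 0 ≤ 1.15 / k by positivity)).le
        rw [← hj] at h2
        have h3 : 1.15 / k ≤ 1.15 / ν := by
          apply div_le_div_of_nonneg_left (by norm_num) hν hk1
        linarith
      have : j ≤ J₀ := by exact_mod_cast h1
      rw [hJJ]
      exact this.trans (le_max_left _ _)
    have hjpos : (0 : ℝ) < j := by linarith
    have hb := holder_moments s F G hF hG (2 * j) 0 0 0 2 4 (1 / j) ((j - 2) / j) (1 / j)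
      (by positivity) (div_nonneg (by linarith) hjpos.le) (by positivity)
      (by field_simp; ring) (by push_cast; field_simp; ring)
      (by push_cast; field_simp; ring)
    simp only [pow_zero, mul_one, one_mul] at hb
    have hD1 := critD 1 le_rfl (by omega) (by push_cast; linarith) (by push_cast; linarith)
    have hD2 := critD 2 (by norm_num) (by omega) (by push_cast; linarith) (by push_cast; linarith)
    have hC1' := saveC j (by omega) hjJ (by norm_num at hj1 ⊢; linarith)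
      (by norm_num at hj2 ⊢; linarith)
    push_cast at hD1 hD2
    norm_num at hD1 hD2
    refine hb.trans ((three_bound (hFs _) (hGs 2) (hGs 4) (by positivity : 0 ≤ 3 * K) hH0
      (by positivity) (div_nonneg (by linarith) hjpos.le) (by positivity)
      (by field_simp; ring) hC1' hD1 hD2).trans (fin _ ?_))
    have hid : (2 / 3 + 5 / 3 * (j * k) - d₂) * (1 / j) + (2 / 3 + 5 / 3 * t + 2 * e₀) * ((j - 2) / j)
        + (2 / 3 + 5 / 3 * (2 * t) + 2 * e₀) * (1 / j)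
        = 2 / 3 + 5 / 3 * (k + t) + 2 * e₀ * (1 - 1 / j) - d₂ / j := by
      field_simp; ring
    rw [hid]
    have h1 : d₂ / J ≤ d₂ / j :=
      div_le_div_of_nonneg_left hd₂.le hjpos (by exact_mod_cast hjJ)
    have h2 : 2 * e₀ * (1 - 1 / (j : ℝ)) ≤ 2 * e₀ := by
      have h9 : 0 < 1 / (j : ℝ) := by positivity
      calc 2 * e₀ * (1 - 1 / (j : ℝ)) ≤ 2 * e₀ * 1 :=
            mul_le_mul_of_nonneg_left (by linarith) (by linarith)
        _ = 2 * e₀ := mul_one _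
    linarith
  · -- case B : `k > 1/2`
    -- the saved exponent of `C`
    obtain ⟨j, hj2, hj3, hj4, hj5⟩ : ∃ j : ℕ, 2 ≤ j ∧ j ≤ 3 ∧ 1.1 ≤ (j : ℝ) * k ∧
        (j : ℝ) * k ≤ 1.8 := by
      rcases le_or_gt 0.6 k with h | h
      · exact ⟨2, le_rfl, by norm_num, by push_cast; linarith, by push_cast; linarith⟩
      · exact ⟨3, by norm_num, le_rfl, by push_cast; linarith, by push_cast; linarith⟩
    -- the exponent of `D`
    have htpos : 1 / 20 ≤ t := by norm_num at hk2 ⊢; linarith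
    have ht2 : t ≤ 1 / 2 + e₀ := by linarith
    obtain ⟨i, hi2, hi3, hi4, hi5⟩ : ∃ i : ℕ, 2 ≤ i ∧ i ≤ 10 ∧ 1 / 2 ≤ (i : ℝ) * t ∧
        (i : ℝ) * t ≤ 1 + 2 * e₀ := by
      refine ⟨max 2 ⌈1 / (2 * t)⌉₊, le_max_left _ _, ?_, ?_, ?_⟩
      · apply max_le (by norm_num)
        apply Nat.ceil_le.mpr
        rw [div_le_iff₀ (by linarith)]
        push_cast; linarith
      · have h1 := Nat.le_ceil (1 / (2 * t))
        rw [div_le_iff₀ (by linarith)] at h1
        have h2 : ((⌈1 / (2 * t)⌉₊ : ℕ) : ℝ) ≤ ((max 2 ⌈1 / (2 * t)⌉₊ : ℕ) : ℝ) := by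
          exact_mod_cast le_max_right _ _
        have ht0 : 0 ≤ t := by linarith
        have h3 := mul_le_mul_of_nonneg_right h2 ht0
        linarith
      · rcases le_or_gt (⌈1 / (2 * t)⌉₊) 2 with h | h
        · rw [max_eq_left h]; push_cast; linarith
        · rw [max_eq_right h.le]
          have h1 := (Nat.ceil_lt_add_one (show 0 ≤ 1 / (2 * t) by positivity)).le
          have ht0 : 0 < t := by linarith
          calc ((⌈1 / (2 * t)⌉₊ : ℕ) : ℝ) * t ≤ (1 / (2 * t) + 1) * t :=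
                mul_le_mul_of_nonneg_right h1 ht0.le
            _ = 1 / 2 + t := by field_simp
            _ ≤ 1 + 2 * e₀ := by linarith
    have hi2' : (2 : ℝ) ≤ i := by exact_mod_cast hi2
    have hi3' : (i : ℝ) ≤ 10 := by exact_mod_cast hi3
    have hj2' : (2 : ℝ) ≤ j := by exact_mod_cast hj2
    have hj3' : (j : ℝ) ≤ 3 := by exact_mod_cast hj3
    have hipos : (0 : ℝ) < i := by linarith
    have hj1pos : (0 : ℝ) < j - 1 := by linarith
    set a : ℝ := 1 / (i * (j - 1)) with ha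
    have ha0 : 0 < a := by positivity
    have ha1 : a ≤ 1 / i := by
      rw [ha]
      apply div_le_div_of_nonneg_left (by norm_num) hipos
      have h9 : (1 : ℝ) ≤ j - 1 := by linarith
      calc (i : ℝ) = i * 1 := (mul_one _).symm
        _ ≤ i * (j - 1) := mul_le_mul_of_nonneg_left h9 hipos.le
    have hi12 : 1 / (i : ℝ) ≤ 1 / 2 := by
      apply div_le_div_of_nonneg_left (by norm_num) (by norm_num) hi2'
    have hb0 : 0 ≤ 1 - 1 / (i : ℝ) - a := by linarith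
    have ha2 : 1 / 20 ≤ a := by
      rw [ha]
      apply div_le_div_of_nonneg_left (by norm_num) (by positivity)
      have h9 : (j : ℝ) - 1 ≤ 2 := by linarith
      calc (i : ℝ) * (j - 1) ≤ 10 * 2 := mul_le_mul hi3' h9 hj1pos.le (by norm_num)
        _ = 20 := by norm_num
    have hja : (j - 1) * a = 1 / (i : ℝ) := by
      rw [ha]; field_simp
    have hb := holder_moments s F G hF hG (2 * j) 2 0 0 0 (2 * i) a (1 - 1 / i - a) (1 / i)
      ha0.le hb0 (by positivity) (by ring)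
      (by push_cast
          have : (2 * (j : ℝ)) * a + 2 * (1 - 1 / i - a) + 0 * (1 / i)
              = 2 * ((j - 1) * a) + 2 - 2 * (1 / i) := by ring
          rw [this, hja]; ring)
      (by push_cast; field_simp; ring)
    simp only [pow_zero, mul_one, one_mul] at hb
    have hC1' := saveC j hj2 (by omega) hj4 hj5
    have hC2' := critC 1 le_rfl (by omega) (by push_cast; linarith)
      (by push_cast; norm_num at hk2; linarith)
    have hD' := critD i (by omega) (by omega) (by linarith) (by linarith)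
    push_cast at hC2'
    norm_num at hC2'
    refine hb.trans ((three_bound (hFs _) (hFs 2) (hGs _) (by positivity : 0 ≤ 3 * K) hH0
      ha0.le hb0 (by positivity) (by ring) hC1' hC2' hD').trans (fin _ ?_))
    have hid : (2 / 3 + 5 / 3 * (j * k) - d₂) * a + (2 / 3 + 5 / 3 * k + 2 * e₀) * (1 - 1 / i - a)
        + (2 / 3 + 5 / 3 * (i * t) + 2 * e₀) * (1 / i)
        = 2 / 3 + 5 / 3 * k * ((j - 1) * a + 1 - 1 / i) + 5 / 3 * t * (i * (1 / i))
          + 2 * e₀ * (1 - a) - d₂ * a := by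
      ring
    rw [hid, hja, mul_one_div_cancel hipos.ne']
    have h1 : d₂ / J ≤ d₂ * a := by
      calc d₂ / J ≤ d₂ / 20 := div_le_div_of_nonneg_left hd₂.le (by norm_num) hJ20'
        _ = d₂ * (1 / 20) := by ring
        _ ≤ d₂ * a := mul_le_mul_of_nonneg_left ha2 hd₂.le
    have h2 : 2 * e₀ * (1 - a) ≤ 2 * e₀ := by
      calc 2 * e₀ * (1 - a) ≤ 2 * e₀ * 1 :=
            mul_le_mul_of_nonneg_left (by linarith) (by linarith)
        _ = 2 * e₀ := mul_one _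
    have h3 : 5 / 3 * k * (1 / (i : ℝ) + 1 - 1 / i) = 5 / 3 * k := by ring
    rw [h3]
    linarith

end Crest.Agent.R012.CRmom569
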