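import Crest.Agent.R012.CR3a_436
import Crest.Agent.R012.CRmom_569

/-!
# Row 12, (CRC), part b: sums over admissible tuples `(i, j, k₁, k₂)`
-/

set_option autoImplicit false

noncomputable section

open Finset

namespace Crest.Agent.R012.CR3436

open Eis Div277 CR290

/-- squarefree primary elements of norm `≤ X`. -/
abbrev SFp (X : ℝ) : Finset Eis := LS2.S X

lemma mem_SFp {X : ℝ} {n : Eis} : n ∈ SFp X ↔ (nm n : ℝ) ≤ X ∧ IsPrim n ∧ Squarefree n := by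
  rcases le_or_gt 0 X with hX | hX
  · exact LS2.mem_S hX
  · constructor
    · intro h
      exfalso
      classical
      unfold SFp LS2.S at h
      rw [mem_filter, mem_primBall] at h
      have h1 : ⌊X⌋₊ = 0 := Nat.floor_eq_zero.mpr (by linarith)
      rw [h1] at h
      exact h.1.2.ne_zero (nm_eq_zero.mp (Nat.le_zero.mp h.1.1))
    · rintro ⟨h, _⟩
      exfalso
      have : (0 : ℝ) ≤ nm n := by positivity
      linarith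

lemma isSF_SFp (X : ℝ) : IsSF (SFp X) X := fun h hh => by
  rw [mem_SFp] at hh
  exact ⟨hh.2.1, hh.2.2, hh.1⟩

lemma SFp_eq_empty {X : ℝ} (hX : X < 1) : SFp X = ∅ := by
  apply eq_empty_of_forall_notMem
  intro n hn
  rw [mem_SFp] at hn
  have h1 : (1 : ℝ) ≤ nm n := by
    have := nm_pos.mpr hn.2.1.ne_zero
    exact_mod_cast this
  linarith

lemma nm_lm : nm lm = 3 := by decide

lemma nm_w' : nm w = 1 := by decide

lemma nm_num (x : Tup) : nm (num x) = 3 ^ x.1.2 * nm x.2.1 * nm x.2.2 ^ 2 := by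
  unfold num
  rw [nm_mul, nm_mul, nm_mul, nm_pow, nm_pow, nm_pow, nm_lm, nm_w', one_pow, one_mul]

lemma nm_kk_le {x : Tup} {X : ℝ} (h : (nm (num x) : ℝ) ≤ X) :
    (nm x.2.1 : ℝ) * (nm x.2.2 : ℝ) ^ 2 ≤ X := by
  refine le_trans ?_ h
  rw [nm_num]
  push_cast
  have h3 : (1 : ℝ) ≤ 3 ^ x.1.2 := one_le_pow₀ (by norm_num)
  have h4 : (0 : ℝ) ≤ (nm x.2.1 : ℝ) * (nm x.2.2 : ℝ) ^ 2 := by positivity
  nlinarith

/-- index set of the `(i, j)`. -/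
def ij : Finset (ℕ × ℕ) := range 3 ×ˢ range 3

lemma card_ij : #ij = 9 := by simp [ij]

/-- a nonnegative sum over admissible tuples is bounded by the iterated sum. -/
lemma sum_tup_le {S : Finset Tup} {X : ℝ} (hS : IsTS S X) (KK : Finset Eis)
    (hKK : ∀ x ∈ S, x.2.2 ∈ KK) (G : Tup → ℝ) (hG : ∀ x, 0 ≤ G x) :
    ∑ x ∈ S, G x ≤ ∑ a ∈ ij, ∑ k ∈ KK, ∑ h ∈ (SFp (X / (nm k : ℝ) ^ 2)), G (a, (h, k)) := by
  classical
  have hmaps : ∀ x ∈ S, (x.1, x.2.2) ∈ ij ×ˢ KK := fun x hx => by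
    obtain ⟨⟨h1, h2, h3, h4, h5, h6, h7⟩, h8⟩ := hS x hx
    rw [mem_product]
    exact ⟨by simp [ij, h1, h2], hKK x hx⟩
  rw [← sum_product' (f := fun a k => ∑ h ∈ (SFp (X / (nm k : ℝ) ^ 2)), G (a, (h, k))),
    ← sum_fiberwise_of_maps_to hmaps]
  refine sum_le_sum fun y _ => ?_
  obtain ⟨a, k⟩ := y
  calc ∑ x ∈ S with (x.1, x.2.2) = (a, k), G x
      = ∑ x ∈ S with (x.1, x.2.2) = (a, k), G (a, (x.2.1, k)) := by
        refine sum_congr rfl fun x hx => ?_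
        simp only [mem_filter, Prod.mk.injEq] at hx
        rw [← hx.2.1, ← hx.2.2]
    _ = ∑ h ∈ (S.filter (fun x => (x.1, x.2.2) = (a, k))).image (fun x : Tup => x.2.1),
          G (a, (h, k)) := by
        rw [sum_image]
        intro x hx x' hx' hxx
        simp only [coe_filter, Prod.mk.injEq, Set.mem_ofPred_eq] at hx hx'
        exact Prod.ext (hx.2.1.trans hx'.2.1.symm)
          (Prod.ext hxx (hx.2.2.trans hx'.2.2.symm))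
    _ ≤ ∑ h ∈ (SFp (X / (nm k : ℝ) ^ 2)), G (a, (h, k)) := by
        refine sum_le_sum_of_subset_of_nonneg ?_ fun _ _ _ => hG _
        intro h hh
        rw [mem_image] at hh
        obtain ⟨x, hx, rfl⟩ := hh
        simp only [mem_filter, Prod.mk.injEq] at hx
        obtain ⟨⟨h1, h2, h3, h4, h5, h6, h7⟩, h8⟩ := hS x hx.1
        rw [mem_SFp]
        refine ⟨?_, h3, h5⟩
        have hk : (0 : ℝ) < nm k := by
          rw [← hx.2.2]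
          exact_mod_cast nm_pos.mpr h4.ne_zero
        rw [le_div_iff₀ (by positivity), ← hx.2.2]
        exact nm_kk_le h8

lemma one_le_nm_of_prim {k : Eis} (h : IsPrim k) : (1 : ℝ) ≤ nm k := by
  have := nm_pos.mpr h.ne_zero
  exact_mod_cast this

lemma card_SFp_le {L : ℝ} (hL : 0 ≤ L) : (#(SFp L) : ℝ) ≤ 100 * L :=
  card_le_of_isPB (fun n hn => by rw [mem_SFp] at hn; exact ⟨hn.2.1, hn.1⟩) hL

/-- `∑_{k ∈ SFp L} 1/N(k) ≤ K L^ε`. -/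
lemma sum_inv_SFp_le {ε : ℝ} (hε : 0 < ε) : ∃ K : ℝ, 1 ≤ K ∧ ∀ L : ℝ, 1 ≤ L →
    ∑ k ∈ SFp L, 1 / (nm k : ℝ) ≤ K * L ^ ε := by
  refine ⟨100 * (1 + 1 / ε), ?_, fun L hL => ?_⟩
  · have : 0 < 1 / ε := by positivity
    nlinarith
  have h1 : SFp L ⊆ primBall ⌊L⌋₊ := fun n hn => by
    rw [mem_SFp] at hn
    rw [mem_primBall]
    exact ⟨Nat.le_floor hn.1, hn.2.1⟩
  have hfl : (1 : ℝ) ≤ ⌊L⌋₊ := by
    have : 1 ≤ ⌊L⌋₊ := Nat.le_floor (by simpa using hL)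
    exact_mod_cast this
  calc ∑ k ∈ SFp L, 1 / (nm k : ℝ) ≤ ∑ k ∈ primBall ⌊L⌋₊, 1 / (nm k : ℝ) :=
        sum_le_sum_of_subset_of_nonneg h1 fun _ _ _ => by positivity
    _ ≤ 100 * (1 + Real.log ⌊L⌋₊) := sum_inv_primBall_le _
    _ ≤ 100 * (1 + Real.log L) := by
        have := Real.log_le_log (by linarith) (Nat.floor_le (by linarith : (0 : ℝ) ≤ L))
        linarith
    _ ≤ 100 * (1 + 1 / ε) * L ^ ε := by
        have h2 : Real.log L ≤ L ^ ε / ε := Real.log_le_rpow_div (by linarith) hε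
        have h3 : (1 : ℝ) ≤ L ^ ε := Real.one_le_rpow hL hε.le
        have h4 : L ^ ε / ε = 1 / ε * L ^ ε := by ring
        nlinarith

/-- the sum over `k₂ ∈ KK` of a Heath-Brown type bound. -/
lemma sum_hb_le {KK : Finset Eis} {L₀ L X Z W Λ : ℝ} (hL₀ : 1 ≤ L₀) (hX : 0 ≤ X)
    (hZ : 0 ≤ Z) (hW : 0 ≤ W) (hL : 0 ≤ L)
    (hKK : ∀ k ∈ KK, IsPrim k ∧ Squarefree k ∧ L₀ ≤ (nm k : ℝ) ∧ (nm k : ℝ) ≤ L)
    (hΛ : ∑ k ∈ SFp L, 1 / (nm k : ℝ) ≤ Λ) :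
    ∑ k ∈ KK, W * (X / (nm k : ℝ) ^ 2 + Z + (X / (nm k : ℝ) ^ 2 * Z) ^ (2 / 3 : ℝ)) ≤
      W * (X * L₀⁻¹ * Λ + 100 * L * Z + (X * Z) ^ (2 / 3 : ℝ) * L₀ ^ (-(1 / 3) : ℝ) * Λ) := by
  have hsub : KK ⊆ SFp L := fun k hk => mem_SFp.mpr ⟨(hKK k hk).2.2.2, (hKK k hk).1, (hKK k hk).2.1⟩
  have hΛ' : ∑ k ∈ KK, 1 / (nm k : ℝ) ≤ Λ :=
    (sum_le_sum_of_subset_of_nonneg hsub fun _ _ _ => by positivity).trans hΛ
  have hcard : (#KK : ℝ) ≤ 100 * L :=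
    (Nat.cast_le.mpr (card_le_card hsub)).trans (card_SFp_le hL)
  have key : ∀ k ∈ KK, X / (nm k : ℝ) ^ 2 + Z + (X / (nm k : ℝ) ^ 2 * Z) ^ (2 / 3 : ℝ) ≤
      X * L₀⁻¹ * (1 / (nm k : ℝ)) + Z +
        (X * Z) ^ (2 / 3 : ℝ) * L₀ ^ (-(1 / 3) : ℝ) * (1 / (nm k : ℝ)) := by
    intro k hk
    obtain ⟨h1, h2, h3, h4⟩ := hKK k hk
    have hk1 := one_le_nm_of_prim h1
    have hk0 : (0 : ℝ) < nm k := by linarith
    have e1 : X / (nm k : ℝ) ^ 2 ≤ X * L₀⁻¹ * (1 / (nm k : ℝ)) := by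
      have : X / (nm k : ℝ) ^ 2 = X * (nm k : ℝ)⁻¹ * (1 / (nm k : ℝ)) := by
        field_simp
      rw [this]
      gcongr
    have e2 : (X / (nm k : ℝ) ^ 2 * Z) ^ (2 / 3 : ℝ) ≤
        (X * Z) ^ (2 / 3 : ℝ) * L₀ ^ (-(1 / 3) : ℝ) * (1 / (nm k : ℝ)) := by
      have e3 : X / (nm k : ℝ) ^ 2 * Z = (X * Z) * ((nm k : ℝ) ^ (2 : ℝ))⁻¹ := by
        rw [Real.rpow_two]; field_simp
      rw [e3, Real.mul_rpow (by positivity) (by positivity), ← Real.rpow_neg (by positivity),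
        ← Real.rpow_mul (by positivity), mul_assoc]
      apply mul_le_mul_of_nonneg_left _ (by positivity)
      have e4 : (nm k : ℝ) ^ (-2 * (2 / 3) : ℝ) = (nm k : ℝ) ^ (-(1 / 3) : ℝ) * (1 / (nm k : ℝ)) := by
        have e5 : 1 / (nm k : ℝ) = (nm k : ℝ) ^ (-1 : ℝ) := by rw [Real.rpow_neg_one, one_div]
        rw [e5, ← Real.rpow_add hk0]
        congr 1; norm_num
      rw [e4]
      apply mul_le_mul_of_nonneg_right _ (by positivity)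
      exact Real.rpow_le_rpow_of_nonpos (by linarith) h3 (by norm_num)
    linarith
  calc ∑ k ∈ KK, W * (X / (nm k : ℝ) ^ 2 + Z + (X / (nm k : ℝ) ^ 2 * Z) ^ (2 / 3 : ℝ))
      ≤ ∑ k ∈ KK, W * (X * L₀⁻¹ * (1 / (nm k : ℝ)) + Z +
        (X * Z) ^ (2 / 3 : ℝ) * L₀ ^ (-(1 / 3) : ℝ) * (1 / (nm k : ℝ))) :=
        sum_le_sum fun k hk => mul_le_mul_of_nonneg_left (key k hk) hW
    _ = W * (X * L₀⁻¹ * (∑ k ∈ KK, 1 / (nm k : ℝ)) + #KK * Z +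
        (X * Z) ^ (2 / 3 : ℝ) * L₀ ^ (-(1 / 3) : ℝ) * (∑ k ∈ KK, 1 / (nm k : ℝ))) := by
        rw [← mul_sum, sum_add_distrib, sum_add_distrib, ← mul_sum, ← mul_sum, sum_const,
          nsmul_eq_mul]
    _ ≤ _ := by
        gcongr

/-- abstract form of the reduction to fixed `(i, j, k₂)`. -/
lemma part_abs {S : Finset Tup} {X L₀ L Z W Λ : ℝ} (hS : IsTS S X) (hL₀ : 1 ≤ L₀) (hX : 0 ≤ X)
    (hZ : 0 ≤ Z) (hW : 0 ≤ W) (hL : 0 ≤ L)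
    (hk : ∀ x ∈ S, L₀ ≤ (nm x.2.2 : ℝ) ∧ (nm x.2.2 : ℝ) ≤ L)
    (hΛ : ∑ k ∈ SFp L, 1 / (nm k : ℝ) ≤ Λ) (G : Tup → ℝ) (hG : ∀ x, 0 ≤ G x)
    (hb : ∀ a ∈ ij, ∀ k : Eis, IsPrim k → Squarefree k → L₀ ≤ (nm k : ℝ) → (nm k : ℝ) ≤ L →
      1 ≤ X / (nm k : ℝ) ^ 2 → ∑ h ∈ SFp (X / (nm k : ℝ) ^ 2), G (a, (h, k)) ≤
        W * (X / (nm k : ℝ) ^ 2 + Z + (X / (nm k : ℝ) ^ 2 * Z) ^ (2 / 3 : ℝ))) :
    ∑ x ∈ S, G x ≤
      9 * (W * (X * L₀⁻¹ * Λ + 100 * L * Z + (X * Z) ^ (2 / 3 : ℝ) * L₀ ^ (-(1 / 3) : ℝ) * Λ)) := by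
  classical
  set KK : Finset Eis := S.image (fun x => x.2.2) with hKK
  have h1 := sum_tup_le hS KK (fun x hx => mem_image_of_mem _ hx) G hG
  have hKK' : ∀ k ∈ KK, IsPrim k ∧ Squarefree k ∧ L₀ ≤ (nm k : ℝ) ∧ (nm k : ℝ) ≤ L := by
    intro k hk'
    obtain ⟨x, hx, rfl⟩ := mem_image.mp hk'
    obtain ⟨⟨_, _, _, h4, _, h6, _⟩, _⟩ := hS x hx
    exact ⟨h4, h6, (hk x hx).1, (hk x hx).2⟩
  have h2 := sum_hb_le (Z := Z) hL₀ hX hZ hW hL hKK' hΛ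
  refine h1.trans ?_
  calc ∑ a ∈ ij, ∑ k ∈ KK, ∑ h ∈ (SFp (X / (nm k : ℝ) ^ 2)), G (a, (h, k))
      ≤ ∑ a ∈ ij, ∑ k ∈ KK,
          W * (X / (nm k : ℝ) ^ 2 + Z + (X / (nm k : ℝ) ^ 2 * Z) ^ (2 / 3 : ℝ)) := by
        refine sum_le_sum fun a ha => sum_le_sum fun k hk' => ?_
        obtain ⟨g1, g2, g3, g4⟩ := hKK' k hk'
        by_cases hM : 1 ≤ X / (nm k : ℝ) ^ 2
        · exact hb a ha k g1 g2 g3 g4 hM
        · rw [SFp_eq_empty (not_le.mp hM), sum_empty]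
          positivity
    _ = 9 * ∑ k ∈ KK,
          W * (X / (nm k : ℝ) ^ 2 + Z + (X / (nm k : ℝ) ^ 2 * Z) ^ (2 / 3 : ℝ)) := by
        rw [sum_const, card_ij, nsmul_eq_mul]; norm_num
    _ ≤ _ := mul_le_mul_of_nonneg_left h2 (by norm_num)

/-- the fixed factor of the numerator. -/
def uu (a : ℕ × ℕ) (k : Eis) : Eis := w ^ a.1 * lm ^ a.2 * k ^ 2

lemma num_eq (a : ℕ × ℕ) (h k : Eis) : num (a, (h, k)) = uu a k * h := by
  unfold num uu; ring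

/-- Heath-Brown type bound for `k₂` in a range, bounded coefficients. -/
lemma part_gls (hG : GLS) (k : ℕ) {ε : ℝ} (hε : 0 < ε) : ∃ K : ℝ, 0 < K ∧
    ∀ (X Z A L₀ L : ℝ), 1 ≤ X → 1 ≤ Z → 1 ≤ L₀ → 1 ≤ L → ∀ S : Finset Tup, IsTS S X →
    (∀ x ∈ S, L₀ ≤ (nm x.2.2 : ℝ) ∧ (nm x.2.2 : ℝ) ≤ L) → ∀ f : Eis → ℂ, Ex Z A k f →
      ∑ x ∈ S, ‖f (num x)‖ ^ 2 ≤
        K * (X * Z) ^ ε * L ^ ε * (X * L₀⁻¹ + L * Z + (X * Z) ^ (2 / 3 : ℝ) * L₀ ^ (-(1 / 3) : ℝ)) * Z := by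
  obtain ⟨K1, hK1, h1⟩ := gls_ex hG k hε
  obtain ⟨K2, hK2, h2⟩ := sum_inv_SFp_le hε
  refine ⟨9 * K1 * (100 * K2), by positivity, fun X Z A L₀ L hX hZ hL₀ hL S hS hk f hf => ?_⟩
  have h3 := part_abs (W := K1 * (X * Z) ^ ε * Z) (Z := Z) hS hL₀ (by linarith) (by linarith)
    (by positivity) (by linarith) hk (h2 L hL) (fun x => ‖f (num x)‖ ^ 2) (fun _ => by positivity)
    (by
      intro a _ k' hk1 _ _ _ hM
      have hk1' := one_le_nm_of_prim hk1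
      have h4 := h1 (X / (nm k' : ℝ) ^ 2) Z A hM hZ (SFp (X / (nm k' : ℝ) ^ 2)) (isSF_SFp _)
        (fun x => f (uu a k' * x)) (hf.twist _)
      simp only [num_eq]
      refine h4.trans ?_
      have h5 : (X / (nm k' : ℝ) ^ 2 * Z) ^ ε ≤ (X * Z) ^ ε := by
        apply Real.rpow_le_rpow (by positivity) _ hε.le
        apply mul_le_mul_of_nonneg_right _ (by linarith)
        exact div_le_self (by linarith) (one_le_pow₀ hk1')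
      calc K1 * (X / (nm k' : ℝ) ^ 2 * Z) ^ ε * (X / (nm k' : ℝ) ^ 2 + Z +
            (X / (nm k' : ℝ) ^ 2 * Z) ^ (2 / 3 : ℝ)) * Z
          ≤ K1 * (X * Z) ^ ε * (X / (nm k' : ℝ) ^ 2 + Z +
            (X / (nm k' : ℝ) ^ 2 * Z) ^ (2 / 3 : ℝ)) * Z := by gcongr
        _ = _ := by ring)
  refine h3.trans ?_
  have hLε : (1 : ℝ) ≤ L ^ ε := Real.one_le_rpow hL hε.le
  have hΛ1 : K2 * L ^ ε ≤ 100 * K2 * L ^ ε := by nlinarith [mul_pos (by linarith : 0 < K2) (by linarith : 0 < L ^ ε)]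
  have hΛ2 : 100 * (L * Z) ≤ 100 * K2 * L ^ ε * (L * Z) := by
    have : 1 ≤ K2 * L ^ ε := by nlinarith
    nlinarith [mul_pos (by linarith : 0 < L) (by linarith : 0 < Z)]
  calc 9 * (K1 * (X * Z) ^ ε * Z * (X * L₀⁻¹ * (K2 * L ^ ε) + 100 * L * Z +
        (X * Z) ^ (2 / 3 : ℝ) * L₀ ^ (-(1 / 3) : ℝ) * (K2 * L ^ ε)))
      ≤ 9 * (K1 * (X * Z) ^ ε * Z * (X * L₀⁻¹ * (100 * K2 * L ^ ε) + 100 * K2 * L ^ ε * (L * Z) +
        (X * Z) ^ (2 / 3 : ℝ) * L₀ ^ (-(1 / 3) : ℝ) * (100 * K2 * L ^ ε))) := by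
        have e : 100 * L * Z = 100 * (L * Z) := by ring
        rw [e]
        gcongr
    _ = _ := by ring

/-- Heath-Brown bound for `k₂` in a range, `ℓ²` version. -/
lemma part_hbls (hH : HBLS) {ε : ℝ} (hε : 0 < ε) : ∃ K : ℝ, 0 < K ∧
    ∀ (X Z L₀ L : ℝ), 1 ≤ X → 1 ≤ Z → 1 ≤ L₀ → 1 ≤ L → ∀ S : Finset Tup, IsTS S X →
    (∀ x ∈ S, L₀ ≤ (nm x.2.2 : ℝ) ∧ (nm x.2.2 : ℝ) ≤ L) → ∀ (T : Finset Eis) (c : Eis → ℂ),
      IsSF T Z →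
      ∑ x ∈ S, ‖F T c (num x)‖ ^ 2 ≤
        K * (X * Z) ^ ε * L ^ ε * (X * L₀⁻¹ + L * Z + (X * Z) ^ (2 / 3 : ℝ) * L₀ ^ (-(1 / 3) : ℝ)) *
          ∑ n ∈ T, ‖c n‖ ^ 2 := by
  obtain ⟨K1, hK1, h1⟩ := hH ε hε
  obtain ⟨K2, hK2, h2⟩ := sum_inv_SFp_le hε
  refine ⟨9 * K1 * (100 * K2), by positivity, fun X Z L₀ L hX hZ hL₀ hL S hS hk T c hT => ?_⟩
  set V : ℝ := ∑ n ∈ T, ‖c n‖ ^ 2 with hV
  have hV0 : 0 ≤ V := sum_nonneg fun _ _ => by positivity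
  have h3 := part_abs (W := K1 * (X * Z) ^ ε * V) (Z := Z) hS hL₀ (by linarith) (by linarith)
    (by positivity) (by linarith) hk (h2 L hL) (fun x => ‖F T c (num x)‖ ^ 2)
    (fun _ => by positivity)
    (by
      intro a _ k' hk1 _ _ _ hM
      have hk1' := one_le_nm_of_prim hk1
      have h4 := h1 (X / (nm k' : ℝ) ^ 2) Z hM hZ (SFp (X / (nm k' : ℝ) ^ 2)) T (isSF_SFp _) hT
        (fun n => c n * sy (uu a k') n)
      have h6 : ∑ n ∈ T, ‖c n * sy (uu a k') n‖ ^ 2 ≤ V := by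
        refine sum_le_sum fun n hn => ?_
        rw [norm_mul]
        apply pow_le_pow_left₀ (by positivity)
        exact mul_le_of_le_one_right (norm_nonneg _)
          (Sym645.norm_sy_le_one (prim_mod (hT n hn).1) _)
      have h7 : ∀ h, F T c (uu a k' * h) = F T (fun n => c n * sy (uu a k') n) h := fun h => by
        unfold F
        refine sum_congr rfl fun n hn => ?_
        rw [Sym645.sy_mul_left (prim_mod (hT n hn).1)]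
        ring
      simp only [num_eq, h7]
      refine h4.trans ?_
      have h5 : (X / (nm k' : ℝ) ^ 2 * Z) ^ ε ≤ (X * Z) ^ ε := by
        apply Real.rpow_le_rpow (by positivity) _ hε.le
        apply mul_le_mul_of_nonneg_right _ (by linarith)
        exact div_le_self (by linarith) (one_le_pow₀ hk1')
      calc K1 * (X / (nm k' : ℝ) ^ 2 * Z) ^ ε * (X / (nm k' : ℝ) ^ 2 + Z +
            (X / (nm k' : ℝ) ^ 2 * Z) ^ (2 / 3 : ℝ)) * ∑ n ∈ T, ‖c n * sy (uu a k') n‖ ^ 2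
          ≤ K1 * (X * Z) ^ ε * (X / (nm k' : ℝ) ^ 2 + Z +
            (X / (nm k' : ℝ) ^ 2 * Z) ^ (2 / 3 : ℝ)) * V := by gcongr
        _ = _ := by ring)
  refine h3.trans ?_
  have hLε : (1 : ℝ) ≤ L ^ ε := Real.one_le_rpow hL hε.le
  have hΛ1 : K2 * L ^ ε ≤ 100 * K2 * L ^ ε := by nlinarith [mul_pos (by linarith : 0 < K2) (by linarith : 0 < L ^ ε)]
  have hΛ2 : 100 * (L * Z) ≤ 100 * K2 * L ^ ε * (L * Z) := by
    have : 1 ≤ K2 * L ^ ε := by nlinarith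
    nlinarith [mul_pos (by linarith : 0 < L) (by linarith : 0 < Z)]
  calc 9 * (K1 * (X * Z) ^ ε * V * (X * L₀⁻¹ * (K2 * L ^ ε) + 100 * L * Z +
        (X * Z) ^ (2 / 3 : ℝ) * L₀ ^ (-(1 / 3) : ℝ) * (K2 * L ^ ε)))
      ≤ 9 * (K1 * (X * Z) ^ ε * V * (X * L₀⁻¹ * (100 * K2 * L ^ ε) + 100 * K2 * L ^ ε * (L * Z) +
        (X * Z) ^ (2 / 3 : ℝ) * L₀ ^ (-(1 / 3) : ℝ) * (100 * K2 * L ^ ε))) := by
        have e : 100 * L * Z = 100 * (L * Z) := by ring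
        rw [e]
        gcongr
    _ = _ := by ring

end Crest.Agent.R012.CR3436
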