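import Crest.Agent.R012.CRmom_569
import Crest.Agent.R012.Spec_CR_290

/-!
# Row 12, item CRH: `Mom → SavedMom → Core`  (helper569)
-/

set_option autoImplicit false

noncomputable section

open Finset

namespace Crest.Agent.R012.CRH569

open Crest.Agent.R012 Crest.Agent.R012.Eis CR290 CRmom569

/-- the saved moments, uniformly in `2 ≤ j ≤ J`. -/
lemma unif_saved (hS : SavedMom) (J : ℕ) : ∃ d K : ℝ, 0 < d ∧ 0 < K ∧
    ∀ j : ℕ, 2 ≤ j → j ≤ J →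
    ∀ H C : ℝ, 1 ≤ H → 1 ≤ C → H ^ (1.1 : ℝ) ≤ C ^ j → C ^ j ≤ H ^ (1.8 : ℝ) →
    ∀ S P : Finset Eis, IsSF S H → IsPP P C → ∀ γ : Eis → ℂ, (∀ p ∈ P, ‖γ p‖ ≤ 1) →
    ∑ h ∈ S, ‖F P γ h‖ ^ (2 * j) ≤ K * (H * C ^ j) ^ ((2 : ℝ) / 3) * C ^ j * H ^ (-d) := by
  induction J with
  | zero => exact ⟨1, 1, one_pos, one_pos, fun j h1 h2 => by omega⟩
  | succ J ih =>
    obtain ⟨d, K, hd, hK, hb⟩ := ih
    rcases lt_or_ge (J + 1) 2 with hJ | hJ
    · exact ⟨1, 1, one_pos, one_pos, fun j h1 h2 => by omega⟩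
    obtain ⟨d', K', hd', hK', hb'⟩ := hS (J + 1) hJ
    refine ⟨min d d', max K K', lt_min hd hd', lt_max_of_lt_left hK, ?_⟩
    intro j h1 h2 H C hH hC hr1 hr2 S P hSF hPP γ hγ
    have hH0 : (0 : ℝ) < H := by linarith
    have hC0 : (0 : ℝ) < C := by linarith
    have hq : 0 ≤ (H * C ^ j) ^ ((2 : ℝ) / 3) * C ^ j := by positivity
    rcases Nat.lt_or_ge j (J + 1) with hj | hj
    · refine (hb j h1 (by omega) H C hH hC hr1 hr2 S P hSF hPP γ hγ).trans ?_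
      have e1 : H ^ (-d) ≤ H ^ (-(min d d')) :=
        Real.rpow_le_rpow_of_exponent_le hH (neg_le_neg (min_le_left _ _))
      have e2 : K ≤ max K K' := le_max_left _ _
      gcongr
    · obtain rfl : j = J + 1 := by omega
      refine (hb' H C hH hC hr1 hr2 S P hSF hPP γ hγ).trans ?_
      have e1 : H ^ (-d') ≤ H ^ (-(min d d')) :=
        Real.rpow_le_rpow_of_exponent_le hH (neg_le_neg (min_le_right _ _))
      have e2 : K' ≤ max K K' := le_max_right _ _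
      calc K' * H ^ (-d') * (H * C ^ (J + 1)) ^ ((2 : ℝ) / 3) * C ^ (J + 1)
          = K' * ((H * C ^ (J + 1)) ^ ((2 : ℝ) / 3) * C ^ (J + 1)) * H ^ (-d') := by ring
        _ ≤ max K K' * ((H * C ^ (J + 1)) ^ ((2 : ℝ) / 3) * C ^ (J + 1))
              * H ^ (-(min d d')) := by gcongr
        _ = _ := by ring

/-- the moments, uniformly in `1 ≤ j ≤ J`. -/
lemma unif_mom (hM : Mom) (ε : ℝ) (hε : 0 < ε) (J : ℕ) : ∃ K : ℝ, 0 < K ∧
    ∀ j : ℕ, 1 ≤ j → j ≤ J →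
    ∀ M C : ℝ, 1 ≤ M → 1 ≤ C → ∀ S T : Finset Eis, IsSF S M → IsPB T C →
    ∀ γ : Eis → ℂ, (∀ c ∈ T, ‖γ c‖ ≤ 1) →
      ∑ h ∈ S, ‖F T γ h‖ ^ (2 * j)
        ≤ K * (M * C) ^ ε * (M + C ^ j + (M * C ^ j) ^ ((2 : ℝ) / 3)) * C ^ j := by
  induction J with
  | zero => exact ⟨1, one_pos, fun j h1 h2 => by omega⟩
  | succ J ih =>
    obtain ⟨K, hK, hb⟩ := ih
    obtain ⟨K', hK', hb'⟩ := hM (J + 1) (by omega) ε hε
    refine ⟨max K K', lt_max_of_lt_left hK, ?_⟩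
    intro j h1 h2 M C hM1 hC S T hSF hPB γ hγ
    have hM0 : (0 : ℝ) < M := by linarith
    have hC0 : (0 : ℝ) < C := by linarith
    rcases Nat.lt_or_ge j (J + 1) with hj | hj
    · refine (hb j h1 (by omega) M C hM1 hC S T hSF hPB γ hγ).trans ?_
      have e2 : K ≤ max K K' := le_max_left _ _
      gcongr
    · obtain rfl : j = J + 1 := by omega
      refine (hb' M C hM1 hC S T hSF hPB γ hγ).trans ?_
      have e2 : K' ≤ max K K' := le_max_right _ _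
      gcongr

/-- `Core` with the larger range `C ≤ H^0.9`. -/
def Core9 : Prop := ∀ ν : ℝ, 0 < ν → ∃ δ e₀ K : ℝ, 0 < δ ∧ 0 < e₀ ∧ 0 < K ∧
  ∀ H C D : ℝ, 1 ≤ H → H ^ ν ≤ C → C ≤ H ^ (0.9 : ℝ) → 1 ≤ D → C * D ≤ H ^ (1 + e₀) →
  ∀ S P T : Finset Eis, IsSF S H → IsPP P C → IsPB T D →
  ∀ γ ξ : Eis → ℂ, (∀ p ∈ P, ‖γ p‖ ≤ 1) → (∀ d ∈ T, ‖ξ d‖ ≤ 1) →
    ∑ h ∈ S, ‖F P γ h‖ ^ 2 * ‖F T ξ h‖ ^ 2 ≤ K * H ^ (7 / 3 - δ)

/-- `Core9` implies `Core`. -/
theorem core_of_core9 (h : Core9) : Core := by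
  intro ν hν
  obtain ⟨δ, e₀, K, h1, h2, h3, h4⟩ := h ν hν
  refine ⟨δ, e₀, K, h1, h2, h3, fun H C D hH hC hC8 => h4 H C D hH hC (hC8.trans ?_)⟩
  exact Real.rpow_le_rpow_of_exponent_le hH (by norm_num)

set_option maxHeartbeats 1000000 in
/-- **CRH**, range `H^ν ≤ C ≤ H^0.9`. -/
theorem crh9 (hM : Mom) (hS : SavedMom) : Core9 := by
  intro ν hν
  obtain ⟨d, K₂, hd, hK₂, hsav⟩ := unif_saved hS (Jof ν)
  obtain ⟨d₁, hd₁, e₀, he₀, he₀', hcore⟩ := core_holder ν hν d hd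
  set ε : ℝ := e₀ / 3 with hεdef
  have hε : 0 < ε := by positivity
  have hε1 : ε ≤ 1 := by rw [hεdef]; linarith
  obtain ⟨K₁, hK₁, hmom⟩ := unif_mom hM ε hε (Jof ν)
  set J : ℕ := Jof ν with hJ
  set K : ℝ := max (2 * 4 ^ J * K₁) K₂ with hKdef
  have hK : 0 < K := lt_max_of_lt_right hK₂
  refine ⟨d₁, e₀, 3 * K, hd₁, he₀, by positivity, ?_⟩
  intro H C D hH hC hC8 hD1 hCD S P T hSF hPP hPB γ ξ hγ hξ
  have hH0 : (0 : ℝ) < H := by linarith
  have hC1 : 1 ≤ C := le_trans (Real.one_le_rpow hH hν.le) hC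
  have hC0 : (0 : ℝ) < C := by linarith
  have hD0 : (0 : ℝ) < D := by linarith
  -- `C ≤ H^0.9`
  have hCle : C ≤ H ^ (0.9 : ℝ) := hC8
  -- enlarge `D`
  set D' : ℝ := H ^ (1 + e₀) / C with hD'
  have hDD' : D ≤ D' := by rw [hD', le_div_iff₀ hC0]; linarith
  have hD'1 : 1 ≤ D' := hD1.trans hDD'
  have hD'0 : 0 < D' := by linarith
  have hCD' : C * D' = H ^ (1 + e₀) := by rw [hD']; field_simp
  have hD'le : D' ≤ H ^ (1 + e₀) := by
    rw [hD']; exact div_le_self (Real.rpow_nonneg hH0.le _) hC1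
  have hPB' : IsPB T D' := fun n hn => ⟨(hPB n hn).1, (hPB n hn).2.trans hDD'⟩
  have hPBP : IsPB P (2 * C) := fun p hp => ⟨(hPP p hp).1, (hPP p hp).2.2.2⟩
  have hJ1 : ∀ j : ℕ, j ≤ J → (4 : ℝ) ^ j ≤ 4 ^ J := fun j hj =>
    pow_le_pow_right₀ (by norm_num) hj
  -- final application
  refine (hcore S (fun h => ‖F P γ h‖) (fun h => ‖F T ξ h‖) H C D' K
    (fun h _ => norm_nonneg _) (fun h _ => norm_nonneg _) hH hK.le hC0 hD'0 hC hCle
    (by rw [hCD']; exact Real.rpow_le_rpow_of_exponent_le hH (by linarith))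
    hCD'.le ?_ ?_ ?_)
  · -- moments of `C`
    intro j hj1 hj2
    refine (hmom j hj1 hj2 H (2 * C) hH (by linarith) S P hSF hPBP γ hγ).trans ?_
    have hCj : (0 : ℝ) < C ^ j := by positivity
    have h2j : (1 : ℝ) ≤ 2 ^ j := one_le_pow₀ (by norm_num)
    have e1 : (H * (2 * C)) ^ ε ≤ 2 * H ^ e₀ := by
      have h3 : H * (2 * C) ≤ 2 * H ^ (2 : ℝ) := by
        have h4 : C ≤ H ^ (1 : ℝ) :=
          hCle.trans (Real.rpow_le_rpow_of_exponent_le hH (by norm_num))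
        rw [Real.rpow_one] at h4
        have h5 : H ^ (2 : ℝ) = H * H := by
          rw [show (2 : ℝ) = ((2 : ℕ) : ℝ) by norm_num, Real.rpow_natCast]; ring
        rw [h5]; nlinarith
      calc (H * (2 * C)) ^ ε ≤ (2 * H ^ (2 : ℝ)) ^ ε :=
            Real.rpow_le_rpow (by positivity) h3 hε.le
        _ = 2 ^ ε * H ^ (2 * ε) := by
            rw [Real.mul_rpow (by norm_num) (by positivity), ← Real.rpow_mul hH0.le]
        _ ≤ 2 * H ^ e₀ := by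
            have e3 : (2 : ℝ) ^ ε ≤ 2 := by
              calc (2 : ℝ) ^ ε ≤ 2 ^ (1 : ℝ) :=
                    Real.rpow_le_rpow_of_exponent_le (by norm_num) hε1
                _ = 2 := Real.rpow_one 2
            have e4 : H ^ (2 * ε) ≤ H ^ e₀ :=
              Real.rpow_le_rpow_of_exponent_le hH (by rw [hεdef]; linarith)
            gcongr
    have e2 : H + (2 * C) ^ j + (H * (2 * C) ^ j) ^ ((2 : ℝ) / 3)
        ≤ 2 ^ j * (H + C ^ j + (H * C ^ j) ^ ((2 : ℝ) / 3)) := by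
      have h6 : (H * (2 * C) ^ j) ^ ((2 : ℝ) / 3) ≤ 2 ^ j * (H * C ^ j) ^ ((2 : ℝ) / 3) := by
        rw [mul_pow, show H * (2 ^ j * C ^ j) = 2 ^ j * (H * C ^ j) by ring,
          Real.mul_rpow (by positivity) (by positivity)]
        apply mul_le_mul_of_nonneg_right _ (by positivity)
        calc ((2 : ℝ) ^ j) ^ ((2 : ℝ) / 3) ≤ ((2 : ℝ) ^ j) ^ (1 : ℝ) :=
              Real.rpow_le_rpow_of_exponent_le h2j (by norm_num)
          _ = 2 ^ j := Real.rpow_one _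
      have h7 : H ≤ 2 ^ j * H := by nlinarith
      have h8 : (2 * C) ^ j = 2 ^ j * C ^ j := mul_pow _ _ _
      rw [h8] at h6 ⊢
      nlinarith
    calc K₁ * (H * (2 * C)) ^ ε * (H + (2 * C) ^ j + (H * (2 * C) ^ j) ^ ((2 : ℝ) / 3))
          * (2 * C) ^ j
        ≤ K₁ * (2 * H ^ e₀) * (2 ^ j * (H + C ^ j + (H * C ^ j) ^ ((2 : ℝ) / 3)))
          * (2 * C) ^ j := by gcongr
      _ = (2 * 4 ^ j * K₁) * H ^ e₀ * (H + C ^ j + (H * C ^ j) ^ ((2 : ℝ) / 3)) * C ^ j := by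
          rw [mul_pow, show (4 : ℝ) ^ j = 2 ^ j * 2 ^ j by rw [← mul_pow]; norm_num]
          ring
      _ ≤ K * H ^ e₀ * (H + C ^ j + (H * C ^ j) ^ ((2 : ℝ) / 3)) * C ^ j := by
          have h9 : 2 * 4 ^ j * K₁ ≤ K := by
            refine le_trans ?_ (le_max_left _ _)
            have := hJ1 j hj2
            gcongr
          gcongr
  · -- moments of `D`
    intro j hj1 hj2
    refine (hmom j hj1 hj2 H D' hH hD'1 S T hSF hPB' ξ hξ).trans ?_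
    have e1 : (H * D') ^ ε ≤ H ^ e₀ := by
      have h3 : H * D' ≤ H ^ (3 : ℝ) := by
        calc H * D' ≤ H ^ (1 : ℝ) * H ^ (1 + e₀) := by
              rw [Real.rpow_one]; gcongr
          _ = H ^ (1 + (1 + e₀)) := (Real.rpow_add hH0 _ _).symm
          _ ≤ H ^ (3 : ℝ) := Real.rpow_le_rpow_of_exponent_le hH (by linarith)
      calc (H * D') ^ ε ≤ (H ^ (3 : ℝ)) ^ ε := Real.rpow_le_rpow (by positivity) h3 hε.le
        _ = H ^ (3 * ε) := by rw [← Real.rpow_mul hH0.le]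
        _ = H ^ e₀ := by congr 1; rw [hεdef]; ring
    have hKK : K₁ ≤ K := by
      refine le_trans ?_ (le_max_left _ _)
      have : (1 : ℝ) ≤ 4 ^ J := one_le_pow₀ (by norm_num)
      nlinarith
    gcongr
  · -- the saved moment
    intro j hj1 hj2 hr1 hr2
    refine (hsav j hj1 hj2 H C hH hC1 hr1 hr2 S P hSF hPP γ hγ).trans ?_
    have hKK : K₂ ≤ K := le_max_right _ _
    gcongr

/-- **CRH.** -/
theorem crh (hM : Mom) (hS : SavedMom) : Core := core_of_core9 (crh9 hM hS)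

end Crest.Agent.R012.CRH569
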