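import Crest.Agent.R012.Sep_290
import Crest.Agent.R012.Spec_CR_290
import Crest.Agent.R012.Sym4_645

/-!
# (CRG) products in the critical range: `CoreCub → CRProd`
-/

set_option autoImplicit false

noncomputable section

open Complex Finset

namespace Crest.Agent.R012.Sep290

/-- Separation in a mean square with a general kernel. -/
theorem sep_meanSq_gen {ι α β : Type*} (S : Finset ι) (P : Finset α) (T : Finset β)
    (Kf : ι → α → β → ℂ) (X : ℝ)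
    (hX : ∀ (γ : α → ℂ) (ξ : β → ℂ), (∀ p ∈ P, ‖γ p‖ ≤ 1) → (∀ d ∈ T, ‖ξ d‖ ≤ 1) →
      ∑ y ∈ S, ‖∑ p ∈ P, ∑ d ∈ T, γ p * ξ d * Kf y p d‖ ^ 2 ≤ X)
    (φ : α → ℕ) (ψ : β → ℕ) (M : ℕ) (hφ : ∀ p ∈ P, φ p < M) (hψ : ∀ d ∈ T, ψ d ≤ M)
    (γ : α → ℂ) (ξ : β → ℂ) (hγ : ∀ p ∈ P, ‖γ p‖ ≤ 1) (hξ : ∀ d ∈ T, ‖ξ d‖ ≤ 1) :
    ∑ y ∈ S, ‖∑ p ∈ P, ∑ d ∈ T, γ p * ξ d * ((if φ p < ψ d then (1 : ℂ) else 0) * Kf y p d)‖ ^ 2
      ≤ (2 + Real.log M) ^ 2 * X := by
  classical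
  have hX0 : 0 ≤ X := by
    refine le_trans ?_ (hX (fun _ => 0) (fun _ => 0) (by simp) (by simp))
    exact Finset.sum_nonneg (fun _ _ => by positivity)
  rcases P.eq_empty_or_nonempty with hP | ⟨p0, hp0⟩
  · subst hP
    simp only [Finset.sum_empty, norm_zero, ne_eq, OfNat.ofNat_ne_zero, not_false_eq_true,
      zero_pow, Finset.sum_const_zero]
    positivity
  have hM : 1 ≤ M := by have := hφ p0 hp0; omega
  have key : ∀ y, ∑ p ∈ P, ∑ d ∈ T, γ p * ξ d *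
        ((if φ p < ψ d then (1 : ℂ) else 0) * Kf y p d)
      = ∑ r ∈ range M, (W M r : ℂ) * (∑ p ∈ P, ∑ d ∈ T, (γ p * aC M r (φ p)) *
          (ξ d * bC M r (ψ d)) * Kf y p d) := by
    intro y
    have h1 : ∀ p ∈ P, ∀ d ∈ T, γ p * ξ d * ((if φ p < ψ d then (1 : ℂ) else 0) * Kf y p d)
        = ∑ r ∈ range M, (W M r : ℂ) *
          ((γ p * aC M r (φ p)) * (ξ d * bC M r (ψ d)) * Kf y p d) := by
      intro p hp d hd
      rw [sep_identity (hφ p hp) (hψ d hd), Finset.sum_mul, Finset.mul_sum]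
      apply Finset.sum_congr rfl
      intro r _
      ring
    rw [Finset.sum_congr rfl (fun p hp => Finset.sum_congr rfl (fun d hd => h1 p hp d hd)),
      Finset.sum_congr rfl (fun p _ => Finset.sum_comm), Finset.sum_comm]
    apply Finset.sum_congr rfl
    intro r _
    rw [Finset.mul_sum]
    apply Finset.sum_congr rfl
    intro p _
    rw [Finset.mul_sum]
  have hW : ∀ r ∈ range M, 0 ≤ W M r := fun r hr => W_nonneg (Finset.mem_range.mp hr)
  have hbound : ∀ r ∈ range M, ∑ y ∈ S, ‖∑ p ∈ P, ∑ d ∈ T, (γ p * aC M r (φ p)) *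
          (ξ d * bC M r (ψ d)) * Kf y p d‖ ^ 2 ≤ X := by
    intro r hr
    apply hX
    · intro p hp
      rw [norm_mul, norm_aC, mul_one]
      exact hγ p hp
    · intro d hd
      rw [norm_mul]
      exact mul_le_one₀ (hξ d hd) (norm_nonneg _)
        (norm_bC_le hM (Finset.mem_range.mp hr) (hψ d hd))
  have hlog : ∑ r ∈ range M, W M r ≤ 2 + Real.log M := sum_W_le hM
  have hsum0 : 0 ≤ ∑ r ∈ range M, W M r := Finset.sum_nonneg hW
  calc ∑ y ∈ S, ‖∑ p ∈ P, ∑ d ∈ T, γ p * ξ d *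
          ((if φ p < ψ d then (1 : ℂ) else 0) * Kf y p d)‖ ^ 2
      ≤ ∑ y ∈ S, (∑ r ∈ range M, W M r) * ∑ r ∈ range M, W M r *
          ‖∑ p ∈ P, ∑ d ∈ T, (γ p * aC M r (φ p)) * (ξ d * bC M r (ψ d)) * Kf y p d‖ ^ 2 := by
        apply Finset.sum_le_sum
        intro y _
        rw [key y]
        exact norm_sq_sum_le _ _ hW _
    _ = (∑ r ∈ range M, W M r) * ∑ r ∈ range M, W M r * ∑ y ∈ S,
          ‖∑ p ∈ P, ∑ d ∈ T, (γ p * aC M r (φ p)) * (ξ d * bC M r (ψ d)) * Kf y p d‖ ^ 2 := by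
        rw [← Finset.mul_sum, Finset.sum_comm]
        simp_rw [Finset.mul_sum]
    _ ≤ (∑ r ∈ range M, W M r) * ∑ r ∈ range M, W M r * X := by
        apply mul_le_mul_of_nonneg_left _ hsum0
        apply Finset.sum_le_sum
        intro r hr
        exact mul_le_mul_of_nonneg_left (hbound r hr) (hW r hr)
    _ = (∑ r ∈ range M, W M r) ^ 2 * X := by rw [← Finset.sum_mul]; ring
    _ ≤ (2 + Real.log M) ^ 2 * X := by
        apply mul_le_mul_of_nonneg_right _ hX0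
        exact pow_le_pow_left₀ hsum0 hlog 2

/-- Two couplings. -/
theorem sep_meanSq_two {ι α β : Type*} (S : Finset ι) (P : Finset α) (T : Finset β)
    (Kf : ι → α → β → ℂ) (X : ℝ)
    (hX : ∀ (γ : α → ℂ) (ξ : β → ℂ), (∀ p ∈ P, ‖γ p‖ ≤ 1) → (∀ d ∈ T, ‖ξ d‖ ≤ 1) →
      ∑ y ∈ S, ‖∑ p ∈ P, ∑ d ∈ T, γ p * ξ d * Kf y p d‖ ^ 2 ≤ X)
    (φ₁ φ₂ : α → ℕ) (ψ₁ ψ₂ : β → ℕ) (M : ℕ) (hφ₁ : ∀ p ∈ P, φ₁ p < M) (hψ₁ : ∀ d ∈ T, ψ₁ d ≤ M)
    (hφ₂ : ∀ p ∈ P, φ₂ p < M) (hψ₂ : ∀ d ∈ T, ψ₂ d ≤ M)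
    (γ : α → ℂ) (ξ : β → ℂ) (hγ : ∀ p ∈ P, ‖γ p‖ ≤ 1) (hξ : ∀ d ∈ T, ‖ξ d‖ ≤ 1) :
    ∑ y ∈ S, ‖∑ p ∈ P, ∑ d ∈ T, (if φ₁ p < ψ₁ d ∧ φ₂ p < ψ₂ d then (1 : ℂ) else 0) *
        (γ p * ξ d * Kf y p d)‖ ^ 2
      ≤ (2 + Real.log M) ^ 4 * X := by
  classical
  have h1 := sep_meanSq_gen S P T Kf X hX φ₁ ψ₁ M hφ₁ hψ₁
  have h2 := sep_meanSq_gen S P T
    (fun y p d => (if φ₁ p < ψ₁ d then (1 : ℂ) else 0) * Kf y p d)
    ((2 + Real.log M) ^ 2 * X) h1 φ₂ ψ₂ M hφ₂ hψ₂ γ ξ hγ hξ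
  have e : ∀ y, ∑ p ∈ P, ∑ d ∈ T, (if φ₁ p < ψ₁ d ∧ φ₂ p < ψ₂ d then (1 : ℂ) else 0) *
        (γ p * ξ d * Kf y p d) = ∑ p ∈ P, ∑ d ∈ T, γ p * ξ d *
        ((if φ₂ p < ψ₂ d then (1 : ℂ) else 0) *
          ((if φ₁ p < ψ₁ d then (1 : ℂ) else 0) * Kf y p d)) := by
    intro y
    apply Finset.sum_congr rfl
    intro p _
    apply Finset.sum_congr rfl
    intro d _
    by_cases c1 : φ₁ p < ψ₁ d <;> by_cases c2 : φ₂ p < ψ₂ d <;> simp [c1, c2]
  simp_rw [e]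
  refine h2.trans (le_of_eq ?_)
  ring

end Crest.Agent.R012.Sep290

namespace Crest.Agent.R012.CR290

open Crest.Agent.R012 Crest.Agent.R012.Eis

/-- `(a + b log B)^n ≤ K B^η`. -/
lemma log_pow_le (a b : ℝ) (ha : 0 ≤ a) (hb : 0 ≤ b) (n : ℕ) (η : ℝ) (hη : 0 < η) :
    ∃ K : ℝ, 0 < K ∧ ∀ B : ℝ, 1 ≤ B → (a + b * Real.log B) ^ n ≤ K * B ^ η := by
  rcases Nat.eq_zero_or_pos n with hn | hn
  · subst hn
    exact ⟨1, one_pos, fun B hB => by simpa using Real.one_le_rpow hB hη.le⟩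
  have hn' : (0 : ℝ) < n := by exact_mod_cast hn
  set ε : ℝ := η / n with hε
  have hε0 : 0 < ε := by positivity
  refine ⟨(a + b / ε) ^ n + 1, by positivity, fun B hB => ?_⟩
  have hB0 : 0 ≤ B := by linarith
  have hlog0 : 0 ≤ Real.log B := Real.log_nonneg hB
  have h1 : Real.log B ≤ B ^ ε / ε := Real.log_le_rpow_div hB0 hε0
  have h2 : 1 ≤ B ^ ε := Real.one_le_rpow hB hε0.le
  have h3 : a + b * Real.log B ≤ (a + b / ε) * B ^ ε := by
    have : b * Real.log B ≤ b * (B ^ ε / ε) := mul_le_mul_of_nonneg_left h1 hb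
    have h4 : a ≤ a * B ^ ε := by nlinarith
    calc a + b * Real.log B ≤ a * B ^ ε + b * (B ^ ε / ε) := add_le_add h4 this
      _ = _ := by ring
  calc (a + b * Real.log B) ^ n ≤ ((a + b / ε) * B ^ ε) ^ n := by
        apply pow_le_pow_left₀ _ h3
        positivity
    _ = (a + b / ε) ^ n * (B ^ ε) ^ n := mul_pow _ _ _
    _ = (a + b / ε) ^ n * B ^ η := by
        rw [← Real.rpow_natCast (B ^ ε), ← Real.rpow_mul hB0]
        congr 2
        rw [hε]; field_simp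
    _ ≤ _ := by
        apply mul_le_mul_of_nonneg_right _ (by positivity)
        linarith

/-- Cauchy-Schwarz over `n` blocks. -/
lemma sum_sq_blocks {ι : Type*} (S : Finset ι) (n : ℕ) (f : ℕ → ι → ℂ) (X : ℝ)
    (h : ∀ i ∈ range n, ∑ y ∈ S, ‖f i y‖ ^ 2 ≤ X) :
    ∑ y ∈ S, ‖∑ i ∈ range n, f i y‖ ^ 2 ≤ (n : ℝ) ^ 2 * X := by
  have h1 : ∀ y ∈ S, ‖∑ i ∈ range n, f i y‖ ^ 2 ≤ n * ∑ i ∈ range n, ‖f i y‖ ^ 2 := by
    intro y _
    have h2 : ‖∑ i ∈ range n, f i y‖ ≤ ∑ i ∈ range n, ‖f i y‖ := norm_sum_le _ _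
    have h3 : (∑ i ∈ range n, ‖f i y‖) ^ 2 ≤ (range n).card * ∑ i ∈ range n, ‖f i y‖ ^ 2 :=
      sq_sum_le_card_mul_sum_sq
    rw [card_range] at h3
    exact (pow_le_pow_left₀ (norm_nonneg _) h2 2).trans h3
  calc ∑ y ∈ S, ‖∑ i ∈ range n, f i y‖ ^ 2 ≤ ∑ y ∈ S, n * ∑ i ∈ range n, ‖f i y‖ ^ 2 :=
        Finset.sum_le_sum h1
    _ = n * ∑ i ∈ range n, ∑ y ∈ S, ‖f i y‖ ^ 2 := by
        rw [← Finset.mul_sum, Finset.sum_comm]
    _ ≤ n * ∑ i ∈ range n, X := by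
        apply mul_le_mul_of_nonneg_left (Finset.sum_le_sum h) (Nat.cast_nonneg _)
    _ = (n : ℝ) ^ 2 * X := by rw [Finset.sum_const, card_range, nsmul_eq_mul]; ring

/-- dyadic index of a norm: `2^i < m ≤ 2^(i+1)` for `m ≥ 2`. -/
def dyi (m : ℕ) : ℕ := Nat.clog 2 m - 1

lemma dyi_spec {m : ℕ} (hm : 2 ≤ m) : 2 ^ dyi m < m ∧ m ≤ 2 ^ (dyi m + 1) := by
  have h1 : 1 ≤ Nat.clog 2 m := Nat.clog_pos (by norm_num) (by omega)
  unfold dyi
  constructor
  · exact Nat.pow_pred_clog_lt_self (by norm_num) (by omega)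
  · rw [Nat.sub_add_cancel h1]
    exact Nat.le_pow_clog (by norm_num) m

lemma four_le_nm_prim_prime {p : Eis} (hp : IsPrim p) (hpp : Prime p) : 3 ≤ nm p := by
  have h1 := Sym645.prim_nm_mod hp
  have h0 : nm p ≠ 0 := fun h => hpp.ne_zero (nm_eq_zero.mp h)
  have h2 : nm p ≠ 1 := fun h => hpp.not_unit (isUnit_iff.mpr h)
  omega

open Classical in
theorem crprod_of_corecub (hcore : CoreCub) : CRProd := by
  intro ν hν
  obtain ⟨δ₀, e₀, K₀, hδ₀, he₀, hK₀, hcc⟩ := hcore (ν / 2) (by positivity)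
  set δ : ℝ := min (δ₀ / 2) e₀ with hδdef
  have hδ : 0 < δ := lt_min (by positivity) he₀
  have hδ1 : δ ≤ δ₀ / 2 := min_le_left _ _
  have hδ2 : δ ≤ e₀ := min_le_right _ _
  obtain ⟨K₁, hK₁, hlogK⟩ := log_pow_le 7 3 (by norm_num) (by norm_num) 6 (δ₀ / 2) (by positivity)
  refine ⟨δ, K₁ * K₀, hδ, by positivity, ?_⟩
  intro B hB P T γ ξ φ₁ φ₂ ψ₁ ψ₂ hP hT hγ hξ hφψ hbd S hS
  have hB0 : 0 < B := by linarith
  have hlogB : 0 ≤ Real.log B := Real.log_nonneg hB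
  -- the modulus
  set M : ℕ := ⌊B ^ 3⌋₊ + 1 with hM
  have hlt : ∀ {k : ℕ}, (k : ℝ) ≤ B ^ 3 → k < M := by
    intro k hk
    rw [hM]
    exact Nat.lt_succ_of_le (Nat.le_floor hk)
  have hMle : Real.log M ≤ 1 + 3 * Real.log B := by
    have h1 : (M : ℝ) ≤ 2 * B ^ 3 := by
      rw [hM]; push_cast
      have := Nat.floor_le (show 0 ≤ B ^ 3 by positivity)
      have h2 : 1 ≤ B ^ 3 := one_le_pow₀ hB
      linarith
    have hM0 : (0 : ℝ) < M := by rw [hM]; positivity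
    calc Real.log M ≤ Real.log (2 * B ^ 3) := Real.log_le_log hM0 h1
      _ = Real.log 2 + 3 * Real.log B := by
          rw [Real.log_mul (by norm_num) (by positivity), Real.log_pow]; push_cast; ring
      _ ≤ _ := by
          have := Real.log_two_lt_d9
          linarith
  -- number of dyadic blocks
  set n : ℕ := ⌊Real.logb 2 B⌋₊ + 1 with hn
  have hn2 : (n : ℝ) ≤ 1 + 2 * Real.log B := by
    rw [hn]; push_cast
    have h0 : 0 ≤ Real.logb 2 B := Real.logb_nonneg (by norm_num) hB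
    have h1 := Nat.floor_le h0
    have h2 : Real.logb 2 B ≤ 2 * Real.log B := by
      rw [Real.logb, div_le_iff₀ (Real.log_pos (by norm_num))]
      have := Real.log_two_gt_d9
      nlinarith
    linarith
  -- splitting of the p-sum
  have hdy : ∀ p ∈ P, dyi (nm p) ∈ range n := by
    intro p hp
    obtain ⟨h1, h2, h3, h4⟩ := hP p hp
    have h5 := four_le_nm_prim_prime h1 h2
    have h6 := (dyi_spec (m := nm p) (by omega)).1
    rw [mem_range, hn, Nat.lt_succ_iff]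
    apply Nat.le_floor
    rw [Real.le_logb_iff_rpow_le (by norm_num) hB0, Real.rpow_natCast]
    have h7 : (nm p : ℝ) ≤ B := by
      refine h4.trans ?_
      calc B ^ (0.9 : ℝ) ≤ B ^ (1 : ℝ) := Real.rpow_le_rpow_of_exponent_le hB (by norm_num)
        _ = B := Real.rpow_one B
    have h8 : ((2 ^ dyi (nm p) : ℕ) : ℝ) < nm p := by exact_mod_cast h6
    push_cast at h8
    linarith
  set f : ℕ → Tup → ℂ := fun i y => ∑ p ∈ P.filter (fun p => dyi (nm p) = i), ∑ d ∈ T,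
    (if φ₁ p < ψ₁ d ∧ φ₂ p < ψ₂ d then (1 : ℂ) else 0) * (γ p * ξ d * sy (num y) (p * d)) with hf
  have hsplit : ∀ y : Tup, ∑ p ∈ P, ∑ d ∈ T,
      (if φ₁ p < ψ₁ d ∧ φ₂ p < ψ₂ d then (1 : ℂ) else 0) * (γ p * ξ d * sy (num y) (p * d))
      = ∑ i ∈ range n, f i y := by
    intro y
    rw [hf]
    exact (Finset.sum_fiberwise_of_maps_to hdy _).symm
  have hblock : ∀ i ∈ range n, ∑ y ∈ S, ‖f i y‖ ^ 2
      ≤ (2 + Real.log M) ^ 4 * (K₀ * B ^ (7 / 3 - δ₀)) := by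
    intro i _
    set Pi := P.filter (fun p => dyi (nm p) = i) with hPi
    rcases Pi.eq_empty_or_nonempty with hemp | ⟨p₀, hp₀⟩
    · have : ∀ y, f i y = 0 := by
        intro y
        simp only [hf]
        rw [← hPi, hemp, Finset.sum_empty]
      simp only [this, norm_zero, ne_eq, OfNat.ofNat_ne_zero, not_false_eq_true, zero_pow,
        Finset.sum_const_zero]
      positivity
    set C : ℝ := 2 ^ i with hC
    have hmemPi : ∀ p ∈ Pi, IsPrim p ∧ Prime p ∧ C < (nm p : ℝ) ∧ (nm p : ℝ) ≤ 2 * C := by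
      intro p hp
      rw [hPi, Finset.mem_filter] at hp
      obtain ⟨h1, h2, h3, h4⟩ := hP p hp.1
      have h5 := four_le_nm_prim_prime h1 h2
      have h6 := dyi_spec (m := nm p) (by omega)
      rw [hp.2] at h6
      refine ⟨h1, h2, ?_, ?_⟩
      · rw [hC]; exact_mod_cast h6.1
      · rw [hC]
        have : ((nm p : ℕ) : ℝ) ≤ ((2 ^ (i + 1) : ℕ) : ℝ) := by exact_mod_cast h6.2
        push_cast at this
        rw [pow_succ] at this
        linarith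
    have hCpos : 0 < C := by rw [hC]; positivity
    -- bounds for C
    have hp₀' : p₀ ∈ P := (Finset.mem_filter.mp (hPi ▸ hp₀)).1
    obtain ⟨_, _, hlow, hup⟩ := hP p₀ hp₀'
    obtain ⟨g1, g2, g3, g4⟩ := hmemPi p₀ hp₀
    have hi1 : 2 ≤ C := by
      have h5 := four_le_nm_prim_prime g1 g2
      have hi : i ≠ 0 := by
        intro h0
        rw [hC, h0] at g4
        have : (nm p₀ : ℝ) ≤ 2 := by simpa using g4
        have h6 : nm p₀ ≤ 2 := by exact_mod_cast this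
        omega
      rw [hC]
      calc (2 : ℝ) = 2 ^ 1 := by norm_num
        _ ≤ 2 ^ i := pow_le_pow_right₀ (by norm_num) (Nat.one_le_iff_ne_zero.mpr hi)
    have hClow : B ^ (ν / 2) ≤ C := by
      rcases le_total (B ^ (ν / 2)) 2 with h | h
      · linarith
      · have h1 : B ^ ν = B ^ (ν / 2) * B ^ (ν / 2) := by
          rw [← Real.rpow_add hB0]; congr 1; ring
        have h2 : 2 * B ^ (ν / 2) ≤ B ^ ν := by
          rw [h1]
          exact mul_le_mul_of_nonneg_right h (by positivity)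
        linarith
    have hCup : C ≤ B ^ (0.9 : ℝ) := by
      have : B ^ (0.9 : ℝ) ≤ B ^ (0.9 : ℝ) :=
        Real.rpow_le_rpow_of_exponent_le hB (by norm_num)
      linarith
    have hCB : C ≤ B := by
      refine hCup.trans ?_
      calc B ^ (0.9 : ℝ) ≤ B ^ (1 : ℝ) := Real.rpow_le_rpow_of_exponent_le hB (by norm_num)
        _ = B := Real.rpow_one B
    set D : ℝ := B / C with hD
    have hD1 : 1 ≤ D := by rw [hD, le_div_iff₀ hCpos]; linarith
    have hCD : C * D ≤ B ^ (1 + e₀) := by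
      have : C * D = B := by rw [hD]; field_simp
      rw [this]
      calc B = B ^ (1 : ℝ) := (Real.rpow_one B).symm
        _ ≤ B ^ (1 + e₀) := Real.rpow_le_rpow_of_exponent_le hB (by linarith)
    set Ti := T.filter (fun d => (nm d : ℝ) ≤ D) with hTi
    -- restrict d to Ti
    have hf' : ∀ y, f i y = ∑ p ∈ Pi, ∑ d ∈ Ti,
        (if φ₁ p < ψ₁ d ∧ φ₂ p < ψ₂ d then (1 : ℂ) else 0) *
          (γ p * ξ d * (sy (num y) p * sy (num y) d)) := by
      intro y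
      simp only [hf]
      rw [← hPi]
      apply Finset.sum_congr rfl
      intro p hp
      obtain ⟨q1, q2, q3, q4⟩ := hmemPi p hp
      have hpP : p ∈ P := (Finset.mem_filter.mp (hPi ▸ hp)).1
      rw [hTi, Finset.sum_filter]
      apply Finset.sum_congr rfl
      intro d hd
      rw [Sym645.sy_mul_right _ q2.ne_zero (Sym645.prim_ne_zero (hT d hd))]
      split_ifs with c1 c2
      · rfl
      · exfalso
        apply c2
        have := hbd p hpP d hd c1.1 c1.2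
        rw [hD, le_div_iff₀ hCpos]
        have hd0 : (0 : ℝ) ≤ nm d := Nat.cast_nonneg _
        nlinarith
      · rfl
      · simp
    simp_rw [hf']
    have hIsPP : IsPP Pi C := hmemPi
    have hIsPB : IsPB Ti D := by
      intro d hd
      rw [hTi, Finset.mem_filter] at hd
      exact ⟨hT d hd.1, hd.2⟩
    have hS' : IsTS S (B ^ (1 + e₀)) := by
      intro x hx
      refine ⟨(hS x hx).1, (hS x hx).2.trans ?_⟩
      exact Real.rpow_le_rpow_of_exponent_le hB (by linarith)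
    have hmain := Sep290.sep_meanSq_two S Pi Ti
      (fun y p d => sy (num y) p * sy (num y) d) (K₀ * B ^ (7 / 3 - δ₀)) ?_ φ₁ φ₂ ψ₁ ψ₂ M
      (fun p _ => hlt (hφψ p).1) (fun d _ => (hlt (hφψ d).2.2.1).le)
      (fun p _ => hlt (hφψ p).2.1) (fun d _ => (hlt (hφψ d).2.2.2).le) γ ξ
      (fun p hp => hγ p (Finset.mem_filter.mp (hPi ▸ hp)).1)
      (fun d hd => hξ d (Finset.mem_filter.mp (hTi ▸ hd)).1)
    · exact hmain
    · intro γ' ξ' hγ' hξ'
      have h1 := hcc B C D hB hClow hCup hD1 hCD S Pi Ti hS' hIsPP hIsPB γ' ξ' hγ' hξ'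
      refine le_trans (le_of_eq ?_) h1
      apply Finset.sum_congr rfl
      intro y _
      rw [← mul_pow, ← norm_mul]
      congr 2
      unfold F
      rw [Finset.sum_mul_sum]
      apply Finset.sum_congr rfl
      intro p _
      apply Finset.sum_congr rfl
      intro d _
      ring
  simp_rw [hsplit]
  refine (sum_sq_blocks S n f _ hblock).trans ?_
  have hlogM0 : 0 ≤ Real.log M := Real.log_natCast_nonneg _
  have h1 : (n : ℝ) ^ 2 * (2 + Real.log M) ^ 4 ≤ (7 + 3 * Real.log B) ^ 6 := by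
    have h2 : (n : ℝ) ^ 2 ≤ (7 + 3 * Real.log B) ^ 2 :=
      pow_le_pow_left₀ (Nat.cast_nonneg _) (by linarith) 2
    have h3 : (2 + Real.log M) ^ 4 ≤ (7 + 3 * Real.log B) ^ 4 :=
      pow_le_pow_left₀ (by linarith) (by linarith) 4
    calc (n : ℝ) ^ 2 * (2 + Real.log M) ^ 4
        ≤ (7 + 3 * Real.log B) ^ 2 * (7 + 3 * Real.log B) ^ 4 :=
          mul_le_mul h2 h3 (by positivity) (by positivity)
      _ = _ := by ring
  calc (n : ℝ) ^ 2 * ((2 + Real.log M) ^ 4 * (K₀ * B ^ (7 / 3 - δ₀)))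
      = ((n : ℝ) ^ 2 * (2 + Real.log M) ^ 4) * (K₀ * B ^ (7 / 3 - δ₀)) := by ring
    _ ≤ (K₁ * B ^ (δ₀ / 2)) * (K₀ * B ^ (7 / 3 - δ₀)) := by
        apply mul_le_mul_of_nonneg_right (h1.trans (hlogK B hB)) (by positivity)
    _ = K₁ * K₀ * (B ^ (δ₀ / 2) * B ^ (7 / 3 - δ₀)) := by ring
    _ = K₁ * K₀ * B ^ (7 / 3 - δ₀ / 2) := by
        rw [← Real.rpow_add hB0]; congr 2; ring
    _ ≤ K₁ * K₀ * B ^ (7 / 3 - δ) := by
        apply mul_le_mul_of_nonneg_left _ (by positivity)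
        exact Real.rpow_le_rpow_of_exponent_le hB (by linarith)

end Crest.Agent.R012.CR290
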