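import Crest.Agent.R012.CRbeta_852
import Crest.Agent.R012.Spec_T_411

/-!
# Row 12, (CR): `crbeta` over the kernels `Ker` of `Spec_T_411` (helper852)
-/

set_option autoImplicit false

noncomputable section

open Complex Finset

namespace Crest.Agent.R012.CRbeta852

open Crest.Agent.R012 Eis Buch420 CR290 T411

/-- tuple of a kernel -/
def tupK (q : ℕ × ℕ × Eis × Eis) : Tup := ((q.1, q.2.1), (q.2.2.1, q.2.2.2))

lemma tupK_inj : Function.Injective tupK := by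
  rintro ⟨a, b, c, d⟩ ⟨a', b', c', d'⟩ h
  simp only [tupK, Prod.mk.injEq] at h
  obtain ⟨⟨rfl, rfl⟩, rfl, rfl⟩ := h
  rfl

lemma num_tupK (q : ℕ × ℕ × Eis × Eis) : num (tupK q) = kv q := rfl

lemma tupK_spec {H : ℝ} {q : ℕ × ℕ × Eis × Eis} (hq : q ∈ Ker H) :
    IsTup (tupK q) ∧ (nm (num (tupK q)) : ℝ) ≤ H := by
  classical
  unfold Ker at hq
  rw [Finset.mem_filter, Finset.mem_product, Finset.mem_product, Finset.mem_product,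
    Finset.mem_range, Finset.mem_range, LS2.S, Finset.mem_filter, Finset.mem_filter,
    mem_primBall, mem_primBall] at hq
  obtain ⟨⟨h1, h2, ⟨⟨-, h3⟩, h3s⟩, ⟨⟨-, h4⟩, h4s⟩⟩, h5, h6⟩ := hq
  refine ⟨⟨h1, h2, ?_, ?_, h3s, h4s, h5⟩, ?_⟩
  · exact h3
  · exact h4
  · rw [num_tupK]; exact h6

open Classical in
/-- the sum over `𝓑` equals the sum over subsets of `UX X` -/
lemma sum_B_eq {X : ℕ} (β : Finset PrP → ℂ) (𝓑 : Finset Eis) (h1 : ∀ b ∈ 𝓑, SqP b)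
    (h2 : ∀ T, β T ≠ 0 → prd T ∈ 𝓑) (h3 : ∀ T, β T ≠ 0 → T ⊆ UX X) (g : Eis → ℂ) :
    ∑ b ∈ 𝓑, β (pset b) * g b = ∑ T ∈ (UX X).powerset, β T * g (prd T) := by
  have e1 : ∑ T ∈ (UX X).powerset, β T * g (prd T) =
      ∑ T ∈ (UX X).powerset.filter (fun T => β T ≠ 0), β (pset (prd T)) * g (prd T) := by
    rw [Finset.sum_filter]
    refine Finset.sum_congr rfl fun T _ => ?_
    split_ifs with h
    · rw [pset_prd]
    · rw [not_not.mp h, zero_mul]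
  rw [e1, ← Finset.sum_image (f := fun b => β (pset b) * g b)
    (fun a _ b _ h => prd_injective h)]
  symm
  refine Finset.sum_subset ?_ ?_
  · intro b hb
    rw [Finset.mem_image] at hb
    obtain ⟨T, hT, rfl⟩ := hb
    exact h2 T (Finset.mem_filter.mp hT).2
  · intro b hb hb'
    by_contra hc
    have h4 : β (pset b) ≠ 0 := fun h => hc (by rw [h, zero_mul])
    apply hb'
    rw [Finset.mem_image]
    exact ⟨pset b, Finset.mem_filter.mpr ⟨Finset.mem_powerset.mpr (h3 _ h4), h4⟩,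
      prd_pset (h1 b hb).1 (h1 b hb).2⟩

lemma subset_UX {X : ℕ} (hX : 2 ^ 20 ≤ X) {B : ℝ} (hB2 : B ≤ (X : ℝ) ^ (0.55 : ℝ))
    {T : Finset PrP} (hT : (nm (prd T) : ℝ) ≤ 2 * B) : T ⊆ UX X := by
  have hXr : (2 : ℝ) ^ 20 ≤ X := by exact_mod_cast hX
  have hX0 : (0 : ℝ) < X := lt_of_lt_of_le (by norm_num) hXr
  intro p hp
  rw [mem_UX]
  have h1 : (nm p.1 : ℝ) ≤ nm (prd T) := by
    exact_mod_cast nm_le_of_dvd' (prd_ne_zero T) (dvd_prd_iff.mpr hp)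
  have h2 : (2 : ℝ) ≤ (X : ℝ) ^ (0.45 : ℝ) := by
    have h3 : ((2 : ℝ) ^ 20) ^ (0.45 : ℝ) ≤ (X : ℝ) ^ (0.45 : ℝ) :=
      Real.rpow_le_rpow (by positivity) hXr (by norm_num)
    refine le_trans ?_ h3
    rw [← Real.rpow_natCast, ← Real.rpow_mul (by norm_num)]
    calc (2 : ℝ) = 2 ^ (1 : ℝ) := (Real.rpow_one 2).symm
      _ ≤ _ := Real.rpow_le_rpow_of_exponent_le (by norm_num) (by norm_num)
  have h4 : 2 * B ≤ X := by
    calc 2 * B ≤ (X : ℝ) ^ (0.45 : ℝ) * (X : ℝ) ^ (0.55 : ℝ) := by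
          refine mul_le_mul h2 hB2 ?_ (by positivity) |>.trans le_rfl
          by_contra hc
          push Not at hc
          have : (0 : ℝ) ≤ nm (prd T) := by positivity
          linarith
      _ = X := by rw [← Real.rpow_add hX0]; norm_num
  have h5 : (nm p.1 : ℝ) ≤ X := by linarith
  exact_mod_cast h5

open Classical in
/-- **(CR) for the class `SWc`, over the kernels of `Spec_T_411`.** -/
theorem crbeta_ker (hCR : CRProd) : ∃ δ C : ℝ, 0 < δ ∧ 0 < C ∧ ∀ X : ℕ, 2 ^ 20 ≤ X →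
    ∀ (B : ℝ) (β : Finset PrP → ℂ), (X : ℝ) ^ (0.45 : ℝ) ≤ B → B ≤ (X : ℝ) ^ (0.55 : ℝ) →
      Main48.SWc β →
    (∀ T, β T ≠ 0 → 2 ≤ T.card ∧ (∀ p ∈ T, (X : ℝ) ^ (0.06 : ℝ) ≤ nm p.1) ∧
      (nm (prd T) : ℝ) ≤ 2 * B) →
    ∀ (𝓑 : Finset Eis), (∀ b ∈ 𝓑, SqP b) → (∀ T, β T ≠ 0 → prd T ∈ 𝓑) →
    ∀ e0 : ℝ, 0 ≤ e0 → e0 ≤ δ → ∀ (l : ℤ) (t : ℝ),
      ∑ q ∈ Ker (B ^ (1 + e0)), ‖tws 𝓑 (fun b => β (pset b) * ang l b) (kv q) t‖ ^ 2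
        ≤ C * B ^ ((7 : ℝ) / 3 - δ) := by
  obtain ⟨δ, K, hδ, hK, h⟩ := crbeta_tw hCR
  refine ⟨δ, K * 2 ^ ((7 : ℝ) / 3 - δ), hδ, by positivity, ?_⟩
  intro X hX B β hB1 hB2 hβ hsupp 𝓑 h𝓑 hT𝓑 e0 he0 he1 l t
  have hXr : (2 : ℝ) ^ 20 ≤ X := by exact_mod_cast hX
  obtain ⟨hB, -, -⟩ := rng hXr hB1 hB2
  have hS : IsTS ((Ker (B ^ (1 + e0))).image tupK) ((2 * B) ^ (1 + δ)) := by
    intro x hx
    rw [Finset.mem_image] at hx
    obtain ⟨q, hq, rfl⟩ := hx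
    refine ⟨(tupK_spec hq).1, (tupK_spec hq).2.trans ?_⟩
    calc B ^ (1 + e0) ≤ B ^ (1 + δ) := Real.rpow_le_rpow_of_exponent_le hB (by linarith)
      _ ≤ (2 * B) ^ (1 + δ) := Real.rpow_le_rpow (by linarith) (by linarith) (by linarith)
  have hm := h X hX B β hB1 hB2 hβ hsupp l t _ hS
  rw [Finset.sum_image (fun a _ b _ hab => tupK_inj hab)] at hm
  have hK2 : K * (2 * B) ^ (7 / 3 - δ) = K * 2 ^ ((7 : ℝ) / 3 - δ) * B ^ ((7 : ℝ) / 3 - δ) := by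
    rw [Real.mul_rpow (by norm_num) (by linarith)]; ring
  rw [hK2] at hm
  refine le_trans (le_of_eq ?_) hm
  refine Finset.sum_congr rfl fun q _ => ?_
  congr 2
  unfold tws
  have e1 := sum_B_eq (X := X) β 𝓑 h𝓑 hT𝓑
    (fun T hT => subset_UX hX hB2 (hsupp T hT).2.2)
    (fun b => ang l b * (nm b : ℂ) ^ ((t : ℂ) * Complex.I) * sy (kv q) b)
  calc _ = ∑ b ∈ 𝓑, β (pset b) *
        (ang l b * (nm b : ℂ) ^ ((t : ℂ) * Complex.I) * sy (kv q) b) := by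
        refine Finset.sum_congr rfl fun b _ => ?_
        ring
    _ = _ := e1
    _ = _ := by
        refine Finset.sum_congr rfl fun T _ => ?_
        rw [num_tupK]
        ring

/-- The critical class (at any scale `X : ℕ`), as a class of `Spec_T_411`. -/
def Ccr (l : ℤ) : CC := fun X B 𝓑 β' => ∃ (N : ℕ) (β : Finset PrP → ℂ), (N : ℝ) = X ∧
  2 ^ 20 ≤ N ∧ X ^ (0.45 : ℝ) ≤ B ∧ B ≤ X ^ (0.55 : ℝ) ∧ Main48.SWc β ∧
  (∀ T, β T ≠ 0 → 2 ≤ T.card ∧ (∀ p ∈ T, X ^ (0.06 : ℝ) ≤ nm p.1) ∧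
      (nm (prd T) : ℝ) ≤ 2 * B) ∧
  (∀ b ∈ 𝓑, SqP b) ∧ (∀ T, β T ≠ 0 → prd T ∈ 𝓑) ∧ (∀ b, β' b = β (pset b) * ang l b)

theorem crh_Ccr (hCR : CRProd) : ∃ e0 d : ℝ, 0 < e0 ∧ e0 ≤ 1 / 10 ∧ 2 * e0 ≤ d ∧
    ∀ l : ℤ, CRH (Ccr l) e0 d := by
  obtain ⟨δ, C, hδ, hC, h⟩ := crbeta_ker hCR
  refine ⟨min (δ / 2) (1 / 10), δ, by positivity, min_le_right _ _, ?_, ?_⟩
  · have := min_le_left (δ / 2) ((1 : ℝ) / 10)
    linarith
  · intro l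
    refine ⟨C, hC, ?_⟩
    rintro X B _ 𝓑 β' ⟨N, β, rfl, hN, hB1, hB2, hβ, hs, h𝓑, hT, hβ'⟩ t
    have hfun : β' = fun b => β (pset b) * ang l b := funext hβ'
    rw [hfun]
    refine h N hN B β hB1 hB2 hβ hs 𝓑 h𝓑 hT _ (by positivity) ?_ l t
    have := min_le_left (δ / 2) ((1 : ℝ) / 10)
    linarith

end Crest.Agent.R012.CRbeta852
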