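import Crest.Agent.R012.BuchE_420
import Crest.Agent.R012.Bridge2_666

/-!
# Row 12: MASTER interface (captain helper48)

`F_l(n) = (n/|n|)^l (G(n) - c μ²(n) N(n)^{-1/6})` -- the model is subtracted FOR EVERY `l`.
`FX l X` is `F_l` restricted to `X/2 < N(n) ≤ X` (sharp).

All squarefree primary numbers are written `prd T`, `T : Finset PrP` (helper420, order
`(nm, re, im)` on primary primes).

* `TI_Prop`    Type I, sharp cut, moduli up to `X^(2/3-ε)`            (941, 581, 705)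
* `TIIx_Prop`  Type II, class `SWc`, `X^(1/3)(log X)^C0 ≤ B ≤ X^(1/2-η)`, index form with an
  arbitrary extra cutoff `N(b) ≤ g i`   (411, 541, 54, ...);  `TII_Prop` = plain form
* `TIIcx_Prop`, `TIIc_Prop`  Type II, `N(b) ≈ X^(1/2)`, `b` product of `≥ 2` primes `≥ X^0.06`  (+ 290)
* `T0x_Prop`, `T0_Prop`    arbitrary coefficients, upper bound with `ℓ²` norms    (810/880, 420)
* `Edge_Prop`  triples of primes of size `X^(1/3)`                      (79, 968)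
* `SNH_Prop`   primes near `X^(1/2)`, from the other ones                             (828)
* `Dyadic_Prop` the output of the sieve                               (812)
-/

set_option autoImplicit false

noncomputable section

open Complex Filter Topology

namespace Crest.Agent.R012.Main48

open Crest.Agent.R012 Eis Buch420

open Classical in
/-- `F_l(n) = (n/|n|)^l (G(n) - c μ²(n) N(n)^{-1/6})` (`= 0` for `n` not squarefree). -/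
def Fl (l : ℤ) (n : Eis) : ℂ :=
  if Squarefree n then
    ang l n * (G n - ((pC * (nm n : ℝ) ^ (-(1 : ℝ) / 6) : ℝ) : ℂ)) else 0

open Classical in
/-- `F_l` restricted to `X/2 < N(n) ≤ X`. -/
def FX (l : ℤ) (X : ℕ) (n : Eis) : ℂ := if X < 2 * nm n ∧ nm n ≤ X then Fl l n else 0

/-- `L = log X`. -/
def LX (X : ℕ) : ℝ := Real.log X

/-- sieving level `w = exp((log X)^(2/3))`. -/
def wX (X : ℕ) : ℝ := Real.exp ((Real.log X) ^ ((2 : ℝ) / 3))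

/-- bilinear forms in squarefree primary variables `a = prd S`, `b = prd T`. -/
def Bil (l : ℤ) (X : ℕ) (α β : Finset PrP → ℂ) : ℂ :=
  ∑ S ∈ (UX X).powerset, ∑ T ∈ (UX X).powerset, α S * β T * FX l X (prd S * prd T)

open Classical in
/-- **Type I** (sharp cutoffs, upper end `Y d` of the summation may depend on the modulus). -/
def TI_Prop : Prop := ∀ (l : ℤ) (ε : ℝ), 0 < ε → ∃ δ C : ℝ, 0 < δ ∧ 0 < C ∧ ∀ X : ℕ, 2 ≤ X →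
  ∀ Y : Eis → ℕ, (∀ d, Y d ≤ X) →
    ∑ d ∈ (primBall X).filter (fun d => Squarefree d ∧ (nm d : ℝ) ≤ (X : ℝ) ^ (2 / 3 - ε)),
      ‖∑ m ∈ (primBall X).filter (fun m => nm (d * m) ≤ Y d), Fl l (d * m)‖ ≤
        C * (X : ℝ) ^ (5 / 6 - δ)

/-- **Siegel–Walfisz class** (541's `calB`, 994's `ClsB`): for all primes `p > P⁺(b')` (order of
`PrP`), `β(b' p) = c(b') 1[lo(b') ≤ N(p) < hi(b')]`, `|c| ≤ 1`. -/
structure SWc (β : Finset PrP → ℂ) : Prop where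
  bd : ∀ T, ‖β T‖ ≤ 1
  int : ∃ (c : Finset PrP → ℂ) (lo hi : Finset PrP → ℕ), (∀ T, ‖c T‖ ≤ 1) ∧
    ∀ (T : Finset PrP) (p : PrP), (∀ q ∈ T, q < p) →
      β (insert p T) = if lo T ≤ nm p.1 ∧ nm p.1 < hi T then c T else 0

/-! ### Index form of the bilinear estimates (helper828) -/

open Classical in
/-- `∑_i α_i ∑_{b = prd T, N(b) ≤ g i} β_b F_l(a_i b)`, `a_i = prd (a i)`; primes of `b` in `UX X`. -/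
def Ix (l : ℤ) (X : ℕ) {ι : Type} (I : Finset ι) (a : ι → Finset PrP) (g : ι → ℝ) (α : ι → ℂ)
    (β : Finset PrP → ℂ) : ℂ :=
  ∑ i ∈ I, α i * ∑ T ∈ (UX X).powerset,
    if (nm (prd T) : ℝ) ≤ g i then β T * Fl l (prd (a i) * prd T) else 0

open Classical in
/-- `∑_{i, j : a_i = a_j} |α_i| |α_j|`. -/
def Mu {ι : Type} (I : Finset ι) (a : ι → Finset PrP) (α : ι → ℂ) : ℝ :=
  ∑ i ∈ I, ∑ j ∈ I, if a i = a j then ‖α i‖ * ‖α j‖ else 0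

/-- **Type II, non-critical range, index form**: `B < N(b) ≤ 2B`, `N(a_i) ≤ X/B`. -/
def TIIx_Prop : Prop := ∀ (l : ℤ) (A : ℕ) (η : ℝ), 0 < η → ∃ (C0 K : ℝ) (X0 : ℕ), ∀ X : ℕ, X0 ≤ X →
  ∀ (B : ℝ) (β : Finset PrP → ℂ), (X : ℝ) ^ ((1 : ℝ) / 3) * LX X ^ C0 ≤ B →
    B ≤ (X : ℝ) ^ (1 / 2 - η) → SWc β →
    (∀ T, β T ≠ 0 → (∀ p ∈ T, wX X ≤ nm p.1) ∧ B < nm (prd T) ∧ (nm (prd T) : ℝ) ≤ 2 * B) →
  ∀ (ι : Type) (I : Finset ι) (a : ι → Finset PrP) (g : ι → ℝ) (α : ι → ℂ),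
    (∀ i ∈ I, (nm (prd (a i)) : ℝ) ≤ X / B) →
    ‖Ix l X I a g α β‖ ≤
      K * (X : ℝ) ^ ((1 : ℝ) / 3) * Real.sqrt B * Real.sqrt (Mu I a α) / LX X ^ A

/-- **Type II, critical range, index form.** -/
def TIIcx_Prop : Prop := ∃ η : ℝ, 0 < η ∧ ∀ (l : ℤ) (A : ℕ), ∃ (K : ℝ) (X0 : ℕ), ∀ X : ℕ, X0 ≤ X →
  ∀ (B : ℝ) (β : Finset PrP → ℂ), (X : ℝ) ^ (1 / 2 - η) ≤ B → B ≤ (X : ℝ) ^ (1 / 2 + η) → SWc β →
    (∀ T, β T ≠ 0 → 2 ≤ T.card ∧ (∀ p ∈ T, (X : ℝ) ^ (0.06 : ℝ) ≤ nm p.1) ∧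
      B < nm (prd T) ∧ (nm (prd T) : ℝ) ≤ 2 * B) →
  ∀ (ι : Type) (I : Finset ι) (a : ι → Finset PrP) (g : ι → ℝ) (α : ι → ℂ),
    (∀ i ∈ I, (nm (prd (a i)) : ℝ) ≤ X / B) →
    ‖Ix l X I a g α β‖ ≤
      K * (X : ℝ) ^ ((1 : ℝ) / 3) * Real.sqrt B * Real.sqrt (Mu I a α) / LX X ^ A

/-- **arbitrary coefficients, index form**, upper bound only, `X^0.34 ≤ B ≤ X^0.41`; the
weight `D^{ω(b)}` on the `β`-side is necessary (helper645). -/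
def T0x_Prop : Prop := ∀ l : ℤ, ∃ (D K : ℝ) (X0 : ℕ), 1 ≤ D ∧ ∀ X : ℕ, X0 ≤ X →
  ∀ (B : ℝ) (β : Finset PrP → ℂ), (X : ℝ) ^ (0.34 : ℝ) ≤ B → B ≤ (X : ℝ) ^ (0.41 : ℝ) →
    (∀ T, β T ≠ 0 → B < nm (prd T) ∧ (nm (prd T) : ℝ) ≤ 2 * B) →
  ∀ (ι : Type) (I : Finset ι) (a : ι → Finset PrP) (g : ι → ℝ) (α : ι → ℂ),
    (∀ i ∈ I, (nm (prd (a i)) : ℝ) ≤ X / B) →
    ‖Ix l X I a g α β‖ ≤ LX X ^ K * (X : ℝ) ^ ((1 : ℝ) / 3) *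
      Real.sqrt (∑ T ∈ (UX X).powerset, D ^ T.card * ‖β T‖ ^ 2) * Real.sqrt (Mu I a α)

/-- **Type II, non-critical range.**  `α` arbitrary bounded, `β` in the class `SWc`. -/
def TII_Prop : Prop := ∀ (l : ℤ) (A : ℕ) (η : ℝ), 0 < η → ∃ (C0 K : ℝ) (X0 : ℕ), ∀ X : ℕ, X0 ≤ X →
  ∀ α β : Finset PrP → ℂ, (∀ S, ‖α S‖ ≤ 1) → SWc β →
    (∀ T, β T ≠ 0 → T.Nonempty ∧ (∀ p ∈ T, wX X ≤ nm p.1) ∧
      (X : ℝ) ^ ((1 : ℝ) / 3) * LX X ^ C0 ≤ nm (prd T) ∧ (nm (prd T) : ℝ) ≤ (X : ℝ) ^ (1 / 2 - η)) →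
    ‖Bil l X α β‖ ≤ K * (X : ℝ) ^ ((5 : ℝ) / 6) / LX X ^ A

/-- **Type II, critical range** `N(b) ≈ X^(1/2)`; `b` has at least two primes, all `≥ X^0.06`. -/
def TIIc_Prop : Prop := ∃ η : ℝ, 0 < η ∧ ∀ (l : ℤ) (A : ℕ), ∃ (K : ℝ) (X0 : ℕ), ∀ X : ℕ, X0 ≤ X →
  ∀ α β : Finset PrP → ℂ, (∀ S, ‖α S‖ ≤ 1) → SWc β →
    (∀ T, β T ≠ 0 → 2 ≤ T.card ∧ (∀ p ∈ T, (X : ℝ) ^ (0.06 : ℝ) ≤ nm p.1) ∧
      (X : ℝ) ^ (1 / 2 - η) ≤ nm (prd T) ∧ (nm (prd T) : ℝ) ≤ (X : ℝ) ^ (1 / 2 + η)) →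
    ‖Bil l X α β‖ ≤ K * (X : ℝ) ^ ((5 : ℝ) / 6) / LX X ^ A

/-- **arbitrary coefficients**, upper bound only, `X^0.34 ≤ N(b) ≤ X^0.41`; loss `(log X)^K` and
`D^{ω(b)}`. -/
def T0_Prop : Prop := ∀ l : ℤ, ∃ (D K : ℝ) (X0 : ℕ), 1 ≤ D ∧ ∀ X : ℕ, X0 ≤ X →
  ∀ (A B : ℝ) (α β : Finset PrP → ℂ), 1 ≤ A → (X : ℝ) ^ (0.34 : ℝ) ≤ B → B ≤ (X : ℝ) ^ (0.41 : ℝ) →
    (∀ S, α S ≠ 0 → A < nm (prd S) ∧ (nm (prd S) : ℝ) ≤ 2 * A) →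
    (∀ T, β T ≠ 0 → B < nm (prd T) ∧ (nm (prd T) : ℝ) ≤ 2 * B) →
    ‖Bil l X α β‖ ≤ LX X ^ K * (X : ℝ) ^ ((5 : ℝ) / 6) *
      Real.sqrt ((∑ S ∈ (UX X).powerset, ‖α S‖ ^ 2) / A) *
      Real.sqrt ((∑ T ∈ (UX X).powerset, D ^ T.card * ‖β T‖ ^ 2) / B)

open Classical in
/-- **edge triples** `N(p_i) < X^(1/3) (log X)^C0`, ordered triples. -/
def Edge_Prop : Prop := ∀ (l : ℤ) (C0 : ℝ), ∃ (K : ℝ) (X0 : ℕ), ∀ X : ℕ, X0 ≤ X →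
  let P := (UX X).filter (fun p => (nm p.1 : ℝ) < (X : ℝ) ^ ((1 : ℝ) / 3) * LX X ^ C0)
  ‖∑ p ∈ P, ∑ q ∈ P, ∑ r ∈ P, FX l X (p.1 * q.1 * r.1)‖ ≤
    K * (X : ℝ) ^ ((5 : ℝ) / 6) / LX X ^ (5 / 4 : ℝ)

open Classical in
/-- NOT NEEDED any more (v4).  primes near `X^(1/2)`, index form, `β = ` indicator of the primes
with `lo ≤ N(p) < hi`, `B < N(p) ≤ 2B`. -/
def SNHx_Prop : Prop := ∃ η : ℝ, 0 < η ∧ ∀ (l : ℤ) (A : ℕ), ∃ (K : ℝ) (X0 : ℕ), ∀ X : ℕ, X0 ≤ X →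
  ∀ (B : ℝ) (lo hi : ℕ), (X : ℝ) ^ (1 / 2 - η) ≤ B → B ≤ (X : ℝ) ^ (1 / 2 + η) →
    B < lo → (hi : ℝ) ≤ 2 * B →
  ∀ (ι : Type) (I : Finset ι) (a : ι → Finset PrP) (g : ι → ℝ) (α : ι → ℂ),
    (∀ i ∈ I, (nm (prd (a i)) : ℝ) ≤ X / B) →
    ‖Ix l X I a g α (fun T => if ∃ p : PrP, T = {p} ∧ lo ≤ nm p.1 ∧ nm p.1 < hi then 1 else 0)‖ ≤
      K * (X : ℝ) ^ ((1 : ℝ) / 3) * Real.sqrt B * Real.sqrt (Mu I a α) / LX X ^ A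

open Classical in
/-- **primes near `X^(1/2)`**, `α` arbitrary bounded. -/
def SNH_Prop : Prop := ∃ η : ℝ, 0 < η ∧ ∀ (l : ℤ) (A : ℕ), ∃ (K : ℝ) (X0 : ℕ), ∀ X : ℕ, X0 ≤ X →
  ∀ (α : Finset PrP → ℂ) (V₁ V₂ : ℝ), (∀ S, ‖α S‖ ≤ 1) →
    (X : ℝ) ^ (1 / 2 - η) ≤ V₁ → V₂ ≤ (X : ℝ) ^ (1 / 2 + η) →
    ‖∑ S ∈ (UX X).powerset, ∑ p ∈ (UX X).filter (fun p => V₁ ≤ nm p.1 ∧ (nm p.1 : ℝ) ≤ V₂),
        α S * FX l X (prd S * p.1)‖ ≤ K * (X : ℝ) ^ ((5 : ℝ) / 6) / LX X ^ A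

/-- (828); plain conclusion: the index form `SNHx_Prop` would need an `ℓ²` type I input
(helper522). -/
def SNH_of : Prop := TI_Prop → TIIx_Prop → TIIcx_Prop → T0x_Prop → SNH_Prop

/-- (IXR) the index forms imply the plain forms (dyadic decomposition). -/
def Ix_of : Prop := (TIIx_Prop → TII_Prop) ∧ (TIIcx_Prop → TIIc_Prop) ∧ (T0x_Prop → T0_Prop)

open Classical in
/-- **output of the sieve**: `∑_{X/2 < N(p) ≤ X} F_l(p) = O(X^(5/6)/(log X)^(5/4))`. -/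
def Dyadic_Prop : Prop := ∀ l : ℤ, ∃ (K : ℝ) (X0 : ℕ), ∀ X : ℕ, X0 ≤ X →
  ‖∑ p ∈ (primBall X).filter (fun p => Prime p ∧ X < 2 * nm p),
      ang l p * (G p - ((pC * (nm p : ℝ) ^ (-(1 : ℝ) / 6) : ℝ) : ℂ))‖ ≤
    K * (X : ℝ) ^ ((5 : ℝ) / 6) / LX X ^ (5 / 4 : ℝ)

/-- (812) the sieve theorem. -/
def Sieve_of : Prop :=
  TI_Prop → TII_Prop → TIIc_Prop → T0_Prop → SNH_Prop → Edge_Prop → Dyadic_Prop

/-- (277/713) the final step. -/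
def Final_of : Prop := Dyadic_Prop → ∀ l : ℤ,
  Tendsto (fun X : ℕ => defect l X / (((X : ℝ) ^ ((5 : ℝ) / 6) / Real.log (X : ℝ) : ℝ) : ℂ))
    atTop (𝓝 0)

/-- everything together. -/
theorem s14core (hIx : Ix_of) (hSNH : SNH_of) (hS : Sieve_of) (hF : Final_of) (hI : TI_Prop)
    (hII : TIIx_Prop) (hIIc : TIIcx_Prop) (h0 : T0x_Prop) (hE : Edge_Prop) (l : ℤ) :
    Tendsto (fun X : ℕ => defect l X / (((X : ℝ) ^ ((5 : ℝ) / 6) / Real.log (X : ℝ) : ℝ) : ℂ))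
      atTop (𝓝 0) :=
  hF (hS hI (hIx.1 hII) (hIx.2.1 hIIc) (hIx.2.2 h0) (hSNH hI hII hIIc h0) hE) l

end Crest.Agent.R012.Main48
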