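import Crest.Agent.R012.Spec_CR_290
import Crest.Agent.R012.SpecMain_48
import Crest.Agent.R012.LScount_448

/-!
# Row 12, (CR): `CRProd` for coefficients in the class `SWc` (helper852)

`crbeta : CRProd → ...` : for `β` in the Siegel–Walfisz class `Main48.SWc`, supported on products of
at least two primes `≥ X^0.06`, of norm in `(B, 2B]`, `X^0.45 ≤ B ≤ X^0.55`, and any multiplicative
twist `θ` with `|θ| ≤ 1` (uniformly),
`∑_{y ∈ S} |∑_T β_T θ(prd T) (num y / prd T)|^2 ≤ K (2B)^(7/3-δ)` for `S` a set of cubefree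
numerators of norm `≤ (2B)^(1+δ)`.
-/

set_option autoImplicit false

noncomputable section

open Complex Finset

namespace Crest.Agent.R012.CRbeta852

open Crest.Agent.R012 Eis Buch420 CR290

/-- sums over subsets: split off the largest element -/
lemma sum_max {A : Type*} [LinearOrder A] (U : Finset A) (f : Finset A → ℂ) (h0 : f ∅ = 0) :
    ∑ T ∈ U.powerset, f T =
      ∑ T ∈ U.powerset, ∑ p ∈ U.filter (fun p => ∀ q ∈ T, q < p), f (insert p T) := by
  have h1 : ∑ T ∈ U.powerset, f T = ∑ T ∈ U.powerset.filter (fun T => T.Nonempty), f T := by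
    rw [Finset.sum_filter]
    refine Finset.sum_congr rfl fun T _ => ?_
    split_ifs with h
    · rfl
    · rw [Finset.not_nonempty_iff_eq_empty.mp h, h0]
  rw [h1, Finset.sum_sigma']
  symm
  refine Finset.sum_bij (fun x _ => insert x.2 x.1) ?_ ?_ ?_ ?_
  · intro x hx
    rw [Finset.mem_sigma, Finset.mem_powerset, Finset.mem_filter] at hx
    rw [Finset.mem_filter, Finset.mem_powerset]
    exact ⟨Finset.insert_subset hx.2.1 hx.1, Finset.insert_nonempty _ _⟩
  · rintro ⟨T, p⟩ hx ⟨T', p'⟩ hx' h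
    rw [Finset.mem_sigma, Finset.mem_powerset, Finset.mem_filter] at hx hx'
    simp only at hx hx' h
    have hpp : p = p' := by
      refine le_antisymm ?_ ?_
      · have : p ∈ insert p' T' := by rw [← h]; exact Finset.mem_insert_self _ _
        rcases Finset.mem_insert.mp this with h2 | h2
        · exact h2.le
        · exact (hx'.2.2 p h2).le
      · have : p' ∈ insert p T := by rw [h]; exact Finset.mem_insert_self _ _
        rcases Finset.mem_insert.mp this with h2 | h2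
        · exact h2.le
        · exact (hx.2.2 p' h2).le
    subst hpp
    have hT : p ∉ T := fun hc => lt_irrefl _ (hx.2.2 p hc)
    have hT' : p ∉ T' := fun hc => lt_irrefl _ (hx'.2.2 p hc)
    have : T = T' := by
      rw [← Finset.erase_insert hT, ← Finset.erase_insert hT', h]
    subst this
    rfl
  · intro T hT
    rw [Finset.mem_filter, Finset.mem_powerset] at hT
    obtain ⟨hTU, hne⟩ := hT
    refine ⟨⟨T.erase (T.max' hne), T.max' hne⟩, ?_, ?_⟩
    · rw [Finset.mem_sigma, Finset.mem_powerset, Finset.mem_filter]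
      refine ⟨(Finset.erase_subset _ _).trans hTU, hTU (Finset.max'_mem T hne), ?_⟩
      intro q hq
      simp only at hq ⊢
      rw [Finset.mem_erase] at hq
      exact lt_of_le_of_ne (Finset.le_max' _ _ hq.2) hq.1
    · exact Finset.insert_erase (Finset.max'_mem T hne)
  · intro x _
    rfl

/-- rank in a finite set -/
def rk {A : Type*} [LinearOrder A] (U : Finset A) (p : A) : ℕ := (U.filter (fun q => q < p)).card

lemma rk_lt_iff {A : Type*} [LinearOrder A] (U L : Finset A)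
    (hL : ∀ q ∈ U, ∀ r ∈ L, q ≤ r → q ∈ L) (hLU : L ⊆ U) {p : A} (hp : p ∈ U) :
    rk U p < L.card ↔ p ∈ L := by
  constructor
  · intro h
    by_contra hc
    have : L ⊆ U.filter (fun q => q < p) := by
      intro r hr
      rw [Finset.mem_filter]
      refine ⟨hLU hr, ?_⟩
      by_contra h2
      exact hc (hL p hp r hr (not_lt.mp h2))
    exact absurd h (not_lt.mpr (Finset.card_le_card this))
  · intro h
    have : U.filter (fun q => q < p) ⊂ L := by
      rw [Finset.ssubset_iff_of_subset]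
      · exact ⟨p, h, by simp⟩
      · intro q hq
        rw [Finset.mem_filter] at hq
        exact hL q hq.1 p h hq.2.le
    exact Finset.card_lt_card this

lemma rk_lt_card {A : Type*} [LinearOrder A] (U : Finset A) {p : A} (hp : p ∈ U) :
    rk U p < U.card := (rk_lt_iff U U (fun _ hq _ _ _ => hq) (Finset.Subset.refl _) hp).mpr hp

lemma rk_le_card {A : Type*} [LinearOrder A] (U : Finset A) (p : A) :
    rk U p ≤ U.card := Finset.card_le_card (Finset.filter_subset _ _)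

/-- the underlying element -/
def pv (p : PrP) : Eis := p.1

lemma pv_inj : Function.Injective pv := fun _ _ h => Subtype.ext h

open Classical in
/-- rank of an element of `Eis` among the primes of `U` -/
def ph1 (U : Finset PrP) (x : Eis) : ℕ := if h : IsPrim x ∧ Prime x then rk U ⟨x, h⟩ else 0

/-- reversed rank -/
def ph2 (U : Finset PrP) (x : Eis) : ℕ := U.card - ph1 U x

/-- number of primes below the upper limit -/
def ps1 (U : Finset PrP) (hi : Finset PrP → ℕ) (d : Eis) : ℕ :=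
  (U.filter (fun q => nm q.1 < hi (pset d))).card

/-- primes excluded by the lower conditions -/
def LL (U : Finset PrP) (lo : Finset PrP → ℕ) (T : Finset PrP) : Finset PrP :=
  U.filter (fun q => nm q.1 < lo T ∨ ∃ r ∈ T, q ≤ r)

lemma mem_LL {U : Finset PrP} {lo : Finset PrP → ℕ} {T : Finset PrP} {p : PrP} :
    p ∈ LL U lo T ↔ p ∈ U ∧ (nm p.1 < lo T ∨ ∃ r ∈ T, p ≤ r) := Finset.mem_filter

/-- reversed number of the primes excluded by the lower conditions -/
def ps2 (U : Finset PrP) (lo : Finset PrP → ℕ) (d : Eis) : ℕ :=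
  U.card + 1 - (LL U lo (pset d)).card

lemma ph1_coe (U : Finset PrP) (p : PrP) : ph1 U p.1 = rk U p := by
  unfold ph1; rw [dif_pos p.2]; rfl

lemma ph1_le (U : Finset PrP) (x : Eis) : ph1 U x ≤ U.card := by
  unfold ph1
  split_ifs with h
  · exact rk_le_card _ _
  · exact Nat.zero_le _

lemma cond_iff (U : Finset PrP) (lo hi : Finset PrP → ℕ) (T : Finset PrP) {p : PrP} (hp : p ∈ U) :
    (ph1 U p.1 < ps1 U hi (prd T) ∧ ph2 U p.1 < ps2 U lo (prd T)) ↔
      ((∀ q ∈ T, q < p) ∧ (lo T ≤ nm p.1 ∧ nm p.1 < hi T)) := by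
  have h1 : ph1 U p.1 < ps1 U hi (prd T) ↔ nm p.1 < hi T := by
    unfold ps1
    rw [ph1_coe, pset_prd, rk_lt_iff U _ ?_ (Finset.filter_subset _ _) hp]
    · rw [Finset.mem_filter]
      exact ⟨fun h => h.2, fun h => ⟨hp, h⟩⟩
    · intro q hq r hr hqr
      rw [Finset.mem_filter] at hr ⊢
      exact ⟨hq, lt_of_le_of_lt (PrP.nm_le_of_le hqr) hr.2⟩
  have h2 : ph2 U p.1 < ps2 U lo (prd T) ↔ ¬ (nm p.1 < lo T ∨ ∃ r ∈ T, p ≤ r) := by
    have h3 : rk U p < (LL U lo T).card ↔ p ∈ LL U lo T := by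
      refine rk_lt_iff U (LL U lo T) ?_ (Finset.filter_subset _ _) hp
      intro q hq r hr hqr
      refine mem_LL.mpr ⟨hq, ?_⟩
      rcases (mem_LL.mp hr).2 with h | ⟨s, hs, h⟩
      · exact Or.inl (lt_of_le_of_lt (PrP.nm_le_of_le hqr) h)
      · exact Or.inr ⟨s, hs, hqr.trans h⟩
    have h4 : p ∈ LL U lo T ↔ (nm p.1 < lo T ∨ ∃ r ∈ T, p ≤ r) := by
      rw [mem_LL]
      exact ⟨fun h => h.2, fun h => ⟨hp, h⟩⟩
    rw [← h4, ← h3]
    unfold ph2 ps2
    rw [ph1_coe, pset_prd]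
    have h5 := rk_lt_card U hp
    have h6 : (LL U lo T).card ≤ U.card := Finset.card_le_card (Finset.filter_subset _ _)
    omega
  rw [h1, h2]
  push Not
  tauto

open Classical in
lemma sum_identity (U P : Finset PrP) (β c : Finset PrP → ℂ) (lo hi : Finset PrP → ℕ)
    (hint : ∀ (T : Finset PrP) (p : PrP), (∀ q ∈ T, q < p) →
      β (insert p T) = if lo T ≤ nm p.1 ∧ nm p.1 < hi T then c T else 0)
    (h0 : β ∅ = 0) (hPU : P ⊆ U)
    (hr : ∀ T ∈ U.powerset, ∀ p ∈ U, (∀ q ∈ T, q < p) → β (insert p T) ≠ 0 → T.Nonempty ∧ p ∈ P)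
    (θ : Eis → ℂ) (hθ : ∀ a b, IsPrim a → IsPrim b → θ (a * b) = θ a * θ b) (s : Eis → ℂ) :
    ∑ T ∈ U.powerset, β T * θ (prd T) * s (prd T) =
      ∑ x ∈ P.image pv, ∑ d ∈ (U.powerset.filter
          (fun T => T.Nonempty ∧ c T ≠ 0)).image prd,
        (if ph1 U x < ps1 U hi d ∧ ph2 U x < ps2 U lo d then (1 : ℂ) else 0) *
          (θ x * (c (pset d) * θ d) * s (x * d)) := by
  rw [sum_max U (fun T => β T * θ (prd T) * s (prd T)) (by simp [h0])]
  rw [Finset.sum_image (fun a _ b _ h => pv_inj h)]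
  have h1 : ∀ p ∈ P, ∑ d ∈ (U.powerset.filter
          (fun T => T.Nonempty ∧ c T ≠ 0)).image prd,
        (if ph1 U (pv p) < ps1 U hi d ∧ ph2 U (pv p) < ps2 U lo d then (1 : ℂ) else 0) *
          (θ (pv p) * (c (pset d) * θ d) * s (pv p * d)) =
      ∑ T ∈ U.powerset.filter (fun T => T.Nonempty ∧ c T ≠ 0),
        (if (∀ q ∈ T, q < p) ∧ (lo T ≤ nm p.1 ∧ nm p.1 < hi T) then (1 : ℂ) else 0) *
          (θ p.1 * (c T * θ (prd T)) * s (p.1 * prd T)) := by
    intro p hp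
    rw [Finset.sum_image (fun a _ b _ h => prd_injective h)]
    refine Finset.sum_congr rfl fun T _ => ?_
    have h2 := cond_iff U lo hi T (hPU hp)
    rw [pset_prd]
    simp only [pv, h2]
  rw [Finset.sum_congr rfl h1, Finset.sum_comm]
  symm
  refine Finset.sum_subset_zero_on_sdiff (Finset.filter_subset _ _) ?_ ?_
  · intro T hT
    rw [Finset.mem_sdiff, Finset.mem_filter] at hT
    refine Finset.sum_eq_zero fun p hp => ?_
    rw [Finset.mem_filter] at hp
    by_cases hβ : β (insert p T) = 0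
    · rw [hβ]; ring
    · exfalso
      have h2 := hr T hT.1 p hp.1 hp.2 hβ
      rw [hint T p hp.2] at hβ
      refine hT.2 ⟨hT.1, h2.1, ?_⟩
      intro hc
      apply hβ
      rw [hc]; simp
  · intro T hT
    rw [Finset.mem_filter] at hT
    rw [Finset.sum_filter]
    refine Finset.sum_subset_zero_on_sdiff hPU ?_ ?_
    · intro p hp
      rw [Finset.mem_sdiff] at hp
      split_ifs with h
      · by_cases hβ : β (insert p T) = 0
        · rw [hβ]; ring
        · exact absurd (hr T hT.1 p hp.1 h hβ).2 hp.2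
      · rfl
    · intro p _
      by_cases h : ∀ q ∈ T, q < p
      · rw [if_pos h, hint T p h]
        have hpT : p ∉ T := fun hc => lt_irrefl _ (h p hc)
        rw [prd_insert hpT, hθ _ _ p.isPrim (isPrim_prd T)]
        by_cases h2 : lo T ≤ nm p.1 ∧ nm p.1 < hi T
        · rw [if_pos h2, if_pos ⟨h, h2⟩]; ring
        · rw [if_neg h2, if_neg (fun hc => h2 hc.2)]; ring
      · rw [if_neg h, if_neg (fun hc => h hc.1)]; ring

lemma card_UX_le {X : ℕ} (hX : 1 ≤ X) : (UX X).card ≤ 16 * X := by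
  classical
  refine le_trans ?_ (LS448.card_ball_le hX)
  have h : (UX X).card = ((UX X).image pv).card :=
    (Finset.card_image_of_injective _ pv_inj).symm
  rw [h]
  refine Finset.card_le_card ?_
  intro x hx
  rw [Finset.mem_image] at hx
  obtain ⟨p, hp, rfl⟩ := hx
  exact mem_ball.mpr (mem_UX.mp hp)

lemma rng {x B : ℝ} (hx : 2 ^ 20 ≤ x) (hB1 : x ^ (0.45 : ℝ) ≤ B) (hB2 : B ≤ x ^ (0.55 : ℝ)) :
    1 ≤ B ∧ (2 * B) ^ (0.1 : ℝ) ≤ x ^ (0.06 : ℝ) ∧ 16 * x + 1 ≤ (2 * B) ^ 3 := by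
  have hx1 : (1 : ℝ) ≤ x := le_trans (by norm_num) hx
  have hx0 : 0 < x := by linarith
  have hB : 1 ≤ B := le_trans (Real.one_le_rpow hx1 (by norm_num)) hB1
  have key : ∀ (a b : ℝ), 0 ≤ a → 20 * a = b → (2 : ℝ) ^ b ≤ x ^ a := by
    intro a b ha hab
    rw [← hab, Real.rpow_mul (by norm_num)]
    refine Real.rpow_le_rpow (by positivity) ?_ ha
    refine le_trans (le_of_eq ?_) hx
    rw [← Real.rpow_natCast]; norm_num
  refine ⟨hB, ?_, ?_⟩
  · have h1 : (2 * B) ^ (0.1 : ℝ) ≤ (2 * x ^ (0.55 : ℝ)) ^ (0.1 : ℝ) :=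
      Real.rpow_le_rpow (by linarith) (by linarith) (by norm_num)
    refine h1.trans ?_
    rw [Real.mul_rpow (by norm_num) (by positivity), ← Real.rpow_mul hx0.le]
    have h2 : x ^ (0.06 : ℝ) = x ^ (0.005 : ℝ) * x ^ ((0.55 : ℝ) * 0.1) := by
      rw [← Real.rpow_add hx0]; norm_num
    rw [h2]
    exact mul_le_mul_of_nonneg_right (key _ _ (by norm_num) (by norm_num)) (by positivity)
  · have h1 : (x ^ (0.45 : ℝ)) ^ 3 ≤ B ^ 3 := pow_le_pow_left₀ (by positivity) hB1 3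
    have h2 : (x ^ (0.45 : ℝ)) ^ 3 = x * x ^ (0.35 : ℝ) := by
      rw [← Real.rpow_natCast, ← Real.rpow_mul hx0.le]
      nth_rewrite 2 [← Real.rpow_one x]
      rw [← Real.rpow_add hx0]; norm_num
    have h3 : (128 : ℝ) ≤ x ^ (0.35 : ℝ) := by
      have := key 0.35 7 (by norm_num) (by norm_num)
      refine le_trans (le_of_eq ?_) this
      rw [show (7 : ℝ) = ((7 : ℕ) : ℝ) by norm_num, Real.rpow_natCast]; norm_num
    have h4 : x * 128 ≤ x * x ^ (0.35 : ℝ) := mul_le_mul_of_nonneg_left h3 hx0.le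
    have h5 : (2 * B) ^ 3 = 8 * B ^ 3 := by ring
    rw [h5]
    linarith

open Classical in
/-- **(CR) for the class `SWc`.** -/
theorem crbeta (hCR : CRProd) : ∃ δ K : ℝ, 0 < δ ∧ 0 < K ∧ ∀ X : ℕ, 2 ^ 20 ≤ X →
    ∀ (B : ℝ) (β : Finset PrP → ℂ), (X : ℝ) ^ (0.45 : ℝ) ≤ B → B ≤ (X : ℝ) ^ (0.55 : ℝ) →
      Main48.SWc β →
    (∀ T, β T ≠ 0 → 2 ≤ T.card ∧ (∀ p ∈ T, (X : ℝ) ^ (0.06 : ℝ) ≤ nm p.1) ∧
      (nm (prd T) : ℝ) ≤ 2 * B) →
    ∀ θ : Eis → ℂ, (∀ a b, IsPrim a → IsPrim b → θ (a * b) = θ a * θ b) → (∀ a, ‖θ a‖ ≤ 1) →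
    ∀ S : Finset Tup, IsTS S ((2 * B) ^ (1 + δ)) →
      ∑ y ∈ S, ‖∑ T ∈ (UX X).powerset, β T * θ (prd T) * sy (num y) (prd T)‖ ^ 2
        ≤ K * (2 * B) ^ (7 / 3 - δ) := by
  obtain ⟨δ, K, hδ, hK, h⟩ := hCR 0.1 (by norm_num)
  refine ⟨δ, K, hδ, hK, ?_⟩
  intro X hX B β hB1 hB2 hβ hsupp θ hθ hθ1 S hS
  have hXr : (2 : ℝ) ^ 20 ≤ X := by exact_mod_cast hX
  have hX1 : 1 ≤ X := le_trans (by norm_num) hX
  obtain ⟨hB, hr1, hr2⟩ := rng hXr hB1 hB2
  obtain ⟨c, lo, hi, hc1, hint⟩ := hβ.int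
  have h2B : (0 : ℝ) < 2 * B := by linarith
  have hXp : (0 : ℝ) < (X : ℝ) ^ (0.06 : ℝ) := Real.rpow_pos_of_pos (by positivity) _
  have h0 : β ∅ = 0 := by
    by_contra hc
    have := (hsupp _ hc).1
    simp at this
  set U := UX X with hU
  set P : Finset PrP := U.filter (fun p => (2 * B) ^ (0.1 : ℝ) ≤ nm p.1 ∧
    (nm p.1 : ℝ) ≤ (2 * B) ^ (0.9 : ℝ)) with hP
  have hPU : P ⊆ U := Finset.filter_subset _ _
  have hrange : ∀ T ∈ U.powerset, ∀ p ∈ U, (∀ q ∈ T, q < p) → β (insert p T) ≠ 0 →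
      T.Nonempty ∧ p ∈ P := by
    intro T hT p hp hTp hb
    obtain ⟨hcard, hlow, hup⟩ := hsupp _ hb
    have hpT : p ∉ T := fun hc => lt_irrefl _ (hTp p hc)
    rw [Finset.card_insert_of_notMem hpT] at hcard
    have hne : T.Nonempty := Finset.card_pos.mp (by omega)
    refine ⟨hne, ?_⟩
    obtain ⟨q, hq⟩ := hne
    have hp1 := hlow p (Finset.mem_insert_self _ _)
    have hq1 := hlow q (Finset.mem_insert_of_mem hq)
    rw [hP, Finset.mem_filter]
    refine ⟨hp, hr1.trans hp1, ?_⟩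
    rw [prd_insert hpT, nm_mul] at hup
    push_cast at hup
    have hqd : (nm q.1 : ℝ) ≤ nm (prd T) := by
      exact_mod_cast nm_le_of_dvd' (prd_ne_zero T) (dvd_prd_iff.mpr hq)
    have h3 : (nm p.1 : ℝ) * (X : ℝ) ^ (0.06 : ℝ) ≤ (2 * B) ^ (0.9 : ℝ) * (X : ℝ) ^ (0.06 : ℝ) := by
      calc (nm p.1 : ℝ) * (X : ℝ) ^ (0.06 : ℝ) ≤ nm p.1 * nm (prd T) :=
            mul_le_mul_of_nonneg_left (hq1.trans hqd) (by positivity)
        _ ≤ 2 * B := hup
        _ = (2 * B) ^ (0.9 : ℝ) * (2 * B) ^ (0.1 : ℝ) := by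
            rw [← Real.rpow_add h2B]; norm_num
        _ ≤ (2 * B) ^ (0.9 : ℝ) * (X : ℝ) ^ (0.06 : ℝ) :=
            mul_le_mul_of_nonneg_left hr1 (by positivity)
    exact le_of_mul_le_mul_right h3 hXp
  have hM : ((U.card : ℝ) + 1) ≤ (2 * B) ^ 3 := by
    refine le_trans ?_ hr2
    have : (U.card : ℝ) ≤ 16 * X := by exact_mod_cast card_UX_le hX1
    linarith
  have hfin := h (2 * B) (by linarith) (P.image pv)
    ((U.powerset.filter (fun T => T.Nonempty ∧ c T ≠ 0)).image prd) θ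
    (fun d => c (pset d) * θ d) (ph1 U) (ph2 U) (ps1 U hi) (ps2 U lo) ?_ ?_ ?_ ?_ ?_ ?_ S hS
  · refine le_trans (le_of_eq ?_) hfin
    refine Finset.sum_congr rfl fun y _ => ?_
    rw [sum_identity U P β c lo hi hint h0 hPU hrange θ hθ (sy (num y))]
  · intro x hx
    rw [Finset.mem_image] at hx
    obtain ⟨p, hp, rfl⟩ := hx
    rw [hP, Finset.mem_filter] at hp
    exact ⟨p.isPrim, p.prime, hp.2.1, hp.2.2⟩
  · intro d hd
    rw [Finset.mem_image] at hd
    obtain ⟨T, -, rfl⟩ := hd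
    exact isPrim_prd T
  · intro p _; exact hθ1 p
  · intro d _
    rw [norm_mul]
    exact mul_le_one₀ (hc1 _) (norm_nonneg _) (hθ1 _)
  · intro x
    have h1 : (ph1 U x : ℝ) ≤ U.card := by exact_mod_cast ph1_le U x
    have h2 : (ph2 U x : ℝ) ≤ U.card := by
      have : ph2 U x ≤ U.card := by unfold ph2; omega
      exact_mod_cast this
    have h3 : (ps1 U hi x : ℝ) ≤ U.card := by
      have : ps1 U hi x ≤ U.card := Finset.card_le_card (Finset.filter_subset _ _)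
      exact_mod_cast this
    have h4 : (ps2 U lo x : ℝ) ≤ U.card + 1 := by
      have : ps2 U lo x ≤ U.card + 1 := by unfold ps2; omega
      exact_mod_cast this
    refine ⟨?_, ?_, ?_, ?_⟩ <;> linarith
  · intro x hx d hd h1 h2
    rw [Finset.mem_image] at hx hd
    obtain ⟨p, hp, rfl⟩ := hx
    obtain ⟨T, hT, rfl⟩ := hd
    rw [Finset.mem_filter] at hT
    have hc := (cond_iff U lo hi T (hPU hp)).mp ⟨h1, h2⟩
    have hb : β (insert p T) ≠ 0 := by
      rw [hint T p hc.1, if_pos hc.2]; exact hT.2.2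
    have hup := (hsupp _ hb).2.2
    have hpT : p ∉ T := fun hc' => lt_irrefl _ (hc.1 p hc')
    rw [prd_insert hpT, nm_mul] at hup
    push_cast at hup
    exact hup

/-! ### twists -/

lemma ang_mul' (l : ℤ) (a b : Eis) : ang l (a * b) = ang l a * ang l b := by
  unfold ang
  rw [← mul_zpow]
  congr 1
  rw [map_mul, norm_mul]
  push_cast
  rw [mul_div_mul_comm]

lemma norm_ang_le' (l : ℤ) (z : Eis) : ‖ang l z‖ ≤ 1 := by
  unfold ang
  by_cases h : toC z = 0
  · rw [h]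
    simp only [norm_zero, Complex.ofReal_zero, div_zero]
    by_cases hl : l = 0
    · simp [hl]
    · rw [zero_zpow _ hl]; simp
  · have : ‖toC z / (‖toC z‖ : ℂ)‖ = 1 := by
      rw [norm_div, Complex.norm_real, norm_norm, div_self (norm_ne_zero_iff.mpr h)]
    rw [norm_zpow, this, one_zpow]

/-- the twist `(b/|b|)^l N(b)^{it}` -/
def tw (l : ℤ) (t : ℝ) (b : Eis) : ℂ := ang l b * (nm b : ℂ) ^ ((t : ℂ) * I)

lemma tw_mul (l : ℤ) (t : ℝ) (a b : Eis) : tw l t (a * b) = tw l t a * tw l t b := by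
  unfold tw
  rw [ang_mul', nm_mul, Nat.cast_mul, Complex.natCast_mul_natCast_cpow]
  ring

lemma norm_natCast_cpow_le (n : ℕ) (t : ℝ) : ‖(n : ℂ) ^ ((t : ℂ) * I)‖ ≤ 1 := by
  rcases Nat.eq_zero_or_pos n with rfl | hn
  · by_cases ht : (t : ℂ) * I = 0
    · rw [ht]; simp
    · rw [Nat.cast_zero, Complex.zero_cpow ht]; simp
  · rw [Complex.norm_natCast_cpow_of_pos hn]
    simp

lemma norm_tw_le (l : ℤ) (t : ℝ) (b : Eis) : ‖tw l t b‖ ≤ 1 := by
  unfold tw
  rw [norm_mul]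
  exact mul_le_one₀ (norm_ang_le' _ _) (norm_nonneg _) (norm_natCast_cpow_le _ _)

open Classical in
/-- `crbeta` with the twists `(b/|b|)^l N(b)^{it}`, uniformly in `l` and `t`. -/
theorem crbeta_tw (hCR : CRProd) : ∃ δ K : ℝ, 0 < δ ∧ 0 < K ∧ ∀ X : ℕ, 2 ^ 20 ≤ X →
    ∀ (B : ℝ) (β : Finset PrP → ℂ), (X : ℝ) ^ (0.45 : ℝ) ≤ B → B ≤ (X : ℝ) ^ (0.55 : ℝ) →
      Main48.SWc β →
    (∀ T, β T ≠ 0 → 2 ≤ T.card ∧ (∀ p ∈ T, (X : ℝ) ^ (0.06 : ℝ) ≤ nm p.1) ∧
      (nm (prd T) : ℝ) ≤ 2 * B) →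
    ∀ (l : ℤ) (t : ℝ), ∀ S : Finset Tup, IsTS S ((2 * B) ^ (1 + δ)) →
      ∑ y ∈ S, ‖∑ T ∈ (UX X).powerset,
          β T * ang l (prd T) * (nm (prd T) : ℂ) ^ ((t : ℂ) * I) * sy (num y) (prd T)‖ ^ 2
        ≤ K * (2 * B) ^ (7 / 3 - δ) := by
  obtain ⟨δ, K, hδ, hK, h⟩ := crbeta hCR
  refine ⟨δ, K, hδ, hK, ?_⟩
  intro X hX B β hB1 hB2 hβ hsupp l t S hS
  refine le_trans (le_of_eq ?_) (h X hX B β hB1 hB2 hβ hsupp (tw l t)
    (fun a b _ _ => tw_mul l t a b) (norm_tw_le l t) S hS)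
  refine Finset.sum_congr rfl fun y _ => ?_
  congr 2
  refine Finset.sum_congr rfl fun T _ => ?_
  unfold tw
  ring

end Crest.Agent.R012.CRbeta852
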