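import Crest.Agent.R012.Defs

/-!
# Row 12, item W6: mean value theorems in `t`  (helper400)

* `mv_gauss`    : Gallagher/Gaussian majorant form
* `mv_spacing`  : at most `D` frequencies in every interval of length `1/T`
* `mv_eis`      : `∫_{-T}^{T} |Σ a_n N(n)^{it}|² ≤ C (N + T √N) Σ |a_n|²` over Eisenstein integers
* `mv_eis_dt`   : the version with the weight `dt/|t|` on `T₁ ≤ |t| ≤ T₂`
-/

set_option autoImplicit false

noncomputable section

open Complex MeasureTheory Set Crest.Agent.R012 Crest.Agent.R012.Eis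

namespace Crest.Agent.R012.MV400

variable {ι : Type*}

/-! ## The Gaussian majorant -/

lemma gauss_ft (T x : ℝ) (hT : 0 < T) :
    ∫ t : ℝ, cexp (I * (x : ℂ) * (t : ℂ)) * cexp (-((1 / T ^ 2 : ℝ) : ℂ) * (t : ℂ) ^ 2) =
      ((Real.sqrt Real.pi * T * Real.exp (-(T * x) ^ 2 / 4) : ℝ) : ℂ) := by
  have hb : 0 < ((1 / T ^ 2 : ℝ) : ℂ).re := by
    rw [Complex.ofReal_re]; positivity
  have h := fourierIntegral_gaussian hb (x : ℂ)
  rw [h]
  have h1 : ((Real.pi : ℂ) / ((1 / T ^ 2 : ℝ) : ℂ)) = ((Real.pi * T ^ 2 : ℝ) : ℂ) := by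
    push_cast
    field_simp
  rw [h1]
  have h2 : (((Real.pi * T ^ 2 : ℝ) : ℂ)) ^ (1 / 2 : ℂ) = ((Real.sqrt Real.pi * T : ℝ) : ℂ) := by
    have h3 : (1 / 2 : ℂ) = ((1 / 2 : ℝ) : ℂ) := by push_cast; ring
    rw [h3, ← Complex.ofReal_cpow (by positivity)]
    congr 1
    rw [← Real.sqrt_eq_rpow, Real.sqrt_mul Real.pi_pos.le, Real.sqrt_sq hT.le]
  rw [h2]
  have h4 : cexp (-(x : ℂ) ^ 2 / (4 * ((1 / T ^ 2 : ℝ) : ℂ))) =
      ((Real.exp (-(T * x) ^ 2 / 4) : ℝ) : ℂ) := by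
    rw [Complex.ofReal_exp]
    congr 1
    push_cast
    field_simp
  rw [h4]
  push_cast
  ring

lemma integrable_gauss (T : ℝ) (hT : 0 < T) :
    Integrable (fun t : ℝ => Real.exp (-(1 / T ^ 2) * t ^ 2)) :=
  integrable_exp_neg_mul_sq (by positivity)

lemma integrable_gauss_osc (T x : ℝ) (hT : 0 < T) :
    Integrable (fun t : ℝ => cexp (I * (x : ℂ) * (t : ℂ)) *
      cexp (-((1 / T ^ 2 : ℝ) : ℂ) * (t : ℂ) ^ 2)) := by
  refine Integrable.mono' (integrable_gauss T hT) ?_ ?_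
  · apply Continuous.aestronglyMeasurable
    fun_prop
  · filter_upwards with t
    rw [norm_mul, Complex.norm_exp, Complex.norm_exp]
    have h1 : (I * (x : ℂ) * (t : ℂ)).re = 0 := by
      simp
    have h2 : (-((1 / T ^ 2 : ℝ) : ℂ) * (t : ℂ) ^ 2).re = -(1 / T ^ 2) * t ^ 2 := by
      rw [← Complex.ofReal_pow, ← Complex.ofReal_neg, ← Complex.ofReal_mul, Complex.ofReal_re]
    rw [h1, h2, Real.exp_zero, one_mul]

/-- The trigonometric polynomial with frequencies `x j`. -/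
def trig (s : Finset ι) (a : ι → ℂ) (x : ι → ℝ) (t : ℝ) : ℂ :=
  ∑ j ∈ s, a j * cexp (I * (x j : ℂ) * (t : ℂ))

lemma continuous_trig (s : Finset ι) (a : ι → ℂ) (x : ι → ℝ) : Continuous (trig s a x) := by
  unfold trig
  fun_prop

lemma norm_trig_sq (s : Finset ι) (a : ι → ℂ) (x : ι → ℝ) (t : ℝ) :
    ((‖trig s a x t‖ ^ 2 : ℝ) : ℂ) =
      ∑ j ∈ s, ∑ k ∈ s, (a j * (starRingEnd ℂ) (a k)) * cexp (I * ((x j - x k : ℝ) : ℂ) * (t : ℂ)) := by
  have h : ((‖trig s a x t‖ ^ 2 : ℝ) : ℂ) = trig s a x t * (starRingEnd ℂ) (trig s a x t) := by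
    rw [Complex.mul_conj, Complex.normSq_eq_norm_sq]
  rw [h]
  unfold trig
  rw [map_sum, Finset.sum_mul_sum]
  refine Finset.sum_congr rfl fun j _ => Finset.sum_congr rfl fun k _ => ?_
  rw [map_mul, ← Complex.exp_conj]
  have h2 : (starRingEnd ℂ) (I * (x k : ℂ) * (t : ℂ)) = -(I * (x k : ℂ) * (t : ℂ)) := by
    simp
  rw [h2]
  have h3 : cexp (I * ((x j - x k : ℝ) : ℂ) * (t : ℂ)) =
      cexp (I * (x j : ℂ) * (t : ℂ)) * cexp (-(I * (x k : ℂ) * (t : ℂ))) := by
    rw [← Complex.exp_add]; congr 1; push_cast; ring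
  rw [h3]; ring

/-- `∫ |A(t)|² e^{-t²/T²} dt` computed exactly. -/
lemma integral_gauss_trig (s : Finset ι) (a : ι → ℂ) (x : ι → ℝ) (T : ℝ) (hT : 0 < T) :
    ((∫ t : ℝ, ‖trig s a x t‖ ^ 2 * Real.exp (-(1 / T ^ 2) * t ^ 2) : ℝ) : ℂ) =
      ∑ j ∈ s, ∑ k ∈ s, (a j * (starRingEnd ℂ) (a k)) *
        ((Real.sqrt Real.pi * T * Real.exp (-(T * (x j - x k)) ^ 2 / 4) : ℝ) : ℂ) := by
  rw [← integral_complex_ofReal]
  have h : ∀ t : ℝ, ((‖trig s a x t‖ ^ 2 * Real.exp (-(1 / T ^ 2) * t ^ 2) : ℝ) : ℂ) =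
      ∑ j ∈ s, ∑ k ∈ s, (a j * (starRingEnd ℂ) (a k)) *
        (cexp (I * ((x j - x k : ℝ) : ℂ) * (t : ℂ)) *
          cexp (-((1 / T ^ 2 : ℝ) : ℂ) * (t : ℂ) ^ 2)) := by
    intro t
    rw [Complex.ofReal_mul, norm_trig_sq, Finset.sum_mul]
    refine Finset.sum_congr rfl fun j _ => ?_
    rw [Finset.sum_mul]
    refine Finset.sum_congr rfl fun k _ => ?_
    rw [Complex.ofReal_exp]
    push_cast
    ring
  simp_rw [h]
  rw [integral_finsetSum]
  · refine Finset.sum_congr rfl fun j _ => ?_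
    rw [integral_finsetSum]
    · refine Finset.sum_congr rfl fun k _ => ?_
      rw [integral_const_mul, gauss_ft T _ hT]
    · intro k _
      exact (integrable_gauss_osc T _ hT).const_mul _
  · intro j _
    refine integrable_finsetSum _ fun k _ => ?_
    exact (integrable_gauss_osc T _ hT).const_mul _

/-- **Gallagher-type inequality with the Gaussian kernel.** -/
theorem mv_gauss (s : Finset ι) (a : ι → ℂ) (x : ι → ℝ) (T : ℝ) (hT : 0 < T) :
    ∫ t in (-T)..T, ‖trig s a x t‖ ^ 2 ≤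
      5 * T * ∑ j ∈ s, ‖a j‖ ^ 2 * ∑ k ∈ s, Real.exp (-(T * (x j - x k)) ^ 2 / 4) := by
  have hint : Integrable (fun t : ℝ => ‖trig s a x t‖ ^ 2 * Real.exp (-(1 / T ^ 2) * t ^ 2)) := by
    obtain ⟨M, hM⟩ : ∃ M : ℝ, ∀ t, ‖trig s a x t‖ ≤ M := by
      refine ⟨∑ j ∈ s, ‖a j‖, fun t => ?_⟩
      unfold trig
      refine (norm_sum_le _ _).trans (Finset.sum_le_sum fun j _ => ?_)
      rw [norm_mul]
      have : ‖cexp (I * (x j : ℂ) * (t : ℂ))‖ = 1 := by
        rw [Complex.norm_exp]; simp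
      rw [this, mul_one]
    refine Integrable.mono' ((integrable_gauss T hT).const_mul (M ^ 2)) ?_ ?_
    · apply Continuous.aestronglyMeasurable
      have := continuous_trig s a x
      fun_prop
    · filter_upwards with t
      rw [Real.norm_eq_abs, abs_of_nonneg (by positivity)]
      have := hM t
      gcongr
  -- step 1: pass to the Gaussian weight
  have h1 : ∫ t in (-T)..T, ‖trig s a x t‖ ^ 2 ≤
      Real.exp 1 * ∫ t : ℝ, ‖trig s a x t‖ ^ 2 * Real.exp (-(1 / T ^ 2) * t ^ 2) := by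
    rw [intervalIntegral.integral_of_le (by linarith), ← integral_const_mul]
    calc ∫ t in Ioc (-T) T, ‖trig s a x t‖ ^ 2
        ≤ ∫ t in Ioc (-T) T,
            Real.exp 1 * (‖trig s a x t‖ ^ 2 * Real.exp (-(1 / T ^ 2) * t ^ 2)) := by
          refine setIntegral_mono_on ?_ ?_ measurableSet_Ioc ?_
          · have := continuous_trig s a x
            exact (Continuous.integrableOn_Icc (by fun_prop)).mono_set Ioc_subset_Icc_self
          · exact (hint.const_mul _).integrableOn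
          · intro t ht
            have h2 : 1 ≤ Real.exp 1 * Real.exp (-(1 / T ^ 2) * t ^ 2) := by
              rw [← Real.exp_add]
              apply Real.one_le_exp
              have : t ^ 2 ≤ T ^ 2 := sq_le_sq' ht.1.le ht.2
              have h3 : 1 / T ^ 2 * t ^ 2 ≤ 1 := by
                rw [one_div, inv_mul_le_iff₀ (by positivity)]
                linarith
              linarith
            have h4 : 0 ≤ ‖trig s a x t‖ ^ 2 := by positivity
            nlinarith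
      _ ≤ ∫ t : ℝ, Real.exp 1 * (‖trig s a x t‖ ^ 2 * Real.exp (-(1 / T ^ 2) * t ^ 2)) := by
          refine setIntegral_le_integral (hint.const_mul _) ?_
          filter_upwards with t
          positivity
  -- step 2: exact formula and `2|ab| ≤ |a|²+|b|²`
  have h2 : ∫ t : ℝ, ‖trig s a x t‖ ^ 2 * Real.exp (-(1 / T ^ 2) * t ^ 2) ≤
      Real.sqrt Real.pi * T *
        ∑ j ∈ s, ‖a j‖ ^ 2 * ∑ k ∈ s, Real.exp (-(T * (x j - x k)) ^ 2 / 4) := by
    have h0 : 0 ≤ ∫ t : ℝ, ‖trig s a x t‖ ^ 2 * Real.exp (-(1 / T ^ 2) * t ^ 2) :=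
      integral_nonneg fun t => by positivity
    have h3 : ∫ t : ℝ, ‖trig s a x t‖ ^ 2 * Real.exp (-(1 / T ^ 2) * t ^ 2) =
        ‖((∫ t : ℝ, ‖trig s a x t‖ ^ 2 * Real.exp (-(1 / T ^ 2) * t ^ 2) : ℝ) : ℂ)‖ := by
      rw [Complex.norm_real, Real.norm_eq_abs, abs_of_nonneg h0]
    rw [h3, integral_gauss_trig s a x T hT]
    calc ‖∑ j ∈ s, ∑ k ∈ s, (a j * (starRingEnd ℂ) (a k)) *
          ((Real.sqrt Real.pi * T * Real.exp (-(T * (x j - x k)) ^ 2 / 4) : ℝ) : ℂ)‖
        ≤ ∑ j ∈ s, ∑ k ∈ s, (‖a j‖ ^ 2 + ‖a k‖ ^ 2) / 2 *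
            (Real.sqrt Real.pi * T * Real.exp (-(T * (x j - x k)) ^ 2 / 4)) := by
          refine (norm_sum_le _ _).trans (Finset.sum_le_sum fun j _ => ?_)
          refine (norm_sum_le _ _).trans (Finset.sum_le_sum fun k _ => ?_)
          rw [norm_mul, norm_mul, RCLike.norm_conj, Complex.norm_real, Real.norm_eq_abs,
            abs_of_nonneg (by positivity : (0 : ℝ) ≤
              Real.sqrt Real.pi * T * Real.exp (-(T * (x j - x k)) ^ 2 / 4))]
          refine mul_le_mul_of_nonneg_right ?_ (by positivity)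
          nlinarith [sq_nonneg (‖a j‖ - ‖a k‖)]
      _ = Real.sqrt Real.pi * T *
            ∑ j ∈ s, ‖a j‖ ^ 2 * ∑ k ∈ s, Real.exp (-(T * (x j - x k)) ^ 2 / 4) := by
          have hsplit : ∀ j k, (‖a j‖ ^ 2 + ‖a k‖ ^ 2) / 2 *
              (Real.sqrt Real.pi * T * Real.exp (-(T * (x j - x k)) ^ 2 / 4)) =
              (Real.sqrt Real.pi * T / 2) * (‖a j‖ ^ 2 * Real.exp (-(T * (x j - x k)) ^ 2 / 4)) +
              (Real.sqrt Real.pi * T / 2) *
                (‖a k‖ ^ 2 * Real.exp (-(T * (x j - x k)) ^ 2 / 4)) := by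
            intro j k; ring
          simp_rw [hsplit, Finset.sum_add_distrib, ← Finset.mul_sum]
          have hsw : ∑ j ∈ s, ∑ k ∈ s, ‖a k‖ ^ 2 * Real.exp (-(T * (x j - x k)) ^ 2 / 4) =
              ∑ j ∈ s, ‖a j‖ ^ 2 * ∑ k ∈ s, Real.exp (-(T * (x j - x k)) ^ 2 / 4) := by
            rw [Finset.sum_comm]
            refine Finset.sum_congr rfl fun j _ => ?_
            rw [Finset.mul_sum]
            refine Finset.sum_congr rfl fun k _ => ?_
            congr 2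
            ring
          rw [hsw]
          ring
  have h5 : Real.exp 1 * Real.sqrt Real.pi ≤ 5 := by
    have e1 : Real.exp 1 ≤ 2.7182818286 := Real.exp_one_lt_d9.le
    have e2 : Real.sqrt Real.pi ≤ 1.7726 := by
      rw [show (1.7726 : ℝ) = Real.sqrt (1.7726 ^ 2) by
        rw [Real.sqrt_sq (by norm_num)]]
      apply Real.sqrt_le_sqrt
      have := Real.pi_lt_d4
      norm_num at this ⊢
      linarith
    calc Real.exp 1 * Real.sqrt Real.pi ≤ 2.7182818286 * 1.7726 := by gcongr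
      _ ≤ 5 := by norm_num
  have hS : 0 ≤ ∑ j ∈ s, ‖a j‖ ^ 2 * ∑ k ∈ s, Real.exp (-(T * (x j - x k)) ^ 2 / 4) := by
    positivity
  calc ∫ t in (-T)..T, ‖trig s a x t‖ ^ 2
      ≤ Real.exp 1 * ∫ t : ℝ, ‖trig s a x t‖ ^ 2 * Real.exp (-(1 / T ^ 2) * t ^ 2) := h1
    _ ≤ Real.exp 1 * (Real.sqrt Real.pi * T *
        ∑ j ∈ s, ‖a j‖ ^ 2 * ∑ k ∈ s, Real.exp (-(T * (x j - x k)) ^ 2 / 4)) := by gcongr
    _ = (Real.exp 1 * Real.sqrt Real.pi) * (T *
        ∑ j ∈ s, ‖a j‖ ^ 2 * ∑ k ∈ s, Real.exp (-(T * (x j - x k)) ^ 2 / 4)) := by ring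
    _ ≤ 5 * (T *
        ∑ j ∈ s, ‖a j‖ ^ 2 * ∑ k ∈ s, Real.exp (-(T * (x j - x k)) ^ 2 / 4)) := by gcongr
    _ = _ := by ring

/-! ## Counting frequencies in intervals of length `1/T` -/

lemma sum_exp_neg_natAbs_le (F : Finset ℤ) :
    ∑ m ∈ F, Real.exp (-|(m : ℝ)|) ≤ 4 := by
  have hgeo : Summable (fun n : ℕ => Real.exp (-1) ^ n) :=
    summable_geometric_of_lt_one (Real.exp_pos _).le (by
      rw [Real.exp_lt_one_iff]; norm_num)
  have htsum : ∑' n : ℕ, Real.exp (-1) ^ n ≤ 2 := by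
    rw [tsum_geometric_of_lt_one (Real.exp_pos _).le (by rw [Real.exp_lt_one_iff]; norm_num)]
    have h1 : Real.exp (-1) ≤ 1 / 2 := by
      rw [Real.exp_neg, one_div]
      apply inv_anti₀ (by norm_num)
      have := Real.exp_one_gt_d9
      linarith
    rw [inv_le_comm₀ (by linarith) (by norm_num)]
    linarith
  have hpow : ∀ n : ℕ, Real.exp (-(n : ℝ)) = Real.exp (-1) ^ n := by
    intro n
    rw [← Real.exp_nat_mul]; congr 1; ring
  have key : ∀ (A : Finset ℤ), (Set.InjOn Int.natAbs A) →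
      ∑ m ∈ A, Real.exp (-|(m : ℝ)|) ≤ 2 := by
    intro A hA
    calc ∑ m ∈ A, Real.exp (-|(m : ℝ)|) = ∑ m ∈ A, Real.exp (-1) ^ (Int.natAbs m) := by
          refine Finset.sum_congr rfl fun m _ => ?_
          rw [← hpow, Nat.cast_natAbs, Int.cast_abs]
      _ = ∑ n ∈ A.image Int.natAbs, Real.exp (-1) ^ n := by
          rw [Finset.sum_image hA]
      _ ≤ ∑' n : ℕ, Real.exp (-1) ^ n :=
          hgeo.sum_le_tsum _ (fun n _ => by positivity)
      _ ≤ 2 := htsum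
  rw [← Finset.sum_filter_add_sum_filter_not F (fun m => 0 ≤ m)]
  have h1 := key (F.filter (fun m => 0 ≤ m)) (by
    intro a ha b hb hab
    simp only [Finset.coe_filter, Set.mem_ofPred_eq] at ha hb
    omega)
  have h2 := key (F.filter (fun m => ¬ 0 ≤ m)) (by
    intro a ha b hb hab
    simp only [Finset.coe_filter, Set.mem_ofPred_eq] at ha hb
    omega)
  linarith

lemma gauss_sum_le (s : Finset ι) (x : ι → ℝ) (T : ℝ) (hT : 0 < T) (D : ℝ)
    (hD : ∀ u : ℝ, (((s.filter (fun k => u ≤ x k ∧ x k < u + 1 / T)).card : ℕ) : ℝ) ≤ D) (y : ℝ) :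
    ∑ k ∈ s, Real.exp (-(T * (y - x k)) ^ 2 / 4) ≤ 30 * D := by
  classical
  have hD0 : 0 ≤ D := le_trans (Nat.cast_nonneg _) (hD 0)
  set m : ι → ℤ := fun k => ⌊T * (x k - y)⌋ with hm
  have h1 : ∀ k ∈ s, Real.exp (-(T * (y - x k)) ^ 2 / 4) ≤
      Real.exp 2 * Real.exp (-|(m k : ℝ)|) := by
    intro k _
    rw [← Real.exp_add]
    apply Real.exp_le_exp.mpr
    have h2 : (m k : ℝ) ≤ T * (x k - y) := Int.floor_le _
    have h3 : T * (x k - y) < m k + 1 := Int.lt_floor_add_one _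
    have h4 : |(m k : ℝ)| ≤ |T * (x k - y)| + 1 := by
      have : |(m k : ℝ) - T * (x k - y)| ≤ 1 := by
        rw [abs_le]; constructor <;> linarith
      calc |(m k : ℝ)| = |((m k : ℝ) - T * (x k - y)) + T * (x k - y)| := by ring_nf
        _ ≤ |(m k : ℝ) - T * (x k - y)| + |T * (x k - y)| := abs_add_le _ _
        _ ≤ _ := by linarith
    have h5 : (T * (y - x k)) ^ 2 = |T * (x k - y)| ^ 2 := by
      rw [sq_abs]; ring
    rw [h5]
    nlinarith [sq_nonneg (|T * (x k - y)| / 2 - 1)]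
  calc ∑ k ∈ s, Real.exp (-(T * (y - x k)) ^ 2 / 4)
      ≤ ∑ k ∈ s, Real.exp 2 * Real.exp (-|(m k : ℝ)|) := Finset.sum_le_sum h1
    _ = ∑ j ∈ s.image m, ∑ k ∈ s.filter (fun k => m k = j),
          Real.exp 2 * Real.exp (-|(m k : ℝ)|) := by
        rw [Finset.sum_fiberwise_of_maps_to]
        intro k hk
        exact Finset.mem_image_of_mem _ hk
    _ ≤ ∑ j ∈ s.image m, D * (Real.exp 2 * Real.exp (-|(j : ℝ)|)) := by
        refine Finset.sum_le_sum fun j _ => ?_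
        have : ∑ k ∈ s.filter (fun k => m k = j), Real.exp 2 * Real.exp (-|(m k : ℝ)|) =
            ((s.filter (fun k => m k = j)).card : ℝ) * (Real.exp 2 * Real.exp (-|(j : ℝ)|)) := by
          rw [Finset.sum_congr rfl (g := fun _ => Real.exp 2 * Real.exp (-|(j : ℝ)|))]
          · rw [Finset.sum_const, nsmul_eq_mul]
          · intro k hk
            rw [(Finset.mem_filter.mp hk).2]
        rw [this]
        refine mul_le_mul_of_nonneg_right ?_ (by positivity)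
        refine le_trans ?_ (hD (y + j / T))
        norm_cast
        refine Finset.card_le_card fun k hk => ?_
        rw [Finset.mem_filter] at hk ⊢
        refine ⟨hk.1, ?_⟩
        have h2 : (m k : ℝ) ≤ T * (x k - y) := Int.floor_le _
        have h3 : T * (x k - y) < m k + 1 := Int.lt_floor_add_one _
        rw [hk.2] at h2 h3
        constructor
        · have : (j : ℝ) / T ≤ x k - y := by
            rw [div_le_iff₀ hT]; linarith
          linarith
        · have : x k - y < (j + 1 : ℝ) / T := by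
            rw [lt_div_iff₀ hT]; linarith
          have h6 : ((j : ℝ) + 1) / T = j / T + 1 / T := by ring
          linarith
    _ = D * Real.exp 2 * ∑ j ∈ s.image m, Real.exp (-|(j : ℝ)|) := by
        rw [Finset.mul_sum]
        refine Finset.sum_congr rfl fun j _ => ?_
        ring
    _ ≤ D * Real.exp 2 * 4 := by
        refine mul_le_mul_of_nonneg_left (sum_exp_neg_natAbs_le _) (by positivity)
    _ ≤ 30 * D := by
        have h2 : Real.exp 2 ≤ 7.4 := by
          have : Real.exp 2 = Real.exp 1 * Real.exp 1 := by rw [← Real.exp_add]; norm_num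
          rw [this]
          have := Real.exp_one_lt_d9
          have h0 := Real.exp_pos 1
          nlinarith
        nlinarith

/-- **Mean value theorem, abstract form**: if every interval of length `1/T` contains at most `D`
of the frequencies, then `∫_{-T}^{T} |Σ a_j e^{i x_j t}|² dt ≤ 150 T D Σ |a_j|²`. -/
theorem mv_spacing (s : Finset ι) (a : ι → ℂ) (x : ι → ℝ) (T : ℝ) (hT : 0 < T) (D : ℝ)
    (hD : ∀ u : ℝ, (((s.filter (fun k => u ≤ x k ∧ x k < u + 1 / T)).card : ℕ) : ℝ) ≤ D) :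
    ∫ t in (-T)..T, ‖trig s a x t‖ ^ 2 ≤ 150 * T * D * ∑ j ∈ s, ‖a j‖ ^ 2 := by
  refine (mv_gauss s a x T hT).trans ?_
  have h : ∑ j ∈ s, ‖a j‖ ^ 2 * ∑ k ∈ s, Real.exp (-(T * (x j - x k)) ^ 2 / 4) ≤
      ∑ j ∈ s, ‖a j‖ ^ 2 * (30 * D) := by
    refine Finset.sum_le_sum fun j _ => ?_
    exact mul_le_mul_of_nonneg_left (gauss_sum_le s x T hT D hD (x j)) (by positivity)
  rw [← Finset.sum_mul] at h
  calc 5 * T * ∑ j ∈ s, ‖a j‖ ^ 2 * ∑ k ∈ s, Real.exp (-(T * (x j - x k)) ^ 2 / 4)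
      ≤ 5 * T * ((∑ j ∈ s, ‖a j‖ ^ 2) * (30 * D)) := by gcongr
    _ = 150 * T * D * ∑ j ∈ s, ‖a j‖ ^ 2 := by ring

/-! ## Lattice points in annuli -/

lemma norm_sub_le_polar (z z' : ℂ) :
    ‖z - z'‖ ≤ |‖z‖ - ‖z'‖| + ‖z'‖ * |z.arg - z'.arg| := by
  have h1 : z = (‖z‖ : ℂ) * cexp (z.arg * I) := (Complex.norm_mul_exp_arg_mul_I z).symm
  have h2 : z' = (‖z'‖ : ℂ) * cexp (z'.arg * I) := (Complex.norm_mul_exp_arg_mul_I z').symm
  have h3 : z - z' = ((‖z‖ - ‖z'‖ : ℝ) : ℂ) * cexp (z.arg * I) +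
      (‖z'‖ : ℂ) * (cexp (z'.arg * I) * (cexp (I * ((z.arg - z'.arg : ℝ) : ℂ)) - 1)) := by
    have h4 : cexp (z.arg * I) = cexp (z'.arg * I) * cexp (I * ((z.arg - z'.arg : ℝ) : ℂ)) := by
      rw [← Complex.exp_add]; congr 1; push_cast; ring
    calc z - z' = (‖z‖ : ℂ) * cexp (z.arg * I) - (‖z'‖ : ℂ) * cexp (z'.arg * I) := by
          rw [← h1, ← h2]
      _ = ((‖z‖ - ‖z'‖ : ℝ) : ℂ) * cexp (z.arg * I) +
          (‖z'‖ : ℂ) * (cexp (z.arg * I) - cexp (z'.arg * I)) := by push_cast; ring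
      _ = _ := by rw [h4]; ring
  have h5 : ∀ θ : ℝ, ‖cexp (θ * I)‖ = 1 := fun θ => Complex.norm_exp_ofReal_mul_I θ
  calc ‖z - z'‖ ≤ ‖((‖z‖ - ‖z'‖ : ℝ) : ℂ) * cexp (z.arg * I)‖ +
      ‖(‖z'‖ : ℂ) * (cexp (z'.arg * I) * (cexp (I * ((z.arg - z'.arg : ℝ) : ℂ)) - 1))‖ := by
        conv_lhs => rw [h3]
        exact norm_add_le _ _
    _ = |‖z‖ - ‖z'‖| + ‖z'‖ * ‖cexp (I * ((z.arg - z'.arg : ℝ) : ℂ)) - 1‖ := by
        rw [norm_mul, norm_mul, norm_mul, h5, h5, Complex.norm_real, Complex.norm_real,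
          Real.norm_eq_abs, Real.norm_eq_abs, abs_of_nonneg (norm_nonneg z')]
        ring
    _ ≤ |‖z‖ - ‖z'‖| + ‖z'‖ * |z.arg - z'.arg| := by
        gcongr
        exact Real.norm_exp_I_mul_ofReal_sub_one_le

lemma ball_card_le (X : ℕ) : (ball X).card ≤ (2 * X + 1) ^ 2 := by
  unfold ball
  refine (Finset.card_filter_le _ _).trans (Finset.card_image_le.trans ?_)
  rw [Finset.card_product, Int.card_Icc]
  have : ((X : ℤ) + 1 - -(X : ℤ)).toNat = 2 * X + 1 := by omega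
  rw [this]
  nlinarith

/-- Number of Eisenstein integers in an annulus. -/
lemma annulus_card (S : Finset Eis) (r1 r2 : ℝ) (h0 : 0 ≤ r1) (h12 : r1 ≤ r2)
    (hS : ∀ z ∈ S, r1 ≤ ‖toC z‖ ∧ ‖toC z‖ ≤ r2) :
    (S.card : ℝ) ≤ 49 * ((r2 - r1 + 2) * (7 * r2 + 9)) := by
  classical
  have hr2 : 0 ≤ r2 := h0.trans h12
  set f : Eis → ℤ × ℤ := fun z => (⌊‖toC z‖⌋, ⌊(toC z).arg * (r2 + 1)⌋) with hf
  set A : Finset (ℤ × ℤ) := Finset.Icc ⌊r1⌋ ⌊r2⌋ ×ˢ
    Finset.Icc ⌊-Real.pi * (r2 + 1)⌋ ⌊Real.pi * (r2 + 1)⌋ with hA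
  have hmaps : ∀ z ∈ S, f z ∈ A := by
    intro z hz
    obtain ⟨h1, h2⟩ := hS z hz
    rw [hA, Finset.mem_product, Finset.mem_Icc, Finset.mem_Icc]
    refine ⟨⟨Int.floor_le_floor h1, Int.floor_le_floor h2⟩, ?_, ?_⟩
    · apply Int.floor_le_floor
      have := Complex.neg_pi_lt_arg (toC z)
      have h3 : 0 ≤ r2 + 1 := by linarith
      nlinarith
    · apply Int.floor_le_floor
      have := Complex.arg_le_pi (toC z)
      have h3 : 0 ≤ r2 + 1 := by linarith
      nlinarith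
  have hfib : ∀ b ∈ A, ((S.filter (fun z => f z = b)).card) ≤ 49 := by
    intro b _
    rcases (S.filter (fun z => f z = b)).eq_empty_or_nonempty with he | ⟨z0, hz0⟩
    · rw [he]; simp
    · have hz0' := Finset.mem_filter.mp hz0
      refine le_trans ?_ (ball_card_le 3)
      refine Finset.card_le_card_of_injOn (fun z => z - z0) ?_ ?_
      · intro z hz
        have hz' := Finset.mem_filter.mp (Finset.mem_coe.mp hz)
        rw [Finset.mem_coe, mem_ball]
        have e1 : ⌊‖toC z‖⌋ = ⌊‖toC z0‖⌋ := by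
          have := hz'.2.trans hz0'.2.symm
          exact congrArg Prod.fst this
        have e2 : ⌊(toC z).arg * (r2 + 1)⌋ = ⌊(toC z0).arg * (r2 + 1)⌋ := by
          have := hz'.2.trans hz0'.2.symm
          exact congrArg Prod.snd this
        have a1 := Int.abs_sub_lt_one_of_floor_eq_floor e1
        have a2 := Int.abs_sub_lt_one_of_floor_eq_floor e2
        have a3 : |(toC z).arg - (toC z0).arg| * (r2 + 1) < 1 := by
          rw [← sub_mul, abs_mul, abs_of_nonneg (by linarith : (0:ℝ) ≤ r2 + 1)] at a2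
          exact a2
        have a4 := (hS z0 hz0'.1).2
        have a5 : ‖toC z - toC z0‖ < 2 := by
          refine (norm_sub_le_polar _ _).trans_lt ?_
          have a6 : ‖toC z0‖ * |(toC z).arg - (toC z0).arg| ≤ 1 := by
            have h7 : 0 ≤ |(toC z).arg - (toC z0).arg| := abs_nonneg _
            nlinarith [norm_nonneg (toC z0)]
          linarith
        have a7 : ((nm (z - z0) : ℕ) : ℝ) < 4 := by
          rw [← norm_toC_sq, map_sub]
          have := norm_nonneg (toC z - toC z0)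
          nlinarith
        have a8 : nm (z - z0) < 4 := by exact_mod_cast a7
        show nm (z - z0) ≤ 3
        omega
      · intro a _ b _ hab
        simpa using hab
  have hcard := Finset.card_le_mul_card_image_of_maps_to hmaps 49 hfib
  have hA1 : (A.card : ℝ) ≤ (r2 - r1 + 2) * (7 * r2 + 9) := by
    rw [hA, Finset.card_product, Int.card_Icc, Int.card_Icc]
    push_cast
    have c1 : (((⌊r2⌋ + 1 - ⌊r1⌋).toNat : ℕ) : ℝ) ≤ r2 - r1 + 2 := by
      have h3 : 0 ≤ ⌊r2⌋ + 1 - ⌊r1⌋ := by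
        have := Int.floor_le_floor h12
        omega
      have h4 : (((⌊r2⌋ + 1 - ⌊r1⌋).toNat : ℕ) : ℝ) = ((⌊r2⌋ + 1 - ⌊r1⌋ : ℤ) : ℝ) := by
        exact_mod_cast congrArg (Int.cast : ℤ → ℝ) (Int.toNat_of_nonneg h3)
      rw [h4]
      push_cast
      have := Int.floor_le r2
      have := Int.lt_floor_add_one r1
      linarith
    have c2 : (((⌊Real.pi * (r2 + 1)⌋ + 1 - ⌊-Real.pi * (r2 + 1)⌋).toNat : ℕ) : ℝ) ≤
        7 * r2 + 9 := by
      have hp := Real.pi_pos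
      have hp2 := Real.pi_lt_d2
      have h12' : -Real.pi * (r2 + 1) ≤ Real.pi * (r2 + 1) := by nlinarith
      have h3 : 0 ≤ ⌊Real.pi * (r2 + 1)⌋ + 1 - ⌊-Real.pi * (r2 + 1)⌋ := by
        have := Int.floor_le_floor h12'
        omega
      have h4 : (((⌊Real.pi * (r2 + 1)⌋ + 1 - ⌊-Real.pi * (r2 + 1)⌋).toNat : ℕ) : ℝ) =
          ((⌊Real.pi * (r2 + 1)⌋ + 1 - ⌊-Real.pi * (r2 + 1)⌋ : ℤ) : ℝ) := by
        exact_mod_cast congrArg (Int.cast : ℤ → ℝ) (Int.toNat_of_nonneg h3)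
      rw [h4]
      push_cast
      have h5 := Int.floor_le (Real.pi * (r2 + 1))
      have h6 := Int.lt_floor_add_one (-Real.pi * (r2 + 1))
      nlinarith
    gcongr
  calc (S.card : ℝ) ≤ ((49 * A.card : ℕ) : ℝ) := by exact_mod_cast hcard
    _ = 49 * (A.card : ℝ) := by push_cast; ring
    _ ≤ _ := by gcongr

/-! ## Mean value theorems over Eisenstein integers -/

/-- `N(z)^{it}`. -/
def nit (t : ℝ) (z : Eis) : ℂ := ((nm z : ℕ) : ℂ) ^ ((t : ℂ) * I)

lemma nit_eq {t : ℝ} {z : Eis} (hz : z ≠ 0) :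
    nit t z = cexp (I * ((Real.log (nm z) : ℝ) : ℂ) * (t : ℂ)) := by
  have h0 : ((nm z : ℕ) : ℂ) ≠ 0 := by
    rw [Nat.cast_ne_zero]
    exact fun h => hz (nm_eq_zero.mp h)
  unfold nit
  rw [Complex.cpow_def_of_ne_zero h0, ← Complex.natCast_log]
  congr 1
  ring

lemma nit_zero (z : Eis) : nit 0 z = 1 := by simp [nit]

lemma norm_nit {t : ℝ} {z : Eis} (hz : z ≠ 0) : ‖nit t z‖ = 1 := by
  rw [nit_eq hz, Complex.norm_exp]
  have : (I * ((Real.log (nm z) : ℝ) : ℂ) * (t : ℂ)).re = 0 := by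
    rw [mul_assoc, ← Complex.ofReal_mul, Complex.I_mul_re, Complex.ofReal_im, neg_zero]
  rw [this, Real.exp_zero]

lemma nit_add {t u : ℝ} {z : Eis} (hz : z ≠ 0) : nit (t + u) z = nit t z * nit u z := by
  rw [nit_eq hz, nit_eq hz, nit_eq hz, ← Complex.exp_add]
  congr 1; push_cast; ring

lemma nit_mul {t : ℝ} {z z' : Eis} : nit t (z * z') = nit t z * nit t z' := by
  unfold nit
  rw [nm_mul, Nat.cast_mul, Complex.natCast_mul_natCast_cpow]

lemma continuous_nit {z : Eis} (hz : z ≠ 0) : Continuous (fun t : ℝ => nit t z) := by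
  have : (fun t : ℝ => nit t z) =
      fun t : ℝ => cexp (I * ((Real.log (nm z) : ℝ) : ℂ) * (t : ℂ)) := by
    funext t; exact nit_eq hz
  rw [this]; fun_prop

/-- The Dirichlet polynomial `Σ a(z) N(z)^{it}`. -/
def dp (S : Finset Eis) (a : Eis → ℂ) (t : ℝ) : ℂ := ∑ z ∈ S, a z * nit t z

lemma dp_eq_trig {S : Finset Eis} (hS : ∀ z ∈ S, z ≠ 0) (a : Eis → ℂ) (t : ℝ) :
    dp S a t = trig S a (fun z => Real.log (nm z)) t := by
  unfold dp trig
  exact Finset.sum_congr rfl fun z hz => by rw [nit_eq (hS z hz)]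

lemma continuous_dp {S : Finset Eis} (hS : ∀ z ∈ S, z ≠ 0) (a : Eis → ℂ) :
    Continuous (dp S a) := by
  have : dp S a = trig S a (fun z => Real.log (nm z)) := by
    funext t; exact dp_eq_trig hS a t
  rw [this]; exact continuous_trig _ _ _

lemma nm_pos' {z : Eis} (hz : z ≠ 0) : (1 : ℝ) ≤ nm z := by
  have : 0 < nm z := Nat.pos_of_ne_zero fun h => hz (nm_eq_zero.mp h)
  exact_mod_cast this

/-- Number of elements of `S` with `log N(z)` in an interval of length `1/T`. -/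
lemma log_window_card (S : Finset Eis) (N T : ℝ) (hN : 1 ≤ N) (hT : 1 ≤ T)
    (hS : ∀ z ∈ S, z ≠ 0 ∧ (nm z : ℝ) ≤ N) (u : ℝ) :
    (((S.filter (fun z => u ≤ Real.log (nm z) ∧ Real.log (nm z) < u + 1 / T)).card : ℕ) : ℝ) ≤
      6000 * (N / T + Real.sqrt N) := by
  have hsN : 1 ≤ Real.sqrt N := by
    rw [show (1:ℝ) = Real.sqrt 1 by simp]; exact Real.sqrt_le_sqrt hN
  have hpos : 0 ≤ 6000 * (N / T + Real.sqrt N) := by positivity
  rcases (S.filter (fun z => u ≤ Real.log (nm z) ∧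
    Real.log (nm z) < u + 1 / T)).eq_empty_or_nonempty with he | ⟨z0, hz0⟩
  · rw [he]; simpa using hpos
  · have hz0' := Finset.mem_filter.mp hz0
    have hu : Real.exp u ≤ N := by
      have h1 := nm_pos' (hS z0 hz0'.1).1
      have h2 : u ≤ Real.log (nm z0) := hz0'.2.1
      calc Real.exp u ≤ Real.exp (Real.log (nm z0)) := Real.exp_le_exp.mpr h2
        _ = nm z0 := Real.exp_log (by linarith)
        _ ≤ N := (hS z0 hz0'.1).2
    set r1 : ℝ := Real.exp (u / 2) with hr1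
    set q : ℝ := Real.exp (1 / (2 * T)) with hq
    have hq1 : 1 ≤ q := Real.one_le_exp (by positivity)
    have hT0 : 0 < T := by linarith
    have hq2 : q ≤ 1 + 1 / T := by
      have h3 : 1 / (2 * T) ≤ 1 / 2 := by
        rw [div_le_div_iff₀ (by positivity) (by norm_num)]; linarith
      have h4 := Real.exp_bound_div_one_sub_of_interval (x := 1 / (2 * T)) (by positivity)
        (by linarith)
      have h5 : 1 / (1 - 1 / (2 * T)) ≤ 1 + 1 / T := by
        rw [div_le_iff₀ (by linarith)]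
        have h6 : 1 / T = 2 * (1 / (2 * T)) := by field_simp
        rw [h6]
        nlinarith [show 0 ≤ 1 / (2 * T) by positivity]
      exact h4.trans h5
    have hr1N : r1 ≤ Real.sqrt N := by
      apply Real.le_sqrt_of_sq_le
      rw [hr1, ← Real.exp_nat_mul]
      calc Real.exp (((2 : ℕ) : ℝ) * (u / 2)) = Real.exp u := by congr 1; push_cast; ring
        _ ≤ N := hu
    have hr1pos : 0 < r1 := Real.exp_pos _
    have hwin : ∀ z ∈ S.filter (fun z => u ≤ Real.log (nm z) ∧ Real.log (nm z) < u + 1 / T),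
        r1 ≤ ‖toC z‖ ∧ ‖toC z‖ ≤ r1 * q := by
      intro z hz
      have hz' := Finset.mem_filter.mp hz
      have h1 := nm_pos' (hS z hz'.1).1
      rw [norm_toC]
      have h2 : Real.sqrt (nm z) = Real.exp (Real.log (nm z) / 2) := by
        rw [Real.sqrt_eq_rpow, Real.rpow_def_of_pos (by linarith)]
        congr 1; ring
      rw [h2, hr1, hq, ← Real.exp_add]
      constructor
      · apply Real.exp_le_exp.mpr; linarith [hz'.2.1]
      · apply Real.exp_le_exp.mpr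
        have h3 : 1 / (2 * T) = (1 / T) / 2 := by field_simp
        rw [h3]
        linarith [hz'.2.2]
    have hc := annulus_card _ r1 (r1 * q) hr1pos.le (by nlinarith) hwin
    refine hc.trans ?_
    -- numerical estimate
    have hT1 : 1 / T ≤ 1 := by rw [div_le_one hT0]; exact hT
    have hq3 : q ≤ 2 := by linarith
    have k1 : r1 * q - r1 ≤ Real.sqrt N / T := by
      have : r1 * q - r1 = r1 * (q - 1) := by ring
      rw [this]
      calc r1 * (q - 1) ≤ Real.sqrt N * (1 / T) := by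
            apply mul_le_mul hr1N (by linarith) (by linarith) (by positivity)
        _ = Real.sqrt N / T := by ring
    have k2 : r1 * q ≤ 2 * Real.sqrt N := by nlinarith
    have k3 : 0 ≤ r1 * q - r1 := by nlinarith
    have hsq : Real.sqrt N * Real.sqrt N = N := Real.mul_self_sqrt (by linarith)
    calc 49 * ((r1 * q - r1 + 2) * (7 * (r1 * q) + 9))
        ≤ 49 * ((Real.sqrt N / T + 2) * (7 * (2 * Real.sqrt N) + 9 * Real.sqrt N)) := by
          gcongr
          linarith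
      _ = 1127 * (Real.sqrt N * Real.sqrt N / T) + 2254 * Real.sqrt N := by ring
      _ = 1127 * (N / T) + 2254 * Real.sqrt N := by rw [hsq]
      _ ≤ 6000 * (N / T + Real.sqrt N) := by
          have : 0 ≤ N / T := by positivity
          linarith

/-- **Mean value theorem for Dirichlet polynomials over `ℤ[ω]`**:
`∫_{-T}^{T} |Σ a(z) N(z)^{it}|² dt ≤ C (N + T √N) Σ |a(z)|²`, no logarithmic loss for `T ≤ √N`. -/
theorem mv_eis (S : Finset Eis) (N T : ℝ) (hN : 1 ≤ N) (hT : 1 ≤ T)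
    (hS : ∀ z ∈ S, z ≠ 0 ∧ (nm z : ℝ) ≤ N) (a : Eis → ℂ) :
    ∫ t in (-T)..T, ‖dp S a t‖ ^ 2 ≤
      900000 * (N + T * Real.sqrt N) * ∑ z ∈ S, ‖a z‖ ^ 2 := by
  have h := mv_spacing S a (fun z => Real.log (nm z)) T (by linarith)
    (6000 * (N / T + Real.sqrt N)) (log_window_card S N T hN hT hS)
  have h2 : ∀ t, dp S a t = trig S a (fun z => Real.log (nm z)) t :=
    fun t => dp_eq_trig (fun z hz => (hS z hz).1) a t
  simp_rw [h2]
  refine h.trans (le_of_eq ?_)
  have hT0 : T ≠ 0 := by linarith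
  field_simp
  ring

/-- Variant: if every norm is attained at most `R` times in `S`, then
`∫_{-T}^{T} |Σ a(z) N(z)^{it}|² dt ≤ C R (N + T) Σ |a(z)|²`. -/
theorem mv_eis_mult (S : Finset Eis) (N T R : ℝ) (hN : 1 ≤ N) (hT : 1 ≤ T)
    (hS : ∀ z ∈ S, z ≠ 0 ∧ (nm z : ℝ) ≤ N)
    (hR : ∀ n : ℕ, (((S.filter (fun z => nm z = n)).card : ℕ) : ℝ) ≤ R) (a : Eis → ℂ) :
    ∫ t in (-T)..T, ‖dp S a t‖ ^ 2 ≤
      300 * R * (N + T) * ∑ z ∈ S, ‖a z‖ ^ 2 := by
  have hT0 : 0 < T := by linarith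
  have hR0 : 0 ≤ R := le_trans (Nat.cast_nonneg _) (hR 0)
  have hD : ∀ u : ℝ, (((S.filter (fun z => u ≤ Real.log (nm z) ∧
      Real.log (nm z) < u + 1 / T)).card : ℕ) : ℝ) ≤ R * (2 * (N / T) + 1) := by
    intro u
    classical
    have hpos : 0 ≤ R * (2 * (N / T) + 1) := by positivity
    rcases (S.filter (fun z => u ≤ Real.log (nm z) ∧
      Real.log (nm z) < u + 1 / T)).eq_empty_or_nonempty with he | ⟨z0, hz0⟩
    · rw [he]; simpa using hpos
    · have hz0' := Finset.mem_filter.mp hz0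
      have hu : Real.exp u ≤ N := by
        have h1 := nm_pos' (hS z0 hz0'.1).1
        calc Real.exp u ≤ Real.exp (Real.log (nm z0)) := Real.exp_le_exp.mpr hz0'.2.1
          _ = nm z0 := Real.exp_log (by linarith)
          _ ≤ N := (hS z0 hz0'.1).2
      have hT1 : 1 / T ≤ 1 := by rw [div_le_one hT0]; exact hT
      have hex : Real.exp (1 / T) ≤ 1 + 2 * (1 / T) := by
        have hb := Real.abs_exp_sub_one_sub_id_le (x := 1 / T) (by
          rw [abs_of_nonneg (by positivity)]; exact hT1)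
        have h0 : 0 ≤ 1 / T := by positivity
        have := (abs_le.mp hb).2
        nlinarith
      set A : Finset ℕ := Finset.Icc ⌈Real.exp u⌉₊ ⌊Real.exp (u + 1 / T)⌋₊ with hA
      have hmaps : ∀ z ∈ S.filter (fun z => u ≤ Real.log (nm z) ∧
          Real.log (nm z) < u + 1 / T), nm z ∈ A := by
        intro z hz
        have hz' := Finset.mem_filter.mp hz
        have h1 := nm_pos' (hS z hz'.1).1
        have he : Real.exp (Real.log (nm z)) = nm z := Real.exp_log (by linarith)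
        rw [hA, Finset.mem_Icc]
        constructor
        · apply Nat.ceil_le.mpr
          rw [← he]; exact Real.exp_le_exp.mpr hz'.2.1
        · apply Nat.le_floor
          rw [← he]; exact Real.exp_le_exp.mpr hz'.2.2.le
      have hcard : (((S.filter (fun z => u ≤ Real.log (nm z) ∧
          Real.log (nm z) < u + 1 / T)).card : ℕ) : ℝ) ≤ R * (A.card : ℝ) := by
        rw [Finset.card_eq_sum_card_fiberwise hmaps]
        push_cast
        calc _ ≤ ∑ b ∈ A, R := by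
              refine Finset.sum_le_sum fun b _ => ?_
              refine le_trans ?_ (hR b)
              norm_cast
              refine Finset.card_le_card fun z hz => ?_
              rw [Finset.mem_filter] at hz ⊢
              exact ⟨(Finset.mem_filter.mp hz.1).1, hz.2⟩
          _ = R * (A.card : ℝ) := by rw [Finset.sum_const, nsmul_eq_mul]; ring
      refine hcard.trans ?_
      refine mul_le_mul_of_nonneg_left ?_ hR0
      have hA2 : (A.card : ℝ) ≤ Real.exp (u + 1 / T) - Real.exp u + 1 := by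
        rw [hA, Nat.card_Icc]
        have e0 : Real.exp u ≤ Real.exp (u + 1 / T) := by
          apply Real.exp_le_exp.mpr
          have : 0 ≤ 1 / T := by positivity
          linarith
        rcases le_total ⌈Real.exp u⌉₊ (⌊Real.exp (u + 1 / T)⌋₊ + 1) with hle | hle
        · rw [Nat.cast_sub hle]
          push_cast
          have e1 := Nat.floor_le (Real.exp_pos (u + 1 / T)).le
          have e2 := Nat.le_ceil (Real.exp u)
          linarith
        · rw [Nat.sub_eq_zero_of_le hle]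
          push_cast
          linarith
      have e3 : Real.exp (u + 1 / T) = Real.exp u * Real.exp (1 / T) := Real.exp_add _ _
      have e4 : Real.exp u * Real.exp (1 / T) ≤ Real.exp u * (1 + 2 * (1 / T)) := by
        gcongr
      have e5 : Real.exp u * (2 * (1 / T)) ≤ N * (2 * (1 / T)) := by gcongr
      calc (A.card : ℝ) ≤ Real.exp (u + 1 / T) - Real.exp u + 1 := hA2
        _ ≤ N * (2 * (1 / T)) + 1 := by rw [e3]; linarith
        _ = 2 * (N / T) + 1 := by ring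
  have h := mv_spacing S a (fun z => Real.log (nm z)) T hT0 _ hD
  have h2 : ∀ t, dp S a t = trig S a (fun z => Real.log (nm z)) t :=
    fun t => dp_eq_trig (fun z hz => (hS z hz).1) a t
  simp_rw [h2]
  refine h.trans ?_
  have h3 : 150 * T * (R * (2 * (N / T) + 1)) ≤ 300 * R * (N + T) := by
    have : 150 * T * (R * (2 * (N / T) + 1)) = 300 * R * N + 150 * R * T := by
      field_simp
      ring
    rw [this]
    have h4 : 0 ≤ R * T := by positivity
    linarith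
  gcongr

/-! ## The weight `dt/t` -/

/-- Partial summation: `∫_{T₁}^{U} f ≤ A + B U` gives `∫_{T₁}^{T₂} f(t)/t dt ≤ A/T₁ + B(1+log(T₂/T₁))`. -/
lemma int_div_le (f : ℝ → ℝ) (hf : Continuous f) (hf0 : ∀ t, 0 ≤ f t) (A B T1 T2 : ℝ)
    (hT1 : 0 < T1) (h12 : T1 ≤ T2)
    (hF : ∀ U, T1 ≤ U → U ≤ T2 → ∫ t in T1..U, f t ≤ A + B * U) :
    ∫ t in T1..T2, f t / t ≤ A / T1 + B * (1 + Real.log (T2 / T1)) := by
  have hT2 : 0 < T2 := hT1.trans_le h12
  have hne : ∀ t ∈ uIcc T1 T2, t ≠ 0 := by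
    intro t ht
    rw [uIcc_of_le h12] at ht
    exact (hT1.trans_le ht.1).ne'
  have hparts := intervalIntegral.integral_mul_deriv_eq_deriv_mul
    (u := fun t : ℝ => t⁻¹) (v := fun t => ∫ s in T1..t, f s)
    (u' := fun t : ℝ => -(t ^ 2)⁻¹) (v' := f) (a := T1) (b := T2)
    (fun t ht => hasDerivAt_inv (hne t ht))
    (fun t _ => intervalIntegral.integral_hasDerivAt_right
      (hf.intervalIntegrable _ _) (hf.stronglyMeasurableAtFilter _ _) hf.continuousAt)
    (by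
      apply ContinuousOn.intervalIntegrable
      apply ContinuousOn.neg
      exact ContinuousOn.inv₀ (by fun_prop) (fun t ht => pow_ne_zero 2 (hne t ht)))
    (hf.intervalIntegrable _ _)
  have e1 : ∫ t in T1..T2, f t / t = ∫ t in T1..T2, t⁻¹ * f t := by
    apply intervalIntegral.integral_congr
    intro t _
    show f t / t = t⁻¹ * f t
    rw [div_eq_mul_inv, mul_comm]
  rw [e1, hparts]
  have hvc : Continuous (fun t => ∫ s in T1..t, f s) :=
    intervalIntegral.continuous_primitive (fun a b => hf.intervalIntegrable a b) T1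
  have e2 : ∫ t in T1..T2, -(t ^ 2)⁻¹ * ∫ s in T1..t, f s =
      -∫ t in T1..T2, (t ^ 2)⁻¹ * ∫ s in T1..t, f s := by
    rw [← intervalIntegral.integral_neg]
    apply intervalIntegral.integral_congr
    intro t _
    show -(t ^ 2)⁻¹ * (∫ s in T1..t, f s) = -((t ^ 2)⁻¹ * ∫ s in T1..t, f s)
    ring
  rw [e2]
  -- primitive of `(A + B t)/t²`
  have hprim : ∀ t ∈ uIcc T1 T2, HasDerivAt (fun t : ℝ => -A * t⁻¹ + B * Real.log t)
      ((t ^ 2)⁻¹ * (A + B * t)) t := by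
    intro t ht
    have h0 := hne t ht
    have d1 := (hasDerivAt_inv h0).const_mul (-A)
    have d2 := (Real.hasDerivAt_log h0).const_mul B
    have d3 := d1.add d2
    have e : -A * -(t ^ 2)⁻¹ + B * t⁻¹ = (t ^ 2)⁻¹ * (A + B * t) := by
      field_simp
    rw [e] at d3
    exact d3
  have hci : ContinuousOn (fun t : ℝ => (t ^ 2)⁻¹ * (A + B * t)) (uIcc T1 T2) := by
    apply ContinuousOn.mul
    · exact ContinuousOn.inv₀ (by fun_prop) (fun t ht => pow_ne_zero 2 (hne t ht))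
    · fun_prop
  have e3 : ∫ t in T1..T2, (t ^ 2)⁻¹ * (A + B * t) =
      (-A * T2⁻¹ + B * Real.log T2) - (-A * T1⁻¹ + B * Real.log T1) :=
    intervalIntegral.integral_eq_sub_of_hasDerivAt hprim (hci.intervalIntegrable)
  have e4 : ∫ t in T1..T2, (t ^ 2)⁻¹ * ∫ s in T1..t, f s ≤
      ∫ t in T1..T2, (t ^ 2)⁻¹ * (A + B * t) := by
    apply intervalIntegral.integral_mono_on h12
    · apply ContinuousOn.intervalIntegrable
      apply ContinuousOn.mul
      · exact ContinuousOn.inv₀ (by fun_prop) (fun t ht => pow_ne_zero 2 (hne t ht))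
      · exact hvc.continuousOn
    · exact hci.intervalIntegrable
    · intro t ht
      exact mul_le_mul_of_nonneg_left (hF t ht.1 ht.2) (by positivity)
  have e5 : Real.log (T2 / T1) = Real.log T2 - Real.log T1 := Real.log_div hT2.ne' hT1.ne'
  have e6 : T2⁻¹ * ∫ s in T1..T2, f s ≤ T2⁻¹ * (A + B * T2) :=
    mul_le_mul_of_nonneg_left (hF T2 h12 le_rfl) (by positivity)
  have e7 : T2⁻¹ * (A + B * T2) = A * T2⁻¹ + B := by field_simp
  rw [intervalIntegral.integral_same, mul_zero, sub_zero, sub_neg_eq_add]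
  calc T2⁻¹ * (∫ s in T1..T2, f s) + ∫ t in T1..T2, (t ^ 2)⁻¹ * ∫ s in T1..t, f s
      ≤ (A * T2⁻¹ + B) + ((-A * T2⁻¹ + B * Real.log T2) - (-A * T1⁻¹ + B * Real.log T1)) := by
        linarith
    _ = A / T1 + B * (1 + Real.log (T2 / T1)) := by rw [e5]; ring

lemma int_sub_le {f : ℝ → ℝ} (hf : Continuous f) (hf0 : ∀ t, 0 ≤ f t) {T1 U : ℝ}
    (hT1 : 0 ≤ T1) (h1 : T1 ≤ U) : ∫ t in T1..U, f t ≤ ∫ t in (-U)..U, f t := by
  apply intervalIntegral.integral_mono_interval (by linarith) h1 le_rfl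
  · filter_upwards with t
    exact hf0 t
  · exact hf.intervalIntegrable _ _

/-- `∫_{T₁}^{T₂} |Σ a(z) N(z)^{it}|² dt/t ≤ C (N/T₁ + √N (1+log(T₂/T₁))) Σ|a|²`. -/
theorem mv_eis_dt (S : Finset Eis) (N T1 T2 : ℝ) (hN : 1 ≤ N) (hT1 : 1 ≤ T1) (h12 : T1 ≤ T2)
    (hS : ∀ z ∈ S, z ≠ 0 ∧ (nm z : ℝ) ≤ N) (a : Eis → ℂ) :
    ∫ t in T1..T2, ‖dp S a t‖ ^ 2 / t ≤
      900000 * (N / T1 + Real.sqrt N * (1 + Real.log (T2 / T1))) * ∑ z ∈ S, ‖a z‖ ^ 2 := by
  have hc := continuous_dp (fun z hz => (hS z hz).1) a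
  have h := int_div_le (fun t => ‖dp S a t‖ ^ 2) (by fun_prop) (fun t => by positivity)
    (900000 * N * ∑ z ∈ S, ‖a z‖ ^ 2) (900000 * Real.sqrt N * ∑ z ∈ S, ‖a z‖ ^ 2) T1 T2
    (by linarith) h12 (fun U hU _ => by
      refine (int_sub_le (by fun_prop) (fun t => by positivity) (by linarith) hU).trans ?_
      refine (mv_eis S N U hN (by linarith) hS a).trans (le_of_eq ?_)
      ring)
  refine h.trans (le_of_eq ?_)
  ring

/-- `∫_{T₁}^{T₂} |Σ a(z) N(z)^{it}|² dt/t ≤ C R (N/T₁ + 1+log(T₂/T₁)) Σ|a|²` if every norm is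
attained at most `R` times. -/
theorem mv_eis_mult_dt (S : Finset Eis) (N T1 T2 R : ℝ) (hN : 1 ≤ N) (hT1 : 1 ≤ T1)
    (h12 : T1 ≤ T2) (hS : ∀ z ∈ S, z ≠ 0 ∧ (nm z : ℝ) ≤ N)
    (hR : ∀ n : ℕ, (((S.filter (fun z => nm z = n)).card : ℕ) : ℝ) ≤ R) (a : Eis → ℂ) :
    ∫ t in T1..T2, ‖dp S a t‖ ^ 2 / t ≤
      300 * R * (N / T1 + (1 + Real.log (T2 / T1))) * ∑ z ∈ S, ‖a z‖ ^ 2 := by
  have hc := continuous_dp (fun z hz => (hS z hz).1) a
  have h := int_div_le (fun t => ‖dp S a t‖ ^ 2) (by fun_prop) (fun t => by positivity)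
    (300 * R * N * ∑ z ∈ S, ‖a z‖ ^ 2) (300 * R * ∑ z ∈ S, ‖a z‖ ^ 2) T1 T2
    (by linarith) h12 (fun U hU _ => by
      refine (int_sub_le (by fun_prop) (fun t => by positivity) (by linarith) hU).trans ?_
      refine (mv_eis_mult S N U R hN (by linarith) hS hR a).trans (le_of_eq ?_)
      ring)
  refine h.trans (le_of_eq ?_)
  ring

lemma dp_neg {S : Finset Eis} (hS : ∀ z ∈ S, z ≠ 0) (a : Eis → ℂ) (t : ℝ) :
    dp S a (-t) = (starRingEnd ℂ) (dp S (fun z => (starRingEnd ℂ) (a z)) t) := by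
  unfold dp
  rw [map_sum]
  refine Finset.sum_congr rfl fun z hz => ?_
  rw [map_mul, Complex.conj_conj, nit_eq (hS z hz), nit_eq (hS z hz), ← Complex.exp_conj]
  congr 2
  simp only [map_mul, Complex.conj_I, Complex.conj_ofReal]
  push_cast
  ring

lemma norm_dp_neg {S : Finset Eis} (hS : ∀ z ∈ S, z ≠ 0) (a : Eis → ℂ) (t : ℝ) :
    ‖dp S a (-t)‖ = ‖dp S (fun z => (starRingEnd ℂ) (a z)) t‖ := by
  rw [dp_neg hS, RCLike.norm_conj]

/-- Negative `t`. -/
theorem mv_eis_dt_neg (S : Finset Eis) (N T1 T2 : ℝ) (hN : 1 ≤ N) (hT1 : 1 ≤ T1) (h12 : T1 ≤ T2)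
    (hS : ∀ z ∈ S, z ≠ 0 ∧ (nm z : ℝ) ≤ N) (a : Eis → ℂ) :
    ∫ t in T1..T2, ‖dp S a (-t)‖ ^ 2 / t ≤
      900000 * (N / T1 + Real.sqrt N * (1 + Real.log (T2 / T1))) * ∑ z ∈ S, ‖a z‖ ^ 2 := by
  simp_rw [norm_dp_neg (fun z hz => (hS z hz).1) a]
  refine (mv_eis_dt S N T1 T2 hN hT1 h12 hS _).trans (le_of_eq ?_)
  simp_rw [RCLike.norm_conj]

theorem mv_eis_mult_dt_neg (S : Finset Eis) (N T1 T2 R : ℝ) (hN : 1 ≤ N) (hT1 : 1 ≤ T1)
    (h12 : T1 ≤ T2) (hS : ∀ z ∈ S, z ≠ 0 ∧ (nm z : ℝ) ≤ N)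
    (hR : ∀ n : ℕ, (((S.filter (fun z => nm z = n)).card : ℕ) : ℝ) ≤ R) (a : Eis → ℂ) :
    ∫ t in T1..T2, ‖dp S a (-t)‖ ^ 2 / t ≤
      300 * R * (N / T1 + (1 + Real.log (T2 / T1))) * ∑ z ∈ S, ‖a z‖ ^ 2 := by
  simp_rw [norm_dp_neg (fun z hz => (hS z hz).1) a]
  refine (mv_eis_mult_dt S N T1 T2 R hN hT1 h12 hS hR _).trans (le_of_eq ?_)
  simp_rw [RCLike.norm_conj]

end Crest.Agent.R012.MV400
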