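import Crest.Agent.R012.SpecMain_48
import Crest.Agent.R012.Spec_T_411
import Crest.Agent.R012.MV_400

/-!
# Row 12, item TIIS: the two inputs of the Type II assembly (helper54)

* `Supp w B β`  : support of `β`: all primes of norm `≥ w`, `B < N(b) ≤ 2B`
* `tw l X β h t`: `∑_T β_T ang l (b) N(b)^{it} (h/b)`, `b = prd T`, primes of norm `≤ X`
* `SWx_Prop`    : Siegel–Walfisz input (helper355, from SWB of helper994)
* `CRx_Prop`    : critical range input (helper852, from CRProd of helper290)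
-/

set_option autoImplicit false

noncomputable section

open Complex

namespace Crest.Agent.R012.TII54

open Crest.Agent.R012 Eis Buch420 Main48 MV400

/-- support condition -/
def Supp (w B : ℝ) (β : Finset PrP → ℂ) : Prop :=
  ∀ T, β T ≠ 0 → (∀ p ∈ T, w ≤ nm p.1) ∧ B < nm (prd T) ∧ (nm (prd T) : ℝ) ≤ 2 * B

/-- twisted sums of `β` -/
def tw (l : ℤ) (X : ℕ) (β : Finset PrP → ℂ) (h : Eis) (t : ℝ) : ℂ :=
  ∑ T ∈ (UX X).powerset, β T * ang l (prd T) * nit t (prd T) * sy h (prd T)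

/-- **Siegel–Walfisz input** -/
def SWx_Prop : Prop := ∀ (l : ℤ) (K : ℝ), 0 < K → ∃ (C : ℝ) (X0 : ℕ), 0 < C ∧ ∀ X : ℕ, X0 ≤ X →
  ∀ (B : ℝ) (β : Finset PrP → ℂ), 1 ≤ B → 2 * B ≤ X → SWc β → Supp (wX X) B β →
  ∀ h ∈ T411.NC (LX X ^ K), ∀ t : ℝ, |t| ≤ LX X ^ K → ‖tw l X β h t‖ ≤ C * B * LX X ^ (-K)

/-- **Critical range input**, uniform in `t`; the exponents do not depend on `l`. -/
def CRx_Prop : Prop := ∃ e0 d η : ℝ, 0 < e0 ∧ e0 ≤ 1 / 10 ∧ 2 * e0 ≤ d ∧ 0 < η ∧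
  ∀ l : ℤ, ∃ (C : ℝ) (X0 : ℕ), 0 < C ∧ ∀ X : ℕ, X0 ≤ X →
  ∀ (B : ℝ) (β : Finset PrP → ℂ), (X : ℝ) ^ (1 / 2 - η) ≤ B → B ≤ (X : ℝ) ^ (1 / 2 + η) →
  SWc β → (∀ T, β T ≠ 0 → 2 ≤ T.card) → Supp ((X : ℝ) ^ (0.06 : ℝ)) B β →
  ∀ t : ℝ, ∑ q ∈ T411.Ker (B ^ (1 + e0)), ‖tw l X β (T411.kv q) t‖ ^ 2 ≤
    C * B ^ ((7 : ℝ) / 3 - d)

end Crest.Agent.R012.TII54
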