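import Crest.Agent.R012.CRbetaK_852
import Crest.Agent.R012.TIISpec_54

/-!
# Row 12: `CRx_Prop` of `TIISpec_54` from `CRProd` (helper852)
-/

set_option autoImplicit false

noncomputable section

open Complex Finset

namespace Crest.Agent.R012.CRbeta852

open Crest.Agent.R012 Eis Buch420 CR290 T411

theorem crx_of (hCR : CRProd) : TII54.CRx_Prop := by
  classical
  obtain ⟨δ, K, hδ, hK, h⟩ := crbeta_tw hCR
  refine ⟨min (δ / 2) (1 / 10), δ, 0.05, by positivity, min_le_right _ _, ?_, by norm_num, ?_⟩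
  · have := min_le_left (δ / 2) ((1 : ℝ) / 10)
    linarith
  intro l
  refine ⟨K * 2 ^ ((7 : ℝ) / 3 - δ), 2 ^ 20, by positivity, ?_⟩
  intro X hX B β hB1 hB2 hβ hcard hsupp t
  have hXr : (2 : ℝ) ^ 20 ≤ X := by exact_mod_cast hX
  have hB1' : (X : ℝ) ^ (0.45 : ℝ) ≤ B := by
    refine le_trans (le_of_eq ?_) hB1; norm_num
  have hB2' : B ≤ (X : ℝ) ^ (0.55 : ℝ) := by
    refine le_trans hB2 (le_of_eq ?_); norm_num
  obtain ⟨hB, -, -⟩ := rng hXr hB1' hB2'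
  have hmin := min_le_left (δ / 2) ((1 : ℝ) / 10)
  have hS : IsTS ((Ker (B ^ (1 + min (δ / 2) (1 / 10)))).image tupK) ((2 * B) ^ (1 + δ)) := by
    intro x hx
    rw [Finset.mem_image] at hx
    obtain ⟨q, hq, rfl⟩ := hx
    refine ⟨(tupK_spec hq).1, (tupK_spec hq).2.trans ?_⟩
    calc B ^ (1 + min (δ / 2) (1 / 10)) ≤ B ^ (1 + δ) :=
          Real.rpow_le_rpow_of_exponent_le hB (by linarith)
      _ ≤ (2 * B) ^ (1 + δ) := Real.rpow_le_rpow (by linarith) (by linarith) (by linarith)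
  have hm := h X hX B β hB1' hB2' hβ
    (fun T hT => ⟨hcard T hT, (hsupp T hT).1, (hsupp T hT).2.2⟩) l t _ hS
  rw [Finset.sum_image (fun a _ b _ hab => tupK_inj hab)] at hm
  have hK2 : K * (2 * B) ^ (7 / 3 - δ) = K * 2 ^ ((7 : ℝ) / 3 - δ) * B ^ ((7 : ℝ) / 3 - δ) := by
    rw [Real.mul_rpow (by norm_num) (by linarith)]; ring
  rw [hK2] at hm
  exact hm

lemma S_mono {H H' : ℝ} (h : H ≤ H') : LS2.S H ⊆ LS2.S H' := by
  classical
  intro x hx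
  unfold LS2.S at hx ⊢
  rw [Finset.mem_filter, mem_primBall] at hx ⊢
  exact ⟨⟨hx.1.1.trans (Nat.floor_mono h), hx.1.2⟩, hx.2⟩

lemma Ker_mono {H H' : ℝ} (h : H ≤ H') : Ker H ⊆ Ker H' := by
  classical
  intro q hq
  unfold Ker at hq ⊢
  rw [Finset.mem_filter, Finset.mem_product, Finset.mem_product, Finset.mem_product] at hq ⊢
  exact ⟨⟨hq.1.1, hq.1.2.1, S_mono h hq.1.2.2.1, S_mono h hq.1.2.2.2⟩, hq.2.1, hq.2.2.trans h⟩

/-- `e0` in `CRx_Prop` may be taken below any `e1 > 0`. -/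
theorem crx_shrink (h : TII54.CRx_Prop) {e1 : ℝ} (he1 : 0 < e1) :
    ∃ e0 d η : ℝ, 0 < e0 ∧ e0 ≤ 1 / 10 ∧ e0 ≤ e1 ∧ 2 * e0 ≤ d ∧ 0 < η ∧
  ∀ l : ℤ, ∃ (C : ℝ) (X0 : ℕ), 0 < C ∧ ∀ X : ℕ, X0 ≤ X →
  ∀ (B : ℝ) (β : Finset PrP → ℂ), (X : ℝ) ^ (1 / 2 - η) ≤ B → B ≤ (X : ℝ) ^ (1 / 2 + η) →
  Main48.SWc β → (∀ T, β T ≠ 0 → 2 ≤ T.card) → TII54.Supp ((X : ℝ) ^ (0.06 : ℝ)) B β →
  ∀ t : ℝ, ∑ q ∈ T411.Ker (B ^ (1 + e0)), ‖TII54.tw l X β (T411.kv q) t‖ ^ 2 ≤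
    C * B ^ ((7 : ℝ) / 3 - d) := by
  obtain ⟨e0, d, η, h0, h1, h2, h3, h4⟩ := h
  refine ⟨min e0 e1, d, min η (1 / 2), lt_min h0 he1, (min_le_left _ _).trans h1,
    min_le_right _ _, ?_, lt_min h3 (by norm_num), ?_⟩
  · have := min_le_left e0 e1
    linarith
  intro l
  obtain ⟨C, X0, hC, hh⟩ := h4 l
  refine ⟨C, max X0 1, hC, ?_⟩
  intro X hX B β hB1 hB2 hβ hcard hsupp t
  have hX1 : (1 : ℝ) ≤ X := by exact_mod_cast (le_max_right X0 1).trans hX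
  have hm := min_le_left η (1 / 2 : ℝ)
  have hm2 := min_le_right η (1 / 2 : ℝ)
  have hB1' : (X : ℝ) ^ (1 / 2 - η) ≤ B :=
    (Real.rpow_le_rpow_of_exponent_le hX1 (by linarith)).trans hB1
  have hB2' : B ≤ (X : ℝ) ^ (1 / 2 + η) :=
    hB2.trans (Real.rpow_le_rpow_of_exponent_le hX1 (by linarith))
  have hB : 1 ≤ B := (Real.one_le_rpow hX1 (by linarith)).trans hB1
  refine le_trans ?_ (hh X ((le_max_left _ _).trans hX) B β hB1' hB2' hβ hcard hsupp t)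
  refine Finset.sum_le_sum_of_subset_of_nonneg (Ker_mono ?_) (fun _ _ _ => by positivity)
  exact Real.rpow_le_rpow_of_exponent_le hB (by linarith [min_le_left e0 e1])

end Crest.Agent.R012.CRbeta852
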