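import Crest.Agent.R012.Sym4_645
import Crest.Agent.R012.Base_666

/-!
# Row 12, R2 (5): supplementary laws, rational symbols, periodicity
-/

set_option autoImplicit false

noncomputable section

open Crest.Agent.R012 Crest.Agent.R012.Eis

namespace Crest.Agent.R012.Sym645

lemma wC_pow_mod (a b : ℕ) (h : a % 3 = b % 3) : wC ^ a = wC ^ b := by
  rw [← Nat.div_add_mod a 3, ← Nat.div_add_mod b 3, pow_add, pow_add, pow_mul, pow_mul, wC_cube, h]
  simp

lemma wC_zpow_mod (a b : ℤ) (h : (3 : ℤ) ∣ a - b) : wC ^ a = wC ^ b := by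
  obtain ⟨k, hk⟩ := h
  have : a = b + 3 * k := by omega
  rw [this, zpow_add₀ wC_ne_zero, zpow_mul]
  have h3 : wC ^ (3 : ℤ) = 1 := by exact_mod_cast wC_cube
  rw [h3, one_zpow, mul_one]

lemma w_pow_mod (a b : ℕ) (h : a % 3 = b % 3) : w ^ a = w ^ b := by
  rw [← Nat.div_add_mod a 3, ← Nat.div_add_mod b 3, pow_add, pow_add, pow_mul, pow_mul, w_cube, h]
  simp

lemma w_pow_cases (n : ℕ) : w ^ n = 1 ∨ w ^ n = w ∨ w ^ n = w ^ 2 := by
  have h : n % 3 = 0 ∨ n % 3 = 1 ∨ n % 3 = 2 := by omega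
  rcases h with h | h | h
  · left; rw [w_pow_mod n 0 (by omega)]; simp
  · right; left; rw [w_pow_mod n 1 (by omega)]; simp
  · right; right; rw [w_pow_mod n 2 (by omega)]

/-- `(ω/c) = ω^((N(c)-1)/3)`. -/
theorem sy_w {c : Eis} (hc : nm c % 3 = 1) : sy w c = wC ^ ((nm c - 1) / 3) := by
  refine coprime_induction ?_ ?_ ?_ hc
  · rw [sy_unit_right _ isUnit_one]; simp
  · intro a b hab h
    rw [← sy_assoc_right _ hab, h, Eis.nm_eq_of_associated hab]
  · intro p b hp hpp hb h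
    have hp3 := prim_nm_mod hpp
    have hb3 := prim_nm_mod hb
    rw [sy_mul_right _ hp.ne_zero (prim_ne_zero hb), h, sy_prime_cu _ hp]
    have hcu : cu w p = w ^ ((nm p - 1) / 3) :=
      cu_eq_of hp hp3 (w_pow_cases _) (by rw [sub_self]; exact dvd_zero _)
    rw [hcu, map_pow, toC_w, ← pow_add]
    apply wC_pow_mod
    rw [nm_mul]
    obtain ⟨s, hs⟩ : ∃ s, nm p = 3 * s + 1 := ⟨nm p / 3, by omega⟩
    obtain ⟨t, ht⟩ : ∃ t, nm b = 3 * t + 1 := ⟨nm b / 3, by omega⟩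
    rw [hs, ht]
    have e : (3 * s + 1) * (3 * t + 1) = 3 * (3 * (s * t) + s + t) + 1 := by ring
    rw [e]
    omega


lemma sy_w_ne_zero {c : Eis} (hc : nm c % 3 = 1) : sy w c ≠ 0 := by
  rw [sy_w hc]; exact pow_ne_zero _ wC_ne_zero

lemma sy_w_prim {d : Eis} (hd : IsPrim d) : sy w d = wC ^ (-((d.re - 1) / 3 + d.im / 3)) := by
  rw [sy_w (prim_nm_mod hd), ← zpow_natCast]
  apply wC_zpow_mod
  obtain ⟨h1, h2⟩ := isPrim_iff.1 hd
  have h3 := prim_nm_mod hd
  have h4 := nm_cast d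
  obtain ⟨m, hm⟩ : ∃ m, d.re = 3 * m + 1 := ⟨d.re / 3, by omega⟩
  obtain ⟨n, hn⟩ : ∃ n, d.im = 3 * n := ⟨d.im / 3, by omega⟩
  rw [hm, hn] at h4 ⊢
  have h5 : ((nm d : ℕ) : ℤ) = 9 * (m ^ 2 - m * n + n ^ 2) + 3 * (2 * m - n) + 1 := by
    rw [h4]; ring
  have h6 : ((3 * m + 1 - 1) / 3 : ℤ) = m := by omega
  have h7 : (3 * n / 3 : ℤ) = n := by omega
  rw [h6, h7]
  generalize m ^ 2 - m * n + n ^ 2 = q at h5
  push_cast
  omega

lemma sy_unit_left {u c : Eis} (hc : nm c % 3 = 1) (i : ℕ) (hu : u = w ^ i ∨ u = -w ^ i) :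
    sy u c = sy w c ^ i := by
  rcases hu with rfl | rfl
  · exact sy_pow_left hc _ _
  · rw [sy_neg hc, sy_pow_left hc]

lemma isCoprime_unit_left {u c : Eis} (hu : IsUnit u) : IsCoprime u c := by
  obtain ⟨v, hv⟩ := hu.exists_left_inv
  exact ⟨v, 0, by linear_combination hv⟩


lemma sy_three {d : Eis} (hd : nm d % 3 = 1) : sy 3 d = sy w d ^ 2 * sy lam d ^ 2 := by
  rw [three_eq, sy_mul_left hd, sy_neg hd, sy_pow_left hd, sy_pow_left hd]

/-- First step of the law for `λ`: `d = 1 + 3x`, `x` prime to `λ`. -/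
lemma sy_lam_aux {d x : Eis} (hdx : d = 1 + 3 * x) (hx : nm x % 3 = 1) :
    sy lam d = wC ^ x.re := by
  have hd : IsPrim d := ⟨x, by rw [hdx]; ring⟩
  have hd3 := prim_nm_mod hd
  obtain ⟨u, hu, hp⟩ := exists_unit_prim hx
  obtain ⟨v, hv⟩ := hu.exists_left_inv
  have hv' : IsUnit v := IsUnit.of_mul_eq_one u hv
  have hxv : x = v * (u * x) := by linear_combination (-x) * hv
  obtain ⟨i, hi3, hi⟩ := isUnit_exists hv'
  have hp3 := prim_nm_mod hp
  have h1 : sy (u * x) d = 1 := by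
    rw [sy_reciprocity hp hd, sy_congr hp3 (y := 1), sy_one_left hp3]
    have : d - 1 = (u * x) * (3 * v) := by
      rw [hdx]; linear_combination (-3 * x) * hv
    exact ⟨_, this⟩
  have h2 : sy x d = sy w d ^ i := by
    rw [hxv, sy_mul_left hd3, h1, mul_one, sy_unit_left hd3 i hi]
  have h3 : sy (3 * x) d = 1 := by
    rw [sy_congr hd3 (y := -1), sy_neg hd3, sy_one_left hd3]
    exact ⟨1, by rw [hdx]; ring⟩
  have hcop : IsCoprime lam d := (IsPrim.isCoprime_lam hd).symm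
  have h4 : sy lam d ^ 3 = 1 := sy_cube hd3 hcop
  rw [sy_mul_left hd3, sy_three hd3, h2] at h3
  have h5 : sy lam d = sy w d ^ (2 + i) := by
    rw [pow_add]
    linear_combination (-sy lam d) * h3 + (sy w d ^ 2 * sy w d ^ i) * h4
  rw [h5, sy_w_prim hd, ← zpow_natCast, ← zpow_mul]
  apply wC_zpow_mod
  have hre : d.re = 1 + 3 * x.re := by rw [hdx]; simp
  have him : d.im = 3 * x.im := by rw [hdx]; simp
  have e1 : (d.re - 1) / 3 = x.re := by omega
  have e2 : d.im / 3 = x.im := by omega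
  rw [e1, e2]
  obtain ⟨p1, p2⟩ := isPrim_iff.1 hp
  have hxre : x.re = v.re * (u * x).re - v.im * (u * x).im := by
    conv_lhs => rw [hxv]
    exact re_mul' _ _
  have hxim : x.im = v.re * (u * x).im + v.im * (u * x).re - v.im * (u * x).im := by
    conv_lhs => rw [hxv]
    exact im_mul' _ _
  generalize (u * x).re = a at *
  generalize (u * x).im = b at *
  have e4 : w ^ 2 = (⟨-1, -1⟩ : Eis) := by
    rw [w_sq]; apply ext' <;> simp
  interval_cases i <;> rcases hi with rfl | rfl <;> simp [e4] at hxre hxim <;> push_cast <;> omega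

/-- `(λ/d) = ω^m`, where `d = 1 + 3 (m + n ω)`. -/
theorem sy_lam {d : Eis} (hd : IsPrim d) : sy lam d = wC ^ ((d.re - 1) / 3) := by
  obtain ⟨x, hx⟩ := hd
  have hd : IsPrim d := ⟨x, hx⟩
  have hdx : d = 1 + 3 * x := by linear_combination hx
  have hre : d.re = 1 + 3 * x.re := by rw [hdx]; simp
  have e1 : (d.re - 1) / 3 = x.re := by omega
  rw [e1]
  rcases Sym645.nm_mod_three x with h | h
  · have h4 : IsPrim 4 := ⟨1, by ring⟩
    have h4d : (4 : Eis) * d = 1 + 3 * (1 + 4 * x) := by rw [hdx]; ring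
    have h44 : (4 : Eis) = 1 + 3 * 1 := by ring
    have hx4 : nm (1 + 4 * x) % 3 = 1 := by
      rw [nm_mod_eq_one_iff]
      intro hd'
      have h5 : lam ∣ x := by
        by_contra hc
        have := nm_mod_eq_one_iff.2 hc
        omega
      have h6 : lam ∣ 1 := by
        have : (1 : Eis) = (1 + 4 * x) - 4 * x := by ring
        rw [this]
        exact dvd_sub hd' (Dvd.dvd.mul_left h5 4)
      exact prime_lam.not_isUnit (isUnit_of_dvd_one h6)
    have hA := sy_lam_aux h4d hx4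
    have hB := sy_lam_aux h44 (by norm_num [nm])
    rw [sy_mul_right lam (prim_ne_zero h4) (prim_ne_zero hd), hB] at hA
    have h7 : (1 + 4 * x : Eis).re = 1 + 4 * x.re := by simp
    have h8 : ((1 : Eis)).re = 1 := by simp
    rw [h7, h8] at hA
    have h9 : wC ^ (1 + 4 * x.re) = wC ^ (1 : ℤ) * wC ^ x.re := by
      rw [← zpow_add₀ wC_ne_zero]
      apply wC_zpow_mod
      omega
    rw [h9] at hA
    exact mul_left_cancel₀ (zpow_ne_zero _ wC_ne_zero) hA
  · exact sy_lam_aux hdx h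


lemma nine_dvd {z : Eis} (h : (9 : Eis) ∣ z) : (9 : ℤ) ∣ z.re ∧ (9 : ℤ) ∣ z.im := by
  have : ((9 : ℤ) : Eis) ∣ z := by exact_mod_cast h
  exact intCast_dvd_iff.1 this

theorem sy_lam_congr {m n : Eis} (hm : IsPrim m) (hn : IsPrim n) (h : (9 : Eis) ∣ m - n) :
    sy lam m = sy lam n := by
  rw [sy_lam hm, sy_lam hn]
  apply wC_zpow_mod
  obtain ⟨h1, h2⟩ := nine_dvd h
  obtain ⟨a1, a2⟩ := isPrim_iff.1 hm
  obtain ⟨b1, b2⟩ := isPrim_iff.1 hn
  simp at h1 h2
  omega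

theorem sy_w_congr {m n : Eis} (hm : IsPrim m) (hn : IsPrim n) (h : (9 : Eis) ∣ m - n) :
    sy w m = sy w n := by
  rw [sy_w_prim hm, sy_w_prim hn]
  apply wC_zpow_mod
  obtain ⟨h1, h2⟩ := nine_dvd h
  obtain ⟨a1, a2⟩ := isPrim_iff.1 hm
  obtain ⟨b1, b2⟩ := isPrim_iff.1 hn
  simp at h1 h2
  omega

theorem sy_unit_congr {u m n : Eis} (hu : IsUnit u) (hm : IsPrim m) (hn : IsPrim n)
    (h : (9 : Eis) ∣ m - n) : sy u m = sy u n := by
  obtain ⟨i, -, hi⟩ := isUnit_exists hu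
  rw [sy_unit_left (prim_nm_mod hm) i hi, sy_unit_left (prim_nm_mod hn) i hi, sy_w_congr hm hn h]

/-- Every non-zero element is `λ^k u m`, `u` a unit, `m` primary. -/
lemma exists_lam_decomp {h : Eis} (h0 : h ≠ 0) :
    ∃ (k : ℕ) (u m : Eis), IsUnit u ∧ IsPrim m ∧ h = lam ^ k * (u * m) := by
  obtain ⟨m, hcm, hm⟩ := (FiniteMultiplicity.of_not_isUnit prime_lam.not_isUnit
    h0).exists_eq_pow_mul_and_not_dvd
  obtain ⟨u, hu⟩ := exists_unit_mul_isPrim hm
  set k := multiplicity lam h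
  refine ⟨k, ((u⁻¹ : Eisˣ) : Eis), u * m, (u⁻¹).isUnit, hu, ?_⟩
  rw [← mul_assoc ((u⁻¹ : Eisˣ) : Eis), Units.inv_mul, one_mul]
  exact hcm

/-- Periodicity of `b ↦ (h/b)` on primary `b`, modulo `9 h`. -/
theorem sy_periodic {h b b' : Eis} (h0 : h ≠ 0) (hb : IsPrim b) (hb' : IsPrim b')
    (hd : 9 * h ∣ b - b') : sy h b = sy h b' := by
  obtain ⟨k, u, m, hu, hm, rfl⟩ := exists_lam_decomp h0
  have h9 : (9 : Eis) ∣ b - b' := (dvd_mul_right _ _).trans hd
  have hmd : m ∣ b - b' := by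
    refine Dvd.dvd.trans ?_ hd
    exact ⟨9 * (lam ^ k * u), by ring⟩
  have hb3 := prim_nm_mod hb
  have hb3' := prim_nm_mod hb'
  rw [sy_mul_left hb3, sy_mul_left hb3, sy_mul_left hb3', sy_mul_left hb3', sy_pow_left hb3,
    sy_pow_left hb3', sy_lam_congr hb hb' h9, sy_unit_congr hu hb hb' h9, sy_reciprocity hm hb,
    sy_reciprocity hm hb', sy_congr (prim_nm_mod hm) hmd]

/-! ### rational symbols -/

lemma conj_intCast (n : ℤ) : Eis.conj (n : Eis) = (n : Eis) := by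
  apply ext' <;> simp [Eis.conj]

/-- A cube root of unity (or zero) which is real is `1` (or zero). -/
lemma eq_one_of_real {z : ℂ} (h3 : z ^ 3 = 1) (hr : (starRingEnd ℂ) z = z) : z = 1 := by
  have h1 : z * (starRingEnd ℂ) z = 1 := by
    have hn : ‖z‖ = 1 := by
      have : ‖z‖ ^ 3 = 1 := by rw [← norm_pow, h3, norm_one]
      exact (pow_eq_one_iff_of_nonneg (norm_nonneg z) (by norm_num)).1 this
    rw [Complex.mul_conj, Complex.normSq_eq_norm_sq, hn]; norm_num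
  rw [hr] at h1
  have : z = z ^ 3 := by
    rw [pow_succ, pow_two, h1, one_mul]
  rw [this, h3]

/-- Symbols of coprime rational integers are `1`. -/
theorem sy_intCast {a b : ℤ} (hb : b % 3 ≠ 0) (hab : IsCoprime a b) :
    sy (a : Eis) (b : Eis) = 1 := by
  have hn : nm (b : Eis) % 3 = 1 := by
    have h1 : ((nm (b : Eis) : ℕ) : ℤ) = b ^ 2 := nm_intCast b
    have h2 : b ^ 2 % 3 = 1 := by
      have : b % 3 = 1 ∨ b % 3 = 2 := by omega
      rcases this with h | h <;> simp [pow_two, Int.mul_emod, h]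
    omega
  have hcop : IsCoprime (a : Eis) (b : Eis) := by
    obtain ⟨x, y, hxy⟩ := hab
    exact ⟨(x : Eis), (y : Eis), by exact_mod_cast hxy⟩
  apply eq_one_of_real (sy_cube hn hcop)
  rw [← sy_conj hn, conj_intCast, conj_intCast]

end Crest.Agent.R012.Sym645
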