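import Crest.Agent.R012.Char_766
import Crest.Agent.R012.Sym5_645
import Crest.Agent.R012.PSer_47

/-!
# Row 12 (R2b): unconditional facts on `b ↦ (h/b)`
-/

set_option autoImplicit false

noncomputable section

namespace Crest.Agent.R012.Char766

open Crest.Agent.R012 Crest.Agent.R012.Eis

/-- The facts from the supplementary laws hold. -/
theorem suppl : Suppl where
  w9 _ _ ha hb h := Sym645.sy_w_congr ha hb h
  lam9 _ _ ha hb h := Sym645.sy_lam_congr ha hb h
  w_val := by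
    have hP : IsPrim (1 + 3 * w) := isPrim_add_mul isPrim_one w
    rw [Sym645.sy_w_prim hP]
    have e1 : (1 + 3 * w : Eis).re = 1 := by simp
    have e2 : (1 + 3 * w : Eis).im = 3 := by simp
    rw [e1, e2]
    norm_num
    have h3 := wC_cube
    symm
    exact eq_inv_of_mul_eq_one_left (by rw [← h3]; ring)
  lam_val := by
    have hP : IsPrim (1 + 3 * w) := isPrim_add_mul isPrim_one w
    rw [Sym645.sy_lam hP]
    have e1 : (1 + 3 * w : Eis).re = 1 := by simp
    rw [e1]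
    norm_num
  lam_val' := by
    have hP : IsPrim (4 : Eis) := by
      unfold IsPrim; exact ⟨1, by norm_num⟩
    rw [Sym645.sy_lam hP]
    have e1 : (4 : Eis).re = 4 := rfl
    rw [e1]
    norm_num

/-- `b ↦ (h/b)` is periodic modulo `9 h` on primary elements. -/
theorem sy_periodic_mod {h a b : Eis} (hh : h ≠ 0) (ha : IsPrim a) (hb : IsPrim b)
    (hd : 9 * h ∣ a - b) : sy h a = sy h b := sy_periodic suppl hh ha hb hd

/-- periodic modulo the rational integer `9 N(h)` -/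
theorem sy_periodic_mod_nat {h : Eis} (hh : h ≠ 0) (a b : Eis) (ha : IsPrim a) (hb : IsPrim b)
    (hd : ((9 * nm h : ℕ) : Eis) ∣ a - b) : sy h a = sy h b := sy_periodic_nat suppl hh ha hb hd

/-- nontriviality, with a test element coprime to a given `Q ≠ 0` -/
theorem exists_test_sy {h : Eis} (hh : h ≠ 0) (hc : ¬ ∃ t, h = t ^ 3) {Q : Eis} (hQ : Q ≠ 0) :
    ∃ a, IsPrim a ∧ IsCoprime a Q ∧ IsCoprime h a ∧ sy h a ≠ 1 ∧ sy h a ^ 2 ≠ 1 := by
  obtain ⟨a, h1, h2, h3, h4⟩ := exists_sy_ne_one suppl hh hc hQ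
  refine ⟨a, h1, h2, h3, h4, fun h5 => h4 ?_⟩
  have h6 := sy_cube h1 h3
  rw [pow_succ, h5, one_mul] at h6
  exact h6

theorem exists_test_sy_nat {h : Eis} (hh : h ≠ 0) (hc : ¬ ∃ t, h = t ^ 3) :
    ∃ a, IsPrim a ∧ IsCoprime a ((9 * nm h : ℕ) : Eis) ∧ sy h a ≠ 1 ∧ sy h a ^ 2 ≠ 1 := by
  have hQ : ((9 * nm h : ℕ) : Eis) ≠ 0 := by
    have := nm_pos.mpr hh
    exact_mod_cast (by positivity : 9 * nm h ≠ 0)
  obtain ⟨a, h1, h2, -, h4⟩ := exists_test_sy hh hc hQ
  exact ⟨a, h1, h2, h4⟩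

/-- `b ↦ (h/b)` (for primary `b`) is a character in the sense of `PSer47`. -/
theorem isChar_sy (h : Eis) : PSer47.IsChar (sy h) where
  one := sy_one_right h
  mul _ _ ha hb := sy_mul_right ha hb
  norm a ha := by
    by_cases hc : IsCoprime h a
    · exact Or.inr (norm_sy ha hc)
    · exact Or.inl (sy_eq_zero ha hc)

/-- `chi h` has period `Q` for every multiple `Q` of `9 h` -/
theorem pmod_chi_mod {h Q : Eis} (hh : h ≠ 0) (hd : 9 * h ∣ Q) : PMod Q (chi h) :=
  pmod_chi suppl hh hd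

/-- mean zero over the primary classes modulo any multiple `Q` of `9 h`, `h` not a cube -/
theorem sumMod_chi_mod {h : Eis} (hh : h ≠ 0) (hc : ¬ ∃ t, h = t ^ 3) {Q : Eis} (hQ : Q ≠ 0)
    (hd : 9 * h ∣ Q) : sumMod Q (chi h) = 0 := sumMod_chi suppl hh hc hQ hd

end Crest.Agent.R012.Char766
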