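import Crest.Agent.R012.Base_666

/-!
# Row 12 (X): rows of `Γ(3)` and their completions

* `exists_completion`  : a coprime row `(c,d)`, `3 ∣ c`, `d ≡ 1 (3)` is the bottom row of some
  `(a b; c d)` with determinant one and `≡ 1 (mod 3)`;
* `completion_unique`  : two completions differ by a left multiplication with `(1 t; 0 1)`, `3 ∣ t`;
* `completion_iff`     : description of all completions;
* `row_mul`            : rows are mapped to rows by `Γ(3)` (right multiplication).
-/

set_option autoImplicit false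

noncomputable section

namespace Crest.Agent.R012

open Eis

namespace Rows852

/-- Every coprime row `(c, d)` with `c ≡ 0`, `d ≡ 1 (mod 3)` completes to a matrix
`(a b; c d)` of determinant one which is `≡ 1 (mod 3)`. -/
theorem exists_completion {c d : Eis} (hcd : IsCoprime c d) (h3 : (3 : Eis) ∣ c)
    (hd : IsPrim d) : ∃ a b : Eis, a * d - b * c = 1 ∧ IsPrim a ∧ (3 : Eis) ∣ b := by
  obtain ⟨u, v, huv⟩ := hcd
  -- `u * c + v * d = 1`
  refine ⟨v + u * c, -u + u * d, by linear_combination huv, ?_, ?_⟩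
  · have h1 : IsPrim ((v + u * c) * d) := by
      have e : (v + u * c) * d - 1 = (u * d - u) * c := by linear_combination huv
      rw [IsPrim, e]
      exact Dvd.dvd.mul_left h3 _
    exact IsPrim.of_mul_right h1 hd
  · have e : -u + u * d = u * (d - 1) := by ring
    rw [e]
    exact Dvd.dvd.mul_left hd _

/-- Two completions of the same row differ by left multiplication with `(1 t; 0 1)`, `3 ∣ t`. -/
theorem completion_unique {a b a' b' c d : Eis} (h : a * d - b * c = 1)
    (h' : a' * d - b' * c = 1) (hd : IsPrim d) (hb : (3 : Eis) ∣ b) (hb' : (3 : Eis) ∣ b') :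
    ∃ t : Eis, (3 : Eis) ∣ t ∧ a' = a + t * c ∧ b' = b + t * d := by
  have hcop : IsCoprime c d := ⟨-b, a, by linear_combination h⟩
  have e1 : (a' - a) * d = (b' - b) * c := by linear_combination h' - h
  have hdvd : d ∣ (b' - b) * c := ⟨a' - a, by rw [← e1]; ring⟩
  obtain ⟨t, ht⟩ := hcop.symm.dvd_of_dvd_mul_right hdvd
  have hd0 : d ≠ 0 := hd.ne_zero
  refine ⟨t, ?_, ?_, by linear_combination ht⟩
  · have h3 : (3 : Eis) ∣ d * t := by rw [← ht]; exact dvd_sub hb' hb
    exact hd.isCoprime_three.symm.dvd_of_dvd_mul_left h3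
  · have : (a' - a) * d = (t * c) * d := by rw [e1, ht]; ring
    have := mul_right_cancel₀ hd0 this
    linear_combination this

/-- The representation of a completion: any completion of `(c,d)` is obtained from a given one by
a `t` with `3 ∣ t`. -/
theorem completion_iff {a b c d : Eis} (h : a * d - b * c = 1) (hc : (3 : Eis) ∣ c)
    (hd : IsPrim d) (ha : IsPrim a) (hb : (3 : Eis) ∣ b) (a' b' : Eis) :
    (a' * d - b' * c = 1 ∧ IsPrim a' ∧ (3 : Eis) ∣ b') ↔
      ∃ t : Eis, (3 : Eis) ∣ t ∧ a' = a + t * c ∧ b' = b + t * d := by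
  constructor
  · rintro ⟨h1, -, h3⟩
    exact completion_unique h h1 hd hb h3
  · rintro ⟨t, ht, rfl, rfl⟩
    refine ⟨by linear_combination h, ?_, ?_⟩
    · have e : a + t * c - 1 = (a - 1) + t * c := by ring
      rw [IsPrim, e]; exact dvd_add ha (Dvd.dvd.mul_left hc _)
    · exact dvd_add hb (Dvd.dvd.mul_right ht _)

/-- Rows are mapped to rows by `Γ(3)`. -/
theorem row_mul {a b c d x y : Eis} (hdet : a * d - b * c = 1)
    (hb : (3 : Eis) ∣ b) (hc : (3 : Eis) ∣ c) (hd : IsPrim d) (hxy : IsCoprime x y)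
    (hx : (3 : Eis) ∣ x) (hy : IsPrim y) :
    IsCoprime (x * a + y * c) (x * b + y * d) ∧ (3 : Eis) ∣ x * a + y * c ∧
      IsPrim (x * b + y * d) := by
  refine ⟨?_, ?_, ?_⟩
  · obtain ⟨u, v, huv⟩ := hxy
    -- inverse matrix `(d -b; -c a)` : recover `x, y`
    refine ⟨u * d - v * b, v * a - u * c, ?_⟩
    linear_combination huv + (u * x + v * y) * hdet
  · exact dvd_add (Dvd.dvd.mul_right hx _) (Dvd.dvd.mul_left hc _)
  · have e : x * b + y * d - 1 = x * b + (y * d - 1) := by ring
    rw [IsPrim, e]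
    exact dvd_add (Dvd.dvd.mul_right hx _) (hy.mul hd)

end Rows852

end Crest.Agent.R012
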