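import Crest.Agent.R012.CharSum_852
import Crest.Agent.R012.Rows_852

/-!
# Row 12 (X), level `p`

* `exists_completion_level` : a row `(c,d)`, `3 ∣ c`, `d ≡ 1 (3)`, `d` prime to `c` and to `q`, is the
  bottom row of `(a b; c d) ≡ 1 (mod 3)` with `3 q ∣ b`;
* `completion_unique_level` : unique up to `(1 t; 0 1)` with `3 q ∣ t`;
* `SsumP p c = Σ_{d mod 3cp, d ≡ 1 (3), p ∤ d} (c/d)_3`, equal to `N(p) S(c)` if `p ∣ c`
  (`SsumP_of_dvd`) and to `(N(p)-1) S(c)` otherwise (`SsumP_of_not_dvd`);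
* `SsumPd p c = Σ_{d mod 3cp, d ≡ 1 (3), p ∣ d} (c/d)_3`, `0` resp. `S(c)`.
-/

set_option autoImplicit false

noncomputable section

namespace Crest.Agent.R012

open Eis

namespace Rows852

/-- Completion of a row at level `q`: the upper right entry is divisible by `3 q`. -/
theorem exists_completion_level {c d q : Eis} (hcd : IsCoprime c d) (hq : IsCoprime q d)
    (hd : IsPrim d) :
    ∃ a b : Eis, a * d - b * c = 1 ∧ IsPrim a ∧ 3 * q ∣ b := by
  have hcop : IsCoprime (3 * q * c) d := (hd.isCoprime_three.symm.mul_left hq).mul_left hcd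
  obtain ⟨u, v, huv⟩ := hcop
  refine ⟨v, -(u * (3 * q)), by linear_combination huv, ?_, ?_⟩
  · have h1 : IsPrim (v * d) := by
      have e : v * d - 1 = 3 * (-(u * q * c)) := by linear_combination huv
      rw [IsPrim, e]
      exact Dvd.intro _ rfl
    exact IsPrim.of_mul_right h1 hd
  · rw [dvd_neg]; exact Dvd.intro_left _ rfl

/-- Uniqueness of completions at level `q`. -/
theorem completion_unique_level {a b a' b' c d q : Eis} (h : a * d - b * c = 1)
    (h' : a' * d - b' * c = 1) (hd : IsPrim d) (hq : IsCoprime q d) (hb : 3 * q ∣ b)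
    (hb' : 3 * q ∣ b') :
    ∃ t : Eis, 3 * q ∣ t ∧ a' = a + t * c ∧ b' = b + t * d := by
  have hcop : IsCoprime c d := ⟨-b, a, by linear_combination h⟩
  have e1 : (a' - a) * d = (b' - b) * c := by linear_combination h' - h
  have hdvd : d ∣ (b' - b) * c := ⟨a' - a, by rw [← e1]; ring⟩
  obtain ⟨t, ht⟩ := hcop.symm.dvd_of_dvd_mul_right hdvd
  have hd0 : d ≠ 0 := hd.ne_zero
  refine ⟨t, ?_, ?_, by linear_combination ht⟩
  · have h3 : 3 * q ∣ d * t := by rw [← ht]; exact dvd_sub hb' hb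
    exact (hd.isCoprime_three.symm.mul_left hq).dvd_of_dvd_mul_left h3
  · have : (a' - a) * d = (t * c) * d := by rw [e1, ht]; ring
    have := mul_right_cancel₀ hd0 this
    linear_combination this

/-- The set of completions at level `q`. -/
theorem completion_iff_level {a b c d q : Eis} (h : a * d - b * c = 1) (hc : (3 : Eis) ∣ c)
    (hd : IsPrim d) (hq : IsCoprime q d) (ha : IsPrim a) (hb : 3 * q ∣ b) (a' b' : Eis) :
    (a' * d - b' * c = 1 ∧ IsPrim a' ∧ 3 * q ∣ b') ↔
      ∃ t : Eis, 3 * q ∣ t ∧ a' = a + t * c ∧ b' = b + t * d := by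
  constructor
  · rintro ⟨h1, -, h3⟩
    exact completion_unique_level h h1 hd hq hb h3
  · rintro ⟨t, ht, rfl, rfl⟩
    refine ⟨by linear_combination h, ?_, ?_⟩
    · have e : a + t * c - 1 = (a - 1) + t * c := by ring
      rw [IsPrim, e]; exact dvd_add ha (Dvd.dvd.mul_left hc _)
    · exact dvd_add hb (Dvd.dvd.mul_right ht _)

/-- Rows with `d` prime to `q` are preserved by matrices whose upper right entry is divisible
by `q`. -/
theorem row_mul_level {a b c d x y q : Eis} (hdet : a * d - b * c = 1) (hb : q ∣ b)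
    (hy : IsCoprime q y) : IsCoprime q (x * b + y * d) := by
  obtain ⟨t, rfl⟩ := hb
  have h1 : IsCoprime q d := ⟨-(t * c), a, by linear_combination hdet⟩
  have h2 : IsCoprime q (y * d) := hy.mul_right h1
  have : x * (q * t) + y * d = y * d + q * (x * t) := by ring
  rw [this]
  exact h2.add_mul_left_right _

end Rows852

namespace CharSum852

lemma isPrim_iff_add {d s : Eis} (hs : (3 : Eis) ∣ s) : IsPrim (d + s) ↔ IsPrim d := by
  constructor
  · intro h
    have := isPrim_add (s := -s) h (by rwa [dvd_neg])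
    simpa using this
  · intro h
    exact isPrim_add h hs

lemma isPrim_mul_iff {b x : Eis} (hb : IsPrim b) : IsPrim (b * x) ↔ IsPrim x :=
  ⟨fun h => h.of_mul_left hb, fun h => hb.mul h⟩

/-- summand of `SsumP` -/
def fSP (p c d : Eis) : ℂ := open Classical in if IsPrim d ∧ ¬ p ∣ d then sy c d else 0

/-- `Σ_{d mod 3cp, d ≡ 1 (3), p ∤ d} (c/d)_3`. -/
def SsumP (p c : Eis) : ℂ := sumMod (3 * c * p) (fSP p c)

/-- summand of `SsumPd` -/
def fSPd (p c d : Eis) : ℂ := open Classical in if IsPrim d ∧ p ∣ d then sy c d else 0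

/-- `Σ_{d mod 3cp, d ≡ 1 (3), p ∣ d} (c/d)_3`. -/
def SsumPd (p c : Eis) : ℂ := sumMod (3 * c * p) (fSPd p c)

lemma fSP_add_fSPd (p c d : Eis) : fSP p c d + fSPd p c d = fS c d := by
  classical
  unfold fSP fSPd fS
  by_cases h1 : IsPrim d <;> by_cases h2 : p ∣ d <;> simp [h1, h2]

variable (H : SyFacts)
include H

lemma fSP_periodic {p c : Eis} (hc : (3 : Eis) ∣ c) : PMod (3 * c * p) (fSP p c) := by
  intro x t
  have h0 : PMod (3 * c * p) (fS c) := (fS_periodic H hc).mono (dvd_mul_right _ _)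
  have e1 := h0 x t
  unfold fS at e1
  unfold fSP
  have h2 : (p ∣ x + 3 * c * p * t) ↔ p ∣ x := by
    rw [show 3 * c * p * t = p * (3 * c * t) by ring]
    exact (dvd_add_left (Dvd.intro _ rfl))
  have h3 : IsPrim (x + 3 * c * p * t) ↔ IsPrim x :=
    isPrim_iff_add (by rw [show 3 * c * p * t = 3 * (c * p * t) by ring]; exact Dvd.intro _ rfl)
  by_cases hp : p ∣ x
  · rw [if_neg (fun h => h.2 (h2.mpr hp)), if_neg (fun h => h.2 hp)]
  · have hp' : ¬ p ∣ x + 3 * c * p * t := fun h => hp (h2.mp h)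
    by_cases hx : IsPrim x
    · rw [if_pos ⟨h3.mpr hx, hp'⟩, if_pos ⟨hx, hp⟩]
      rwa [if_pos hx, if_pos (h3.mpr hx)] at e1
    · rw [if_neg (fun h => hx (h3.mp h.1)), if_neg (fun h => hx h.1)]

omit H in
lemma sumMod_fS_level {p c : Eis} (H : SyFacts) (hp : p ≠ 0) (hc0 : c ≠ 0) (hc : (3 : Eis) ∣ c) :
    sumMod (3 * c * p) (fS c) = nm p * Ssum c :=
  sumMod_of_pmod_dvd (mul_ne_zero three_ne_zero' hc0) hp (fS_periodic H hc)

lemma SsumP_add_SsumPd {p c : Eis} (hp : p ≠ 0) (hc0 : c ≠ 0) (hc : (3 : Eis) ∣ c) :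
    SsumP p c + SsumPd p c = nm p * Ssum c := by
  rw [← sumMod_fS_level H hp hc0 hc, SsumP, SsumPd,
    ← sumMod_add (mul_ne_zero (mul_ne_zero three_ne_zero' hc0) hp)]
  exact sumMod_congr fun x => fSP_add_fSPd p c x

/-- `p ∣ c`: `Σ_{d mod 3cp, p ∤ d} (c/d) = N(p) S(c)`. -/
theorem SsumP_of_dvd {p c : Eis} (hp : Prime p) (hc0 : c ≠ 0) (hc : (3 : Eis) ∣ c)
    (hpc : p ∣ c) : SsumP p c = nm p * Ssum c := by
  rw [← sumMod_fS_level H hp.ne_zero hc0 hc, SsumP]
  refine sumMod_congr fun x => ?_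
  unfold fSP fS
  by_cases h1 : IsPrim x
  · by_cases h2 : p ∣ x
    · have : sy c x = 0 := by
        rw [H.eq_zero c x h1]
        intro hcop
        exact hp.not_isUnit (hcop.isUnit_of_dvd' hpc h2)
      simp [h1, h2, this]
    · simp [h1, h2]
  · simp [h1]

/-- `p ∤ c`: `Σ_{d mod 3cp, p ∤ d} (c/d) = (N(p) - 1) S(c)`. -/
theorem SsumP_of_not_dvd {p c : Eis} (hp : Prime p) (hpp : IsPrim p) (hc0 : c ≠ 0)
    (hc : (3 : Eis) ∣ c) (hpc : ¬ p ∣ c) : SsumP p c = (nm p - 1) * Ssum c := by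
  classical
  have h3c : (3 * c : Eis) ≠ 0 := mul_ne_zero three_ne_zero' hc0
  have hcop : IsCoprime (3 * c) p := by
    refine (hpp.isCoprime_three.symm).mul_left ?_
    exact ((Prime.coprime_iff_not_dvd hp).mpr hpc).symm
  have hcop' : IsCoprime p (3 * c) := hcop.symm
  set g : Eis → ℂ := fun y => if p ∣ y then 0 else 1 with hg
  have hgs : sumMod p g = nm p - 1 := by
    have hgp : PMod p g := by
      intro x t
      simp only [hg]
      rw [dvd_add_left (Dvd.intro _ rfl)]
    have h1 : sumMod p (fun y => g y + (if p ∣ y then 1 else 0)) = nm p := by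
      rw [← mul_one (nm p : ℂ), ← sumMod_const hp.ne_zero]
      refine sumMod_congr fun x => ?_
      simp only [hg]
      by_cases h : p ∣ x <;> simp [h]
    have h2 : sumMod p (fun y => if p ∣ y then (1 : ℂ) else 0) = 1 := by
      have hper : PMod p (fun y => if p ∣ y then (1 : ℂ) else 0) := by
        intro x t
        beta_reduce
        rw [dvd_add_left (Dvd.intro _ rfl)]
      have hS := isCRS_crs hp.ne_zero
      rw [sumMod_eq_sum hS hper]
      obtain ⟨s, ⟨hs1, hs2⟩, hs3⟩ := hS 0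
      rw [Finset.sum_eq_single s]
      · rw [if_pos]
        simpa using hs2
      · intro b hb hne
        rw [if_neg]
        intro hpb
        exact hne (hs3 b ⟨hb, by simpa using hpb⟩)
      · intro h; exact absurd hs1 h
    rw [sumMod_add hp.ne_zero, h2] at h1
    linear_combination h1
  have key := sumMod_crt_mul (f := fun x => fS c (p * x)) (g := g) h3c hp.ne_zero (fSP p c) hcop
    (fSP_periodic H hc) (fun x y => ?_)
  · rw [SsumP, key, sumMod_mul_coprime h3c (fS_periodic H hc) hcop', hgs, Ssum]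
    ring
  · unfold fSP fS
    have h1 : (p ∣ p * x + 3 * c * y) ↔ p ∣ y := by
      rw [dvd_add_right (Dvd.intro _ rfl)]
      exact ⟨fun h => hcop'.dvd_of_dvd_mul_left h, fun h => Dvd.dvd.mul_left h _⟩
    have h2 : IsPrim (p * x + 3 * c * y) ↔ IsPrim (p * x) :=
      isPrim_iff_add (by rw [mul_assoc]; exact Dvd.intro _ rfl)
    simp only [hg, h1, h2]
    by_cases hy : p ∣ y
    · simp [hy]
    · by_cases hx : IsPrim (p * x)
      · simp only [hx, hy, not_false_eq_true, and_self, if_true, if_false, mul_one]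
        have := sy_shift H (c := c) (d := p * x) (t := 3 * y) hc hx (Dvd.intro _ rfl)
        rw [← this]
        congr 1
        ring
      · simp [hx]

theorem SsumPd_of_dvd {p c : Eis} (hp : Prime p) (hc0 : c ≠ 0) (hc : (3 : Eis) ∣ c)
    (hpc : p ∣ c) : SsumPd p c = 0 := by
  have h1 := SsumP_add_SsumPd H hp.ne_zero hc0 hc
  rw [SsumP_of_dvd H hp hc0 hc hpc] at h1
  linear_combination h1

theorem SsumPd_of_not_dvd {p c : Eis} (hp : Prime p) (hpp : IsPrim p) (hc0 : c ≠ 0)
    (hc : (3 : Eis) ∣ c) (hpc : ¬ p ∣ c) : SsumPd p c = Ssum c := by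
  have h1 := SsumP_add_SsumPd H hp.ne_zero hc0 hc
  rw [SsumP_of_not_dvd H hp hpp hc0 hc hpc] at h1
  linear_combination h1

end CharSum852

end Crest.Agent.R012
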