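import Crest.Agent.R012.Defs

/-!
# Row 12, part (P): Siegel–Walfisz over `ℤ[ω]` -- interface (helper355)

* `MulPrim ψ` : `ψ` completely multiplicative, bounded by one, on the primary elements.
* `fP ψ n = Σ_{b primary, N(b) = n} ψ(b)`,
  `aP ψ n = Σ_{π primary prime, k ≥ 1, N(π)^k = n} ψ(π)^k log N(π)`.
* `Base r a1 C0` : the ℕ-level facts on `r = fP 1`, `a1 = aP 1`.
* `Tw r f Q` : the ℕ-level facts on `f = fP ψ`.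
* the `def …_Prop`s are the statements of the single pieces.
-/

set_option autoImplicit false

noncomputable section

open Complex

namespace Crest.Agent.R012.P355

open Crest.Agent.R012 Eis

/-- completely multiplicative and bounded by one on the primary elements -/
structure MulPrim (ψ : Eis → ℂ) : Prop where
  one : ψ 1 = 1
  mul : ∀ a b : Eis, IsPrim a → IsPrim b → ψ (a * b) = ψ a * ψ b
  le : ∀ a : Eis, IsPrim a → ‖ψ a‖ ≤ 1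

open Classical in
/-- `Σ_{b primary, N(b) = n} ψ(b)` -/
def fP (ψ : Eis → ℂ) (n : ℕ) : ℂ := ∑ b ∈ (primBall n).filter (fun b => nm b = n), ψ b

open Classical in
/-- `Σ_{π primary prime, k ≥ 1, N(π)^k = n} ψ(π)^k log N(π)` -/
def aP (ψ : Eis → ℂ) (n : ℕ) : ℂ :=
  ∑ p ∈ (primBall n).filter (fun p => Prime p), ∑ k ∈ Finset.Icc 1 n,
    if nm p ^ k = n then ψ p ^ k * (Real.log (nm p) : ℂ) else 0

/-- ℕ-level facts for the trivial character -/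
structure Base (r a1 : ℕ → ℝ) (C0 : ℝ) : Prop where
  r_nonneg : ∀ n, 0 ≤ r n
  r_zero : r 0 = 0
  r_one : r 1 = 1
  r_sum : ∀ N : ℕ, ∑ n ∈ Finset.Icc 1 N, r n ≤ C0 * N
  a_nonneg : ∀ n, 0 ≤ a1 n
  a_zero : a1 0 = 0
  a_le : ∀ n : ℕ, 1 ≤ n → a1 n ≤ C0 * (1 + Real.log n)
  conv : LSeries.convolution (fun n => (a1 n : ℂ)) (fun n => (r n : ℂ)) =
    LSeries.logMul (fun n => (r n : ℂ))

/-- ℕ-level facts for a twist: `f` has small partial sums -/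
structure Tw (r : ℕ → ℝ) (f : ℕ → ℂ) (Q : ℝ) : Prop where
  f_zero : f 0 = 0
  f_one : f 1 = 1
  f_le : ∀ n, ‖f n‖ ≤ r n
  f_sum : ∀ N : ℕ, ‖∑ n ∈ Finset.Icc 1 N, f n‖ ≤ Q * Real.sqrt N

/-- relation between `f` (coefficients of `L`) and `a` (coefficients of `-L'/L`) -/
structure LD (a1 : ℕ → ℝ) (f a : ℕ → ℂ) : Prop where
  a_zero : a 0 = 0
  a_le : ∀ n, ‖a n‖ ≤ a1 n
  conv : LSeries.convolution a f = LSeries.logMul f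

/-- positivity for 3-4-1 -/
def Pos341 (a1 : ℕ → ℝ) (a a2 : ℕ → ℂ) : Prop :=
  ∀ (n : ℕ) (z : ℂ), ‖z‖ = 1 → 0 ≤ 3 * a1 n + 4 * (a n * z).re + (a2 n * z ^ 2).re

/-! ### Analysis at ℕ-level -/

/-- (A1) continuation to `Re s > 1/2` and bound in the strip. -/
def A1_Prop : Prop := ∀ (C0 η : ℝ), 0 < η → η ≤ 1 / 2 → ∃ C : ℝ, 0 < C ∧
  ∀ (r : ℕ → ℝ) (f : ℕ → ℂ) (Q : ℝ), 1 ≤ Q → (∀ n, 0 ≤ r n) →
    (∀ N : ℕ, ∑ n ∈ Finset.Icc 1 N, r n ≤ C0 * N) → Tw r f Q →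
    ∃ F : ℂ → ℂ, DifferentiableOn ℂ F {s : ℂ | 1 / 2 < s.re} ∧
      (∀ s : ℂ, 1 < s.re → F s = LSeries f s) ∧
      (∀ s : ℂ, 1 - η / 2 ≤ s.re → s.re ≤ 3 → ‖F s‖ ≤ C * (Q * (2 + |s.im|)) ^ η)

/-- (A2) lower bound from 3-4-1. -/
def A2_Prop : Prop := ∀ (C0 η : ℝ), 0 < η → η ≤ 1 / 2 → ∃ c : ℝ, 0 < c ∧
  ∀ (r a1 : ℕ → ℝ) (f a f2 a2 : ℕ → ℂ) (Q : ℝ), 1 ≤ Q → Base r a1 C0 → Tw r f Q → Tw r f2 Q →
    LD a1 f a → LD a1 f2 a2 → Pos341 a1 a a2 →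
    ∀ s : ℂ, 1 < s.re → s.re ≤ 2 → c * (Q * (2 + |s.im|)) ^ (-(4 * η)) ≤ ‖LSeries f s‖

/-- (A3) the final ℕ-level theorem. -/
def A3_Prop : Prop := ∀ (C0 : ℝ) (m : ℕ), ∃ C : ℝ, 0 < C ∧
  ∀ (r a1 : ℕ → ℝ) (f a f2 a2 : ℕ → ℂ) (Q : ℝ), 1 ≤ Q → Base r a1 C0 → Tw r f Q → Tw r f2 Q →
    LD a1 f a → LD a1 f2 a2 → Pos341 a1 a a2 →
    ∀ x : ℝ, 2 ≤ x → ‖∑ n ∈ Finset.Icc 1 ⌊x⌋₊, a n‖ ≤ C * Real.sqrt Q * x / Real.log x ^ m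

/-! ### Arithmetic -/

/-- (B1) -/
def B1_Prop : Prop := ∀ ψ : Eis → ℂ, MulPrim ψ →
  LSeries.convolution (aP ψ) (fP ψ) = LSeries.logMul (fP ψ)

/-- (B2) -/
def B2_Prop : Prop := ∀ ψ : Eis → ℂ, MulPrim ψ →
  (∀ n, ‖fP ψ n‖ ≤ (fP (fun _ => 1) n).re) ∧ (∀ n, ‖aP ψ n‖ ≤ (aP (fun _ => 1) n).re) ∧
  (∀ n : ℕ, 1 ≤ n → (aP (fun _ => 1) n).re ≤ 2 * Real.log n) ∧
  fP ψ 0 = 0 ∧ fP ψ 1 = 1 ∧ aP ψ 0 = 0 ∧
  (∀ n, ((aP (fun _ => 1) n).re : ℂ) = aP (fun _ => 1) n) ∧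
  (∀ n, ((fP (fun _ => 1) n).re : ℂ) = fP (fun _ => 1) n)

/-- (B3) -/
def B3_Prop : Prop := ∀ ψ : Eis → ℂ, MulPrim ψ →
  Pos341 (fun n => (aP (fun _ => 1) n).re) (aP ψ) (aP (fun b => ψ b ^ 2))

/-- (B4) sums of `fP` are sums over `primBall`. -/
def B4_Prop : Prop := ∀ (ψ : Eis → ℂ) (N : ℕ),
  ∑ n ∈ Finset.Icc 1 N, fP ψ n = ∑ b ∈ primBall N, ψ b

/-! ### Lattice counting -/

/-- (C1) number of primary elements -/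
def C1_Prop : Prop := ∃ C0 : ℝ, ∀ N : ℕ, ((primBall N).card : ℝ) ≤ C0 * N

/-- (C2) mean zero modulo `q` : character sums.  `X` is a function of `b` mod `q`, of mean zero
over the primary elements. -/
def C2_Prop : Prop := ∀ l : ℤ, ∃ C : ℝ, 0 < C ∧ ∀ (q : Eis) (χ : Eis → ℂ), q ≠ 0 → (3 : Eis) ∣ q →
  (∀ a, ‖χ a‖ ≤ 1) → (∀ a b, q ∣ a - b → χ a = χ b) →
  ((l = 0 → sumMod q (fun a => open Classical in if IsPrim a then χ a else 0) = 0)) →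
  ∀ N : ℕ, ‖∑ b ∈ primBall N, χ b * ang l b‖ ≤ C * nm q * Real.sqrt N

/-! ### The result of part (P) -/

open Classical in
/-- (P) for an abstract completely multiplicative `ψ` with small partial sums. -/
def P_Prop : Prop := ∀ m : ℕ, ∃ C : ℝ, 0 < C ∧ ∀ (ψ : Eis → ℂ) (Q : ℝ), 1 ≤ Q → MulPrim ψ →
  (∀ N : ℕ, ‖∑ b ∈ primBall N, ψ b‖ ≤ Q * Real.sqrt N) →
  (∀ N : ℕ, ‖∑ b ∈ primBall N, ψ b ^ 2‖ ≤ Q * Real.sqrt N) →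
  ∀ x : ℝ, 2 ≤ x → ‖∑ p ∈ (primBall ⌊x⌋₊).filter (fun p => Prime p), ψ p‖ ≤
    C * Real.sqrt Q * x / Real.log x ^ m

end Crest.Agent.R012.P355
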