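import Crest.Agent.R012.Sym4_645
import Crest.Agent.R012.Quot_666
import Crest.Agent.R012.Dec_766
import Crest.Agent.R012.PSpec_355

/-!
# Row 12 (R2b): the characters `b ↦ (h/b)` on primary elements

Everything is stated relative to `Suppl` (facts following from the supplementary laws).
-/

set_option autoImplicit false
set_option linter.unusedSimpArgs false
set_option linter.unusedVariables false

noncomputable section

namespace Crest.Agent.R012.Char766

open Crest.Agent.R012 Crest.Agent.R012.Eis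

/-- What is needed from the supplementary laws. -/
structure Suppl : Prop where
  w9 : ∀ a b : Eis, IsPrim a → IsPrim b → (9 : Eis) ∣ a - b → sy w a = sy w b
  lam9 : ∀ a b : Eis, IsPrim a → IsPrim b → (9 : Eis) ∣ a - b → sy lam a = sy lam b
  w_val : sy w (1 + 3 * w) = wC ^ 2
  lam_val : sy lam (1 + 3 * w) = 1
  lam_val' : sy lam 4 = wC

/-! ### values -/

lemma wC_ne_one : wC ≠ 1 := by
  intro h
  have := congrArg Complex.im h
  simp [wC] at this

lemma wC_sq_ne_one : wC ^ 2 ≠ 1 := by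
  intro h
  have h3 := wC_cube
  rw [pow_succ, h, one_mul] at h3
  exact wC_ne_one h3

lemma wC_pow_ne_one {e : ℕ} (he : ¬ 3 ∣ e) : wC ^ e ≠ 1 := by
  intro h
  have h3 := wC_cube
  obtain ⟨q, hq⟩ : ∃ q, e = 3 * q + 1 ∨ e = 3 * q + 2 := ⟨e / 3, by omega⟩
  rcases hq with hq | hq
  · rw [hq, pow_add, pow_mul, h3, one_pow, one_mul, pow_one] at h
    exact wC_ne_one h
  · rw [hq, pow_add, pow_mul, h3, one_pow, one_mul] at h
    exact wC_sq_ne_one h

lemma sy_ne_zero {x c : Eis} (hc : IsPrim c) (h : IsCoprime x c) : sy x c ≠ 0 := by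
  intro h0
  exact (Sym645.sy_eq_zero_iff (Sym645.prim_nm_mod hc)).mp h0 h

lemma sy_eq_zero {x c : Eis} (hc : IsPrim c) (h : ¬ IsCoprime x c) : sy x c = 0 :=
  (Sym645.sy_eq_zero_iff (Sym645.prim_nm_mod hc)).mpr h

lemma sy_cube {x c : Eis} (hc : IsPrim c) (h : IsCoprime x c) : sy x c ^ 3 = 1 :=
  Sym645.sy_cube (Sym645.prim_nm_mod hc) h

lemma norm_sy_le {x c : Eis} (hc : IsPrim c) : ‖sy x c‖ ≤ 1 :=
  Sym645.norm_sy_le_one (Sym645.prim_nm_mod hc) x

lemma norm_sy {x c : Eis} (hc : IsPrim c) (h : IsCoprime x c) : ‖sy x c‖ = 1 :=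
  Sym645.norm_sy_of_isCoprime (Sym645.prim_nm_mod hc) h

lemma sy_mul_left {x y c : Eis} (hc : IsPrim c) : sy (x * y) c = sy x c * sy y c :=
  Sym645.sy_mul_left (Sym645.prim_nm_mod hc) x y

lemma sy_pow_left {x c : Eis} (hc : IsPrim c) (n : ℕ) : sy (x ^ n) c = sy x c ^ n :=
  Sym645.sy_pow_left (Sym645.prim_nm_mod hc) x n

lemma sy_mul_right {x c d : Eis} (hc : IsPrim c) (hd : IsPrim d) :
    sy x (c * d) = sy x c * sy x d :=
  Sym645.sy_mul_right x hc.ne_zero hd.ne_zero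

lemma sy_congr {x y c : Eis} (hc : IsPrim c) (h : c ∣ x - y) : sy x c = sy y c :=
  Sym645.sy_congr (Sym645.prim_nm_mod hc) h

lemma sy_one_left {c : Eis} (hc : IsPrim c) : sy 1 c = 1 :=
  Sym645.sy_one_left (Sym645.prim_nm_mod hc)

lemma sy_one_right (x : Eis) : sy x 1 = 1 := Sym645.sy_one_right x

/-- `(m³/b) = 1` for `b` coprime to `m`. -/
lemma sy_cube_left {m b : Eis} (hb : IsPrim b) (h : IsCoprime m b) : sy (m ^ 3) b = 1 := by
  rw [sy_pow_left hb, sy_cube hb h]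

/-- conjugation is squaring on the values of the symbol -/
lemma conj_sy {x c : Eis} (hc : IsPrim c) : (starRingEnd ℂ) (sy x c) = sy x c ^ 2 := by
  by_cases h : IsCoprime x c
  · have h1 := norm_sy hc h
    have h3 := sy_cube hc h
    have h0 := sy_ne_zero hc h
    have h2 : sy x c * (starRingEnd ℂ) (sy x c) = 1 := by
      rw [Complex.mul_conj, Complex.normSq_eq_norm_sq, h1]; simp
    apply mul_left_cancel₀ h0
    rw [h2, ← h3]; ring
  · rw [sy_eq_zero hc h]; simp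

/-- product characters: `(h₁/b) conj (h₂/b) = (h₁ h₂² / b)` -/
lemma sy_mul_conj {x y c : Eis} (hc : IsPrim c) :
    sy x c * (starRingEnd ℂ) (sy y c) = sy (x * y ^ 2) c := by
  rw [conj_sy hc, sy_mul_left hc, sy_pow_left hc]

/-! ### `(h/b)` in terms of a decomposition of `h` -/

lemma sy_unit_lam {e h k : Eis} {i j : ℕ} (he : e = 1 ∨ e = -1) (hk : IsPrim k)
    (hh : h = e * w ^ i * lam ^ j * k) {b : Eis} (hb : IsPrim b) :
    sy h b = sy w b ^ i * sy lam b ^ j * sy b k := by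
  have h1 : sy e b = 1 := by
    rcases he with rfl | rfl
    · exact sy_one_left hb
    · rw [Sym645.sy_neg (Sym645.prim_nm_mod hb), sy_one_left hb]
  rw [hh, sy_mul_left hb, sy_mul_left hb, sy_mul_left hb, h1, one_mul, sy_pow_left hb,
    sy_pow_left hb, Sym645.sy_reciprocity hk hb]

/-- The cubic decomposition of the character. -/
theorem IsCubDec.sy_eq {h : Eis} {i j : ℕ} {k1 k2 m : Eis} (hd : IsCubDec h i j k1 k2 m)
    {b : Eis} (hb : IsPrim b) (hm : IsCoprime m b) :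
    sy h b = sy w b ^ i * sy lam b ^ j * sy b k1 * (starRingEnd ℂ) (sy b k2) := by
  rw [hd.eq, sy_mul_left hb, sy_cube_left hb hm, mul_one, sy_mul_left hb, sy_mul_left hb,
    sy_mul_left hb, sy_pow_left hb, sy_pow_left hb, sy_pow_left hb,
    Sym645.sy_reciprocity hd.prim1 hb, Sym645.sy_reciprocity hd.prim2 hb, conj_sy hd.prim2]

/-- and when `m` is not coprime to `b` the symbol vanishes -/
theorem IsCubDec.sy_eq_zero {h : Eis} {i j : ℕ} {k1 k2 m : Eis} (hd : IsCubDec h i j k1 k2 m)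
    {b : Eis} (hb : IsPrim b) (hm : ¬ IsCoprime m b) : sy h b = 0 := by
  apply Char766.sy_eq_zero hb
  intro hc
  apply hm
  rw [hd.eq] at hc
  exact (hc.of_mul_left_right).of_isCoprime_of_dvd_left (dvd_pow_self m three_ne_zero)

/-! ### Periodicity -/

section
variable (S : Suppl)
include S

theorem sy_periodic' {e h k : Eis} {i j : ℕ} (he : e = 1 ∨ e = -1) (hk : IsPrim k)
    (hh : h = e * w ^ i * lam ^ j * k) {a b : Eis} (ha : IsPrim a) (hb : IsPrim b)
    (h9 : (9 : Eis) ∣ a - b) (hkd : k ∣ a - b) : sy h a = sy h b := by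
  rw [sy_unit_lam he hk hh ha, sy_unit_lam he hk hh hb, S.w9 a b ha hb h9,
    S.lam9 a b ha hb h9, sy_congr hk hkd]

/-- `b ↦ (h/b)` is periodic modulo `9 h` on primary elements. -/
theorem sy_periodic {h a b : Eis} (hh : h ≠ 0) (ha : IsPrim a) (hb : IsPrim b)
    (hd : 9 * h ∣ a - b) : sy h a = sy h b := by
  obtain ⟨e, i, j, k, he, hi, hk, hdec⟩ := exists_unit_lam_prim hh
  refine sy_periodic' S he hk hdec ha hb ((dvd_mul_right 9 h).trans hd) ?_
  have h1 : k ∣ h := ⟨e * w ^ i * lam ^ j, by rw [hdec]; ring⟩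
  exact (h1.trans (dvd_mul_left h 9)).trans hd

/-- periodic modulo the rational integer `9 N(h)` -/
theorem sy_periodic_nat {h a b : Eis} (hh : h ≠ 0) (ha : IsPrim a) (hb : IsPrim b)
    (hd : ((9 * nm h : ℕ) : Eis) ∣ a - b) : sy h a = sy h b := by
  refine sy_periodic S hh ha hb (dvd_trans ?_ hd)
  push_cast
  rw [← mul_conj h]
  exact ⟨Eis.conj h, by ring⟩

end

/-! ### Chinese remainders -/

lemma crt {a b : Eis} (h : IsCoprime a b) (x y : Eis) : ∃ z, a ∣ z - x ∧ b ∣ z - y := by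
  obtain ⟨u, v, huv⟩ := h
  refine ⟨x * (v * b) + y * (u * a), ?_, ?_⟩
  · exact ⟨(y - x) * u, by linear_combination x * huv⟩
  · exact ⟨(x - y) * v, by linear_combination y * huv⟩

lemma coprime_of_dvd_sub {a b c : Eis} (h : c ∣ a - b) (hb : IsCoprime b c) : IsCoprime a c := by
  obtain ⟨t, ht⟩ := h
  have : a = b + c * t := by rw [← ht]; ring
  rw [this]
  exact hb.add_mul_left_left t

/-- A nonzero `M` is `p^n M'` with `p ∤ M'`. -/
lemma split_prime {p M : Eis} (hp : Prime p) (hM : M ≠ 0) :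
    ∃ (n : ℕ) (M' : Eis), M' ≠ 0 ∧ IsCoprime p M' ∧ M = p ^ n * M' := by
  obtain ⟨x, hx1, hx2⟩ := (finMult hp hM).exists_eq_pow_mul_and_not_dvd
  refine ⟨multiplicity p M, x, ?_, hp.irreducible.coprime_iff_not_dvd.mpr hx2, hx1⟩
  rintro rfl
  exact hx2 (dvd_zero p)

lemma exists_nonres {p : Eis} (hp : Prime p) (hpp : IsPrim p) : ∃ g, sy g p = wC := by
  have : Fact (Prime p) := ⟨hp⟩
  obtain ⟨x, hx⟩ := Sym645.exists_cu_eq_w (p := p) (Sym645.prim_nm_mod hpp)
  exact ⟨x, by rw [Sym645.sy_prime_cu x hp, hx, toC_w]⟩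

lemma coprime_of_sy_ne_zero {x c : Eis} (hc : IsPrim c) (h : sy x c ≠ 0) : IsCoprime x c := by
  by_contra hn
  exact h (sy_eq_zero hc hn)

/-- a primary element different from `1` has a primary prime factor -/
lemma exists_prim_prime_dvd {k : Eis} (hk : IsPrim k) (h1 : k ≠ 1) :
    ∃ p, Prime p ∧ IsPrim p ∧ p ∣ k := by
  have hu : ¬ IsUnit k := fun h => h1 (Sym645.prim_unit_eq_one h hk)
  obtain ⟨q, hq, hqk⟩ := WfDvdMonoid.exists_irreducible_factor hu hk.ne_zero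
  have hql : ¬ lam ∣ q := fun h => hk.not_lam_dvd (h.trans hqk)
  exact ⟨prim q, (prim_associated q).prime hq.prime, prim_isPrim hql,
    (prim_associated q).dvd_iff_dvd_left.mp hqk⟩

lemma nine_eq : (9 : Eis) = (-w ^ 2) ^ 2 * lam ^ 4 := by
  have h := three_eq
  calc (9 : Eis) = 3 * 3 := by norm_num
    _ = (-w ^ 2 * lam ^ 2) * (-w ^ 2 * lam ^ 2) := by rw [← h]
    _ = _ := by ring

lemma IsPrim.coprime_pow_lam {x : Eis} (hx : IsPrim x) (n : ℕ) : IsCoprime x (lam ^ n) :=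
  hx.isCoprime_lam.pow_right

/-- The case of a primary prime `p`: there is `b ≡ 1` modulo everything prime to `p`. -/
lemma exists_test {p M : Eis} (hp : Prime p) (hpp : IsPrim p) (hM : M ≠ 0) (h9 : (9 : Eis) ∣ M) :
    ∃ b, IsPrim b ∧ IsCoprime b M ∧ sy b p = wC ∧ (9 : Eis) ∣ b - 1 ∧
      ∀ c, IsCoprime p c → c ∣ M → c ∣ b - 1 := by
  obtain ⟨n, M', hM', hc, hMM⟩ := split_prime hp hM
  obtain ⟨g, hg⟩ := exists_nonres hp hpp
  obtain ⟨b, hb1, hb2⟩ := crt hc g 1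
  have hcM : ∀ c, IsCoprime p c → c ∣ M → c ∣ b - 1 := by
    intro c hpc hcM
    refine dvd_trans ?_ hb2
    rw [hMM] at hcM
    exact (hpc.pow_left (m := n)).symm.dvd_of_dvd_mul_left hcM
  have hp9 : IsCoprime p 9 := by
    rw [nine_eq]
    exact IsCoprime.mul_right (isCoprime_of_isUnit (((isUnit_w.pow 2).neg).pow 2) p).symm
      (IsPrim.coprime_pow_lam hpp 4)
  have h9b := hcM 9 hp9 h9
  have hbp : sy b p = wC := by rw [sy_congr hpp hb1, hg]
  refine ⟨b, ?_, ?_, hbp, h9b, hcM⟩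
  · unfold IsPrim
    exact dvd_trans ⟨3, by norm_num⟩ h9b
  · rw [hMM]
    apply IsCoprime.mul_right
    · apply IsCoprime.pow_right
      apply coprime_of_sy_ne_zero hpp
      rw [hbp]; exact wC_ne_zero
    · exact coprime_of_dvd_sub hb2 isCoprime_one_left

/-- The prime `lam`. -/
lemma exists_test_lam {M : Eis} (hM : M ≠ 0) {d : Eis} (hd : IsPrim d) :
    ∃ b, IsPrim b ∧ IsCoprime b M ∧ (9 : Eis) ∣ b - d := by
  obtain ⟨n, M', hM', hc, hMM⟩ := split_prime prime_lam hM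
  have hc9 : IsCoprime (9 : Eis) M' := by
    rw [nine_eq]
    exact IsCoprime.mul_left (isCoprime_of_isUnit (((isUnit_w.pow 2).neg).pow 2) M')
      (hc.pow_left)
  obtain ⟨b, hb1, hb2⟩ := crt hc9 d 1
  have hbP : IsPrim b := by
    unfold IsPrim at *
    have : b - 1 = (b - d) + (d - 1) := by ring
    rw [this]
    exact dvd_add (dvd_trans ⟨3, by norm_num⟩ hb1) hd
  refine ⟨b, hbP, ?_, hb1⟩
  rw [hMM]
  exact IsCoprime.mul_right (IsPrim.coprime_pow_lam hbP n)
    (coprime_of_dvd_sub hb2 isCoprime_one_left)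

section
variable (S : Suppl)
include S

/-- **Nontriviality.** For `h` not a cube and any `Q ≠ 0` there is a primary `b` coprime to
`Q` and `h` with `(h/b) ≠ 1`. -/
theorem exists_sy_ne_one {h : Eis} (hh : h ≠ 0) (hcube : ¬ ∃ t, h = t ^ 3) {Q : Eis}
    (hQ : Q ≠ 0) : ∃ b, IsPrim b ∧ IsCoprime b Q ∧ IsCoprime h b ∧ sy h b ≠ 1 := by
  obtain ⟨i, j, k1, k2, m, hd⟩ := exists_isCubDec hh
  have h9 : (9 : Eis) ≠ 0 := by norm_num
  set M : Eis := 9 * h * Q with hMdef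
  have hM : M ≠ 0 := mul_ne_zero (mul_ne_zero h9 hh) hQ
  have h9M : (9 : Eis) ∣ M := ⟨h * Q, by rw [hMdef]; ring⟩
  have hhM : h ∣ M := ⟨9 * Q, by rw [hMdef]; ring⟩
  have hQM : Q ∣ M := ⟨9 * h, by rw [hMdef]; ring⟩
  have hk1h : k1 ∣ h := ⟨w ^ i * lam ^ j * k2 ^ 2 * m ^ 3, by rw [hd.eq]; ring⟩
  have hk2h : k2 ∣ h := ⟨w ^ i * lam ^ j * k1 * k2 * m ^ 3, by rw [hd.eq]; ring⟩
  have hmh : m ∣ h := ⟨w ^ i * lam ^ j * k1 * k2 ^ 2 * m ^ 2, by rw [hd.eq]; ring⟩
  have hcopM : ∀ {b : Eis}, IsCoprime b M → IsCoprime b Q ∧ IsCoprime h b ∧ IsCoprime m b := by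
    intro b hb
    exact ⟨hb.of_isCoprime_of_dvd_right hQM, (hb.of_isCoprime_of_dvd_right hhM).symm,
      (hb.of_isCoprime_of_dvd_right (hmh.trans hhM)).symm⟩
  have hw1 : ∀ {b : Eis}, IsPrim b → (9 : Eis) ∣ b - 1 → sy w b = 1 ∧ sy lam b = 1 := by
    intro b hb h9
    exact ⟨by rw [S.w9 b 1 hb isPrim_one h9, sy_one_right],
      by rw [S.lam9 b 1 hb isPrim_one h9, sy_one_right]⟩
  by_cases h1 : k1 = 1
  · by_cases h2 : k2 = 1
    · -- `h = w^i lam^j m^3`
      subst h1 h2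
      have hij : ¬ (i = 0 ∧ j = 0) := by
        rintro ⟨rfl, rfl⟩
        exact hcube (hd.isCube_iff.mpr ⟨rfl, rfl, rfl, rfl⟩)
      have hval : ∀ {b d : Eis}, IsPrim b → IsPrim d → (9 : Eis) ∣ b - d → IsCoprime b M →
          sy h b = sy w d ^ i * sy lam d ^ j := by
        intro b d hb hdP h9 hbM
        rw [hd.sy_eq hb (hcopM hbM).2.2, sy_one_right, S.w9 b d hb hdP h9,
          S.lam9 b d hb hdP h9]
        simp
      have hP1 : IsPrim (1 + 3 * w) := isPrim_add_mul isPrim_one w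
      have hP2 : IsPrim (4 : Eis) := by
        unfold IsPrim; exact ⟨1, by norm_num⟩
      have hi := hd.hi
      have hj := hd.hj
      by_cases hi0 : i = 0
      · obtain ⟨b, hb1, hb2, hb3⟩ := exists_test_lam hM hP2
        refine ⟨b, hb1, (hcopM hb2).1, (hcopM hb2).2.1, ?_⟩
        rw [hval hb1 hP2 hb3 hb2, hi0, pow_zero, one_mul, S.lam_val']
        apply wC_pow_ne_one
        omega
      · obtain ⟨b, hb1, hb2, hb3⟩ := exists_test_lam hM hP1
        refine ⟨b, hb1, (hcopM hb2).1, (hcopM hb2).2.1, ?_⟩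
        rw [hval hb1 hP1 hb3 hb2, S.lam_val, one_pow, mul_one, S.w_val, ← pow_mul]
        apply wC_pow_ne_one
        omega
    · -- a prime dividing `k2`
      obtain ⟨p, hp, hpp, hpk⟩ := exists_prim_prime_dvd hd.prim2 h2
      obtain ⟨b, hb1, hb2, hb3, hb4, hb5⟩ := exists_test hp hpp hM h9M
      obtain ⟨c1, c2, c3⟩ := hcopM hb2
      refine ⟨b, hb1, c1, c2, ?_⟩
      obtain ⟨t, ht⟩ := hpk
      have htP : IsPrim t := (ht ▸ hd.prim2).of_mul_left hpp
      have hpt : IsCoprime p t := by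
        rw [hp.irreducible.coprime_iff_not_dvd]
        rintro ⟨s, hs⟩
        refine hp.not_isUnit (hd.sqf2 p ⟨s, ?_⟩)
        rw [ht, hs]; ring
      have hpk1 : IsCoprime p k1 := (hd.cop.symm).of_isCoprime_of_dvd_left ⟨t, ht⟩
      have e1 : sy b k1 = 1 := by
        rw [sy_congr hd.prim1 (hb5 k1 hpk1 (hk1h.trans hhM)), sy_one_left hd.prim1]
      have e2 : sy b k2 = wC := by
        rw [ht, sy_mul_right hpp htP, hb3,
          sy_congr htP (hb5 t hpt ((Dvd.intro_left p ht.symm).trans (hk2h.trans hhM))),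
          sy_one_left htP, mul_one]
      have e3 : (starRingEnd ℂ) (sy b k2) = wC ^ 2 := by
        rw [conj_sy hd.prim2, e2]
      rw [hd.sy_eq hb1 c3, (hw1 hb1 hb4).1, (hw1 hb1 hb4).2, e1, e3]
      simpa using wC_sq_ne_one
  · -- a prime dividing `k1`
    obtain ⟨p, hp, hpp, hpk⟩ := exists_prim_prime_dvd hd.prim1 h1
    obtain ⟨b, hb1, hb2, hb3, hb4, hb5⟩ := exists_test hp hpp hM h9M
    obtain ⟨c1, c2, c3⟩ := hcopM hb2
    refine ⟨b, hb1, c1, c2, ?_⟩
    obtain ⟨t, ht⟩ := hpk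
    have htP : IsPrim t := (ht ▸ hd.prim1).of_mul_left hpp
    have hpt : IsCoprime p t := by
      rw [hp.irreducible.coprime_iff_not_dvd]
      rintro ⟨s, hs⟩
      refine hp.not_isUnit (hd.sqf1 p ⟨s, ?_⟩)
      rw [ht, hs]; ring
    have hpk2 : IsCoprime p k2 := (hd.cop).of_isCoprime_of_dvd_left ⟨t, ht⟩
    have e1 : sy b k2 = 1 := by
      rw [sy_congr hd.prim2 (hb5 k2 hpk2 (hk2h.trans hhM)), sy_one_left hd.prim2]
    have e2 : sy b k1 = wC := by
      rw [ht, sy_mul_right hpp htP, hb3,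
        sy_congr htP (hb5 t hpt ((Dvd.intro_left p ht.symm).trans (hk1h.trans hhM))),
        sy_one_left htP, mul_one]
    rw [hd.sy_eq hb1 c3, (hw1 hb1 hb4).1, (hw1 hb1 hb4).2, e1, e2]
    simpa using wC_ne_one

end

/-! ### The square of the character -/

lemma IsCubDec.sq {h : Eis} {i j : ℕ} {k1 k2 m : Eis} (hd : IsCubDec h i j k1 k2 m) :
    ∃ m' : Eis, IsCubDec (h ^ 2) (2 * i % 3) (2 * j % 3) k2 k1 m' := by
  have hw : w ^ (2 * i) = w ^ (2 * i % 3) := by
    conv_lhs => rw [← Nat.div_add_mod (2 * i) 3, pow_add, pow_mul, w_cube, one_pow, one_mul]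
  have hl : lam ^ (2 * j) = lam ^ (2 * j % 3) * (lam ^ (2 * j / 3)) ^ 3 := by
    rw [← pow_mul, ← pow_add]; congr 1; omega
  refine ⟨lam ^ (2 * j / 3) * k2 * m ^ 2, ⟨Nat.mod_lt _ (by norm_num), Nat.mod_lt _ (by norm_num),
    hd.prim2, hd.prim1, hd.sqf2, hd.sqf1, hd.cop.symm, ?_, ?_⟩⟩
  · exact mul_ne_zero (mul_ne_zero (pow_ne_zero _ lam_ne_zero) hd.prim2.ne_zero)
      (pow_ne_zero _ hd.ne)
  · have e : h ^ 2 = w ^ (2 * i) * lam ^ (2 * j) * k1 ^ 2 * k2 ^ 4 * m ^ 6 := by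
      rw [hd.eq, pow_mul', pow_mul' lam]; ring
    rw [e, hw, hl]; ring

lemma not_cube_sq {h : Eis} (hh : h ≠ 0) (hc : ¬ ∃ t, h = t ^ 3) : ¬ ∃ t, h ^ 2 = t ^ 3 := by
  obtain ⟨i, j, k1, k2, m, hd⟩ := exists_isCubDec hh
  obtain ⟨m', hd'⟩ := hd.sq
  rw [hd'.isCube_iff]
  rw [hd.isCube_iff] at hc
  rintro ⟨h1, h2, h3, h4⟩
  apply hc
  have := hd.hi
  have := hd.hj
  exact ⟨by omega, by omega, h4, h3⟩

/-! ### Vanishing of the sum over primary classes -/

open Classical in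
/-- the function `b ↦ (h/b)` on primary elements, extended by zero -/
def chi (h b : Eis) : ℂ := if IsPrim b then sy h b else 0

lemma chi_of_prim {h b : Eis} (hb : IsPrim b) : chi h b = sy h b := if_pos hb

lemma norm_chi_le (h b : Eis) : ‖chi h b‖ ≤ 1 := by
  unfold chi
  split_ifs with hb
  · exact norm_sy_le hb
  · simp

lemma isPrim_congr {Q a b : Eis} (h3 : (3 : Eis) ∣ Q) (h : Q ∣ a - b) : IsPrim a ↔ IsPrim b := by
  have h' := h3.trans h
  constructor
  · intro ha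
    unfold IsPrim at *
    have : b - 1 = (a - 1) - (a - b) := by ring
    rw [this]; exact dvd_sub ha h'
  · intro hb
    unfold IsPrim at *
    have : a - 1 = (b - 1) + (a - b) := by ring
    rw [this]; exact dvd_add hb h'

/-- Generic vanishing lemma. -/
lemma sumMod_prim_eq_zero {Q : Eis} (hQ : Q ≠ 0) (h3 : (3 : Eis) ∣ Q) {f : Eis → ℂ}
    (hper : ∀ a b, IsPrim a → IsPrim b → Q ∣ a - b → f a = f b) {b0 : Eis} (hb0 : IsPrim b0)
    (hcop : IsCoprime b0 Q) (hne : f b0 ≠ 1) (hmul : ∀ b, IsPrim b → f (b0 * b) = f b0 * f b) :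
    sumMod Q (fun b => open Classical in if IsPrim b then f b else 0) = 0 := by
  classical
  set F : Eis → ℂ := fun b => if IsPrim b then f b else 0 with hF
  have hP : PMod Q F := by
    intro x t
    have hd : Q ∣ (x + Q * t) - x := ⟨t, by ring⟩
    have h1 := isPrim_congr h3 hd
    simp only [hF]
    by_cases hx : IsPrim x
    · rw [if_pos hx, if_pos (h1.mpr hx)]
      exact hper _ _ (h1.mpr hx) hx hd
    · rw [if_neg hx, if_neg (fun h => hx (h1.mp h))]
  have h1 := sumMod_mul_coprime hQ hP hcop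
  have h2 : ∀ x, F (b0 * x) = f b0 * F x := by
    intro x
    simp only [hF]
    by_cases hx : IsPrim x
    · rw [if_pos hx, if_pos (hb0.mul hx), hmul x hx]
    · rw [if_neg hx, if_neg (fun h => hx (IsPrim.of_mul_left h hb0)), mul_zero]
  rw [sumMod_congr h2, sumMod_mul_left hQ] at h1
  have h3 : (f b0 - 1) * sumMod Q F = 0 := by rw [sub_mul, one_mul, h1, sub_self]
  rcases mul_eq_zero.mp h3 with h | h
  · exact absurd (sub_eq_zero.mp h) hne
  · exact h

section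
variable (S : Suppl)
include S

/-- `chi h` is periodic modulo every multiple of `9 h`, on all of `Eis`. -/
theorem pmod_chi {h Q : Eis} (hh : h ≠ 0) (hd : 9 * h ∣ Q) : PMod Q (chi h) := by
  intro x t
  have h3 : (3 : Eis) ∣ Q := (Dvd.intro (3 * h) (by ring)).trans hd
  have hQ : Q ∣ (x + Q * t) - x := ⟨t, by ring⟩
  have h1 := isPrim_congr h3 hQ
  unfold chi
  by_cases hx : IsPrim x
  · rw [if_pos hx, if_pos (h1.mpr hx)]
    exact sy_periodic S hh (h1.mpr hx) hx (hd.trans hQ)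
  · rw [if_neg hx, if_neg (fun h => hx (h1.mp h))]

/-- **Mean zero.** -/
theorem sumMod_chi {h : Eis} (hh : h ≠ 0) (hc : ¬ ∃ t, h = t ^ 3) {Q : Eis} (hQ : Q ≠ 0)
    (hd : 9 * h ∣ Q) : sumMod Q (chi h) = 0 := by
  obtain ⟨b0, hb1, hb2, hb3, hb4⟩ := exists_sy_ne_one S hh hc hQ
  have h3 : (3 : Eis) ∣ Q := (Dvd.intro (3 * h) (by ring)).trans hd
  have := sumMod_prim_eq_zero hQ h3 (f := sy h)
    (fun a b ha hb hab => sy_periodic S hh ha hb (hd.trans hab)) hb1 hb2 hb4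
    (fun b hb => sy_mul_right hb1 hb)
  rw [← this]
  exact sumMod_congr fun x => rfl

end

/-! ### The character as a `MulPrim` function -/

theorem mulPrim_sy (h : Eis) : P355.MulPrim (sy h) where
  one := sy_one_right h
  mul a b ha hb := sy_mul_right ha hb
  le a ha := norm_sy_le ha

/-! ### The other variable -/

/-- `x ↦ (x/k)` is nontrivial if the primary `k` is not a cube. -/
theorem exists_sy_left_ne_one {k : Eis} (hk : IsPrim k) (hc : ¬ ∃ t, k = t ^ 3) :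
    ∃ x, IsPrim x ∧ IsCoprime x k ∧ sy x k ≠ 1 := by
  obtain ⟨k1, k2, m, h1, h2, h3, s1, s2, hcop, he⟩ := exists_prim_cubic_decomp hk
  have hd : IsCubDec k 0 0 k1 k2 m :=
    ⟨by norm_num, by norm_num, h1, h2, s1, s2, hcop, h3.ne_zero, by rw [he]; ring⟩
  have h9 : (9 : Eis) ≠ 0 := by norm_num
  have hM : 9 * k ≠ 0 := mul_ne_zero h9 hk.ne_zero
  have h9M : (9 : Eis) ∣ 9 * k := dvd_mul_right _ _
  have hkM : k ∣ 9 * k := dvd_mul_left _ _
  have hk1 : k1 ∣ k := ⟨k2 ^ 2 * m ^ 3, by rw [he]; ring⟩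
  have hk2 : k2 ∣ k := ⟨k1 * k2 * m ^ 3, by rw [he]; ring⟩
  have hmk : m ∣ k := ⟨k1 * k2 ^ 2 * m ^ 2, by rw [he]; ring⟩
  have hsy : ∀ x, IsCoprime x k → sy x k = sy x k1 * sy x k2 ^ 2 := by
    intro x hx
    have hxm : IsCoprime x m := hx.of_isCoprime_of_dvd_right hmk
    rw [he, sy_mul_right (h1.mul (h2.pow 2)) (h3.pow 3), sy_mul_right h1 (h2.pow 2),
      Sym645.sy_pow_right x h2.ne_zero, Sym645.sy_pow_right x h3.ne_zero, sy_cube h3 hxm, mul_one]
  have hne : ¬ (k1 = 1 ∧ k2 = 1) := by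
    rintro ⟨rfl, rfl⟩
    exact hc ⟨m, by rw [he]; ring⟩
  by_cases hk1' : k1 = 1
  · have hk2' : k2 ≠ 1 := fun h => hne ⟨hk1', h⟩
    obtain ⟨p, hp, hpp, t, ht⟩ := exists_prim_prime_dvd h2 hk2'
    obtain ⟨b, hb1, hb2, hb3, hb4, hb5⟩ := exists_test hp hpp hM h9M
    have hbk : IsCoprime b k := hb2.of_isCoprime_of_dvd_right hkM
    refine ⟨b, hb1, hbk, ?_⟩
    have htP : IsPrim t := (ht ▸ h2).of_mul_left hpp
    have hpt : IsCoprime p t := by
      rw [hp.irreducible.coprime_iff_not_dvd]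
      rintro ⟨s, hs⟩
      refine hp.not_isUnit (s2 p ⟨s, ?_⟩)
      rw [ht, hs]; ring
    have e2 : sy b k2 = wC := by
      rw [ht, sy_mul_right hpp htP, hb3,
        sy_congr htP (hb5 t hpt ((Dvd.intro_left p ht.symm).trans (hk2.trans hkM))),
        sy_one_left htP, mul_one]
    rw [hsy b hbk, hk1', sy_one_right, one_mul, e2]
    exact wC_sq_ne_one
  · obtain ⟨p, hp, hpp, t, ht⟩ := exists_prim_prime_dvd h1 hk1'
    obtain ⟨b, hb1, hb2, hb3, hb4, hb5⟩ := exists_test hp hpp hM h9M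
    have hbk : IsCoprime b k := hb2.of_isCoprime_of_dvd_right hkM
    refine ⟨b, hb1, hbk, ?_⟩
    have htP : IsPrim t := (ht ▸ h1).of_mul_left hpp
    have hpt : IsCoprime p t := by
      rw [hp.irreducible.coprime_iff_not_dvd]
      rintro ⟨s, hs⟩
      refine hp.not_isUnit (s1 p ⟨s, ?_⟩)
      rw [ht, hs]; ring
    have hpk2 : IsCoprime p k2 := hcop.of_isCoprime_of_dvd_left ⟨t, ht⟩
    have e1 : sy b k2 = 1 := by
      rw [sy_congr h2 (hb5 k2 hpk2 (hk2.trans hkM)), sy_one_left h2]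
    have e2 : sy b k1 = wC := by
      rw [ht, sy_mul_right hpp htP, hb3,
        sy_congr htP (hb5 t hpt ((Dvd.intro_left p ht.symm).trans (hk1.trans hkM))),
        sy_one_left htP, mul_one]
    rw [hsy b hbk, e1, e2]
    simpa using wC_ne_one

/-- `Σ_{x mod k} (x/k) = 0` if the primary `k` is not a cube. -/
theorem sumMod_sy_left {k : Eis} (hk : IsPrim k) (hc : ¬ ∃ t, k = t ^ 3) :
    sumMod k (fun x => sy x k) = 0 := by
  obtain ⟨g, hg1, hg2, hg3⟩ := exists_sy_left_ne_one hk hc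
  have hP : PMod k (fun x => sy x k) := by
    intro x t
    exact sy_congr hk ⟨t, by ring⟩
  have h1 := sumMod_mul_coprime hk.ne_zero hP hg2
  rw [sumMod_congr (g := fun x => sy g k * sy x k) (fun x => sy_mul_left hk),
    sumMod_mul_left hk.ne_zero] at h1
  have h3 : (sy g k - 1) * sumMod k (fun x => sy x k) = 0 := by rw [sub_mul, one_mul, h1, sub_self]
  rcases mul_eq_zero.mp h3 with h | h
  · exact absurd (sub_eq_zero.mp h) hg3
  · exact h

end Crest.Agent.R012.Char766
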