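import Crest.Agent.R012.CR2c_180

/-!
# Row 12 (CR2), CoreB assembly: the pure pieces (`tint`, `Xi_le`, `expo`)
-/

set_option autoImplicit false

noncomputable section

open MeasureTheory Set

namespace Crest.Agent.R012.CR2

open Eis LS2 Mob705 CharSum852

/-! ### the `t`-integral -/

lemma tint : ∃ C : ℝ, 0 < C ∧ ∀ (Φ : ℝ → ℝ) (A B T0 : ℝ), 1 ≤ T0 → 0 ≤ A → 0 ≤ B →
    (∀ t, 0 ≤ Φ t) → (∀ t, Φ t ≤ A) → (∀ t, |t| ≤ T0 → Φ t ≤ B) →
    ∫ t : ℝ, (1 + t ^ 2)⁻¹ * Φ t ≤ C * (B + T0 ^ (-(1 / 2) : ℝ) * A) := by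
  have i1 : Integrable (fun t : ℝ => (1 + t ^ 2)⁻¹) := integrable_inv_one_add_sq
  have i2 : Integrable (fun t : ℝ => (1 + t ^ 2) ^ (-(3 / 4) : ℝ)) := by
    have h := integrable_rpow_neg_one_add_norm_sq (E := ℝ) (μ := volume) (r := 3 / 2)
      (by simp; norm_num)
    refine h.congr (Filter.Eventually.of_forall fun t => ?_)
    simp only [Real.norm_eq_abs, sq_abs]
    congr 1
    norm_num
  have n1 : 0 ≤ ∫ t : ℝ, (1 + t ^ 2)⁻¹ := integral_nonneg fun t => by positivity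
  have n2 : 0 ≤ ∫ t : ℝ, (1 + t ^ 2) ^ (-(3 / 4) : ℝ) := integral_nonneg fun t => by positivity
  refine ⟨(∫ t : ℝ, (1 + t ^ 2)⁻¹) + (∫ t : ℝ, (1 + t ^ 2) ^ (-(3 / 4) : ℝ)) + 1, by positivity,
    fun Φ A B T0 hT hA hB h0 h1 h2 => ?_⟩
  have hT0 : 0 < T0 := by linarith
  have hTr : 0 < T0 ^ (-(1 / 2) : ℝ) := Real.rpow_pos_of_pos hT0 _
  have key : ∀ t : ℝ, (1 + t ^ 2)⁻¹ * Φ t ≤
      B * (1 + t ^ 2)⁻¹ + T0 ^ (-(1 / 2) : ℝ) * A * (1 + t ^ 2) ^ (-(3 / 4) : ℝ) := by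
    intro t
    have ht : 0 < 1 + t ^ 2 := by positivity
    by_cases h : |t| ≤ T0
    · have := h2 t h
      have h3 : 0 ≤ T0 ^ (-(1 / 2) : ℝ) * A * (1 + t ^ 2) ^ (-(3 / 4) : ℝ) := by positivity
      have h4 : (1 + t ^ 2)⁻¹ * Φ t ≤ (1 + t ^ 2)⁻¹ * B := by gcongr
      linarith
    · rw [not_le] at h
      have h3 : 0 ≤ B * (1 + t ^ 2)⁻¹ := by positivity
      have h4 : (1 + t ^ 2)⁻¹ = (1 + t ^ 2) ^ (-(1 / 4) : ℝ) * (1 + t ^ 2) ^ (-(3 / 4) : ℝ) := by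
        rw [← Real.rpow_add ht, ← Real.rpow_neg_one]
        norm_num
      have h5 : (1 + t ^ 2) ^ (-(1 / 4) : ℝ) ≤ T0 ^ (-(1 / 2) : ℝ) := by
        have h6 : T0 ^ 2 ≤ 1 + t ^ 2 := by
          have : T0 ^ 2 ≤ |t| ^ 2 := by gcongr
          rw [sq_abs] at this
          linarith
        calc (1 + t ^ 2) ^ (-(1 / 4) : ℝ) ≤ (T0 ^ 2) ^ (-(1 / 4) : ℝ) :=
              Real.rpow_le_rpow_of_nonpos (by positivity) h6 (by norm_num)
          _ = T0 ^ (-(1 / 2) : ℝ) := by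
              rw [← Real.rpow_natCast, ← Real.rpow_mul hT0.le]
              norm_num
      have h6 : (1 + t ^ 2)⁻¹ * Φ t ≤
          T0 ^ (-(1 / 2) : ℝ) * (1 + t ^ 2) ^ (-(3 / 4) : ℝ) * A := by
        rw [h4]
        have := h0 t
        have := h1 t
        gcongr
      linarith [h6]
  calc ∫ t : ℝ, (1 + t ^ 2)⁻¹ * Φ t
      ≤ ∫ t : ℝ, (B * (1 + t ^ 2)⁻¹ + T0 ^ (-(1 / 2) : ℝ) * A * (1 + t ^ 2) ^ (-(3 / 4) : ℝ)) := by
        apply integral_mono_of_nonneg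
        · exact Filter.Eventually.of_forall fun t => by
            have := h0 t
            positivity
        · exact (i1.const_mul _).add (i2.const_mul _)
        · exact Filter.Eventually.of_forall key
    _ = B * (∫ t : ℝ, (1 + t ^ 2)⁻¹) +
        T0 ^ (-(1 / 2) : ℝ) * A * ∫ t : ℝ, (1 + t ^ 2) ^ (-(3 / 4) : ℝ) := by
        rw [integral_add (i1.const_mul _) (i2.const_mul _), integral_const_mul, integral_const_mul]
    _ ≤ _ := by
        have hBA : 0 ≤ T0 ^ (-(1 / 2) : ℝ) * A := by positivity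
        nlinarith [mul_nonneg hB n2, mul_nonneg hBA n1]

/-! ### `Xi` -/

lemma wS_ne {V : ℝ → ℝ} (hVl : ∀ x, x < 1 / 2 → V x = 0) {b : Eis → ℂ} {H0 Z s : ℝ}
    (hH : 0 < H0) {h : Eis} (hw : wS V b H0 Z s h ≠ 0) : H0 / 2 ≤ nm h := by
  by_contra hc
  apply hw
  unfold wS
  split_ifs with h1
  · have : V ((nm h : ℝ) / H0) = 0 := by
      apply hVl
      rw [div_lt_iff₀ hH]
      linarith
    rw [this]; simp
  · rfl

lemma wS_mem {V : ℝ → ℝ} {b : Eis → ℂ} {H0 Z s : ℝ} {h : Eis} (hw : wS V b H0 Z s h ≠ 0) :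
    h ∈ S (4 * H0) := by
  by_contra hc
  apply hw
  unfold wS
  rw [if_neg hc]

lemma Xi_le {V : ℝ → ℝ} (hVl : ∀ x, x < 1 / 2 → V x = 0) {b : Eis → ℂ} {H0 Z s : ℝ}
    (hH : 0 < H0) (hs0 : 0 ≤ s) (hs : s ≤ 1 / 2) {d f : Eis} (hd : d ≠ 0) (hf : f ≠ 0) :
    Xi (wS V b H0 Z s) (4 * H0) d f s ≤ 2 * ((nm d : ℝ) * nm f / H0) ^ (1 - 2 * s) *
      ∑ k ∈ S (4 * H0), ‖wS V b H0 Z s (d * f * k)‖ ^ 2 := by
  unfold Xi
  rw [Finset.mul_sum]
  refine Finset.sum_le_sum fun k hk => ?_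
  by_cases h0 : wS V b H0 Z s (d * f * k) = 0
  · rw [h0]; simp
  have hd0 : (0 : ℝ) < nm d := by exact_mod_cast nm_pos.mpr hd
  have hf0 : (0 : ℝ) < nm f := by exact_mod_cast nm_pos.mpr hf
  have h1 := wS_ne hVl hH h0
  rw [nm_mul, nm_mul] at h1
  push_cast at h1
  have hk0 : (0 : ℝ) < nm k := by
    exact_mod_cast nm_pos.mpr (S_prim (by positivity) hk).ne_zero
  have h2 : H0 / (2 * (nm d * nm f)) ≤ nm k := by
    rw [div_le_iff₀ (by positivity)]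
    linarith
  have h3 : (nm k : ℝ) ^ (2 * s - 1) ≤ 2 * ((nm d : ℝ) * nm f / H0) ^ (1 - 2 * s) := by
    calc (nm k : ℝ) ^ (2 * s - 1) ≤ (H0 / (2 * (nm d * nm f))) ^ (2 * s - 1) :=
          Real.rpow_le_rpow_of_nonpos (by positivity) h2 (by linarith)
      _ = (2 * ((nm d : ℝ) * nm f / H0)) ^ (1 - 2 * s) := by
          rw [show (2 * s - 1 : ℝ) = -(1 - 2 * s) by ring, Real.rpow_neg (by positivity),
            ← Real.inv_rpow (by positivity)]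
          congr 1
          field_simp
      _ = 2 ^ (1 - 2 * s) * ((nm d : ℝ) * nm f / H0) ^ (1 - 2 * s) :=
          Real.mul_rpow (by norm_num) (by positivity)
      _ ≤ 2 * ((nm d : ℝ) * nm f / H0) ^ (1 - 2 * s) := by
          gcongr
          calc (2 : ℝ) ^ (1 - 2 * s) ≤ 2 ^ (1 : ℝ) :=
                Real.rpow_le_rpow_of_exponent_le (by norm_num) (by linarith)
            _ = 2 := Real.rpow_one 2
  rw [mul_comm]
  gcongr

/-! ### the exponents -/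

lemma one_add_rpow_le {u p : ℝ} (hu : 0 ≤ u) (hp0 : 0 ≤ p) (hp : p ≤ 2) :
    (1 + u) ^ p ≤ 4 * (1 + u ^ p) := by
  have h4 : (2 : ℝ) ^ p ≤ 4 := by
    calc (2 : ℝ) ^ p ≤ 2 ^ (2 : ℝ) := Real.rpow_le_rpow_of_exponent_le (by norm_num) hp
      _ = 4 := by norm_num
  have hup : 0 ≤ u ^ p := by positivity
  rcases le_total u 1 with h | h
  · calc (1 + u) ^ p ≤ 2 ^ p := Real.rpow_le_rpow (by positivity) (by linarith) hp0
      _ ≤ 4 := h4
      _ ≤ _ := by linarith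
  · calc (1 + u) ^ p ≤ (2 * u) ^ p := Real.rpow_le_rpow (by positivity) (by linarith) hp0
      _ = 2 ^ p * u ^ p := Real.mul_rpow (by norm_num) hu
      _ ≤ 4 * u ^ p := by gcongr
      _ ≤ _ := by linarith

lemma P_eq {H Z : ℝ} (hH : 0 < H) (hZ : 0 < Z) :
    Z * (H ^ 2 / Z) ^ (1 / 3 : ℝ) = (H * Z) ^ (2 / 3 : ℝ) := by
  rw [Real.div_rpow (by positivity) hZ.le, Real.mul_rpow hH.le hZ.le, ← Real.rpow_natCast,
    ← Real.rpow_mul hH.le]
  have h1 : Z = Z ^ (1 / 3 : ℝ) * Z ^ (2 / 3 : ℝ) := by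
    rw [← Real.rpow_add hZ]; norm_num
  have h2 : 0 < Z ^ (1 / 3 : ℝ) := by positivity
  rw [mul_div_assoc', div_eq_iff h2.ne']
  nth_rewrite 1 [h1]
  norm_num
  ring

lemma q_ge {H Z : ℝ} (hH : 1 ≤ H) (hZ0 : 0 < Z) (hZ : Z ≤ H ^ (1.85 : ℝ)) :
    H ^ (0.15 : ℝ) ≤ H ^ 2 / Z := by
  have hH0 : 0 < H := by linarith
  rw [le_div_iff₀ hZ0]
  calc H ^ (0.15 : ℝ) * Z ≤ H ^ (0.15 : ℝ) * H ^ (1.85 : ℝ) := by gcongr
    _ = H ^ 2 := by
      rw [← Real.rpow_add hH0, ← Real.rpow_natCast]; norm_num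

lemma q_le {H Z : ℝ} (hH : 1 ≤ H) (hZ : H ^ (1.05 : ℝ) ≤ Z) :
    H ^ 2 / Z ≤ H ^ (0.95 : ℝ) := by
  have hH0 : 0 < H := by linarith
  have hZ0 : 0 < Z := lt_of_lt_of_le (by positivity) hZ
  rw [div_le_iff₀ hZ0]
  calc H ^ 2 = H ^ (0.95 : ℝ) * H ^ (1.05 : ℝ) := by
        rw [← Real.rpow_add hH0, ← Real.rpow_natCast]; norm_num
    _ ≤ _ := by gcongr

lemma Z_le_P {H Z : ℝ} (hH : 1 ≤ H) (hZ0 : 0 < Z) (hZ : Z ≤ H ^ (1.85 : ℝ)) :
    Z ≤ (H * Z) ^ (2 / 3 : ℝ) * H ^ (-(1 / 20) : ℝ) := by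
  have hH0 : 0 < H := by linarith
  have h1 := q_ge hH hZ0 hZ
  rw [← P_eq hH0 hZ0]
  have h2 : H ^ (1 / 20 : ℝ) ≤ (H ^ 2 / Z) ^ (1 / 3 : ℝ) := by
    calc H ^ (1 / 20 : ℝ) = (H ^ (0.15 : ℝ)) ^ (1 / 3 : ℝ) := by
          rw [← Real.rpow_mul hH0.le]; norm_num
      _ ≤ _ := by gcongr
  rw [Real.rpow_neg hH0.le, ← div_eq_mul_inv, le_div_iff₀ (by positivity)]
  gcongr

set_option maxHeartbeats 4000000 in
/-- **the exponent lemma** -/
lemma expo : ∃ C : ℝ, 0 < C ∧ ∀ H Z D E F s ε : ℝ, 1 ≤ H → H ^ (1.05 : ℝ) ≤ Z →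
    Z ≤ H ^ (1.85 : ℝ) → 1 ≤ D → 1 ≤ E → E ≤ D → 1 ≤ F → D * F ≤ 4 * H → 0 ≤ s → s ≤ 1 / 2 →
    0 ≤ ε → ε ≤ 1 / 100 →
    ∀ L : ℝ, L = (4 * H * Z) ^ ε * (1 + E * (4 * H) ^ 2 / (D ^ 2 * Z)) →
    Z / (E * F) * (E * F ^ 2 / Z) ^ s *
      ((4 * H / (D * F) + L ^ (1 + 6 * (1 / 200) : ℝ)) * L ^ (1 / 3 : ℝ) *
        (D * F / H) ^ (1 - 2 * s)) ≤
      C * H ^ (5 * s + 6 * ε) * ((H * Z) ^ (2 / 3 : ℝ) *
        ((D * F) ^ (-(1 / 2) : ℝ) + H ^ (-(1 / 50) : ℝ))) := by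
  refine ⟨64 * (256 * 2 + 4096 * 4 * 8 * 4 * 2), by positivity, ?_⟩
  intro H Z D E F s ε hH hZ1 hZ2 hD hE hED hF hDF hs0 hs hε0 hε L hL
  have hH0 : 0 < H := by linarith
  have hZ1' : 1 ≤ Z := le_trans (Real.one_le_rpow hH (by norm_num)) hZ1
  have hZ0 : 0 < Z := by linarith
  have hD0 : 0 < D := by linarith
  have hE0 : 0 < E := by linarith
  have hF0 : 0 < F := by linarith
  have hDH : D ≤ 4 * H := by nlinarith
  have hFH : F ≤ 4 * H := by nlinarith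
  set q : ℝ := H ^ 2 / Z with hq
  set y : ℝ := E / D ^ 2 with hy
  set P : ℝ := (H * Z) ^ (2 / 3 : ℝ) with hP
  have hq1 := q_ge hH hZ0 hZ2
  have hq2 := q_le hH hZ1
  have hPq : Z * q ^ (1 / 3 : ℝ) = P := P_eq hH0 hZ0
  have hZP := Z_le_P hH hZ0 hZ2
  rw [← hq] at hq1 hq2
  rw [← hP] at hZP
  have hq11 : 1 ≤ q := le_trans (Real.one_le_rpow hH (by norm_num)) hq1
  have hq0 : 0 < q := by linarith
  have hP0 : 0 < P := by positivity
  have hy0 : 0 < y := by positivity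
  have hy1 : y ≤ 1 := by
    rw [hy, div_le_one (by positivity)]
    nlinarith
  -- the length
  have hLe : L = (4 * H * Z) ^ ε * (1 + 16 * (q * y)) := by
    rw [hL, hq, hy]
    congr 2
    field_simp
    ring
  set m : ℝ := (4 * H * Z) ^ ε with hm
  have hm0 : 0 < m := by positivity
  have hm1 : m ≤ 4 * H ^ (3 * ε) := by
    calc m ≤ (4 * H ^ (3 : ℝ)) ^ ε := by
          apply Real.rpow_le_rpow (by positivity) _ hε0
          have : H * Z ≤ H ^ (3 : ℝ) := by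
            calc H * Z ≤ H ^ (1 : ℝ) * H ^ (1.85 : ℝ) := by
                  rw [Real.rpow_one]; gcongr
              _ = H ^ (2.85 : ℝ) := by rw [← Real.rpow_add hH0]; norm_num
              _ ≤ _ := Real.rpow_le_rpow_of_exponent_le hH (by norm_num)
          linarith
      _ = 4 ^ ε * H ^ (3 * ε) := by
          rw [Real.mul_rpow (by norm_num) (by positivity), ← Real.rpow_mul hH0.le]
      _ ≤ 4 * H ^ (3 * ε) := by
          gcongr
          calc (4 : ℝ) ^ ε ≤ 4 ^ (1 : ℝ) :=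
                Real.rpow_le_rpow_of_exponent_le (by norm_num) (by linarith)
            _ = 4 := Real.rpow_one 4
  have hL1 : L ≤ 64 * H ^ (3 * ε) * (1 + q * y) := by
    rw [hLe]
    have hqy : 0 < q * y := by positivity
    have h3 : 0 < H ^ (3 * ε) := by positivity
    calc m * (1 + 16 * (q * y)) ≤ (4 * H ^ (3 * ε)) * (16 * (1 + q * y)) := by
          gcongr
          linarith
      _ = _ := by ring
  have hL0 : 0 ≤ L := by
    rw [hLe]; positivity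
  -- cube root
  have hLc : L ^ (1 / 3 : ℝ) ≤ 16 * H ^ ε * (1 + (q * y) ^ (1 / 3 : ℝ)) := by
    calc L ^ (1 / 3 : ℝ) ≤ (64 * H ^ (3 * ε) * (1 + q * y)) ^ (1 / 3 : ℝ) :=
          Real.rpow_le_rpow hL0 hL1 (by norm_num)
      _ = 4 * H ^ ε * (1 + q * y) ^ (1 / 3 : ℝ) := by
          rw [Real.mul_rpow (by positivity) (by positivity),
            Real.mul_rpow (by norm_num) (by positivity), ← Real.rpow_mul hH0.le]
          have : (64 : ℝ) ^ (1 / 3 : ℝ) = 4 := by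
            rw [show (64 : ℝ) = 4 ^ (3 : ℝ) by norm_num, ← Real.rpow_mul (by norm_num)]
            norm_num
          rw [this]
          congr 3
          ring
      _ ≤ 4 * H ^ ε * (4 * (1 + (q * y) ^ (1 / 3 : ℝ))) := by
          gcongr
          exact one_add_rpow_le (by positivity) (by norm_num) (by norm_num)
      _ = _ := by ring
  -- the high power
  set p : ℝ := 4 / 3 + 3 / 100 with hp
  have hLp : L ^ p ≤ 4096 * 8 * H ^ (6 * ε + 3 / 100) * (1 + (q * y) ^ (4 / 3 : ℝ)) := by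
    have e1 : (64 * H ^ (3 * ε)) ^ p ≤ 4096 * H ^ (6 * ε) := by
      calc (64 * H ^ (3 * ε)) ^ p ≤ (64 * H ^ (3 * ε)) ^ (2 : ℝ) := by
            apply Real.rpow_le_rpow_of_exponent_le
            · have : 1 ≤ H ^ (3 * ε) := Real.one_le_rpow hH (by positivity)
              linarith
            · rw [hp]; norm_num
        _ = 4096 * H ^ (6 * ε) := by
            rw [Real.mul_rpow (by norm_num) (by positivity), ← Real.rpow_mul hH0.le]
            norm_num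
            congr 1
            ring
    have e2 : (1 + q * y) ^ p ≤ 8 * H ^ (3 / 100 : ℝ) * (1 + (q * y) ^ (4 / 3 : ℝ)) := by
      have hqy : 0 < 1 + q * y := by positivity
      rw [hp, Real.rpow_add hqy]
      have g1 : (1 + q * y) ^ (4 / 3 : ℝ) ≤ 4 * (1 + (q * y) ^ (4 / 3 : ℝ)) :=
        one_add_rpow_le (by positivity) (by norm_num) (by norm_num)
      have g2 : (1 + q * y) ^ (3 / 100 : ℝ) ≤ 2 * H ^ (3 / 100 : ℝ) := by
        calc (1 + q * y) ^ (3 / 100 : ℝ) ≤ (2 * H) ^ (3 / 100 : ℝ) := by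
              apply Real.rpow_le_rpow hqy.le _ (by norm_num)
              have g3 : q * y ≤ q := mul_le_of_le_one_right hq0.le hy1
              have g4 : q ≤ H := hq2.trans (by
                calc H ^ (0.95 : ℝ) ≤ H ^ (1 : ℝ) :=
                      Real.rpow_le_rpow_of_exponent_le hH (by norm_num)
                  _ = H := Real.rpow_one H)
              linarith
          _ = 2 ^ (3 / 100 : ℝ) * H ^ (3 / 100 : ℝ) := Real.mul_rpow (by norm_num) hH0.le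
          _ ≤ 2 * H ^ (3 / 100 : ℝ) := by
              gcongr
              calc (2 : ℝ) ^ (3 / 100 : ℝ) ≤ 2 ^ (1 : ℝ) :=
                    Real.rpow_le_rpow_of_exponent_le (by norm_num) (by norm_num)
                _ = 2 := Real.rpow_one 2
      calc (1 + q * y) ^ (4 / 3 : ℝ) * (1 + q * y) ^ (3 / 100 : ℝ)
          ≤ (4 * (1 + (q * y) ^ (4 / 3 : ℝ))) * (2 * H ^ (3 / 100 : ℝ)) := by gcongr
        _ = _ := by ring
    calc L ^ p ≤ (64 * H ^ (3 * ε) * (1 + q * y)) ^ p :=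
          Real.rpow_le_rpow hL0 hL1 (by rw [hp]; norm_num)
      _ = (64 * H ^ (3 * ε)) ^ p * (1 + q * y) ^ p :=
          Real.mul_rpow (by positivity) (by positivity)
      _ ≤ (4096 * H ^ (6 * ε)) * (8 * H ^ (3 / 100 : ℝ) * (1 + (q * y) ^ (4 / 3 : ℝ))) := by
          gcongr
      _ = _ := by rw [Real.rpow_add hH0]; ring
  -- the sigma powers
  have hs1 : (E * F ^ 2 / Z) ^ s ≤ 8 * H ^ (3 * s) := by
    calc (E * F ^ 2 / Z) ^ s ≤ (64 * H ^ (3 : ℝ)) ^ s := by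
          apply Real.rpow_le_rpow (by positivity) _ hs0
          rw [show (3 : ℝ) = ((3 : ℕ) : ℝ) by norm_num, Real.rpow_natCast]
          calc E * F ^ 2 / Z ≤ E * F ^ 2 := div_le_self (by positivity) hZ1'
            _ ≤ (4 * H) * (4 * H) ^ 2 := by
                gcongr
                linarith
            _ = 64 * H ^ 3 := by ring
      _ = 64 ^ s * H ^ (3 * s) := by
          rw [Real.mul_rpow (by norm_num) (by positivity), ← Real.rpow_mul hH0.le]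
      _ ≤ 8 * H ^ (3 * s) := by
          gcongr
          calc (64 : ℝ) ^ s ≤ 64 ^ (1 / 2 : ℝ) :=
                Real.rpow_le_rpow_of_exponent_le (by norm_num) hs
            _ = 8 := by
                rw [show (64 : ℝ) = 8 ^ (2 : ℝ) by norm_num, ← Real.rpow_mul (by norm_num)]
                norm_num
  have hs2 : (D * F / H) ^ (1 - 2 * s) ≤ D * F / H * H ^ (2 * s) := by
    have hx : 0 < D * F / H := by positivity
    rw [Real.rpow_sub hx, Real.rpow_one, div_eq_mul_inv, ← Real.inv_rpow hx.le]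
    have h1 : 1 ≤ D * F := by nlinarith
    have : (D * F / H)⁻¹ ≤ H := by
      rw [inv_div]
      exact div_le_self hH0.le h1
    gcongr
  -- main terms
  have hHs : 1 ≤ H ^ (3 / 100 : ℝ) := Real.one_le_rpow hH (by norm_num)
  have h20 : H ^ (-(1 / 20) : ℝ) ≤ H ^ (-(1 / 50) : ℝ) :=
    Real.rpow_le_rpow_of_exponent_le hH (by norm_num)
  have hA : 0 < (D * F) ^ (-(1 / 2) : ℝ) := by positivity
  have hB : 0 < H ^ (-(1 / 50) : ℝ) := by positivity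
  -- (i)
  have t1 : Z / (E * F) ≤ P * H ^ (-(1 / 50) : ℝ) := by
    calc Z / (E * F) ≤ Z := div_le_self hZ0.le (by nlinarith)
      _ ≤ P * H ^ (-(1 / 20) : ℝ) := hZP
      _ ≤ _ := by gcongr
  -- (ii)
  have t2 : Z / (E * F) * (q * y) ^ (1 / 3 : ℝ) ≤ P * (D * F) ^ (-(1 / 2) : ℝ) := by
    rw [Real.mul_rpow hq0.le hy0.le]
    have g1 : y ^ (1 / 3 : ℝ) / (E * F) ≤ (D * F) ^ (-(1 / 2) : ℝ) := by
      have g2 : y ^ (1 / 3 : ℝ) / E ≤ D ^ (-(1 / 2) : ℝ) := by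
        rw [div_le_iff₀ hE0]
        have : y ^ (1 / 3 : ℝ) = E ^ (1 / 3 : ℝ) * D ^ (-(2 / 3) : ℝ) := by
          rw [hy, Real.div_rpow hE0.le (by positivity), div_eq_mul_inv, ← Real.rpow_natCast,
            ← Real.rpow_mul hD0.le, ← Real.rpow_neg hD0.le]
          norm_num
        rw [this]
        have g3 : E ^ (1 / 3 : ℝ) ≤ E := by
          calc E ^ (1 / 3 : ℝ) ≤ E ^ (1 : ℝ) :=
                Real.rpow_le_rpow_of_exponent_le hE (by norm_num)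
            _ = E := Real.rpow_one E
        have g4 : D ^ (-(2 / 3) : ℝ) ≤ D ^ (-(1 / 2) : ℝ) :=
          Real.rpow_le_rpow_of_exponent_le hD (by norm_num)
        calc E ^ (1 / 3 : ℝ) * D ^ (-(2 / 3) : ℝ) ≤ E * D ^ (-(1 / 2) : ℝ) := by gcongr
          _ = _ := mul_comm _ _
      have g3 : F⁻¹ ≤ F ^ (-(1 / 2) : ℝ) := by
        rw [← Real.rpow_neg_one]
        exact Real.rpow_le_rpow_of_exponent_le hF (by norm_num)
      calc y ^ (1 / 3 : ℝ) / (E * F) = (y ^ (1 / 3 : ℝ) / E) * F⁻¹ := by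
            rw [div_mul_eq_div_div, div_eq_mul_inv (y ^ (1 / 3 : ℝ) / E)]
        _ ≤ D ^ (-(1 / 2) : ℝ) * F ^ (-(1 / 2) : ℝ) := by gcongr
        _ = _ := (Real.mul_rpow hD0.le hF0.le).symm
    calc Z / (E * F) * (q ^ (1 / 3 : ℝ) * y ^ (1 / 3 : ℝ))
        = (Z * q ^ (1 / 3 : ℝ)) * (y ^ (1 / 3 : ℝ) / (E * F)) := by ring
      _ ≤ _ := by rw [hPq]; gcongr
  -- (iii)
  have t3 : Z * D / (E * H) * H ^ (3 / 100 : ℝ) ≤ 4 * (P * H ^ (-(1 / 50) : ℝ)) := by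
    have g1 : Z * D / (E * H) ≤ 4 * Z := by
      rw [div_le_iff₀ (by positivity)]
      have : H ≤ E * H := by nlinarith
      nlinarith
    calc Z * D / (E * H) * H ^ (3 / 100 : ℝ)
        ≤ 4 * (P * H ^ (-(1 / 20) : ℝ)) * H ^ (3 / 100 : ℝ) := by
          gcongr
          linarith
      _ = 4 * (P * (H ^ (-(1 / 20) : ℝ) * H ^ (3 / 100 : ℝ))) := by ring
      _ = _ := by
          rw [← Real.rpow_add hH0]; norm_num
  -- (iv)
  have t4 : Z * D / (E * H) * H ^ (3 / 100 : ℝ) * (q * y) ^ (4 / 3 : ℝ) ≤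
      P * H ^ (-(1 / 50) : ℝ) := by
    have g1 : (q * y) ^ (4 / 3 : ℝ) = q ^ (1 / 3 : ℝ) * q * y ^ (4 / 3 : ℝ) := by
      rw [Real.mul_rpow hq0.le hy0.le]
      congr 1
      nth_rewrite 3 [← Real.rpow_one q]
      rw [← Real.rpow_add hq0]
      norm_num
    have g2 : D / E * y ^ (4 / 3 : ℝ) ≤ 1 := by
      rw [hy, Real.div_rpow hE0.le (by positivity), ← Real.rpow_natCast, ← Real.rpow_mul hD0.le]
      have k1 : E ^ (4 / 3 : ℝ) = E * E ^ (1 / 3 : ℝ) := by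
        nth_rewrite 2 [← Real.rpow_one E]
        rw [← Real.rpow_add hE0]; norm_num
      have k2 : D ^ (((2 : ℕ) : ℝ) * (4 / 3)) = D * D ^ (5 / 3 : ℝ) := by
        nth_rewrite 2 [← Real.rpow_one D]
        rw [← Real.rpow_add hD0]; norm_num
      rw [k1, k2]
      have k3 : E ^ (1 / 3 : ℝ) ≤ D ^ (5 / 3 : ℝ) := by
        calc E ^ (1 / 3 : ℝ) ≤ D ^ (1 / 3 : ℝ) := by gcongr
          _ ≤ _ := Real.rpow_le_rpow_of_exponent_le hD (by norm_num)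
      have k4 : 0 < D ^ (5 / 3 : ℝ) := by positivity
      rw [show D / E * (E * E ^ (1 / 3 : ℝ) / (D * D ^ (5 / 3 : ℝ))) =
        E ^ (1 / 3 : ℝ) / D ^ (5 / 3 : ℝ) by field_simp]
      exact (div_le_one k4).mpr k3
    have g3 : q / H * H ^ (3 / 100 : ℝ) ≤ H ^ (-(1 / 50) : ℝ) := by
      calc q / H * H ^ (3 / 100 : ℝ) ≤ H ^ (0.95 : ℝ) / H * H ^ (3 / 100 : ℝ) := by gcongr
        _ = H ^ (0.95 : ℝ) * H ^ (-1 : ℝ) * H ^ (3 / 100 : ℝ) := by
            rw [Real.rpow_neg_one, div_eq_mul_inv]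
        _ = H ^ (-(1 / 50) : ℝ) := by
            rw [← Real.rpow_add hH0, ← Real.rpow_add hH0]; norm_num
    rw [g1]
    calc Z * D / (E * H) * H ^ (3 / 100 : ℝ) * (q ^ (1 / 3 : ℝ) * q * y ^ (4 / 3 : ℝ))
        = (Z * q ^ (1 / 3 : ℝ)) * (q / H * H ^ (3 / 100 : ℝ)) * (D / E * y ^ (4 / 3 : ℝ)) := by
          field_simp
      _ ≤ P * H ^ (-(1 / 50) : ℝ) * 1 := by
          rw [hPq]; gcongr
      _ = _ := mul_one _
  -- assembly
  have hL13 : L ^ (1 + 6 * (1 / 200) : ℝ) * L ^ (1 / 3 : ℝ) = L ^ p := by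
    have hLpos : 0 < L := by rw [hLe]; positivity
    rw [← Real.rpow_add hLpos, hp]
    norm_num
  have main1 : Z / (E * F) * (E * F ^ 2 / Z) ^ s *
      ((4 * H / (D * F) + L ^ (1 + 6 * (1 / 200) : ℝ)) * L ^ (1 / 3 : ℝ) *
        (D * F / H) ^ (1 - 2 * s)) ≤
      8 * H ^ (5 * s) * (4 * (Z / (E * F)) * L ^ (1 / 3 : ℝ) + Z * D / (E * H) * L ^ p) := by
    calc Z / (E * F) * (E * F ^ 2 / Z) ^ s *
        ((4 * H / (D * F) + L ^ (1 + 6 * (1 / 200) : ℝ)) * L ^ (1 / 3 : ℝ) *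
          (D * F / H) ^ (1 - 2 * s))
        ≤ Z / (E * F) * (8 * H ^ (3 * s)) *
        ((4 * H / (D * F) + L ^ (1 + 6 * (1 / 200) : ℝ)) * L ^ (1 / 3 : ℝ) *
          (D * F / H * H ^ (2 * s))) := by gcongr
      _ = 8 * (H ^ (3 * s) * H ^ (2 * s)) * (4 * (Z / (E * F)) * L ^ (1 / 3 : ℝ) +
          Z * D / (E * H) * (L ^ (1 + 6 * (1 / 200) : ℝ) * L ^ (1 / 3 : ℝ))) := by
          field_simp
      _ = _ := by
          rw [hL13, ← Real.rpow_add hH0]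
          congr 3
          ring
  refine main1.trans ?_
  have hHe : 1 ≤ H ^ ε := Real.one_le_rpow hH hε0
  have hHe6 : H ^ ε ≤ H ^ (6 * ε) := Real.rpow_le_rpow_of_exponent_le hH (by linarith)
  set R : ℝ := P * ((D * F) ^ (-(1 / 2) : ℝ) + H ^ (-(1 / 50) : ℝ)) with hR
  have hR0 : 0 < R := by positivity
  have r1 : P * H ^ (-(1 / 50) : ℝ) ≤ R := by
    rw [hR]; gcongr; linarith
  have r2 : P * (D * F) ^ (-(1 / 2) : ℝ) ≤ R := by
    rw [hR]; gcongr; linarith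
  have m1 : 4 * (Z / (E * F)) * L ^ (1 / 3 : ℝ) ≤ 64 * H ^ (6 * ε) * (2 * R) := by
    calc 4 * (Z / (E * F)) * L ^ (1 / 3 : ℝ)
        ≤ 4 * (Z / (E * F)) * (16 * H ^ ε * (1 + (q * y) ^ (1 / 3 : ℝ))) := by gcongr
      _ = 64 * H ^ ε * (Z / (E * F) + Z / (E * F) * (q * y) ^ (1 / 3 : ℝ)) := by ring
      _ ≤ 64 * H ^ (6 * ε) * (2 * R) := by
          gcongr
          linarith
  have m2 : Z * D / (E * H) * L ^ p ≤ 4096 * 8 * H ^ (6 * ε) * (5 * R) := by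
    calc Z * D / (E * H) * L ^ p
        ≤ Z * D / (E * H) * (4096 * 8 * H ^ (6 * ε + 3 / 100) *
          (1 + (q * y) ^ (4 / 3 : ℝ))) := by gcongr
      _ = 4096 * 8 * H ^ (6 * ε) * (Z * D / (E * H) * H ^ (3 / 100 : ℝ) +
          Z * D / (E * H) * H ^ (3 / 100 : ℝ) * (q * y) ^ (4 / 3 : ℝ)) := by
          rw [Real.rpow_add hH0]; ring
      _ ≤ 4096 * 8 * H ^ (6 * ε) * (5 * R) := by
          gcongr
          linarith
  calc 8 * H ^ (5 * s) * (4 * (Z / (E * F)) * L ^ (1 / 3 : ℝ) + Z * D / (E * H) * L ^ p)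
      ≤ 8 * H ^ (5 * s) * (64 * H ^ (6 * ε) * (2 * R) + 4096 * 8 * H ^ (6 * ε) * (5 * R)) := by
        gcongr
    _ = (8 * (128 + 4096 * 40)) * (H ^ (5 * s) * H ^ (6 * ε)) * R := by ring
    _ ≤ 64 * (256 * 2 + 4096 * 4 * 8 * 4 * 2) * (H ^ (5 * s) * H ^ (6 * ε)) * R := by
        have hnum : (8 * (128 + 4096 * 40) : ℝ) ≤ 64 * (256 * 2 + 4096 * 4 * 8 * 4 * 2) := by
          norm_num
        have hnn : 0 ≤ H ^ (5 * s) * H ^ (6 * ε) := by positivity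
        exact mul_le_mul_of_nonneg_right (mul_le_mul_of_nonneg_right hnum hnn) hR0.le
    _ = _ := by rw [← Real.rpow_add hH0]

end Crest.Agent.R012.CR2
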