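import Crest.Agent.R012.Div_277
import Crest.Agent.R012.Quot_666

/-!
# Row 12 (helper277): sums of periodic functions of mean zero over disks, Abel summation by norm,
power sums.
-/

set_option autoImplicit false

noncomputable section

namespace Crest.Agent.R012.Per277

open Crest.Agent.R012 Crest.Agent.R012.Eis Crest.Agent.R012.Lat277 Crest.Agent.R012.Div277
open Finset MeasureTheory

/-! ### Periodic functions of mean zero -/

/-- splitting a finite sum over a disk into residue classes. -/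
lemma sum_disk_eq_classes {A : Type*} [AddCommMonoid A] (z0 : ℂ) (R : ℝ) {q : Eis}
    {S : Finset Eis} (hS : IsCRS q S) (f : Eis → A) :
    ∑ x ∈ disk z0 R, f x = ∑ s ∈ S, ∑ x ∈ diskC z0 R q s, f x := by
  classical
  rw [← Finset.sum_fiberwise_of_maps_to (s := disk z0 R) (t := S)
    (g := fun x => (hS x).choose) (fun x _ => (hS x).choose_spec.1.1)]
  refine Finset.sum_congr rfl (fun s hs => ?_)
  refine Finset.sum_congr ?_ (fun _ _ => rfl)
  ext x
  rw [mem_filter, mem_diskC, mem_disk]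
  refine and_congr_right (fun _ => ?_)
  constructor
  · rintro rfl; exact (hS x).choose_spec.1.2
  · intro h; exact ((hS x).choose_spec.2 s ⟨hs, h⟩).symm

/-- **periodic sums over disks**: `ψ` periodic modulo `q`, bounded by `1`, of mean zero. -/
theorem norm_sum_disk_periodic_le (z0 : ℂ) {R : ℝ} (hR : 0 ≤ R) {q : Eis} (hq : q ≠ 0)
    {ψ : Eis → ℂ} (hψ : PMod q ψ) (hb : ∀ x, ‖ψ x‖ ≤ 1) (h0 : sumMod q ψ = 0) :
    ‖∑ x ∈ disk z0 R, ψ x‖ ≤ 30 * (R * Real.sqrt (nm q) + nm q) := by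
  classical
  have hS := isCRS_crs hq
  rw [sum_disk_eq_classes z0 R hS]
  rw [sumMod_eq_sum hS hψ] at h0
  have hqp : (0 : ℝ) < nm q := by exact_mod_cast nm_pos.mpr hq
  set M : ℝ := 2 * Real.pi / Real.sqrt 3 * (R ^ 2 / nm q) with hM
  have e1 : ∑ s ∈ crs q, ∑ x ∈ diskC z0 R q s, ψ x =
      ∑ s ∈ crs q, ψ s * (((diskC z0 R q s).card : ℂ) - M) := by
    have e2 : ∑ s ∈ crs q, ψ s * (((diskC z0 R q s).card : ℂ) - M) =
        ∑ s ∈ crs q, ψ s * ((diskC z0 R q s).card : ℂ) := by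
      simp only [mul_sub]
      rw [Finset.sum_sub_distrib, ← Finset.sum_mul, h0, zero_mul, sub_zero]
    rw [e2]
    refine Finset.sum_congr rfl (fun s _ => ?_)
    rw [Finset.sum_congr rfl (fun x hx => hψ.congr (mem_diskC.mp hx).2), Finset.sum_const,
      nsmul_eq_mul, mul_comm]
  rw [e1]
  calc ‖∑ s ∈ crs q, ψ s * (((diskC z0 R q s).card : ℂ) - M)‖
      ≤ ∑ s ∈ crs q, ‖ψ s * (((diskC z0 R q s).card : ℂ) - M)‖ := norm_sum_le _ _
    _ ≤ ∑ s ∈ crs q, 30 * (R / Real.sqrt (nm q) + 1) := by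
        refine Finset.sum_le_sum (fun s _ => ?_)
        rw [norm_mul]
        have h1 := card_diskC z0 hR hq s
        have h2 : ‖(((diskC z0 R q s).card : ℂ) - M)‖ ≤ 30 * (R / Real.sqrt (nm q) + 1) := by
          have : (((diskC z0 R q s).card : ℂ) - M) =
              ((((diskC z0 R q s).card : ℝ) - M : ℝ) : ℂ) := by push_cast; rfl
          rw [this, Complex.norm_real, Real.norm_eq_abs]
          exact h1
        calc ‖ψ s‖ * ‖(((diskC z0 R q s).card : ℂ) - M)‖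
            ≤ 1 * (30 * (R / Real.sqrt (nm q) + 1)) :=
              mul_le_mul (hb s) h2 (norm_nonneg _) zero_le_one
          _ = _ := one_mul _
    _ = 30 * (R * Real.sqrt (nm q) + nm q) := by
        rw [Finset.sum_const, card_crs hq, nsmul_eq_mul]
        have hs : Real.sqrt (nm q) * Real.sqrt (nm q) = nm q := Real.mul_self_sqrt hqp.le
        have hs0 : Real.sqrt (nm q) ≠ 0 := (Real.sqrt_pos.mpr hqp).ne'
        field_simp
        nlinarith [hs]

theorem norm_sum_ball_periodic_le (X : ℕ) {q : Eis} (hq : q ≠ 0)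
    {ψ : Eis → ℂ} (hψ : PMod q ψ) (hb : ∀ x, ‖ψ x‖ ≤ 1) (h0 : sumMod q ψ = 0) :
    ‖∑ x ∈ ball X, ψ x‖ ≤ 30 * (Real.sqrt (X * nm q) + nm q) := by
  rw [ball_eq_disk, Real.sqrt_mul (Nat.cast_nonneg X)]
  exact norm_sum_disk_periodic_le 0 (Real.sqrt_nonneg _) hq hψ hb h0

open Classical in
/-- primary version: `3 ∣ q`, `ψ` periodic modulo `q` on primary elements, mean zero over
the primary residue classes. -/
theorem norm_sum_primBall_periodic_le (X : ℕ) {q : Eis} (hq : q ≠ 0) (h3 : (3 : Eis) ∣ q)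
    {ψ : Eis → ℂ} (hψ : ∀ x y, IsPrim x → IsPrim y → q ∣ x - y → ψ x = ψ y)
    (hb : ∀ x, IsPrim x → ‖ψ x‖ ≤ 1)
    (h0 : sumMod q (fun x => if IsPrim x then ψ x else 0) = 0) :
    ‖∑ x ∈ primBall X, ψ x‖ ≤ 30 * (Real.sqrt (X * nm q) + nm q) := by
  set φ : Eis → ℂ := fun x => if IsPrim x then ψ x else 0 with hφ
  have hprim : ∀ x t : Eis, IsPrim (x + q * t) ↔ IsPrim x := by
    intro x t
    obtain ⟨c, rfl⟩ := h3
    constructor
    · intro h
      have := isPrim_add_mul h (-(c * t))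
      convert this using 1; ring
    · intro h
      have := isPrim_add_mul h (c * t)
      convert this using 1; ring
  have hφp : PMod q φ := by
    intro x t
    simp only [hφ, hprim x t]
    by_cases hx : IsPrim x
    · rw [if_pos hx, if_pos hx]
      exact hψ _ _ ((hprim x t).mpr hx) hx ⟨t, by ring⟩
    · rw [if_neg hx, if_neg hx]
  have hφb : ∀ x, ‖φ x‖ ≤ 1 := by
    intro x
    simp only [hφ]
    by_cases hx : IsPrim x
    · rw [if_pos hx]; exact hb x hx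
    · rw [if_neg hx]; simp
  have h := norm_sum_ball_periodic_le X hq hφp hφb h0
  have e : ∑ x ∈ primBall X, ψ x = ∑ x ∈ ball X, φ x := by
    rw [primBall, Finset.sum_filter]
  rw [e]
  exact h

/-! ### Abel summation by norm -/

/-- Abel summation for sums over `ball X` with a weight depending on the norm. -/
theorem abel_ball (c : Eis → ℂ) (f : ℕ → ℂ) (X : ℕ) :
    ∑ x ∈ ball X, c x * f (nm x) =
      (∑ x ∈ ball X, c x) * f X -
        ∑ m ∈ range X, (∑ x ∈ ball m, c x) * (f (m + 1) - f m) := by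
  induction X with
  | zero =>
    simp only [range_zero, sum_empty, sub_zero]
    rw [Finset.sum_mul]
    refine Finset.sum_congr rfl (fun x hx => ?_)
    rw [mem_ball] at hx
    rw [Nat.le_zero.mp hx]
  | succ X ih =>
    have hsub : ball X ⊆ ball (X + 1) := fun x hx => by
      rw [mem_ball] at hx ⊢; omega
    have hdiff : ∀ x ∈ ball (X + 1) \ ball X, nm x = X + 1 := by
      intro x hx
      rw [mem_sdiff, mem_ball, mem_ball] at hx
      omega
    have e1 : ∑ x ∈ ball (X + 1), c x * f (nm x) =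
        ∑ x ∈ ball X, c x * f (nm x) + (∑ x ∈ ball (X + 1) \ ball X, c x) * f (X + 1) := by
      rw [← Finset.sum_sdiff hsub, add_comm, Finset.sum_mul]
      congr 1
      exact Finset.sum_congr rfl (fun x hx => by rw [hdiff x hx])
    have e2 : ∑ x ∈ ball (X + 1) \ ball X, c x = ∑ x ∈ ball (X + 1), c x - ∑ x ∈ ball X, c x := by
      rw [← Finset.sum_sdiff hsub]; ring
    rw [e1, e2, ih, Finset.sum_range_succ]
    ring

/-- Abel summation, primary version. -/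
theorem abel_primBall (c : Eis → ℂ) (f : ℕ → ℂ) (X : ℕ) :
    ∑ x ∈ primBall X, c x * f (nm x) =
      (∑ x ∈ primBall X, c x) * f X -
        ∑ m ∈ range X, (∑ x ∈ primBall m, c x) * (f (m + 1) - f m) := by
  classical
  have h := abel_ball (fun x => if IsPrim x then c x else 0) f X
  have e : ∀ (m : ℕ) (g : Eis → ℂ), ∑ x ∈ ball m, (if IsPrim x then g x else 0) =
      ∑ x ∈ primBall m, g x := by
    intro m g
    rw [primBall, Finset.sum_filter]
  simp only [ite_mul, zero_mul] at h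
  rw [e, e] at h
  simpa only [e] using h

/-- bound by Abel summation: weight of bounded variation. -/
theorem norm_sum_primBall_weight_le (c : Eis → ℂ) (f : ℕ → ℂ) (X : ℕ) {B : ℝ}
    (hB : ∀ m ≤ X, ‖∑ x ∈ primBall m, c x‖ ≤ B) :
    ‖∑ x ∈ primBall X, c x * f (nm x)‖ ≤ B * (‖f X‖ + ∑ m ∈ range X, ‖f (m + 1) - f m‖) := by
  rw [abel_primBall]
  have hB0 : 0 ≤ B := (norm_nonneg _).trans (hB 0 (Nat.zero_le _))
  calc ‖(∑ x ∈ primBall X, c x) * f X -
        ∑ m ∈ range X, (∑ x ∈ primBall m, c x) * (f (m + 1) - f m)‖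
      ≤ ‖(∑ x ∈ primBall X, c x) * f X‖ +
        ‖∑ m ∈ range X, (∑ x ∈ primBall m, c x) * (f (m + 1) - f m)‖ := norm_sub_le _ _
    _ ≤ B * ‖f X‖ + ∑ m ∈ range X, B * ‖f (m + 1) - f m‖ := by
        refine add_le_add ?_ ((norm_sum_le _ _).trans (Finset.sum_le_sum (fun m hm => ?_)))
        · rw [norm_mul]
          exact mul_le_mul_of_nonneg_right (hB X le_rfl) (norm_nonneg _)
        · rw [norm_mul]
          exact mul_le_mul_of_nonneg_right (hB m (mem_range.mp hm).le) (norm_nonneg _)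
    _ = _ := by rw [← Finset.mul_sum]; ring

/-! ### Power sums -/

/-- `Σ_{m ≤ X} m^{-s} ≤ X^{1-s}/(1-s)` for `0 ≤ s < 1`. -/
lemma sum_rpow_neg_le {s : ℝ} (h0 : 0 ≤ s) (h1 : s < 1) (X : ℕ) :
    ∑ m ∈ Icc 1 X, (m : ℝ) ^ (-s) ≤ (X : ℝ) ^ (1 - s) / (1 - s) := by
  have h1s : 0 < 1 - s := by linarith
  induction X with
  | zero =>
    simp [Real.zero_rpow h1s.ne']
  | succ X ih =>
    rw [Finset.sum_Icc_succ_top (by omega)]
    have hstep : ((X + 1 : ℕ) : ℝ) ^ (-s) * (1 - s) ≤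
        ((X + 1 : ℕ) : ℝ) ^ (1 - s) - (X : ℝ) ^ (1 - s) := by
      -- X^{1-s} ≤ (X+1)^{1-s} (1 - 1/(X+1))^{1-s} ≤ (X+1)^{1-s}(1 - (1-s)/(X+1))
      have hX1 : (0 : ℝ) < ((X + 1 : ℕ) : ℝ) := by positivity
      have hb := rpow_one_add_le_one_add_mul_self (s := -1 / ((X + 1 : ℕ) : ℝ)) (p := 1 - s)
        (by rw [le_div_iff₀ hX1]; push_cast; nlinarith [Nat.cast_nonneg (α := ℝ) X]) h1s.le
        (by linarith)
      have e : (X : ℝ) = ((X + 1 : ℕ) : ℝ) * (1 + -1 / ((X + 1 : ℕ) : ℝ)) := by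
        field_simp; push_cast; ring
      have h2 : (0 : ℝ) ≤ 1 + -1 / ((X + 1 : ℕ) : ℝ) := by
        have : 1 / ((X + 1 : ℕ) : ℝ) ≤ 1 := by
          rw [div_le_one hX1]; push_cast; linarith [Nat.cast_nonneg (α := ℝ) X]
        have h' : -1 / ((X + 1 : ℕ) : ℝ) = - (1 / ((X + 1 : ℕ) : ℝ)) := by ring
        rw [h']; linarith
      have h3 : (X : ℝ) ^ (1 - s) = ((X + 1 : ℕ) : ℝ) ^ (1 - s) *
          (1 + -1 / ((X + 1 : ℕ) : ℝ)) ^ (1 - s) := by
        conv_lhs => rw [e]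
        rw [Real.mul_rpow hX1.le h2]
      have h4 : ((X + 1 : ℕ) : ℝ) ^ (-s) = ((X + 1 : ℕ) : ℝ) ^ (1 - s) / ((X + 1 : ℕ) : ℝ) := by
        rw [show -s = (1 - s) - 1 by ring, Real.rpow_sub_one hX1.ne']
      rw [h3, h4]
      have h5 : 0 ≤ ((X + 1 : ℕ) : ℝ) ^ (1 - s) := by positivity
      have h6 := mul_le_mul_of_nonneg_left hb h5
      have h7 : ((X + 1 : ℕ) : ℝ) ^ (1 - s) * (1 + (1 - s) * (-1 / ((X + 1 : ℕ) : ℝ))) =
          ((X + 1 : ℕ) : ℝ) ^ (1 - s) -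
            ((X + 1 : ℕ) : ℝ) ^ (1 - s) / ((X + 1 : ℕ) : ℝ) * (1 - s) := by
        field_simp
        ring
      linarith
    have : ((X + 1 : ℕ) : ℝ) ^ (-s) ≤
        (((X + 1 : ℕ) : ℝ) ^ (1 - s) - (X : ℝ) ^ (1 - s)) / (1 - s) := by
      rw [le_div_iff₀ h1s]; exact hstep
    calc ∑ m ∈ Icc 1 X, (m : ℝ) ^ (-s) + ((X + 1 : ℕ) : ℝ) ^ (-s)
        ≤ (X : ℝ) ^ (1 - s) / (1 - s) +
          (((X + 1 : ℕ) : ℝ) ^ (1 - s) - (X : ℝ) ^ (1 - s)) / (1 - s) := add_le_add ih this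
      _ = _ := by ring

/-- `Σ_{0<N(x)≤X} N(x)^{-s} ≤ 100 X^{1-s}/(1-s)` for `0 ≤ s < 1`. -/
theorem sum_nz_rpow_neg_le {s : ℝ} (h0 : 0 ≤ s) (h1 : s < 1) (X : ℕ) :
    ∑ x ∈ nz X, (nm x : ℝ) ^ (-s) ≤ 100 * ((X : ℝ) ^ (1 - s) / (1 - s)) := by
  refine (sum_antitone_le (fun m => (m : ℝ) ^ (-s)) ?_ (fun m => by positivity) X).trans
    (mul_le_mul_of_nonneg_left (sum_rpow_neg_le h0 h1 X) (by norm_num))
  intro m hm
  apply Real.rpow_le_rpow_of_nonpos
  · exact_mod_cast hm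
  · push_cast; linarith
  · linarith

/-- finite sums of `m^{-s}`, `s > 1`. -/
lemma sum_Icc_rpow_neg_le {s : ℝ} (h1 : 1 < s) {M : ℕ} (hM : 1 ≤ M) (Y : ℕ) :
    ∑ m ∈ Ioc M Y, (m : ℝ) ^ (-s) ≤ (M : ℝ) ^ (1 - s) / (s - 1) := by
  have hs1 : 0 < s - 1 := by linarith
  have hM0 : (0 : ℝ) < M := by exact_mod_cast hM
  -- telescoping bound: (m)^{-s} (s-1) ≤ (m-1)^{1-s} - m^{1-s}
  have hstep : ∀ m : ℕ, 1 ≤ m → (((m + 1 : ℕ) : ℝ) ^ (-s)) ≤
      ((m : ℝ) ^ (1 - s) - ((m + 1 : ℕ) : ℝ) ^ (1 - s)) / (s - 1) := by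
    intro m hm
    have hm0 : (0 : ℝ) < m := by exact_mod_cast hm
    have hm1 : (0 : ℝ) < ((m + 1 : ℕ) : ℝ) := by positivity
    rw [le_div_iff₀ hs1]
    have hb := one_add_mul_self_le_rpow_one_add (s := -1 / ((m + 1 : ℕ) : ℝ))
      (by rw [le_div_iff₀ hm1]; push_cast; linarith) (p := 1) le_rfl
    -- use Bernoulli for negative exponents through convexity
    have key : 1 + (s - 1) / ((m + 1 : ℕ) : ℝ) ≤ ((m : ℝ) / ((m + 1 : ℕ) : ℝ)) ^ (1 - s) := by
      have hr : (0 : ℝ) < (m : ℝ) / ((m + 1 : ℕ) : ℝ) := by positivity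
      have e : ((m : ℝ) / ((m + 1 : ℕ) : ℝ)) ^ (1 - s) =
          Real.exp ((s - 1) * (-Real.log ((m : ℝ) / ((m + 1 : ℕ) : ℝ)))) := by
        rw [Real.rpow_def_of_pos hr]; congr 1; ring
      rw [e]
      have hl : 1 / ((m + 1 : ℕ) : ℝ) ≤ -Real.log ((m : ℝ) / ((m + 1 : ℕ) : ℝ)) := by
        have := Real.log_le_sub_one_of_pos hr
        have e3 : (m : ℝ) / ((m + 1 : ℕ) : ℝ) - 1 = -(1 / ((m + 1 : ℕ) : ℝ)) := by
          field_simp; push_cast; ring
        rw [e3] at this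
        linarith
      have h2 : (s - 1) * (1 / ((m + 1 : ℕ) : ℝ)) ≤
          (s - 1) * (-Real.log ((m : ℝ) / ((m + 1 : ℕ) : ℝ))) :=
        mul_le_mul_of_nonneg_left hl hs1.le
      have h3 := Real.add_one_le_exp ((s - 1) * (-Real.log ((m : ℝ) / ((m + 1 : ℕ) : ℝ))))
      calc 1 + (s - 1) / ((m + 1 : ℕ) : ℝ) = (s - 1) * (1 / ((m + 1 : ℕ) : ℝ)) + 1 := by ring
        _ ≤ _ := by linarith
    rw [Real.div_rpow hm0.le hm1.le, le_div_iff₀ (by positivity)] at key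
    have e2 : ((m + 1 : ℕ) : ℝ) ^ (-s) = ((m + 1 : ℕ) : ℝ) ^ (1 - s) / ((m + 1 : ℕ) : ℝ) := by
      rw [show -s = (1 - s) - 1 by ring, Real.rpow_sub_one hm1.ne']
    rw [e2]
    have e3 : (1 + (s - 1) / ((m + 1 : ℕ) : ℝ)) * ((m + 1 : ℕ) : ℝ) ^ (1 - s) =
      ((m + 1 : ℕ) : ℝ) ^ (1 - s) + ((m + 1 : ℕ) : ℝ) ^ (1 - s) / ((m + 1 : ℕ) : ℝ) * (s - 1) := by
      field_simp
    linarith
  have main : ∀ Y : ℕ, M ≤ Y → ∑ m ∈ Ioc M Y, (m : ℝ) ^ (-s) ≤
      ((M : ℝ) ^ (1 - s) - (Y : ℝ) ^ (1 - s)) / (s - 1) := by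
    intro Y hY
    induction Y, hY using Nat.le_induction with
    | base => simp
    | succ Y hY ih =>
      have e : Ioc M (Y + 1) = insert (Y + 1) (Ioc M Y) := by
        ext m; simp only [mem_Ioc, mem_insert]; omega
      rw [e, Finset.sum_insert (by simp)]
      have := hstep Y (hM.trans hY)
      calc ((Y + 1 : ℕ) : ℝ) ^ (-s) + ∑ m ∈ Ioc M Y, (m : ℝ) ^ (-s)
          ≤ ((Y : ℝ) ^ (1 - s) - ((Y + 1 : ℕ) : ℝ) ^ (1 - s)) / (s - 1) +
            ((M : ℝ) ^ (1 - s) - (Y : ℝ) ^ (1 - s)) / (s - 1) := add_le_add this ih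
        _ = _ := by ring
  rcases le_or_gt M Y with h | h
  · refine (main Y h).trans ?_
    gcongr
    have : 0 ≤ (Y : ℝ) ^ (1 - s) := by positivity
    linarith
  · rw [Finset.Ioc_eq_empty (by omega)]
    simp only [sum_empty]; positivity

/-- tails: `Σ_{M < N(x) ≤ Y} N(x)^{-s} ≤ 100 (s/(s-1)) M^{1-s}` for `s > 1`, `M ≥ 1`. -/
theorem sum_nz_tail_le {s : ℝ} (h1 : 1 < s) {M : ℕ} (hM : 1 ≤ M) (Y : ℕ) :
    ∑ x ∈ nz Y \ nz M, (nm x : ℝ) ^ (-s) ≤ 100 * (s / (s - 1) * (M : ℝ) ^ (1 - s)) := by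
  have hs1 : 0 < s - 1 := by linarith
  have hM0 : (0 : ℝ) < M := by exact_mod_cast hM
  set f : ℕ → ℝ := fun m => if m ≤ M then (M : ℝ) ^ (-s) else (m : ℝ) ^ (-s) with hf
  have hf0 : ∀ m, 0 ≤ f m := by intro m; simp only [hf]; split_ifs <;> positivity
  have hanti : ∀ m, 1 ≤ m → f (m + 1) ≤ f m := by
    intro m hm
    simp only [hf]
    by_cases h2 : m + 1 ≤ M
    · rw [if_pos h2, if_pos (by omega)]
    · rw [if_neg h2]
      by_cases h3 : m ≤ M
      · rw [if_pos h3]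
        apply Real.rpow_le_rpow_of_nonpos hM0 (by exact_mod_cast (by omega : M ≤ m + 1))
        linarith
      · rw [if_neg h3]
        apply Real.rpow_le_rpow_of_nonpos (by exact_mod_cast hm) (by push_cast; linarith)
        linarith
  have h := sum_antitone_le f hanti hf0 Y
  have h2 : ∑ x ∈ nz Y \ nz M, (nm x : ℝ) ^ (-s) ≤ ∑ x ∈ nz Y, f (nm x) := by
    calc ∑ x ∈ nz Y \ nz M, (nm x : ℝ) ^ (-s) = ∑ x ∈ nz Y \ nz M, f (nm x) := by
          refine Finset.sum_congr rfl (fun x hx => ?_)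
          rw [mem_sdiff, mem_nz, mem_nz] at hx
          simp only [hf]
          rw [if_neg (fun h => hx.2 ⟨hx.1.1, h⟩)]
      _ ≤ _ := Finset.sum_le_sum_of_subset_of_nonneg sdiff_subset (fun _ _ _ => hf0 _)
  refine h2.trans (h.trans (mul_le_mul_of_nonneg_left ?_ (by norm_num)))
  have h3 : ∑ m ∈ Icc 1 Y, f m ≤ ∑ m ∈ Icc 1 M, f m + ∑ m ∈ Ioc M Y, f m := by
    rw [← Finset.sum_union]
    · apply Finset.sum_le_sum_of_subset_of_nonneg
      · intro m hm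
        rw [mem_Icc] at hm
        rw [mem_union, mem_Icc, mem_Ioc]
        omega
      · intro _ _ _; exact hf0 _
    · rw [Finset.disjoint_left]
      intro m hm hm'
      rw [mem_Icc] at hm
      rw [mem_Ioc] at hm'
      omega
  have h4 : ∑ m ∈ Icc 1 M, f m = (M : ℝ) ^ (1 - s) := by
    rw [Finset.sum_congr rfl (fun m hm => by
      simp only [hf]; rw [if_pos (mem_Icc.mp hm).2]), Finset.sum_const, Nat.card_Icc,
      nsmul_eq_mul, Nat.add_sub_cancel]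
    rw [show (1 - s) = 1 + -s by ring, Real.rpow_add hM0, Real.rpow_one]
  have h5 : ∑ m ∈ Ioc M Y, f m = ∑ m ∈ Ioc M Y, (m : ℝ) ^ (-s) := by
    refine Finset.sum_congr rfl (fun m hm => ?_)
    simp only [hf]
    rw [if_neg (by rw [mem_Ioc] at hm; omega)]
  rw [h4, h5] at h3
  have h6 := sum_Icc_rpow_neg_le h1 hM Y
  calc ∑ m ∈ Icc 1 Y, f m ≤ (M : ℝ) ^ (1 - s) + (M : ℝ) ^ (1 - s) / (s - 1) := by linarith
    _ = s / (s - 1) * (M : ℝ) ^ (1 - s) := by field_simp; ring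

end Crest.Agent.R012.Per277
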