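import Crest.Agent.R012.GLS_687
import Crest.Agent.R012.CRmom_569
import Crest.Agent.R012.Per_277

/-!
# Row 12, (CRC): passage to all cubefree numerators `ω^i λ^j k₁ k₂²`  (helper298)

`coreCub_of : Core → HBLS → OrdLS → CoreCub`.
-/

set_option autoImplicit false

noncomputable section

open Complex Finset
open scoped BigOperators

namespace Crest.Agent.R012.CoreCub298

open Crest.Agent.R012 Crest.Agent.R012.Eis Crest.Agent.R012.CR290 Crest.Agent.R012.Div277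
open Crest.Agent.R012.GLS687

/-! ### products of two linear forms -/

/-- the set of products `p d`. -/
def ps (P T : Finset Eis) : Finset Eis := by
  classical
  exact (P ×ˢ T).image (fun x => x.1 * x.2)

/-- the coefficients of the product. -/
def cv (P T : Finset Eis) (γ ξ : Eis → ℂ) (n : Eis) : ℂ := by
  classical
  exact ∑ x ∈ (P ×ˢ T).filter (fun x => x.1 * x.2 = n), γ x.1 * ξ x.2

lemma F_mul {P T : Finset Eis} (hP : ∀ n ∈ P, IsPrim n) (hT : ∀ n ∈ T, IsPrim n)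
    (γ ξ : Eis → ℂ) (h : Eis) :
    F P γ h * F T ξ h = F (ps P T) (cv P T γ ξ) h := by
  classical
  have h1 : F P γ h * F T ξ h = ∑ x ∈ P ×ˢ T, (γ x.1 * ξ x.2) * sy h (x.1 * x.2) := by
    unfold F
    rw [Finset.sum_mul_sum, ← Finset.sum_product']
    refine Finset.sum_congr rfl fun x hx => ?_
    obtain ⟨hx1, hx2⟩ := Finset.mem_product.1 hx
    rw [Sym645.sy_mul_right h (hP _ hx1).ne_zero (hT _ hx2).ne_zero]
    ring
  rw [h1]
  unfold F cv ps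
  rw [← Finset.sum_fiberwise_of_maps_to (s := P ×ˢ T)
    (t := (P ×ˢ T).image (fun x => x.1 * x.2))
    (g := fun x => x.1 * x.2) (fun n hn => Finset.mem_image_of_mem _ hn)]
  refine Finset.sum_congr rfl fun n _ => ?_
  rw [Finset.sum_mul]
  refine Finset.sum_congr rfl fun x hx => ?_
  rw [(Finset.mem_filter.1 hx).2]

lemma mem_ps {P T : Finset Eis} {n : Eis} (hn : n ∈ ps P T) :
    ∃ a b, a ∈ P ∧ b ∈ T ∧ a * b = n := by
  classical
  obtain ⟨x, hx, rfl⟩ := Finset.mem_image.1 hn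
  obtain ⟨hx1, hx2⟩ := Finset.mem_product.1 hx
  exact ⟨x.1, x.2, hx1, hx2, rfl⟩

lemma norm_cv_le {P T : Finset Eis} (hP : ∀ n ∈ P, IsPrim n) (hT : ∀ n ∈ T, IsPrim n)
    {γ ξ : Eis → ℂ} (hγ : ∀ n ∈ P, ‖γ n‖ ≤ 1) (hξ : ∀ n ∈ T, ‖ξ n‖ ≤ 1) {n : Eis}
    (hn : n ∈ ps P T) : ‖cv P T γ ξ n‖ ≤ (tau n : ℝ) := by
  classical
  obtain ⟨a, b, ha, hb, hab⟩ := mem_ps hn
  have hn0 : n ≠ 0 := by
    rw [← hab]; exact mul_ne_zero (hP _ ha).ne_zero (hT _ hb).ne_zero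
  unfold cv
  refine (norm_sum_le _ _).trans ?_
  have h1 : ∀ x ∈ (P ×ˢ T).filter (fun x => x.1 * x.2 = n), ‖γ x.1 * ξ x.2‖ ≤ 1 := by
    intro x hx
    obtain ⟨hx1, -⟩ := Finset.mem_filter.1 hx
    obtain ⟨hx2, hx3⟩ := Finset.mem_product.1 hx1
    rw [norm_mul]
    exact mul_le_one₀ (hγ _ hx2) (norm_nonneg _) (hξ _ hx3)
  refine (Finset.sum_le_card_nsmul _ _ 1 h1).trans ?_
  rw [nsmul_eq_mul, mul_one]
  unfold tau
  have : ((P ×ˢ T).filter (fun x => x.1 * x.2 = n)).card ≤ (dvs n).card := by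
    refine Finset.card_le_card_of_injOn (fun x => x.1) ?_ ?_
    · intro x hx
      obtain ⟨hx1, hx2⟩ := Finset.mem_filter.1 (Finset.mem_coe.1 hx)
      obtain ⟨hx3, hx4⟩ := Finset.mem_product.1 hx1
      exact Finset.mem_coe.2 ((mem_dvs hn0).2 ⟨hP _ hx3, ⟨x.2, hx2.symm⟩⟩)
    · intro x hx y hy hxy
      obtain ⟨hx1, hx2⟩ := Finset.mem_filter.1 (Finset.mem_coe.1 hx)
      obtain ⟨hx3, hx4⟩ := Finset.mem_product.1 hx1
      obtain ⟨hy1, hy2⟩ := Finset.mem_filter.1 (Finset.mem_coe.1 hy)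
      simp only at hxy
      refine Prod.ext hxy ?_
      have : x.1 * x.2 = x.1 * y.2 := by rw [hx2, hxy, hy2]
      exact mul_left_cancel₀ (hP _ hx3).ne_zero this
  exact_mod_cast this

/-- GLS for a product of two linear forms. -/
theorem gls2 (HG : GLS) : ∀ ε : ℝ, 0 < ε → ∃ K : ℝ, 0 < K ∧ ∀ M C D : ℝ, 1 ≤ M → 1 ≤ C → 1 ≤ D →
    ∀ S P T : Finset Eis, IsSF S M → IsPB P C → IsPB T D → ∀ γ ξ : Eis → ℂ,
    (∀ n ∈ P, ‖γ n‖ ≤ 1) → (∀ n ∈ T, ‖ξ n‖ ≤ 1) →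
    ∑ h ∈ S, ‖F P γ h‖ ^ 2 * ‖F T ξ h‖ ^ 2 ≤
      K * (M * (C * D)) ^ ε * (M + C * D + (M * (C * D)) ^ (2 / 3 : ℝ)) * (C * D) := by
  classical
  intro ε hε
  obtain ⟨K, hK, HG⟩ := HG (ε / 2) (by positivity)
  obtain ⟨Kτ, hKτ, hτ⟩ := tau_le_rpow (show 0 < ε / 4 by positivity)
  refine ⟨Kτ ^ 2 * K, by positivity, ?_⟩
  intro M C D hM hC hD S P T hS hP hT γ ξ hγ hξ
  have hPp : ∀ n ∈ P, IsPrim n := fun n hn => (hP n hn).1
  have hTp : ∀ n ∈ T, IsPrim n := fun n hn => (hT n hn).1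
  have hM0 : (0 : ℝ) < M := by linarith
  have hC0 : (0 : ℝ) < C := by linarith
  have hD0 : (0 : ℝ) < D := by linarith
  set N : ℝ := C * D with hN
  have hN1 : 1 ≤ N := by rw [hN]; nlinarith
  have hN0 : 0 < N := by linarith
  have hPB : IsPB (ps P T) N := by
    intro n hn
    obtain ⟨a, b, ha, hb, rfl⟩ := mem_ps hn
    refine ⟨(hPp a ha).mul (hTp b hb), ?_⟩
    rw [nm_mul]; push_cast
    exact mul_le_mul (hP a ha).2 (hT b hb).2 (Nat.cast_nonneg _) hC0.le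
  set B : ℝ := Kτ * N ^ (ε / 4) with hB
  have hB0 : 0 < B := by positivity
  have hcv : ∀ n ∈ ps P T, ‖cv P T γ ξ n‖ ≤ B := by
    intro n hn
    refine (norm_cv_le hPp hTp hγ hξ hn).trans ?_
    refine (hτ n (hPB n hn).1.ne_zero).trans ?_
    rw [hB]
    gcongr
    exact (hPB n hn).2
  have hG := HG M N hM hN1 S (ps P T) hS hPB (fun n => cv P T γ ξ n / B) (by
    intro n hn
    rw [norm_div, Complex.norm_real, Real.norm_of_nonneg hB0.le, div_le_one hB0]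
    exact hcv n hn)
  have hF : ∀ h, ‖F P γ h‖ ^ 2 * ‖F T ξ h‖ ^ 2 =
      B ^ 2 * ‖F (ps P T) (fun n => cv P T γ ξ n / B) h‖ ^ 2 := by
    intro h
    have h1 : F (ps P T) (fun n => cv P T γ ξ n / B) h = (F P γ h * F T ξ h) / B := by
      rw [F_mul hPp hTp γ ξ h]
      unfold F
      rw [Finset.sum_div]
      refine Finset.sum_congr rfl fun n _ => ?_
      ring
    rw [h1, norm_div, Complex.norm_real, Real.norm_of_nonneg hB0.le, norm_mul, div_pow,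
      mul_div_cancel₀ _ (by positivity), mul_pow]
  have hB2 : B ^ 2 = Kτ ^ 2 * N ^ (ε / 2) := by
    rw [hB, mul_pow]
    congr 1
    rw [← Real.rpow_natCast, ← Real.rpow_mul hN0.le]
    congr 1
    push_cast; ring
  have hb0 : 0 ≤ M + N + (M * N) ^ (2 / 3 : ℝ) := by positivity
  calc ∑ h ∈ S, ‖F P γ h‖ ^ 2 * ‖F T ξ h‖ ^ 2
      = B ^ 2 * ∑ h ∈ S, ‖F (ps P T) (fun n => cv P T γ ξ n / B) h‖ ^ 2 := by
        rw [Finset.mul_sum]
        exact Finset.sum_congr rfl fun h _ => hF h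
    _ ≤ B ^ 2 * (K * (M * N) ^ (ε / 2) * (M + N + (M * N) ^ (2 / 3 : ℝ)) * N) := by
        gcongr
    _ ≤ (Kτ ^ 2 * (M * N) ^ (ε / 2)) *
        (K * (M * N) ^ (ε / 2) * (M + N + (M * N) ^ (2 / 3 : ℝ)) * N) := by
        rw [hB2]
        gcongr
        nlinarith
    _ = Kτ ^ 2 * K * ((M * N) ^ (ε / 2) * (M * N) ^ (ε / 2)) *
        (M + N + (M * N) ^ (2 / 3 : ℝ)) * N := by ring
    _ = Kτ ^ 2 * K * (M * N) ^ ε * (M + N + (M * N) ^ (2 / 3 : ℝ)) * N := by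
        rw [← Real.rpow_add (by positivity), add_halves]

/-! ### moments from the ordinary large sieve -/

theorem ols_mom (HO : OrdLS) : ∀ (j : ℕ), 1 ≤ j → ∀ ε : ℝ, 0 < ε → ∃ K : ℝ, 0 < K ∧
    ∀ Q C : ℝ, 1 ≤ Q → 1 ≤ C → ∀ (S : Finset Tup) (T : Finset Eis),
    (∀ x ∈ S, IsTup x ∧ (nm x.2.1 : ℝ) * nm x.2.2 ≤ Q) → IsPB T C →
    ∀ γ : Eis → ℂ, (∀ c ∈ T, ‖γ c‖ ≤ 1) →
      ∑ x ∈ S, ‖F T γ (num x)‖ ^ (2 * j) ≤ K * C ^ ε * (Q ^ 2 + C ^ j) * C ^ j := by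
  classical
  obtain ⟨K, hK, HO⟩ := HO
  intro j hj ε hε
  have hj0 : (0 : ℝ) < j := by exact_mod_cast hj
  set ε₂ : ℝ := ε / (2 * j ^ 2) with hε₂
  have hε₂0 : 0 < ε₂ := by positivity
  obtain ⟨Kτ, hKτ, hτ⟩ := tau_le_rpow hε₂0
  refine ⟨100 * Kτ ^ (2 * j) * K, by positivity, ?_⟩
  intro Q C hQ hC S T hS hT γ hγ
  have hC0 : (0 : ℝ) < C := by linarith
  have hTp : ∀ n ∈ T, IsPrim n := fun n hn => (hT n hn).1
  have hCj : 1 ≤ C ^ j := one_le_pow₀ hC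
  have hPB : IsPB (prods T j) (C ^ j) := by
    intro n hn
    obtain ⟨x, hx, rfl⟩ := mem_prods hn
    refine ⟨prim_prod Finset.univ x fun i _ => hTp _ (hx i), ?_⟩
    rw [nm_prod]
    push_cast
    calc ∏ i, (nm (x i) : ℝ) ≤ ∏ _i : Fin j, C :=
          Finset.prod_le_prod (fun _ _ => Nat.cast_nonneg _) fun i _ => (hT _ (hx i)).2
      _ = C ^ j := by simp
  set B : ℝ := (Kτ * (C ^ j) ^ ε₂) ^ j with hB
  have hB0 : 0 < B := by positivity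
  have hconv : ∀ n ∈ prods T j, ‖conv T γ j n‖ ≤ B := by
    intro n hn
    refine (norm_conv_le T γ j hTp hγ hn).trans ?_
    have h1 := hτ n (hPB n hn).1.ne_zero
    rw [hB]
    gcongr
    refine h1.trans ?_
    gcongr
    exact (hPB n hn).2
  have hcard : ((prods T j).card : ℝ) ≤ 100 * C ^ j := by
    have hsub : prods T j ⊆ nz ⌊C ^ j⌋₊ := by
      intro n hn
      exact mem_nz.2 ⟨(hPB n hn).1.ne_zero, Nat.le_floor (hPB n hn).2⟩
    calc ((prods T j).card : ℝ) ≤ ((nz ⌊C ^ j⌋₊).card : ℝ) := by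
          exact_mod_cast Finset.card_le_card hsub
      _ ≤ 100 * (⌊C ^ j⌋₊ : ℝ) := card_nz_le _
      _ ≤ 100 * C ^ j := by gcongr; exact Nat.floor_le (by positivity)
  have hG := HO Q (C ^ j) hQ hCj S (prods T j) hS hPB (conv T γ j)
  have hsum : ∑ n ∈ prods T j, ‖conv T γ j n‖ ^ 2 ≤ 100 * C ^ j * B ^ 2 := by
    calc ∑ n ∈ prods T j, ‖conv T γ j n‖ ^ 2 ≤ ∑ _n ∈ prods T j, B ^ 2 := by
          refine Finset.sum_le_sum fun n hn => ?_
          have := hconv n hn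
          gcongr
      _ = (prods T j).card * B ^ 2 := by rw [Finset.sum_const, nsmul_eq_mul]
      _ ≤ _ := by gcongr
  have hB2 : B ^ 2 = Kτ ^ (2 * j) * C ^ ε := by
    rw [hB, ← pow_mul, mul_pow, mul_comm j 2]
    congr 1
    rw [← Real.rpow_natCast C j, ← Real.rpow_mul hC0.le, ← Real.rpow_natCast,
      ← Real.rpow_mul hC0.le]
    congr 1
    rw [hε₂]
    push_cast
    field_simp
  calc ∑ x ∈ S, ‖F T γ (num x)‖ ^ (2 * j)
      = ∑ x ∈ S, ‖F (prods T j) (conv T γ j) (num x)‖ ^ 2 := by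
        refine Finset.sum_congr rfl fun x _ => ?_
        rw [← F_pow T γ j hTp, norm_pow, ← pow_mul, mul_comm]
    _ ≤ K * (Q ^ 2 + C ^ j) * ∑ n ∈ prods T j, ‖conv T γ j n‖ ^ 2 := hG
    _ ≤ K * (Q ^ 2 + C ^ j) * (100 * C ^ j * B ^ 2) := by
        gcongr
    _ = 100 * Kτ ^ (2 * j) * K * C ^ ε * (Q ^ 2 + C ^ j) * C ^ j := by rw [hB2]; ring

/-- the same, uniformly in `1 ≤ j ≤ J`. -/
lemma unif_ols (HO : OrdLS) (ε : ℝ) (hε : 0 < ε) (J : ℕ) : ∃ K : ℝ, 0 < K ∧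
    ∀ j : ℕ, 1 ≤ j → j ≤ J →
    ∀ Q C : ℝ, 1 ≤ Q → 1 ≤ C → ∀ (S : Finset Tup) (T : Finset Eis),
    (∀ x ∈ S, IsTup x ∧ (nm x.2.1 : ℝ) * nm x.2.2 ≤ Q) → IsPB T C →
    ∀ γ : Eis → ℂ, (∀ c ∈ T, ‖γ c‖ ≤ 1) →
      ∑ x ∈ S, ‖F T γ (num x)‖ ^ (2 * j) ≤ K * C ^ ε * (Q ^ 2 + C ^ j) * C ^ j := by
  induction J with
  | zero => exact ⟨1, one_pos, fun j h1 h2 => by omega⟩
  | succ J ih =>
    obtain ⟨K, hK, hb⟩ := ih
    obtain ⟨K', hK', hb'⟩ := ols_mom HO (J + 1) (by omega) ε hε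
    refine ⟨max K K', lt_max_of_lt_left hK, ?_⟩
    intro j h1 h2 Q C hQ hC S T hS hPB γ hγ
    have hC0 : (0 : ℝ) < C := by linarith
    rcases Nat.lt_or_ge j (J + 1) with hj | hj
    · refine (hb j h1 (by omega) Q C hQ hC S T hS hPB γ hγ).trans ?_
      have e2 : K ≤ max K K' := le_max_left _ _
      gcongr
    · obtain rfl : j = J + 1 := by omega
      refine (hb' Q C hQ hC S T hS hPB γ hγ).trans ?_
      have e2 : K' ≤ max K K' := le_max_right _ _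
      gcongr

/-! ### fibers over `(i, j, k₂)` -/

/-- the part `ω^i λ^j k₂²` of the numerator. -/
def uu (y : (ℕ × ℕ) × Eis) : Eis := w ^ y.1.1 * lm ^ y.1.2 * y.2 ^ 2

/-- projection of a tuple to `(i, j, k₂)`. -/
def pr (x : Tup) : (ℕ × ℕ) × Eis := (x.1, x.2.2)

lemma num_eq (x : Tup) : num x = uu (pr x) * x.2.1 := by
  unfold num uu pr; ring

lemma F_num {T : Finset Eis} (hT : ∀ n ∈ T, IsPrim n) (c : Eis → ℂ) (x : Tup) :
    F T c (num x) = F T (fun n => c n * sy (uu (pr x)) n) x.2.1 := by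
  unfold F
  refine Finset.sum_congr rfl fun n hn => ?_
  rw [num_eq, Sym645.sy_mul_left (hT n hn).nm_mod]
  ring

lemma norm_tw_le {T : Finset Eis} (hT : ∀ n ∈ T, IsPrim n) {c : Eis → ℂ}
    (hc : ∀ n ∈ T, ‖c n‖ ≤ 1) (u : Eis) : ∀ n ∈ T, ‖c n * sy u n‖ ≤ 1 := by
  intro n hn
  rw [norm_mul]
  exact mul_le_one₀ (hc n hn) (norm_nonneg _) (Sym645.norm_sy_le_one (hT n hn).nm_mod u)

/-- fiber of `pr` over `y`, as a set of `k₁`. -/
def fib (S : Finset Tup) (y : (ℕ × ℕ) × Eis) : Finset Eis := by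
  classical
  exact (S.filter (fun x => pr x = y)).image (fun x => x.2.1)

lemma mem_fib {S : Finset Tup} {y : (ℕ × ℕ) × Eis} {k : Eis} :
    k ∈ fib S y ↔ (y.1, (k, y.2)) ∈ S := by
  classical
  unfold fib pr
  rw [Finset.mem_image]
  constructor
  · rintro ⟨x, hx, rfl⟩
    obtain ⟨hx1, hx2⟩ := Finset.mem_filter.1 hx
    rw [← hx2]; exact hx1
  · intro h
    exact ⟨_, Finset.mem_filter.2 ⟨h, rfl⟩, rfl⟩

/-- sum over tuples = sum over `(i, j, k₂)` of sums over `k₁`. -/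
lemma sum_fib (S : Finset Tup) (f : Tup → ℝ) : by
    classical exact ∑ x ∈ S, f x = ∑ y ∈ S.image pr, ∑ k ∈ fib S y, f (y.1, (k, y.2)) := by
  classical
  rw [← Finset.sum_fiberwise_of_maps_to (s := S) (t := S.image pr) (g := pr)
    (fun n hn => Finset.mem_image_of_mem _ hn)]
  refine Finset.sum_congr rfl fun y _ => ?_
  unfold fib
  rw [Finset.sum_image]
  · refine Finset.sum_congr rfl fun x hx => ?_
    obtain ⟨hx1, hx2⟩ := Finset.mem_filter.1 hx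
    rw [← hx2]; rfl
  · intro x hx y' hy' hxy
    have hx2 := (Finset.mem_filter.1 (Finset.mem_coe.1 hx)).2
    have hy2 := (Finset.mem_filter.1 (Finset.mem_coe.1 hy')).2
    have h3 : pr x = pr y' := hx2.trans hy2.symm
    unfold pr at h3
    simp only [Prod.mk.injEq] at h3
    simp only at hxy
    exact Prod.ext h3.1 (Prod.ext hxy h3.2)

lemma nm_num (x : Tup) (hx : IsTup x) :
    (nm x.2.1 : ℝ) * (nm x.2.2 : ℝ) ^ 2 ≤ nm (num x) ∧ 1 ≤ (nm x.2.1 : ℝ) ∧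
      1 ≤ (nm x.2.2 : ℝ) := by
  have h1 : 1 ≤ nm x.2.1 := nm_pos.2 hx.2.2.1.ne_zero
  have h2 : 1 ≤ nm x.2.2 := nm_pos.2 hx.2.2.2.1.ne_zero
  refine ⟨?_, by exact_mod_cast h1, by exact_mod_cast h2⟩
  have hw0 : w ≠ (0 : Eis) := by decide
  have hl0 : lm ≠ (0 : Eis) := by decide
  have h3 : 1 ≤ nm (w ^ x.1.1 * lm ^ x.1.2) :=
    nm_pos.2 (mul_ne_zero (pow_ne_zero _ hw0) (pow_ne_zero _ hl0))
  have h4 : nm (num x) = nm (w ^ x.1.1 * lm ^ x.1.2) * (nm x.2.1 * nm x.2.2 ^ 2) := by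
    unfold num
    rw [mul_assoc (w ^ x.1.1 * lm ^ x.1.2), nm_mul (w ^ x.1.1 * lm ^ x.1.2), nm_mul x.2.1,
      pow_two x.2.2, nm_mul x.2.2, pow_two]
  have h5 : nm x.2.1 * nm x.2.2 ^ 2 ≤ nm (num x) := by
    rw [h4]; exact Nat.le_mul_of_pos_left _ h3
  exact_mod_cast h5

/-! ### counting `(i, j, k₂)` -/

/-- the index set. -/
def box (Y : ℝ) : Finset ((ℕ × ℕ) × Eis) := (range 3 ×ˢ range 3) ×ˢ nz ⌊Y⌋₊

lemma image_pr_subset {S : Finset Tup} {Y : ℝ} (h : ∀ x ∈ S, IsTup x ∧ (nm x.2.2 : ℝ) ≤ Y) : by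
    classical exact S.image pr ⊆ box Y := by
  classical
  intro y hy
  obtain ⟨x, hx, rfl⟩ := Finset.mem_image.1 hy
  obtain ⟨⟨h1, h2, h3, h4, h5⟩, h6⟩ := h x hx
  unfold box pr
  simp only [mem_product, mem_range, mem_nz]
  exact ⟨⟨h1, h2⟩, h4.ne_zero, Nat.le_floor h6⟩

lemma sum_box_const {Y : ℝ} (hY : 0 ≤ Y) {a : ℝ} (ha : 0 ≤ a) :
    ∑ _y ∈ box Y, a ≤ 900 * Y * a := by
  unfold box
  rw [Finset.sum_const, nsmul_eq_mul, card_product, card_product, card_range]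
  push_cast
  have h1 := card_nz_le ⌊Y⌋₊
  have h2 := Nat.floor_le hY
  have : (9 * ((nz ⌊Y⌋₊).card : ℝ)) ≤ 900 * Y := by linarith
  exact mul_le_mul_of_nonneg_right this ha

lemma sum_box_inv {Y : ℝ} (hY : 1 ≤ Y) :
    ∑ y ∈ box Y, (1 / (nm y.2 : ℝ)) ≤ 900 * (1 + Real.log Y) := by
  unfold box
  rw [Finset.sum_product]
  have h1 := sum_inv_nz_le ⌊Y⌋₊
  have h2 : Real.log (⌊Y⌋₊ : ℝ) ≤ Real.log Y := by
    apply Real.log_le_log
    · have := Nat.floor_pos.2 hY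
      exact_mod_cast this
    · exact Nat.floor_le (by linarith)
  simp only [Finset.sum_const, nsmul_eq_mul, card_product, card_range]
  push_cast
  linarith

/-- `exists j` with `j k ∈ [1.1, 2 - ν]`. -/
lemma exists_j {ν k : ℝ} (hν : 0 < ν) (hν1 : ν ≤ 0.1) (hk1 : ν ≤ k) (hk2 : k ≤ 1 - ν / 2) :
    ∃ j : ℕ, 2 ≤ j ∧ j ≤ ⌈1.1 / ν⌉₊ + 2 ∧ 1.1 ≤ j * k ∧ j * k ≤ 2 - ν := by
  have hk : 0 < k := by linarith
  rcases le_or_gt k 0.8 with h | h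
  · have e1 : 1.1 ≤ (⌈1.1 / k⌉₊ : ℝ) * k := by
      have := Nat.le_ceil (1.1 / k)
      rwa [div_le_iff₀ hk] at this
    have e2 : (⌈1.1 / k⌉₊ : ℝ) * k ≤ 1.1 + k := by
      have := (Nat.ceil_lt_add_one (show 0 ≤ 1.1 / k by positivity)).le
      calc (⌈1.1 / k⌉₊ : ℝ) * k ≤ (1.1 / k + 1) * k := mul_le_mul_of_nonneg_right this hk.le
        _ = 1.1 + k := by field_simp
    refine ⟨⌈1.1 / k⌉₊, ?_, ?_, e1, by linarith⟩
    · by_contra hc
      have h9 : (⌈1.1 / k⌉₊ : ℝ) ≤ 1 := by exact_mod_cast (show ⌈1.1 / k⌉₊ ≤ 1 by omega)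
      have : (⌈1.1 / k⌉₊ : ℝ) * k ≤ 1 * 0.8 := mul_le_mul h9 h hk.le (by norm_num)
      norm_num at this e1
      linarith
    · have : ⌈1.1 / k⌉₊ ≤ ⌈1.1 / ν⌉₊ := by
        apply Nat.ceil_mono
        exact div_le_div_of_nonneg_left (by norm_num) hν hk1
      omega
  · refine ⟨2, le_rfl, by omega, ?_, ?_⟩
    · push_cast; norm_num at h ⊢; linarith
    · push_cast; linarith

/-- the exponent inequality. -/
lemma expo {ν z : ℝ} (hν : 0 < ν) (hν1 : ν ≤ 0.1) (h1 : 1.1 ≤ z) (h2 : z ≤ 2 - ν) :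
    max (4 / 3) z + z ≤ 2 / 3 + (5 / 3 - ν / 6) * z := by
  have h1' : (11 / 10 : ℝ) ≤ z := by norm_num at h1 ⊢; linarith
  rcases le_total (4 / 3) z with h | h
  · rw [max_eq_right h]; nlinarith
  · rw [max_eq_left h]; nlinarith

/-! ### case (S): small `k₂` -/

lemma caseS {ν e₀ e₁ K δ : ℝ} (hν : 0 < ν) (he₀ : 0 ≤ e₀) (he₀1 : e₀ ≤ 1) (he₁ : 0 < e₁)
    (hK : 0 < K)
    (hcore : ∀ H C D : ℝ, 1 ≤ H → H ^ (ν / 2) ≤ C → C ≤ H ^ (0.9 : ℝ) → 1 ≤ D →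
      C * D ≤ H ^ (1 + e₁) →
      ∀ S P T : Finset Eis, IsSF S H → IsPP P C → IsPB T D →
      ∀ γ ξ : Eis → ℂ, (∀ p ∈ P, ‖γ p‖ ≤ 1) → (∀ d ∈ T, ‖ξ d‖ ≤ 1) →
        ∑ h ∈ S, ‖F P γ h‖ ^ 2 * ‖F T ξ h‖ ^ 2 ≤ K * H ^ (7 / 3 - δ))
    {B C D Y : ℝ} (hB : 1 ≤ B) (hC1 : B ^ ν ≤ C) (hC2 : C ≤ B ^ (0.9 : ℝ)) (hD : 1 ≤ D)
    (hCD : C * D ≤ B ^ (1 + e₀)) (hY : 0 ≤ Y) {S : Finset Tup} {P T : Finset Eis}
    (hS : IsTS S (B ^ (1 + e₀))) (hSY : ∀ x ∈ S, (nm x.2.2 : ℝ) ≤ Y)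
    (hP : IsPP P C) (hT : IsPB T D) {γ ξ : Eis → ℂ}
    (hγ : ∀ p ∈ P, ‖γ p‖ ≤ 1) (hξ : ∀ d ∈ T, ‖ξ d‖ ≤ 1) :
    ∑ x ∈ S, ‖F P γ (num x)‖ ^ 2 * ‖F T ξ (num x)‖ ^ 2 ≤
      900 * Y * (K * (B ^ (1 + e₀)) ^ (7 / 3 - δ)) := by
  classical
  set H : ℝ := B ^ (1 + e₀) with hH
  have hB0 : 0 < B := by linarith
  have hH1 : 1 ≤ H := Real.one_le_rpow hB (by linarith)
  have hBH : B ≤ H := by
    calc B = B ^ (1 : ℝ) := (Real.rpow_one B).symm
      _ ≤ H := Real.rpow_le_rpow_of_exponent_le hB (by linarith)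
  have hPp : ∀ n ∈ P, IsPrim n := fun n hn => (hP n hn).1
  have hTp : ∀ n ∈ T, IsPrim n := fun n hn => (hT n hn).1
  have c1 : H ^ (ν / 2) ≤ C := by
    refine le_trans ?_ hC1
    rw [hH, ← Real.rpow_mul hB0.le]
    apply Real.rpow_le_rpow_of_exponent_le hB
    nlinarith
  have c2 : C ≤ H ^ (0.9 : ℝ) := hC2.trans (Real.rpow_le_rpow hB0.le hBH (by norm_num))
  have c3 : C * D ≤ H ^ (1 + e₁) := by
    refine hCD.trans ?_
    calc H = H ^ (1 : ℝ) := (Real.rpow_one H).symm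
      _ ≤ _ := Real.rpow_le_rpow_of_exponent_le hH1 (by linarith)
  rw [sum_fib]
  calc ∑ y ∈ S.image pr, ∑ k ∈ fib S y,
        ‖F P γ (num (y.1, (k, y.2)))‖ ^ 2 * ‖F T ξ (num (y.1, (k, y.2)))‖ ^ 2
      ≤ ∑ _y ∈ S.image pr, K * H ^ (7 / 3 - δ) := by
        refine Finset.sum_le_sum fun y _ => ?_
        have hsf : IsSF (fib S y) H := by
          intro k hk
          have hx := hS _ (mem_fib.1 hk)
          have h3 := nm_num _ hx.1
          refine ⟨hx.1.2.2.1, hx.1.2.2.2.2.1, ?_⟩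
          have h4 := hx.2
          simp only at h3
          nlinarith [h3.1, h3.2.1, h3.2.2, mul_le_mul h3.2.2 h3.2.2 (by norm_num) (by linarith)]
        have h5 := hcore H C D hH1 c1 c2 hD c3 (fib S y) P T hsf hP hT
          (fun n => γ n * sy (uu y) n) (fun n => ξ n * sy (uu y) n)
          (norm_tw_le hPp hγ (uu y)) (norm_tw_le hTp hξ (uu y))
        refine le_trans (le_of_eq ?_) h5
        refine Finset.sum_congr rfl fun k _ => ?_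
        rw [F_num hPp, F_num hTp]
        rfl
    _ ≤ ∑ _y ∈ box Y, K * H ^ (7 / 3 - δ) :=
        Finset.sum_le_sum_of_subset_of_nonneg
          (image_pr_subset fun x hx => ⟨(hS x hx).1, hSY x hx⟩)
          (fun _ _ _ => by positivity)
    _ ≤ 900 * Y * (K * H ^ (7 / 3 - δ)) := sum_box_const hY (by positivity)

/-! ### case (M): middle `k₂` -/

lemma caseM (HG : GLS) (ε : ℝ) (hε : 0 < ε) : ∃ K : ℝ, 0 < K ∧
    ∀ H C D Y Z : ℝ, 1 ≤ H → 1 ≤ C → 1 ≤ D → C * D ≤ H → 1 ≤ Y → 1 ≤ Z → Z ≤ H →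
    ∀ (S : Finset Tup) (P T : Finset Eis), IsTS S H →
    (∀ x ∈ S, Y ≤ (nm x.2.2 : ℝ) ∧ (nm x.2.2 : ℝ) ≤ Z) →
    IsPB P (2 * C) → IsPB T D → ∀ γ ξ : Eis → ℂ,
    (∀ p ∈ P, ‖γ p‖ ≤ 1) → (∀ d ∈ T, ‖ξ d‖ ≤ 1) →
    ∑ x ∈ S, ‖F P γ (num x)‖ ^ 2 * ‖F T ξ (num x)‖ ^ 2 ≤
      K * H ^ ε * (H ^ 2 * Z + H ^ (7 / 3 : ℝ) * Y ^ (-(1 / 3) : ℝ)) := by
  classical
  obtain ⟨K, hK, hg⟩ := gls2 HG (ε / 8) (by positivity)
  set c1 : ℝ := (100 * (1 + (1 : ℕ) / (ε / 2))) ^ 1 with hc1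
  have hc10 : 0 < c1 := by positivity
  refine ⟨K * 2 ^ (ε / 8) * (2 * (2700 + 18 * c1)), by positivity, ?_⟩
  intro H C D Y Z hH hC hD hCD hY hZ hZH S P T hS hSY hP hT γ ξ hγ hξ
  have hH0 : 0 < H := by linarith
  have hY0 : 0 < Y := by linarith
  have hPp : ∀ n ∈ P, IsPrim n := fun n hn => (hP n hn).1
  have hTp : ∀ n ∈ T, IsPrim n := fun n hn => (hT n hn).1
  set A : ℝ := K * (2 * H ^ 2) ^ (ε / 8) * (2 * H) with hA
  have hA0 : 0 ≤ A := by positivity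
  have hyim : S.image pr ⊆ box Z := image_pr_subset fun x hx => ⟨(hS x hx).1, (hSY x hx).2⟩
  rw [sum_fib]
  have key : ∀ y ∈ S.image pr, ∑ k ∈ fib S y,
        ‖F P γ (num (y.1, (k, y.2)))‖ ^ 2 * ‖F T ξ (num (y.1, (k, y.2)))‖ ^ 2 ≤
      A * (3 * H + 2 * H ^ (4 / 3 : ℝ) * Y ^ (-(1 / 3) : ℝ) * (1 / (nm y.2 : ℝ))) := by
    intro y hy
    obtain ⟨x, hx, hxy⟩ := Finset.mem_image.1 hy
    have hx1 := hS x hx
    have hx2 := hSY x hx
    have hx3 := nm_num x hx1.1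
    have hxe : x.2.2 = y.2 := by rw [← hxy]; rfl
    rw [hxe] at hx2 hx3
    set n : ℝ := (nm y.2 : ℝ) with hn
    have hn1 : 1 ≤ n := hx3.2.2
    have hn0 : 0 < n := by linarith
    set M : ℝ := H / n ^ 2 with hM
    have hM1 : 1 ≤ M := by
      rw [hM, le_div_iff₀ (by positivity)]
      nlinarith [hx3.1, hx3.2.1, hx1.2, mul_le_mul hx3.2.1 (le_refl (n ^ 2)) (by positivity)
        (by linarith [hx3.2.1])]
    have hMH : M ≤ H := by
      rw [hM]; exact div_le_self hH0.le (by nlinarith)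
    have hM0 : 0 < M := by linarith
    have hsf : IsSF (fib S y) M := by
      intro k hk
      have hz := hS _ (mem_fib.1 hk)
      have h3 := nm_num _ hz.1
      refine ⟨hz.1.2.2.1, hz.1.2.2.2.2.1, ?_⟩
      rw [hM, le_div_iff₀ (by positivity)]
      exact h3.1.trans hz.2
    have h5 := hg M (2 * C) D hM1 (by linarith) hD (fib S y) P T hsf hP hT
      (fun n => γ n * sy (uu y) n) (fun n => ξ n * sy (uu y) n)
      (norm_tw_le hPp hγ (uu y)) (norm_tw_le hTp hξ (uu y))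
    have h6 : ∑ k ∈ fib S y,
        ‖F P γ (num (y.1, (k, y.2)))‖ ^ 2 * ‖F T ξ (num (y.1, (k, y.2)))‖ ^ 2 =
        ∑ k ∈ fib S y, ‖F P (fun n => γ n * sy (uu y) n) k‖ ^ 2 *
          ‖F T (fun n => ξ n * sy (uu y) n) k‖ ^ 2 := by
      refine Finset.sum_congr rfl fun k _ => ?_
      rw [F_num hPp, F_num hTp]
      rfl
    rw [h6]
    refine h5.trans ?_
    have hN : 2 * C * D ≤ 2 * H := by nlinarith
    have hN0 : 0 < 2 * C * D := by positivity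
    have e1 : (M * (2 * C * D)) ^ (ε / 8) ≤ (2 * H ^ 2) ^ (ε / 8) := by
      apply Real.rpow_le_rpow (by positivity) _ (by positivity)
      calc M * (2 * C * D) ≤ H * (2 * H) := by gcongr
        _ = _ := by ring
    have e2 : (M * (2 * C * D)) ^ (2 / 3 : ℝ) ≤
        2 * H ^ (4 / 3 : ℝ) * Y ^ (-(1 / 3) : ℝ) * (1 / n) := by
      have e3 : M ^ (2 / 3 : ℝ) ≤ H ^ (2 / 3 : ℝ) * (Y ^ (-(1 / 3) : ℝ) * (1 / n)) := by
        rw [hM, Real.div_rpow hH0.le (by positivity), div_eq_mul_inv]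
        gcongr
        have e4 : ((n ^ 2) ^ (2 / 3 : ℝ))⁻¹ = n ^ (-(1 / 3) : ℝ) * (1 / n) := by
          rw [← Real.rpow_natCast, ← Real.rpow_mul hn0.le, ← Real.rpow_neg hn0.le,
            one_div n, ← Real.rpow_neg_one n, ← Real.rpow_add hn0]
          norm_num
        rw [e4]
        refine mul_le_mul_of_nonneg_right ?_ (by positivity)
        exact Real.rpow_le_rpow_of_nonpos hY0 hx2.1 (by norm_num)
      calc (M * (2 * C * D)) ^ (2 / 3 : ℝ) ≤ (M * (2 * H)) ^ (2 / 3 : ℝ) :=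
            Real.rpow_le_rpow (by positivity) (by gcongr) (by norm_num)
        _ = M ^ (2 / 3 : ℝ) * ((2 : ℝ) ^ (2 / 3 : ℝ) * H ^ (2 / 3 : ℝ)) := by
            rw [Real.mul_rpow hM0.le (by positivity), Real.mul_rpow (by norm_num) hH0.le]
        _ ≤ (H ^ (2 / 3 : ℝ) * (Y ^ (-(1 / 3) : ℝ) * (1 / n))) * (2 * H ^ (2 / 3 : ℝ)) := by
            have : (2 : ℝ) ^ (2 / 3 : ℝ) ≤ 2 := by
              calc (2 : ℝ) ^ (2 / 3 : ℝ) ≤ (2 : ℝ) ^ (1 : ℝ) :=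
                    Real.rpow_le_rpow_of_exponent_le (by norm_num) (by norm_num)
                _ = 2 := Real.rpow_one 2
            gcongr
        _ = 2 * (H ^ (2 / 3 : ℝ) * H ^ (2 / 3 : ℝ)) * Y ^ (-(1 / 3) : ℝ) * (1 / n) := by ring
        _ = _ := by rw [← Real.rpow_add hH0]; norm_num
    calc K * (M * (2 * C * D)) ^ (ε / 8) *
          (M + 2 * C * D + (M * (2 * C * D)) ^ (2 / 3 : ℝ)) * (2 * C * D)
        ≤ K * (2 * H ^ 2) ^ (ε / 8) *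
          (H + 2 * H + 2 * H ^ (4 / 3 : ℝ) * Y ^ (-(1 / 3) : ℝ) * (1 / n)) * (2 * H) := by
          gcongr
      _ = _ := by rw [hA]; ring
  calc _ ≤ ∑ y ∈ S.image pr,
        A * (3 * H + 2 * H ^ (4 / 3 : ℝ) * Y ^ (-(1 / 3) : ℝ) * (1 / (nm y.2 : ℝ))) :=
        Finset.sum_le_sum key
    _ ≤ ∑ y ∈ box Z,
        A * (3 * H + 2 * H ^ (4 / 3 : ℝ) * Y ^ (-(1 / 3) : ℝ) * (1 / (nm y.2 : ℝ))) :=
        Finset.sum_le_sum_of_subset_of_nonneg hyim (fun _ _ _ => by positivity)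
    _ = A * (∑ _y ∈ box Z, 3 * H + 2 * H ^ (4 / 3 : ℝ) * Y ^ (-(1 / 3) : ℝ) *
          ∑ y ∈ box Z, (1 / (nm y.2 : ℝ))) := by
        rw [← Finset.mul_sum, Finset.sum_add_distrib, Finset.mul_sum (s := box Z)
          (a := 2 * H ^ (4 / 3 : ℝ) * Y ^ (-(1 / 3) : ℝ))]
    _ ≤ A * (900 * Z * (3 * H) + 2 * H ^ (4 / 3 : ℝ) * Y ^ (-(1 / 3) : ℝ) *
          (900 * (1 + Real.log Z))) := by
        have a1 := sum_box_const (Y := Z) (by linarith) (show 0 ≤ 3 * H by positivity)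
        have a2 := sum_box_inv hZ
        gcongr
    _ ≤ A * (2700 * (H * Z) + 18 * c1 * H ^ (ε / 2) * (H ^ (4 / 3 : ℝ) * Y ^ (-(1 / 3) : ℝ))) := by
        have a3 : 100 * (1 + Real.log Z) ≤ c1 * H ^ (ε / 2) := by
          have a4 := poly_log_le 1 hH (show 0 < ε / 2 by positivity)
          rw [pow_one] at a4
          have a5 : Real.log Z ≤ Real.log H := Real.log_le_log (by linarith) hZH
          refine le_trans (by linarith) a4
        have a6 : 0 ≤ H ^ (4 / 3 : ℝ) * Y ^ (-(1 / 3) : ℝ) := by positivity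
        refine mul_le_mul_of_nonneg_left ?_ hA0
        nlinarith
    _ ≤ (K * 2 ^ (ε / 8) * (2 * (2700 + 18 * c1))) * H ^ ε *
          (H ^ 2 * Z + H ^ (7 / 3 : ℝ) * Y ^ (-(1 / 3) : ℝ)) := by
        have b1 : (2 * H ^ 2) ^ (ε / 8) = 2 ^ (ε / 8) * H ^ (ε / 4) := by
          rw [Real.mul_rpow (by norm_num) (by positivity), ← Real.rpow_natCast H 2,
            ← Real.rpow_mul hH0.le]
          congr 2; push_cast; ring
        have b2 : H ^ (7 / 3 : ℝ) = H * H ^ (4 / 3 : ℝ) := by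
          rw [← Real.rpow_one_add' hH0.le (by norm_num)]; norm_num
        have b3 : H ^ (ε / 4) * H ^ (ε / 2) ≤ H ^ ε := by
          rw [← Real.rpow_add hH0]
          exact Real.rpow_le_rpow_of_exponent_le hH (by linarith)
        have b4 : H ^ (ε / 4) ≤ H ^ ε := Real.rpow_le_rpow_of_exponent_le hH (by linarith)
        set q : ℝ := H ^ (4 / 3 : ℝ) * Y ^ (-(1 / 3) : ℝ) with hq
        have hq0 : 0 ≤ q := by positivity
        have b5 : H ^ (7 / 3 : ℝ) * Y ^ (-(1 / 3) : ℝ) = H * q := by rw [b2, hq]; ring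
        rw [b5, hA, b1]
        have hk : 0 ≤ K * 2 ^ (ε / 8) * 2 * H := by positivity
        calc K * (2 ^ (ε / 8) * H ^ (ε / 4)) * (2 * H) * (2700 * (H * Z) + 18 * c1 * H ^ (ε / 2) * q)
            = K * 2 ^ (ε / 8) * 2 * H * (2700 * (H * Z) * H ^ (ε / 4) +
                18 * c1 * q * (H ^ (ε / 4) * H ^ (ε / 2))) := by ring
          _ ≤ K * 2 ^ (ε / 8) * 2 * H * (2700 * (H * Z) * H ^ ε + 18 * c1 * q * H ^ ε) := by
              gcongr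
          _ ≤ K * 2 ^ (ε / 8) * 2 * H *
                ((2700 + 18 * c1) * (H * Z) * H ^ ε + (2700 + 18 * c1) * q * H ^ ε) := by
              gcongr <;> linarith
          _ = _ := by ring

/-! ### case (L): large `k₂` -/

lemma exists_exp {B C ν : ℝ} (hB : 1 ≤ B) (hν1 : ν ≤ 0.1) (hC1 : B ^ ν ≤ C)
    (hC2 : C ≤ B ^ (0.9 : ℝ)) : ∃ k : ℝ, C = B ^ k ∧ ν ≤ k ∧ k ≤ 0.9 := by
  rcases eq_or_lt_of_le hB with h | h
  · subst h
    rw [Real.one_rpow] at hC1 hC2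
    refine ⟨0.9, ?_, by linarith, le_rfl⟩
    rw [Real.one_rpow]; linarith
  · have hB0 : 0 < B := by linarith
    have hL : 0 < Real.log B := Real.log_pos h
    have hC0 : 0 < C := lt_of_lt_of_le (Real.rpow_pos_of_pos hB0 _) hC1
    have hk : C = B ^ (Real.log C / Real.log B) := by
      rw [Real.rpow_def_of_pos hB0, mul_div_cancel₀ _ hL.ne', Real.exp_log hC0]
    refine ⟨Real.log C / Real.log B, hk, ?_, ?_⟩
    · rw [hk] at hC1
      exact (Real.rpow_le_rpow_left_iff h).1 hC1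
    · rw [hk] at hC2
      exact (Real.rpow_le_rpow_left_iff h).1 hC2

lemma card_fib_le {S : Finset Tup} {H : ℝ} (hH : 0 ≤ H) (hS : IsTS S H)
    {y : (ℕ × ℕ) × Eis} (hy : 1 ≤ (nm y.2 : ℝ)) :
    ((fib S y).card : ℝ) ≤ 100 * (H / (nm y.2 : ℝ) ^ 2) := by
  have hsub : fib S y ⊆ nz ⌊H / (nm y.2 : ℝ) ^ 2⌋₊ := by
    intro k hk
    have hz := hS _ (mem_fib.1 hk)
    have h3 := nm_num _ hz.1
    refine mem_nz.2 ⟨hz.1.2.2.1.ne_zero, Nat.le_floor ?_⟩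
    rw [le_div_iff₀ (by positivity)]
    exact h3.1.trans hz.2
  calc ((fib S y).card : ℝ) ≤ ((nz ⌊H / (nm y.2 : ℝ) ^ 2⌋₊).card : ℝ) := by
        exact_mod_cast Finset.card_le_card hsub
    _ ≤ 100 * (⌊H / (nm y.2 : ℝ) ^ 2⌋₊ : ℝ) := card_nz_le _
    _ ≤ _ := by gcongr; exact Nat.floor_le (by positivity)

lemma card_S_le {S : Finset Tup} {H Z : ℝ} (hH : 1 ≤ H) (hZ : 0 < Z) (hS : IsTS S H)
    (hSZ : ∀ x ∈ S, Z ≤ (nm x.2.2 : ℝ)) :
    (S.card : ℝ) ≤ 900 * (H / Z) * (100 * (1 + Real.log H)) := by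
  classical
  have hH0 : 0 < H := by linarith
  have h1 : (S.card : ℝ) = ∑ x ∈ S, (1 : ℝ) := by simp
  have hbox : S.image pr ⊆ box H := by
    refine image_pr_subset fun x hx => ⟨(hS x hx).1, ?_⟩
    have h3 := nm_num x (hS x hx).1
    have h4 := (hS x hx).2
    nlinarith [h3.1, h3.2.1, h3.2.2, mul_le_mul h3.2.1
      (mul_le_mul h3.2.2 h3.2.2 (by norm_num) (by linarith)) (by norm_num) (by linarith)]
  rw [h1, sum_fib]
  calc ∑ y ∈ S.image pr, ∑ _k ∈ fib S y, (1 : ℝ)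
      ≤ ∑ y ∈ S.image pr, 100 * (H / Z) * (1 / (nm y.2 : ℝ)) := by
        refine Finset.sum_le_sum fun y hy => ?_
        obtain ⟨x, hx, hxy⟩ := Finset.mem_image.1 hy
        have hxe : x.2.2 = y.2 := by rw [← hxy]; rfl
        have h3 := (nm_num x (hS x hx).1).2.2
        have h4 := hSZ x hx
        rw [hxe] at h3 h4
        rw [Finset.sum_const, nsmul_eq_mul, mul_one]
        refine (card_fib_le hH0.le hS h3).trans ?_
        have hn0 : (0 : ℝ) < nm y.2 := by linarith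
        have : H / (nm y.2 : ℝ) ^ 2 ≤ H / (Z * nm y.2) := by
          apply div_le_div_of_nonneg_left hH0.le (by positivity)
          rw [pow_two]
          gcongr
        calc 100 * (H / (nm y.2 : ℝ) ^ 2) ≤ 100 * (H / (Z * nm y.2)) := by gcongr
          _ = _ := by field_simp
    _ ≤ ∑ y ∈ box H, 100 * (H / Z) * (1 / (nm y.2 : ℝ)) :=
        Finset.sum_le_sum_of_subset_of_nonneg hbox (fun _ _ _ => by positivity)
    _ = 100 * (H / Z) * ∑ y ∈ box H, (1 / (nm y.2 : ℝ)) := by rw [Finset.mul_sum]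
    _ ≤ 100 * (H / Z) * (900 * (1 + Real.log H)) := by
        have := sum_box_inv hH
        gcongr
    _ = _ := by ring

/-- a moment in exponent form. -/
lemma mom_exp {K ε B X x Q q : ℝ} {j J : ℕ} (hK : 0 < K) (hε : 0 < ε) (hB : 1 ≤ B)
    (hX : X = B ^ x) (hx0 : 0 ≤ x) (hx : x ≤ 1) (hQ : Q = B ^ q) (hjJ : j ≤ J) {A : ℝ}
    (hA : A ≤ K * (2 * X) ^ ε * (Q ^ 2 + (2 * X) ^ j) * (2 * X) ^ j) :
    A ≤ K * 2 ^ ε * 4 ^ J * 2 * B ^ (ε + max (2 * q) (j * x) + j * x) := by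
  have hB0 : 0 < B := by linarith
  have hX1 : 1 ≤ X := by rw [hX]; exact Real.one_le_rpow hB hx0
  have hX0 : 0 < X := by linarith
  have h2j : (2 : ℝ) ^ j ≤ 2 ^ J := pow_le_pow_right₀ (by norm_num) hjJ
  have h2j1 : (1 : ℝ) ≤ 2 ^ j := one_le_pow₀ (by norm_num)
  have e1 : (2 * X) ^ ε ≤ 2 ^ ε * B ^ ε := by
    rw [Real.mul_rpow (by norm_num) hX0.le]
    have : X ≤ B := by
      rw [hX]
      calc B ^ x ≤ B ^ (1 : ℝ) := Real.rpow_le_rpow_of_exponent_le hB hx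
        _ = B := Real.rpow_one B
    gcongr
  have e2 : X ^ j = B ^ (j * x) := by
    rw [hX, ← Real.rpow_natCast, ← Real.rpow_mul hB0.le, mul_comm]
  have e3 : Q ^ 2 = B ^ (2 * q) := by
    rw [hQ, ← Real.rpow_natCast, ← Real.rpow_mul hB0.le, mul_comm]; norm_num
  have e4 : Q ^ 2 ≤ B ^ (max (2 * q) (j * x)) := by
    rw [e3]; exact Real.rpow_le_rpow_of_exponent_le hB (le_max_left _ _)
  have e5 : X ^ j ≤ B ^ (max (2 * q) (j * x)) := by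
    rw [e2]; exact Real.rpow_le_rpow_of_exponent_le hB (le_max_right _ _)
  have e6 : Q ^ 2 + (2 * X) ^ j ≤ 2 ^ J * 2 * B ^ (max (2 * q) (j * x)) := by
    rw [mul_pow]
    have h1J : (1 : ℝ) ≤ 2 ^ J := h2j1.trans h2j
    have hm : 0 ≤ B ^ (max (2 * q) (j * x)) := by positivity
    have : (2 : ℝ) ^ j * X ^ j ≤ 2 ^ J * B ^ (max (2 * q) (j * x)) := by gcongr
    nlinarith
  calc A ≤ K * (2 * X) ^ ε * (Q ^ 2 + (2 * X) ^ j) * (2 * X) ^ j := hA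
    _ ≤ K * (2 ^ ε * B ^ ε) * (2 ^ J * 2 * B ^ (max (2 * q) (j * x))) * (2 ^ J * B ^ (j * x)) := by
        rw [mul_pow 2 X] at e6 ⊢
        rw [← e2]
        gcongr
    _ = K * 2 ^ ε * (2 ^ J * 2 ^ J) * 2 * (B ^ ε * B ^ (max (2 * q) (j * x)) * B ^ (j * x)) := by
        ring
    _ = _ := by
        rw [← Real.rpow_add hB0, ← Real.rpow_add hB0, ← mul_pow]; norm_num

set_option maxHeartbeats 1600000 in
lemma caseL (HO : OrdLS) {ν : ℝ} (hν : 0 < ν) (hν1 : ν ≤ 0.1) : ∃ K : ℝ, 0 < K ∧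
    ∀ e₀ : ℝ, 0 ≤ e₀ → e₀ ≤ ν / 1000 →
    ∀ B C D : ℝ, 1 ≤ B → B ^ ν ≤ C → C ≤ B ^ (0.9 : ℝ) → C * D = B ^ (1 + e₀) →
    ∀ (S : Finset Tup) (P T : Finset Eis), IsTS S (B ^ (1 + e₀)) →
    (∀ x ∈ S, B ^ (1 / 3 - ν / 96) ≤ (nm x.2.2 : ℝ)) →
    IsPB P (2 * C) → IsPB T D → ∀ γ ξ : Eis → ℂ,
    (∀ p ∈ P, ‖γ p‖ ≤ 1) → (∀ d ∈ T, ‖ξ d‖ ≤ 1) →
    ∑ x ∈ S, ‖F P γ (num x)‖ ^ 2 * ‖F T ξ (num x)‖ ^ 2 ≤ K * B ^ (7 / 3 - ν / 10) := by
  classical
  set ε : ℝ := ν / 1000 with hε'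
  have hε : 0 < ε := by positivity
  set J : ℕ := ⌈1.1 / ν⌉₊ + 2 with hJ
  obtain ⟨K, hK, hmom⟩ := unif_ols HO ε hε J
  set c1 : ℝ := (100 * (1 + (1 : ℕ) / (ε / 2))) ^ 1 with hc1
  have hc10 : 0 < c1 := by positivity
  set K1 : ℝ := max (900 * c1) (K * 2 ^ ε * 4 ^ J * 2) with hK1
  have hK10 : 0 < K1 := lt_max_of_lt_left (by positivity)
  refine ⟨K1, hK10, ?_⟩
  intro e₀ he0 he1 B C D hB hC1 hC2 hCD S P T hS hSZ hP hT γ ξ hγ hξ
  have hB0 : 0 < B := by linarith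
  obtain ⟨k, hCk, hk1, hk2⟩ := exists_exp hB hν1 hC1 hC2
  have hC0 : 0 < C := by rw [hCk]; positivity
  set d : ℝ := 1 + e₀ - k with hd
  have hDd : D = B ^ d := by
    rw [hd, Real.rpow_sub hB0, ← hCk, ← hCD]; field_simp
  have hd1 : ν ≤ d := by rw [hd]; norm_num at hk2 hν1 ⊢; linarith
  have hd2 : d ≤ 1 - ν / 2 := by rw [hd]; linarith
  have hk3 : k ≤ 1 - ν / 2 := by norm_num at hk2 hν1 ⊢; linarith
  obtain ⟨j, hj2, hjJ, hjk1, hjk2⟩ := exists_j hν hν1 hk1 hk3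
  obtain ⟨i, hi2, hiJ, hid1, hid2⟩ := exists_j hν hν1 hd1 hd2
  set H : ℝ := B ^ (1 + e₀) with hH
  have hH1 : 1 ≤ H := Real.one_le_rpow hB (by linarith)
  have hH0 : 0 < H := by linarith
  set Z : ℝ := B ^ (1 / 3 - ν / 96) with hZ
  have hZ0 : 0 < Z := by positivity
  set q : ℝ := 2 / 3 + e₀ + ν / 96 with hq
  have hQ : H / Z = B ^ q := by
    rw [hH, hZ, ← Real.rpow_sub hB0]; congr 1; rw [hq]; ring
  have hQ1 : 1 ≤ H / Z := by rw [hQ]; exact Real.one_le_rpow hB (by rw [hq]; positivity)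
  -- conductor
  have hcond : ∀ x ∈ S, IsTup x ∧ (nm x.2.1 : ℝ) * nm x.2.2 ≤ H / Z := by
    intro x hx
    have h1 := hS x hx
    have h2 := nm_num x h1.1
    have h3 := hSZ x hx
    refine ⟨h1.1, ?_⟩
    rw [le_div_iff₀ hZ0]
    calc (nm x.2.1 : ℝ) * nm x.2.2 * Z ≤ (nm x.2.1 : ℝ) * nm x.2.2 * nm x.2.2 := by gcongr
      _ = (nm x.2.1 : ℝ) * (nm x.2.2 : ℝ) ^ 2 := by ring
      _ ≤ H := h2.1.trans h1.2
  have hC1' : 1 ≤ C := by rw [hCk]; exact Real.one_le_rpow hB (by linarith)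
  have hD1' : 1 ≤ D := by rw [hDd]; exact Real.one_le_rpow hB (by linarith)
  set s0 : ℝ := ε + 2 * e₀ + 2 * (ν / 96) with hs0
  -- the three sums
  have A1 : ∑ x ∈ S, ‖F P γ (num x)‖ ^ 0 * ‖F T ξ (num x)‖ ^ 0 ≤ K1 * B ^ (2 / 3 + s0) := by
    have h1 : ∑ x ∈ S, ‖F P γ (num x)‖ ^ 0 * ‖F T ξ (num x)‖ ^ 0 = (S.card : ℝ) := by simp
    rw [h1]
    refine (card_S_le hH1 hZ0 hS hSZ).trans ?_
    have h2 := poly_log_le 1 hH1 (show 0 < ε / 2 by positivity)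
    rw [pow_one] at h2
    have h3 : H ^ (ε / 2) ≤ B ^ ε := by
      rw [hH, ← Real.rpow_mul hB0.le]
      apply Real.rpow_le_rpow_of_exponent_le hB
      nlinarith
    calc 900 * (H / Z) * (100 * (1 + Real.log H)) ≤ 900 * (H / Z) * (c1 * H ^ (ε / 2)) := by
          gcongr
      _ ≤ 900 * (H / Z) * (c1 * B ^ ε) := by gcongr
      _ = 900 * c1 * (B ^ q * B ^ ε) := by rw [hQ]; ring
      _ = 900 * c1 * B ^ (q + ε) := by rw [← Real.rpow_add hB0]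
      _ ≤ K1 * B ^ (2 / 3 + s0) := by
          have h4 : 900 * c1 ≤ K1 := le_max_left _ _
          have h5 : B ^ (q + ε) ≤ B ^ (2 / 3 + s0) :=
            Real.rpow_le_rpow_of_exponent_le hB (by rw [hq, hs0]; linarith)
          gcongr
  have hmax : ∀ z : ℝ, max (2 * q) z ≤ max (4 / 3) z + 2 * e₀ + 2 * (ν / 96) := by
    intro z
    apply max_le
    · have := le_max_left (4 / 3) z
      rw [hq]; linarith
    · have := le_max_right (4 / 3) z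
      linarith
  have AA : ∀ (U : Finset Eis) (c : Eis → ℂ) (X x : ℝ) (n : ℕ), 2 ≤ n → n ≤ J → X = B ^ x →
      0 ≤ x → x ≤ 1 → IsPB U (2 * X) → (∀ u ∈ U, ‖c u‖ ≤ 1) →
      ∑ y ∈ S, ‖F U c (num y)‖ ^ (2 * n) ≤
        K1 * B ^ (max (4 / 3) (n * x) + n * x + s0) := by
    intro U c X x n hn2 hnJ hX hx0 hx1 hU hc
    have hX1 : 1 ≤ X := by rw [hX]; exact Real.one_le_rpow hB hx0
    have h1 := hmom n (by omega) hnJ (H / Z) (2 * X) hQ1 (by linarith) S U hcond hU c hc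
    refine (mom_exp hK hε hB hX hx0 hx1 hQ hnJ h1).trans ?_
    have h2 : K * 2 ^ ε * 4 ^ J * 2 ≤ K1 := le_max_right _ _
    have h3 := hmax (n * x)
    have h4 : B ^ (ε + max (2 * q) (n * x) + n * x) ≤ B ^ (max (4 / 3) (n * x) + n * x + s0) :=
      Real.rpow_le_rpow_of_exponent_le hB (by rw [hs0]; linarith)
    exact mul_le_mul h2 h4 (by positivity) hK10.le
  have A2 := AA P γ C k j hj2 hjJ hCk (by linarith) (by norm_num at hk2 ⊢; linarith) hP hγ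
  have A3 := AA T ξ D d i hi2 hiJ hDd (by linarith) (by linarith)
    (fun n hn => ⟨(hT n hn).1, (hT n hn).2.trans (by linarith)⟩) hξ
  have hj0 : (2 : ℝ) ≤ j := by exact_mod_cast hj2
  have hi0 : (2 : ℝ) ≤ i := by exact_mod_cast hi2
  have hjp : (0 : ℝ) < j := by linarith
  have hip : (0 : ℝ) < i := by linarith
  have hu : 0 ≤ 1 - 1 / (j : ℝ) - 1 / (i : ℝ) := by
    have h1 : 1 / (j : ℝ) ≤ 1 / 2 := one_div_le_one_div_of_le (by norm_num) hj0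
    have h2 : 1 / (i : ℝ) ≤ 1 / 2 := one_div_le_one_div_of_le (by norm_num) hi0
    linarith
  have hh := CRmom569.holder_moments S (fun x => ‖F P γ (num x)‖) (fun x => ‖F T ξ (num x)‖)
    (fun _ _ => norm_nonneg _) (fun _ _ => norm_nonneg _) 0 (2 * j) 0 0 0 (2 * i)
    (1 - 1 / (j : ℝ) - 1 / (i : ℝ)) (1 / (j : ℝ)) (1 / (i : ℝ)) hu (by positivity)
    (by positivity) (by ring) (by push_cast; field_simp; ring) (by push_cast; field_simp; ring)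
  refine hh.trans ?_
  have A2' : ∑ h ∈ S, ‖F P γ (num h)‖ ^ (2 * j) * ‖F T ξ (num h)‖ ^ 0 ≤
      K1 * B ^ (max (4 / 3) (j * k) + j * k + s0) := by
    simpa using A2
  have A3' : ∑ h ∈ S, ‖F P γ (num h)‖ ^ 0 * ‖F T ξ (num h)‖ ^ (2 * i) ≤
      K1 * B ^ (max (4 / 3) (i * d) + i * d + s0) := by
    simpa using A3
  refine (CRmom569.three_bound (Finset.sum_nonneg fun _ _ => by positivity)
    (Finset.sum_nonneg fun _ _ => by positivity) (Finset.sum_nonneg fun _ _ => by positivity)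
    hK10.le hB0 hu (by positivity) (by positivity) (by ring) A1 A2' A3').trans ?_
  refine mul_le_mul_of_nonneg_left ?_ hK10.le
  apply Real.rpow_le_rpow_of_exponent_le hB
  have x1 := expo hν hν1 hjk1 hjk2
  have x2 := expo hν hν1 hid1 hid2
  have y1 : (max (4 / 3) (j * k) + j * k + s0) * (1 / (j : ℝ)) ≤
      (2 / 3 + s0) * (1 / j) + (5 / 3 - ν / 6) * k := by
    calc (max (4 / 3) (j * k) + j * k + s0) * (1 / (j : ℝ))
        ≤ (2 / 3 + (5 / 3 - ν / 6) * (j * k) + s0) * (1 / (j : ℝ)) := by gcongr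
      _ = (2 / 3 + s0) * (1 / j) + (5 / 3 - ν / 6) * (j * k * (1 / j)) := by ring
      _ = _ := by congr 2; field_simp
  have y2 : (max (4 / 3) (i * d) + i * d + s0) * (1 / (i : ℝ)) ≤
      (2 / 3 + s0) * (1 / i) + (5 / 3 - ν / 6) * d := by
    calc (max (4 / 3) (i * d) + i * d + s0) * (1 / (i : ℝ))
        ≤ (2 / 3 + (5 / 3 - ν / 6) * (i * d) + s0) * (1 / (i : ℝ)) := by gcongr
      _ = (2 / 3 + s0) * (1 / i) + (5 / 3 - ν / 6) * (i * d * (1 / i)) := by ring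
      _ = _ := by congr 2; field_simp
  have y3 : (5 / 3 - ν / 6) * k + (5 / 3 - ν / 6) * d = (5 / 3 - ν / 6) * (1 + e₀) := by
    rw [hd]; ring
  have y4 : (5 / 3 - ν / 6) * (1 + e₀) ≤ 5 / 3 - ν / 6 + 5 / 3 * e₀ := by nlinarith
  calc (2 / 3 + s0) * (1 - 1 / (j : ℝ) - 1 / (i : ℝ)) +
        (max (4 / 3) (j * k) + j * k + s0) * (1 / (j : ℝ)) +
        (max (4 / 3) (i * d) + i * d + s0) * (1 / (i : ℝ))
      ≤ (2 / 3 + s0) + ((5 / 3 - ν / 6) * k + (5 / 3 - ν / 6) * d) := by linarith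
    _ ≤ 7 / 3 - ν / 10 := by
        rw [y3, hs0, hε']
        linarith

/-! ### assembly -/

set_option maxHeartbeats 1600000 in
/-- **(CRC)** the core bilinear estimate over all cubefree numerators. -/
theorem coreCub_of_gls (hC : Core) (HG : GLS) (HO : OrdLS) : CoreCub := by
  classical
  intro ν₀ hν₀
  set ν : ℝ := min ν₀ 0.1 with hνdef
  have hν : 0 < ν := lt_min hν₀ (by norm_num)
  have hν1 : ν ≤ 0.1 := min_le_right _ _
  have hνν₀ : ν ≤ ν₀ := min_le_left _ _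
  obtain ⟨δ', e₁, K₁, hδ', he₁, hK₁, hcore⟩ := hC (ν / 2) (by positivity)
  set m : ℝ := min ν δ' with hm
  have hm0 : 0 < m := lt_min hν hδ'
  have hmν : m ≤ ν := min_le_left _ _
  have hmδ : m ≤ δ' := min_le_right _ _
  have hν1' : ν ≤ 1 / 10 := by norm_num at hν1 ⊢; linarith
  have hm1 : m ≤ 1 / 10 := hmν.trans hν1'
  set e₀ : ℝ := min e₁ (m / 1000) with he₀
  have he₀0 : 0 < e₀ := lt_min he₁ (by positivity)
  have he₀m : e₀ ≤ m / 1000 := min_le_right _ _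
  have he₀1 : e₀ ≤ 1 := by linarith
  set ε : ℝ := m / 1000 with hε
  have hε0 : 0 < ε := by positivity
  obtain ⟨KM, hKM, hM⟩ := caseM HG ε hε0
  obtain ⟨KL, hKL, hL⟩ := caseL HO hν hν1
  refine ⟨m / 400, e₀, 900 * K₁ + 2 * KM + KL, by positivity, he₀0, by positivity, ?_⟩
  intro B C D hB hC1 hC2 hD hCD S P T hS hP hT γ ξ hγ hξ
  have hB0 : 0 < B := by linarith
  have hC1' : B ^ ν ≤ C := (Real.rpow_le_rpow_of_exponent_le hB hνν₀).trans hC1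
  have hC11 : 1 ≤ C := (Real.one_le_rpow hB hν.le).trans hC1'
  have hC0 : 0 < C := by linarith
  set H : ℝ := B ^ (1 + e₀) with hH
  have hH1 : 1 ≤ H := Real.one_le_rpow hB (by linarith)
  have hH0 : 0 < H := by linarith
  set D' : ℝ := H / C with hD'
  have hDD' : D ≤ D' := by rw [hD', le_div_iff₀ hC0]; linarith
  have hD'1 : 1 ≤ D' := hD.trans hDD'
  have hCD' : C * D' = H := by rw [hD']; field_simp
  have hT' : IsPB T D' := fun n hn => ⟨(hT n hn).1, (hT n hn).2.trans hDD'⟩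
  have hP' : IsPB P (2 * C) := fun n hn => ⟨(hP n hn).1, (hP n hn).2.2.2⟩
  set Y : ℝ := B ^ (m / 4) with hY
  set Z : ℝ := B ^ (1 / 3 - ν / 96) with hZ
  have hY1 : 1 ≤ Y := Real.one_le_rpow hB (by positivity)
  have hZ1 : 1 ≤ Z := Real.one_le_rpow hB (by linarith)
  have hZH : Z ≤ H := Real.rpow_le_rpow_of_exponent_le hB (by linarith)
  set f : Tup → ℝ := fun x => ‖F P γ (num x)‖ ^ 2 * ‖F T ξ (num x)‖ ^ 2 with hf
  have hfilt : ∀ (p : Tup → Prop) [DecidablePred p], IsTS (S.filter p) H :=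
    fun p _ x hx => hS x (Finset.mem_filter.1 hx).1
  -- the three parts
  have h1 : ∑ x ∈ S.filter (fun x => (nm x.2.2 : ℝ) ≤ Y), f x ≤ 900 * K₁ * B ^ (7 / 3 - m / 400) := by
    have := caseS hν he₀0.le he₀1 he₁ hK₁ hcore hB hC1' hC2 hD'1 hCD'.le (by linarith : 0 ≤ Y)
      (hfilt _) (fun x hx => (Finset.mem_filter.1 hx).2) hP hT' hγ hξ
    refine this.trans ?_
    have e1 : H ^ (7 / 3 - δ') ≤ B ^ ((1 + e₀) * (7 / 3 - m)) := by
      rw [Real.rpow_mul hB0.le]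
      exact Real.rpow_le_rpow_of_exponent_le hH1 (by linarith)
    have e2 : Y * B ^ ((1 + e₀) * (7 / 3 - m)) ≤ B ^ (7 / 3 - m / 400) := by
      rw [hY, ← Real.rpow_add hB0]
      apply Real.rpow_le_rpow_of_exponent_le hB
      nlinarith
    calc 900 * Y * (K₁ * H ^ (7 / 3 - δ')) ≤ 900 * Y * (K₁ * B ^ ((1 + e₀) * (7 / 3 - m))) := by
          gcongr
      _ = 900 * K₁ * (Y * B ^ ((1 + e₀) * (7 / 3 - m))) := by ring
      _ ≤ _ := by gcongr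
  have h2 : ∑ x ∈ (S.filter (fun x => ¬ (nm x.2.2 : ℝ) ≤ Y)).filter (fun x => (nm x.2.2 : ℝ) ≤ Z),
      f x ≤ 2 * KM * B ^ (7 / 3 - m / 400) := by
    have := hM H C D' Y Z hH1 hC11 hD'1 hCD'.le hY1 hZ1 hZH
      ((S.filter (fun x => ¬ (nm x.2.2 : ℝ) ≤ Y)).filter (fun x => (nm x.2.2 : ℝ) ≤ Z)) P T
      (fun x hx => hS x (Finset.mem_filter.1 (Finset.mem_filter.1 hx).1).1)
      (fun x hx => ⟨(not_le.1 (Finset.mem_filter.1 (Finset.mem_filter.1 hx).1).2).le,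
        (Finset.mem_filter.1 hx).2⟩) hP' hT' γ ξ hγ hξ
    refine this.trans ?_
    have e0 : H ^ ε ≤ B ^ (2 * ε) := by
      rw [hH, ← Real.rpow_mul hB0.le]
      apply Real.rpow_le_rpow_of_exponent_le hB
      nlinarith
    have e1 : H ^ 2 * Z = B ^ (2 * (1 + e₀) + (1 / 3 - ν / 96)) := by
      rw [Real.rpow_add hB0, hH, ← Real.rpow_natCast, ← Real.rpow_mul hB0.le]
      congr 2; push_cast; ring
    have e2 : H ^ (7 / 3 : ℝ) * Y ^ (-(1 / 3) : ℝ) = B ^ ((1 + e₀) * (7 / 3) + m / 4 * (-(1 / 3))) := by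
      rw [Real.rpow_add hB0, hH, hY, ← Real.rpow_mul hB0.le, ← Real.rpow_mul hB0.le]
    have e3 : B ^ (2 * ε) * (H ^ 2 * Z) ≤ B ^ (7 / 3 - m / 400) := by
      rw [e1, ← Real.rpow_add hB0]
      apply Real.rpow_le_rpow_of_exponent_le hB
      rw [hε]; linarith
    have e4 : B ^ (2 * ε) * (H ^ (7 / 3 : ℝ) * Y ^ (-(1 / 3) : ℝ)) ≤ B ^ (7 / 3 - m / 400) := by
      rw [e2, ← Real.rpow_add hB0]
      apply Real.rpow_le_rpow_of_exponent_le hB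
      rw [hε]; linarith
    calc KM * H ^ ε * (H ^ 2 * Z + H ^ (7 / 3 : ℝ) * Y ^ (-(1 / 3) : ℝ))
        ≤ KM * B ^ (2 * ε) * (H ^ 2 * Z + H ^ (7 / 3 : ℝ) * Y ^ (-(1 / 3) : ℝ)) := by gcongr
      _ = KM * (B ^ (2 * ε) * (H ^ 2 * Z) + B ^ (2 * ε) * (H ^ (7 / 3 : ℝ) * Y ^ (-(1 / 3) : ℝ))) := by
          ring
      _ ≤ KM * (B ^ (7 / 3 - m / 400) + B ^ (7 / 3 - m / 400)) := by gcongr
      _ = _ := by ring
  have h3 : ∑ x ∈ (S.filter (fun x => ¬ (nm x.2.2 : ℝ) ≤ Y)).filter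
      (fun x => ¬ (nm x.2.2 : ℝ) ≤ Z), f x ≤ KL * B ^ (7 / 3 - m / 400) := by
    have := hL e₀ he₀0.le (by linarith) B C D' hB hC1' hC2 hCD'
      ((S.filter (fun x => ¬ (nm x.2.2 : ℝ) ≤ Y)).filter (fun x => ¬ (nm x.2.2 : ℝ) ≤ Z)) P T
      (fun x hx => hS x (Finset.mem_filter.1 (Finset.mem_filter.1 hx).1).1)
      (fun x hx => (not_le.1 (Finset.mem_filter.1 hx).2).le) hP' hT' γ ξ hγ hξ
    refine this.trans ?_
    have : B ^ (7 / 3 - ν / 10) ≤ B ^ (7 / 3 - m / 400) :=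
      Real.rpow_le_rpow_of_exponent_le hB (by linarith)
    gcongr
  calc ∑ x ∈ S, f x = ∑ x ∈ S.filter (fun x => (nm x.2.2 : ℝ) ≤ Y), f x +
        (∑ x ∈ (S.filter (fun x => ¬ (nm x.2.2 : ℝ) ≤ Y)).filter (fun x => (nm x.2.2 : ℝ) ≤ Z), f x +
        ∑ x ∈ (S.filter (fun x => ¬ (nm x.2.2 : ℝ) ≤ Y)).filter
          (fun x => ¬ (nm x.2.2 : ℝ) ≤ Z), f x) := by
        rw [Finset.sum_filter_add_sum_filter_not, Finset.sum_filter_add_sum_filter_not]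
    _ ≤ 900 * K₁ * B ^ (7 / 3 - m / 400) + (2 * KM * B ^ (7 / 3 - m / 400) +
        KL * B ^ (7 / 3 - m / 400)) := by
        gcongr
    _ = _ := by ring

/-- **(CRC)** from the cubic large sieve. -/
theorem coreCub_of (hC : Core) (HB : HBLS) (HO : OrdLS) : CoreCub :=
  coreCub_of_gls hC (gls_of_hbls HB) HO

end Crest.Agent.R012.CoreCub298
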