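import Crest.Agent.R012.CRH_569
import Crest.Agent.R012.GLS_687

/-!
# Row 12, item CORE: the concrete core estimate (CRH + CRA)  (helper569)

`Core` follows from Heath-Brown's cubic large sieve (`HBLS`, or `LS2.Final`) and the saved
moments (`SavedMom`, item CR2).
-/

set_option autoImplicit false

namespace Crest.Agent.R012.Core569

open CR290

/-- `Core` from `HBLS` and the saved moments. -/
theorem core_of_hbls (hL : HBLS) (hS : SavedMom) : Core :=
  CRH569.crh (GLS687.mom_of_hbls hL) hS

/-- `Core` from `LS2.Final` and the saved moments. -/
theorem core_of_final (hL : LS2.Final) (hS : SavedMom) : Core :=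
  CRH569.crh (GLS687.mom_of_final hL) hS

/-- `Core9` (range `C ≤ H^0.9`) from `LS2.Final` and the saved moments. -/
theorem core9_of_final (hL : LS2.Final) (hS : SavedMom) : CRH569.Core9 :=
  CRH569.crh9 (GLS687.mom_of_final hL) hS

end Crest.Agent.R012.Core569
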