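import Crest.Agent.R012.Mob_705
import Crest.Agent.R012.LScount_448
import Crest.Agent.R012.LS2Spec_381
import Crest.Agent.R012.GaussInst_880
import Crest.Agent.R012.Div_277
import Crest.Agent.R012.PoissonS_581

/-!
# Row 12 (T6): the cross term of the dispersion, part A (algebra and counting)

* `n6 n = N(n)^(-1/6)`, `summable_nm s` : `Σ N(n)^(-s) < ∞` for `s > 1`
* `fm n = G n - pC μ²(n) N(n)^(-1/6)` (the model error, `l = 0`)
* `tau a = conj (G a0) N(a0)^(-1/6)` for `a = a0 m³` (`a0` squarefree primary, `m` primary), `0` if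
  there is no such decomposition; `tau_eq`.
* `key_eq` : `(G b conj (sy a b) - pC tau a N(b)^(-1/6)) conj (tau a) = N(a0)^(-1/6) fm (a0 b)`.
-/

set_option autoImplicit false

noncomputable section

open Finset

namespace Crest.Agent.R012.Cross869

open Crest.Agent.R012 Crest.Agent.R012.Eis

/-! ### Norm powers -/

/-- `N(n)^(-1/6)` -/
def n6 (n : Eis) : ℝ := (nm n : ℝ) ^ (-(1 / 6 : ℝ))

lemma n6_nonneg (n : Eis) : 0 ≤ n6 n := Real.rpow_nonneg (Nat.cast_nonneg _) _

lemma n6_mul (a b : Eis) : n6 (a * b) = n6 a * n6 b := by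
  unfold n6
  rw [nm_mul, Nat.cast_mul, Real.mul_rpow (Nat.cast_nonneg _) (Nat.cast_nonneg _)]

lemma n6_le_one (n : Eis) : n6 n ≤ 1 := by
  unfold n6
  rcases Nat.eq_zero_or_pos (nm n) with h | h
  · rw [h, Nat.cast_zero, Real.zero_rpow (by norm_num)]; norm_num
  · exact Real.rpow_le_one_of_one_le_of_nonpos (by exact_mod_cast h) (by norm_num)

lemma summable_nm {s : ℝ} (hs : 1 < s) : Summable (fun x : Eis => (nm x : ℝ) ^ (-s)) := by
  have h := EisensteinSeries.summable_one_div_norm_rpow (k := 2 * s) (by linarith)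
  rw [← Po581.eZ.summable_iff]
  refine Summable.of_nonneg_of_le (fun n => by simp only [Function.comp]; positivity) (fun n => ?_)
    (h.mul_left ((4 : ℝ) ^ s))
  simp only [Function.comp]
  have h1 := Po581.toC_norm_ge (Po581.eZ n)
  rw [Equiv.symm_apply_apply] at h1
  have h2 : ‖n‖ ^ 2 ≤ 4 * (nm (Po581.eZ n) : ℝ) := by
    have h3 := norm_toC_sq (Po581.eZ n)
    nlinarith [norm_nonneg n, norm_nonneg (toC (Po581.eZ n))]
  rcases eq_or_ne (nm (Po581.eZ n)) 0 with h0 | h0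
  · rw [h0, Nat.cast_zero, Real.zero_rpow (by linarith)]
    positivity
  · have hn0 : (0 : ℝ) < nm (Po581.eZ n) := by
      exact_mod_cast Nat.pos_of_ne_zero h0
    have hn1 : 0 < ‖n‖ := by
      rw [norm_pos_iff]
      rintro rfl
      apply h0
      rw [nm_eq_zero]
      rfl
    have e1 : ‖n‖ ^ (-(2 * s)) = (‖n‖ ^ 2) ^ (-s) := by
      rw [← Real.rpow_natCast ‖n‖ 2, ← Real.rpow_mul hn1.le]
      congr 1
      push_cast
      ring
    have e2 : (4 : ℝ) ^ s * (‖n‖ ^ 2) ^ (-s) = (‖n‖ ^ 2 / 4) ^ (-s) := by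
      rw [Real.div_rpow (by positivity) (by norm_num), Real.rpow_neg (by norm_num : (0 : ℝ) ≤ 4) s]
      field_simp
    rw [e1, e2]
    exact Real.rpow_le_rpow_of_nonpos (by positivity) (by linarith) (by linarith)

/-! ### The model error -/

open Classical in
/-- `fm n = G n - pC μ²(n) N(n)^(-1/6)`. -/
def fm (n : Eis) : ℂ := G n - (if Squarefree n then ((pC * n6 n : ℝ) : ℂ) else 0)

/-- bound for `fm` -/
def Kf : ℝ := 1 + |pC|

lemma Kf_pos : 0 < Kf := by unfold Kf; positivity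

lemma norm_fm_le {n : Eis} (hn : IsPrim n) : ‖fm n‖ ≤ Kf := by
  unfold fm Kf
  refine (norm_sub_le _ _).trans (add_le_add (Gauss880.norm_G_le Gauss880.syG hn) ?_)
  split_ifs
  · rw [Complex.norm_real, Real.norm_eq_abs, abs_mul, abs_of_nonneg (n6_nonneg n)]
    exact mul_le_of_le_one_right (abs_nonneg _) (n6_le_one n)
  · simp

lemma fm_eq_zero {n : Eis} (hn : IsPrim n) (h : ¬ Squarefree n) : fm n = 0 := by
  unfold fm
  rw [Gauss880.G_eq_zero Gauss880.syG hn h, if_neg h, sub_zero]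

/-! ### The sums `U` -/

open Classical in
/-- `U W r Y = Σ_{c primary} N(c)^(-1/6) W(N(c)/Y) fm(r c)`. -/
def U (W : ℝ → ℝ) (r : Eis) (Y : ℝ) : ℂ :=
  ∑' c : Eis, if IsPrim c then ((n6 c * W (nm c / Y) : ℝ) : ℂ) * fm (r * c) else 0

/-- hypothesis on the weight: `|W x| x² ≤ K` for `x > 0`. -/
def WB (W : ℝ → ℝ) (K : ℝ) : Prop := 0 ≤ K ∧ ∀ x : ℝ, 0 < x → |W x| * x ^ 2 ≤ K

lemma WB.le {W : ℝ → ℝ} {K : ℝ} (h : WB W K) {x : ℝ} (hx : 0 < x) : |W x| ≤ K / x ^ 2 := by
  rw [le_div_iff₀ (by positivity)]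
  exact h.2 x hx

/-- the constant `Σ N(c)^(-2)` -/
def Z2 : ℝ := ∑' c : Eis, (nm c : ℝ) ^ (-(2 : ℝ))

lemma Z2_nonneg : 0 ≤ Z2 := tsum_nonneg fun _ => by positivity

open Classical in
lemma norm_U_term_le {W : ℝ → ℝ} {K : ℝ} (h : WB W K) {r : Eis} (hr : IsPrim r) {Y : ℝ}
    (hY : 0 < Y) (c : Eis) :
    ‖(if IsPrim c then ((n6 c * W (nm c / Y) : ℝ) : ℂ) * fm (r * c) else 0)‖
      ≤ (K * Kf * Y ^ 2) * (nm c : ℝ) ^ (-(2 : ℝ)) := by
  have hK := h.1
  have hKf := Kf_pos.le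
  split_ifs with hc
  · have hc0 : (0 : ℝ) < nm c := by exact_mod_cast nm_pos.mpr hc.ne_zero
    rw [norm_mul, Complex.norm_real, Real.norm_eq_abs, abs_mul, abs_of_nonneg (n6_nonneg c)]
    have h1 : |W (nm c / Y)| ≤ K * Y ^ 2 * (nm c : ℝ) ^ (-(2 : ℝ)) := by
      refine (h.le (div_pos hc0 hY)).trans (le_of_eq ?_)
      rw [Real.rpow_neg hc0.le, show ((2 : ℝ)) = ((2 : ℕ) : ℝ) by norm_num, Real.rpow_natCast]
      field_simp
    calc n6 c * |W (nm c / Y)| * ‖fm (r * c)‖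
        ≤ 1 * (K * Y ^ 2 * (nm c : ℝ) ^ (-(2 : ℝ))) * Kf := by
          gcongr
          · exact n6_le_one c
          · exact norm_fm_le (hr.mul hc)
      _ = _ := by ring
  · rw [norm_zero]; positivity

open Classical in
lemma summable_U {W : ℝ → ℝ} {K : ℝ} (h : WB W K) {r : Eis} (hr : IsPrim r) {Y : ℝ}
    (hY : 0 < Y) :
    Summable fun c : Eis =>
      (if IsPrim c then ((n6 c * W (nm c / Y) : ℝ) : ℂ) * fm (r * c) else 0) :=
  Summable.of_norm_bounded ((summable_nm (s := 2) (by norm_num)).mul_left _)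
    (norm_U_term_le h hr hY)

lemma norm_U_le {W : ℝ → ℝ} {K : ℝ} (h : WB W K) {r : Eis} (hr : IsPrim r) {Y : ℝ}
    (hY : 0 < Y) : ‖U W r Y‖ ≤ K * Kf * Z2 * Y ^ 2 := by
  have h1 := (summable_nm (s := 2) (by norm_num)).hasSum.mul_left (K * Kf * Y ^ 2)
  refine (tsum_of_norm_bounded h1 (norm_U_term_le h hr hY)).trans (le_of_eq ?_)
  unfold Z2
  ring

open Classical in
lemma U_eq_zero (W : ℝ → ℝ) {r : Eis} (hr : IsPrim r) (h : ¬ Squarefree r) (Y : ℝ) :
    U W r Y = 0 := by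
  unfold U
  have h1 : (fun c : Eis => if IsPrim c then ((n6 c * W (nm c / Y) : ℝ) : ℂ) * fm (r * c) else 0)
      = fun _ => 0 := by
    funext c
    split_ifs with hc
    · rw [fm_eq_zero (hr.mul hc) (fun hs => h (hs.squarefree_of_dvd (Dvd.intro _ rfl))), mul_zero]
    · rfl
  rw [h1, tsum_zero]

/-! ### Removal of the coprimality condition -/

open Classical in
/-- `Σ_{a, (a,b)=1} N(a)^(-1/6) W(N(a) t) fm(a b1)` -/
def V (W : ℝ → ℝ) (b1 b : Eis) (t : ℝ) : ℂ :=
  ∑' a : Eis, if IsPrim a ∧ IsCoprime a b then ((n6 a * W (nm a * t) : ℝ) : ℂ) * fm (a * b1) else 0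

open Classical in
lemma tsum_mul_left_dvd {d : Eis} (hd : IsPrim d) (h : Eis → ℂ) :
    ∑' a : Eis, (if IsPrim a ∧ d ∣ a then h a else 0)
      = ∑' c : Eis, (if IsPrim c then h (d * c) else 0) := by
  have hinj : Function.Injective (fun c : Eis => d * c) := mul_right_injective₀ hd.ne_zero
  have := hinj.tsum_eq (f := fun a : Eis => (if IsPrim a ∧ d ∣ a then h a else 0)) ?_
  · rw [← this]
    refine tsum_congr fun c => ?_
    by_cases hc : IsPrim c
    · rw [if_pos ⟨hd.mul hc, Dvd.intro _ rfl⟩, if_pos hc]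
    · rw [if_neg hc, if_neg]
      rintro ⟨h1, _⟩
      exact hc (h1.of_mul_left hd)
  · intro a ha
    rw [Function.mem_support] at ha
    by_cases h1 : IsPrim a ∧ d ∣ a
    · obtain ⟨c, rfl⟩ := h1.2
      exact ⟨c, rfl⟩
    · rw [if_neg h1] at ha
      exact absurd rfl ha

open Classical in
/-- Möbius inversion of the coprimality condition. -/
theorem V_eq {W : ℝ → ℝ} {K : ℝ} (h : WB W K) {b1 b : Eis} (hb1 : IsPrim b1) (hb : IsPrim b)
    {t : ℝ} (ht : 0 < t) :
    V W b1 b t = ∑ d ∈ Div277.dvs b, (muE d : ℂ) * ((n6 d : ℂ) * U W (d * b1) (1 / (t * nm d))) := by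
  have hterm : ∀ a : Eis, (if IsPrim a ∧ IsCoprime a b then
      ((n6 a * W (nm a * t) : ℝ) : ℂ) * fm (a * b1) else 0)
      = ∑ d ∈ Div277.dvs b, (muE d : ℂ) *
        (if IsPrim a ∧ d ∣ a then ((n6 a * W (nm a * t) : ℝ) : ℂ) * fm (a * b1) else 0) := by
    intro a
    by_cases ha : IsPrim a
    · have h1 := Mob705.sum_muE_coprime ha hb.ne_zero
      have h2 : (((∑ d ∈ Div277.dvs b, (if d ∣ a then muE d else 0) : ℤ) : ℂ))
          = (((if IsCoprime a b then 1 else 0 : ℤ) : ℂ)) := by rw [h1]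
      rw [show (if IsPrim a ∧ IsCoprime a b then
        ((n6 a * W (nm a * t) : ℝ) : ℂ) * fm (a * b1) else 0)
        = (((if IsCoprime a b then 1 else 0 : ℤ) : ℂ)) *
          (((n6 a * W (nm a * t) : ℝ) : ℂ) * fm (a * b1)) by
          by_cases hc : IsCoprime a b
          · rw [if_pos ⟨ha, hc⟩, if_pos hc]; simp
          · rw [if_neg (fun h => hc h.2), if_neg hc]; simp]
      rw [← h2, Int.cast_sum, Finset.sum_mul]
      refine Finset.sum_congr rfl fun d _ => ?_
      by_cases hd : d ∣ a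
      · rw [if_pos hd, if_pos ⟨ha, hd⟩]
      · rw [if_neg hd, if_neg (fun h => hd h.2)]; simp
    · rw [if_neg (fun h => ha h.1)]
      symm
      apply Finset.sum_eq_zero
      intro d _
      rw [if_neg (fun h => ha h.1), mul_zero]
  have hsum : ∀ d ∈ Div277.dvs b, Summable fun a : Eis => (muE d : ℂ) *
        (if IsPrim a ∧ d ∣ a then ((n6 a * W (nm a * t) : ℝ) : ℂ) * fm (a * b1) else 0) := by
    intro d _
    apply Summable.mul_left
    have h1 := summable_U h hb1 (Y := 1 / t) (by positivity)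
    refine Summable.of_norm_bounded h1.norm fun a => ?_
    by_cases ha : IsPrim a ∧ d ∣ a
    · rw [if_pos ha, if_pos ha.1, mul_comm a b1]
      rw [show (nm a : ℝ) / (1 / t) = nm a * t by field_simp]
    · rw [if_neg ha, norm_zero]; exact norm_nonneg _
  unfold V
  rw [tsum_congr hterm, Summable.tsum_finsetSum hsum]
  refine Finset.sum_congr rfl fun d hd => ?_
  have hdp : IsPrim d := Div277.isPrim_of_mem_dvs hd
  have hd0 : (0 : ℝ) < nm d := by exact_mod_cast nm_pos.mpr hdp.ne_zero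
  rw [tsum_mul_left, tsum_mul_left_dvd hdp (fun a => ((n6 a * W (nm a * t) : ℝ) : ℂ) * fm (a * b1))]
  congr 1
  unfold U
  rw [← tsum_mul_left]
  refine tsum_congr fun c => ?_
  by_cases hc : IsPrim c
  · rw [if_pos hc, if_pos hc, n6_mul, nm_mul]
    rw [show (nm c : ℝ) / (1 / (t * nm d)) = ((nm d * nm c : ℕ) : ℝ) * t by
      push_cast; field_simp]
    rw [show d * c * b1 = d * b1 * c by ring]
    push_cast
    ring
  · rw [if_neg hc, if_neg hc, mul_zero]

end Crest.Agent.R012.Cross869
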