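import Crest.Agent.R012.CrossA_869
import Crest.Agent.R012.TauDef_85

/-!
# Row 12 (T6): the cross term of the dispersion, part B (the identity)

* `key_eq` : `(G b conj (sy a b) - pC τ(a) N(b)^(-1/6)) conj (τ a) = N(a0)^(-1/6) fm (a0 b)`,
  `a = a0 m³`, `(a, b) = 1`.
* `X6 W A S β = Σ_a W(N(a)/A) D(a) conj (τ(a) E(a))`
* `X6_eq` : `X6 = Σ_m Σ_{b1,b2} β1 conj β2 N(b2)^(-1/6) V b1 b2 (N(m)³/A)`.
-/

set_option autoImplicit false

noncomputable section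

open Finset

namespace Crest.Agent.R012.Cross869

open Crest.Agent.R012 Crest.Agent.R012.Eis Crest.Agent.R012.Tau85

/-- the summand of `D(a)` without `β` -/
def Du (a b : Eis) : ℂ := G b * (starRingEnd ℂ) (sy a b) - (pC : ℂ) * tauE a * (n6 b : ℂ)

open Classical in
/-- `D(a) = Σ_{b ∈ S, (a,b)=1} β_b (G b conj (sy a b) - pC τ(a) N(b)^(-1/6))` -/
def Dd (S : Finset Eis) (β : Eis → ℂ) (a : Eis) : ℂ :=
  ∑ b ∈ S, if IsCoprime a b then β b * Du a b else 0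

open Classical in
/-- `E(a) = Σ_{b ∈ S, (a,b)=1} β_b N(b)^(-1/6)` -/
def Ee (S : Finset Eis) (β : Eis → ℂ) (a : Eis) : ℂ :=
  ∑ b ∈ S, if IsCoprime a b then β b * (n6 b : ℂ) else 0

open Classical in
/-- the cross term -/
def X6 (W : ℝ → ℝ) (A : ℝ) (S : Finset Eis) (β : Eis → ℂ) : ℂ :=
  ∑' a : Eis, if IsPrim a then
    (W (nm a / A) : ℂ) * (Dd S β a * (starRingEnd ℂ) (tauE a * Ee S β a)) else 0

lemma squarefree_mul_of {a b : Eis} (h : IsCoprime a b) (ha : Squarefree a) (hb : Squarefree b) :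
    Squarefree (a * b) := (squarefree_mul_iff).mpr ⟨h.isRelPrime, ha, hb⟩

lemma not_squarefree_mul {a b : Eis} (ha : a ≠ 0) (h : ¬ IsCoprime a b) : ¬ Squarefree (a * b) := by
  intro hsf
  apply h
  refine isCoprime_of_prime_dvd (fun h => ha h.1) (fun p hp hpa hpb => ?_)
  exact hp.not_isUnit (hsf p (mul_dvd_mul hpa hpb))

theorem key_eq {q : Eis × Eis} (hq : q ∈ TP) {b : Eis} (hb : IsPrim b) (hbs : Squarefree b)
    (hc : IsCoprime (cp q) b) :
    Du (cp q) b * (starRingEnd ℂ) (tauE (cp q)) = (n6 q.1 : ℂ) * fm (q.1 * b) := by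
  obtain ⟨a, m⟩ := q
  obtain ⟨ha, has, hm⟩ := hq
  simp only at ha has hm ⊢
  rw [isCoprime_cp] at hc
  obtain ⟨hc1, hc2⟩ := hc
  simp only at hc1 hc2
  have e1 : tauE (cp (a, m)) = (starRingEnd ℂ) (G a) * (n6 a : ℂ) := tauE_mul ha has hm
  have e2 : sy (cp (a, m)) b = sy a b := by
    have h1 : cp (a, m) = a * m ^ 3 := rfl
    rw [h1, Gauss880.syG.mul_left _ _ _ hb, show m ^ 3 = m * m * m by ring,
      Gauss880.syG.mul_left _ _ _ hb, Gauss880.syG.mul_left _ _ _ hb]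
    have h2 := Gauss880.syG.cube m b hb hc2
    rw [show sy m b * sy m b * sy m b = sy m b ^ 3 by ring, h2, mul_one]
  have e3 := Gauss880.G_mul_all Gauss880.syG ha hb
  have e4 := Gauss880.G_mul_conj Gauss880.syG ha has
  unfold Du fm
  rw [if_pos (squarefree_mul_of hc1 has hbs), n6_mul, e1, e2, e3, map_mul, Complex.conj_conj,
    Complex.conj_ofReal]
  push_cast
  linear_combination (-(pC : ℂ) * (n6 b : ℂ) * (n6 a : ℂ) ^ 2) * e4

/-- the terms of the pair sum -/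
def Pt (W : ℝ → ℝ) (b1 : Eis) (t : ℝ) (a : Eis) : ℂ :=
  ((n6 a * W (nm a * t) : ℝ) : ℂ) * fm (a * b1)

lemma norm_Pt_le {W : ℝ → ℝ} {K : ℝ} (h : WB W K) {b1 : Eis} (hb1 : IsPrim b1) {t : ℝ}
    (ht : 0 < t) {a : Eis} (ha : IsPrim a) :
    ‖Pt W b1 t a‖ ≤ (K * Kf * (1 / t) ^ 2) * (nm a : ℝ) ^ (-(2 : ℝ)) := by
  have h1 := norm_U_term_le h hb1 (Y := 1 / t) (by positivity) a
  rw [if_pos ha, show (nm a : ℝ) / (1 / t) = nm a * t by field_simp] at h1
  unfold Pt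
  rwa [mul_comm a b1]

open Classical in
lemma summable_V {W : ℝ → ℝ} {K : ℝ} (h : WB W K) {b1 : Eis} (hb1 : IsPrim b1) (b : Eis) {t : ℝ}
    (ht : 0 < t) : Summable fun a : Eis => if IsPrim a ∧ IsCoprime a b then Pt W b1 t a else 0 := by
  have hK := h.1
  have hKf := Kf_pos.le
  refine Summable.of_norm_bounded
    ((summable_nm (s := 2) (by norm_num)).mul_left (K * Kf * (1 / t) ^ 2)) fun a => ?_
  split_ifs with h1
  · exact norm_Pt_le h hb1 ht h1.1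
  · rw [norm_zero]; positivity

open Classical in
/-- the function of the pair `(a0, m)` -/
def gP (W : ℝ → ℝ) (A : ℝ) (S : Finset Eis) (β : Eis → ℂ) (q : Eis × Eis) : ℂ :=
  if q ∈ TP then ∑ b1 ∈ S, ∑ b2 ∈ S, (if IsCoprime q.2 b1 ∧ IsCoprime q.2 b2 then
    (β b1 * (starRingEnd ℂ) (β b2) * (n6 b2 : ℂ)) *
      (if IsCoprime q.1 b2 then Pt W b1 ((nm q.2 : ℝ) ^ 3 / A) q.1 else 0) else 0) else 0

open Classical in
lemma term_eq (W : ℝ → ℝ) (A : ℝ) {S : Finset Eis} (hS : ∀ b ∈ S, IsPrim b ∧ Squarefree b)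
    (β : Eis → ℂ) {q : Eis × Eis} (hq : q ∈ TP) :
    (W (nm (cp q) / A) : ℂ) * (Dd S β (cp q) * (starRingEnd ℂ) (tauE (cp q) * Ee S β (cp q)))
      = gP W A S β q := by
  have hW : (nm q.1 : ℝ) * ((nm q.2 : ℝ) ^ 3 / A) = nm (cp q) / A := by
    rw [nm_cp]; push_cast; ring
  unfold gP Dd Ee
  rw [if_pos hq, map_mul, map_sum, Finset.mul_sum, Finset.sum_mul_sum, Finset.mul_sum]
  refine Finset.sum_congr rfl fun b1 hb1 => ?_
  rw [Finset.mul_sum]
  refine Finset.sum_congr rfl fun b2 hb2 => ?_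
  obtain ⟨h1p, h1s⟩ := hS b1 hb1
  obtain ⟨h2p, h2s⟩ := hS b2 hb2
  unfold Pt
  rw [hW]
  by_cases c1 : IsCoprime (cp q) b1
  · rw [if_pos c1]
    have k1 := key_eq hq h1p h1s c1
    rw [isCoprime_cp] at c1
    by_cases c2 : IsCoprime (cp q) b2
    · rw [if_pos c2]
      rw [isCoprime_cp] at c2
      rw [if_pos ⟨c1.2, c2.2⟩, if_pos c2.1, map_mul, Complex.conj_ofReal]
      push_cast
      linear_combination ((W (nm (cp q) / A) : ℂ) * β b1 * (starRingEnd ℂ) (β b2) * (n6 b2 : ℂ)) * k1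
    · rw [if_neg c2, map_zero, mul_zero, mul_zero, mul_zero]
      by_cases c3 : IsCoprime q.2 b1 ∧ IsCoprime q.2 b2
      · have c5 : ¬ IsCoprime q.1 b2 := fun c4 => c2 (isCoprime_cp.mpr ⟨c4, c3.2⟩)
        rw [if_pos c3, if_neg c5, mul_zero]
      · rw [if_neg c3]
  · rw [if_neg c1, zero_mul, mul_zero]
    by_cases c3 : IsCoprime q.2 b1 ∧ IsCoprime q.2 b2
    · rw [if_pos c3]
      by_cases c4 : IsCoprime q.1 b2
      · rw [if_pos c4, fm_eq_zero (hq.1.mul h1p), mul_zero, mul_zero]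
        apply not_squarefree_mul hq.1.ne_zero
        intro c5
        exact c1 (isCoprime_cp.mpr ⟨c5, c3.1⟩)
      · rw [if_neg c4, mul_zero]
    · rw [if_neg c3]

open Classical in
lemma X6_eq_pairs (W : ℝ → ℝ) (A : ℝ) {S : Finset Eis} (hS : ∀ b ∈ S, IsPrim b ∧ Squarefree b)
    (β : Eis → ℂ) : X6 W A S β = ∑' q : Eis × Eis, gP W A S β q := by
  unfold X6
  rw [tsum_TP' (fun a : Eis => if IsPrim a then
    (W (nm a / A) : ℂ) * (Dd S β a * (starRingEnd ℂ) (tauE a * Ee S β a)) else 0)]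
  · refine tsum_congr fun q => ?_
    by_cases hq : q ∈ TP
    · rw [if_pos hq, if_pos (cp_isPrim hq)]
      exact term_eq W A hS β hq
    · rw [if_neg hq]
      unfold gP
      rw [if_neg hq]
  · intro a ha
    rw [tauE_eq_zero ha]
    simp

open Classical in
lemma norm_gP_le {W : ℝ → ℝ} {K : ℝ} (h : WB W K) {A : ℝ} (hA : 0 < A) {S : Finset Eis}
    (hS : ∀ b ∈ S, IsPrim b ∧ Squarefree b) {β : Eis → ℂ} {M : ℝ} (hM : ∀ b ∈ S, ‖β b‖ ≤ M)
    (hM0 : 0 ≤ M) (q : Eis × Eis) :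
    ‖gP W A S β q‖ ≤ ((#S : ℝ) ^ 2 * M ^ 2 * (K * Kf * A ^ 2)) *
      ((nm q.1 : ℝ) ^ (-(2 : ℝ)) * (nm q.2 : ℝ) ^ (-(2 : ℝ))) := by
  have hK := h.1
  have hKf := Kf_pos.le
  unfold gP
  split_ifs with hq
  · have hm0 : (1 : ℝ) ≤ nm q.2 := by exact_mod_cast nm_pos.mpr hq.2.2.ne_zero
    have ht : (0 : ℝ) < (nm q.2 : ℝ) ^ 3 / A := by positivity
    refine (norm_sum_le _ _).trans ?_
    have hb : ∀ b1 ∈ S, ‖∑ b2 ∈ S, (if IsCoprime q.2 b1 ∧ IsCoprime q.2 b2 then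
      (β b1 * (starRingEnd ℂ) (β b2) * (n6 b2 : ℂ)) *
      (if IsCoprime q.1 b2 then Pt W b1 ((nm q.2 : ℝ) ^ 3 / A) q.1 else 0) else 0)‖
        ≤ #S • (M ^ 2 * (K * Kf * A ^ 2) *
          ((nm q.1 : ℝ) ^ (-(2 : ℝ)) * (nm q.2 : ℝ) ^ (-(2 : ℝ)))) := by
      intro b1 hb1
      refine (norm_sum_le _ _).trans (Finset.sum_le_card_nsmul _ _ _ fun b2 hb2 => ?_)
      have hP := norm_Pt_le h (hS b1 hb1).1 ht hq.1
      have h3 : (1 / ((nm q.2 : ℝ) ^ 3 / A)) ^ 2 ≤ A ^ 2 * (nm q.2 : ℝ) ^ (-(2 : ℝ)) := by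
        rw [Real.rpow_neg (by positivity), show ((2 : ℝ)) = ((2 : ℕ) : ℝ) by norm_num,
          Real.rpow_natCast, one_div_div, div_pow, div_eq_mul_inv]
        gcongr
        nlinarith [pow_le_pow_right₀ hm0 (show 1 ≤ 3 by norm_num), pow_pos (show (0 : ℝ) < nm q.2 by linarith) 3]
      have h4 : ‖Pt W b1 ((nm q.2 : ℝ) ^ 3 / A) q.1‖ ≤ (K * Kf * A ^ 2) *
          ((nm q.1 : ℝ) ^ (-(2 : ℝ)) * (nm q.2 : ℝ) ^ (-(2 : ℝ))) := by
        refine hP.trans ?_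
        calc K * Kf * (1 / ((nm q.2 : ℝ) ^ 3 / A)) ^ 2 * (nm q.1 : ℝ) ^ (-(2 : ℝ))
            ≤ K * Kf * (A ^ 2 * (nm q.2 : ℝ) ^ (-(2 : ℝ))) * (nm q.1 : ℝ) ^ (-(2 : ℝ)) := by
              gcongr
          _ = _ := by ring
      split_ifs with c1 c2
      · rw [norm_mul, norm_mul, norm_mul, RCLike.norm_conj, Complex.norm_real, Real.norm_eq_abs,
          abs_of_nonneg (n6_nonneg b2)]
        calc ‖β b1‖ * ‖β b2‖ * n6 b2 * ‖Pt W b1 ((nm q.2 : ℝ) ^ 3 / A) q.1‖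
            ≤ M * M * 1 * ((K * Kf * A ^ 2) *
          ((nm q.1 : ℝ) ^ (-(2 : ℝ)) * (nm q.2 : ℝ) ^ (-(2 : ℝ)))) := by
              have := hM b1 hb1
              have := hM b2 hb2
              have := n6_le_one b2
              have := n6_nonneg b2
              gcongr
          _ = _ := by ring
      · rw [mul_zero, norm_zero]; positivity
      · rw [norm_zero]; positivity
    refine (Finset.sum_le_card_nsmul _ _ _ hb).trans (le_of_eq ?_)
    simp only [nsmul_eq_mul]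
    ring
  · rw [norm_zero]; positivity

lemma summable_gP {W : ℝ → ℝ} {K : ℝ} (h : WB W K) {A : ℝ} (hA : 0 < A) {S : Finset Eis}
    (hS : ∀ b ∈ S, IsPrim b ∧ Squarefree b) (β : Eis → ℂ) :
    Summable (fun q : Eis × Eis => gP W A S β q) := by
  obtain ⟨M, hM0, hM⟩ : ∃ M : ℝ, 0 ≤ M ∧ ∀ b ∈ S, ‖β b‖ ≤ M :=
    ⟨∑ b ∈ S, ‖β b‖, by positivity, fun b hb =>
      Finset.single_le_sum (f := fun b => ‖β b‖) (fun _ _ => norm_nonneg _) hb⟩
  have h2 := summable_nm (s := 2) (by norm_num)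
  refine Summable.of_norm_bounded ((h2.mul_of_nonneg h2 (fun _ => by positivity)
    (fun _ => by positivity)).mul_left _) (norm_gP_le h hA hS hM hM0)

open Classical in
/-- the inner sum for fixed `m` -/
def Im (W : ℝ → ℝ) (A : ℝ) (S : Finset Eis) (β : Eis → ℂ) (m : Eis) : ℂ :=
  ∑ b1 ∈ S, ∑ b2 ∈ S, (if IsCoprime m b1 ∧ IsCoprime m b2 then
    (β b1 * (starRingEnd ℂ) (β b2) * (n6 b2 : ℂ)) * V W b1 b2 ((nm m : ℝ) ^ 3 / A) else 0)

open Classical in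
lemma gP_eq {W : ℝ → ℝ} {A : ℝ} {S : Finset Eis} (hS : ∀ b ∈ S, IsPrim b ∧ Squarefree b)
    (β : Eis → ℂ) {m : Eis} (hm : IsPrim m) (a : Eis) :
    gP W A S β (a, m) = ∑ b1 ∈ S, ∑ b2 ∈ S, (if IsCoprime m b1 ∧ IsCoprime m b2 then
    (β b1 * (starRingEnd ℂ) (β b2) * (n6 b2 : ℂ)) *
      (if IsPrim a ∧ IsCoprime a b2 then Pt W b1 ((nm m : ℝ) ^ 3 / A) a else 0) else 0) := by
  unfold gP
  by_cases ha : IsPrim a
  · by_cases has : Squarefree a
    · rw [if_pos (show (a, m) ∈ TP from ⟨ha, has, hm⟩)]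
      simp only [ha, true_and]
    · rw [if_neg (fun h : (a, m) ∈ TP => has h.2.1)]
      symm
      refine Finset.sum_eq_zero fun b1 hb1 => Finset.sum_eq_zero fun b2 _ => ?_
      have : Pt W b1 ((nm m : ℝ) ^ 3 / A) a = 0 := by
        unfold Pt
        rw [fm_eq_zero (ha.mul (hS b1 hb1).1)
          (fun hs => has (hs.squarefree_of_dvd (Dvd.intro _ rfl))), mul_zero]
      rw [this]
      simp
  · rw [if_neg (fun h : (a, m) ∈ TP => ha h.1)]
    symm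
    refine Finset.sum_eq_zero fun b1 hb1 => Finset.sum_eq_zero fun b2 _ => ?_
    simp [ha]

open Classical in
theorem X6_eq {W : ℝ → ℝ} {K : ℝ} (h : WB W K) {A : ℝ} (hA : 0 < A) {S : Finset Eis}
    (hS : ∀ b ∈ S, IsPrim b ∧ Squarefree b) (β : Eis → ℂ) :
    X6 W A S β = ∑' m : Eis, if IsPrim m then Im W A S β m else 0 := by
  have hs := summable_gP h hA hS β
  have hs' : Summable (fun q : Eis × Eis => gP W A S β q.swap) :=
    (Equiv.prodComm Eis Eis).summable_iff.mpr hs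
  rw [X6_eq_pairs W A hS β, ← (Equiv.prodComm Eis Eis).tsum_eq]
  simp only [Equiv.prodComm_apply]
  rw [hs'.tsum_prod]
  refine tsum_congr fun m => ?_
  simp only [Prod.swap_prod_mk]
  by_cases hm : IsPrim m
  · rw [if_pos hm]
    have hm0 : (1 : ℝ) ≤ nm m := by exact_mod_cast nm_pos.mpr hm.ne_zero
    have ht : (0 : ℝ) < (nm m : ℝ) ^ 3 / A := by positivity
    rw [tsum_congr (gP_eq hS β hm)]
    have hsum : ∀ b1 ∈ S, ∀ b2 ∈ S, Summable fun a : Eis =>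
        (if IsCoprime m b1 ∧ IsCoprime m b2 then (β b1 * (starRingEnd ℂ) (β b2) * (n6 b2 : ℂ)) *
      (if IsPrim a ∧ IsCoprime a b2 then Pt W b1 ((nm m : ℝ) ^ 3 / A) a else 0) else 0) := by
      intro b1 hb1 b2 hb2
      by_cases hc : IsCoprime m b1 ∧ IsCoprime m b2
      · simp only [if_pos hc]
        exact (summable_V h (hS b1 hb1).1 b2 ht).mul_left _
      · simp only [if_neg hc]
        exact summable_zero
    rw [Summable.tsum_finsetSum (fun b1 hb1 => summable_sum (hsum b1 hb1))]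
    refine Finset.sum_congr rfl fun b1 hb1 => ?_
    rw [Summable.tsum_finsetSum (hsum b1 hb1)]
    refine Finset.sum_congr rfl fun b2 hb2 => ?_
    by_cases hc : IsCoprime m b1 ∧ IsCoprime m b2
    · simp only [if_pos hc]
      rw [tsum_mul_left]
      rfl
    · simp only [if_neg hc]
      rw [tsum_zero]
  · rw [if_neg hm]
    have : (fun a => gP W A S β (a, m)) = fun _ => 0 := by
      funext a
      unfold gP
      rw [if_neg (fun h : (a, m) ∈ TP => hm h.2.2)]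
    rw [this, tsum_zero]

end Crest.Agent.R012.Cross869
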