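import Crest.Agent.R012.CrossB_869

/-!
# Row 12 (T6): the cross term of the dispersion, part C (the bound)

* `TIW W` : `Σ_{r ∈ S(R)} ‖U W r Y‖² ≤ C R Y^(2/3) (RY)^ε` for all `R, Y ≥ 1`
  (Type I estimate with general level, from the metaplectic part).
* `norm_X6_le` : `‖X6‖ ≤ C M² B^(11/6) A^(1/3) (AB)^ε`.
-/

set_option autoImplicit false

noncomputable section

open Finset

namespace Crest.Agent.R012.Cross869

open Crest.Agent.R012 Crest.Agent.R012.Eis Crest.Agent.R012.Tau85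

/-- Type I estimate in mean square over the squarefree level. -/
def TIW (W : ℝ → ℝ) : Prop := ∀ ε : ℝ, 0 < ε → ∃ C : ℝ, 0 ≤ C ∧ ∀ R Y : ℝ, 1 ≤ R → 1 ≤ Y →
  ∑ r ∈ LS2.S R, ‖U W r Y‖ ^ 2 ≤ C * (R * Y ^ (2 / 3 : ℝ)) * (R * Y) ^ ε

lemma card_S_le {B : ℝ} (hB : 1 ≤ B) {S : Finset Eis} (hS : S ⊆ LS2.S B) :
    (#S : ℝ) ≤ 16 * B := by
  have h1 : #S ≤ #(ball ⌊B⌋₊) := by
    refine Finset.card_le_card (hS.trans ?_)
    intro x hx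
    rw [LS2.mem_S (by linarith)] at hx
    rw [mem_ball, Nat.le_floor_iff (by linarith)]
    exact hx.1
  have h2 : #(ball ⌊B⌋₊) ≤ 16 * ⌊B⌋₊ := LS448.card_ball_le (Nat.one_le_floor_iff B |>.mpr hB)
  have h3 : ((⌊B⌋₊ : ℕ) : ℝ) ≤ B := Nat.floor_le (by linarith)
  calc (#S : ℝ) ≤ ((16 * ⌊B⌋₊ : ℕ) : ℝ) := by exact_mod_cast h1.trans h2
    _ ≤ 16 * B := by push_cast; linarith

/-- `(A/n³)^κ = A^κ n^(-3κ)` -/
lemma rpow_t {A n κ : ℝ} (hA : 0 < A) (hn : 0 < n) :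
    (A / n ^ 3) ^ κ = A ^ κ * n ^ (-(3 * κ)) := by
  rw [Real.div_rpow hA.le (by positivity), ← Real.rpow_natCast n 3, ← Real.rpow_mul hn.le,
    Real.rpow_neg hn.le, div_eq_mul_inv]
  norm_num

lemma sum_sq_le (W : ℝ → ℝ) (Y : ℝ) {B : ℝ} (hB : 1 ≤ B) {S : Finset Eis} (hS : S ⊆ LS2.S B)
    {d : Eis} (hd : IsPrim d) :
    ∑ b ∈ S, ‖U W (d * b) Y‖ ^ 2 ≤ ∑ r ∈ LS2.S (B * nm d), ‖U W r Y‖ ^ 2 := by
  classical
  have hinj : Function.Injective (fun c : Eis => d * c) := mul_right_injective₀ hd.ne_zero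
  have h1 : ∑ b ∈ S, ‖U W (d * b) Y‖ ^ 2
      = ∑ b ∈ S.filter (fun b => Squarefree (d * b)), ‖U W (d * b) Y‖ ^ 2 := by
    rw [Finset.sum_filter]
    refine Finset.sum_congr rfl fun b hb => ?_
    split_ifs with hs
    · rfl
    · have hbp := ((LS2.mem_S (by linarith)).mp (hS hb)).2.1
      rw [U_eq_zero W (hd.mul hbp) hs]
      simp
  rw [h1, ← Finset.sum_image (f := fun r => ‖U W r Y‖ ^ 2) (g := fun b : Eis => d * b)
    (fun x _ y _ h => hinj h)]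
  refine Finset.sum_le_sum_of_subset_of_nonneg ?_ (fun _ _ _ => by positivity)
  intro r hr
  rw [Finset.mem_image] at hr
  obtain ⟨b, hb, rfl⟩ := hr
  rw [Finset.mem_filter] at hb
  have hb1 := (LS2.mem_S (by linarith)).mp (hS hb.1)
  have hd0 : (0 : ℝ) ≤ nm d := Nat.cast_nonneg _
  rw [LS2.mem_S (by positivity)]
  refine ⟨?_, hd.mul hb1.2.1, hb.2⟩
  rw [nm_mul]
  push_cast
  nlinarith [hb1.1]

theorem coreU {W : ℝ → ℝ} {K : ℝ} (h : WB W K) (hT : TIW W) {ε : ℝ} (hε : 0 < ε) {κ : ℝ}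
    (hκ1 : 1 / 3 ≤ κ) (hκ2 : κ ≤ 2) :
    ∃ C : ℝ, 0 ≤ C ∧ ∀ A B : ℝ, 1 ≤ A → 1 ≤ B → ∀ S : Finset Eis, S ⊆ LS2.S B →
      ∀ m d : Eis, IsPrim m → IsPrim d →
      n6 d * ∑ b ∈ S, ‖U W (d * b) (1 / ((nm m : ℝ) ^ 3 / A * nm d))‖
        ≤ C * (B * (A * B) ^ ε) * (A ^ κ * (nm m : ℝ) ^ (-(3 * κ))) := by
  obtain ⟨C1, hC1, hC⟩ := hT (2 * ε) (by linarith)
  have hK := h.1
  have hKf := Kf_pos.le
  have hZ := Z2_nonneg
  refine ⟨16 * (K * Kf * Z2) + 4 * Real.sqrt C1, by positivity, ?_⟩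
  intro A B hA hB S hS m d hm hd
  have hm0 : (1 : ℝ) ≤ nm m := by exact_mod_cast nm_pos.mpr hm.ne_zero
  have hd0 : (1 : ℝ) ≤ nm d := by exact_mod_cast nm_pos.mpr hd.ne_zero
  set n : ℝ := ((nm m : ℕ) : ℝ) with hn
  set D : ℝ := ((nm d : ℕ) : ℝ) with hD
  have hA0 : (0 : ℝ) < A := by linarith
  have hB0 : (0 : ℝ) < B := by linarith
  have hn0 : (0 : ℝ) < n := by linarith
  have hD0 : (0 : ℝ) < D := by linarith
  set Y : ℝ := 1 / (n ^ 3 / A * D) with hY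
  have hYpos : 0 < Y := by positivity
  have hYD : D * Y = A / n ^ 3 := by
    rw [hY]; field_simp
  have hAn : 0 < A / n ^ 3 := by positivity
  have hYle : Y ≤ A / n ^ 3 := by
    rw [← hYD]; nlinarith
  have hAB : 1 ≤ (A * B) ^ ε := Real.one_le_rpow (by nlinarith) hε.le
  have hcard := card_S_le hB hS
  have hprim : ∀ b ∈ S, IsPrim b := fun b hb => ((LS2.mem_S (by linarith)).mp (hS hb)).2.1
  rw [← rpow_t hA0 hn0]
  have hq : 0 < (A / n ^ 3) ^ κ := by positivity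
  rcases lt_or_ge Y 1 with hY1 | hY1
  · have h1 : ∑ b ∈ S, ‖U W (d * b) Y‖ ≤ #S • (K * Kf * Z2 * Y ^ 2) :=
      Finset.sum_le_card_nsmul _ _ _ fun b hb => norm_U_le h (hd.mul (hprim b hb)) hYpos
    have h2 : Y ^ 2 ≤ (A / n ^ 3) ^ κ := by
      calc Y ^ 2 = Y ^ (2 : ℝ) := by rw [show (2 : ℝ) = ((2 : ℕ) : ℝ) by norm_num, Real.rpow_natCast]
        _ ≤ Y ^ κ := Real.rpow_le_rpow_of_exponent_ge hYpos hY1.le hκ2
        _ ≤ _ := Real.rpow_le_rpow hYpos.le hYle (by linarith)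
    calc n6 d * ∑ b ∈ S, ‖U W (d * b) Y‖
        ≤ 1 * (#S • (K * Kf * Z2 * Y ^ 2)) := by
          have := n6_le_one d
          have := n6_nonneg d
          gcongr
      _ = (#S : ℝ) * (K * Kf * Z2 * Y ^ 2) := by rw [nsmul_eq_mul, one_mul]
      _ ≤ (16 * B) * (K * Kf * Z2 * (A / n ^ 3) ^ κ) := by gcongr
      _ = (16 * (K * Kf * Z2)) * (B * 1) * (A / n ^ 3) ^ κ := by ring
      _ ≤ (16 * (K * Kf * Z2) + 4 * Real.sqrt C1) * (B * (A * B) ^ ε) *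
          (A / n ^ 3) ^ κ := by
          gcongr
          have := Real.sqrt_nonneg C1
          linarith
  · have h1 : (∑ b ∈ S, ‖U W (d * b) Y‖) ^ 2 ≤ (16 * B) * (C1 * (B * D * Y ^ (2 / 3 : ℝ)) *
        (A * B) ^ (2 * ε)) := by
      refine (sq_sum_le_card_mul_sum_sq (s := S) (f := fun b => ‖U W (d * b) Y‖)).trans ?_
      have h2 := (sum_sq_le W Y hB hS hd).trans (hC (B * D) Y (by nlinarith) hY1)
      have h3 : (B * D * Y) ^ (2 * ε) ≤ (A * B) ^ (2 * ε) := by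
        refine Real.rpow_le_rpow (by positivity) ?_ (by linarith)
        rw [mul_assoc, hYD, mul_comm A B]
        refine mul_le_mul_of_nonneg_left (div_le_self hA0.le (one_le_pow₀ hm0)) hB0.le
      calc (#S : ℝ) * ∑ b ∈ S, ‖U W (d * b) Y‖ ^ 2
          ≤ (16 * B) * (C1 * (B * D * Y ^ (2 / 3 : ℝ)) * (B * D * Y) ^ (2 * ε)) := by
            gcongr
        _ ≤ _ := by gcongr
    have h4 : ∑ b ∈ S, ‖U W (d * b) Y‖
        ≤ 4 * Real.sqrt C1 * B * D ^ (1 / 2 : ℝ) * Y ^ (1 / 3 : ℝ) * (A * B) ^ ε := by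
      refine (sq_le_sq₀ (Finset.sum_nonneg fun _ _ => norm_nonneg _) (by positivity)).mp
        (h1.trans (le_of_eq ?_))
      have e1 : (D ^ (1 / 2 : ℝ)) ^ 2 = D := by
        rw [← Real.rpow_natCast, ← Real.rpow_mul hD0.le]; norm_num
      have e2 : (Y ^ (1 / 3 : ℝ)) ^ 2 = Y ^ (2 / 3 : ℝ) := by
        rw [← Real.rpow_natCast, ← Real.rpow_mul hYpos.le]; norm_num
      have e3 : ((A * B) ^ ε) ^ 2 = (A * B) ^ (2 * ε) := by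
        rw [← Real.rpow_natCast, ← Real.rpow_mul (by positivity)]; norm_num [mul_comm]
      have e4 : Real.sqrt C1 ^ 2 = C1 := Real.sq_sqrt hC1
      rw [mul_pow, mul_pow, mul_pow, mul_pow, mul_pow, e1, e2, e3, e4]
      ring
    have h5 : n6 d * (D ^ (1 / 2 : ℝ) * Y ^ (1 / 3 : ℝ)) ≤ (A / n ^ 3) ^ κ := by
      have e1 : n6 d * (D ^ (1 / 2 : ℝ) * Y ^ (1 / 3 : ℝ)) = (A / n ^ 3) ^ (1 / 3 : ℝ) := by
        rw [← hYD, Real.mul_rpow hD0.le hYpos.le]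
        unfold n6
        rw [← hD, ← mul_assoc, ← Real.rpow_add hD0]
        norm_num
      rw [e1]
      refine Real.rpow_le_rpow_of_exponent_le ?_ hκ1
      rw [← hYD]; nlinarith
    calc n6 d * ∑ b ∈ S, ‖U W (d * b) Y‖
        ≤ n6 d * (4 * Real.sqrt C1 * B * D ^ (1 / 2 : ℝ) * Y ^ (1 / 3 : ℝ) * (A * B) ^ ε) :=
          mul_le_mul_of_nonneg_left h4 (n6_nonneg d)
      _ = 4 * Real.sqrt C1 * (B * (A * B) ^ ε) * (n6 d * (D ^ (1 / 2 : ℝ) * Y ^ (1 / 3 : ℝ))) := by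
          ring
      _ ≤ 4 * Real.sqrt C1 * (B * (A * B) ^ ε) * (A / n ^ 3) ^ κ := by gcongr
      _ ≤ _ := by
          gcongr
          have : 0 ≤ K * Kf * Z2 := by positivity
          linarith

/-- `Σ_{b ≤ B} N(b)^(-1/6) τ(b) ≤ C B^(5/6+ε)` -/
lemma sum_n6_tau_le {ε : ℝ} (hε : 0 < ε) : ∃ C : ℝ, 0 ≤ C ∧ ∀ B : ℝ, 1 ≤ B → ∀ S : Finset Eis,
    S ⊆ LS2.S B → ∑ b ∈ S, n6 b * (Div277.tau b : ℝ) ≤ C * (B ^ (5 / 6 : ℝ) * B ^ ε) := by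
  obtain ⟨C1, hC1, h1⟩ := Div277.tau_le_rpow (ε := ε / 2) (by linarith)
  obtain ⟨C2, hC2, h2⟩ := LS448.LL_le (ε := ε / 2) (by linarith)
  refine ⟨C1 * C2, by positivity, ?_⟩
  intro B hB S hS
  have hB0 : 0 < B := by linarith
  have h3 : ∀ b ∈ S, n6 b * (Div277.tau b : ℝ) ≤
      (C1 * B ^ (ε / 2) * B ^ (5 / 6 : ℝ)) * (1 / (nm b : ℝ)) := by
    intro b hb
    have hb1 := (LS2.mem_S (by linarith)).mp (hS hb)
    have hb0 : (0 : ℝ) < nm b := by exact_mod_cast nm_pos.mpr hb1.2.1.ne_zero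
    have e1 : n6 b ≤ B ^ (5 / 6 : ℝ) * (1 / (nm b : ℝ)) := by
      unfold n6
      rw [show (-(1 / 6) : ℝ) = 5 / 6 + (-1) by norm_num, Real.rpow_add hb0, Real.rpow_neg_one,
        one_div]
      gcongr
      exact hb1.1
    have e2 : (Div277.tau b : ℝ) ≤ C1 * B ^ (ε / 2) := by
      refine (h1 b hb1.2.1.ne_zero).trans ?_
      gcongr
      exact hb1.1
    calc n6 b * (Div277.tau b : ℝ) ≤ (B ^ (5 / 6 : ℝ) * (1 / (nm b : ℝ))) * (C1 * B ^ (ε / 2)) := by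
          have := n6_nonneg b
          gcongr
      _ = _ := by ring
  have h4 : ∑ b ∈ S, (1 / (nm b : ℝ)) ≤ LS448.LL B := by
    unfold LS448.LL
    refine Finset.sum_le_sum_of_subset_of_nonneg ?_ (fun _ _ _ => by positivity)
    intro b hb
    have hb1 := (LS2.mem_S (by linarith)).mp (hS hb)
    rw [LS448.mem_nz]
    exact ⟨hb1.2.1.ne_zero, hb1.1⟩
  calc ∑ b ∈ S, n6 b * (Div277.tau b : ℝ)
      ≤ ∑ b ∈ S, (C1 * B ^ (ε / 2) * B ^ (5 / 6 : ℝ)) * (1 / (nm b : ℝ)) := Finset.sum_le_sum h3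
    _ = (C1 * B ^ (ε / 2) * B ^ (5 / 6 : ℝ)) * ∑ b ∈ S, (1 / (nm b : ℝ)) := by
        rw [Finset.mul_sum]
    _ ≤ (C1 * B ^ (ε / 2) * B ^ (5 / 6 : ℝ)) * (C2 * B ^ (ε / 2)) := by
        gcongr
        exact h4.trans (h2 B hB)
    _ = C1 * C2 * (B ^ (5 / 6 : ℝ) * (B ^ (ε / 2) * B ^ (ε / 2))) := by ring
    _ = _ := by rw [← Real.rpow_add hB0, add_halves]

lemma norm_V_le {W : ℝ → ℝ} {K : ℝ} (h : WB W K) {b1 b : Eis} (hb1 : IsPrim b1) (hb : IsPrim b)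
    {t : ℝ} (ht : 0 < t) :
    ‖V W b1 b t‖ ≤ ∑ d ∈ Div277.dvs b, n6 d * ‖U W (d * b1) (1 / (t * nm d))‖ := by
  rw [V_eq h hb1 hb ht]
  refine (norm_sum_le _ _).trans (Finset.sum_le_sum fun d _ => ?_)
  rw [norm_mul, norm_mul, Complex.norm_real, Real.norm_eq_abs, abs_of_nonneg (n6_nonneg d)]
  have := norm_muE_le d
  have h2 : 0 ≤ n6 d * ‖U W (d * b1) (1 / (t * nm d))‖ := mul_nonneg (n6_nonneg _) (norm_nonneg _)
  nlinarith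

open Classical in
/-- The bound for the inner sum. -/
theorem norm_Im_le {W : ℝ → ℝ} {K : ℝ} (h : WB W K) (hT : TIW W) {ε : ℝ} (hε : 0 < ε) {κ : ℝ}
    (hκ1 : 1 / 3 ≤ κ) (hκ2 : κ ≤ 2) :
    ∃ C : ℝ, 0 ≤ C ∧ ∀ A B : ℝ, 1 ≤ A → 1 ≤ B → ∀ S : Finset Eis, S ⊆ LS2.S B →
      ∀ (β : Eis → ℂ) (M : ℝ), 0 ≤ M → (∀ b ∈ S, ‖β b‖ ≤ M) → ∀ m : Eis, IsPrim m →
      ‖Im W A S β m‖ ≤ C * M ^ 2 * (B ^ (11 / 6 : ℝ) * A ^ κ) * (A * B) ^ ε *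
        (nm m : ℝ) ^ (-(3 * κ)) := by
  obtain ⟨C1, hC1, h1⟩ := coreU h hT (ε := ε / 2) (by linarith) hκ1 hκ2
  obtain ⟨C2, hC2, h2⟩ := sum_n6_tau_le (ε := ε / 2) (by linarith)
  refine ⟨C1 * C2, by positivity, ?_⟩
  intro A B hA hB S hS β M hM0 hM m hm
  have hm0 : (1 : ℝ) ≤ nm m := by exact_mod_cast nm_pos.mpr hm.ne_zero
  have hA0 : (0 : ℝ) < A := by linarith
  have hB0 : (0 : ℝ) < B := by linarith
  have ht : 0 < (nm m : ℝ) ^ 3 / A := by positivity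
  have hprim : ∀ b ∈ S, IsPrim b := fun b hb => ((LS2.mem_S (by linarith)).mp (hS hb)).2.1
  have s1 : ‖Im W A S β m‖ ≤ ∑ b1 ∈ S, ∑ b2 ∈ S, M ^ 2 * (n6 b2 *
      ‖V W b1 b2 ((nm m : ℝ) ^ 3 / A)‖) := by
    unfold Im
    refine (norm_sum_le _ _).trans (Finset.sum_le_sum fun b1 hb1 => ?_)
    refine (norm_sum_le _ _).trans (Finset.sum_le_sum fun b2 hb2 => ?_)
    split_ifs
    · rw [norm_mul, norm_mul, norm_mul, RCLike.norm_conj, Complex.norm_real, Real.norm_eq_abs,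
          abs_of_nonneg (n6_nonneg b2)]
      calc ‖β b1‖ * ‖β b2‖ * n6 b2 * ‖V W b1 b2 ((nm m : ℝ) ^ 3 / A)‖
          ≤ M * M * n6 b2 * ‖V W b1 b2 ((nm m : ℝ) ^ 3 / A)‖ := by
            have := hM b1 hb1
            have := hM b2 hb2
            have := n6_nonneg b2
            gcongr
        _ = _ := by ring
    · rw [norm_zero]
      have := n6_nonneg b2
      positivity
  refine s1.trans ?_
  rw [Finset.sum_comm]
  have s2 : ∀ b2 ∈ S, ∑ b1 ∈ S, M ^ 2 * (n6 b2 * ‖V W b1 b2 ((nm m : ℝ) ^ 3 / A)‖)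
      ≤ (M ^ 2 * (C1 * (B * (A * B) ^ (ε / 2)) * (A ^ κ *
          (nm m : ℝ) ^ (-(3 * κ))))) * (n6 b2 * (Div277.tau b2 : ℝ)) := by
    intro b2 hb2
    have s3 : ∑ b1 ∈ S, ‖V W b1 b2 ((nm m : ℝ) ^ 3 / A)‖ ≤
        (Div277.tau b2 : ℝ) * (C1 * (B * (A * B) ^ (ε / 2)) * (A ^ κ *
          (nm m : ℝ) ^ (-(3 * κ)))) := by
      calc ∑ b1 ∈ S, ‖V W b1 b2 ((nm m : ℝ) ^ 3 / A)‖
          ≤ ∑ b1 ∈ S, ∑ d ∈ Div277.dvs b2, n6 d *
            ‖U W (d * b1) (1 / ((nm m : ℝ) ^ 3 / A * nm d))‖ :=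
            Finset.sum_le_sum fun b1 hb1 => norm_V_le h (hprim b1 hb1) (hprim b2 hb2) ht
        _ = ∑ d ∈ Div277.dvs b2, n6 d * ∑ b1 ∈ S,
            ‖U W (d * b1) (1 / ((nm m : ℝ) ^ 3 / A * nm d))‖ := by
            rw [Finset.sum_comm]
            refine Finset.sum_congr rfl fun d _ => ?_
            rw [Finset.mul_sum]
        _ ≤ #(Div277.dvs b2) • (C1 * (B * (A * B) ^ (ε / 2)) * (A ^ κ *
          (nm m : ℝ) ^ (-(3 * κ)))) :=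
            Finset.sum_le_card_nsmul _ _ _ fun d hd =>
              h1 A B hA hB S hS m d hm (Div277.isPrim_of_mem_dvs hd)
        _ = _ := by rw [nsmul_eq_mul]; rfl
    rw [← Finset.mul_sum, ← Finset.mul_sum]
    calc M ^ 2 * (n6 b2 * ∑ b1 ∈ S, ‖V W b1 b2 ((nm m : ℝ) ^ 3 / A)‖)
        ≤ M ^ 2 * (n6 b2 * ((Div277.tau b2 : ℝ) * (C1 * (B * (A * B) ^ (ε / 2)) *
          (A ^ κ * (nm m : ℝ) ^ (-(3 * κ)))))) := by
          have := n6_nonneg b2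
          gcongr
      _ = _ := by ring
  refine (Finset.sum_le_sum s2).trans ?_
  rw [← Finset.mul_sum]
  have hBε : B ^ (ε / 2) ≤ (A * B) ^ (ε / 2) :=
    Real.rpow_le_rpow hB0.le (by nlinarith) (by linarith)
  calc M ^ 2 * (C1 * (B * (A * B) ^ (ε / 2)) * (A ^ κ *
          (nm m : ℝ) ^ (-(3 * κ)))) * ∑ b2 ∈ S, (n6 b2 * (Div277.tau b2 : ℝ))
      ≤ M ^ 2 * (C1 * (B * (A * B) ^ (ε / 2)) * (A ^ κ *
          (nm m : ℝ) ^ (-(3 * κ)))) * (C2 * (B ^ (5 / 6 : ℝ) * (A * B) ^ (ε / 2))) := by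
        gcongr
        refine (h2 B hB S hS).trans ?_
        gcongr
    _ = C1 * C2 * M ^ 2 * ((B * B ^ (5 / 6 : ℝ)) * A ^ κ) *
        ((A * B) ^ (ε / 2) * (A * B) ^ (ε / 2)) * (nm m : ℝ) ^ (-(3 * κ)) := by ring
    _ = _ := by
        have e1 : B * B ^ (5 / 6 : ℝ) = B ^ (11 / 6 : ℝ) := by
          rw [show (11 / 6 : ℝ) = 1 + 5 / 6 by norm_num, Real.rpow_add hB0, Real.rpow_one]
        rw [e1, ← Real.rpow_add (by positivity : 0 < A * B), add_halves]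

/-- **T6**: the cross term. -/
theorem norm_X6_le {W : ℝ → ℝ} {K : ℝ} (h : WB W K) (hT : TIW W) {ε : ℝ} (hε : 0 < ε) :
    ∃ C : ℝ, 0 ≤ C ∧ ∀ A B : ℝ, 1 ≤ A → 1 ≤ B → ∀ S : Finset Eis, S ⊆ LS2.S B →
      ∀ (β : Eis → ℂ) (M : ℝ), 0 ≤ M → (∀ b ∈ S, ‖β b‖ ≤ M) →
      ‖X6 W A S β‖ ≤ C * M ^ 2 * (B ^ (11 / 6 : ℝ) * A ^ (1 / 3 : ℝ)) * (A * B) ^ ε := by
  classical
  obtain ⟨δ, hδ0, hδ1, hδ2⟩ : ∃ δ : ℝ, 0 < δ ∧ δ ≤ 1 ∧ δ ≤ ε / 2 :=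
    ⟨min 1 (ε / 2), by positivity, min_le_left _ _, min_le_right _ _⟩
  obtain ⟨C1, hC1, h1⟩ := norm_Im_le h hT (ε := ε / 2) (by linarith) (κ := 1 / 3 + δ)
    (by linarith) (by linarith)
  have hsum := summable_nm (s := 3 * (1 / 3 + δ)) (by linarith)
  refine ⟨C1 * ∑' m : Eis, (nm m : ℝ) ^ (-(3 * (1 / 3 + δ))),
    mul_nonneg hC1 (tsum_nonneg fun _ => by positivity), ?_⟩
  intro A B hA hB S hS β M hM0 hM
  have hS' : ∀ b ∈ S, IsPrim b ∧ Squarefree b := fun b hb =>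
    ((LS2.mem_S (by linarith)).mp (hS hb)).2
  have hA0 : (0 : ℝ) < A := by linarith
  have hB0 : (0 : ℝ) < B := by linarith
  rw [X6_eq h hA0 hS' β]
  have h2 := hsum.hasSum.mul_left (C1 * M ^ 2 * (B ^ (11 / 6 : ℝ) * A ^ (1 / 3 + δ)) *
    (A * B) ^ (ε / 2))
  have h3 : ‖∑' m : Eis, if IsPrim m then Im W A S β m else 0‖ ≤
      (C1 * M ^ 2 * (B ^ (11 / 6 : ℝ) * A ^ (1 / 3 + δ)) * (A * B) ^ (ε / 2)) *
        ∑' m : Eis, (nm m : ℝ) ^ (-(3 * (1 / 3 + δ))) := by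
    refine tsum_of_norm_bounded h2 fun m => ?_
    split_ifs with hm
    · exact h1 A B hA hB S hS β M hM0 hM m hm
    · rw [norm_zero]
      positivity
  refine h3.trans ?_
  have e1 : A ^ (1 / 3 + δ) * (A * B) ^ (ε / 2) ≤ A ^ (1 / 3 : ℝ) * (A * B) ^ ε := by
    rw [Real.rpow_add hA0, mul_assoc]
    gcongr
    calc A ^ δ * (A * B) ^ (ε / 2) ≤ (A * B) ^ (ε / 2) * (A * B) ^ (ε / 2) := by
          gcongr
          calc A ^ δ ≤ (A * B) ^ δ := by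
                refine Real.rpow_le_rpow hA0.le ?_ hδ0.le
                nlinarith
            _ ≤ (A * B) ^ (ε / 2) := Real.rpow_le_rpow_of_exponent_le (by nlinarith) hδ2
      _ = (A * B) ^ ε := by rw [← Real.rpow_add (by positivity), add_halves]
  have hZ : 0 ≤ ∑' m : Eis, (nm m : ℝ) ^ (-(3 * (1 / 3 + δ))) := tsum_nonneg fun _ => by positivity
  calc (C1 * M ^ 2 * (B ^ (11 / 6 : ℝ) * A ^ (1 / 3 + δ)) * (A * B) ^ (ε / 2)) *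
        ∑' m : Eis, (nm m : ℝ) ^ (-(3 * (1 / 3 + δ)))
      = (C1 * ∑' m : Eis, (nm m : ℝ) ^ (-(3 * (1 / 3 + δ)))) * M ^ 2 * B ^ (11 / 6 : ℝ) *
        (A ^ (1 / 3 + δ) * (A * B) ^ (ε / 2)) := by ring
    _ ≤ (C1 * ∑' m : Eis, (nm m : ℝ) ^ (-(3 * (1 / 3 + δ)))) * M ^ 2 * B ^ (11 / 6 : ℝ) *
        (A ^ (1 / 3 : ℝ) * (A * B) ^ ε) := by gcongr
    _ = _ := by ring

end Crest.Agent.R012.Cross869
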