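import Crest.Agent.R012.CrossC_869
import Crest.Agent.R012.Spec_T_411

/-!
# Row 12 (T6): the cross term of the dispersion, part D (form of `Spec_T_411`)

* `pairSum_eq` : `Σ_{b₁,b₂} β₁ conj β₂ N(b₂)^(-1/6) P23 A b₁ b₂ = X6 exp(-·) A 𝓑 β`
  `= Σ_a [a primary] exp(-N(a)/A) D(a) conj (τ(a) E(a))`  (for `T0`).
* `t6_of_tif : T411.TIf → T411.T6`.
-/

set_option autoImplicit false

noncomputable section

open Finset

namespace Crest.Agent.R012.Cross869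

open Crest.Agent.R012 Crest.Agent.R012.Eis Crest.Agent.R012.Tau85

lemma fm_eq_F (n : Eis) : fm n = T411.F n := by
  classical
  unfold fm T411.F T411.mdl n6
  by_cases h : Squarefree n
  · rw [if_pos h, if_pos h]
  · rw [if_neg h, if_neg h]; simp

/-- the weight `exp(-x)` -/
def We (x : ℝ) : ℝ := Real.exp (-x)

lemma wb_We : WB We 4 := by
  refine ⟨by norm_num, fun x hx => ?_⟩
  unfold We
  rw [abs_of_pos (Real.exp_pos _)]
  have h1 : x / 2 + 1 ≤ Real.exp (x / 2) := Real.add_one_le_exp _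
  have h2 : Real.exp (-x) * (Real.exp (x / 2) * Real.exp (x / 2)) = 1 := by
    rw [← Real.exp_add, ← Real.exp_add, ← Real.exp_zero]; congr 1; ring
  have h3 : x ^ 2 ≤ 4 * (Real.exp (x / 2) * Real.exp (x / 2)) := by nlinarith
  have h4 := Real.exp_pos (-x)
  nlinarith

/-- The pair sum of `T411.T6` is the cross term. -/
theorem pairSum_eq {A : ℝ} (hA : 0 < A) {𝓑 : Finset Eis}
    (hS : ∀ b ∈ 𝓑, IsPrim b ∧ Squarefree b) (β : Eis → ℂ) :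
    ∑ b₁ ∈ 𝓑, ∑ b₂ ∈ 𝓑, β b₁ * (starRingEnd ℂ) (β b₂) * ((nm b₂ : ℝ) ^ (-(1 : ℝ) / 6) : ℝ) *
      T411.P23 A b₁ b₂ = X6 We A 𝓑 β := by
  classical
  have hterm : ∀ b₁ b₂ : Eis, ∀ q : Eis × Eis,
      (if T411.SqP q.1 ∧ IsPrim q.2 ∧ IsCoprime q.2 (b₁ * b₂) ∧ IsCoprime q.1 b₂ then
      ((Real.exp (-((nm q.1 : ℝ) * (nm q.2 : ℝ) ^ 3) / A) * (nm q.1 : ℝ) ^ (-(1 : ℝ) / 6) : ℝ) : ℂ) *
        T411.F (q.1 * b₁) else 0)
      = (if q ∈ TP then (if IsCoprime q.2 b₁ ∧ IsCoprime q.2 b₂ then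
        (if IsCoprime q.1 b₂ then Pt We b₁ ((nm q.2 : ℝ) ^ 3 / A) q.1 else 0) else 0) else 0) := by
    intro b₁ b₂ q
    have hP : Pt We b₁ ((nm q.2 : ℝ) ^ 3 / A) q.1 =
        ((Real.exp (-((nm q.1 : ℝ) * (nm q.2 : ℝ) ^ 3) / A) * (nm q.1 : ℝ) ^ (-(1 : ℝ) / 6) : ℝ) : ℂ) *
        T411.F (q.1 * b₁) := by
      unfold Pt We n6
      rw [fm_eq_F]
      congr 2
      rw [mul_comm, show -((nm q.1 : ℝ) * ((nm q.2 : ℝ) ^ 3 / A))
        = -((nm q.1 : ℝ) * (nm q.2 : ℝ) ^ 3) / A by ring, neg_div 6 (1 : ℝ)]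
    rw [← hP]
    by_cases h1 : q ∈ TP
    · rw [if_pos h1]
      have h2 : T411.SqP q.1 := ⟨h1.1, h1.2.1⟩
      have h3 : IsPrim q.2 := h1.2.2
      by_cases h4 : IsCoprime q.2 b₁ ∧ IsCoprime q.2 b₂
      · rw [if_pos h4]
        by_cases h5 : IsCoprime q.1 b₂
        · rw [if_pos h5, if_pos ⟨h2, h3, IsCoprime.mul_right h4.1 h4.2, h5⟩]
        · rw [if_neg h5, if_neg]
          rintro ⟨_, _, _, h6⟩
          exact h5 h6
      · rw [if_neg h4, if_neg]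
        rintro ⟨_, _, h6, _⟩
        exact h4 (IsCoprime.mul_right_iff.mp h6)
    · rw [if_neg h1, if_neg]
      rintro ⟨h2, h3, _, _⟩
      exact h1 ⟨h2.1, h2.2, h3⟩
  rw [X6_eq_pairs We A hS β]
  have hK := wb_We
  have h2 := summable_nm (s := 2) (by norm_num)
  have hsum : ∀ b₁ ∈ 𝓑, ∀ b₂ : Eis, Summable fun q : Eis × Eis =>
      (if q ∈ TP then (if IsCoprime q.2 b₁ ∧ IsCoprime q.2 b₂ then
        (if IsCoprime q.1 b₂ then Pt We b₁ ((nm q.2 : ℝ) ^ 3 / A) q.1 else 0) else 0) else 0) := by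
    intro b₁ hb₁ b₂
    refine Summable.of_norm_bounded ((h2.mul_of_nonneg h2 (fun _ => by positivity)
      (fun _ => by positivity)).mul_left (4 * Kf * A ^ 2)) fun q => ?_
    have hKf := Kf_pos.le
    split_ifs with hq h3 h4
    · have hm0 : (1 : ℝ) ≤ nm q.2 := by exact_mod_cast nm_pos.mpr hq.2.2.ne_zero
      have ht : (0 : ℝ) < (nm q.2 : ℝ) ^ 3 / A := by positivity
      refine (norm_Pt_le hK (hS b₁ hb₁).1 ht hq.1).trans ?_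
      have h3 : (1 / ((nm q.2 : ℝ) ^ 3 / A)) ^ 2 ≤ A ^ 2 * (nm q.2 : ℝ) ^ (-(2 : ℝ)) := by
        rw [Real.rpow_neg (by positivity), show ((2 : ℝ)) = ((2 : ℕ) : ℝ) by norm_num,
          Real.rpow_natCast, one_div_div, div_pow, div_eq_mul_inv]
        gcongr
        nlinarith [pow_le_pow_right₀ hm0 (show 1 ≤ 3 by norm_num),
          pow_pos (show (0 : ℝ) < nm q.2 by linarith) 3]
      calc 4 * Kf * (1 / ((nm q.2 : ℝ) ^ 3 / A)) ^ 2 * (nm q.1 : ℝ) ^ (-(2 : ℝ))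
          ≤ 4 * Kf * (A ^ 2 * (nm q.2 : ℝ) ^ (-(2 : ℝ))) * (nm q.1 : ℝ) ^ (-(2 : ℝ)) := by
            gcongr
        _ = _ := by ring
    all_goals rw [norm_zero]; positivity
  have h3 : ∀ b₁ ∈ 𝓑, ∀ b₂ ∈ 𝓑, β b₁ * (starRingEnd ℂ) (β b₂) *
      ((nm b₂ : ℝ) ^ (-(1 : ℝ) / 6) : ℝ) * T411.P23 A b₁ b₂ = ∑' q : Eis × Eis,
      (β b₁ * (starRingEnd ℂ) (β b₂) * (n6 b₂ : ℂ)) *
      (if q ∈ TP then (if IsCoprime q.2 b₁ ∧ IsCoprime q.2 b₂ then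
        (if IsCoprime q.1 b₂ then Pt We b₁ ((nm q.2 : ℝ) ^ 3 / A) q.1 else 0) else 0) else 0) := by
    intro b₁ _ b₂ _
    rw [tsum_mul_left]
    unfold T411.P23
    rw [tsum_congr (hterm b₁ b₂)]
    unfold n6
    rw [neg_div 6 (1 : ℝ)]
  rw [Finset.sum_congr rfl fun b₁ hb₁ => Finset.sum_congr rfl fun b₂ hb₂ => h3 b₁ hb₁ b₂ hb₂]
  rw [Finset.sum_congr rfl fun b₁ hb₁ => (Summable.tsum_finsetSum fun b₂ _ =>
    (hsum b₁ hb₁ b₂).mul_left _).symm]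
  rw [(Summable.tsum_finsetSum fun b₁ hb₁ => summable_sum fun b₂ _ =>
    (hsum b₁ hb₁ b₂).mul_left _).symm]
  refine tsum_congr fun q => ?_
  unfold gP
  by_cases hq : q ∈ TP
  · rw [if_pos hq]
    refine Finset.sum_congr rfl fun b₁ _ => Finset.sum_congr rfl fun b₂ _ => ?_
    rw [if_pos hq]
    split_ifs <;> simp
  · rw [if_neg hq]
    refine Finset.sum_eq_zero fun b₁ _ => Finset.sum_eq_zero fun b₂ _ => ?_
    rw [if_neg hq, mul_zero]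

lemma tiw_of_tif (h : T411.TIf) : TIW We := by
  classical
  intro ε hε
  obtain ⟨C, hC, h1⟩ := h ε hε
  refine ⟨C, hC.le, ?_⟩
  intro R Y hR hY
  have hY0 : 0 < Y := by linarith
  have hR0 : 0 < R := by linarith
  have h2 : ∀ r : Eis, U We r Y = ((Y ^ (-(1 / 6) : ℝ) : ℝ) : ℂ) * ∑' c : Eis, if IsPrim c then
    ((((nm c : ℝ) / Y) ^ (-(1 : ℝ) / 6) * Real.exp (-(nm c : ℝ) / Y) : ℝ) : ℂ) * T411.F (r * c)
      else 0 := by
    intro r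
    unfold U
    rw [← tsum_mul_left]
    refine tsum_congr fun c => ?_
    split_ifs with hc
    · rw [fm_eq_F, ← mul_assoc, ← Complex.ofReal_mul]
      congr 2
      unfold n6 We
      rw [Real.div_rpow (Nat.cast_nonneg _) hY0.le, neg_div 6 (1 : ℝ), neg_div]
      field_simp
    · rw [mul_zero]
  have h3 : ∑ r ∈ LS2.S R, ‖U We r Y‖ ^ 2 = (Y ^ (-(1 / 6) : ℝ)) ^ 2 *
      ∑ r ∈ LS2.S R, ‖∑' c : Eis, if IsPrim c then
    ((((nm c : ℝ) / Y) ^ (-(1 : ℝ) / 6) * Real.exp (-(nm c : ℝ) / Y) : ℝ) : ℂ) * T411.F (r * c)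
      else 0‖ ^ 2 := by
    rw [Finset.mul_sum]
    refine Finset.sum_congr rfl fun r _ => ?_
    rw [h2, norm_mul, Complex.norm_real, Real.norm_eq_abs, abs_of_nonneg (by positivity), mul_pow]
  rw [h3]
  have e1 : (Y ^ (-(1 / 6) : ℝ)) ^ 2 = Y ^ (-(1 / 3) : ℝ) := by
    rw [← Real.rpow_natCast, ← Real.rpow_mul hY0.le]; norm_num
  rw [e1]
  calc Y ^ (-(1 / 3) : ℝ) * ∑ r ∈ LS2.S R, ‖∑' c : Eis, if IsPrim c then
    ((((nm c : ℝ) / Y) ^ (-(1 : ℝ) / 6) * Real.exp (-(nm c : ℝ) / Y) : ℝ) : ℂ) * T411.F (r * c)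
      else 0‖ ^ 2
      ≤ Y ^ (-(1 / 3) : ℝ) * (C * (R * Y) ^ (1 + ε)) := by
        gcongr
        exact h1 R Y hR hY
    _ = C * (R * (Y ^ (-(1 / 3) : ℝ) * Y)) * (R * Y) ^ ε := by
        rw [Real.rpow_add (by positivity), Real.rpow_one]; ring
    _ = _ := by
        have e2 : Y ^ (-(1 / 3) : ℝ) * Y = Y ^ (2 / 3 : ℝ) := by
          nth_rw 2 [← Real.rpow_one Y]
          rw [← Real.rpow_add hY0]; norm_num
        rw [e2]

/-- **(T6)** from the type I estimate. -/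
theorem t6_of_tif (h : T411.TIf) : T411.T6 := by
  classical
  intro ε hε
  obtain ⟨C, hC, h1⟩ := norm_X6_le wb_We (tiw_of_tif h) hε
  refine ⟨C * (2 ^ (11 / 6 : ℝ) * 2 ^ ε) + 1, by positivity, ?_⟩
  intro A B 𝓑 β hA hB hcls
  have hA0 : (0 : ℝ) < A := by linarith
  have hB0 : (0 : ℝ) < B := by linarith
  have hS : ∀ b ∈ 𝓑, IsPrim b ∧ Squarefree b := fun b hb => hcls.sq b hb
  have hsub : 𝓑 ⊆ LS2.S (2 * B) := by
    intro b hb
    rw [LS2.mem_S (by linarith)]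
    exact ⟨hcls.hi b hb, hS b hb⟩
  rw [pairSum_eq hA0 hS β]
  refine (h1 A (2 * B) hA (by linarith) 𝓑 hsub β 1 zero_le_one fun b _ => hcls.le b).trans ?_
  have e1 : (2 * B) ^ (11 / 6 : ℝ) = 2 ^ (11 / 6 : ℝ) * B ^ (11 / 6 : ℝ) :=
    Real.mul_rpow (by norm_num) hB0.le
  have e2 : (A * (2 * B)) ^ ε = 2 ^ ε * (A * B) ^ ε := by
    rw [← Real.mul_rpow (by norm_num) (by positivity)]; congr 1; ring
  rw [e1, e2]
  have e3 : 0 ≤ (A * B) ^ ε * A ^ ((1 : ℝ) / 3) * B ^ ((11 : ℝ) / 6) := by positivity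
  calc C * 1 ^ 2 * (2 ^ (11 / 6 : ℝ) * B ^ (11 / 6 : ℝ) * A ^ (1 / 3 : ℝ)) * (2 ^ ε * (A * B) ^ ε)
      = (C * (2 ^ (11 / 6 : ℝ) * 2 ^ ε)) *
        ((A * B) ^ ε * A ^ ((1 : ℝ) / 3) * B ^ ((11 : ℝ) / 6)) := by ring
    _ ≤ (C * (2 ^ (11 / 6 : ℝ) * 2 ^ ε) + 1) *
        ((A * B) ^ ε * A ^ ((1 : ℝ) / 3) * B ^ ((11 : ℝ) / 6)) := by nlinarith
    _ = _ := by ring

end Crest.Agent.R012.Cross869
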