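import Crest.Agent.R012.CstDefs_566
import Crest.Agent.R012.PoissonS_581
import Crest.Agent.R012.Sym4_645

/-!
# Row 12, item MC1 (1): the exact dual identity for the first moment

For `b` primary and `f` Schwartz on `ℂ`,
`Σ_{a primary} f(a) g(a,b) = (2/(9√3)) Σ_h (h/b) e(h/(3√-3)) f̂(h/(3√-3 b))` (`first_moment`).
-/

set_option autoImplicit false

noncomputable section

open MeasureTheory Complex Set Filter Topology
open scoped ContDiff SchwartzMap FourierTransform

namespace Crest.Agent.R012.MC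

open Crest.Agent.R012 Crest.Agent.R012.Eis

/-! ### finite sums -/

lemma isPrim_add_three {a t : Eis} : IsPrim (a + 3 * t) ↔ IsPrim a := by
  unfold IsPrim
  have h : a + 3 * t - 1 = (a - 1) + 3 * t := by ring
  rw [h]
  exact (dvd_add_left (dvd_mul_right 3 t))

lemma gs_congr {b r s : Eis} (h : b ∣ r - s) : gs r b = gs s b := by
  unfold gs
  exact sumMod_congr fun x => by rw [eC_congr_left h]

lemma sumMod_single {c : Eis} (hc : c ≠ 0) {f : Eis → ℂ} (hf : PMod c f) (a : Eis)
    (h : ∀ x, ¬ c ∣ x - a → f x = 0) : sumMod c f = f a := by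
  rw [sumMod_eq_sum (isCRS_crs hc) hf]
  obtain ⟨s, ⟨hs, hd⟩, huniq⟩ := isCRS_crs hc a
  rw [Finset.sum_eq_single s]
  · exact (hf.congr hd).symm
  · intro t ht hts
    apply h
    intro hdt
    apply hts
    apply huniq
    refine ⟨ht, ?_⟩
    rw [← neg_sub]
    exact (dvd_neg).mpr hdt
  · intro h'
    exact absurd hs h'

lemma prim_nm {b : Eis} (hb : IsPrim b) : nm b % 3 = 1 := hb.nm_mod

lemma pmod_sy {b : Eis} (hb : IsPrim b) : PMod b (fun x => sy x b) := by
  intro x t
  exact Sym645.sy_congr (prim_nm hb) ⟨t, by ring⟩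

open Classical in
/-- `a ↦ 1_{a primary} g(a, b)`. -/
def chiB (b a : Eis) : ℂ := if IsPrim a then gs a b else 0

lemma pmod_chiB (b : Eis) : PMod (3 * b) (chiB b) := by
  intro x t
  unfold chiB
  have h1 : IsPrim (x + 3 * b * t) ↔ IsPrim x := by
    rw [mul_assoc]; exact isPrim_add_three
  have h2 : gs (x + 3 * b * t) b = gs x b := gs_congr ⟨3 * t, by ring⟩
  by_cases h : IsPrim x
  · rw [if_pos h, if_pos (h1.mpr h), h2]
  · rw [if_neg h, if_neg (fun h' => h (h1.mp h'))]

lemma toC_sq3 : toC sq3 = Po581.iS3 := Po581.toC_sq3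

lemma sq3_cube : sq3 ^ 3 = -(3 * sq3) := by
  have : sq3 ^ 3 = sq3 ^ 2 * sq3 := by ring
  rw [this, sq3_sq]; ring

lemma isCoprime_sq3 {b : Eis} (hb : IsPrim b) : IsCoprime sq3 b :=
  (hb.isCoprime_lam.of_isCoprime_of_dvd_right associated_lam_sq3.symm.dvd).symm

lemma sy_sq3_cube {b : Eis} (hb : IsPrim b) (x : Eis) : sy (sq3 ^ 3 * x) b = sy x b := by
  rw [Sym645.sy_mul_left (prim_nm hb), Sym645.sy_pow_left (prim_nm hb),
    Sym645.sy_cube (prim_nm hb) (isCoprime_sq3 hb), one_mul]

/-- The inner sum. -/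
lemma sum_sy_indicator {b : Eis} (hb : IsPrim b) (k : Eis) :
    open Classical in
    sumMod b (fun x => sy x b * (if b ∣ 3 * sq3 * x + k then (nm b : ℂ) else 0)) =
      nm b * sy k b := by
  classical
  have hb0 := hb.ne_zero
  set f : Eis → ℂ := fun x => sy x b * (if b ∣ k - x then (nm b : ℂ) else 0) with hf
  have hfp : PMod b f := by
    intro x t
    have h1 : sy (x + b * t) b = sy x b := pmod_sy hb x t
    have h2 : b ∣ k - (x + b * t) ↔ b ∣ k - x := by
      have e : k - (x + b * t) = (k - x) - b * t := by ring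
      rw [e]
      exact dvd_sub_left (dvd_mul_right b t)
    simp only [hf, h1, h2]
  have h1 : sumMod b (fun x => sy x b * (if b ∣ 3 * sq3 * x + k then (nm b : ℂ) else 0)) =
      sumMod b (fun x => f (sq3 ^ 3 * x)) := by
    refine sumMod_congr fun x => ?_
    simp only [hf]
    rw [sy_sq3_cube hb]
    have e : k - sq3 ^ 3 * x = 3 * sq3 * x + k := by rw [sq3_cube]; ring
    rw [e]
  rw [h1, sumMod_mul_coprime hb0 hfp ((isCoprime_sq3 hb).pow_left),
    sumMod_single hb0 hfp k]
  · simp only [hf, sub_self, dvd_zero, if_true]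
    ring
  · intro x hx
    have : ¬ b ∣ k - x := fun h => hx (by rw [← neg_sub]; exact (dvd_neg).mpr h)
    simp only [hf, if_neg this, mul_zero]

lemma sum_gs_eC {b : Eis} (hb : IsPrim b) (k : Eis) :
    sumMod b (fun z => gs (3 * (sq3 * z)) b * eC (toC k * toC z / toC b)) = nm b * sy k b := by
  classical
  have hb0 := hb.ne_zero
  have hbC := toC_ne_zero hb0
  rw [← sum_sy_indicator hb k]
  have h1 : ∀ z : Eis, gs (3 * (sq3 * z)) b * eC (toC k * toC z / toC b) =
      ∑ x ∈ crs b, sy x b * eC (toC (3 * sq3 * x + k) * toC z / toC b) := by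
    intro z
    unfold gs
    have hp : PMod b (fun x => sy x b * eC (toC (3 * (sq3 * z)) * toC x / toC b)) :=
      (pmod_sy hb).mul (pmod_eC _ _)
    rw [sumMod_eq_sum (isCRS_crs hb0) hp, Finset.sum_mul]
    refine Finset.sum_congr rfl fun x _ => ?_
    rw [mul_assoc, ← eC_add]
    congr 2
    simp only [map_mul, map_add]
    field_simp
  rw [sumMod_congr h1, sumMod_finset_sum hb0]
  have hp2 : PMod b (fun x => sy x b * (if b ∣ 3 * sq3 * x + k then (nm b : ℂ) else 0)) := by
    refine (pmod_sy hb).mul ?_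
    intro x t
    have h2 : b ∣ 3 * sq3 * (x + b * t) + k ↔ b ∣ 3 * sq3 * x + k := by
      have e : 3 * sq3 * (x + b * t) + k = (3 * sq3 * x + k) + b * (3 * sq3 * t) := by ring
      rw [e]
      exact dvd_add_left (dvd_mul_right b _)
    simp only [h2]
  rw [sumMod_eq_sum (isCRS_crs hb0) hp2]
  refine Finset.sum_congr rfl fun x _ => ?_
  rw [sumMod_mul_left hb0, sumMod_eC_of_not_lam_dvd hb.not_lam_dvd]

lemma dual_eq {b : Eis} (hb : IsPrim b) (k : Eis) :
    Po581.dualSum (3 * b) (chiB b) k =
      nm b * (sy k b * eC (toC k / (3 * Po581.iS3))) := by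
  classical
  have hb0 := hb.ne_zero
  have hbC := toC_ne_zero hb0
  have h3 := Po581.iS3_ne_zero
  have h30 : (3 : Eis) ≠ 0 := three_ne_zero'
  unfold Po581.dualSum
  set F : Eis → ℂ := fun a => chiB b a * eC (Po581.dl k / toC (3 * b) * toC a) with hF
  have hFp : PMod (3 * b) F := by
    refine (pmod_chiB b).mul ?_
    intro x t
    beta_reduce
    have e : Po581.dl k / toC (3 * b) * toC (x + 3 * b * t) =
        Po581.dl k / toC (3 * b) * toC x + Po581.dl k * toC t := by
      have : toC (3 * b) ≠ 0 := toC_ne_zero (mul_ne_zero h30 hb0)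
      rw [map_add, map_mul toC (3 * b) t]
      field_simp
    rw [e, eC_add, Po581.eC_dl_mul, mul_one]
  rw [sumMod_tower h30 hb0 hFp]
  have hIp : PMod 3 (fun x => sumMod b (fun y => F (x + 3 * y))) := by
    intro x t
    beta_reduce
    have hp1 : PMod b (fun y => F (x + 3 * y)) := fun y s => by
      have : x + 3 * (y + b * s) = (x + 3 * y) + 3 * b * s := by ring
      beta_reduce
      rw [this, hFp]
    have h := sumMod_shift hb0 hp1 t
    beta_reduce at h
    rw [← h]
    exact sumMod_congr fun y => by ring_nf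
  rw [sumMod_single h30 hIp b]
  · -- value at `x = b`
    have h1 : ∀ y : Eis, F (b + 3 * y) =
        eC (toC k / (3 * Po581.iS3)) *
          (gs (3 * y) b * eC (toC k * toC y / (Po581.iS3 * toC b))) := by
      intro y
      simp only [hF, chiB]
      rw [if_pos (isPrim_add_three.mpr hb), gs_congr (s := 3 * y) ⟨1, by ring⟩]
      have e : Po581.dl k / toC (3 * b) * toC (b + 3 * y) =
          toC k / (3 * Po581.iS3) + toC k * toC y / (Po581.iS3 * toC b) := by
        unfold Po581.dl
        simp only [map_add, map_mul, map_ofNat]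
        field_simp
      rw [e, eC_add]
      ring
    rw [sumMod_congr h1, sumMod_mul_left hb0]
    have hp2 : PMod b (fun y => gs (3 * y) b * eC (toC k * toC y / (Po581.iS3 * toC b))) := by
      intro y t
      beta_reduce
      have e1 : gs (3 * (y + b * t)) b = gs (3 * y) b := gs_congr ⟨3 * t, by ring⟩
      have e2 : toC k * toC (y + b * t) / (Po581.iS3 * toC b) =
          toC k * toC y / (Po581.iS3 * toC b) + Po581.dl k * toC t := by
        unfold Po581.dl
        simp only [map_add, map_mul]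
        field_simp
      rw [e1, e2, eC_add, Po581.eC_dl_mul, mul_one]
    rw [← sumMod_mul_coprime hb0 hp2 (isCoprime_sq3 hb)]
    have h4 : ∀ z : Eis, gs (3 * (sq3 * z)) b *
        eC (toC k * toC (sq3 * z) / (Po581.iS3 * toC b)) =
        gs (3 * (sq3 * z)) b * eC (toC k * toC z / toC b) := by
      intro z
      congr 2
      rw [map_mul, toC_sq3]
      field_simp
    rw [sumMod_congr h4, sum_gs_eC hb]
    ring
  · intro x hx
    have hnp : ∀ y, ¬ IsPrim (x + 3 * y) := by
      intro y h
      apply hx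
      have h1 : IsPrim x := isPrim_add_three.mp h
      have e : x - b = (x - 1) - (b - 1) := by ring
      rw [e]
      exact dvd_sub h1 hb
    have h1 : ∀ y, F (x + 3 * y) = 0 := by
      intro y
      simp only [hF, chiB, if_neg (hnp y), zero_mul]
    rw [sumMod_congr h1, sumMod_const hb0, mul_zero]

/-- **(★)** the dual identity. -/
theorem first_moment (f : 𝓢(ℂ, ℂ)) {b : Eis} (hb : IsPrim b) :
    ∑' a : Eis, chiB b a * f (toC a) =
      ((2 / (9 * Real.sqrt 3) : ℝ) : ℂ) *
        ∑' k : Eis, sy k b * eC (toC k / (3 * Po581.iS3)) *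
          Po581.fC f (toC k / (3 * Po581.iS3 * toC b)) := by
  have hb0 := hb.ne_zero
  have h3b : (3 * b : Eis) ≠ 0 := mul_ne_zero three_ne_zero' hb0
  rw [Po581.poisson_periodic f h3b (pmod_chiB b)]
  have hn : (nm b : ℝ) ≠ 0 := by
    have := nm_pos.mpr hb0
    positivity
  have h1 : ∀ k : Eis, Po581.dualSum (3 * b) (chiB b) k * Po581.fC f (Po581.dl k / toC (3 * b)) =
      (nm b : ℂ) * (sy k b * eC (toC k / (3 * Po581.iS3)) *
          Po581.fC f (toC k / (3 * Po581.iS3 * toC b))) := by
    intro k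
    rw [dual_eq hb]
    have e : Po581.dl k / toC (3 * b) = toC k / (3 * Po581.iS3 * toC b) := by
      have := toC_ne_zero hb0
      have := Po581.iS3_ne_zero
      unfold Po581.dl
      rw [map_mul, map_ofNat]
      field_simp
    rw [e]
    ring
  simp_rw [h1]
  rw [tsum_mul_left, ← mul_assoc]
  congr 1
  rw [nm_mul, nm_three]
  have hs : (Real.sqrt 3 : ℂ) ≠ 0 := by
    have : Real.sqrt 3 ≠ 0 := by positivity
    exact_mod_cast this
  have hn' : (nm b : ℂ) ≠ 0 := by exact_mod_cast hn
  push_cast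
  field_simp

lemma dual_summable (f : 𝓢(ℂ, ℂ)) {b : Eis} (hb : IsPrim b) :
    Summable (fun k : Eis => sy k b * eC (toC k / (3 * Po581.iS3)) *
          Po581.fC f (toC k / (3 * Po581.iS3 * toC b))) := by
  have hb0 := hb.ne_zero
  have h3b : toC (3 * b : Eis) ≠ 0 := toC_ne_zero (mul_ne_zero three_ne_zero' hb0)
  have h := Po581.fC_summable f h3b
  have e : ∀ k : Eis, Po581.dl k / toC (3 * b) = toC k / (3 * Po581.iS3 * toC b) := by
    intro k
    have := toC_ne_zero hb0
    have := Po581.iS3_ne_zero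
    unfold Po581.dl
    rw [map_mul, map_ofNat]
    field_simp
  simp_rw [e] at h
  refine Summable.of_norm_bounded h.norm fun k => ?_
  rw [norm_mul, norm_mul, norm_eC, mul_one]
  exact mul_le_of_le_one_left (norm_nonneg _) (Sym645.norm_sy_le_one (prim_nm hb) k)

end Crest.Agent.R012.MC
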