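import Crest.Agent.R012.Cst1_566

/-!
# Row 12, item MC1 (2): radial weights, scaling, decay
-/

set_option autoImplicit false

noncomputable section

open MeasureTheory Complex Set Filter Topology
open scoped ContDiff SchwartzMap FourierTransform

namespace Crest.Agent.R012.MC

open Crest.Agent.R012 Crest.Agent.R012.Eis

/-! ### radial functions -/

/-- `z ↦ w(|z|²)` -/
def fw (w : ℝ → ℝ) (z : ℂ) : ℂ := (w (‖z‖ ^ 2) : ℂ)

lemma contDiff_fw {w : ℝ → ℝ} (hw : Wgt w) : ContDiff ℝ ∞ (fw w) := by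
  unfold fw
  have h1 : ContDiff ℝ ∞ (fun z : ℂ => ‖z‖ ^ 2) := contDiff_norm_sq ℝ
  have h2 : ContDiff ℝ ∞ (fun z : ℂ => w (‖z‖ ^ 2)) := hw.smooth.comp h1
  exact Complex.ofRealCLM.contDiff.comp h2

lemma compact_fw {w : ℝ → ℝ} (hw : Wgt w) : HasCompactSupport (fw w) := by
  obtain ⟨c1, c2, h1, h2, h⟩ := hw.exists_bounds
  refine HasCompactSupport.of_support_subset_isCompact
    (isCompact_closedBall (0 : ℂ) (Real.sqrt c2)) ?_
  intro z hz
  have hz' : w (‖z‖ ^ 2) ≠ 0 := by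
    intro h0
    apply hz
    simp [fw, h0]
  have := (h _ hz').2
  rw [mem_closedBall_zero_iff]
  exact Real.le_sqrt_of_sq_le this

/-- the Schwartz function `z ↦ w(|z|²)` -/
def fS {w : ℝ → ℝ} (hw : Wgt w) : 𝓢(ℂ, ℂ) := (compact_fw hw).toSchwartzMap (contDiff_fw hw)

lemma fS_coe {w : ℝ → ℝ} (hw : Wgt w) : (fS hw : ℂ → ℂ) = fw w := rfl

lemma fC_fw_rot (w : ℝ → ℝ) (ξ : ℂ) {q : ℂ} (hq : ‖q‖ = 1) :
    Po581.fC (fw w) ξ = Po581.fC (fw w) (ξ / q) := by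
  have hq0 : q ≠ 0 := by
    intro h; rw [h] at hq; simp at hq
  have h := Po581.fC_affine (fw w) hq0 0 ξ
  have h1 : (fun z => fw w (q * z + 0)) = fw w := by
    funext z
    unfold fw
    rw [add_zero, norm_mul, hq, one_mul]
  rw [h1, hq] at h
  rw [h]
  simp

lemma fC_fw_real (w : ℝ → ℝ) (t : ℝ) : (Po581.fC (fw w) (t : ℂ)).im = 0 := by
  rw [← Complex.conj_eq_iff_im]
  have h2 : Po581.fC (fw w) (t : ℂ) = Po581.fC (fw w) (-(t : ℂ)) := by
    have := fC_fw_rot w (t : ℂ) (q := -1) (by simp)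
    rw [this]; congr 1; ring
  conv_rhs => rw [h2]
  unfold Po581.fC
  rw [← integral_conj]
  congr 1
  funext z
  rw [map_mul, star_eC]
  unfold fw
  rw [Complex.conj_ofReal]
  congr 2
  ring

/-- the Fourier transform of the radial function is radial and real -/
lemma fC_fw (w : ℝ → ℝ) (ξ : ℂ) : Po581.fC (fw w) ξ = (Wt w ‖ξ‖ : ℂ) := by
  have key : Po581.fC (fw w) ξ = Po581.fC (fw w) (-(‖ξ‖ : ℂ)) := by
    by_cases h : ξ = 0
    · subst h; simp
    · have hn : (‖ξ‖ : ℂ) ≠ 0 := by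
        exact_mod_cast norm_ne_zero_iff.mpr h
      have hq : ‖-(ξ / (‖ξ‖ : ℂ))‖ = 1 := by
        rw [norm_neg, norm_div, Complex.norm_real, norm_norm, div_self (norm_ne_zero_iff.mpr h)]
      rw [fC_fw_rot w ξ hq]
      congr 1
      field_simp
  have h2 : Po581.fC (fw w) (-(‖ξ‖ : ℂ)) = ∫ z : ℂ, (w (‖z‖ ^ 2) : ℂ) * eC (z * (‖ξ‖ : ℂ)) := by
    unfold Po581.fC fw
    congr 1
    funext z
    congr 2
    ring
  have h3 : (Po581.fC (fw w) (-(‖ξ‖ : ℂ))).im = 0 := by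
    have := fC_fw_real w (-‖ξ‖)
    push_cast at this
    exact this
  rw [key]
  apply Complex.ext
  · rw [Complex.ofReal_re, h2]; rfl
  · rw [Complex.ofReal_im, h3]

lemma Wt_eq (w : ℝ → ℝ) {t : ℝ} (ht : 0 ≤ t) : Wt w t = (Po581.fC (fw w) (t : ℂ)).re := by
  rw [fC_fw, Complex.ofReal_re, Complex.norm_real, Real.norm_of_nonneg ht]

/-! ### scaling -/

lemma Wgt.scale {w : ℝ → ℝ} (hw : Wgt w) {A : ℝ} (hA : 0 < A) : Wgt (fun x => w (x / A)) := by
  obtain ⟨c1, c2, h1, h2, h⟩ := hw.exists_bounds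
  have hsub : tsupport (fun x => w (x / A)) ⊆ Set.Icc (c1 * A) (c2 * A) := by
    apply closure_minimal _ isClosed_Icc
    intro x hx
    have h3 := h (x / A) hx
    rw [le_div_iff₀ hA, div_le_iff₀ hA] at h3
    exact h3
  refine ⟨?_, ?_, ?_⟩
  · exact hw.smooth.comp (contDiff_id.div_const A)
  · exact HasCompactSupport.of_support_subset_isCompact isCompact_Icc
      ((subset_tsupport _).trans hsub)
  · intro x hx
    have := (hsub hx).1
    have h4 : 0 < c1 * A := by positivity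
    exact lt_of_lt_of_le h4 this

lemma fC_scale (w : ℝ → ℝ) {A : ℝ} (hA : 0 < A) (ξ : ℂ) :
    Po581.fC (fw (fun x => w (x / A))) ξ = (A * Wt w (Real.sqrt A * ‖ξ‖) : ℝ) := by
  have hs : 0 < Real.sqrt A := Real.sqrt_pos.mpr hA
  have hq0 : (((Real.sqrt A)⁻¹ : ℝ) : ℂ) ≠ 0 := by
    exact_mod_cast (inv_pos.mpr hs).ne'
  have h := Po581.fC_affine (fw w) hq0 0 ξ
  have h1 : (fun z : ℂ => fw w ((((Real.sqrt A)⁻¹ : ℝ) : ℂ) * z + 0)) =
      fw (fun x => w (x / A)) := by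
    funext z
    unfold fw
    rw [add_zero, norm_mul, Complex.norm_real, Real.norm_of_nonneg (inv_pos.mpr hs).le, mul_pow,
      inv_pow, Real.sq_sqrt hA.le]
    congr 2
    rw [div_eq_inv_mul]
  rw [h1] at h
  rw [h, fC_fw]
  have h2 : ‖ξ / (((Real.sqrt A)⁻¹ : ℝ) : ℂ)‖ = Real.sqrt A * ‖ξ‖ := by
    rw [norm_div, Complex.norm_real, Real.norm_of_nonneg (inv_pos.mpr hs).le, div_inv_eq_mul]
    ring
  rw [h2]
  have h3 : (‖(((Real.sqrt A)⁻¹ : ℝ) : ℂ)‖ ^ 2)⁻¹ = A := by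
    rw [Complex.norm_real, Real.norm_of_nonneg (inv_pos.mpr hs).le, inv_pow, inv_inv,
      Real.sq_sqrt hA.le]
  rw [h3]
  simp

/-! ### decay and Lipschitz bound -/

lemma Wt_decay {w : ℝ → ℝ} (hw : Wgt w) (k : ℕ) :
    ∃ C : ℝ, 0 ≤ C ∧ ∀ t, 0 ≤ t → |Wt w t| ≤ C / (1 + t) ^ k := by
  obtain ⟨C, hC0, hC⟩ := Po581.fC_decay (fS hw) k
  refine ⟨C, hC0, fun t ht => ?_⟩
  have h := hC (t : ℂ)
  rw [fS_coe, fC_fw, Complex.norm_real, Complex.norm_real, Real.norm_of_nonneg ht,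
    Real.norm_eq_abs] at h
  exact h

lemma Wt_lip {w : ℝ → ℝ} (hw : Wgt w) :
    ∃ L : ℝ, 0 ≤ L ∧ ∀ s t, 0 ≤ s → 0 ≤ t → |Wt w s - Wt w t| ≤ L * |s - t| := by
  set F : 𝓢(ℂ, ℂ) := 𝓕 (fS hw) with hF
  obtain ⟨C, hC⟩ := F.decay' 0 1
  have hb : ∀ x, ‖fderiv ℝ F x‖ ≤ C := by
    intro x
    have := hC x
    rw [pow_zero, one_mul, norm_iteratedFDeriv_one] at this
    exact this
  have hC0 : 0 ≤ C := (norm_nonneg _).trans (hb 0)
  have hlip : ∀ x y : ℂ, ‖F x - F y‖ ≤ C * ‖x - y‖ := by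
    intro x y
    exact Convex.norm_image_sub_le_of_norm_fderiv_le (𝕜 := ℝ) (f := F) (s := Set.univ)
      (fun z _ => F.differentiableAt) (fun z _ => hb z) convex_univ (Set.mem_univ _)
      (Set.mem_univ _)
  refine ⟨2 * C, by positivity, fun s t hs ht => ?_⟩
  have e : ∀ t : ℝ, 0 ≤ t → Wt w t = (F (2 * (t : ℂ))).re := by
    intro t ht
    rw [Wt_eq w ht, Po581.fC_eq_fourier, Complex.conj_ofReal, hF, SchwartzMap.fourier_coe, fS_coe]
  rw [e s hs, e t ht, ← Complex.sub_re]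
  refine (Complex.abs_re_le_norm _).trans ((hlip _ _).trans (le_of_eq ?_))
  rw [← mul_sub, norm_mul, ← Complex.ofReal_sub, Complex.norm_real, Real.norm_eq_abs]
  norm_num
  ring

lemma Wt_continuousOn {w : ℝ → ℝ} (hw : Wgt w) : ContinuousOn (Wt w) (Set.Ici 0) := by
  obtain ⟨L, hL0, hL⟩ := Wt_lip hw
  have : LipschitzOnWith (Real.toNNReal L) (Wt w) (Set.Ici 0) := by
    refine LipschitzOnWith.of_dist_le_mul fun s hs t ht => ?_
    rw [Real.coe_toNNReal L hL0, Real.dist_eq, Real.dist_eq]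
    exact hL s t hs ht
  exact this.continuousOn

/-! ### the dual identity for weights -/

/-- the dual character `e(k/(3√-3))` -/
def ek (k : Eis) : ℂ := eC (toC k / (3 * Po581.iS3))

lemma norm_ek (k : Eis) : ‖ek k‖ = 1 := norm_eC _

lemma norm_arg {b : Eis} (k : Eis) :
    ‖toC k / (3 * Po581.iS3 * toC b)‖ = ‖toC k‖ / (3 * Real.sqrt 3 * ‖toC b‖) := by
  rw [norm_div, norm_mul, norm_mul, Po581.norm_iS3]
  norm_num

/-- the dual sum kernel: `Wt w (√A |k| / (3√3 |b|))`. -/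
def kap (A : ℝ) (k : Eis) : ℝ := Real.sqrt A * ‖toC k‖ / (3 * Real.sqrt 3)

lemma kap_nonneg (A : ℝ) (k : Eis) : 0 ≤ kap A k := by unfold kap; positivity

lemma fC_scaled {w : ℝ → ℝ} {A : ℝ} (hA : 0 < A) (b k : Eis) :
    Po581.fC (fw (fun x => w (x / A))) (toC k / (3 * Po581.iS3 * toC b)) =
      ((A * Wt w (kap A k / ‖toC b‖) : ℝ) : ℂ) := by
  rw [fC_scale w hA, norm_arg]
  congr 3
  unfold kap
  rw [div_div, mul_div_assoc]

theorem dual_weight {w : ℝ → ℝ} (hw : Wgt w) {A : ℝ} (hA : 0 < A) {b : Eis} (hb : IsPrim b) :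
    ∑' a : Eis, chiB b a * (w (nm a / A) : ℂ) =
      ((2 * A / (9 * Real.sqrt 3) : ℝ) : ℂ) *
        ∑' k : Eis, sy k b * ek k * (Wt w (kap A k / ‖toC b‖) : ℂ) := by
  have h := first_moment (fS (hw.scale hA)) hb
  have h1 : ∀ a : Eis, chiB b a * (fS (hw.scale hA)) (toC a) = chiB b a * (w (nm a / A) : ℂ) := by
    intro a
    rw [fS_coe]
    unfold fw
    rw [norm_toC_sq]
  simp_rw [h1] at h
  rw [h]
  simp_rw [fS_coe, fC_scaled hA]
  have h2 : ∀ k : Eis, sy k b * eC (toC k / (3 * Po581.iS3)) *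
      ((A * Wt w (kap A k / ‖toC b‖) : ℝ) : ℂ) =
      (A : ℂ) * (sy k b * ek k * (Wt w (kap A k / ‖toC b‖) : ℂ)) := by
    intro k
    unfold ek
    push_cast
    ring
  simp_rw [h2]
  rw [tsum_mul_left, ← mul_assoc]
  congr 1
  push_cast
  ring

lemma dual_weight_summable {w : ℝ → ℝ} (hw : Wgt w) {A : ℝ} (hA : 0 < A) {b : Eis}
    (hb : IsPrim b) :
    Summable (fun k : Eis => sy k b * ek k * (Wt w (kap A k / ‖toC b‖) : ℂ)) := by
  have h := dual_summable (fS (hw.scale hA)) hb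
  simp_rw [fS_coe, fC_scaled hA] at h
  have h2 := h.mul_left ((A : ℂ)⁻¹)
  refine h2.congr fun k => ?_
  have hA' : (A : ℂ) ≠ 0 := by exact_mod_cast hA.ne'
  unfold ek
  push_cast
  field_simp

end Crest.Agent.R012.MC
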