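import Crest.Agent.R012.Cst2_566

/-!
# Row 12, item MC1 (3): mean zero periodic functions against Lipschitz functions; kernels

* `char_sum_bound` : `|Σ_b ψ(b) φ(b)| ≤ L |q| (3R + 4|q|)²` for `ψ` periodic mod `q` with mean zero,
  `|ψ| ≤ 1`, `φ` Lipschitz with constant `L`, supported in `|z| ≤ R`.
* `phi w v B κ z = v(|z|²/B)/|z| · Wt w (κ/|z|)` : Lipschitz bound and size.
-/

set_option autoImplicit false

noncomputable section

open MeasureTheory Complex Set Filter Topology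
open scoped ContDiff

namespace Crest.Agent.R012.MC

open Crest.Agent.R012 Crest.Agent.R012.Eis

/-! ### small representatives -/

/-- complete residue system with representatives of norm `< nm q` -/
def scrs (q : Eis) : Finset Eis := (crs q).image (fun r => r - q * quo r q)

lemma isCRS_scrs {q : Eis} (hq : q ≠ 0) : IsCRS q (scrs q) := by
  intro x
  obtain ⟨s, ⟨hs, hd⟩, hu⟩ := isCRS_crs hq x
  refine ⟨s - q * quo s q, ⟨Finset.mem_image_of_mem _ hs, ?_⟩, ?_⟩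
  · have e : x - (s - q * quo s q) = (x - s) + q * quo s q := by ring
    rw [e]
    exact dvd_add hd (dvd_mul_right _ _)
  · rintro t ⟨ht, htd⟩
    obtain ⟨r, hr, rfl⟩ := Finset.mem_image.mp ht
    have h1 : q ∣ x - r := by
      have e : x - r = (x - (r - q * quo r q)) - q * quo r q := by ring
      rw [e]
      exact dvd_sub htd (dvd_mul_right _ _)
    rw [hu r ⟨hr, h1⟩]

lemma scrs_norm {q r : Eis} (hq : q ≠ 0) (hr : r ∈ scrs q) : ‖toC r‖ ≤ ‖toC q‖ := by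
  obtain ⟨s, hs, rfl⟩ := Finset.mem_image.mp hr
  rw [norm_toC, norm_toC]
  apply Real.sqrt_le_sqrt
  exact_mod_cast (nm_sub_quo_lt s hq).le

/-! ### character sums against Lipschitz functions -/

lemma char_sum_bound {q : Eis} (hq : q ≠ 0) {ψ : Eis → ℂ} (hψ : PMod q ψ) (h0 : sumMod q ψ = 0)
    (h1 : ∀ x, ‖ψ x‖ ≤ 1) {φ : ℂ → ℂ} {L R : ℝ} (hL : 0 ≤ L) (hR : 0 ≤ R)
    (hsupp : ∀ z, R < ‖z‖ → φ z = 0) (hlip : ∀ z z', ‖φ z - φ z'‖ ≤ L * ‖z - z'‖) :
    ‖∑' b : Eis, ψ b * φ (toC b)‖ ≤ L * ‖toC q‖ * (3 * R + 4 * ‖toC q‖) ^ 2 := by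
  classical
  have hqC : 0 < ‖toC q‖ := norm_pos_iff.mpr (toC_ne_zero hq)
  have hS := isCRS_scrs hq
  have hfin : ∀ (s : Eis) (c : Eis), c ≠ 0 → (Function.support fun t : Eis => φ (toC (s + c * t))).Finite := by
    intro s c hc
    have hf := (Strip880.disc_finite_card (0 : ℂ) R hR).1
    have hinj : Function.Injective (fun t : Eis => s + c * t) := fun x y h =>
      mul_left_cancel₀ hc (add_left_cancel h)
    refine (hf.preimage (f := fun t : Eis => s + c * t) hinj.injOn).subset ?_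
    intro t ht
    simp only [Set.mem_preimage, Set.mem_ofPred_eq, sub_zero]
    by_contra hcon
    push Not at hcon
    exact ht (hsupp _ hcon)
  have hsum0 : Summable (fun b : Eis => ψ b * φ (toC b)) := by
    apply summable_of_hasFiniteSupport
    have h2 := hfin 0 1 one_ne_zero
    refine h2.subset ?_
    intro b hb
    simp only [Function.mem_support] at hb ⊢
    intro h3
    apply hb
    simp only [zero_add, one_mul] at h3
    rw [h3, mul_zero]
  rw [tsum_eq_sum_crs hq hS hsum0]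
  have e1 : ∀ s ∈ scrs q, ∑' t : Eis, ψ (s + q * t) * φ (toC (s + q * t)) =
      ψ s * ∑' t : Eis, φ (toC (s + q * t)) := by
    intro s _
    rw [← tsum_mul_left]
    exact tsum_congr fun t => by rw [hψ]
  rw [Finset.sum_congr rfl e1]
  have e2 : ∑ s ∈ scrs q, ψ s * ∑' t : Eis, φ (toC (q * t)) = 0 := by
    rw [← Finset.sum_mul, ← sumMod_eq_sum hS hψ, h0, zero_mul]
  rw [← sub_zero (∑ s ∈ scrs q, _), ← e2, ← Finset.sum_sub_distrib]
  set ρ : ℝ := R / ‖toC q‖ + 1 with hρ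
  have hρ0 : 0 ≤ ρ := by positivity
  obtain ⟨hDf, hDc⟩ := Strip880.disc_finite_card (0 : ℂ) ρ hρ0
  set D : Finset Eis := hDf.toFinset with hD
  have hDcard : (D.card : ℝ) ≤ (3 * ρ + 1) ^ 2 := by
    rw [hD, ← Set.ncard_eq_toFinset_card _ hDf]
    exact hDc
  have key : ∀ s ∈ scrs q,
      ‖ψ s * ∑' t : Eis, φ (toC (s + q * t)) - ψ s * ∑' t : Eis, φ (toC (q * t))‖ ≤
        (3 * ρ + 1) ^ 2 * (L * ‖toC q‖) := by
    intro s hs
    have hsn := scrs_norm hq hs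
    have hsa : Summable fun t : Eis => φ (toC (s + q * t)) :=
      summable_of_hasFiniteSupport (hfin s q hq)
    have hsb : Summable fun t : Eis => φ (toC (q * t)) := by
      have := hfin 0 q hq
      simp only [zero_add] at this
      exact summable_of_hasFiniteSupport this
    rw [← mul_sub, norm_mul, ← hsa.tsum_sub hsb]
    have hz : ∀ t ∉ D, φ (toC (s + q * t)) - φ (toC (q * t)) = 0 := by
      intro t ht
      have ht' : ρ < ‖toC t‖ := by
        by_contra hcon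
        push Not at hcon
        apply ht
        rw [hD, Set.Finite.mem_toFinset]
        simpa using hcon
      have h3 : R + ‖toC q‖ < ‖toC (q * t)‖ := by
        rw [map_mul, norm_mul]
        have : ρ * ‖toC q‖ < ‖toC t‖ * ‖toC q‖ := mul_lt_mul_of_pos_right ht' hqC
        rw [hρ, add_mul, div_mul_cancel₀ _ hqC.ne', one_mul] at this
        linarith
      have h4 : R < ‖toC (s + q * t)‖ := by
        have h5 : ‖toC (q * t)‖ ≤ ‖toC (s + q * t)‖ + ‖toC s‖ := by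
          calc ‖toC (q * t)‖ = ‖toC (s + q * t) - toC s‖ := by rw [map_add]; congr 1; ring
            _ ≤ _ := norm_sub_le _ _
        linarith
      rw [hsupp _ h4, hsupp _ (by linarith [norm_nonneg (toC q)]), sub_zero]
    rw [tsum_eq_sum hz]
    calc ‖ψ s‖ * ‖∑ t ∈ D, (φ (toC (s + q * t)) - φ (toC (q * t)))‖
        ≤ 1 * ‖∑ t ∈ D, (φ (toC (s + q * t)) - φ (toC (q * t)))‖ :=
          mul_le_mul_of_nonneg_right (h1 s) (norm_nonneg _)
      _ = ‖∑ t ∈ D, (φ (toC (s + q * t)) - φ (toC (q * t)))‖ := one_mul _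
      _ ≤ ∑ t ∈ D, ‖φ (toC (s + q * t)) - φ (toC (q * t))‖ := norm_sum_le _ _
      _ ≤ ∑ t ∈ D, L * ‖toC q‖ := by
          refine Finset.sum_le_sum fun t _ => (hlip _ _).trans ?_
          have : toC (s + q * t) - toC (q * t) = toC s := by rw [map_add]; ring
          rw [this]
          exact mul_le_mul_of_nonneg_left hsn hL
      _ = D.card * (L * ‖toC q‖) := by rw [Finset.sum_const, nsmul_eq_mul]
      _ ≤ _ := mul_le_mul_of_nonneg_right hDcard (by positivity)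
  refine (norm_sum_le _ _).trans ((Finset.sum_le_sum key).trans (le_of_eq ?_))
  rw [Finset.sum_const, nsmul_eq_mul, hS.card, ← norm_toC_sq, hρ]
  field_simp
  ring

/-! ### the one variable profile -/

/-- `s ↦ v(s²)/s` -/
def gv (v : ℝ → ℝ) (s : ℝ) : ℝ := v (s ^ 2) / s

lemma gv_support {v : ℝ → ℝ} (hv : Wgt v) :
    ∃ s0 s1 : ℝ, 0 < s0 ∧ s0 < s1 ∧ ∀ s, v (s ^ 2) ≠ 0 → s0 ≤ |s| ∧ |s| ≤ s1 := by
  obtain ⟨c1, c2, h1, h2, h⟩ := hv.exists_bounds
  refine ⟨Real.sqrt c1, Real.sqrt c2, Real.sqrt_pos.mpr h1, Real.sqrt_lt_sqrt h1.le h2,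
    fun s hs => ?_⟩
  obtain ⟨h3, h4⟩ := h _ hs
  constructor
  · exact Real.sqrt_le_iff.mpr ⟨abs_nonneg _, by rwa [sq_abs]⟩
  · exact Real.le_sqrt_of_sq_le (by rwa [sq_abs])

lemma contDiff_gv {v : ℝ → ℝ} (hv : Wgt v) : ContDiff ℝ ∞ (gv v) := by
  obtain ⟨s0, s1, h0, h01, h⟩ := gv_support hv
  rw [contDiff_iff_contDiffAt]
  intro s
  by_cases hs : s = 0
  · subst hs
    have : gv v =ᶠ[𝓝 0] fun _ => 0 := by
      have hn : {x : ℝ | |x| < s0} ∈ 𝓝 (0 : ℝ) := by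
        have : Metric.ball (0 : ℝ) s0 ∈ 𝓝 (0 : ℝ) := Metric.ball_mem_nhds _ h0
        refine Filter.mem_of_superset this fun x hx => ?_
        simpa using hx
      filter_upwards [hn] with x hx
      unfold gv
      by_cases hx2 : v (x ^ 2) = 0
      · rw [hx2, zero_div]
      · exact absurd (h x hx2).1 (not_le.mpr hx)
    exact (contDiffAt_const (c := (0 : ℝ))).congr_of_eventuallyEq this
  · unfold gv
    apply ContDiffAt.div _ contDiffAt_id hs
    exact (hv.smooth.comp (contDiff_id.pow 2)).contDiffAt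

lemma compact_gv {v : ℝ → ℝ} (hv : Wgt v) : HasCompactSupport (gv v) := by
  obtain ⟨s0, s1, h0, h01, h⟩ := gv_support hv
  refine HasCompactSupport.of_support_subset_isCompact (isCompact_closedBall (0 : ℝ) s1) ?_
  intro s hs
  have : v (s ^ 2) ≠ 0 := by
    intro h'
    apply hs
    simp [gv, h']
  rw [mem_closedBall_zero_iff, Real.norm_eq_abs]
  exact (h s this).2

lemma gv_lip {v : ℝ → ℝ} (hv : Wgt v) : ∃ L : ℝ, 0 ≤ L ∧ ∀ s t, |gv v s - gv v t| ≤ L * |s - t| := by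
  obtain ⟨C, hC⟩ := ContDiff.lipschitzWith_of_hasCompactSupport (𝕂 := ℝ) (compact_gv hv)
    (contDiff_gv hv) (by simp)
  refine ⟨C, C.2, fun s t => ?_⟩
  have := hC.dist_le_mul s t
  rwa [Real.dist_eq, Real.dist_eq] at this

lemma gv_bdd {v : ℝ → ℝ} (hv : Wgt v) : ∃ M : ℝ, 0 ≤ M ∧ ∀ s, |gv v s| ≤ M := by
  obtain ⟨C, hC⟩ := (compact_gv hv).exists_bound_of_continuous (contDiff_gv hv).continuous
  refine ⟨max C 0, le_max_right _ _, fun s => ?_⟩
  have := hC s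
  rw [Real.norm_eq_abs] at this
  exact this.trans (le_max_left _ _)

/-! ### the kernel `φ` -/

/-- `v(|z|²/B)/|z| · Wt w (κ/|z|)` -/
def phi (w v : ℝ → ℝ) (B κ : ℝ) (z : ℂ) : ℝ := v (‖z‖ ^ 2 / B) / ‖z‖ * Wt w (κ / ‖z‖)

lemma phi_eq (w v : ℝ → ℝ) {B : ℝ} (hB : 0 < B) (κ : ℝ) (z : ℂ) :
    phi w v B κ z = (Real.sqrt B)⁻¹ *
      (gv v (‖z‖ / Real.sqrt B) * Wt w (κ / Real.sqrt B / (‖z‖ / Real.sqrt B))) := by
  have hs : Real.sqrt B ≠ 0 := (Real.sqrt_pos.mpr hB).ne'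
  unfold phi gv
  have e1 : (‖z‖ / Real.sqrt B) ^ 2 = ‖z‖ ^ 2 / B := by
    rw [div_pow, Real.sq_sqrt hB.le]
  have e2 : κ / Real.sqrt B / (‖z‖ / Real.sqrt B) = κ / ‖z‖ := by
    by_cases hz : ‖z‖ = 0
    · rw [hz]; simp
    · field_simp
  rw [e1, e2]
  by_cases hz : ‖z‖ = 0
  · rw [hz]; simp
  · field_simp

lemma phi_lip {w v : ℝ → ℝ} (hw : Wgt w) (hv : Wgt v) :
    ∃ C : ℝ, 0 ≤ C ∧ ∀ B κ : ℝ, 0 < B → 0 ≤ κ → ∀ z z' : ℂ,
      |phi w v B κ z - phi w v B κ z'| ≤ C * (1 + κ / Real.sqrt B) / B * ‖z - z'‖ := by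
  obtain ⟨L1, hL1, h1⟩ := gv_lip hv
  obtain ⟨M1, hM1, h2⟩ := gv_bdd hv
  obtain ⟨L2, hL2, h3⟩ := Wt_lip hw
  obtain ⟨M2, hM2, h4⟩ := Wt_decay hw 0
  obtain ⟨s0, s1, hs0, hs01, hs⟩ := gv_support hv
  have h4' : ∀ t, 0 ≤ t → |Wt w t| ≤ M2 := by
    intro t ht
    have := h4 t ht
    rwa [pow_zero, div_one] at this
  refine ⟨L1 * M2 + M1 * L2 / s0 ^ 2, by positivity, fun B κ hB hκ z z' => ?_⟩
  have hsB : 0 < Real.sqrt B := Real.sqrt_pos.mpr hB
  set β := κ / Real.sqrt B with hβ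
  have hβ0 : 0 ≤ β := by positivity
  set s := ‖z‖ / Real.sqrt B with hsdef
  set s' := ‖z'‖ / Real.sqrt B with hsdef'
  have hs_nn : 0 ≤ s := by positivity
  have hs'_nn : 0 ≤ s' := by positivity
  have hmax : ∀ x : ℝ, 0 ≤ x → gv v x * Wt w (β / x) = gv v x * Wt w (β / max x s0) := by
    intro x hx
    by_cases hx2 : v (x ^ 2) = 0
    · unfold gv; rw [hx2]; simp
    · have := (hs x hx2).1
      rw [abs_of_nonneg hx] at this
      rw [max_eq_left this]
  rw [phi_eq w v hB, phi_eq w v hB, ← hβ, ← hsdef, ← hsdef', hmax s hs_nn, hmax s' hs'_nn,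
    ← mul_sub, abs_mul, abs_of_pos (inv_pos.mpr hsB)]
  have hdist : |s - s'| ≤ ‖z - z'‖ / Real.sqrt B := by
    rw [hsdef, hsdef', ← sub_div, abs_div, abs_of_pos hsB]
    exact div_le_div_of_nonneg_right (abs_norm_sub_norm_le z z') hsB.le
  have hm1 : 0 < max s s0 := lt_of_lt_of_le hs0 (le_max_right _ _)
  have hm2 : 0 < max s' s0 := lt_of_lt_of_le hs0 (le_max_right _ _)
  have hA : |β / max s s0 - β / max s' s0| ≤ β / s0 ^ 2 * |s - s'| := by
    have e : β / max s s0 - β / max s' s0 = β * (max s' s0 - max s s0) / (max s s0 * max s' s0) := by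
      field_simp
    rw [e, abs_div, abs_mul, abs_of_nonneg hβ0, abs_of_pos (mul_pos hm1 hm2)]
    have e2 : |max s' s0 - max s s0| ≤ |s - s'| := by
      rw [abs_sub_comm s s']
      exact abs_max_sub_max_le_abs _ _ _
    have e3 : s0 ^ 2 ≤ max s s0 * max s' s0 := by
      rw [pow_two]
      exact mul_le_mul (le_max_right _ _) (le_max_right _ _) hs0.le hm1.le
    have e4 : β / s0 ^ 2 * |s - s'| = β * |s - s'| / s0 ^ 2 := by ring
    rw [e4]
    exact div_le_div₀ (by positivity) (mul_le_mul_of_nonneg_left e2 hβ0) (by positivity) e3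
  have hmain : |gv v s * Wt w (β / max s s0) - gv v s' * Wt w (β / max s' s0)| ≤
      (L1 * M2 + M1 * L2 / s0 ^ 2) * (1 + β) * |s - s'| := by
    have e : gv v s * Wt w (β / max s s0) - gv v s' * Wt w (β / max s' s0) =
        (gv v s - gv v s') * Wt w (β / max s s0) +
          gv v s' * (Wt w (β / max s s0) - Wt w (β / max s' s0)) := by ring
    rw [e]
    refine (abs_add_le _ _).trans ?_
    rw [abs_mul, abs_mul]
    have t1 : |gv v s - gv v s'| * |Wt w (β / max s s0)| ≤ (L1 * |s - s'|) * M2 :=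
      mul_le_mul (h1 _ _) (h4' _ (by positivity)) (abs_nonneg _) (by positivity)
    have t2 : |gv v s'| * |Wt w (β / max s s0) - Wt w (β / max s' s0)| ≤
        M1 * (L2 * (β / s0 ^ 2 * |s - s'|)) := by
      refine mul_le_mul (h2 _) ((h3 _ _ (by positivity) (by positivity)).trans ?_)
        (abs_nonneg _) hM1
      exact mul_le_mul_of_nonneg_left hA hL2
    have t3 : (L1 * |s - s'|) * M2 ≤ L1 * M2 * (1 + β) * |s - s'| := by
      have : 0 ≤ L1 * M2 * |s - s'| * β := by positivity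
      nlinarith
    have t4 : M1 * (L2 * (β / s0 ^ 2 * |s - s'|)) ≤ M1 * L2 / s0 ^ 2 * (1 + β) * |s - s'| := by
      have : 0 ≤ M1 * L2 / s0 ^ 2 * |s - s'| := by positivity
      have e5 : M1 * (L2 * (β / s0 ^ 2 * |s - s'|)) = M1 * L2 / s0 ^ 2 * |s - s'| * β := by
        field_simp
      rw [e5]
      nlinarith
    linarith
  calc (Real.sqrt B)⁻¹ * |gv v s * Wt w (β / max s s0) - gv v s' * Wt w (β / max s' s0)|
      ≤ (Real.sqrt B)⁻¹ * ((L1 * M2 + M1 * L2 / s0 ^ 2) * (1 + β) * |s - s'|) :=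
        mul_le_mul_of_nonneg_left hmain (inv_pos.mpr hsB).le
    _ ≤ (Real.sqrt B)⁻¹ * ((L1 * M2 + M1 * L2 / s0 ^ 2) * (1 + β) * (‖z - z'‖ / Real.sqrt B)) := by
        refine mul_le_mul_of_nonneg_left ?_ (inv_pos.mpr hsB).le
        exact mul_le_mul_of_nonneg_left hdist (by positivity)
    _ = (L1 * M2 + M1 * L2 / s0 ^ 2) * (1 + β) / (Real.sqrt B * Real.sqrt B) * ‖z - z'‖ := by
        field_simp
    _ = _ := by rw [Real.mul_self_sqrt hB.le]

lemma phi_support {v : ℝ → ℝ} (hv : Wgt v) :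
    ∃ c1 c2 : ℝ, 0 < c1 ∧ c1 < c2 ∧ ∀ (w : ℝ → ℝ) (B κ : ℝ), 0 < B → ∀ z : ℂ,
      phi w v B κ z ≠ 0 → c1 * B ≤ ‖z‖ ^ 2 ∧ ‖z‖ ^ 2 ≤ c2 * B := by
  obtain ⟨c1, c2, h1, h2, h⟩ := hv.exists_bounds
  refine ⟨c1, c2, h1, h2, fun w B κ hB z hz => ?_⟩
  have : v (‖z‖ ^ 2 / B) ≠ 0 := by
    intro h0
    apply hz
    unfold phi
    rw [h0]; simp
  have h3 := h _ this
  rw [le_div_iff₀ hB, div_le_iff₀ hB] at h3
  exact h3

lemma phi_size {w v : ℝ → ℝ} (hw : Wgt w) (hv : Wgt v) (j : ℕ) :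
    ∃ C : ℝ, 0 ≤ C ∧ ∀ B κ : ℝ, 0 < B → 0 ≤ κ → ∀ z : ℂ,
      |phi w v B κ z| * (κ / Real.sqrt B) ^ j ≤ C * (Real.sqrt B)⁻¹ := by
  obtain ⟨M1, hM1, h2⟩ := gv_bdd hv
  obtain ⟨M2, hM2, h4⟩ := Wt_decay hw j
  obtain ⟨s0, s1, hs0, hs01, hs⟩ := gv_support hv
  have hs1 : 0 < s1 := hs0.trans hs01
  refine ⟨M1 * M2 * s1 ^ j, by positivity, fun B κ hB hκ z => ?_⟩
  have hsB : 0 < Real.sqrt B := Real.sqrt_pos.mpr hB
  rw [phi_eq w v hB]
  set β := κ / Real.sqrt B with hβ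
  have hβ0 : 0 ≤ β := by positivity
  set s := ‖z‖ / Real.sqrt B with hsdef
  have hs_nn : 0 ≤ s := by positivity
  rw [abs_mul, abs_of_pos (inv_pos.mpr hsB), abs_mul]
  by_cases hv0 : v (s ^ 2) = 0
  · have : gv v s = 0 := by unfold gv; rw [hv0, zero_div]
    rw [this]; simp; positivity
  · obtain ⟨ha, hb⟩ := hs s hv0
    rw [abs_of_nonneg hs_nn] at ha hb
    have hspos : 0 < s := lt_of_lt_of_le hs0 ha
    have h5 := h4 (β / s) (by positivity)
    have h6 : |Wt w (β / s)| * β ^ j ≤ M2 * s1 ^ j := by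
      have h7 : β ^ j ≤ (1 + β / s) ^ j * s1 ^ j := by
        rw [← mul_pow]
        refine pow_le_pow_left₀ hβ0 ?_ j
        have : β = β / s * s := by field_simp
        have h8 : β / s * s ≤ β / s * s1 := mul_le_mul_of_nonneg_left hb (by positivity)
        nlinarith
      calc |Wt w (β / s)| * β ^ j ≤ (M2 / (1 + β / s) ^ j) * ((1 + β / s) ^ j * s1 ^ j) :=
            mul_le_mul h5 h7 (by positivity) (by positivity)
        _ = M2 * s1 ^ j := by field_simp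
    calc (Real.sqrt B)⁻¹ * (|gv v s| * |Wt w (β / s)|) * β ^ j
        = (Real.sqrt B)⁻¹ * (|gv v s| * (|Wt w (β / s)| * β ^ j)) := by ring
      _ ≤ (Real.sqrt B)⁻¹ * (M1 * (M2 * s1 ^ j)) := by
          refine mul_le_mul_of_nonneg_left ?_ (inv_pos.mpr hsB).le
          exact mul_le_mul (h2 _) h6 (by positivity) hM1
      _ = _ := by ring

end Crest.Agent.R012.MC
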