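import Crest.Agent.R012.Cst4_566
import Crest.Agent.R012.CharInst_766
import Crest.Agent.R012.GaussInst_880
import Crest.Agent.R012.Rho_777

/-!
# Row 12, item MC1 (5): the twisted first moment `SwR r`; noncube terms for `0 < δ < 3/7`
-/

set_option autoImplicit false

noncomputable section

open MeasureTheory Complex Set Filter Topology
open scoped ContDiff

namespace Crest.Agent.R012.MC

open Crest.Agent.R012 Crest.Agent.R012.Eis Crest.Agent.R012.Rho777

lemma psi_eq_chi (k : Eis) : psi k = Char766.chi k := rfl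

theorem pmod_psi {h Q : Eis} (hh : h ≠ 0) (hd : 9 * h ∣ Q) : PMod Q (psi h) :=
  Char766.pmod_chi_mod hh hd

theorem sumMod_psi {h : Eis} (hh : h ≠ 0) (hc : ¬ ∃ t, h = t ^ 3) {Q : Eis} (hQ : Q ≠ 0)
    (hd : 9 * h ∣ Q) : sumMod Q (psi h) = 0 := Char766.sumMod_chi_mod hh hc hQ hd

/-- the dual sum over `b` at frequency `k`, twisted by `r` -/
def TkR (r : Eis) (w v : ℝ → ℝ) (A B : ℝ) (k : Eis) : ℂ :=
  ∑' b : Eis, psi (r ^ 2 * k) b * (phi w v B (kap A k) (toC b) : ℂ)

section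

variable {w v : ℝ → ℝ}

lemma conj_sy_mul {r b : Eis} (hb : IsPrim b) (k : Eis) :
    (starRingEnd ℂ) (sy r b) * sy k b = sy (r ^ 2 * k) b := by
  rw [Sym645.sy_mul_left (prim_nm hb), Sym645.sy_pow_left (prim_nm hb),
    Gauss880.sy_sq_eq_conj Gauss880.syG hb]

lemma TkR_eq_sum (hv : Wgt v) {A B : ℝ} (hB : 0 < B) (r k : Eis) :
    TkR r w v A B k = ∑ b ∈ Fv hv hB, sy (r ^ 2 * k) b * (phi w v B (kap A k) (toC b) : ℂ) := by
  classical
  unfold TkR
  rw [tsum_eq_sum (s := Fv hv hB)]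
  · refine Finset.sum_congr rfl fun b hb => ?_
    rw [psi, if_pos ((mem_Fv hv hB).mp hb).2]
  · intro b hb
    rw [mem_Fv] at hb
    by_cases hp : IsPrim b
    · have : v (nm b / B) = 0 := by
        by_contra hcon
        exact hb ⟨hcon, hp⟩
      rw [phi_toC, this]
      simp
    · rw [psi, if_neg hp, zero_mul]

/-- The twisted first moment as a sum over dual frequencies. -/
theorem SwR_eq (hw : Wgt w) (hv : Wgt v) {A B : ℝ} (hA : 0 < A) (hB : 0 < B) {r : Eis}
    (hr : ∀ b, IsPrim b → IsCoprime r b) :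
    Summable (fun k : Eis => ek k * TkR r w v A B k) ∧
    SwR r w v A B = ((2 * A / (9 * Real.sqrt 3) : ℝ) : ℂ) * ∑' k : Eis, ek k * TkR r w v A B k := by
  classical
  set c : Eis → ℂ := fun b => (starRingEnd ℂ) (sy r b) *
    ((v (nm b / B) : ℂ) / (Real.sqrt (nm b) : ℂ)) with hc
  have hT : ∀ k : Eis, ek k * TkR r w v A B k =
      ∑ b ∈ Fv hv hB, c b * (sy k b * ek k * (Wt w (kap A k / ‖toC b‖) : ℂ)) := by
    intro k
    rw [TkR_eq_sum hv hB, Finset.mul_sum]
    refine Finset.sum_congr rfl fun b hb => ?_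
    have hbp := ((mem_Fv hv hB).mp hb).2
    rw [phi_toC, hc, ← conj_sy_mul hbp]
    push_cast
    ring
  have hsb : ∀ b ∈ Fv hv hB, Summable fun k : Eis =>
      c b * (sy k b * ek k * (Wt w (kap A k / ‖toC b‖) : ℂ)) := by
    intro b hb
    exact (dual_weight_summable hw hA ((mem_Fv hv hB).mp hb).2).mul_left _
  refine ⟨?_, ?_⟩
  · simp_rw [hT]
    exact summable_sum hsb
  · have hS : SwR r w v A B =
        ∑' a : Eis, ∑ b ∈ Fv hv hB, c b * (chiB b a * (w (nm a / A) : ℂ)) := by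
      unfold SwR
      refine tsum_congr fun a => ?_
      split_ifs with ha
      · rw [Mg_eq_sum hv hB, Finset.mul_sum]
        refine Finset.sum_congr rfl fun b hb => ?_
        have hbp := ((mem_Fv hv hB).mp hb).2
        rw [chiB, if_pos ha, hc, mul_comm r a, Gauss880.gs_mul_of_coprime Gauss880.syG hbp a (hr b hbp)]
        ring
      · symm
        refine Finset.sum_eq_zero fun b _ => ?_
        rw [chiB, if_neg ha]; ring
    rw [hS, Summable.tsum_finsetSum]
    · simp_rw [hT]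
      rw [Summable.tsum_finsetSum hsb, Finset.mul_sum]
      refine Finset.sum_congr rfl fun b hb => ?_
      rw [tsum_mul_left, tsum_mul_left, dual_weight hw hA ((mem_Fv hv hB).mp hb).2]
      ring
    · intro b _
      apply summable_of_hasFiniteSupport
      refine (hw.finite_support hA).subset ?_
      intro a ha
      simp only [Function.mem_support] at ha
      simp only [Set.mem_ofPred_eq]
      intro h0
      apply ha
      rw [h0]; simp

/-! ### trivial bound -/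

lemma psi_trivial (hv : Wgt v) : ∃ c : ℝ, 0 < c ∧ ∀ (w : ℝ → ℝ) (B κ : ℝ) (ψ : Eis → ℂ) (M : ℝ),
    1 ≤ B → (∀ b, ‖ψ b‖ ≤ 1) → (∀ z, |phi w v B κ z| ≤ M) →
    ‖∑' b : Eis, ψ b * (phi w v B κ (toC b) : ℂ)‖ ≤ c * B * M := by
  classical
  obtain ⟨c1, c2, h1, h2, h⟩ := phi_support hv
  have hc2 : 0 < c2 := h1.trans h2
  refine ⟨(3 * Real.sqrt c2 + 1) ^ 2, by positivity, fun w B κ ψ M hB hψ hM => ?_⟩
  have hB0 : 0 < B := by linarith
  have hM0 : 0 ≤ M := (abs_nonneg _).trans (hM 0)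
  obtain ⟨hDf, hDc⟩ := Strip880.disc_finite_card (0 : ℂ) (Real.sqrt (c2 * B)) (Real.sqrt_nonneg _)
  set D : Finset Eis := hDf.toFinset with hD
  have hDcard : (D.card : ℝ) ≤ (3 * Real.sqrt (c2 * B) + 1) ^ 2 := by
    rw [hD, ← Set.ncard_eq_toFinset_card _ hDf]
    exact hDc
  have hz : ∀ b ∉ D, ψ b * (phi w v B κ (toC b) : ℂ) = 0 := by
    intro b hb
    have : phi w v B κ (toC b) = 0 := by
      by_contra hcon
      apply hb
      rw [hD, Set.Finite.mem_toFinset]
      simp only [Set.mem_ofPred_eq, sub_zero]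
      exact Real.le_sqrt_of_sq_le (h w B _ hB0 _ hcon).2
    rw [this]; simp
  rw [tsum_eq_sum hz]
  calc ‖∑ b ∈ D, ψ b * (phi w v B κ (toC b) : ℂ)‖
      ≤ ∑ b ∈ D, ‖ψ b * (phi w v B κ (toC b) : ℂ)‖ := norm_sum_le _ _
    _ ≤ ∑ b ∈ D, M := by
        refine Finset.sum_le_sum fun b _ => ?_
        rw [norm_mul, Complex.norm_real, Real.norm_eq_abs]
        calc ‖ψ b‖ * |phi w v B κ (toC b)| ≤ 1 * M :=
              mul_le_mul (hψ b) (hM _) (abs_nonneg _) zero_le_one
          _ = M := one_mul M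
    _ = D.card * M := by rw [Finset.sum_const, nsmul_eq_mul]
    _ ≤ (3 * Real.sqrt (c2 * B) + 1) ^ 2 * M := mul_le_mul_of_nonneg_right hDcard hM0
    _ ≤ (3 * Real.sqrt c2 + 1) ^ 2 * B * M := by
        refine mul_le_mul_of_nonneg_right ?_ hM0
        have e : (3 * Real.sqrt c2 + 1) ^ 2 * B = (3 * Real.sqrt (c2 * B) + Real.sqrt B) ^ 2 := by
          rw [Real.sqrt_mul hc2.le]
          have : B = Real.sqrt B ^ 2 := (Real.sq_sqrt hB0.le).symm
          nth_rewrite 1 [this]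
          ring
        rw [e]
        have h1B : 1 ≤ Real.sqrt B := Real.one_le_sqrt.mpr hB
        gcongr

/-! ### noncube frequencies, `0 < δ < 3/7` -/

set_option maxHeartbeats 1600000 in
theorem TkR_noncube (hw : Wgt w) (hv : Wgt v) {r : Eis} (hr : r ≠ 0) {δ : ℝ} (hδ0 : 0 < δ)
    (hδ : δ < 3 / 7) :
    ∃ η θ C : ℝ, 0 < η ∧ θ < 1 / 2 + δ / 3 ∧ 0 ≤ C ∧ ∀ B : ℝ, 1 ≤ B → ∀ k : Eis, k ≠ 0 →
      (¬ ∃ m : Eis, r ^ 2 * k = m ^ 3) →
      ‖TkR r w v (B ^ (1 - δ)) B k‖ ≤ C * B ^ θ * (nm k : ℝ) ^ (-(1 + η)) := by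
  -- parameters
  obtain ⟨η, hη0, hη1, hη2⟩ : ∃ η : ℝ, 0 < η ∧ η ≤ 1 ∧ δ * (3 / 2 + 4 * η) < 1 / 2 + δ / 3 := by
    refine ⟨min 1 ((3 / 7 - δ) / 4), ?_, min_le_left _ _, ?_⟩
    · apply lt_min one_pos
      linarith
    · have h1 : min 1 ((3 / 7 - δ) / 4) ≤ (3 / 7 - δ) / 4 := min_le_right _ _
      nlinarith
  obtain ⟨j, hj⟩ : ∃ j : ℕ, (1 + η) ^ 2 / η ≤ j := exists_nat_ge _
  set θ : ℝ := max (1 / 2) (δ * (3 / 2 + 4 * η)) with hθ
  have hθlt : θ < 1 / 2 + δ / 3 := max_lt (by linarith) hη2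
  obtain ⟨CL, hCL, hlip⟩ := phi_lip hw hv
  obtain ⟨CS, hCS, hsize⟩ := phi_size hw hv (2 * j)
  obtain ⟨c1, c2, h1, h2, hsupp⟩ := phi_support hv
  obtain ⟨ct, hct, htriv⟩ := psi_trivial hv
  have hc2 : 0 < c2 := h1.trans h2
  set R2 : ℝ := ‖toC (r ^ 2)‖ with hR2
  have hR2n : 0 ≤ R2 := norm_nonneg _
  set K1 : ℝ := CL * 2 * (9 * R2) * (3 * Real.sqrt c2 + 4 * (9 * R2)) ^ 2 with hK1
  set K2 : ℝ := ct * (CS * 27 ^ j) with hK2
  have hK1' : 0 ≤ K1 := by positivity
  have hK2' : 0 ≤ K2 := by positivity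
  refine ⟨η, θ, K1 + K2, hη0, hθlt, by positivity, fun B hB k hk hkc => ?_⟩
  have hB0 : 0 < B := by linarith
  have hsB : 0 < Real.sqrt B := Real.sqrt_pos.mpr hB0
  set P : ℝ := B ^ δ with hP
  have hP1 : 1 ≤ P := Real.one_le_rpow hB hδ0.le
  have hP0 : 0 < P := by linarith
  have hPB : P ^ (1 + η) ≤ B := by
    rw [hP, ← Real.rpow_mul hB0.le]
    calc B ^ (δ * (1 + η)) ≤ B ^ (1 : ℝ) := by
          apply Real.rpow_le_rpow_of_exponent_le hB
          nlinarith
      _ = B := Real.rpow_one B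
  set n : ℝ := (nm k : ℝ) with hn
  have hn1 : 1 ≤ n := by
    have : 1 ≤ nm k := nm_pos.mpr hk
    rw [hn]
    exact_mod_cast this
  have hn0 : 0 < n := by linarith
  have hkn : ‖toC k‖ = Real.sqrt n := norm_toC k
  set β : ℝ := kap (B ^ (1 - δ)) k / Real.sqrt B with hβ
  have hβ0 : 0 ≤ β := div_nonneg (kap_nonneg _ _) hsB.le
  have hβ2 : β ^ 2 = n / (27 * P) := kap_sq hB0 k
  have hnη : 0 < n ^ (-(1 + η)) := Real.rpow_pos_of_pos hn0 _
  rcases le_or_gt n (P ^ (1 + η)) with hcase | hcase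
  · -- small frequencies
    have hrk : r ^ 2 * k ≠ 0 := mul_ne_zero (pow_ne_zero 2 hr) hk
    have h9 : (9 : Eis) ≠ 0 := by
      intro h9
      have := congrArg QuadraticAlgebra.re h9
      simp at this
    have h9k : (9 * (r ^ 2 * k) : Eis) ≠ 0 := mul_ne_zero h9 hrk
    have hper := pmod_psi hrk (dvd_refl (9 * (r ^ 2 * k)))
    have hmean := sumMod_psi hrk hkc h9k (dvd_refl _)
    have hbound := char_sum_bound h9k hper hmean (norm_psi_le _)
      (φ := fun z => (phi w v B (kap (B ^ (1 - δ)) k) z : ℂ))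
      (L := CL * (1 + β) / B) (R := Real.sqrt (c2 * B)) (by positivity) (Real.sqrt_nonneg _)
      (by
        intro z hz
        have : phi w v B (kap (B ^ (1 - δ)) k) z = 0 := by
          by_contra hcon
          have h3 := (hsupp w B _ hB0 z hcon).2
          have h4 : ‖z‖ ≤ Real.sqrt (c2 * B) := Real.le_sqrt_of_sq_le h3
          linarith
        simp only [this, Complex.ofReal_zero])
      (by
        intro z z'
        rw [← Complex.ofReal_sub, Complex.norm_real, Real.norm_eq_abs]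
        exact hlip B _ hB0 (kap_nonneg _ _) z z')
    have hq : ‖toC (9 * (r ^ 2 * k))‖ = 9 * R2 * Real.sqrt n := by
      have e9 : toC 9 = 9 := map_ofNat toC 9
      have e8 : ‖(9 : ℂ)‖ = 9 := by norm_num
      rw [map_mul toC 9, map_mul toC (r ^ 2) k, norm_mul, norm_mul, hkn, e9, e8, ← hR2]
      ring
    have hT : ‖TkR r w v (B ^ (1 - δ)) B k‖ ≤
        CL * (1 + β) / B * (9 * R2 * Real.sqrt n) *
          (3 * Real.sqrt (c2 * B) + 4 * (9 * R2 * Real.sqrt n)) ^ 2 := by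
      rw [hq] at hbound
      exact hbound
    have hβη : 1 + β ≤ 2 * P ^ (η / 2) := by
      have h1' : 1 ≤ P ^ (η / 2) := Real.one_le_rpow hP1 (by positivity)
      have h2' : β ≤ P ^ (η / 2) := by
        apply le_of_sq_le_sq _ (by positivity) |> fun h => h
        rw [hβ2, ← Real.rpow_natCast (P ^ (η / 2)) 2, ← Real.rpow_mul hP0.le,
          div_le_iff₀ (by positivity)]
        have e : P ^ (η / 2 * ((2 : ℕ) : ℝ)) * (27 * P) = 27 * P ^ (1 + η) := by
          rw [Real.rpow_add hP0, Real.rpow_one]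
          have : η / 2 * ((2 : ℕ) : ℝ) = η := by push_cast; ring
          rw [this]; ring
        rw [e]
        have : 0 < P ^ (1 + η) := by positivity
        linarith
      linarith
    have hsnB : Real.sqrt n ≤ Real.sqrt B := Real.sqrt_le_sqrt (hcase.trans hPB)
    have hsq : (3 * Real.sqrt (c2 * B) + 4 * (9 * R2 * Real.sqrt n)) ^ 2 ≤
        (3 * Real.sqrt c2 + 4 * (9 * R2)) ^ 2 * B := by
      have e : (3 * Real.sqrt c2 + 4 * (9 * R2)) ^ 2 * B =
          (3 * Real.sqrt (c2 * B) + 4 * (9 * R2 * Real.sqrt B)) ^ 2 := by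
        rw [Real.sqrt_mul hc2.le]
        have : B = Real.sqrt B ^ 2 := (Real.sq_sqrt hB0.le).symm
        nth_rewrite 1 [this]
        ring
      rw [e]
      gcongr
    have hfin : ‖TkR r w v (B ^ (1 - δ)) B k‖ ≤ K1 * (P ^ (η / 2) * Real.sqrt n) := by
      refine hT.trans ?_
      calc CL * (1 + β) / B * (9 * R2 * Real.sqrt n) *
            (3 * Real.sqrt (c2 * B) + 4 * (9 * R2 * Real.sqrt n)) ^ 2
          ≤ CL * (2 * P ^ (η / 2)) / B * (9 * R2 * Real.sqrt n) *
              ((3 * Real.sqrt c2 + 4 * (9 * R2)) ^ 2 * B) := by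
            gcongr
        _ = K1 * (P ^ (η / 2) * Real.sqrt n) := by
            rw [hK1]
            field_simp
    have hn3 : P ^ (η / 2) * Real.sqrt n ≤ B ^ θ * n ^ (-(1 + η)) := by
      rw [Real.rpow_neg hn0.le, ← div_eq_mul_inv, le_div_iff₀ (by positivity), Real.sqrt_eq_rpow,
        mul_assoc, ← Real.rpow_add hn0]
      have h3 : n ^ (1 / 2 + (1 + η)) ≤ (P ^ (1 + η)) ^ (1 / 2 + (1 + η)) :=
        Real.rpow_le_rpow hn0.le hcase (by positivity)
      calc P ^ (η / 2) * n ^ (1 / 2 + (1 + η))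
          ≤ P ^ (η / 2) * (P ^ (1 + η)) ^ (1 / 2 + (1 + η)) := by gcongr
        _ = P ^ (η / 2 + (1 + η) * (1 / 2 + (1 + η))) := by
            rw [← Real.rpow_mul hP0.le, ← Real.rpow_add hP0]
        _ ≤ P ^ (3 / 2 + 4 * η) := by
            apply Real.rpow_le_rpow_of_exponent_le hP1
            nlinarith
        _ = B ^ (δ * (3 / 2 + 4 * η)) := by
            rw [hP, ← Real.rpow_mul hB0.le]
        _ ≤ B ^ θ := Real.rpow_le_rpow_of_exponent_le hB (le_max_right _ _)
    calc ‖TkR r w v (B ^ (1 - δ)) B k‖ ≤ K1 * (P ^ (η / 2) * Real.sqrt n) := hfin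
      _ ≤ K1 * (B ^ θ * n ^ (-(1 + η))) := mul_le_mul_of_nonneg_left hn3 hK1'
      _ ≤ (K1 + K2) * (B ^ θ * n ^ (-(1 + η))) := by
          refine mul_le_mul_of_nonneg_right (by linarith) (by positivity)
      _ = _ := by ring
  · -- large frequencies
    have hβ8 : β ^ (2 * j) = (n / (27 * P)) ^ j := by
      rw [pow_mul, hβ2]
    have hkey : n ^ (1 + η) * P ^ j ≤ n ^ j := by
      have hPn : P ≤ n ^ (1 / (1 + η)) := by
        have h3 : (P ^ (1 + η)) ^ (1 / (1 + η)) ≤ n ^ (1 / (1 + η)) :=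
          Real.rpow_le_rpow (by positivity) hcase.le (by positivity)
        rw [← Real.rpow_mul hP0.le] at h3
        have e : (1 + η) * (1 / (1 + η)) = 1 := by field_simp
        rwa [e, Real.rpow_one] at h3
      have h4 : P ^ j ≤ n ^ (1 / (1 + η) * j) := by
        calc P ^ j ≤ (n ^ (1 / (1 + η))) ^ j := pow_le_pow_left₀ hP0.le hPn j
          _ = n ^ (1 / (1 + η) * j) := by rw [Real.rpow_mul hn0.le, Real.rpow_natCast]
      calc n ^ (1 + η) * P ^ j ≤ n ^ (1 + η) * n ^ (1 / (1 + η) * j) := by gcongr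
        _ = n ^ (1 + η + 1 / (1 + η) * j) := by rw [← Real.rpow_add hn0]
        _ ≤ n ^ (j : ℝ) := by
            apply Real.rpow_le_rpow_of_exponent_le hn1
            have h5 : (1 + η) ^ 2 ≤ η * j := by
              rw [div_le_iff₀ hη0] at hj
              linarith
            have h6 : 1 + η + 1 / (1 + η) * j = ((1 + η) ^ 2 + j) / (1 + η) := by
              field_simp
            rw [h6, div_le_iff₀ (by positivity)]
            linarith
        _ = n ^ j := Real.rpow_natCast n j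
    have hM : ∀ z, |phi w v B (kap (B ^ (1 - δ)) k) z| ≤
        CS * 27 ^ j * (Real.sqrt B)⁻¹ * n ^ (-(1 + η)) := by
      intro z
      have h3 := hsize B _ hB0 (kap_nonneg (B ^ (1 - δ)) k) z
      rw [← hβ, hβ8] at h3
      have h4 : n ^ (1 + η) / 27 ^ j ≤ (n / (27 * P)) ^ j := by
        rw [div_pow, mul_pow, div_le_div_iff₀ (by positivity) (by positivity)]
        calc n ^ (1 + η) * (27 ^ j * P ^ j) = (n ^ (1 + η) * P ^ j) * 27 ^ j := by ring
          _ ≤ n ^ j * 27 ^ j := by gcongr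
      have h6 : |phi w v B (kap (B ^ (1 - δ)) k) z| * (n ^ (1 + η) / 27 ^ j) ≤
          CS * (Real.sqrt B)⁻¹ := (mul_le_mul_of_nonneg_left h4 (abs_nonneg _)).trans h3
      have h7 : |phi w v B (kap (B ^ (1 - δ)) k) z| ≤
          CS * (Real.sqrt B)⁻¹ / (n ^ (1 + η) / 27 ^ j) := by
        rw [le_div_iff₀ (by positivity)]
        exact h6
      refine h7.trans (le_of_eq ?_)
      rw [Real.rpow_neg hn0.le]
      field_simp
    have hT := htriv w B (kap (B ^ (1 - δ)) k) (psi (r ^ 2 * k)) _ hB (norm_psi_le _) hM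
    have hsθ : Real.sqrt B ≤ B ^ θ := by
      rw [Real.sqrt_eq_rpow]
      exact Real.rpow_le_rpow_of_exponent_le hB (le_max_left _ _)
    calc ‖TkR r w v (B ^ (1 - δ)) B k‖
        ≤ ct * B * (CS * 27 ^ j * (Real.sqrt B)⁻¹ * n ^ (-(1 + η))) := hT
      _ = K2 * (Real.sqrt B * n ^ (-(1 + η))) := by
          rw [hK2]
          have : B = Real.sqrt B * Real.sqrt B := (Real.mul_self_sqrt hB0.le).symm
          nth_rewrite 1 [this]
          field_simp
      _ ≤ (K1 + K2) * (B ^ θ * n ^ (-(1 + η))) := by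
          refine mul_le_mul (by linarith) ?_ (by positivity) (by positivity)
          exact mul_le_mul_of_nonneg_right hsθ hnη.le
      _ = _ := by ring

end

end Crest.Agent.R012.MC
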