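import Crest.Agent.R012.Cst5_566

/-!
# Row 12, item MC1 (6): cubes, phases, and the final assembly

Input: `CubeLimit` (helper777, `Cube_777`).  Output: `first_moment_limit`.
-/

set_option autoImplicit false

noncomputable section

open MeasureTheory Complex Set Filter Topology
open scoped ContDiff

namespace Crest.Agent.R012.MC

open Crest.Agent.R012 Crest.Agent.R012.Eis Crest.Agent.R012.Rho777

open Classical in
/-- the term at a cube -/
def Xt (w v : ℝ → ℝ) (N0 A B : ℝ) (m : Eis) : ℝ :=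
  if m = 0 then 0 else ∑' b : Eis, if IsPrim b ∧ IsCoprime m b then
    phi w v B (Real.sqrt (A * N0 * (nm m : ℝ) ^ 3) / (3 * Real.sqrt 3)) (toC b) else 0

open Classical in
/-- the sum over cubes -/
def Xc (w v : ℝ → ℝ) (N0 A B : ℝ) : ℝ :=
  ∑' m : Eis, if m = 0 then 0 else ∑' b : Eis, if IsPrim b ∧ IsCoprime m b then
    phi w v B (Real.sqrt (A * N0 * (nm m : ℝ) ^ 3) / (3 * Real.sqrt 3)) (toC b) else 0

lemma Xc_eq (w v : ℝ → ℝ) (N0 A B : ℝ) : Xc w v N0 A B = ∑' m : Eis, Xt w v N0 A B m := rfl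

/-- The asymptotics of the sum over cubes (helper777). -/
def CubeLimit : Prop :=
  ∀ w v : ℝ → ℝ, Wgt w → Wgt v → ∀ N0 : ℝ, 0 < N0 → ∀ δ : ℝ, 0 < δ → δ < 1 →
    Tendsto (fun B : ℝ => Xc w v N0 (B ^ (1 - δ)) B / B ^ (-(1 - δ) / 3 + 5 / 6)) atTop
      (𝓝 (N0 ^ (-(1 / 3) : ℝ) * (4 * Real.pi / Real.sqrt 3) * Iw w * mel v (5 / 6) * Dc))

/-! ### the map `m ↦ r m³` is three to one -/

lemma cube_eq_cube {m s : Eis} (h : m ^ 3 = s ^ 3) : m = s ∨ m = w * s ∨ m = w ^ 2 * s := by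
  have hf : (m - s) * ((m - w * s) * (m - w ^ 2 * s)) = 0 := by
    have e : (m - s) * ((m - w * s) * (m - w ^ 2 * s)) =
        m ^ 3 - s ^ 3 * w ^ 3 - m ^ 2 * s * (1 + w + w ^ 2) + m * s ^ 2 * (w ^ 2 + w + w ^ 3) := by
      ring
    rw [e, w_cube, one_add_w_add, h]
    have : (w ^ 2 + w + 1 : Eis) = 0 := by rw [← one_add_w_add]; ring
    rw [this]; ring
  rcases mul_eq_zero.mp hf with h1 | h1
  · exact Or.inl (sub_eq_zero.mp h1)
  · rcases mul_eq_zero.mp h1 with h2 | h2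
    · exact Or.inr (Or.inl (sub_eq_zero.mp h2))
    · exact Or.inr (Or.inr (sub_eq_zero.mp h2))

/-- nonzero elements of the form `r m³` -/
def Cub (r : Eis) : Set Eis := {k | k ≠ 0 ∧ ∃ m, k = r * m ^ 3}

/-- a cube root section -/
def sec (r : Eis) (k : Cub r) : Eis := k.2.2.choose

lemma sec_spec (r : Eis) (k : Cub r) : (k : Eis) = r * sec r k ^ 3 := k.2.2.choose_spec

lemma sec_ne (r : Eis) (k : Cub r) : sec r k ≠ 0 := by
  intro h
  apply k.2.1
  rw [sec_spec r k, h]; ring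

lemma w_ne_zero : (w : Eis) ≠ 0 := by
  intro h
  have := congrArg QuadraticAlgebra.im h
  simp at this

lemma wpow_cube (i : ℕ) : (w ^ i : Eis) ^ 3 = 1 := by
  rw [← pow_mul, mul_comm, pow_mul, w_cube, one_pow]

/-- `Cub r × Fin 3 ≃ {m ≠ 0}` -/
def cubEquiv {r : Eis} (hr : r ≠ 0) : Cub r × Fin 3 ≃ {m : Eis // m ≠ 0} :=
  Equiv.ofBijective
    (fun p => ⟨w ^ (p.2 : ℕ) * sec r p.1, mul_ne_zero (pow_ne_zero _ w_ne_zero) (sec_ne r p.1)⟩) (by
    constructor
    · rintro ⟨k, i⟩ ⟨l, j⟩ h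
      have h0 : w ^ (i : ℕ) * sec r k = w ^ (j : ℕ) * sec r l := congrArg Subtype.val h
      have hk : (k : Eis) = l := by
        have h1 : (w ^ (i : ℕ) * sec r k) ^ 3 = (w ^ (j : ℕ) * sec r l) ^ 3 := by rw [h0]
        rw [mul_pow, mul_pow, wpow_cube, wpow_cube, one_mul, one_mul] at h1
        rw [sec_spec r k, sec_spec r l, h1]
      have hkl : k = l := Subtype.ext hk
      subst hkl
      have h2 : (w : Eis) ^ (i : ℕ) = w ^ (j : ℕ) := mul_right_cancel₀ (sec_ne r k) h0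
      have h3 : (i : ℕ) = j := (Char766.w_pow_inj i.2 j.2 (Or.inl h2)).1
      rw [Fin.ext h3]
    · rintro ⟨m, hm⟩
      have hk : r * m ^ 3 ∈ Cub r := ⟨mul_ne_zero hr (pow_ne_zero 3 hm), m, rfl⟩
      have h1 : m ^ 3 = sec r ⟨_, hk⟩ ^ 3 := by
        have := sec_spec r ⟨_, hk⟩
        exact mul_left_cancel₀ hr this
      rcases cube_eq_cube h1 with h | h | h
      · exact ⟨(⟨_, hk⟩, 0), Subtype.ext (by simpa using h.symm)⟩
      · exact ⟨(⟨_, hk⟩, 1), Subtype.ext (by simpa using h.symm)⟩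
      · exact ⟨(⟨_, hk⟩, 2), Subtype.ext (by simpa using h.symm)⟩)

lemma cubEquiv_cube {r : Eis} (hr : r ≠ 0) (p : Cub r × Fin 3) :
    r * ((cubEquiv hr p : {m : Eis // m ≠ 0}) : Eis) ^ 3 = (p.1 : Eis) := by
  have : ((cubEquiv hr p : {m : Eis // m ≠ 0}) : Eis) = w ^ (p.2 : ℕ) * sec r p.1 := rfl
  rw [this, mul_pow, wpow_cube, one_mul, ← sec_spec]

open Classical in
lemma tsum_cubes {r : Eis} (hr : r ≠ 0) {g : Eis → ℂ} (hg : Summable g) :
    Summable (fun m : Eis => if m = 0 then 0 else g (r * m ^ 3)) ∧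
    ∑' m : Eis, (if m = 0 then 0 else g (r * m ^ 3)) =
      3 * ∑' k : Eis, (if k ∈ Cub r then g k else 0) := by
  have hgC : Summable (fun k : Cub r => g k) := hg.subtype _
  have hgP : Summable (fun p : Cub r × Fin 3 => g p.1) := by
    have h1 : Summable fun p : Fin 3 × Cub r => g p.2 := by
      have : Summable (fun k : Cub r => ‖g k‖) := hgC.norm
      refine Summable.of_norm ?_
      rw [summable_prod_of_nonneg (fun _ => norm_nonneg _)]
      exact ⟨fun _ => this, summable_of_hasFiniteSupport (Set.toFinite _)⟩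
    exact (Equiv.prodComm (Cub r) (Fin 3)).summable_iff.mpr h1
  have hgM : Summable (fun m : {m : Eis // m ≠ 0} => g (r * (m : Eis) ^ 3)) := by
    rw [← (cubEquiv hr).summable_iff]
    refine hgP.congr fun p => ?_
    simp only [Function.comp]
    rw [cubEquiv_cube]
  have hind : (fun m : Eis => if m = 0 then 0 else g (r * m ^ 3)) =
      Set.indicator {m : Eis | m ≠ 0} (fun m => g (r * m ^ 3)) := by
    funext m
    by_cases h : m = 0
    · simp [h]
    · simp [h]
  have hind2 : (fun k : Eis => if k ∈ Cub r then g k else 0) = Set.indicator (Cub r) g := by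
    funext k
    by_cases h : k ∈ Cub r
    · simp [h]
    · simp [h]
  constructor
  · rw [hind, ← summable_subtype_iff_indicator]
    exact hgM
  · rw [hind, hind2, ← tsum_subtype, ← tsum_subtype]
    have e1 : ∑' m : ({m : Eis | m ≠ 0} : Set Eis), g (r * (m : Eis) ^ 3) =
        ∑' p : Cub r × Fin 3, g p.1 := by
      refine ((cubEquiv hr).tsum_eq (fun m : {m : Eis // m ≠ 0} => g (r * (m : Eis) ^ 3))).symm.trans ?_
      refine tsum_congr fun p => ?_
      rw [cubEquiv_cube]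
    rw [e1, hgP.tsum_prod]
    simp only [tsum_fintype, Finset.sum_const, Finset.card_univ, Fintype.card_fin, nsmul_eq_mul]
    rw [tsum_mul_left]
    norm_num

/-! ### phases -/

lemma ek_eq (k : Eis) : ek k = Complex.exp (2 * Real.pi * Complex.I * ((k.im : ℂ) / 3)) := by
  unfold ek eC
  congr 2
  have h1 : toC k / (3 * Po581.iS3) = Po581.dl k * ((1 / 3 : ℝ) : ℂ) := by
    unfold Po581.dl
    have := Po581.iS3_ne_zero
    push_cast
    field_simp
  rw [h1, Complex.add_conj, Complex.mul_re, Complex.ofReal_re, Complex.ofReal_im, Po581.dl_re]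
  push_cast
  ring

lemma ek_zero : ek 0 = 1 := by rw [ek_eq]; simp

lemma ek_cube_pow (k : Eis) : ek k ^ 3 = 1 := by
  rw [ek_eq, ← Complex.exp_nat_mul]
  rw [Complex.exp_eq_one_iff]
  exact ⟨k.im, by push_cast; ring⟩

lemma ek_one_iff (k : Eis) : ek k = 1 ↔ (3 : ℤ) ∣ k.im := by
  rw [ek_eq, Complex.exp_eq_one_iff]
  have hpi : (2 * Real.pi * Complex.I : ℂ) ≠ 0 := Complex.two_pi_I_ne_zero
  constructor
  · rintro ⟨n, hn⟩
    refine ⟨n, ?_⟩
    have h1 : (k.im : ℂ) / 3 = n := by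
      apply mul_left_cancel₀ hpi
      rw [hn]; ring
    have h2 : (k.im : ℂ) = ((3 * n : ℤ) : ℂ) := by
      push_cast
      linear_combination 3 * h1
    exact_mod_cast h2
  · rintro ⟨n, hn⟩
    refine ⟨n, ?_⟩
    rw [hn]; push_cast; ring

lemma ek_neg_mul (k : Eis) : ek k * ek (-k) = 1 := by
  rw [ek_eq, ek_eq, ← Complex.exp_add, Complex.exp_eq_one_iff]
  refine ⟨0, ?_⟩
  simp
  ring

lemma ek_add_neg {k : Eis} (h : ¬ (3 : ℤ) ∣ k.im) : ek k + ek (-k) = -1 := by
  have h1 : ek k ≠ 1 := fun h' => h ((ek_one_iff k).mp h')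
  have h3 := ek_cube_pow k
  have h2 : (ek k - 1) * (ek k ^ 2 + ek k + 1) = 0 := by
    linear_combination h3
  rcases mul_eq_zero.mp h2 with h4 | h4
  · exact absurd (sub_eq_zero.mp h4) h1
  · have h5 : ek (-k) = ek k ^ 2 := by
      have h6 := ek_neg_mul k
      have h7 : ek k * (ek (-k) - ek k ^ 2) = 0 := by linear_combination h6 - h3
      rcases mul_eq_zero.mp h7 with h8 | h8
      · rw [h8] at h3; simp at h3
      · exact sub_eq_zero.mp h8
    rw [h5]; linear_combination h4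

lemma im_cube (m : Eis) : (m ^ 3).im = 3 * (m.re * m.im * (m.re - m.im)) := by
  have : m ^ 3 = m * m * m := by ring
  rw [this]; simp only [im_mul', re_mul']; ring

lemma re_cube (m : Eis) : (m ^ 3).re = m.re ^ 3 + m.im ^ 3 - 3 * (m.re * m.im ^ 2) := by
  have : m ^ 3 = m * m * m := by ring
  rw [this]; simp only [im_mul', re_mul']; ring

lemma im_r_cube_mod (r m : Eis) :
    (3 : ℤ) ∣ (r * m ^ 3).im - r.im * (m.re + m.im) := by
  rw [im_mul', im_cube, re_cube]
  have h1 : (3 : ℤ) ∣ m.re ^ 3 - m.re := by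
    have : m.re ^ 3 - m.re = (m.re - 1) * m.re * (m.re + 1) := by ring
    rw [this]
    have h : m.re % 3 = 0 ∨ m.re % 3 = 1 ∨ m.re % 3 = 2 := by omega
    rcases h with h | h | h
    · exact (Dvd.dvd.mul_left (by omega) _).mul_right _
    · exact (Dvd.dvd.mul_right (by omega) _).mul_right _
    · exact Dvd.dvd.mul_left (by omega) _
  have h2 : (3 : ℤ) ∣ m.im ^ 3 - m.im := by
    have : m.im ^ 3 - m.im = (m.im - 1) * m.im * (m.im + 1) := by ring
    rw [this]
    have h : m.im % 3 = 0 ∨ m.im % 3 = 1 ∨ m.im % 3 = 2 := by omega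
    rcases h with h | h | h
    · exact (Dvd.dvd.mul_left (by omega) _).mul_right _
    · exact (Dvd.dvd.mul_right (by omega) _).mul_right _
    · exact Dvd.dvd.mul_left (by omega) _
  obtain ⟨x, hx⟩ := h1
  obtain ⟨y, hy⟩ := h2
  refine ⟨r.re * (m.re * m.im * (m.re - m.im)) - r.im * (m.re * m.im ^ 2) -
    r.im * (m.re * m.im * (m.re - m.im)) + r.im * x + r.im * y, ?_⟩
  have hx' : m.re ^ 3 = m.re + 3 * x := by linarith
  have hy' : m.im ^ 3 = m.im + 3 * y := by linarith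
  rw [hx', hy']
  ring

/-- the phase at `r m³`, `3 ∣ Im r`. -/
lemma ek_cube_A {r : Eis} (h : (3 : ℤ) ∣ r.im) (m : Eis) : ek (r * m ^ 3) = 1 := by
  rw [ek_one_iff]
  have h1 := im_r_cube_mod r m
  have h2 : (3 : ℤ) ∣ r.im * (m.re + m.im) := h.mul_right _
  have := dvd_add h1 h2
  simpa using this

open Classical in
/-- the averaged phase at `r m³`, `3 ∤ Im r`. -/
lemma ek_cube_B {r : Eis} (h : ¬ (3 : ℤ) ∣ r.im) (m : Eis) :
    ek (r * m ^ 3) + ek (r * (-m) ^ 3) = 3 * (if lam ∣ m then 1 else 0) - 1 := by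
  have hneg : r * (-m) ^ 3 = -(r * m ^ 3) := by ring
  rw [hneg]
  have h1 := im_r_cube_mod r m
  by_cases hm : lam ∣ m
  · rw [if_pos hm]
    have h2 : (3 : ℤ) ∣ m.re + m.im := lam_dvd_iff.mp hm
    have h3 : (3 : ℤ) ∣ (r * m ^ 3).im := by
      have := dvd_add h1 (h2.mul_left r.im)
      simpa using this
    have h4 : ek (r * m ^ 3) = 1 := (ek_one_iff _).mpr h3
    have h5 : ek (-(r * m ^ 3)) = 1 := by
      have := ek_neg_mul (r * m ^ 3)
      rwa [h4, one_mul] at this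
    rw [h4, h5]; norm_num
  · rw [if_neg hm]
    have h2 : ¬ (3 : ℤ) ∣ m.re + m.im := fun h' => hm (lam_dvd_iff.mpr h')
    have h3 : ¬ (3 : ℤ) ∣ (r * m ^ 3).im := by
      intro h4
      have h5 : (3 : ℤ) ∣ r.im * (m.re + m.im) := by
        have := dvd_sub h4 h1
        simpa using this
      rcases (Int.prime_three.dvd_mul).mp h5 with h6 | h6
      · exact h h6
      · exact h2 h6
    rw [ek_add_neg h3]; norm_num

/-! ### the dual sum at cubes -/

section

variable {w v : ℝ → ℝ}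

lemma kap_cube {A : ℝ} (hA : 0 ≤ A) (r m : Eis) :
    kap A (r * m ^ 3) = Real.sqrt (A * (nm r : ℝ) * (nm m : ℝ) ^ 3) / (3 * Real.sqrt 3) := by
  unfold kap
  rw [norm_toC, nm_mul, nm_pow, mul_assoc, Real.sqrt_mul hA]
  push_cast
  rfl

lemma psi_cube {r b m : Eis} (hr : ∀ b, IsPrim b → IsCoprime r b) :
    open Classical in
    psi (r ^ 2 * (r * m ^ 3)) b = if IsPrim b ∧ IsCoprime m b then 1 else 0 := by
  classical
  unfold psi
  by_cases hb : IsPrim b
  · rw [if_pos hb]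
    have e : r ^ 2 * (r * m ^ 3) = (r * m) ^ 3 := by ring
    rw [e, Sym645.sy_pow_left (prim_nm hb)]
    by_cases hm : IsCoprime m b
    · rw [if_pos ⟨hb, hm⟩]
      exact Sym645.sy_cube (prim_nm hb) ((hr b hb).mul_left hm)
    · rw [if_neg (fun h => hm h.2)]
      have : sy (r * m) b = 0 := by
        rw [Sym645.sy_eq_zero_iff (prim_nm hb)]
        intro h
        exact hm h.of_mul_left_right
      rw [this]; norm_num
  · rw [if_neg hb, if_neg (fun h => hb h.1)]

lemma TkR_cube {r : Eis} (hr : ∀ b, IsPrim b → IsCoprime r b) {A B : ℝ} (hA : 0 ≤ A) {m : Eis}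
    (hm : m ≠ 0) : TkR r w v A B (r * m ^ 3) = (Xt w v (nm r) A B m : ℂ) := by
  classical
  unfold TkR Xt
  rw [if_neg hm, Complex.ofReal_tsum]
  refine tsum_congr fun b => ?_
  rw [psi_cube hr, kap_cube hA]
  split_ifs <;> simp

lemma Xt_neg (N0 A B : ℝ) (m : Eis) : Xt w v N0 A B (-m) = Xt w v N0 A B m := by
  classical
  unfold Xt
  by_cases hm : m = 0
  · simp [hm]
  · rw [if_neg hm, if_neg (neg_ne_zero.mpr hm), nm_neg]
    refine tsum_congr fun b => ?_
    rw [IsCoprime.neg_left_iff]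

lemma isCoprime_lam_mul {m b : Eis} (hb : IsPrim b) : IsCoprime (lam * m) b ↔ IsCoprime m b := by
  constructor
  · intro h; exact h.of_mul_left_right
  · intro h; exact hb.isCoprime_lam.symm.mul_left h

lemma Xt_lam (N0 A B : ℝ) (m : Eis) : Xt w v N0 A B (lam * m) = Xt w v (27 * N0) A B m := by
  classical
  unfold Xt
  by_cases hm : m = 0
  · simp [hm]
  · rw [if_neg hm, if_neg (mul_ne_zero lam_ne_zero hm), nm_mul, nm_lam]
    refine tsum_congr fun b => ?_
    have e : A * N0 * (((3 * nm m : ℕ) : ℝ)) ^ 3 = A * (27 * N0) * (nm m : ℝ) ^ 3 := by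
      push_cast; ring
    rw [e]
    by_cases hb : IsPrim b
    · simp only [isCoprime_lam_mul hb]
    · simp [hb]

end

end Crest.Agent.R012.MC
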