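import Crest.Agent.R012.Cst7_566
import Crest.Agent.R012.Cube_777
import Crest.Agent.R012.TateS_413
import Crest.Agent.R012.Rho2_777

/-!
# Row 12, items MC: the value of `|ρ(r)|²` for `r = unit · λ^j`, `j ≤ 2`, from `MS ρ`, `RhoRel ρ`
-/

set_option autoImplicit false

noncomputable section

open MeasureTheory Complex Set Filter Topology

namespace Crest.Agent.R012.MC

open Crest.Agent.R012 Crest.Agent.R012.Eis Crest.Agent.R012.Rho777

theorem cubeLimit : CubeLimit := Cube777.cube_limit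

/-- **Item MC1**, unconditional. -/
theorem mc1 {w v : ℝ → ℝ} (hw : Wgt w) (hv : Wgt v) {u : Eis} (hu : IsUnit u) {j : ℕ}
    (hj : j ≤ 2) {δ : ℝ} (hδ0 : 0 < δ) (hδ : δ < 3 / 7) :
    Tendsto (fun B : ℝ => SwR (u * lam ^ j) w v (B ^ (1 - δ)) B /
        ((B ^ (2 / 3 * (1 - δ) + 5 / 6 : ℝ) : ℝ) : ℂ)) atTop
      (𝓝 ((8 * Real.pi / 81 * Dc * Iw w * mel v (5 / 6) * kapR (u * lam ^ j) : ℝ) : ℂ)) :=
  first_moment_limit_unit_lam cubeLimit hw hv hu hj hδ0 hδ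

lemma Iw_val (w : ℝ → ℝ) (hw : Wgt w) : Iw w = Real.pi ^ (1 / 3 : ℝ) * 2 ^ (-5 / 3 : ℝ) *
      Real.Gamma (1 / 3) / Real.Gamma (2 / 3) * mel w (2 / 3) := by
  rw [TateC413.Iw_eq hw]
  norm_num

lemma lamish_unit_lam {u : Eis} (hu : IsUnit u) (j : ℕ) : Lamish (u * lam ^ j) := by
  refine ⟨mul_ne_zero hu.ne_zero (pow_ne_zero _ lam_ne_zero), fun p hp hpp h => ?_⟩
  have h1 : p ∣ lam ^ j := by
    rcases hp.dvd_or_dvd h with h | h
    · exact absurd (isUnit_of_dvd_unit h hu) hp.not_isUnit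
    · exact h
  have h2 : p ∣ lam := hp.dvd_of_dvd_pow h1
  have h3 : lam ∣ p := ((hp.associated_of_dvd prime_lam h2).symm).dvd
  exact hpp.not_lam_dvd h3

/-- **Item MC**: the size of the residues. -/
theorem rho_norm_sq {ρ : Eis → ℂ} (hMS : M49.MS ρ) (hρ : M49.RhoRel ρ) {u : Eis} (hu : IsUnit u)
    {j : ℕ} (hj : j ≤ 2) : ‖ρ (u * lam ^ j)‖ ^ 2 = (pC * Dc) ^ 2 * kapR (u * lam ^ j) :=
  rho_sq_of_spec Gauss880.syG hMS hρ (lamish_unit_lam hu j) (δ := 2 / 5) (by norm_num)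
    (by norm_num) (fun _ _ hw hv => mc1 hw hv hu hj (by norm_num) (by norm_num)) Iw_val

theorem rho_one_norm_sq {ρ : Eis → ℂ} (hMS : M49.MS ρ) (hρ : M49.RhoRel ρ) :
    ‖ρ 1‖ ^ 2 = (pC * M49.Dsf) ^ 2 := by
  have h := rho_norm_sq hMS hρ isUnit_one (j := 0) (by norm_num)
  rw [pow_zero, mul_one, kapR_one, mul_one, ← Dsf_eq] at h
  exact h

end Crest.Agent.R012.MC
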