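import Crest.Agent.R012.LatDec_413

/-!
# Row 12 (MK12): weighted lattice sums over `Eis`

For `a : Eis → ℝ` with `|a d| ≤ 1 / nm d` put `Pw a m = ∑' d, if d ∣ m then a d else 0`.
Then `∑_{m ≠ 0} Pw a m • f (m / S) = (2/√3) (∑' d, a d / nm d) S² ∫ f + O(S^β)`.

* `weighted` : abstract version.
* `weighted_decay` : for functions in the decay class (`C²` compactly supported, Schwartz), every
  `0 < β ≤ 2`.
-/

set_option autoImplicit false

noncomputable section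

open MeasureTheory Set

namespace Crest.Agent.R012.LatSum413

open Crest.Agent.R012 Crest.Agent.R012.Eis

/-! ### Summability of `nm z ^ (-s)` -/

lemma summable_nm_rpow {s : ℝ} (hs : 1 < s) : Summable (fun z : Eis => (nm z : ℝ) ^ (-s)) := by
  have h := EisensteinSeries.summable_one_div_norm_rpow (k := 2 * s) (by linarith)
  let e : (Fin 2 → ℤ) ≃ Eis :=
    { toFun := fun x => ⟨x 0, x 1⟩
      invFun := fun z => ![z.re, z.im]
      left_inv := fun x => by ext i; fin_cases i <;> rfl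
      right_inv := fun z => rfl }
  rw [← e.summable_iff]
  refine (h.mul_left (2 ^ s)).of_nonneg_of_le (fun x => by
    simp only [Function.comp_apply]; positivity) (fun x => ?_)
  simp only [Function.comp_apply]
  by_cases hx : x = 0
  · subst hx
    have : nm (e 0) = 0 := by rw [nm_eq_zero]; rfl
    rw [this, Nat.cast_zero, Real.zero_rpow (by linarith), norm_zero, Real.zero_rpow (by linarith)]
    simp
  · have hxn : 0 < ‖x‖ := norm_pos_iff.mpr hx
    have hb : ‖x‖ ^ 2 ≤ 2 * (nm (e x) : ℝ) := by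
      have hnm : ((nm (e x) : ℕ) : ℝ) = (x 0 : ℝ) ^ 2 - x 0 * x 1 + (x 1 : ℝ) ^ 2 := by
        have : ((nm (e x) : ℤ) : ℝ) = (x 0 : ℝ) ^ 2 - x 0 * x 1 + (x 1 : ℝ) ^ 2 := by
          rw [nm_cast]; push_cast; rfl
        rw [← this]; norm_cast
      rw [hnm]
      have hle : ‖x‖ ≤ max |(x 0 : ℝ)| |(x 1 : ℝ)| := by
        rw [pi_norm_le_iff_of_nonneg (by positivity)]
        intro i
        fin_cases i
        · simp only [Fin.zero_eta, Int.norm_eq_abs]; exact le_max_left _ _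
        · simp only [Fin.mk_one, Int.norm_eq_abs]; exact le_max_right _ _
      rcases max_cases |(x 0 : ℝ)| |(x 1 : ℝ)| with ⟨h1, _⟩ | ⟨h1, _⟩ <;> rw [h1] at hle
      · have := pow_le_pow_left₀ (norm_nonneg x) hle 2
        rw [sq_abs] at this
        nlinarith [sq_nonneg ((x 0 : ℝ) - 2 * x 1)]
      · have := pow_le_pow_left₀ (norm_nonneg x) hle 2
        rw [sq_abs] at this
        nlinarith [sq_nonneg ((x 1 : ℝ) - 2 * x 0)]
    have h2 : (2 * (nm (e x) : ℝ)) ^ (-s) ≤ (‖x‖ ^ 2) ^ (-s) :=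
      Real.rpow_le_rpow_of_nonpos (by positivity) hb (by linarith)
    rw [Real.mul_rpow (by norm_num) (by positivity)] at h2
    have h3 : (‖x‖ ^ 2) ^ (-s) = ‖x‖ ^ (-(2 * s)) := by
      rw [← Real.rpow_natCast, ← Real.rpow_mul (norm_nonneg _)]
      congr 1; push_cast; ring
    rw [h3] at h2
    have h4 : (2 : ℝ) ^ s * (2 : ℝ) ^ (-s) = 1 := by
      rw [← Real.rpow_add (by norm_num)]; simp
    calc (nm (e x) : ℝ) ^ (-s) = (2 : ℝ) ^ s * (2 : ℝ) ^ (-s) * (nm (e x) : ℝ) ^ (-s) := by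
          rw [h4, one_mul]
      _ = (2 : ℝ) ^ s * ((2 : ℝ) ^ (-s) * (nm (e x) : ℝ) ^ (-s)) := by ring
      _ ≤ (2 : ℝ) ^ s * ‖x‖ ^ (-(2 * s)) := by gcongr

/-- `∑' z : Eis, nm z ^ (-s)`. -/
def Zs (s : ℝ) : ℝ := ∑' z : Eis, (nm z : ℝ) ^ (-s)

lemma Zs_nonneg (s : ℝ) : 0 ≤ Zs s := tsum_nonneg fun _ => by positivity

/-! ### The weights -/

open Classical in
/-- `Pw a m = ∑_{d ∣ m} a d`. -/
def Pw (a : Eis → ℝ) (m : Eis) : ℝ := ∑' d : Eis, if d ∣ m then a d else 0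

open Classical in
lemma summable_Pw (a : Eis → ℝ) {m : Eis} (hm : m ≠ 0) :
    Summable (fun d : Eis => if d ∣ m then a d else 0) := by
  apply summable_of_ne_finset_zero (s := ball (nm m))
  intro d hd
  rw [if_neg]
  intro hdm
  apply hd
  rw [mem_ball]
  obtain ⟨t, rfl⟩ := hdm
  rw [nm_mul]
  exact Nat.le_mul_of_pos_right _ (nm_pos.mpr (right_ne_zero_of_mul hm))

section Weighted

variable {F : Type*} [NormedAddCommGroup F] [NormedSpace ℝ F] [CompleteSpace F]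

open Classical in
/-- `∑_{k ≠ 0} f (t k)`. -/
def lsum (f : ℂ → F) (t : ℂ) : F := ∑' k : Eis, if k = 0 then 0 else f (t * toC k)

lemma norm_toC_pos {k : Eis} (hk : k ≠ 0) : 0 < ‖toC k‖ :=
  norm_pos_iff.mpr (by simpa using hk)

lemma norm_toC_rpow (k : Eis) (s : ℝ) : ‖toC k‖ ^ s = (nm k : ℝ) ^ (s / 2) := by
  rw [norm_toC, Real.sqrt_eq_rpow, ← Real.rpow_mul (by positivity)]
  congr 1; ring

omit [NormedSpace ℝ F] [CompleteSpace F] in
lemma term_bound {f : ℂ → F} {K' : ℝ} (hD : ∀ z ≠ 0, ‖f z‖ ≤ K' / ‖z‖ ^ 3) {t : ℂ} (ht : t ≠ 0)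
    {k : Eis} (hk : k ≠ 0) : ‖f (t * toC k)‖ ≤ K' / ‖t‖ ^ 3 * (nm k : ℝ) ^ (-(3 / 2) : ℝ) := by
  have htk : t * toC k ≠ 0 := mul_ne_zero ht (by simpa using hk)
  refine (hD _ htk).trans (le_of_eq ?_)
  rw [norm_mul, mul_pow, show (-(3 / 2) : ℝ) = (-3 : ℝ) / 2 by norm_num, ← norm_toC_rpow,
    Real.rpow_neg (norm_nonneg _), show (3 : ℝ) = ((3 : ℕ) : ℝ) by norm_num, Real.rpow_natCast]
  have := norm_toC_pos hk
  have := norm_pos_iff.mpr ht
  field_simp

open Classical in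
omit [NormedSpace ℝ F] in
lemma summable_lsum {f : ℂ → F} {K' : ℝ} (hK' : 0 ≤ K') (hD : ∀ z ≠ 0, ‖f z‖ ≤ K' / ‖z‖ ^ 3)
    {t : ℂ} (ht : t ≠ 0) :
    Summable (fun k : Eis => if k = 0 then 0 else f (t * toC k)) ∧
    Summable (fun k : Eis => ‖(if k = 0 then (0 : F) else f (t * toC k))‖) ∧
    ‖lsum f t‖ ≤ K' / ‖t‖ ^ 3 * Zs (3 / 2) := by
  have hs := (summable_nm_rpow (s := 3 / 2) (by norm_num)).mul_left (K' / ‖t‖ ^ 3)
  have hb : ∀ k : Eis, ‖(if k = 0 then (0 : F) else f (t * toC k))‖ ≤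
      K' / ‖t‖ ^ 3 * (nm k : ℝ) ^ (-(3 / 2) : ℝ) := by
    intro k
    by_cases hk : k = 0
    · rw [if_pos hk, norm_zero]; positivity
    · rw [if_neg hk]; exact term_bound hD ht hk
  refine ⟨Summable.of_norm_bounded hs hb, hs.of_nonneg_of_le (fun _ => norm_nonneg _) hb, ?_⟩
  have := tsum_of_norm_bounded hs.hasSum hb
  rw [tsum_mul_left] at this
  exact this

open Classical in
/-- **Weighted lattice sums, abstract version.** -/
theorem weighted {a : Eis → ℝ} (ha : ∀ d ≠ 0, |a d| ≤ 1 / nm d) {f : ℂ → F} {I : F}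
    {K K' β : ℝ} (hβ : 0 < β) (hK : 0 ≤ K) (hK' : 0 ≤ K')
    (hD : ∀ z ≠ 0, ‖f z‖ ≤ K' / ‖z‖ ^ 3)
    (hE : ∀ t : ℂ, t ≠ 0 → ‖lsum f t - (2 / Real.sqrt 3 / ‖t‖ ^ 2) • I‖ ≤ K * ‖t‖ ^ (-β))
    {S : ℝ} (hS : 0 < S) :
    Summable (fun m : Eis => if m = 0 then 0 else Pw a m • f (toC m / S)) ∧
    ‖∑' m : Eis, (if m = 0 then 0 else Pw a m • f (toC m / S)) -
      (2 / Real.sqrt 3 * (∑' d : Eis, a d / nm d) * S ^ 2) • I‖ ≤
      K * Zs (1 + β / 2) * S ^ β := by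
  -- the double family
  set H : Eis → Eis → F := fun d m =>
    if m = 0 then 0 else if d ∣ m then a d • f (toC m / S) else 0 with hH
  have hSC : (S : ℂ) ≠ 0 := by exact_mod_cast hS.ne'
  -- rows
  have hrow0 : ∀ m, H 0 m = 0 := by
    intro m
    simp only [hH]
    by_cases hm : m = 0
    · rw [if_pos hm]
    · rw [if_neg hm, if_neg (by rwa [zero_dvd_iff])]
  have hfib : ∀ d ≠ 0, ∀ k : Eis, H d (d * k) =
      a d • (if k = 0 then (0 : F) else f (toC d / S * toC k)) := by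
    intro d hd k
    simp only [hH]
    by_cases hk : k = 0
    · simp [hk]
    · rw [if_neg (mul_ne_zero hd hk), if_pos (dvd_mul_right _ _), if_neg hk, map_mul]
      congr 2; ring
  have hsupp : ∀ d, ∀ m ∉ Set.range (fun k : Eis => d * k), H d m = 0 := by
    intro d m hm
    simp only [hH]
    by_cases hm0 : m = 0
    · rw [if_pos hm0]
    · rw [if_neg hm0, if_neg]
      rintro ⟨k, rfl⟩
      exact hm ⟨k, rfl⟩
  have hinj : ∀ d : Eis, d ≠ 0 → Function.Injective (fun k : Eis => d * k) :=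
    fun d hd => mul_right_injective₀ hd
  have htd : ∀ d : Eis, d ≠ 0 → toC d / (S : ℂ) ≠ 0 := fun d hd =>
    div_ne_zero (by simpa using hd) hSC
  have hrows : ∀ d, Summable (fun m => ‖H d m‖) := by
    intro d
    by_cases hd : d = 0
    · subst hd; simp only [hrow0, norm_zero]; exact summable_zero
    · have h1 := (summable_lsum hK' hD (htd d hd)).2.1.mul_left |a d|
      rw [← (hinj d hd).summable_iff (fun m hm => by rw [hsupp d m hm, norm_zero])]
      refine h1.congr (fun k => ?_)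
      simp only [Function.comp_apply]
      rw [hfib d hd k, norm_smul, Real.norm_eq_abs]
  have hrowsum : ∀ d ≠ 0, ∑' m, ‖H d m‖ ≤ K' * S ^ 3 * Zs (3 / 2) * (nm d : ℝ) ^ (-(5 / 2) : ℝ) := by
    intro d hd
    have hnd : (0 : ℝ) < nm d := by exact_mod_cast nm_pos.mpr hd
    have e1 : ∑' m, ‖H d m‖ = ∑' k, ‖H d (d * k)‖ := by
      refine ((hinj d hd).tsum_eq ?_).symm
      intro m hm
      by_contra hc
      exact hm (by simp only [hsupp d m hc, norm_zero])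
    rw [e1]
    have hb : ∀ k : Eis, ‖H d (d * k)‖ ≤
        1 / nm d * (K' / ‖toC d / (S : ℂ)‖ ^ 3) * (nm k : ℝ) ^ (-(3 / 2) : ℝ) := by
      intro k
      rw [hfib d hd k, norm_smul, Real.norm_eq_abs, mul_assoc]
      apply mul_le_mul (ha d hd) _ (norm_nonneg _) (by positivity)
      by_cases hk : k = 0
      · rw [if_pos hk, norm_zero]; positivity
      · rw [if_neg hk]; exact term_bound hD (htd d hd) hk
    have hs := (summable_nm_rpow (s := 3 / 2) (by norm_num)).mul_left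
      (1 / nm d * (K' / ‖toC d / (S : ℂ)‖ ^ 3))
    have h2 : ∑' k, ‖H d (d * k)‖ ≤
        ∑' k : Eis, 1 / nm d * (K' / ‖toC d / (S : ℂ)‖ ^ 3) * (nm k : ℝ) ^ (-(3 / 2) : ℝ) :=
      Summable.tsum_le_tsum hb (Summable.of_nonneg_of_le (fun _ => norm_nonneg _) hb hs) hs
    refine h2.trans (le_of_eq ?_)
    rw [tsum_mul_left]
    change _ * Zs (3 / 2) = _
    have e2 : (nm d : ℝ) ^ (-(5 / 2) : ℝ) = 1 / nm d * (1 / ‖toC d‖ ^ 3) := by
      have h3 : ‖toC d‖ ^ 3 = (nm d : ℝ) ^ ((3 : ℝ) / 2) := by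
        rw [← norm_toC_rpow, show (3 : ℝ) = ((3 : ℕ) : ℝ) by norm_num, Real.rpow_natCast]
      rw [h3, one_div, one_div, ← Real.rpow_neg_one, ← Real.rpow_neg hnd.le,
        ← Real.rpow_add hnd]
      norm_num
    rw [e2, norm_div, Complex.norm_real, Real.norm_of_nonneg hS.le]
    have := norm_toC_pos hd
    field_simp
  have hsumrows : Summable (fun d => ∑' m, ‖H d m‖) := by
    refine Summable.of_nonneg_of_le (fun d => tsum_nonneg fun _ => norm_nonneg _) ?_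
      ((summable_nm_rpow (s := 5 / 2) (by norm_num)).mul_left (K' * S ^ 3 * Zs (3 / 2)))
    intro d
    by_cases hd : d = 0
    · subst hd
      simp only [hrow0, norm_zero, tsum_zero]
      have := Zs_nonneg (3 / 2)
      positivity
    · exact hrowsum d hd
  have hprod : Summable (Function.uncurry H) := by
    apply Summable.of_norm
    rw [summable_prod_of_nonneg (fun _ => norm_nonneg _)]
    exact ⟨hrows, hsumrows⟩
  -- columns
  have hcol : ∀ m, ∑' d, H d m = if m = 0 then 0 else Pw a m • f (toC m / S) := by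
    intro m
    by_cases hm : m = 0
    · simp only [hH, if_pos hm, tsum_zero]
    · rw [if_neg hm, Pw, ← (summable_Pw a hm).tsum_smul_const]
      refine tsum_congr (fun d => ?_)
      simp only [hH, if_neg hm]
      split_ifs with h
      · rfl
      · rw [zero_smul]
  have hrowval : ∀ d, ∑' m, H d m = a d • lsum f (toC d / S) - (if d = 0 then
      a 0 • lsum f 0 else 0) := by
    intro d
    by_cases hd : d = 0
    · subst hd
      simp only [hrow0, tsum_zero, map_zero, zero_div, if_true, sub_self]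
    · rw [if_neg hd, sub_zero, lsum, ← (summable_lsum hK' hD (htd d hd)).1.tsum_const_smul]
      rw [← (hinj d hd).tsum_eq (f := H d) (by
        intro m hm
        by_contra hc
        exact hm (hsupp d m hc))]
      exact tsum_congr (hfib d hd)
  have hcomm : ∑' m, ∑' d, H d m = ∑' d, ∑' m, H d m := hprod.tsum_comm
  have hsumcol : Summable (fun m : Eis => if m = 0 then 0 else Pw a m • f (toC m / S)) := by
    have h1 : Summable (fun m => ∑' d, H d m) := by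
      have := hprod.prod_symm.prod
      simpa [Function.uncurry] using this
    exact h1.congr hcol
  refine ⟨hsumcol, ?_⟩
  have e1 : ∑' m : Eis, (if m = 0 then 0 else Pw a m • f (toC m / S)) = ∑' d, ∑' m, H d m := by
    rw [← hcomm]; exact tsum_congr (fun m => (hcol m).symm)
  rw [e1]
  -- main terms
  have hsa : Summable (fun d : Eis => a d / nm d) := by
    refine Summable.of_norm_bounded (summable_nm_rpow (s := 2) (by norm_num)) ?_
    intro d
    by_cases hd : d = 0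
    · subst hd; simp
    · have hnd : (0 : ℝ) < nm d := by exact_mod_cast nm_pos.mpr hd
      rw [Real.norm_eq_abs, abs_div, abs_of_pos hnd, div_le_iff₀ hnd]
      refine (ha d hd).trans (le_of_eq ?_)
      rw [Real.rpow_neg hnd.le, show (2 : ℝ) = ((2 : ℕ) : ℝ) by norm_num, Real.rpow_natCast]
      field_simp
  have e2 : (2 / Real.sqrt 3 * (∑' d : Eis, a d / nm d) * S ^ 2) • I =
      ∑' d : Eis, (2 / Real.sqrt 3 * (a d / nm d) * S ^ 2) • I := by
    rw [((hsa.mul_left (2 / Real.sqrt 3)).mul_right (S ^ 2)).tsum_smul_const,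
      (hsa.mul_left (2 / Real.sqrt 3)).tsum_mul_right, hsa.tsum_mul_left]
  have hs2 : Summable (fun d : Eis => (2 / Real.sqrt 3 * (a d / nm d) * S ^ 2) • I) :=
    ((hsa.mul_left (2 / Real.sqrt 3)).mul_right (S ^ 2)).smul_const I
  have hs1 : Summable (fun d => ∑' m, H d m) := hprod.prod
  rw [e2, ← hs1.tsum_sub hs2]
  have hbound := ((summable_nm_rpow (s := 1 + β / 2) (by linarith)).mul_left (K * S ^ β))
  have := tsum_of_norm_bounded hbound.hasSum (f := fun d => ∑' m, H d m -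
    (2 / Real.sqrt 3 * (a d / nm d) * S ^ 2) • I) (by
    intro d
    by_cases hd : d = 0
    · subst hd
      simp only [hrow0, tsum_zero, nm_zero, Nat.cast_zero, div_zero, mul_zero, zero_mul, zero_smul,
        sub_self, norm_zero]
      positivity
    · have hnd : (0 : ℝ) < nm d := by exact_mod_cast nm_pos.mpr hd
      rw [hrowval d, if_neg hd, sub_zero]
      have e3 : (2 / Real.sqrt 3 * (a d / nm d) * S ^ 2) • I =
          a d • ((2 / Real.sqrt 3 / ‖toC d / (S : ℂ)‖ ^ 2) • I) := by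
        rw [smul_smul]
        congr 1
        rw [norm_div, Complex.norm_real, Real.norm_of_nonneg hS.le, div_pow, norm_toC_sq]
        field_simp
      rw [e3, ← smul_sub, norm_smul, Real.norm_eq_abs]
      have h1 := hE _ (htd d hd)
      have h2 := ha d hd
      calc |a d| * ‖lsum f (toC d / ↑S) - (2 / Real.sqrt 3 / ‖toC d / (S : ℂ)‖ ^ 2) • I‖
          ≤ (1 / nm d) * (K * ‖toC d / (S : ℂ)‖ ^ (-β)) :=
            mul_le_mul h2 h1 (norm_nonneg _) (by positivity)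
        _ = K * S ^ β * (nm d : ℝ) ^ (-(1 + β / 2)) := by
            rw [norm_div, Complex.norm_real, Real.norm_of_nonneg hS.le,
              Real.div_rpow (norm_nonneg _) hS.le, norm_toC_rpow, Real.rpow_neg hS.le,
              neg_add, Real.rpow_add hnd, Real.rpow_neg_one, one_div,
              show -β / 2 = -(β / 2) by ring]
            field_simp)
  refine this.trans (le_of_eq ?_)
  rw [tsum_mul_left]
  change _ * Zs (1 + β / 2) = _
  ring

open Classical in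
omit [NormedSpace ℝ F] [CompleteSpace F] in
lemma lsum_eq {f : ℂ → F} {t : ℂ} (h : Summable (fun k : Eis => f (t * toC k))) :
    lsum f t = ∑' k : Eis, f (t * toC k) - f 0 := by
  rw [h.tsum_eq_add_tsum_ite 0, lsum, map_zero, mul_zero]
  abel

/-- The constant of `weighted_decay`. -/
def Kdec (f : ℂ → F) (M K₀ : ℝ) : ℝ :=
  8 / Real.sqrt 3 * M * J3 + ‖f 0‖ + K₀ * Zs (3 / 2) + 2 / Real.sqrt 3 * ‖∫ z, f z‖

omit [CompleteSpace F] in
lemma Kdec_nonneg (f : ℂ → F) {M K₀ : ℝ} (hM : 0 ≤ M) (hK₀ : 0 ≤ K₀) : 0 ≤ Kdec f M K₀ := by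
  unfold Kdec
  have := J3_nonneg
  have := Zs_nonneg (3 / 2)
  positivity

lemma lsum_decay {f : ℂ → F} (hf : Continuous f) (hi : Integrable f) {M K₀ : ℝ} (hM : 0 ≤ M)
    (hK₀ : 0 ≤ K₀)
    (h2 : ∀ z h, ‖h‖ ≤ 1 → ‖f (z + h) + f (z - h) - (2 : ℝ) • f z‖ ≤ M * wt3 z * ‖h‖ ^ 2)
    (h0 : ∀ z, ‖f z‖ ≤ K₀ * wt3 z) {β : ℝ} (hβ0 : 0 ≤ β) (hβ2 : β ≤ 2) {t : ℂ} (ht : t ≠ 0) :
    ‖lsum f t - (2 / Real.sqrt 3 / ‖t‖ ^ 2) • ∫ z, f z‖ ≤ Kdec f M K₀ * ‖t‖ ^ (-β) := by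
  have htn := norm_pos_iff.mpr ht
  have hJ := J3_nonneg
  have hZ := Zs_nonneg (3 / 2)
  have hD : ∀ z ≠ 0, ‖f z‖ ≤ K₀ / ‖z‖ ^ 3 := by
    intro z hz
    refine (h0 z).trans ?_
    have := wt3_le_inv hz
    calc K₀ * wt3 z ≤ K₀ * (1 / ‖z‖ ^ 3) := by gcongr
      _ = K₀ / ‖z‖ ^ 3 := by ring
  rcases le_total ‖t‖ 1 with h1 | h1
  · obtain ⟨hs, hb⟩ := latSum_decay hf hi hM h2 ht h1 0
    simp only [add_zero] at hs hb
    rw [lsum_eq hs]
    have e : ∑' k : Eis, f (t * toC k) - f 0 - (2 / Real.sqrt 3 / ‖t‖ ^ 2) • ∫ z, f z =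
        (∑' k : Eis, f (t * toC k) - (2 / Real.sqrt 3 / ‖t‖ ^ 2) • ∫ z, f z) - f 0 := by abel
    rw [e]
    have h3 : 1 ≤ ‖t‖ ^ (-β) := Real.one_le_rpow_of_pos_of_le_one_of_nonpos htn h1 (by linarith)
    have h4 : 8 / Real.sqrt 3 * M * J3 + ‖f 0‖ ≤ Kdec f M K₀ := by
      unfold Kdec
      have : 0 ≤ K₀ * Zs (3 / 2) + 2 / Real.sqrt 3 * ‖∫ z, f z‖ := by positivity
      linarith
    calc _ ≤ 8 / Real.sqrt 3 * M * J3 + ‖f 0‖ := (norm_sub_le _ _).trans (by gcongr)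
      _ ≤ Kdec f M K₀ := h4
      _ ≤ Kdec f M K₀ * ‖t‖ ^ (-β) := le_mul_of_one_le_right (Kdec_nonneg f hM hK₀) h3
  · have hl := (summable_lsum hK₀ hD ht).2.2
    have h3 : K₀ / ‖t‖ ^ 3 * Zs (3 / 2) ≤ K₀ * Zs (3 / 2) * ‖t‖ ^ (-β) := by
      have : (1 / ‖t‖ ^ 3) ≤ ‖t‖ ^ (-β) := by
        rw [one_div, ← Real.rpow_natCast, ← Real.rpow_neg htn.le]
        apply Real.rpow_le_rpow_of_exponent_le h1
        push_cast; linarith
      calc K₀ / ‖t‖ ^ 3 * Zs (3 / 2) = K₀ * Zs (3 / 2) * (1 / ‖t‖ ^ 3) := by ring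
        _ ≤ _ := by gcongr
    have h4 : ‖(2 / Real.sqrt 3 / ‖t‖ ^ 2) • ∫ z, f z‖ ≤
        2 / Real.sqrt 3 * ‖∫ z, f z‖ * ‖t‖ ^ (-β) := by
      have : (1 / ‖t‖ ^ 2) ≤ ‖t‖ ^ (-β) := by
        rw [one_div, ← Real.rpow_natCast, ← Real.rpow_neg htn.le]
        apply Real.rpow_le_rpow_of_exponent_le h1
        push_cast; linarith
      rw [norm_smul, Real.norm_of_nonneg (by positivity)]
      calc 2 / Real.sqrt 3 / ‖t‖ ^ 2 * ‖∫ z, f z‖ =
          2 / Real.sqrt 3 * ‖∫ z, f z‖ * (1 / ‖t‖ ^ 2) := by ring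
        _ ≤ _ := by gcongr
    have h5 : 0 ≤ 8 / Real.sqrt 3 * M * J3 + ‖f 0‖ := by positivity
    have h6 : 0 ≤ ‖t‖ ^ (-β) := by positivity
    refine (norm_sub_le _ _).trans ?_
    unfold Kdec
    nlinarith

open Classical in
/-- **Weighted lattice sums for functions with decay.** -/
theorem weighted_decay {a : Eis → ℝ} (ha : ∀ d ≠ 0, |a d| ≤ 1 / nm d) {f : ℂ → F}
    (hf : Continuous f) (hi : Integrable f) {M K₀ : ℝ} (hM : 0 ≤ M) (hK₀ : 0 ≤ K₀)
    (h2 : ∀ z h, ‖h‖ ≤ 1 → ‖f (z + h) + f (z - h) - (2 : ℝ) • f z‖ ≤ M * wt3 z * ‖h‖ ^ 2)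
    (h0 : ∀ z, ‖f z‖ ≤ K₀ * wt3 z) {β : ℝ} (hβ0 : 0 < β) (hβ2 : β ≤ 2)
    {S : ℝ} (hS : 0 < S) :
    Summable (fun m : Eis => if m = 0 then 0 else Pw a m • f (toC m / S)) ∧
    ‖∑' m : Eis, (if m = 0 then 0 else Pw a m • f (toC m / S)) -
      (2 / Real.sqrt 3 * (∑' d : Eis, a d / nm d) * S ^ 2) • ∫ z, f z‖ ≤
      Kdec f M K₀ * Zs (1 + β / 2) * S ^ β :=
  weighted ha hβ0 (Kdec_nonneg f hM hK₀) hK₀ (by
    intro z hz
    refine (h0 z).trans ?_
    have := wt3_le_inv hz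
    calc K₀ * wt3 z ≤ K₀ * (1 / ‖z‖ ^ 3) := by gcongr
      _ = K₀ / ‖z‖ ^ 3 := by ring) (fun t ht => lsum_decay hf hi hM hK₀ h2 h0 hβ0.le hβ2 ht) hS

open Classical in
/-- **Weighted lattice sums, `C²` compactly supported functions.** The constant depends only on
`f` and `β`, not on the weights. -/
theorem weighted_C2 {f : ℂ → F} (hf : ContDiff ℝ 2 f) (hc : HasCompactSupport f)
    {β : ℝ} (hβ0 : 0 < β) (hβ2 : β ≤ 2) :
    ∃ C, 0 ≤ C ∧ ∀ a : Eis → ℝ, (∀ d ≠ 0, |a d| ≤ 1 / nm d) → ∀ S : ℝ, 0 < S →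
    Summable (fun m : Eis => if m = 0 then 0 else Pw a m • f (toC m / S)) ∧
    ‖∑' m : Eis, (if m = 0 then 0 else Pw a m • f (toC m / S)) -
      (2 / Real.sqrt 3 * (∑' d : Eis, a d / nm d) * S ^ 2) • ∫ z, f z‖ ≤ C * S ^ β := by
  obtain ⟨M, hM, h2⟩ := second_diff_compact hf hc
  obtain ⟨K₀, hK₀, h0⟩ := decay_compact hf.continuous hc
  refine ⟨Kdec f M K₀ * Zs (1 + β / 2), mul_nonneg (Kdec_nonneg f hM hK₀) (Zs_nonneg _), ?_⟩
  intro a ha S hS
  exact weighted_decay ha hf.continuous (hf.continuous.integrable_of_hasCompactSupport hc)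
    hM hK₀ h2 h0 hβ0 hβ2 hS

open Classical in
/-- **Weighted lattice sums, Schwartz functions.** -/
theorem weighted_schwartz (f : SchwartzMap ℂ F) {β : ℝ} (hβ0 : 0 < β) (hβ2 : β ≤ 2) :
    ∃ C, 0 ≤ C ∧ ∀ a : Eis → ℝ, (∀ d ≠ 0, |a d| ≤ 1 / nm d) → ∀ S : ℝ, 0 < S →
    Summable (fun m : Eis => if m = 0 then 0 else Pw a m • f (toC m / S)) ∧
    ‖∑' m : Eis, (if m = 0 then 0 else Pw a m • f (toC m / S)) -
      (2 / Real.sqrt 3 * (∑' d : Eis, a d / nm d) * S ^ 2) • ∫ z, f z‖ ≤ C * S ^ β := by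
  obtain ⟨M, hM, h2⟩ := second_diff_schwartz f
  obtain ⟨K₀, hK₀, h0⟩ := decay_schwartz f
  refine ⟨Kdec f M K₀ * Zs (1 + β / 2), mul_nonneg (Kdec_nonneg f hM hK₀) (Zs_nonneg _), ?_⟩
  intro a ha S hS
  exact weighted_decay ha f.continuous f.integrable hM hK₀ h2 h0 hβ0 hβ2 hS

end Weighted

end Crest.Agent.R012.LatSum413
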