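import Crest.Agent.R012.Cst3_566
import Crest.Agent.R012.LatW_413
import Crest.Agent.R012.TateS_413

/-!
# Row 12, item MC1c (1): the lattice sum `Σ_{m ≠ 0} Wt w (|u m|³)`

`sig w u = |u|² Σ_{m ≠ 0} Wt w (|u m|³)` is bounded and tends to `(4π/(3√3)) Iw w` as `u → 0`.
-/

set_option autoImplicit false

noncomputable section

open MeasureTheory Complex Set Filter Topology
open scoped ContDiff SchwartzMap FourierTransform

namespace Crest.Agent.R012.Cube777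

open Crest.Agent.R012 Crest.Agent.R012.Eis Crest.Agent.R012.MC Crest.Agent.R012.LatSum413

/-- `z ↦ 2 conj(z³)`. -/
def g3 (z : ℂ) : ℂ := 2 * (starRingEnd ℂ) (z ^ 3)

lemma g3_temperate : Function.HasTemperateGrowth g3 := by
  have h1 : Function.HasTemperateGrowth (fun z : ℂ => z ^ 3) := by
    have := (Function.HasTemperateGrowth.id' (E := ℂ)).pow 3
    exact this
  have h2 : Function.HasTemperateGrowth (fun z : ℂ => (2 : ℂ) * (starRingEnd ℂ) z) := by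
    have := ((2 : ℝ) • (Complex.conjCLE : ℂ →L[ℝ] ℂ)).hasTemperateGrowth
    convert this using 2 with z
    simp
  exact h2.comp h1

lemma g3_upper : ∃ (k : ℕ) (C : ℝ), ∀ x, ‖x‖ ≤ C * (1 + ‖g3 x‖) ^ k := by
  refine ⟨1, 1, fun x => ?_⟩
  rw [pow_one, one_mul]
  unfold g3
  rw [norm_mul, RCLike.norm_conj, norm_pow]
  have h2 : ‖(2 : ℂ)‖ = 2 := by simp
  rw [h2]
  rcases le_total ‖x‖ 1 with h | h
  · have : 0 ≤ ‖x‖ ^ 3 := by positivity
    linarith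
  · have : ‖x‖ ≤ ‖x‖ ^ 3 := le_self_pow₀ h (by norm_num)
    linarith

/-- `z ↦ Wt w (|z|³)` as a Schwartz function. -/
def F3 {w : ℝ → ℝ} (hw : Wgt w) : 𝓢(ℂ, ℂ) :=
  SchwartzMap.compCLM ℂ g3_temperate g3_upper (𝓕 (fS hw))

lemma F3_apply {w : ℝ → ℝ} (hw : Wgt w) (z : ℂ) : F3 hw z = ((Wt w (‖z‖ ^ 3) : ℝ) : ℂ) := by
  have h1 : F3 hw z = (𝓕 (fS hw)) (g3 z) := rfl
  rw [h1, SchwartzMap.fourier_coe, fS_coe]
  unfold g3
  rw [← Po581.fC_eq_fourier, fC_fw, norm_pow]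

/-- `z ↦ Wt w (|z|³)`. -/
def f3 (w : ℝ → ℝ) (z : ℂ) : ℝ := Wt w (‖z‖ ^ 3)

lemma f3_eq {w : ℝ → ℝ} (hw : Wgt w) (z : ℂ) : f3 w z = (F3 hw z).re := by
  rw [F3_apply]; rfl

lemma f3_continuous {w : ℝ → ℝ} (hw : Wgt w) : Continuous (f3 w) := by
  have : f3 w = fun z => (F3 hw z).re := funext (f3_eq hw)
  rw [this]
  exact Complex.continuous_re.comp (F3 hw).continuous

lemma f3_integrable {w : ℝ → ℝ} (hw : Wgt w) : Integrable (f3 w) := by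
  have : f3 w = fun z => (F3 hw z).re := funext (f3_eq hw)
  rw [this]
  exact (F3 hw).integrable.re

lemma f3_decay {w : ℝ → ℝ} (hw : Wgt w) : ∃ K, 0 ≤ K ∧ ∀ z, ‖f3 w z‖ ≤ K * wt3 z := by
  obtain ⟨K, hK, h⟩ := decay_schwartz (F3 hw)
  refine ⟨K, hK, fun z => ?_⟩
  rw [f3_eq hw]
  exact (Complex.abs_re_le_norm _).trans (h z)

lemma f3_second {w : ℝ → ℝ} (hw : Wgt w) : ∃ M, 0 ≤ M ∧ ∀ z h, ‖h‖ ≤ 1 →
    ‖f3 w (z + h) + f3 w (z - h) - (2 : ℝ) • f3 w z‖ ≤ M * wt3 z * ‖h‖ ^ 2 := by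
  obtain ⟨M, hM, h⟩ := second_diff_schwartz (F3 hw)
  refine ⟨M, hM, fun z y hy => ?_⟩
  have e : f3 w (z + y) + f3 w (z - y) - (2 : ℝ) • f3 w z =
      (F3 hw (z + y) + F3 hw (z - y) - (2 : ℝ) • F3 hw z).re := by
    rw [f3_eq hw, f3_eq hw, f3_eq hw]
    simp
  rw [e]
  exact (Complex.abs_re_le_norm _).trans (h z y hy)

lemma integral_f3 (w : ℝ → ℝ) : ∫ z, f3 w z = 2 * Real.pi / 3 * Iw w := by
  have h := TateC413.integral_radial (fun r : ℝ => Wt w (r ^ 3))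
  have h0 : (∫ z, f3 w z) = ∫ z : ℂ, (fun r : ℝ => Wt w (r ^ 3)) ‖z‖ := rfl
  rw [h0, h]
  unfold Iw
  have h2 := integral_comp_rpow_Ioi_of_pos (g := fun y : ℝ => (1 / 3 : ℝ) * (Wt w y * y ^ (-(1 / 3) : ℝ)))
    (p := 3) (by norm_num)
  have e1 : ∫ x in Ioi (0 : ℝ), ((3 : ℝ) * x ^ ((3 : ℝ) - 1)) •
      (fun y : ℝ => (1 / 3 : ℝ) * (Wt w y * y ^ (-(1 / 3) : ℝ))) (x ^ (3 : ℝ)) =
      ∫ x in Ioi (0 : ℝ), x • Wt w (x ^ 3) := by
    apply setIntegral_congr_fun measurableSet_Ioi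
    intro x hx
    simp only [mem_Ioi] at hx
    simp only [smul_eq_mul]
    have e2 : x ^ (3 : ℝ) = x ^ 3 := by
      rw [show (3 : ℝ) = ((3 : ℕ) : ℝ) by norm_num, Real.rpow_natCast]
    have e3 : (x ^ 3) ^ (-(1 / 3) : ℝ) = x⁻¹ := by
      rw [← Real.rpow_natCast x 3, ← Real.rpow_mul hx.le]
      norm_num
      rw [Real.rpow_neg_one]
    have e4 : x ^ ((3 : ℝ) - 1) = x ^ 2 := by
      rw [show (3 : ℝ) - 1 = ((2 : ℕ) : ℝ) by norm_num, Real.rpow_natCast]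
    rw [e2, e3, e4]
    field_simp
  rw [← e1, h2, integral_const_mul]
  simp only [smul_eq_mul]
  ring

/-- `|u|² Σ_{m ≠ 0} Wt w (|u m|³)`. -/
def sig (w : ℝ → ℝ) (u : ℂ) : ℝ := ‖u‖ ^ 2 * lsum (f3 w) u

/-- bound and asymptotics at `0`. -/
theorem sig_bound {w : ℝ → ℝ} (hw : Wgt w) : ∃ K : ℝ, 0 ≤ K ∧
    (∀ u : ℂ, u ≠ 0 → |sig w u| ≤ K) ∧
    (∀ u : ℂ, u ≠ 0 → |sig w u - 4 * Real.pi / (3 * Real.sqrt 3) * Iw w| ≤ K * ‖u‖) := by
  obtain ⟨M, hM, h2⟩ := f3_second hw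
  obtain ⟨K₀, hK₀, h0⟩ := f3_decay hw
  set D := Kdec (f3 w) M K₀ with hD
  have hD0 : 0 ≤ D := Kdec_nonneg _ hM hK₀
  have hI := integral_f3 w
  set I := ∫ z, f3 w z with hIdef
  have hs3 : 0 < Real.sqrt 3 := by positivity
  refine ⟨D + 2 / Real.sqrt 3 * |I|, by positivity, fun u hu => ?_, fun u hu => ?_⟩
  · have hun := norm_pos_iff.mpr hu
    have h := lsum_decay (f3_continuous hw) (f3_integrable hw) hM hK₀ h2 h0 (β := 2)
      (by norm_num) le_rfl hu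
    rw [← hD, ← hIdef, smul_eq_mul, Real.norm_eq_abs] at h
    have e : sig w u = ‖u‖ ^ 2 * (lsum (f3 w) u - 2 / Real.sqrt 3 / ‖u‖ ^ 2 * I) +
        2 / Real.sqrt 3 * I := by
      unfold sig; field_simp; ring
    rw [e]
    refine (abs_add_le _ _).trans ?_
    rw [abs_mul, abs_mul, abs_of_nonneg (a := ‖u‖ ^ 2) (by positivity),
      abs_of_nonneg (a := 2 / Real.sqrt 3) (by positivity)]
    have h3 : ‖u‖ ^ 2 * |lsum (f3 w) u - 2 / Real.sqrt 3 / ‖u‖ ^ 2 * I| ≤ D := by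
      calc _ ≤ ‖u‖ ^ 2 * (D * ‖u‖ ^ (-(2 : ℝ))) := mul_le_mul_of_nonneg_left h (by positivity)
        _ = D := by
          rw [Real.rpow_neg hun.le, show (2 : ℝ) = ((2 : ℕ) : ℝ) by norm_num, Real.rpow_natCast]
          field_simp
    linarith
  · have hun := norm_pos_iff.mpr hu
    have h := lsum_decay (f3_continuous hw) (f3_integrable hw) hM hK₀ h2 h0 (β := 1)
      (by norm_num) (by norm_num) hu
    rw [← hD, ← hIdef, smul_eq_mul, Real.norm_eq_abs] at h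
    have e : sig w u - 4 * Real.pi / (3 * Real.sqrt 3) * Iw w =
        ‖u‖ ^ 2 * (lsum (f3 w) u - 2 / Real.sqrt 3 / ‖u‖ ^ 2 * I) := by
      have : 4 * Real.pi / (3 * Real.sqrt 3) * Iw w = 2 / Real.sqrt 3 * I := by
        rw [hI]; field_simp; ring
      rw [this]; unfold sig; field_simp
    rw [e, abs_mul, abs_of_nonneg (a := ‖u‖ ^ 2) (by positivity)]
    calc _ ≤ ‖u‖ ^ 2 * (D * ‖u‖ ^ (-(1 : ℝ))) := mul_le_mul_of_nonneg_left h (by positivity)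
      _ = D * ‖u‖ := by
        rw [Real.rpow_neg hun.le, Real.rpow_one]
        field_simp
      _ ≤ _ := by
        have : 0 ≤ 2 / Real.sqrt 3 * |I| * ‖u‖ := by positivity
        linarith

end Crest.Agent.R012.Cube777
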