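import Crest.Agent.R012.CharSum_852
import Crest.Agent.R012.Rows_852

/-!
# Row 12 (X): the cusp `∞` — rows `(c,d)` with `c ≡ 1`, `d ≡ 0 (mod 3)` and kernel `(d/c)_3`

* `exists_completion_inf`, `completion_unique_inf` : completions `(a b; c d)` of such rows with
  `a ≡ 0`, `b ≡ -1 (mod 3)`;
* `T c = Σ_{d mod c} (d/c)_3` : `T_eq_zero` (c primary, not a cube), `T_cube`, `sumMod_coprime`;
* `Sinf c = Σ_{d mod 3c, 3 ∣ d} (d/c)_3` : `Sinf_eq_zero`, `Sinf_cube`: equal to `N(c) ψ(c)`;
* `prim_cube` : a primary cube is the cube of a unique primary element.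
-/

set_option autoImplicit false

noncomputable section

namespace Crest.Agent.R012

open Eis

namespace Cusp852

open CharSum852

/-- Completion of the rows at `∞`: `a d - b c = 1`, `3 ∣ a`, `b ≡ -1 (3)`. -/
theorem exists_completion_inf {c d : Eis} (hcd : IsCoprime c d) (hc : IsPrim c)
    (hd : (3 : Eis) ∣ d) : ∃ a b : Eis, a * d - b * c = 1 ∧ (3 : Eis) ∣ a ∧ IsPrim (-b) := by
  obtain ⟨a, b, h1, h2, h3⟩ := Rows852.exists_completion (c := -d) (d := c)
    (by rw [IsCoprime.neg_left_iff]; exact hcd.symm) (by rwa [dvd_neg]) hc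
  -- `a * c - b * (-d) = 1`
  exact ⟨b, -a, by linear_combination h1, h3, by rwa [neg_neg]⟩

/-- Uniqueness of the completions at `∞`. -/
theorem completion_unique_inf {a b a' b' c d : Eis} (h : a * d - b * c = 1)
    (h' : a' * d - b' * c = 1) (hc : IsPrim c) (ha : (3 : Eis) ∣ a) (ha' : (3 : Eis) ∣ a') :
    ∃ t : Eis, (3 : Eis) ∣ t ∧ a' = a + t * c ∧ b' = b + t * d := by
  obtain ⟨t, ht, h1, h2⟩ := Rows852.completion_unique (a := -b) (b := a) (a' := -b') (b' := a')
    (c := -d) (d := c) (by linear_combination h) (by linear_combination h') hc ha ha'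
  exact ⟨t, ht, h2, by linear_combination -h1⟩

lemma isCoprime_add_mul {c x t : Eis} : IsCoprime c (x + c * t) ↔ IsCoprime c x := by
  constructor
  · intro h
    have := h.add_mul_left_right (-t)
    have e : x + c * t + c * -t = x := by ring
    rwa [e] at this
  · intro h; exact h.add_mul_left_right t

/-- number of reduced residues modulo a primary `c`. -/
theorem sumMod_coprime {c : Eis} (hc : IsPrim c) :
    sumMod c (fun x => open Classical in if IsCoprime c x then (1 : ℂ) else 0) =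
      ((nm c * Count852.psi c : ℝ) : ℂ) := by
  classical
  have hc0 : c ≠ 0 := hc.ne_zero
  have h30 : (3 : Eis) ≠ 0 := three_ne_zero'
  set f : Eis → ℂ := fun x => if IsCoprime c x then (1 : ℂ) else 0 with hf
  set F : Eis → ℂ := fun x => if IsPrim x ∧ IsCoprime c x then (1 : ℂ) else 0 with hF
  set g : Eis → ℂ := fun x => if IsPrim x then (1 : ℂ) else 0 with hg
  have h3prim : ∀ x s : Eis, (3 : Eis) ∣ s → (IsPrim (x + s) ↔ IsPrim x) := by
    intro x s hs
    constructor
    · intro h
      have := isPrim_add (s := -s) h (by rwa [dvd_neg])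
      simpa using this
    · intro h; exact isPrim_add h hs
  have hFper : PMod (3 * c) F := by
    intro x t
    simp only [hF]
    rw [h3prim x (3 * c * t) (by rw [mul_assoc]; exact Dvd.intro _ rfl),
      show 3 * c * t = c * (3 * t) by ring, isCoprime_add_mul]
  have hcop : IsCoprime (3 : Eis) c := hc.isCoprime_three.symm
  have key := sumMod_crt_mul (c := 3) (d := c) (f := g) (g := f) h30 hc0 F hcop hFper
    (fun x y => by
      simp only [hF, hf, hg]
      have e1 : IsPrim (c * x + 3 * y) ↔ IsPrim x := by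
        rw [h3prim (c * x) (3 * y) (Dvd.intro _ rfl)]
        exact ⟨fun h => h.of_mul_left hc, fun h => hc.mul h⟩
      have e2 : IsCoprime c (c * x + 3 * y) ↔ IsCoprime c y := by
        rw [show c * x + 3 * y = 3 * y + c * x by ring, isCoprime_add_mul]
        constructor
        · intro h
          exact (IsCoprime.mul_right_iff.mp h).2
        · intro h
          exact hcop.symm.mul_right h
      rw [e1, e2]
      by_cases a1 : IsPrim x <;> by_cases a2 : IsCoprime c y <;> simp [a1, a2])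
  have hg1 : sumMod 3 g = 1 := by
    have hgper : PMod 3 g := by
      intro x t
      simp only [hg]
      rw [h3prim x (3 * t) (Dvd.intro _ rfl)]
    have hS := isCRS_crs h30
    rw [sumMod_eq_sum hS hgper]
    obtain ⟨s, ⟨hs1, hs2⟩, hs3⟩ := hS 1
    have hsp : IsPrim s := by
      have : s - 1 = -(1 - s) := by ring
      rw [IsPrim, this, dvd_neg]; exact hs2
    rw [Finset.sum_eq_single s]
    · simp only [hg]; rw [if_pos hsp]
    · intro b hb hne
      simp only [hg]
      rw [if_neg]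
      intro hpb
      refine hne (hs3 b ⟨hb, ?_⟩)
      have : 1 - b = -(b - 1) := by ring
      rw [this, dvd_neg]; exact hpb
    · intro h; exact absurd hs1 h
  rw [hg1, one_mul] at key
  rw [← key, ← Count852.ncard_prim_coprime (fun c _ => card_QE c) hc0]
  have hfin := finite_QE (mul_ne_zero h30 hc0)
  let _ := Fintype.ofFinite (QE (3 * c))
  unfold sumMod
  rw [finsum_eq_sum_of_fintype]
  simp only [hF]
  rw [Finset.sum_ite, Finset.sum_const_zero, add_zero, Finset.sum_const, nsmul_eq_mul, mul_one,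
    ← Set.ncard_coe_finset]
  push_cast
  congr 3
  ext q
  simp

/-- A primary cube is the cube of a primary element. -/
theorem prim_cube {e : Eis} (h : IsPrim (e ^ 3)) : ∃ n : Eis, IsPrim n ∧ e ^ 3 = n ^ 3 := by
  have hl : ¬ lam ∣ e := fun h' => h.not_lam_dvd (Dvd.dvd.mul_left h' _ |>.trans (by
    rw [pow_succ]))
  obtain ⟨u, hu⟩ := exists_unit_mul_isPrim hl
  refine ⟨u * e, hu, ?_⟩
  have h1 : IsPrim ((u * e) ^ 3) := by
    rw [pow_succ, pow_two]; exact (hu.mul hu).mul hu
  refine (IsPrim.eq_of_associated h h1 ?_)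
  rw [mul_pow]
  exact ⟨u ^ 3, by push_cast; ring⟩

/-- the complete character sum `Σ_{d mod c} (d/c)_3`. -/
def T (c : Eis) : ℂ := sumMod c (fun x => sy x c)

/-- `Σ_{d mod 3c, 3 ∣ d} (d/c)_3`. -/
def Sinf (c : Eis) : ℂ := sumMod (3 * c) (fun d => open Classical in if (3 : Eis) ∣ d then sy d c else 0)

variable (H : SyFacts)
include H

lemma sy_pmod {c : Eis} (hc : IsPrim c) : PMod c (fun x => sy x c) := by
  intro x t
  exact H.congr _ _ c hc (by simp)

lemma exists_ne_one {c : Eis} (hc : IsPrim c) (hn : ¬ ∃ e, c = e ^ 3) :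
    ∃ b, IsPrim b ∧ IsCoprime b c ∧ sy b c ≠ 1 := by
  obtain ⟨b, hb, hcop, hne⟩ := H.nontriv c hc.ne_zero hn
  exact ⟨b, hb, hcop.symm, by rwa [H.recip b c hb hc]⟩

theorem T_eq_zero {c : Eis} (hc : IsPrim c) (hn : ¬ ∃ e, c = e ^ 3) : T c = 0 := by
  obtain ⟨b, hb, hcop, hne⟩ := exists_ne_one H hc hn
  have h1 := sumMod_mul_coprime hc.ne_zero (sy_pmod H hc) hcop
  have h2 : sumMod c (fun x => sy (b * x) c) = sy b c * T c := by
    rw [T, ← sumMod_mul_left hc.ne_zero]
    exact sumMod_congr fun x => H.mul_left _ _ _ hc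
  rw [h2] at h1
  have h3 : (sy b c - 1) * T c = 0 := by
    rw [sub_mul, one_mul, h1, T, sub_self]
  rcases mul_eq_zero.mp h3 with h | h
  · exact absurd (sub_eq_zero.mp h) hne
  · exact h

lemma sy_cube_right {n x : Eis} (hn : IsPrim n) :
    sy x (n ^ 3) = open Classical in if IsCoprime (n ^ 3) x then 1 else 0 := by
  classical
  have h1 : sy x (n ^ 3) = sy x n ^ 3 := by
    rw [pow_succ, pow_two, H.mul_right _ _ _ (hn.mul hn) hn, H.mul_right _ _ _ hn hn]; ring
  rw [h1]
  by_cases hc : IsCoprime (n ^ 3) x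
  · rw [if_pos hc]
    exact H.cube _ _ hn ((IsCoprime.pow_left_iff (by norm_num)).mp hc).symm
  · rw [if_neg hc, (H.eq_zero x n hn).mpr (fun h => hc h.symm.pow_left)]
    norm_num

theorem T_cube {n : Eis} (hn : IsPrim n) :
    T (n ^ 3) = ((nm (n ^ 3) * Count852.psi (n ^ 3) : ℝ) : ℂ) := by
  have h3 : IsPrim (n ^ 3) := by rw [pow_succ, pow_two]; exact (hn.mul hn).mul hn
  rw [← sumMod_coprime h3, T]
  exact sumMod_congr fun x => sy_cube_right H hn

theorem Sinf_eq {c : Eis} (hc : IsPrim c) : Sinf c = sy 3 c * T c := by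
  classical
  have hc0 := hc.ne_zero
  have h30 : (3 : Eis) ≠ 0 := three_ne_zero'
  have hcop : IsCoprime (3 : Eis) c := hc.isCoprime_three.symm
  have hper : PMod (3 * c) (fun d => if (3 : Eis) ∣ d then sy d c else 0) := by
    intro x t
    beta_reduce
    have e1 : ((3 : Eis) ∣ x + 3 * c * t) ↔ (3 : Eis) ∣ x := by
      rw [mul_assoc]; exact dvd_add_left (Dvd.intro _ rfl)
    have e2 : sy (x + 3 * c * t) c = sy x c :=
      H.congr _ _ c hc ⟨3 * t, by ring⟩
    rw [e2]
    simp only [e1]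
  rw [Sinf]
  rw [sumMod_crt_mul (c := 3) (d := c) (f := fun x => if (3 : Eis) ∣ x then 1 else 0)
    (g := fun y => sy 3 c * sy y c) h30 hc0 _ hcop hper]
  · have h1 : sumMod 3 (fun x => if (3 : Eis) ∣ x then (1 : ℂ) else 0) = 1 := by
      have hgper : PMod 3 (fun x => if (3 : Eis) ∣ x then (1 : ℂ) else 0) := by
        intro x t
        beta_reduce
        have e1 : ((3 : Eis) ∣ x + 3 * t) ↔ (3 : Eis) ∣ x := dvd_add_left (Dvd.intro _ rfl)
        simp only [e1]
      have hS := isCRS_crs h30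
      rw [sumMod_eq_sum hS hgper]
      obtain ⟨s, ⟨hs1, hs2⟩, hs3⟩ := hS 0
      have hsp : (3 : Eis) ∣ s := by simpa using hs2
      rw [Finset.sum_eq_single s]
      · rw [if_pos hsp]
      · intro b hb hne
        rw [if_neg]
        intro hpb
        exact hne (hs3 b ⟨hb, by simpa using hpb⟩)
      · intro h; exact absurd hs1 h
    rw [h1, one_mul, sumMod_mul_left hc0, T]
  · intro x y
    have e1 : ((3 : Eis) ∣ c * x + 3 * y) ↔ (3 : Eis) ∣ x := by
      rw [dvd_add_left (Dvd.intro _ rfl)]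
      exact ⟨fun h => hcop.dvd_of_dvd_mul_left h, fun h => Dvd.dvd.mul_left h _⟩
    have e2 : sy (c * x + 3 * y) c = sy 3 c * sy y c := by
      rw [← H.mul_left _ _ _ hc]
      exact H.congr _ _ c hc ⟨x, by ring⟩
    rw [e2]
    simp only [e1]
    by_cases h : (3 : Eis) ∣ x <;> simp [h]

theorem Sinf_eq_zero {c : Eis} (hc : IsPrim c) (hn : ¬ ∃ e, c = e ^ 3) : Sinf c = 0 := by
  rw [Sinf_eq H hc, T_eq_zero H hc hn, mul_zero]

theorem Sinf_cube {n : Eis} (hn : IsPrim n) :
    Sinf (n ^ 3) = ((nm (n ^ 3) * Count852.psi (n ^ 3) : ℝ) : ℂ) := by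
  classical
  have h3 : IsPrim (n ^ 3) := by rw [pow_succ, pow_two]; exact (hn.mul hn).mul hn
  rw [Sinf_eq H h3, T_cube H hn, sy_cube_right H hn, if_pos, one_mul]
  exact h3.isCoprime_three

end Cusp852

end Crest.Agent.R012
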