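import Crest.Agent.R012.EdgeK_79

/-!
# Row 12 (TIII): `edge_prop : T8b → Main48.Edge_Prop`
-/

set_option autoImplicit false

noncomputable section

namespace Crest.Agent.R012.Edge79

open Eis CharSum852 Tau671 Buch420 Main48

/-- `(1 + log (1 + L))^4 ≤ C L^{1/4}` -/
lemma loglog_pow_le {L : ℝ} (hL : 1 ≤ L) :
    (1 + Real.log (1 + L)) ^ 4 ≤ 66 ^ 4 * L ^ ((1 : ℝ) / 4) := by
  have h0 : 0 ≤ Real.log (1 + L) := Real.log_nonneg (by linarith)
  have h1 : Real.log (1 + L) ≤ (1 + L) ^ ((1 : ℝ) / 32) / (1 / 32) :=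
    Real.log_le_rpow_div (by linarith) (by norm_num)
  have h2 : (1 + L) ^ ((1 : ℝ) / 32) ≤ 2 * L ^ ((1 : ℝ) / 32) := by
    calc (1 + L) ^ ((1 : ℝ) / 32) ≤ (2 * L) ^ ((1 : ℝ) / 32) :=
          Real.rpow_le_rpow (by linarith) (by linarith) (by norm_num)
      _ = 2 ^ ((1 : ℝ) / 32) * L ^ ((1 : ℝ) / 32) := Real.mul_rpow (by norm_num) (by linarith)
      _ ≤ 2 ^ (1 : ℝ) * L ^ ((1 : ℝ) / 32) := by
          apply mul_le_mul_of_nonneg_right _ (by positivity)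
          exact Real.rpow_le_rpow_of_exponent_le (by norm_num) (by norm_num)
      _ = _ := by rw [Real.rpow_one]
  have h3 : (1 : ℝ) ≤ L ^ ((1 : ℝ) / 32) := Real.one_le_rpow hL (by norm_num)
  have h4 : 1 + Real.log (1 + L) ≤ 66 * L ^ ((1 : ℝ) / 32) := by
    have : (1 + L) ^ ((1 : ℝ) / 32) / (1 / 32) = 32 * (1 + L) ^ ((1 : ℝ) / 32) := by ring
    rw [this] at h1
    linarith
  calc (1 + Real.log (1 + L)) ^ 4 ≤ (66 * L ^ ((1 : ℝ) / 32)) ^ 4 :=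
        pow_le_pow_left₀ (by linarith) h4 4
    _ = 66 ^ 4 * L ^ ((1 : ℝ) / 8) := by
        rw [mul_pow, ← Real.rpow_natCast (L ^ ((1 : ℝ) / 32)), ← Real.rpow_mul (by linarith)]
        norm_num
    _ ≤ _ := by
        apply mul_le_mul_of_nonneg_left _ (by norm_num)
        exact Real.rpow_le_rpow_of_exponent_le hL (by norm_num)

/-- the relevant dyadic indices -/
def Gd (X N I : ℕ) : Finset ℕ := (Finset.range I).filter (fun i => X < 4 * 2 ^ i * N ^ 2 ∧ 2 ^ i < N)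

lemma mem_Gd {X N I i : ℕ} : i ∈ Gd X N I ↔ i < I ∧ X < 4 * 2 ^ i * N ^ 2 ∧ 2 ^ i < N := by
  simp [Gd]

/-- few indices -/
lemma card_Gd_le {X N I : ℕ} {L : ℝ} {k : ℕ} (hX : 1 ≤ X) (hL : 1 ≤ L)
    (hN : (N : ℝ) ^ 3 ≤ X * L ^ k) :
    ((Gd X N I).card : ℝ) ≤ (3 + 2 * k) * (1 + Real.log (1 + L)) := by
  have hlog0 : 0 ≤ Real.log (1 + L) := Real.log_nonneg (by linarith)
  rcases Finset.eq_empty_or_nonempty (Gd X N I) with h | hne
  · rw [h]; simp only [Finset.card_empty, Nat.cast_zero]; positivity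
  · set a := (Gd X N I).min' hne with ha
    set b := (Gd X N I).max' hne with hb
    have hab : a ≤ b := Finset.min'_le_max' _ _
    have h1 := mem_Gd.mp ((Gd X N I).min'_mem hne)
    have h2 := mem_Gd.mp ((Gd X N I).max'_mem hne)
    rw [← ha] at h1
    rw [← hb] at h2
    have hcard : (Gd X N I).card ≤ b - a + 1 := by
      have : Gd X N I ⊆ Finset.Icc a b := fun i hi =>
        Finset.mem_Icc.mpr ⟨Finset.min'_le _ _ hi, Finset.le_max' _ _ hi⟩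
      refine (Finset.card_le_card this).trans ?_
      rw [Nat.card_Icc]; omega
    have hXr : (0 : ℝ) < X := by exact_mod_cast hX
    have e1 : (2 : ℝ) ^ (b - a) ≤ 4 * L ^ k := by
      have r1 : (X : ℝ) ≤ 4 * 2 ^ a * (N : ℝ) ^ 2 := by exact_mod_cast h1.2.1.le
      have r2 : (2 : ℝ) ^ b ≤ N := by exact_mod_cast h2.2.2.le
      have r3 : (2 : ℝ) ^ b = 2 ^ a * 2 ^ (b - a) := by rw [← pow_add]; congr 1; omega
      have r4 : (X : ℝ) * 2 ^ (b - a) ≤ X * (4 * L ^ k) := by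
        calc (X : ℝ) * 2 ^ (b - a) ≤ (4 * 2 ^ a * (N : ℝ) ^ 2) * 2 ^ (b - a) := by gcongr
          _ = 4 * (N : ℝ) ^ 2 * (2 : ℝ) ^ b := by rw [r3]; ring
          _ ≤ 4 * (N : ℝ) ^ 2 * N := by gcongr
          _ = 4 * (N : ℝ) ^ 3 := by ring
          _ ≤ 4 * (X * L ^ k) := by gcongr
          _ = _ := by ring
      exact le_of_mul_le_mul_left r4 hXr
    have e2 : ((b - a : ℕ) : ℝ) * Real.log 2 ≤ 2 * Real.log 2 + k * Real.log L := by
      have := Real.log_le_log (by positivity) e1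
      rw [Real.log_pow, Real.log_mul (by norm_num) (by positivity), Real.log_pow] at this
      have h4 : Real.log 4 = 2 * Real.log 2 := by
        rw [show (4 : ℝ) = 2 ^ 2 by norm_num, Real.log_pow]; norm_num
      rw [h4] at this
      exact this
    have hl2 := Real.log_two_gt_d9
    have hlL : Real.log L ≤ Real.log (1 + L) := Real.log_le_log (by linarith) (by linarith)
    have hlL0 : 0 ≤ Real.log L := Real.log_nonneg hL
    have e3 : ((b - a : ℕ) : ℝ) ≤ 2 + 2 * k * Real.log (1 + L) := by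
      have hk : (0 : ℝ) ≤ k := Nat.cast_nonneg _
      have e4 : ((b - a : ℕ) : ℝ) * Real.log 2 ≤ (2 + 2 * k * Real.log (1 + L)) * Real.log 2 := by
        have : k * Real.log L ≤ 2 * k * Real.log (1 + L) * Real.log 2 := by
          have h5 : k * Real.log L ≤ k * Real.log (1 + L) := by gcongr
          have h6 : 0 ≤ k * Real.log (1 + L) := by positivity
          nlinarith
        linarith
      exact le_of_mul_le_mul_right e4 (by linarith)
    have hcard' : ((Gd X N I).card : ℝ) ≤ ((b - a : ℕ) : ℝ) + 1 := by exact_mod_cast hcard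
    have hk : (0 : ℝ) ≤ k := Nat.cast_nonneg _
    nlinarith

/-- each relevant box is at least `X^{1/4}` -/
lemma card_PB_Gd {X N I i : ℕ} {P : ℝ} (hX : 16 ≤ X) (hP : 1 ≤ P) (hN : (N : ℝ) ^ 3 ≤ X * P)
    (hP4 : (64 * P ^ 2) ^ 4 ≤ X) (hi : i ∈ Gd X N I) :
    ((PB N (2 ^ i)).card : ℝ) ≤ 400 * (2 ^ i / Real.log X) := by
  have h := mem_Gd.mp hi
  have hXr : (16 : ℝ) ≤ X := by exact_mod_cast hX
  have hXp : (0 : ℝ) < X := by linarith
  set a : ℝ := 2 ^ i with ha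
  have ha0 : 0 < a := by positivity
  have r1 : (X : ℝ) ≤ 4 * a * (N : ℝ) ^ 2 := by rw [ha]; exact_mod_cast h.2.1.le
  have r2 : (X : ℝ) ^ 3 ≤ 64 * a ^ 3 * (X * P) ^ 2 := by
    calc (X : ℝ) ^ 3 ≤ (4 * a * (N : ℝ) ^ 2) ^ 3 := pow_le_pow_left₀ hXp.le r1 3
      _ = 64 * a ^ 3 * ((N : ℝ) ^ 3) ^ 2 := by ring
      _ ≤ _ := by gcongr
  have r3 : (X : ℝ) ≤ (64 * P ^ 2) * a ^ 3 := by
    have : (X : ℝ) ^ 2 * X ≤ X ^ 2 * ((64 * P ^ 2) * a ^ 3) := by
      calc (X : ℝ) ^ 2 * X = X ^ 3 := by ring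
        _ ≤ 64 * a ^ 3 * (X * P) ^ 2 := r2
        _ = _ := by ring
    exact le_of_mul_le_mul_left this (by positivity)
  have r4 : (X : ℝ) * X ^ 3 ≤ X * (a ^ 4) ^ 3 := by
    calc (X : ℝ) * X ^ 3 = X ^ 4 := by ring
      _ ≤ ((64 * P ^ 2) * a ^ 3) ^ 4 := pow_le_pow_left₀ hXp.le r3 4
      _ = (64 * P ^ 2) ^ 4 * (a ^ 4) ^ 3 := by ring
      _ ≤ _ := by gcongr
  have r5 : (X : ℝ) ≤ a ^ 4 :=
    le_of_pow_le_pow_left₀ (by norm_num) (by positivity) (le_of_mul_le_mul_left r4 hXp)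
  have hlogX : 0 < Real.log X := Real.log_pos (by linarith)
  have r6 : Real.log X / 4 ≤ Real.log a := by
    have h1 := Real.log_le_log hXp r5
    rw [Real.log_pow] at h1
    push_cast at h1
    linarith
  have ha2 : 2 ≤ 2 ^ i := by
    rcases Nat.eq_zero_or_pos i with h0 | h0
    · exfalso
      have : a = 1 := by rw [ha, h0]; norm_num
      rw [this] at r5; norm_num at r5
      have h6 : X ≤ 1 := by exact_mod_cast r5
      omega
    · calc 2 = 2 ^ 1 := by norm_num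
        _ ≤ 2 ^ i := Nat.pow_le_pow_right (by norm_num) h0
  have hc := card_PB_le (N := N) (m := 2 ^ i) ha2
  have hcast : ((2 ^ i : ℕ) : ℝ) = a := by rw [ha]; push_cast; rfl
  rw [hcast] at hc
  refine hc.trans ?_
  calc 100 * (a / Real.log a) ≤ 100 * (a / (Real.log X / 4)) := by gcongr
    _ = _ := by field_simp; norm_num

/-- **Edge triples.** -/
theorem edge_prop (h8 : EdgeSharp968.T8b) : Edge_Prop := by
  classical
  intro l C0
  set C1 : ℕ := ⌈C0⌉₊ with hC1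
  set k : ℕ := 3 * C1 with hk
  obtain ⟨Kt, hKt, X1, hT⟩ := Tb_le' h8 l k
  obtain ⟨X2, hX2⟩ := exists_log_pow_le (8 * k) (64 ^ 4)
  obtain ⟨X3, hX3⟩ := exists_le_log 1
  set Kb : ℝ := 2 * Kt + |pC| * (2 * 400 ^ 3) with hKb
  have hKb0 : 0 < Kb := by positivity
  refine ⟨(3 + 2 * k) ^ 3 * Kb * 66 ^ 4, max (max X1 X2) (max X3 16), ?_⟩
  intro X hX
  have hXX1 : X1 ≤ X := (le_max_left _ _).trans ((le_max_left _ _).trans hX)
  have hXX2 : X2 ≤ X := (le_max_right _ _).trans ((le_max_left _ _).trans hX)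
  have hXX3 : X3 ≤ X := (le_max_left _ _).trans ((le_max_right _ _).trans hX)
  have hX16 : 16 ≤ X := (le_max_right _ _).trans ((le_max_right _ _).trans hX)
  have hXr : (16 : ℝ) ≤ X := by exact_mod_cast hX16
  have hXp : (0 : ℝ) < X := by linarith
  show ‖∑ p ∈ (UX X).filter (fun p => (nm p.1 : ℝ) < (X : ℝ) ^ ((1 : ℝ) / 3) * LX X ^ C0),
    ∑ q ∈ (UX X).filter (fun p => (nm p.1 : ℝ) < (X : ℝ) ^ ((1 : ℝ) / 3) * LX X ^ C0),
    ∑ r ∈ (UX X).filter (fun p => (nm p.1 : ℝ) < (X : ℝ) ^ ((1 : ℝ) / 3) * LX X ^ C0),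
      FX l X (p.1 * q.1 * r.1)‖ ≤ _
  unfold LX
  set L := Real.log X with hL
  have hL1 : 1 ≤ L := hX3 X hXX3
  have hL0 : 0 < L := by linarith
  set D : ℝ := (X : ℝ) ^ ((1 : ℝ) / 3) * L ^ C0 with hD
  set P : ℝ := L ^ k with hP
  have hP1 : 1 ≤ P := one_le_pow₀ hL1
  set N : ℕ := min X (⌈D⌉₊ - 1) with hN
  have hD0 : 0 < D := by positivity
  have hND : (N : ℝ) ≤ D := by
    have h1 : N ≤ ⌈D⌉₊ - 1 := min_le_right _ _
    have h2 : 0 < ⌈D⌉₊ := Nat.ceil_pos.mpr hD0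
    have h3 : N < ⌈D⌉₊ := by omega
    exact (Nat.lt_ceil.mp h3).le
  have hN3 : (N : ℝ) ^ 3 ≤ X * P := by
    have h1 : (N : ℝ) ^ 3 ≤ D ^ 3 := pow_le_pow_left₀ (Nat.cast_nonneg _) hND 3
    refine h1.trans ?_
    have h2 : L ^ C0 ≤ L ^ (C1 : ℝ) := Real.rpow_le_rpow_of_exponent_le hL1 (Nat.le_ceil _)
    have h3 : D ≤ (X : ℝ) ^ ((1 : ℝ) / 3) * L ^ C1 := by
      rw [hD, ← Real.rpow_natCast L C1]; gcongr
    calc D ^ 3 ≤ ((X : ℝ) ^ ((1 : ℝ) / 3) * L ^ C1) ^ 3 := pow_le_pow_left₀ hD0.le h3 3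
      _ = X * P := by
          rw [mul_pow, ← Real.rpow_natCast ((X : ℝ) ^ ((1 : ℝ) / 3)), ← Real.rpow_mul hXp.le, hP,
            hk, ← pow_mul, mul_comm C1 3]
          norm_num
  have hP4 : (64 * P ^ 2) ^ 4 ≤ (X : ℝ) := by
    have := hX2 X hXX2
    rw [mul_pow, ← pow_mul]
    rwa [mul_comm 8 k, pow_mul] at this
  obtain ⟨I, hI⟩ : ∃ I : ℕ, N ≤ 2 ^ I := ⟨N, Nat.lt_two_pow_self.le⟩
  -- transfer and dyadic decomposition
  have htr : ∀ g : Eis → ℂ, ∑ p ∈ (UX X).filter (fun p => (nm p.1 : ℝ) < D), g p.1 =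
      ∑ i ∈ Finset.range I, ∑ p ∈ PB N (2 ^ i), g p := fun g => by
    rw [sum_transfer X N D hN g, sum_dyadic hI g]
  have h1 : ∑ p ∈ (UX X).filter (fun p => (nm p.1 : ℝ) < D),
      ∑ q ∈ (UX X).filter (fun p => (nm p.1 : ℝ) < D),
      ∑ r ∈ (UX X).filter (fun p => (nm p.1 : ℝ) < D), FX l X (p.1 * q.1 * r.1) =
      ∑ i ∈ Finset.range I, ∑ j ∈ Finset.range I, ∑ k ∈ Finset.range I,
        T3 l X N (2 ^ i) (2 ^ j) (2 ^ k) := by
    rw [htr (fun p => ∑ q ∈ (UX X).filter (fun p => (nm p.1 : ℝ) < D),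
      ∑ r ∈ (UX X).filter (fun p => (nm p.1 : ℝ) < D), FX l X (p * q.1 * r.1))]
    refine Finset.sum_congr rfl fun i _ => ?_
    have h2 : ∀ p ∈ PB N (2 ^ i), ∑ q ∈ (UX X).filter (fun p => (nm p.1 : ℝ) < D),
        ∑ r ∈ (UX X).filter (fun p => (nm p.1 : ℝ) < D), FX l X (p * q.1 * r.1) =
        ∑ j ∈ Finset.range I, ∑ q ∈ PB N (2 ^ j), ∑ k ∈ Finset.range I, ∑ r ∈ PB N (2 ^ k),
          FX l X (p * q * r) := by
      intro p _
      rw [htr (fun q => ∑ r ∈ (UX X).filter (fun p => (nm p.1 : ℝ) < D), FX l X (p * q * r.1))]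
      refine Finset.sum_congr rfl fun j _ => Finset.sum_congr rfl fun q _ => ?_
      rw [htr (fun r => FX l X (p * q * r))]
    rw [Finset.sum_congr rfl h2, Finset.sum_comm]
    refine Finset.sum_congr rfl fun j _ => ?_
    unfold T3
    rw [Finset.sum_comm' (s := Finset.range I) (t := fun _ => PB N (2 ^ i))
      (s' := fun _ => Finset.range I) (t' := PB N (2 ^ i)) (by simp [and_comm])]
    refine Finset.sum_congr rfl fun p _ => ?_
    rw [Finset.sum_comm]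
  rw [h1]
  -- only the good indices
  have hzero : ∀ i j k : ℕ, ¬ (X < 4 * 2 ^ i * N ^ 2 ∧ 2 ^ i < N ∧ X < 4 * 2 ^ j * N ^ 2 ∧
      2 ^ j < N ∧ X < 4 * 2 ^ k * N ^ 2 ∧ 2 ^ k < N ∧ X ≤ 16 * (2 ^ i * (2 ^ j * 2 ^ k)) ∧
      2 ^ i * (2 ^ j * 2 ^ k) ≤ X) → T3 l X N (2 ^ i) (2 ^ j) (2 ^ k) = 0 := by
    intro i j k hcon
    unfold T3
    refine Finset.sum_eq_zero fun p hp => Finset.sum_eq_zero fun q hq =>
      Finset.sum_eq_zero fun r hr => ?_
    by_contra hne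
    apply hcon
    rw [mem_PB] at hp hq hr
    obtain ⟨-, -, p1, p2, p3⟩ := hp
    obtain ⟨-, -, q1, q2, q3⟩ := hq
    obtain ⟨-, -, r1, r2, r3⟩ := hr
    have hcond : X < 2 * nm (p * q * r) ∧ nm (p * q * r) ≤ X := by
      by_contra hc
      apply hne
      unfold FX
      rw [if_neg hc]
    obtain ⟨c1, c2⟩ := hcond
    rw [nm_mul, nm_mul] at c1 c2
    have b1 : nm p * nm q * nm r ≤ (2 * 2 ^ i) * N * N :=
      Nat.mul_le_mul (Nat.mul_le_mul p3 q2) r2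
    have b2 : nm p * nm q * nm r ≤ N * (2 * 2 ^ j) * N :=
      Nat.mul_le_mul (Nat.mul_le_mul p2 q3) r2
    have b3 : nm p * nm q * nm r ≤ N * N * (2 * 2 ^ k) :=
      Nat.mul_le_mul (Nat.mul_le_mul p2 q2) r3
    have b4 : nm p * nm q * nm r ≤ (2 * 2 ^ i) * (2 * 2 ^ j) * (2 * 2 ^ k) :=
      Nat.mul_le_mul (Nat.mul_le_mul p3 q3) r3
    have b5 : 2 ^ i * 2 ^ j * 2 ^ k ≤ nm p * nm q * nm r :=
      Nat.mul_le_mul (Nat.mul_le_mul p1.le q1.le) r1.le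
    refine ⟨?_, by omega, ?_, by omega, ?_, by omega, ?_, ?_⟩
    · calc X < 2 * (nm p * nm q * nm r) := c1
        _ ≤ 2 * ((2 * 2 ^ i) * N * N) := Nat.mul_le_mul_left _ b1
        _ = _ := by ring
    · calc X < 2 * (nm p * nm q * nm r) := c1
        _ ≤ 2 * (N * (2 * 2 ^ j) * N) := Nat.mul_le_mul_left _ b2
        _ = _ := by ring
    · calc X < 2 * (nm p * nm q * nm r) := c1
        _ ≤ 2 * (N * N * (2 * 2 ^ k)) := Nat.mul_le_mul_left _ b3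
        _ = _ := by ring
    · calc X ≤ 2 * (nm p * nm q * nm r) := c1.le
        _ ≤ 2 * ((2 * 2 ^ i) * (2 * 2 ^ j) * (2 * 2 ^ k)) := Nat.mul_le_mul_left _ b4
        _ = _ := by ring
    · calc 2 ^ i * (2 ^ j * 2 ^ k) = 2 ^ i * 2 ^ j * 2 ^ k := by ring
        _ ≤ nm p * nm q * nm r := b5
        _ ≤ X := c2
  set Qx : ℝ := (X : ℝ) ^ ((5 : ℝ) / 6) / L ^ ((3 : ℝ) / 2) with hQx
  have hQx0 : 0 ≤ Qx := by positivity
  set LL : ℝ := 1 + Real.log (1 + L) with hLL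
  have hLL1 : 1 ≤ LL := by
    have : 0 ≤ Real.log (1 + L) := Real.log_nonneg (by linarith)
    linarith
  have hcell : ∀ i ∈ Gd X N I, ∀ j ∈ Gd X N I, ∀ k' ∈ Gd X N I,
      ‖T3 l X N (2 ^ i) (2 ^ j) (2 ^ k')‖ ≤ Kb * (LL * Qx) := by
    intro i hi j hj k' hk'
    by_cases hbox : X ≤ 16 * (2 ^ i * (2 ^ j * 2 ^ k')) ∧ 2 ^ i * (2 ^ j * 2 ^ k') ≤ X
    · have gi := mem_Gd.mp hi
      have gj := mem_Gd.mp hj
      have gk := mem_Gd.mp hk'
      have cube : ∀ x : ℕ, 2 ^ x < N → (((2 ^ x : ℕ) : ℝ)) ^ 3 ≤ X * L ^ k := by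
        intro x hx
        refine le_trans ?_ hN3
        have : ((2 ^ x : ℕ) : ℝ) ≤ N := by exact_mod_cast hx.le
        exact pow_le_pow_left₀ (Nat.cast_nonneg _) this 3
      have t1 := hT X hXX1 N (2 ^ i) (2 ^ j) (2 ^ k') X hbox.1 hbox.2 (cube i gi.2.2)
        (cube j gj.2.2) (cube k' gk.2.2) le_rfl (by omega)
      have t2 := hT X hXX1 N (2 ^ i) (2 ^ j) (2 ^ k') (X / 2) hbox.1 hbox.2 (cube i gi.2.2)
        (cube j gj.2.2) (cube k' gk.2.2) (by omega) (by omega)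
      have t3 := T3_le (l := l) (X := X) (N := N) (m := 2 ^ i) (m1 := 2 ^ j) (m2 := 2 ^ k')
        (by omega)
      have n1 := card_PB_Gd hX16 hP1 hN3 hP4 hi
      have n2 := card_PB_Gd hX16 hP1 hN3 hP4 hj
      have n3 := card_PB_Gd hX16 hP1 hN3 hP4 hk'
      have hbr : (2 : ℝ) ^ i * (2 ^ j * 2 ^ k') ≤ X := by exact_mod_cast hbox.2
      have t4 : |pC| * (2 * (X : ℝ) ^ (-(1 : ℝ) / 6)) *
          (((PB N (2 ^ i)).card : ℝ) * ((PB N (2 ^ j)).card * (PB N (2 ^ k')).card)) ≤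
          |pC| * (2 * 400 ^ 3) * Qx := by
        calc _ ≤ |pC| * (2 * (X : ℝ) ^ (-(1 : ℝ) / 6)) *
              ((400 * (2 ^ i / L)) * ((400 * (2 ^ j / L)) * (400 * (2 ^ k' / L)))) := by gcongr
          _ = |pC| * (2 * 400 ^ 3) * ((X : ℝ) ^ (-(1 : ℝ) / 6) * (2 ^ i * (2 ^ j * 2 ^ k')) /
                L ^ 3) := by field_simp
          _ ≤ |pC| * (2 * 400 ^ 3) * ((X : ℝ) ^ (-(1 : ℝ) / 6) * X / L ^ 3) := by gcongr
          _ ≤ |pC| * (2 * 400 ^ 3) * Qx := by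
              apply mul_le_mul_of_nonneg_left _ (by positivity)
              rw [hQx]
              have e1 : (X : ℝ) ^ (-(1 : ℝ) / 6) * X = (X : ℝ) ^ ((5 : ℝ) / 6) := by
                nth_rewrite 2 [← Real.rpow_one (X : ℝ)]
                rw [← Real.rpow_add hXp]; norm_num
              rw [e1]
              apply div_le_div_of_nonneg_left (by positivity) (by positivity)
              rw [← Real.rpow_natCast L 3]
              exact Real.rpow_le_rpow_of_exponent_le hL1 (by norm_num)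
      have t5 : |pC| * (2 * 400 ^ 3) * Qx ≤ |pC| * (2 * 400 ^ 3) * (LL * Qx) := by
        apply mul_le_mul_of_nonneg_left _ (by positivity)
        nlinarith
      calc _ ≤ _ := t3
        _ ≤ Kt * (LL * Qx) + Kt * (LL * Qx) + |pC| * (2 * 400 ^ 3) * (LL * Qx) := by
            linarith
        _ = _ := by rw [hKb]; ring
    · rw [hzero i j k' (by tauto), norm_zero]
      positivity
  have hsub : Gd X N I ⊆ Finset.range I := Finset.filter_subset _ _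
  have h2 : ∑ i ∈ Finset.range I, ∑ j ∈ Finset.range I, ∑ k' ∈ Finset.range I,
      T3 l X N (2 ^ i) (2 ^ j) (2 ^ k') = ∑ i ∈ Gd X N I, ∑ j ∈ Gd X N I, ∑ k' ∈ Gd X N I,
      T3 l X N (2 ^ i) (2 ^ j) (2 ^ k') := by
    symm
    have s1 : ∀ i j, ∑ k' ∈ Gd X N I, T3 l X N (2 ^ i) (2 ^ j) (2 ^ k') =
        ∑ k' ∈ Finset.range I, T3 l X N (2 ^ i) (2 ^ j) (2 ^ k') := by
      intro i j
      refine Finset.sum_subset hsub fun k' hk1 hk2 => hzero i j k' ?_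
      intro hc
      exact hk2 (mem_Gd.mpr ⟨Finset.mem_range.mp hk1, hc.2.2.2.2.1, hc.2.2.2.2.2.1⟩)
    have s2 : ∀ i, ∑ j ∈ Gd X N I, ∑ k' ∈ Gd X N I, T3 l X N (2 ^ i) (2 ^ j) (2 ^ k') =
        ∑ j ∈ Finset.range I, ∑ k' ∈ Finset.range I, T3 l X N (2 ^ i) (2 ^ j) (2 ^ k') := by
      intro i
      rw [Finset.sum_congr rfl fun j _ => s1 i j]
      refine Finset.sum_subset hsub fun j hj1 hj2 => Finset.sum_eq_zero fun k' _ =>
        hzero i j k' ?_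
      intro hc
      exact hj2 (mem_Gd.mpr ⟨Finset.mem_range.mp hj1, hc.2.2.1, hc.2.2.2.1⟩)
    rw [Finset.sum_congr rfl fun i _ => s2 i]
    refine Finset.sum_subset hsub fun i hi1 hi2 => Finset.sum_eq_zero fun j _ =>
      Finset.sum_eq_zero fun k' _ => hzero i j k' ?_
    intro hc
    exact hi2 (mem_Gd.mpr ⟨Finset.mem_range.mp hi1, hc.1, hc.2.1⟩)
  rw [h2]
  have hcard := card_Gd_le (I := I) (by omega : 1 ≤ X) hL1 hN3
  set g : ℝ := ((Gd X N I).card : ℝ) with hg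
  have hg0 : 0 ≤ g := Nat.cast_nonneg _
  calc ‖∑ i ∈ Gd X N I, ∑ j ∈ Gd X N I, ∑ k' ∈ Gd X N I, T3 l X N (2 ^ i) (2 ^ j) (2 ^ k')‖
      ≤ ∑ i ∈ Gd X N I, ∑ j ∈ Gd X N I, ∑ k' ∈ Gd X N I, Kb * (LL * Qx) := by
        refine (norm_sum_le _ _).trans (Finset.sum_le_sum fun i hi => ?_)
        refine (norm_sum_le _ _).trans (Finset.sum_le_sum fun j hj => ?_)
        refine (norm_sum_le _ _).trans (Finset.sum_le_sum fun k' hk' => ?_)
        exact hcell i hi j hj k' hk'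
    _ = g ^ 3 * (Kb * (LL * Qx)) := by
        simp only [Finset.sum_const, nsmul_eq_mul]; ring
    _ ≤ ((3 + 2 * (k : ℝ)) * LL) ^ 3 * (Kb * (LL * Qx)) := by gcongr
    _ = (3 + 2 * (k : ℝ)) ^ 3 * Kb * (LL ^ 4 * Qx) := by ring
    _ ≤ (3 + 2 * (k : ℝ)) ^ 3 * Kb * ((66 ^ 4 * L ^ ((1 : ℝ) / 4)) * Qx) := by
        gcongr
        exact loglog_pow_le hL1
    _ = (3 + 2 * (k : ℝ)) ^ 3 * Kb * 66 ^ 4 * (X : ℝ) ^ ((5 : ℝ) / 6) / L ^ (5 / 4 : ℝ) := by
        rw [hQx]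
        have e1 : L ^ ((3 : ℝ) / 2) = L ^ ((1 : ℝ) / 4) * L ^ (5 / 4 : ℝ) := by
          rw [← Real.rpow_add hL0]; norm_num
        rw [e1]
        have hq : 0 < L ^ ((1 : ℝ) / 4) := by positivity
        field_simp

end Crest.Agent.R012.Edge79
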