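import Mathlib
import Crest.Agent.Lib.PNT

set_option autoImplicit false

open Filter Topology Finset

noncomputable section

namespace Crest.Agent.R012.Fin713

/-- Regular summability with antitone weights. -/
lemma abel_littleo (f a : ℕ → ℝ) (hf : Antitone f) (hf0 : ∀ n, 0 ≤ f n)
    (hdiv : Tendsto (fun n => ∑ i ∈ range n, f i) atTop atTop)
    (ha : Tendsto (fun n : ℕ => (∑ i ∈ range n, a i) / n) atTop (𝓝 0)) :
    Tendsto (fun n => (∑ i ∈ range n, f i * a i) / (∑ i ∈ range n, f i)) atTop (𝓝 0) := by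
  -- bound
  have key : ∀ ε > 0, ∃ C, ∀ n, |∑ i ∈ range n, f i * a i| ≤ ε * (∑ i ∈ range n, f i) + C := by
    intro ε hε
    rw [Metric.tendsto_atTop] at ha
    obtain ⟨n0, hn0⟩ := ha ε hε
    -- |A n| ≤ ε n + C0
    have hA : ∃ C0, 0 ≤ C0 ∧ ∀ n : ℕ, |∑ i ∈ range n, a i| ≤ ε * n + C0 := by
      refine ⟨∑ n ∈ range (n0 + 1), |∑ i ∈ range n, a i|, Finset.sum_nonneg fun _ _ => abs_nonneg _,
        fun n => ?_⟩
      by_cases hn : n ≤ n0
      · have h1 : |∑ i ∈ range n, a i| ≤ ∑ n ∈ range (n0 + 1), |∑ i ∈ range n, a i| :=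
          Finset.single_le_sum (f := fun n => |∑ i ∈ range n, a i|) (fun _ _ => abs_nonneg _)
            (Finset.mem_range.mpr (by omega))
        have : 0 ≤ ε * n := by positivity
        linarith
      · push Not at hn
        have h2 := hn0 n hn.le
        rw [Real.dist_eq, sub_zero, abs_div] at h2
        have hnpos : (0 : ℝ) < n := by
          have : 0 < n := by omega
          exact_mod_cast this
        rw [abs_of_pos hnpos, div_lt_iff₀ hnpos] at h2
        have : 0 ≤ ∑ n ∈ range (n0 + 1), |∑ i ∈ range n, a i| :=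
          Finset.sum_nonneg fun _ _ => abs_nonneg _
        linarith
    obtain ⟨C0, hC0, hA⟩ := hA
    refine ⟨C0 * f 0, fun n => ?_⟩
    rcases Nat.eq_zero_or_pos n with rfl | hn
    · simpa using mul_nonneg hC0 (hf0 0)
    have e1 := Finset.sum_range_by_parts (fun i => f i) (fun i => a i) n
    have e2 := Finset.sum_range_by_parts (fun i => f i) (fun _ => (1 : ℝ)) n
    simp only [smul_eq_mul, mul_one, Finset.sum_const, Finset.card_range, nsmul_eq_mul] at e1 e2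
    rw [e1]
    have b1 : |f (n - 1) * ∑ i ∈ range n, a i| ≤ f (n - 1) * (ε * n + C0) := by
      rw [abs_mul, abs_of_nonneg (hf0 _)]
      exact mul_le_mul_of_nonneg_left (hA n) (hf0 _)
    have b2 : |∑ i ∈ range (n - 1), (f (i + 1) - f i) * ∑ j ∈ range (i + 1), a j| ≤
        ∑ i ∈ range (n - 1), (f i - f (i + 1)) * (ε * ((i + 1 : ℕ) : ℝ) + C0) := by
      refine (Finset.abs_sum_le_sum_abs _ _).trans (Finset.sum_le_sum fun i _ => ?_)
      have hd : 0 ≤ f i - f (i + 1) := sub_nonneg.mpr (hf (Nat.le_succ i))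
      rw [abs_mul, abs_sub_comm, abs_of_nonneg hd]
      exact mul_le_mul_of_nonneg_left (hA (i + 1)) hd
    have tel : ∑ i ∈ range (n - 1), (f i - f (i + 1)) = f 0 - f (n - 1) :=
      Finset.sum_range_sub' f (n - 1)
    have b3 : ∑ i ∈ range (n - 1), (f i - f (i + 1)) * (ε * ((i + 1 : ℕ) : ℝ) + C0) =
        ε * (∑ i ∈ range (n - 1), (f i - f (i + 1)) * ((i + 1 : ℕ) : ℝ)) + C0 * (f 0 - f (n - 1)) := by
      rw [← tel, Finset.mul_sum, Finset.mul_sum, ← Finset.sum_add_distrib]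
      apply Finset.sum_congr rfl
      intro i _
      ring
    have b4 : ∑ i ∈ range (n - 1), (f i - f (i + 1)) * ((i + 1 : ℕ) : ℝ) =
        -∑ i ∈ range (n - 1), (f (i + 1) - f i) * ((i + 1 : ℕ) : ℝ) := by
      rw [← Finset.sum_neg_distrib]
      apply Finset.sum_congr rfl
      intro i _
      ring
    calc |f (n - 1) * ∑ i ∈ range n, a i -
          ∑ i ∈ range (n - 1), (f (i + 1) - f i) * ∑ j ∈ range (i + 1), a j|
        ≤ |f (n - 1) * ∑ i ∈ range n, a i| +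
          |∑ i ∈ range (n - 1), (f (i + 1) - f i) * ∑ j ∈ range (i + 1), a j| := abs_sub _ _
      _ ≤ f (n - 1) * (ε * n + C0) +
          ∑ i ∈ range (n - 1), (f i - f (i + 1)) * (ε * ((i + 1 : ℕ) : ℝ) + C0) := add_le_add b1 b2
      _ = ε * (∑ i ∈ range n, f i) + C0 * f 0 := by
          rw [b3, b4, e2]
          ring
  rw [Metric.tendsto_atTop]
  intro ε hε
  obtain ⟨C, hC⟩ := key (ε / 2) (by positivity)
  have h1 : ∀ᶠ n in atTop, max 1 (2 * |C| / ε + 1) ≤ ∑ i ∈ range n, f i :=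
    hdiv.eventually_ge_atTop _
  obtain ⟨N, hN⟩ := eventually_atTop.mp h1
  refine ⟨N, fun n hn => ?_⟩
  have hs := hN n hn
  have hs1 : 0 < ∑ i ∈ range n, f i := lt_of_lt_of_le one_pos ((le_max_left _ _).trans hs)
  have hs2 : 2 * |C| / ε + 1 ≤ ∑ i ∈ range n, f i := (le_max_right _ _).trans hs
  rw [Real.dist_eq, sub_zero, abs_div, abs_of_pos hs1, div_lt_iff₀ hs1]
  have h3 : |C| < ε / 2 * ∑ i ∈ range n, f i := by
    have h4 : 2 * |C| / ε < ∑ i ∈ range n, f i := by linarith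
    rw [div_lt_iff₀ hε] at h4
    linarith
  have := hC n
  have h5 := le_abs_self C
  linarith

/-- the weight `t^{-1/6}/log t` -/
def wt (n : ℕ) : ℝ := ((n + 2 : ℕ) : ℝ) ^ (-(1 : ℝ) / 6) / Real.log ((n + 2 : ℕ) : ℝ)

lemma wt_nonneg (n : ℕ) : 0 ≤ wt n := by
  unfold wt
  have : (1 : ℝ) ≤ ((n + 2 : ℕ) : ℝ) := by push_cast; linarith [Nat.cast_nonneg (α := ℝ) n]
  have := Real.log_nonneg this
  positivity

lemma log_pos' (n : ℕ) : 0 < Real.log ((n + 2 : ℕ) : ℝ) := by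
  apply Real.log_pos
  push_cast
  linarith [Nat.cast_nonneg (α := ℝ) n]

lemma wt_pos (n : ℕ) : 0 < wt n := by
  unfold wt
  have := log_pos' n
  positivity

lemma wt_anti : Antitone wt := by
  apply antitone_nat_of_succ_le
  intro n
  unfold wt
  have h1 := log_pos' n
  have h2 : ((n + 2 : ℕ) : ℝ) ≤ ((n + 1 + 2 : ℕ) : ℝ) := by push_cast; linarith
  have h0 : (0 : ℝ) < ((n + 2 : ℕ) : ℝ) := by positivity
  apply div_le_div₀ (by positivity) _ h1 (Real.log_le_log h0 h2)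
  exact Real.rpow_le_rpow_of_nonpos h0 h2 (by norm_num)

/-- `F t = t^{5/6}/log t`. -/
def FF (t : ℝ) : ℝ := t ^ ((5 : ℝ) / 6) / Real.log t

lemma FF_deriv (t : ℝ) (ht : 1 < t) :
    HasDerivAt FF ((5 / 6) * (t ^ (-(1 : ℝ) / 6) / Real.log t) -
      t ^ (-(1 : ℝ) / 6) / Real.log t ^ 2) t := by
  have h0 : t ≠ 0 := by linarith
  have hl : Real.log t ≠ 0 := (Real.log_pos ht).ne'
  have h1 := (Real.hasDerivAt_rpow_const (x := t) (p := (5 : ℝ) / 6) (Or.inl h0)).div
    (Real.hasDerivAt_log h0) hl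
  refine h1.congr_deriv ?_
  have e1 : (5 : ℝ) / 6 - 1 = -(1 : ℝ) / 6 := by norm_num
  have e2 : t ^ ((5 : ℝ) / 6) = t * t ^ (-(1 : ℝ) / 6) := by
    rw [← Real.rpow_one_add' (by linarith) (by norm_num)]
    norm_num
  rw [e1, e2]
  field_simp

lemma FF_diff (n : ℕ) : ∃ t ∈ Set.Ioo ((n + 2 : ℕ) : ℝ) ((n + 3 : ℕ) : ℝ),
    FF ((n + 3 : ℕ) : ℝ) - FF ((n + 2 : ℕ) : ℝ) =
    (5 / 6) * (t ^ (-(1 : ℝ) / 6) / Real.log t) - t ^ (-(1 : ℝ) / 6) / Real.log t ^ 2 := by
  have hlt : ((n + 2 : ℕ) : ℝ) < ((n + 3 : ℕ) : ℝ) := by push_cast; linarith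
  have h1 : ∀ t, ((n + 2 : ℕ) : ℝ) ≤ t → 1 < t := by
    intro t ht
    push_cast at ht
    linarith [Nat.cast_nonneg (α := ℝ) n]
  obtain ⟨t, ht, he⟩ := exists_hasDerivAt_eq_slope FF
    (fun t => (5 / 6) * (t ^ (-(1 : ℝ) / 6) / Real.log t) -
      t ^ (-(1 : ℝ) / 6) / Real.log t ^ 2) hlt
    (fun x hx => (FF_deriv x (h1 x hx.1)).continuousAt.continuousWithinAt)
    (fun x hx => FF_deriv x (h1 x hx.1.le))
  refine ⟨t, ht, ?_⟩
  rw [he]
  have : ((n + 3 : ℕ) : ℝ) - ((n + 2 : ℕ) : ℝ) = 1 := by push_cast; ring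
  rw [this, div_one]

lemma wt_ratio_tendsto : Tendsto (fun n => wt (n + 1) / wt n) atTop (𝓝 1) := by
  have e : ∀ n, wt (n + 1) / wt n =
      ((((n + 1 + 2 : ℕ) : ℝ) / ((n + 2 : ℕ) : ℝ)) ^ (-(1 : ℝ) / 6)) *
      (Real.log ((n + 2 : ℕ) : ℝ) / Real.log ((n + 1 + 2 : ℕ) : ℝ)) := by
    intro n
    unfold wt
    have h1 := (log_pos' n).ne'
    have h2 := (log_pos' (n + 1)).ne'
    rw [Real.div_rpow (by positivity) (by positivity)]
    have h3 : ((n + 2 : ℕ) : ℝ) ^ (-(1 : ℝ) / 6) ≠ 0 := by positivity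
    field_simp
  simp_rw [e]
  have hr : Tendsto (fun n : ℕ => ((n + 1 + 2 : ℕ) : ℝ) / ((n + 2 : ℕ) : ℝ)) atTop (𝓝 1) := by
    have h2 : Tendsto (fun n : ℕ => 1 + 1 / ((n : ℝ) + 2)) atTop (𝓝 (1 + 0)) := by
      apply tendsto_const_nhds.add
      apply Tendsto.div_atTop tendsto_const_nhds
      exact tendsto_atTop_add_const_right _ _ tendsto_natCast_atTop_atTop
    rw [add_zero] at h2
    refine h2.congr fun n => ?_
    have : (n : ℝ) + 2 ≠ 0 := by positivity
    push_cast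
    field_simp
    ring
  have h1 : Tendsto (fun n : ℕ => (((n + 1 + 2 : ℕ) : ℝ) / ((n + 2 : ℕ) : ℝ)) ^ (-(1 : ℝ) / 6))
      atTop (𝓝 ((1 : ℝ) ^ (-(1 : ℝ) / 6))) :=
    hr.rpow_const (Or.inl one_ne_zero)
  rw [Real.one_rpow] at h1
  have h2 : Tendsto (fun n : ℕ => Real.log ((n + 2 : ℕ) : ℝ) / Real.log ((n + 1 + 2 : ℕ) : ℝ))
      atTop (𝓝 1) := by
    have h3 : Tendsto (fun n : ℕ => 1 - Real.log (((n + 1 + 2 : ℕ) : ℝ) / ((n + 2 : ℕ) : ℝ)) /
        Real.log ((n + 1 + 2 : ℕ) : ℝ)) atTop (𝓝 (1 - 0)) := by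
      apply tendsto_const_nhds.sub
      have h4 := (Real.continuousAt_log one_ne_zero).tendsto.comp hr
      rw [Real.log_one] at h4
      have h5 : Tendsto (fun n : ℕ => Real.log ((n + 1 + 2 : ℕ) : ℝ)) atTop atTop := by
        apply Real.tendsto_log_atTop.comp
        apply tendsto_natCast_atTop_atTop.comp
        exact tendsto_atTop_mono (fun n => by simp only [id]; omega) tendsto_id
      exact h4.div_atTop h5
    rw [sub_zero] at h3
    refine h3.congr fun n => ?_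
    have h6 := (log_pos' (n + 1)).ne'
    rw [Real.log_div (by positivity) (by positivity)]
    field_simp
    ring
  simpa using h1.mul h2

lemma FF_diff_littleo : (fun n => (FF ((n + 3 : ℕ) : ℝ) - FF ((n + 2 : ℕ) : ℝ)) - (5 / 6) * wt n)
    =o[atTop] wt := by
  rw [Asymptotics.isLittleO_iff_tendsto (fun n h => absurd h (wt_pos n).ne')]
  -- squeeze: (5/6) wt(n+1) - wt n/log ≤ diff ≤ (5/6) wt n
  have hlow : ∀ n : ℕ, (5 / 6) * (wt (n + 1) / wt n - 1) - 1 / Real.log ((n + 2 : ℕ) : ℝ) ≤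
      ((FF ((n + 3 : ℕ) : ℝ) - FF ((n + 2 : ℕ) : ℝ)) - (5 / 6) * wt n) / wt n := by
    intro n
    obtain ⟨t, ⟨ht1, ht2⟩, he⟩ := FF_diff n
    have hw := wt_pos n
    rw [le_div_iff₀ hw, he]
    have h0 : (0 : ℝ) < ((n + 2 : ℕ) : ℝ) := by positivity
    have ht0 : 0 < t := h0.trans ht1
    have hl0 := log_pos' n
    have hl1 : Real.log ((n + 2 : ℕ) : ℝ) ≤ Real.log t := Real.log_le_log h0 ht1.le
    have hl2 : Real.log t ≤ Real.log ((n + 3 : ℕ) : ℝ) := Real.log_le_log ht0 ht2.le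
    have hlt : 0 < Real.log t := lt_of_lt_of_le hl0 hl1
    have hp1 : t ^ (-(1 : ℝ) / 6) ≤ ((n + 2 : ℕ) : ℝ) ^ (-(1 : ℝ) / 6) :=
      Real.rpow_le_rpow_of_nonpos h0 ht1.le (by norm_num)
    have hp2 : ((n + 3 : ℕ) : ℝ) ^ (-(1 : ℝ) / 6) ≤ t ^ (-(1 : ℝ) / 6) :=
      Real.rpow_le_rpow_of_nonpos ht0 ht2.le (by norm_num)
    have hw1 : wt (n + 1) ≤ t ^ (-(1 : ℝ) / 6) / Real.log t := by
      unfold wt
      exact div_le_div₀ (by positivity) hp2 hlt hl2
    have hw2 : t ^ (-(1 : ℝ) / 6) / Real.log t ^ 2 ≤ wt n * (1 / Real.log ((n + 2 : ℕ) : ℝ)) := by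
      unfold wt
      rw [div_mul_div_comm, mul_one, ← pow_two]
      exact div_le_div₀ (by positivity) hp1 (by positivity) (by gcongr)
    have e1 : ((5 / 6) * (wt (n + 1) / wt n - 1) - 1 / Real.log ((n + 2 : ℕ) : ℝ)) * wt n =
        (5 / 6) * wt (n + 1) - (5 / 6) * wt n - wt n * (1 / Real.log ((n + 2 : ℕ) : ℝ)) := by
      field_simp
    rw [e1]
    linarith
  have hup : ∀ n : ℕ, ((FF ((n + 3 : ℕ) : ℝ) - FF ((n + 2 : ℕ) : ℝ)) - (5 / 6) * wt n) / wt n ≤
      0 := by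
    intro n
    obtain ⟨t, ⟨ht1, ht2⟩, he⟩ := FF_diff n
    have hw := wt_pos n
    apply div_nonpos_of_nonpos_of_nonneg _ hw.le
    rw [he]
    have h0 : (0 : ℝ) < ((n + 2 : ℕ) : ℝ) := by positivity
    have ht0 : 0 < t := h0.trans ht1
    have hl0 := log_pos' n
    have hl1 : Real.log ((n + 2 : ℕ) : ℝ) ≤ Real.log t := Real.log_le_log h0 ht1.le
    have hlt : 0 < Real.log t := lt_of_lt_of_le hl0 hl1
    have hp1 : t ^ (-(1 : ℝ) / 6) ≤ ((n + 2 : ℕ) : ℝ) ^ (-(1 : ℝ) / 6) :=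
      Real.rpow_le_rpow_of_nonpos h0 ht1.le (by norm_num)
    have hw1 : t ^ (-(1 : ℝ) / 6) / Real.log t ≤ wt n := by
      unfold wt
      exact div_le_div₀ (by positivity) hp1 hl0 hl1
    have : 0 ≤ t ^ (-(1 : ℝ) / 6) / Real.log t ^ 2 := by positivity
    linarith
  have hlim : Tendsto (fun n : ℕ => (5 / 6) * (wt (n + 1) / wt n - 1) -
      1 / Real.log ((n + 2 : ℕ) : ℝ)) atTop (𝓝 0) := by
    have h1 : Tendsto (fun n : ℕ => (5 / 6 : ℝ) * (wt (n + 1) / wt n - 1)) atTop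
        (𝓝 ((5 / 6) * (1 - 1))) := (wt_ratio_tendsto.sub_const 1).const_mul _
    have h5 : Tendsto (fun n : ℕ => Real.log ((n + 2 : ℕ) : ℝ)) atTop atTop := by
      apply Real.tendsto_log_atTop.comp
      apply tendsto_natCast_atTop_atTop.comp
      exact tendsto_atTop_mono (fun n => by simp only [id]; omega) tendsto_id
    have h2 : Tendsto (fun n : ℕ => 1 / Real.log ((n + 2 : ℕ) : ℝ)) atTop (𝓝 0) :=
      Tendsto.div_atTop tendsto_const_nhds h5
    simpa using h1.sub h2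
  exact tendsto_of_tendsto_of_tendsto_of_le_of_le hlim tendsto_const_nhds hlow hup

lemma wt_sum_atTop : Tendsto (fun n => ∑ i ∈ range n, wt i) atTop atTop := by
  -- wt i ≥ 1/(i+2)
  have h1 : ∀ i : ℕ, 1 / ((i : ℝ) + 2) ≤ wt i := by
    intro i
    unfold wt
    have h0 : (0 : ℝ) < ((i + 2 : ℕ) : ℝ) := by positivity
    have hl := log_pos' i
    rw [le_div_iff₀ hl]
    have h2 : Real.log ((i + 2 : ℕ) : ℝ) ≤ ((i + 2 : ℕ) : ℝ) ^ ((5 : ℝ) / 6) / ((5 : ℝ) / 6) :=
      Real.log_le_rpow_div h0.le (by norm_num)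
    have h2' : Real.log ((i + 2 : ℕ) : ℝ) ≤ ((i + 2 : ℕ) : ℝ) ^ ((5 : ℝ) / 6) := by
      -- log x ≤ x^{5/6}: use log x = 6/5 log (x^{5/6}) ≤ (6/5)(y) ... use log y ≤ y - 1 <= ...
      have h3 : Real.log (((i + 2 : ℕ) : ℝ) ^ ((5 : ℝ) / 6)) =
          (5 / 6) * Real.log ((i + 2 : ℕ) : ℝ) := Real.log_rpow h0 _
      have hy : 0 < ((i + 2 : ℕ) : ℝ) ^ ((5 : ℝ) / 6) := by positivity
      -- log y ≤ y / e  ≤ (5/6) y
      have h4 : Real.log (((i + 2 : ℕ) : ℝ) ^ ((5 : ℝ) / 6)) ≤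
          ((i + 2 : ℕ) : ℝ) ^ ((5 : ℝ) / 6) * (1 / 2) := by
        have h5 := Real.log_le_sub_one_of_pos
          (show (0 : ℝ) < ((i + 2 : ℕ) : ℝ) ^ ((5 : ℝ) / 6) * (1 / 2) by positivity)
        rw [Real.log_mul (by positivity) (by norm_num)] at h5
        have h6 : Real.log (1 / 2) = - Real.log 2 := by
          rw [one_div, Real.log_inv]
        have h7 := Real.log_two_lt_d9
        rw [h6] at h5
        linarith
      nlinarith
    have h8 : ((i + 2 : ℕ) : ℝ) ^ (-(1 : ℝ) / 6) =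
        ((i + 2 : ℕ) : ℝ) ^ ((5 : ℝ) / 6) / ((i : ℝ) + 2) := by
      have : ((i : ℝ) + 2) = ((i + 2 : ℕ) : ℝ) ^ (1 : ℝ) := by rw [Real.rpow_one]; push_cast; ring
      rw [this, ← Real.rpow_sub h0]
      norm_num
    rw [h8, one_div, div_eq_inv_mul]
    exact mul_le_mul_of_nonneg_left h2' (by positivity)
  refine tendsto_atTop_mono (fun n => Finset.sum_le_sum fun i _ => h1 i) ?_
  have h2 := Real.tendsto_sum_range_one_div_nat_succ_atTop
  have h3 : Tendsto (fun n : ℕ => (∑ i ∈ range (n + 1), 1 / ((i : ℝ) + 1)) - 1) atTop atTop :=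
    tendsto_atTop_add_const_right _ _ (h2.comp (tendsto_add_atTop_nat 1))
  refine h3.congr fun n => ?_
  rw [Finset.sum_range_succ']
  simp only [Nat.cast_add, Nat.cast_one, CharP.cast_eq_zero, zero_add, div_one]
  rw [add_sub_cancel_right]
  apply Finset.sum_congr rfl
  intro i _
  ring_nf

lemma sum_wt_div_FF : Tendsto (fun n : ℕ => FF ((n + 2 : ℕ) : ℝ) / (∑ i ∈ range n, wt i)) atTop
    (𝓝 (5 / 6)) := by
  have h1 := FF_diff_littleo.sum_range (fun n => wt_nonneg n) wt_sum_atTop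
  have h2 := h1.tendsto_div_nhds_zero
  have e : ∀ n : ℕ, ∑ i ∈ range n, ((FF ((i + 3 : ℕ) : ℝ) - FF ((i + 2 : ℕ) : ℝ)) -
      (5 / 6) * wt i) = FF ((n + 2 : ℕ) : ℝ) - FF (2 : ℝ) - (5 / 6) * ∑ i ∈ range n, wt i := by
    intro n
    rw [Finset.sum_sub_distrib, ← Finset.mul_sum]
    have := Finset.sum_range_sub (fun i : ℕ => FF ((i + 2 : ℕ) : ℝ)) n
    simp only [zero_add] at this
    rw [show ((2 : ℕ) : ℝ) = 2 by norm_num] at this
    rw [← this]
  have h3 : Tendsto (fun n : ℕ => (FF ((n + 2 : ℕ) : ℝ) - FF (2 : ℝ) -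
      (5 / 6) * ∑ i ∈ range n, wt i) / (∑ i ∈ range n, wt i)) atTop (𝓝 0) := by
    refine h2.congr fun n => ?_
    rw [e]
  have h4 : Tendsto (fun n : ℕ => FF (2 : ℝ) / (∑ i ∈ range n, wt i)) atTop (𝓝 0) :=
    Tendsto.div_atTop tendsto_const_nhds wt_sum_atTop
  have h5 := (h3.add h4).add_const (5 / 6 : ℝ)
  simp only [add_zero, zero_add] at h5
  refine h5.congr' ?_
  filter_upwards [wt_sum_atTop.eventually_gt_atTop 0] with n hn
  field_simp
  ring

/-- coefficient `log p` on primes `≡ 1 mod 3` -/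
def cof (n : ℕ) : ℝ := if n.Prime ∧ n % 3 = 1 then Real.log n else 0

lemma cof_mean : Tendsto (fun n : ℕ => (∑ i ∈ range n, cof (i + 2)) / n) atTop (𝓝 (1 / 2)) := by
  have h1 := Crest.Agent.Lib.PNT.theta_residueClass (q := 3) (a := 1) isUnit_one
  have h1' := h1.comp (f := fun n : ℕ => ((n + 1 : ℕ) : ℝ))
    (tendsto_natCast_atTop_atTop.comp (tendsto_add_atTop_nat 1))
  have ht : (3 : ℕ).totient = 2 := by decide
  rw [ht] at h1'
  have h2 : Tendsto (fun n : ℕ => ((n + 1 : ℕ) : ℝ) / n) atTop (𝓝 1) := by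
    have h3 : Tendsto (fun n : ℕ => 1 + 1 / (n : ℝ)) atTop (𝓝 (1 + 0)) :=
      tendsto_const_nhds.add tendsto_one_div_atTop_nhds_zero_nat
    rw [add_zero] at h3
    refine h3.congr' ?_
    filter_upwards [eventually_gt_atTop 0] with n hn
    have : (n : ℝ) ≠ 0 := by positivity
    push_cast
    field_simp
  have h3 := h1'.mul h2
  rw [mul_one] at h3
  have : ((2 : ℕ) : ℝ)⁻¹ = 1 / 2 := by norm_num
  rw [this] at h3
  refine h3.congr' ?_
  filter_upwards [eventually_gt_atTop 0] with n hn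
  have hn' : (n : ℝ) ≠ 0 := by positivity
  have hn1 : ((n + 1 : ℕ) : ℝ) ≠ 0 := by positivity
  simp only [Function.comp_apply]
  rw [Nat.floor_natCast]
  have e : (∑ p ∈ (Finset.Icc 1 (n + 1)).filter (fun p : ℕ => p.Prime ∧ (p : ZMod 3) = 1),
      Real.log (p : ℝ)) = ∑ i ∈ range n, cof (i + 2) := by
    rw [Finset.sum_filter]
    have h5 : ∀ i : ℕ, cof i = if i.Prime ∧ (i : ZMod 3) = 1 then Real.log i else 0 := by
      intro i
      unfold cof
      have : i % 3 = 1 ↔ (i : ZMod 3) = 1 := by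
        have := ZMod.natCast_eq_natCast_iff' i 1 3
        simp only [Nat.cast_one] at this
        rw [this]
      simp only [this]
    simp only [← h5]
    rw [Finset.range_eq_Ico, Finset.sum_Ico_add' (fun i => cof i) 0 n 2]
    have h6 : Finset.Icc 1 (n + 1) = Finset.Ico 1 (n + 2) := by
      ext i; simp only [Finset.mem_Icc, Finset.mem_Ico]; omega
    rw [h6]
    have h7 : Finset.Ico 1 (n + 2) = insert 1 (Finset.Ico 2 (n + 2)) := by
      ext i; simp only [Finset.mem_insert, Finset.mem_Ico]; omega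
    rw [h7, Finset.sum_insert (by simp)]
    have h8 : cof 1 = 0 := by
      unfold cof
      rw [if_neg]
      rintro ⟨h, _⟩
      exact Nat.not_prime_one h
    rw [h8, zero_add, zero_add]
  rw [e]
  field_simp

lemma sum_primes_wt : Tendsto (fun n : ℕ => (∑ i ∈ range n, wt i * cof (i + 2)) /
    (∑ i ∈ range n, wt i)) atTop (𝓝 (1 / 2)) := by
  have h1 : Tendsto (fun n : ℕ => (∑ i ∈ range n, (cof (i + 2) - 1 / 2)) / n) atTop (𝓝 0) := by
    have h2 := cof_mean.sub_const (1 / 2)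
    rw [sub_self] at h2
    refine h2.congr' ?_
    filter_upwards [eventually_gt_atTop 0] with n hn
    have hn' : (n : ℝ) ≠ 0 := by positivity
    rw [Finset.sum_sub_distrib, Finset.sum_const, Finset.card_range, nsmul_eq_mul]
    field_simp
  have h3 := abel_littleo wt (fun i => cof (i + 2) - 1 / 2) wt_anti wt_nonneg wt_sum_atTop h1
  have h4 := h3.add_const (1 / 2 : ℝ)
  rw [zero_add] at h4
  refine h4.congr' ?_
  filter_upwards [wt_sum_atTop.eventually_gt_atTop 0] with n hn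
  have : ∑ i ∈ range n, wt i * (cof (i + 2) - 1 / 2) =
      ∑ i ∈ range n, wt i * cof (i + 2) - (1 / 2) * ∑ i ∈ range n, wt i := by
    rw [Finset.mul_sum, ← Finset.sum_sub_distrib]
    apply Finset.sum_congr rfl
    intro i _
    ring
  rw [this]
  field_simp
  ring

/-- `∑_{p ≤ X, p ≡ 1 (3)} p^{-1/6} ~ (3/5) X^{5/6}/log X`. -/
theorem sum_primes_asymp : Tendsto (fun X : ℕ =>
    (∑ p ∈ (Nat.primesBelow (X + 1)).filter (fun p => p % 3 = 1), (p : ℝ) ^ (-(1 : ℝ) / 6)) /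
      ((X : ℝ) ^ ((5 : ℝ) / 6) / Real.log (X : ℝ))) atTop (𝓝 (3 / 5)) := by
  have h1 := sum_primes_wt.div sum_wt_div_FF (by norm_num)
  have e0 : (1 / 2 : ℝ) / (5 / 6) = 3 / 5 := by norm_num
  rw [e0] at h1
  -- sum equality: for X = n + 2 , with n+1 terms; adjust
  have e1 : ∀ n : ℕ, (∑ p ∈ (Nat.primesBelow (n + 2 + 1)).filter (fun p => p % 3 = 1),
      (p : ℝ) ^ (-(1 : ℝ) / 6)) = ∑ i ∈ range (n + 1), wt i * cof (i + 2) := by
    intro n
    have hsh := Finset.sum_Ico_add' (fun i => wt (i - 2) * cof i) 0 (n + 1) 2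
    simp only [Nat.add_sub_cancel] at hsh
    rw [Finset.range_eq_Ico, hsh]
    · rw [zero_add]
      have : (Nat.primesBelow (n + 2 + 1)).filter (fun p => p % 3 = 1) =
          (Finset.Ico 2 (n + 1 + 2)).filter (fun p => p.Prime ∧ p % 3 = 1) := by
        ext i
        simp only [Finset.mem_filter, Nat.mem_primesBelow, Finset.mem_Ico]
        constructor
        · rintro ⟨⟨h, h'⟩, h''⟩
          exact ⟨⟨h'.two_le, by omega⟩, h', h''⟩
        · rintro ⟨⟨h, h'⟩, h'', h'''⟩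
          exact ⟨⟨by omega, h''⟩, h'''⟩
      rw [this, Finset.sum_filter]
      apply Finset.sum_congr rfl
      intro i hi
      rw [Finset.mem_Ico] at hi
      unfold cof wt
      split_ifs with h
      · have e : i - 2 + 2 = i := by omega
        rw [e]
        have : Real.log i ≠ 0 := by
          have := log_pos' (i - 2)
          rw [e] at this
          exact this.ne'
        field_simp
      · simp
  have h2 : Tendsto (fun n : ℕ => (∑ i ∈ range (n + 1), wt i * cof (i + 2)) /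
      FF ((n + 1 + 2 : ℕ) : ℝ)) atTop (𝓝 (3 / 5)) := by
    have h3 := h1.comp (tendsto_add_atTop_nat 1)
    refine h3.congr' ?_
    filter_upwards [(wt_sum_atTop.comp (tendsto_add_atTop_nat 1)).eventually_gt_atTop 0] with n hn
    simp only [Function.comp_apply, Pi.div_apply] at hn ⊢
    field_simp
  -- FF (n+3) / FF (n+2) → 1
  have h4 : Tendsto (fun n : ℕ => FF ((n + 1 + 2 : ℕ) : ℝ) / FF ((n + 2 : ℕ) : ℝ)) atTop (𝓝 1) := by
    have h5 := (sum_wt_div_FF.comp (tendsto_add_atTop_nat 1)).div sum_wt_div_FF (by norm_num)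
    have h6 : Tendsto (fun n => (∑ i ∈ range (n + 1), wt i) / (∑ i ∈ range n, wt i)) atTop
        (𝓝 1) := by
      have h7 : Tendsto (fun n => 1 + wt n / (∑ i ∈ range n, wt i)) atTop (𝓝 (1 + 0)) := by
        apply tendsto_const_nhds.add
        refine squeeze_zero' (g := fun n => wt 0 / (∑ i ∈ range n, wt i)) ?_ ?_
          (Tendsto.div_atTop tendsto_const_nhds wt_sum_atTop)
        · filter_upwards [wt_sum_atTop.eventually_gt_atTop 0] with n hn
          have := wt_nonneg n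
          positivity
        · filter_upwards [wt_sum_atTop.eventually_gt_atTop 0] with n hn
          exact div_le_div_of_nonneg_right (wt_anti (Nat.zero_le n)) hn.le
      rw [add_zero] at h7
      refine h7.congr' ?_
      filter_upwards [wt_sum_atTop.eventually_gt_atTop 0] with n hn
      rw [Finset.sum_range_succ]
      field_simp
    have h8 := h5.mul h6
    rw [div_self (by norm_num), one_mul] at h8
    refine h8.congr' ?_
    filter_upwards [wt_sum_atTop.eventually_gt_atTop 0,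
      (wt_sum_atTop.comp (tendsto_add_atTop_nat 1)).eventually_gt_atTop 0] with n hn hn1
    simp only [Function.comp_apply, Pi.div_apply] at hn1 ⊢
    have hF : FF ((n + 2 : ℕ) : ℝ) ≠ 0 := by
      unfold FF
      have := log_pos' n
      positivity
    field_simp
  have h5 := h2.mul h4
  rw [mul_one] at h5
  rw [← tendsto_add_atTop_iff_nat 2]
  refine h5.congr fun n => ?_
  rw [e1]
  have hF : FF ((n + 1 + 2 : ℕ) : ℝ) ≠ 0 := by
    unfold FF
    have := log_pos' (n + 1)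
    positivity
  change _ = _ / FF ((n + 2 : ℕ) : ℝ)
  field_simp

end Crest.Agent.R012.Fin713
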