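import Crest.Agent.R012.FinSplit_713
import Crest.Agent.R012.FinAsym_713

/-!
# Row 12, part (F): S0014 (l = 0) implies S0013, in the concrete model `Eis`
-/

set_option autoImplicit false
set_option linter.unusedSimpArgs false
set_option linter.unusedVariables false

noncomputable section

open Complex Filter Topology

namespace Crest.Agent.R012

open Eis

namespace Fin713

variable {p : ℕ} {π : Eis}

lemma wC_ne_one : wC ≠ 1 := by
  intro h'
  have := congrArg Complex.re h'
  simp [wC] at this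
  norm_num at this

lemma norm_wC : ‖wC‖ = 1 := by
  have h : ‖wC‖ ^ 3 = 1 := by rw [← norm_pow, wC_cube, norm_one]
  exact (pow_eq_one_iff_of_nonneg (norm_nonneg _) (by norm_num)).mp h

/-- with reciprocity, `(tr π / π) = 1` -/
lemma Split.sy_t (h : Split p π)
    (hrec : ∀ a b : Eis, IsPrim a → IsPrim b → IsCoprime a b → sy a b = sy b a) :
    sy ((h.t : ℤ) : Eis) π = 1 := by
  have : Fact p.Prime := ⟨h.pp⟩
  have hcop : IsCoprime π (Eis.conj π) := by
    rw [h.prime.irreducible.coprime_iff_not_dvd]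
    intro h2
    exact h.conj_ne (h.prim.eq_of_associated h.conj.prim
      (h.prime.irreducible.associated_of_dvd h.conj.prime.irreducible h2)).symm
  have h1 := hrec π (Eis.conj π) h.prim h.conj.prim hcop
  -- sy t π = sy (conj π) π
  have e1 : sy ((h.t : ℤ) : Eis) π = sy (Eis.conj π) π := by
    apply h.sy_congr
    rw [h.t_eis]
    simp
  have e2 : sy ((h.t : ℤ) : Eis) (Eis.conj π) = sy π (Eis.conj π) := by
    apply h.conj.sy_congr
    rw [h.t_eis]
    simp
  have e3 := h.sy_add_sy (h.t : ZMod p)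
  have e4 : sy (((h.t : ZMod p).val : ℕ) : Eis) π = sy ((h.t : ℤ) : Eis) π := by
    apply h.sy_congr
    rw [← h.red_eq_iff, h.red_natCast, h.red_intCast, ZMod.natCast_zmod_val]
  have e5 : sy (((h.t : ZMod p).val : ℕ) : Eis) (Eis.conj π) = sy ((h.t : ℤ) : Eis) (Eis.conj π) := by
    apply h.conj.sy_congr
    rw [← h.conj.red_eq_iff, h.conj.red_natCast, h.conj.red_intCast, ZMod.natCast_zmod_val]
  rw [e4, e5, e2, h1, ← e1] at e3
  have e6 := h.sy_eq (h.t : ZMod p)
  rw [e4, if_neg h.t_ne] at e6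
  have hnorm : ‖sy ((h.t : ℤ) : Eis) π‖ = 1 := by
    rw [e6]
    split_ifs
    · simp
    · exact norm_wC
    · rw [norm_pow, norm_wC, one_pow]
  have e7 := h.ncube_eq (h.t : ZMod p)
  rw [if_neg h.t_ne] at e7
  split_ifs at e7 with h7
  · rw [if_pos h7] at e6
    exact e6
  · exfalso
    rw [e7] at e3
    have h8 : sy ((h.t : ℤ) : Eis) π = -1 / 2 := by
      push_cast at e3
      linear_combination (1 / 2 : ℂ) * e3
    rw [h8] at hnorm
    norm_num at hnorm

/-- the classical cubic sum as a sum over `ZMod p` -/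
lemma sum_range_eq (p : ℕ) [NeZero p] :
    ∑ x ∈ Finset.range p, Complex.exp (2 * Real.pi * Complex.I * ((x : ℂ) ^ 3 / (p : ℂ))) =
      ∑ x : ZMod p, ZMod.stdAddChar (x ^ 3) := by
  refine Finset.sum_bij' (fun x _ => (x : ZMod p)) (fun x _ => x.val) (fun _ _ => Finset.mem_univ _)
    (fun x _ => Finset.mem_range.mpr (ZMod.val_lt x)) (fun x hx => ?_) (fun x _ => ?_)
    (fun x hx => ?_)
  · exact ZMod.val_cast_of_lt (Finset.mem_range.mp hx)
  · exact ZMod.natCast_zmod_val x
  · have : ((x : ZMod p)) ^ 3 = (((x : ℤ) ^ 3 : ℤ) : ZMod p) := by push_cast; rfl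
    rw [this, ZMod.stdAddChar_coe]
    congr 1
    push_cast
    ring

lemma Split.G_add_G (h : Split p π)
    (hrec : ∀ a b : Eis, IsPrim a → IsPrim b → IsCoprime a b → sy a b = sy b a) :
    G π + G (Eis.conj π) =
      (∑ x ∈ Finset.range p, Complex.exp (2 * Real.pi * Complex.I * ((x : ℂ) ^ 3 / (p : ℂ)))) /
        (Real.sqrt (p : ℝ) : ℂ) := by
  have : Fact p.Prime := ⟨h.pp⟩
  unfold G
  rw [nm_conj, h.hn, ← add_div, h.gs_add_gs (h.sy_t hrec), sum_range_eq]

/-- every prime `p ≡ 1 (mod 3)` is a norm of a primary prime -/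
lemma exists_split (hp : p.Prime) (h3 : p % 3 = 1) : ∃ π : Eis, Split p π := by
  have : Fact p.Prime := ⟨hp⟩
  -- element of order 3
  have hcard : 3 ∣ Fintype.card (ZMod p)ˣ := by
    rw [ZMod.card_units]
    omega
  have : Fact (Nat.Prime 3) := ⟨Nat.prime_three⟩
  obtain ⟨u, hu⟩ := exists_prime_orderOf_dvd_card 3 hcard
  have hu3 : (u : ZMod p) ^ 3 = 1 := by
    have := pow_orderOf_eq_one u
    rw [hu] at this
    rw [← Units.val_pow_eq_pow_val, this, Units.val_one]
  have hu1 : (u : ZMod p) ≠ 1 := by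
    intro h
    have : u = 1 := Units.ext h
    rw [this, orderOf_one] at hu
    norm_num at hu
  have hroot : (u : ZMod p) ^ 2 + (u : ZMod p) + 1 = 0 := by
    have : ((u : ZMod p) - 1) * ((u : ZMod p) ^ 2 + (u : ZMod p) + 1) = 0 := by
      linear_combination hu3
    rcases mul_eq_zero.mp this with h | h
    · exact absurd (sub_eq_zero.mp h) hu1
    · exact h
  set r : ℤ := ((u : ZMod p).val : ℤ) with hr
  have hr' : (p : ℤ) ∣ r ^ 2 + r + 1 := by
    rw [← ZMod.intCast_zmod_eq_zero_iff_dvd]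
    push_cast
    rw [hr]
    simp only [Int.cast_natCast, ZMod.natCast_zmod_val]
    exact hroot
  set g := EuclideanDomain.gcd ((p : ℕ) : Eis) (w - (r : Eis)) with hg
  have hg1 : g ∣ ((p : ℕ) : Eis) := EuclideanDomain.gcd_dvd_left _ _
  have hg2 : g ∣ w - (r : Eis) := EuclideanDomain.gcd_dvd_right _ _
  have hnot : ¬ ((p : ℕ) : Eis) ∣ w - (r : Eis) := by
    intro h
    have h1 : (((p : ℕ) : ℤ) : Eis) ∣ w - (r : Eis) := by simpa using h
    rw [intCast_dvd_iff] at h1
    have h2 := h1.2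
    simp at h2
    have h3 : (p : ℤ) ∣ 1 := by exact_mod_cast h2
    have : p ∣ 1 := by exact_mod_cast h3
    exact hp.one_lt.ne' (Nat.dvd_one.mp this)
  have hnu : ¬ IsUnit g := by
    intro hunit
    have hcop : IsCoprime ((p : ℕ) : Eis) (w - (r : Eis)) :=
      EuclideanDomain.gcd_isUnit_iff.mp hunit
    have hdvd : ((p : ℕ) : Eis) ∣ (w - (r : Eis)) * (w ^ 2 - (r : Eis)) := by
      have e : (w - (r : Eis)) * (w ^ 2 - (r : Eis)) = ((r ^ 2 + r + 1 : ℤ) : Eis) := by
        have h1 := w_sq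
        have h2 := w_cube
        push_cast
        linear_combination h2 - (r : Eis) * h1
      rw [e]
      obtain ⟨c, hc⟩ := hr'
      exact ⟨(c : Eis), by rw [hc]; push_cast; ring⟩
    have h1 := hcop.dvd_of_dvd_mul_left hdvd
    rw [w_sq] at h1
    have h2 : (((p : ℕ) : ℤ) : Eis) ∣ -1 - w - (r : Eis) := by simpa using h1
    rw [intCast_dvd_iff] at h2
    have h3 := h2.2
    simp at h3
    have h4 : (p : ℤ) ∣ 1 := by exact_mod_cast h3
    have : p ∣ 1 := by exact_mod_cast h4
    exact hp.one_lt.ne' (Nat.dvd_one.mp this)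
  have hnm : nm g = p := by
    obtain ⟨c, hc⟩ := hg1
    have h1 : nm g * nm c = p ^ 2 := by rw [← nm_mul, ← hc, nm_natCast]
    have h2 : nm g ∣ p ^ 2 := ⟨_, h1.symm⟩
    rw [Nat.dvd_prime_pow hp] at h2
    obtain ⟨k, hk, hk'⟩ := h2
    interval_cases k
    · exfalso
      apply hnu
      rw [isUnit_iff, hk', pow_zero]
    · rw [hk', pow_one]
    · exfalso
      have h3 : nm c = 1 := by
        rw [hk'] at h1
        have : 0 < p ^ 2 := by have := hp.pos; positivity
        exact Nat.eq_of_mul_eq_mul_left this (by rw [h1, mul_one])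
      have h4 : IsUnit c := isUnit_iff.mpr h3
      apply hnot
      have h5 : Associated g ((p : ℕ) : Eis) := ⟨h4.unit, by rw [IsUnit.unit_spec, ← hc]⟩
      exact h5.dvd'.trans hg2
  have hlam : ¬ lam ∣ g := by
    rw [← nm_mod_eq_one_iff, hnm]
    exact h3
  refine ⟨prim g, hp, by rw [nm_prim, hnm], prim_isPrim hlam⟩

/-- classification of primary elements of norm `p` -/
lemma Split.eq_or (h : Split p π) {z : Eis} (hz : Split p z) : z = π ∨ z = Eis.conj π := by
  have h1 : z ∣ π * Eis.conj π := by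
    rw [h.mul_conj, ← hz.mul_conj]
    exact dvd_mul_right _ _
  rcases hz.prime.dvd_or_dvd h1 with h2 | h2
  · left
    exact hz.prim.eq_of_associated h.prim
      (hz.prime.irreducible.associated_of_dvd h.prime.irreducible h2)
  · right
    exact hz.prim.eq_of_associated h.conj.prim
      (hz.prime.irreducible.associated_of_dvd h.conj.prime.irreducible h2)

/-- a primary prime whose norm is not prime is a rational integer -/
lemma im_eq_zero {z : Eis} (hz : Prime z) (hp : IsPrim z) (hn : ¬ (nm z).Prime) : z.im = 0 := by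
  have hne : nm z ≠ 1 := by
    intro h
    exact hz.not_isUnit (isUnit_iff.mpr h)
  have hnz : z ≠ 0 := hz.ne_zero
  -- z divides a rational prime
  have h1 : z ∣ ((nm z : ℕ) : Eis) := ⟨Eis.conj z, (Eis.mul_conj z).symm⟩
  have key : ∀ n : ℕ, n ≠ 0 → z ∣ (n : Eis) → ∃ l : ℕ, l.Prime ∧ z ∣ (l : Eis) := by
    intro n
    induction n using Nat.recOnMul with
    | zero => intro h; exact absurd rfl h
    | one =>
      intro _ h
      rw [Nat.cast_one] at h
      exact absurd (isUnit_of_dvd_one h) hz.not_isUnit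
    | prime q hq => intro _ h; exact ⟨q, hq, h⟩
    | mul a b ha hb =>
      intro h0 h
      rw [Nat.cast_mul] at h
      rcases hz.dvd_or_dvd h with h | h
      · exact ha (by rintro rfl; simp at h0) h
      · exact hb (by rintro rfl; simp at h0) h
  obtain ⟨l, hl, c, hc⟩ := key (nm z) (nm_pos.mpr hnz).ne' h1
  have h2 : nm z * nm c = l ^ 2 := by rw [← nm_mul, ← hc, nm_natCast]
  have h3 : nm z ∣ l ^ 2 := ⟨_, h2.symm⟩
  rw [Nat.dvd_prime_pow hl] at h3
  obtain ⟨k, hk, hk'⟩ := h3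
  interval_cases k
  · exact absurd (by rw [hk', pow_zero]) hne
  · rw [pow_one] at hk'
    exact absurd (hk' ▸ hl) hn
  · have h4 : nm c = 1 := by
      rw [hk'] at h2
      have : 0 < l ^ 2 := by have := hl.pos; positivity
      exact Nat.eq_of_mul_eq_mul_left this (by rw [h2, mul_one])
    have h5 : IsUnit c := isUnit_iff.mpr h4
    have h6 : Associated z ((l : ℕ) : Eis) := ⟨h5.unit, by rw [IsUnit.unit_spec, ← hc]⟩
    -- l mod 3
    have hl3 : ¬ lam ∣ ((l : ℕ) : Eis) := fun h' =>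
      hp.not_lam_dvd (h'.trans h6.symm.dvd)
    have hl3' : l % 3 ≠ 0 := by
      intro h'
      apply hl3
      rw [lam_dvd_iff]
      simp
      omega
    rcases (show l % 3 = 1 ∨ l % 3 = 2 by omega) with hm | hm
    · have : IsPrim ((l : ℕ) : Eis) := by
        rw [isPrim_iff]
        simp
        omega
      rw [hp.eq_of_associated this h6]
      simp
    · have : IsPrim (-((l : ℕ) : Eis)) := by
        rw [isPrim_iff]
        simp
        omega
      rw [hp.eq_of_associated this (h6.trans (Associated.neg_right (Associated.refl _)))]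
      simp

open Classical in
/-- The number of primary primes of norm `≤ X` and non-prime norm is at most `2√X+1`. -/
lemma card_inert (X : ℕ) :
    ((((primBall X).filter (fun z => Prime z ∧ ¬ (nm z).Prime)).card : ℕ) : ℝ) ≤
      2 * Real.sqrt X + 1 := by
  have h1 : (primBall X).filter (fun z => Prime z ∧ ¬ (nm z).Prime) ⊆
      (Finset.Icc (-(Nat.sqrt X : ℤ)) (Nat.sqrt X : ℤ)).image (fun n : ℤ => (n : Eis)) := by
    intro z hz
    rw [Finset.mem_filter, mem_primBall] at hz
    obtain ⟨⟨hX, hpr⟩, hz1, hz2⟩ := hz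
    have him := im_eq_zero hz1 hpr hz2
    rw [Finset.mem_image]
    refine ⟨z.re, ?_, ?_⟩
    · have h2 : (nm z : ℤ) = z.re ^ 2 := by rw [nm_cast, him]; ring
      have h3 : z.re.natAbs ^ 2 ≤ X := by
        have : ((z.re.natAbs : ℕ) : ℤ) ^ 2 = z.re ^ 2 := by simp
        rw [← this] at h2
        have h4 : nm z = z.re.natAbs ^ 2 := by exact_mod_cast h2
        omega
      have h4 : z.re.natAbs ≤ Nat.sqrt X := by
        rw [Nat.le_sqrt']
        exact h3
      rw [Finset.mem_Icc]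
      omega
    · apply ext' <;> simp [him]
  have h2 := Finset.card_le_card h1
  have h3 : ((Finset.Icc (-(Nat.sqrt X : ℤ)) (Nat.sqrt X : ℤ)).image (fun n : ℤ => (n : Eis))).card
      ≤ 2 * Nat.sqrt X + 1 := by
    refine Finset.card_image_le.trans ?_
    rw [Int.card_Icc]
    omega
  have h4 : (((primBall X).filter (fun z => Prime z ∧ ¬ (nm z).Prime)).card : ℝ) ≤
      ((2 * Nat.sqrt X + 1 : ℕ) : ℝ) := by exact_mod_cast h2.trans h3
  refine h4.trans ?_
  push_cast
  have h5 : (Nat.sqrt X : ℝ) ≤ Real.sqrt X := Real.nat_sqrt_le_real_sqrt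
  linarith

/-- the statement S0013 -/
def S13 : Prop :=
    Tendsto (fun X : ℕ =>
      (∑ p ∈ (Nat.primesBelow (X + 1)).filter (fun p => p % 3 = 1),
          (∑ x ∈ Finset.range p, Complex.exp (2 * Real.pi * Complex.I * ((x : ℂ) ^ 3 / (p : ℂ)))) /
            (2 * (Real.sqrt (p : ℝ) : ℂ))) /
        (((X : ℝ) ^ ((5 : ℝ) / 6) / Real.log (X : ℝ) : ℝ) : ℂ))
      atTop (𝓝 ((((2 * Real.pi) ^ ((2 : ℝ) / 3) / (5 * Real.Gamma (2 / 3)) : ℝ) : ℂ)))

/-- the untwisted defect in the concrete model -/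
def defect (X : ℕ) : ℂ :=
  open Classical in
  ∑ z ∈ (primBall X).filter Prime, (G z - ((pC * (nm z : ℝ) ^ (-(1 : ℝ) / 6) : ℝ) : ℂ))

lemma tendsto_sqrt_div : Tendsto (fun X : ℕ => (2 * Real.sqrt X + 1) * (1 + pC) /
    ((X : ℝ) ^ ((5 : ℝ) / 6) / Real.log (X : ℝ))) atTop (𝓝 0) := by
  have h1 : Tendsto (fun x : ℝ => Real.log x / x ^ ((1 : ℝ) / 3)) atTop (𝓝 0) :=
    (isLittleO_log_rpow_atTop (by norm_num : (0 : ℝ) < 1 / 3)).tendsto_div_nhds_zero
  have h2 := h1.comp tendsto_natCast_atTop_atTop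
  have h3 := (h2.const_mul (3 * (1 + pC)))
  rw [mul_zero] at h3
  have hpC : 0 ≤ pC := by
    unfold pC
    have := Real.Gamma_pos_of_pos (show (0 : ℝ) < 2 / 3 by norm_num)
    positivity
  refine squeeze_zero' ?_ ?_ h3
  · filter_upwards [eventually_ge_atTop 1] with X hX
    have : 0 ≤ Real.log (X : ℝ) := Real.log_natCast_nonneg X
    positivity
  · filter_upwards [eventually_ge_atTop 1] with X hX
    have hX1 : (1 : ℝ) ≤ X := by exact_mod_cast hX
    have hX0 : (0 : ℝ) < X := by linarith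
    have hl : 0 ≤ Real.log (X : ℝ) := Real.log_natCast_nonneg X
    simp only [Function.comp_apply]
    have e1 : Real.sqrt (X : ℝ) = (X : ℝ) ^ ((1 : ℝ) / 2) := Real.sqrt_eq_rpow _
    have e2 : (1 : ℝ) ≤ (X : ℝ) ^ ((1 : ℝ) / 2) := Real.one_le_rpow hX1 (by norm_num)
    have e3 : (X : ℝ) ^ ((5 : ℝ) / 6) = (X : ℝ) ^ ((1 : ℝ) / 2) * (X : ℝ) ^ ((1 : ℝ) / 3) := by
      rw [← Real.rpow_add hX0]
      norm_num
    rw [e1, e3, div_div_eq_mul_div, div_le_iff₀ (by positivity)]
    have e4 : 3 * (1 + pC) * (Real.log (X : ℝ) / (X : ℝ) ^ ((1 : ℝ) / 3)) *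
        ((X : ℝ) ^ ((1 : ℝ) / 2) * (X : ℝ) ^ ((1 : ℝ) / 3)) =
        3 * (X : ℝ) ^ ((1 : ℝ) / 2) * (1 + pC) * Real.log (X : ℝ) := by
      field_simp
    rw [e4]
    apply mul_le_mul_of_nonneg_right _ hl
    apply mul_le_mul_of_nonneg_right _ (by positivity)
    linarith

/-- **S0014 (l = 0) implies S0013.** -/
theorem s13_of_defect
    (hrec : ∀ a b : Eis, IsPrim a → IsPrim b → IsCoprime a b → sy a b = sy b a)
    (hG : ∀ z : Eis, IsPrim z → ‖G z‖ ≤ 1)
    (H : Tendsto (fun X : ℕ => defect X /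
        (((X : ℝ) ^ ((5 : ℝ) / 6) / Real.log (X : ℝ) : ℝ) : ℂ)) atTop (𝓝 0)) : S13 := by
  classical
  set D : ℕ → ℝ := fun X => (X : ℝ) ^ ((5 : ℝ) / 6) / Real.log (X : ℝ) with hD
  set F : Eis → ℂ := fun z => G z - ((pC * (nm z : ℝ) ^ (-(1 : ℝ) / 6) : ℝ) : ℂ) with hF
  set P : ℕ → Finset ℕ := fun X => (Nat.primesBelow (X + 1)).filter (fun p => p % 3 = 1) with hP
  set S : ℕ → ℂ := fun p => ∑ x ∈ Finset.range p,
    Complex.exp (2 * Real.pi * Complex.I * ((x : ℂ) ^ 3 / (p : ℂ))) with hS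
  set B : ℕ → ℂ := fun X => ∑ z ∈ (primBall X).filter (fun z => Prime z ∧ ¬ (nm z).Prime), F z
    with hB
  -- decomposition
  have dec : ∀ X, defect X = (∑ p ∈ P X, (S p / (Real.sqrt (p : ℝ) : ℂ) -
      2 * ((pC * (p : ℝ) ^ (-(1 : ℝ) / 6) : ℝ) : ℂ))) + B X := by
    intro X
    unfold defect
    rw [← Finset.sum_filter_add_sum_filter_not _ (fun z => (nm z).Prime)]
    congr 1
    · rw [Finset.filter_filter]
      rw [← Finset.sum_fiberwise_of_maps_to (g := nm) (t := P X)]
      · apply Finset.sum_congr rfl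
        intro p hp
        rw [hP] at hp
        simp only [Finset.mem_filter, Nat.mem_primesBelow] at hp
        obtain ⟨⟨hpX, hpp⟩, hp3⟩ := hp
        obtain ⟨π, hπ⟩ := exists_split hpp hp3
        have hfib : ((primBall X).filter (fun z => Prime z ∧ (nm z).Prime)).filter
            (fun z => nm z = p) = {π, Eis.conj π} := by
          ext z
          simp only [Finset.mem_filter, mem_primBall, Finset.mem_insert, Finset.mem_singleton]
          constructor
          · rintro ⟨⟨⟨h1, h2⟩, h3, h4⟩, h5⟩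
            exact hπ.eq_or ⟨hpp, h5, h2⟩
          · have hπ' := hπ.conj
            rintro (rfl | rfl)
            · exact ⟨⟨⟨by rw [hπ.hn]; omega, hπ.prim⟩, hπ.prime, by rw [hπ.hn]; exact hpp⟩, hπ.hn⟩
            · exact ⟨⟨⟨by rw [hπ'.hn]; omega, hπ'.prim⟩, hπ'.prime, by rw [hπ'.hn]; exact hpp⟩,
                hπ'.hn⟩
        rw [hfib, Finset.sum_pair hπ.conj_ne.symm]
        have h1 := hπ.G_add_G hrec
        rw [nm_conj, hπ.hn, ← h1]
        ring
      · intro z hz
        simp only [Finset.mem_filter, mem_primBall] at hz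
        rw [hP]
        simp only [Finset.mem_filter, Nat.mem_primesBelow]
        exact ⟨⟨by omega, hz.2.2⟩, hz.1.2.nm_mod⟩
    · rw [Finset.filter_filter, hB]
  -- the inert part
  have hpC : 0 ≤ pC := by
    unfold pC
    have := Real.Gamma_pos_of_pos (show (0 : ℝ) < 2 / 3 by norm_num)
    positivity
  have hBle : ∀ X, ‖B X‖ ≤ (2 * Real.sqrt X + 1) * (1 + pC) := by
    intro X
    have h1 : ∀ z ∈ (primBall X).filter (fun z => Prime z ∧ ¬ (nm z).Prime), ‖F z‖ ≤ 1 + pC := by
      intro z hz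
      rw [Finset.mem_filter, mem_primBall] at hz
      refine (norm_sub_le _ _).trans (add_le_add (hG z hz.1.2) ?_)
      rw [Complex.norm_real, Real.norm_eq_abs, abs_of_nonneg (by positivity)]
      have h2 : (1 : ℝ) ≤ nm z := by
        have := nm_pos.mpr hz.2.1.ne_zero
        exact_mod_cast this
      have h3 : (nm z : ℝ) ^ (-(1 : ℝ) / 6) ≤ 1 :=
        Real.rpow_le_one_of_one_le_of_nonpos h2 (by norm_num)
      exact mul_le_of_le_one_right hpC h3
    calc ‖B X‖ ≤ ∑ z ∈ (primBall X).filter (fun z => Prime z ∧ ¬ (nm z).Prime), ‖F z‖ :=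
          norm_sum_le _ _
      _ ≤ ∑ z ∈ (primBall X).filter (fun z => Prime z ∧ ¬ (nm z).Prime), (1 + pC) :=
          Finset.sum_le_sum h1
      _ = (((primBall X).filter (fun z => Prime z ∧ ¬ (nm z).Prime)).card : ℝ) * (1 + pC) := by
          rw [Finset.sum_const, nsmul_eq_mul]
      _ ≤ _ := mul_le_mul_of_nonneg_right (card_inert X) (by positivity)
  have hBlim : Tendsto (fun X => B X / ((D X : ℝ) : ℂ)) atTop (𝓝 0) := by
    rw [tendsto_zero_iff_norm_tendsto_zero]
    refine squeeze_zero' (Eventually.of_forall fun X => norm_nonneg _) ?_ tendsto_sqrt_div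
    filter_upwards [eventually_ge_atTop 2] with X hX
    have hX1 : (1 : ℝ) < X := by exact_mod_cast (by omega : 1 < X)
    have hl : 0 < Real.log (X : ℝ) := Real.log_pos hX1
    have hDpos : 0 < D X := by rw [hD]; positivity
    rw [norm_div, Complex.norm_real, Real.norm_eq_abs, abs_of_pos hDpos]
    exact div_le_div_of_nonneg_right (hBle X) hDpos.le
  -- main term
  have hM : Tendsto (fun X : ℕ => (∑ p ∈ P X, ((pC * (p : ℝ) ^ (-(1 : ℝ) / 6) : ℝ) : ℂ)) /
      ((D X : ℝ) : ℂ)) atTop (𝓝 ((pC * (3 / 5) : ℝ) : ℂ)) := by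
    have h1 := (Crest.Agent.R012.Fin713.sum_primes_asymp).const_mul pC
    have h2 := (Complex.continuous_ofReal.tendsto _).comp h1
    refine h2.congr fun X => ?_
    simp only [Function.comp_apply]
    rw [← Complex.ofReal_sum, ← Complex.ofReal_div, ← Finset.mul_sum, mul_div_assoc]
  have h3 := ((H.sub hBlim).const_mul (1 / 2)).add hM
  rw [sub_zero, mul_zero, zero_add] at h3
  unfold S13
  have ec : ((2 * Real.pi) ^ ((2 : ℝ) / 3) / (5 * Real.Gamma (2 / 3)) : ℝ) = pC * (3 / 5) := by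
    unfold pC
    have := (Real.Gamma_pos_of_pos (show (0 : ℝ) < 2 / 3 by norm_num)).ne'
    field_simp
  rw [ec]
  refine h3.congr fun X => ?_
  rw [dec X, Finset.sum_sub_distrib, ← Finset.mul_sum]
  have e4 : ∑ p ∈ P X, S p / (2 * (Real.sqrt (p : ℝ) : ℂ)) =
      (1 / 2) * ∑ p ∈ P X, S p / (Real.sqrt (p : ℝ) : ℂ) := by
    rw [Finset.mul_sum]
    apply Finset.sum_congr rfl
    intro p _
    rw [mul_comm (2 : ℂ), ← div_div]
    ring
  rw [e4]
  ring

end Fin713

end Crest.Agent.R012
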