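import Crest.Agent.R012.PC_355
import Crest.Agent.R012.PSer_47

/-!
# Row 12, part (P): packaging of Siegel–Walfisz over `ℤ[ω]` (helper355)

* `PT_Prop` : Siegel–Walfisz for an abstract completely multiplicative `ψ` with small partial sums
  (proved by the chain PSer_47, P2, P34_994, PInv_255).
* `SW_of_PT` : the same for `χ * ang l * nm^{it}`, `χ` periodic modulo `M ≤ (log x)^C`.
-/

set_option autoImplicit false

noncomputable section

open Complex

namespace Crest.Agent.R012.P355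

open Crest.Agent.R012 Eis PSer47

open Classical in
/-- Siegel–Walfisz for an abstract completely multiplicative `ψ` with small partial sums -/
def PT_Prop : Prop := ∀ A C : ℕ, ∃ K : ℝ, 0 < K ∧ ∀ (ψ : Eis → ℂ) (Q : ℝ), IsChar ψ → 1 ≤ Q →
  (∀ N : ℕ, ‖∑ b ∈ primBall N, ψ b‖ ≤ Q * Real.sqrt N) →
  (∀ N : ℕ, ‖∑ b ∈ primBall N, ψ b ^ 2‖ ≤ Q * Real.sqrt N) →
  ∀ x t : ℝ, 2 ≤ x → Q * (|t| + 2) ≤ Real.log x ^ C →
    ‖∑ p ∈ (primBall ⌊x⌋₊).filter (fun p => Prime p), ψ p * (nm p : ℂ) ^ ((t : ℂ) * I)‖ ≤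
      K * x / Real.log x ^ A

lemma ang_sq (l : ℤ) (b : Eis) : ang l b ^ 2 = ang (2 * l) b := by
  unfold ang
  rw [← zpow_natCast, ← zpow_mul]
  congr 1
  push_cast
  ring

lemma norm_nm_cpow_le (b : Eis) (t : ℝ) (hb : IsPrim b) : ‖(nm b : ℂ) ^ ((t : ℂ) * I)‖ ≤ 1 :=
  (nmTwist_isChar t).norm_le hb

open Classical in
/-- trivial bound -/
lemma trivial_bound (ψ : Eis → ℂ) (h : ∀ b, IsPrim b → ‖ψ b‖ ≤ 1) {x : ℝ} (hx : 0 ≤ x) :
    ‖∑ p ∈ (primBall ⌊x⌋₊).filter (fun p => Prime p), ψ p‖ ≤ 25 * x := by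
  refine (norm_sum_le_of_le _ (n := fun _ => 1) ?_).trans ?_
  · intro b hb
    exact h b (mem_primBall.mp (Finset.mem_filter.mp hb).1).2
  · rw [Finset.sum_const, nsmul_eq_mul, mul_one]
    have h1 : (((primBall ⌊x⌋₊).filter (fun p => Prime p)).card : ℝ) ≤ (primBall ⌊x⌋₊).card := by
      exact_mod_cast Finset.card_filter_le _ _
    have h2 := C1 ⌊x⌋₊
    have h3 := Nat.floor_le hx
    linarith

open Classical in
/-- Siegel–Walfisz for `χ * ang l * nm^{it}`. -/
theorem SW_of_PT (hPT : PT_Prop) (l : ℤ) (A C : ℕ) : ∃ K : ℝ, 0 < K ∧ ∀ (M : ℕ) (χ : Eis → ℂ),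
    0 < M → 3 ∣ M → IsChar χ →
    (∀ a b, IsPrim a → IsPrim b → (M : Eis) ∣ a - b → χ a = χ b) →
    (l = 0 → ∃ a, IsPrim a ∧ IsCoprime a (M : Eis) ∧ χ a ≠ 1 ∧ χ a ^ 2 ≠ 1) →
    ∀ x t : ℝ, 2 ≤ x → (M : ℝ) ≤ Real.log x ^ C → |t| ≤ Real.log x ^ C →
      ‖∑ p ∈ (primBall ⌊x⌋₊).filter (fun p => Prime p),
        χ p * ang l p * (nm p : ℂ) ^ ((t : ℂ) * I)‖ ≤ K * x / Real.log x ^ A := by
  obtain ⟨C1', hC1', h1⟩ := C2_prim l
  obtain ⟨C2', hC2', h2⟩ := C2_prim (2 * l)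
  obtain ⟨K, hK, hP⟩ := hPT A (2 * C + 1)
  set D : ℝ := C1' + C2' + 1 with hD
  set c0 : ℝ := 3 * D + 1 with hc0
  have hD1 : 1 ≤ D := by rw [hD]; linarith
  refine ⟨K + 25 * c0 ^ A, by positivity, ?_⟩
  intro M χ hM h3 hχ hper hne x t hx hMx htx
  have hlx : 0 < Real.log x := Real.log_pos (by linarith)
  have hx0 : 0 < x := by linarith
  have hchar : IsChar (fun b => χ b * ang l b) := hχ.mul' (ang_isChar l)
  have hMR : (1 : ℝ) ≤ M := by exact_mod_cast hM
  rcases lt_or_ge (Real.log x) c0 with hsm | hlg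
  · have ht := trivial_bound (fun p => χ p * ang l p * (nm p : ℂ) ^ ((t : ℂ) * I)) ?_ hx0.le
    · refine ht.trans ?_
      have e1 : Real.log x ^ A ≤ c0 ^ A := pow_le_pow_left₀ hlx.le hsm.le A
      rw [le_div_iff₀ (by positivity)]
      have : 25 * x * Real.log x ^ A ≤ 25 * x * c0 ^ A := by gcongr
      nlinarith [mul_pos hK hx0]
    · intro b hb
      rw [norm_mul]
      calc _ ≤ (1 : ℝ) * 1 := by
            apply mul_le_mul (hchar.norm_le hb) (norm_nm_cpow_le b t hb) (norm_nonneg _) (by norm_num)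
        _ = 1 := by norm_num
  · have hfin := hP (fun b => χ b * ang l b) (D * M) hchar (by nlinarith) ?_ ?_ x t hx ?_
    · refine hfin.trans ?_
      gcongr
      have : 0 ≤ 25 * c0 ^ A := by positivity
      linarith
    · intro N
      refine (h1 M χ hM h3 (fun a ha => hχ.norm_le ha) hper ?_ N).trans ?_
      · intro hl
        obtain ⟨a, ha, hcop, hne1, hne2⟩ := hne hl
        exact ⟨a, ha, hcop, hne1, fun b hb => hχ.mul a b ha hb⟩
      · gcongr
        rw [hD]; linarith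
    · intro N
      have e : ∀ b, (χ b * ang l b) ^ 2 = χ b ^ 2 * ang (2 * l) b := by
        intro b; rw [mul_pow, ang_sq]
      simp only [e]
      refine (h2 M (fun b => χ b ^ 2) hM h3 (fun a ha => hχ.sq.norm_le ha) ?_ ?_ N).trans ?_
      · intro a b ha hb h
        simp only [hper a b ha hb h]
      · intro hl
        obtain ⟨a, ha, hcop, hne1, hne2⟩ := hne (by omega)
        exact ⟨a, ha, hcop, hne2, fun b hb => hχ.sq.mul a b ha hb⟩
      · gcongr
        rw [hD]; linarith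
    · have hl1 : 1 ≤ Real.log x := by rw [hc0] at hlg; linarith
      have hp1 : 1 ≤ Real.log x ^ C := one_le_pow₀ hl1
      have hp0 : 0 < Real.log x ^ C := by positivity
      have ht2 : |t| + 2 ≤ 3 * Real.log x ^ C := by linarith
      calc D * M * (|t| + 2) ≤ D * Real.log x ^ C * (3 * Real.log x ^ C) := by gcongr
        _ = (3 * D) * (Real.log x ^ C * Real.log x ^ C) := by ring
        _ ≤ Real.log x * (Real.log x ^ C * Real.log x ^ C) := by
            gcongr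
            rw [hc0] at hlg; linarith
        _ = Real.log x ^ (2 * C + 1) := by ring

end Crest.Agent.R012.P355
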