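import Crest.Agent.R012.Per_277
import Crest.Agent.R012.PFinal_355
import Crest.Agent.R012.Bridge2_666
import Crest.Agent.R012.FinMain_713
import Crest.Agent.R012.GaussInst_880

/-!
# Row 12 (helper277): outermost layer

`Dyadic_Prop l` : the output of the sieve part, for the primes with norm in `(X/2, X]`.
`top14`, `top13` : `Dyadic_Prop` for all `l` and `PT_Prop` (Siegel–Walfisz) imply S0014, S0013.
-/

set_option autoImplicit false

noncomputable section

open Filter Topology Finset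
open Crest.Agent.R012.Eis Crest.Agent.R012.Div277 Crest.Agent.R012.Per277

namespace Crest.Agent.R012.Top277

/-- the summand of the sieve part. -/
def fS (l : ℤ) (n : Eis) : ℂ :=
  ang l n * (G n - if l = 0 then ((pC * (nm n : ℝ) ^ (-(1 : ℝ) / 6) : ℝ) : ℂ) else 0)

/-- comparison function `X^{5/6}/log X`. -/
def hX (X : ℕ) : ℝ := (X : ℝ) ^ ((5 : ℝ) / 6) / Real.log (X : ℝ)

open Classical in
/-- primary primes with norm in `(X/2, X]`. -/
def dyP (X : ℕ) : Finset Eis := (primBall X).filter (fun p => Prime p ∧ X < 2 * nm p)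

/-- `Σ_{X/2 < N(p) ≤ X} a(p) = o(X^{5/6}/log X)`. -/
def DyO (a : Eis → ℂ) : Prop :=
  ∀ ε : ℝ, 0 < ε → ∃ X0 : ℕ, ∀ X : ℕ, X0 ≤ X → ‖∑ p ∈ dyP X, a p‖ ≤ ε * hX X

/-- **the output of the sieve part**. -/
def Dyadic_Prop (l : ℤ) : Prop := DyO (fS l)

lemma hX_nonneg (X : ℕ) : 0 ≤ hX X := by
  unfold hX
  have : 0 ≤ Real.log (X : ℝ) := Real.log_natCast_nonneg X
  positivity

open Classical in
lemma sum_prime_split (a : Eis → ℂ) (X : ℕ) :
    ∑ p ∈ (primBall X).filter Prime, a p =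
      ∑ p ∈ dyP X, a p + ∑ p ∈ (primBall (X / 2)).filter Prime, a p := by
  rw [← Finset.sum_filter_add_sum_filter_not ((primBall X).filter Prime)
    (fun p => X < 2 * nm p)]
  congr 1
  · unfold dyP
    rw [Finset.filter_filter]
  · refine Finset.sum_congr ?_ (fun _ _ => rfl)
    ext p
    simp only [mem_filter, mem_primBall, not_lt]
    constructor
    · rintro ⟨⟨⟨_, h2⟩, h3⟩, h4⟩
      exact ⟨⟨by omega, h2⟩, h3⟩
    · rintro ⟨⟨h1, h2⟩, h3⟩
      exact ⟨⟨⟨by omega, h2⟩, h3⟩, by omega⟩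

lemma two_rpow_le : (2 : ℝ) ^ (-(5 : ℝ) / 6) ≤ 0.57 := by
  have h : ((2 : ℝ) ^ (-(5 : ℝ) / 6)) ^ (6 : ℕ) ≤ (0.57 : ℝ) ^ (6 : ℕ) := by
    rw [← Real.rpow_natCast, ← Real.rpow_mul (by norm_num)]
    have : (-(5 : ℝ) / 6) * ((6 : ℕ) : ℝ) = -5 := by norm_num
    rw [this, Real.rpow_neg (by norm_num)]
    norm_num
  exact le_of_pow_le_pow_left₀ (by norm_num) (by norm_num) h

/-- halving: `h(X/2) ≤ 0.7 h(X)` for large `X`. -/
lemma hX_half {X : ℕ} (hX1 : 3 ^ 10 ≤ X) : hX (X / 2) ≤ 0.7 * hX X := by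
  unfold hX
  have hXr : (3 : ℝ) ^ (10 : ℕ) ≤ X := by exact_mod_cast hX1
  have hX0 : (0 : ℝ) < X := lt_of_lt_of_le (by positivity) hXr
  have hY3 : (X : ℝ) / 3 ≤ ((X / 2 : ℕ) : ℝ) := by
    have : X ≤ 3 * (X / 2) := by omega
    have h2 : (X : ℝ) ≤ 3 * ((X / 2 : ℕ) : ℝ) := by exact_mod_cast this
    linarith
  have hY2 : ((X / 2 : ℕ) : ℝ) ≤ (X : ℝ) / 2 := Nat.cast_div_le
  have hY0 : (0 : ℝ) < ((X / 2 : ℕ) : ℝ) := lt_of_lt_of_le (by positivity) hY3
  have hlog3 : 0 < Real.log 3 := Real.log_pos (by norm_num)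
  have hlogX : 10 * Real.log 3 ≤ Real.log X := by
    have h := Real.log_le_log (by positivity) hXr
    rw [Real.log_pow] at h
    exact_mod_cast h
  have hlogY : 0.9 * Real.log X ≤ Real.log ((X / 2 : ℕ) : ℝ) := by
    have h := Real.log_le_log (by positivity) hY3
    rw [Real.log_div hX0.ne' (by norm_num)] at h
    linarith
  have hlX0 : 0 < Real.log X := by linarith
  have h1 : ((X / 2 : ℕ) : ℝ) ^ ((5 : ℝ) / 6) ≤ 0.57 * (X : ℝ) ^ ((5 : ℝ) / 6) := by
    calc ((X / 2 : ℕ) : ℝ) ^ ((5 : ℝ) / 6) ≤ ((X : ℝ) / 2) ^ ((5 : ℝ) / 6) :=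
          Real.rpow_le_rpow hY0.le hY2 (by norm_num)
      _ = (2 : ℝ) ^ (-(5 : ℝ) / 6) * (X : ℝ) ^ ((5 : ℝ) / 6) := by
          rw [Real.div_rpow hX0.le (by norm_num), neg_div, Real.rpow_neg (by norm_num)]
          ring
      _ ≤ _ := by gcongr; exact two_rpow_le
  calc ((X / 2 : ℕ) : ℝ) ^ ((5 : ℝ) / 6) / Real.log ((X / 2 : ℕ) : ℝ)
      ≤ (0.57 * (X : ℝ) ^ ((5 : ℝ) / 6)) / (0.9 * Real.log X) := by gcongr
    _ = (0.57 / 0.9) * ((X : ℝ) ^ ((5 : ℝ) / 6) / Real.log X) := by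
        field_simp
    _ ≤ 0.7 * ((X : ℝ) ^ ((5 : ℝ) / 6) / Real.log X) := by
        have : 0 ≤ (X : ℝ) ^ ((5 : ℝ) / 6) / Real.log X := by positivity
        nlinarith

lemma hX_tendsto : Tendsto hX atTop atTop := by
  have h1 : Tendsto (fun x : ℝ => x ^ ((5 : ℝ) / 6) / Real.log x) atTop atTop := by
    have h := (isLittleO_log_rpow_atTop (by norm_num : (0 : ℝ) < 5 / 6)).tendsto_div_nhds_zero
    have h2 : Tendsto (fun x : ℝ => (Real.log x / x ^ ((5 : ℝ) / 6))⁻¹) atTop atTop := by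
      apply Tendsto.inv_tendsto_nhdsGT_zero
      rw [tendsto_nhdsWithin_iff]
      refine ⟨h, ?_⟩
      filter_upwards [eventually_gt_atTop 1] with x hx
      have := Real.log_pos hx
      have : (0 : ℝ) < x := by linarith
      simp only [Set.mem_Ioi]; positivity
    refine h2.congr (fun x => ?_)
    rw [inv_div]
  exact h1.comp tendsto_natCast_atTop_atTop

open Classical in
/-- from dyadic blocks to all primes. -/
theorem full_of_dyadic (a : Eis → ℂ) (h : DyO a) :
    Tendsto (fun X : ℕ => (∑ p ∈ (primBall X).filter Prime, a p) /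
        (((X : ℝ) ^ ((5 : ℝ) / 6) / Real.log (X : ℝ) : ℝ) : ℂ)) atTop (𝓝 0) := by
  set S : ℕ → ℂ := fun X => ∑ p ∈ (primBall X).filter Prime, a p with hS
  have key : ∀ ε : ℝ, 0 < ε → ∃ K : ℝ, ∀ X : ℕ, ‖S X‖ ≤ K + 4 * ε * hX X := by
    intro ε hε
    obtain ⟨X0, hX0⟩ := h ε hε
    set N := max X0 (3 ^ 10) with hN
    -- bound for small X
    refine ⟨∑ X ∈ range N, ‖S X‖, fun X => ?_⟩
    induction X using Nat.strong_induction_on with
    | _ X ih =>
      rcases lt_or_ge X N with hlt | hge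
      · have h1 : ‖S X‖ ≤ ∑ X ∈ range N, ‖S X‖ :=
          Finset.single_le_sum (f := fun X => ‖S X‖) (fun _ _ => norm_nonneg _)
            (mem_range.mpr hlt)
        have h2 := hX_nonneg X
        nlinarith
      · have hX1 : X0 ≤ X := (le_max_left _ _).trans hge
        have hX2 : 3 ^ 10 ≤ X := (le_max_right _ _).trans hge
        have h1 := ih (X / 2) (by omega)
        have h2 : S X = ∑ p ∈ dyP X, a p + S (X / 2) := sum_prime_split a X
        have h3 := hX0 X hX1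
        have h4 := hX_half hX2
        have h5 := hX_nonneg X
        calc ‖S X‖ ≤ ‖∑ p ∈ dyP X, a p‖ + ‖S (X / 2)‖ := by rw [h2]; exact norm_add_le _ _
          _ ≤ ε * hX X + ((∑ X ∈ range N, ‖S X‖) + 4 * ε * (0.7 * hX X)) := by
              refine add_le_add h3 (h1.trans ?_)
              gcongr
          _ ≤ _ := by nlinarith
  rw [Metric.tendsto_atTop]
  intro ε hε
  obtain ⟨K, hK⟩ := key (ε / 16) (by positivity)
  obtain ⟨N, hN⟩ := (tendsto_atTop_atTop.mp hX_tendsto) (max 1 (4 * |K| / ε))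
  refine ⟨N, fun X hX' => ?_⟩
  have h1 := hN X hX'
  have h2 : 1 ≤ hX X := (le_max_left _ _).trans h1
  have h3 : 4 * |K| / ε ≤ hX X := (le_max_right _ _).trans h1
  have hpos : 0 < hX X := by linarith
  rw [dist_zero_right, norm_div, Complex.norm_real]
  show ‖S X‖ / ‖hX X‖ < ε
  rw [Real.norm_of_nonneg hpos.le, div_lt_iff₀ hpos]
  have h4 := hK X
  rw [div_le_iff₀ hε] at h3
  have h5 := le_abs_self K
  nlinarith

/-! ### the case `l ≠ 0`: the secondary term by Siegel–Walfisz -/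

lemma isChar_one : PSer47.IsChar (fun _ => (1 : ℂ)) where
  one := rfl
  mul := fun _ _ _ _ => by simp
  norm := fun _ _ => Or.inr (by simp)

open Classical in
/-- prime sums of an angular character, `l ≠ 0`. -/
theorem ang_prime_sum (hPT : P355.PT_Prop) {l : ℤ} (hl : l ≠ 0) :
    ∃ K : ℝ, 0 < K ∧ ∃ N0 : ℕ, 2 ≤ N0 ∧ ∀ N : ℕ, N0 ≤ N →
      ‖∑ p ∈ (primBall N).filter Prime, ang l p‖ ≤ K * N / Real.log N ^ 2 := by
  obtain ⟨K, hK, h⟩ := P355.SW_of_PT hPT l 2 1
  obtain ⟨N0, hN0⟩ := exists_nat_ge (Real.exp 3)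
  refine ⟨K, hK, max N0 2, le_max_right _ _, fun N hN => ?_⟩
  have hN1 : (N0 : ℝ) ≤ N := by exact_mod_cast (le_max_left _ _).trans hN
  have hN2 : (2 : ℝ) ≤ N := by exact_mod_cast (le_max_right _ _).trans hN
  have hlog : (3 : ℝ) ≤ Real.log N := by
    rw [Real.le_log_iff_exp_le (by linarith)]
    exact hN0.trans hN1
  have h1 := h 3 (fun _ => 1) (by norm_num) (dvd_refl 3) isChar_one (fun _ _ _ _ _ => rfl)
    (fun h0 => absurd h0 hl) N 0 hN2 (by simpa using hlog) (by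
      simp only [abs_zero, pow_one]; linarith)
  simpa using h1

open Classical in
/-- dyadic sums of `ang l p * N(p)^{-1/6}` over primes, `l ≠ 0`. -/
theorem DyO_ang (hPT : P355.PT_Prop) {l : ℤ} (hl : l ≠ 0) :
    DyO (fun p => ang l p * ((pC * (nm p : ℝ) ^ (-(1 : ℝ) / 6) : ℝ) : ℂ)) := by
  obtain ⟨K, hK, N0, hN02, hN0⟩ := ang_prime_sum hPT hl
  have hpC : 0 ≤ pC := by
    unfold pC
    have := Real.Gamma_pos_of_pos (show (0 : ℝ) < 2 / 3 by norm_num)
    positivity
  -- main inequality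
  have main : ∀ X : ℕ, 3 * N0 ≤ X → 3 ^ 10 ≤ X →
      ‖∑ p ∈ dyP X, ang l p * ((pC * (nm p : ℝ) ^ (-(1 : ℝ) / 6) : ℝ) : ℂ)‖ ≤
        (20 * K * pC) * (X : ℝ) ^ ((5 : ℝ) / 6) / Real.log X ^ 2 := by
    intro X hXN hX3
    set Y : ℕ := X / 2 with hY
    have hYX : Y ≤ X := Nat.div_le_self _ _
    have hYN : N0 ≤ Y := by omega
    have hXr : (3 : ℝ) ^ (10 : ℕ) ≤ X := by exact_mod_cast hX3
    have hX0 : (0 : ℝ) < X := lt_of_lt_of_le (by positivity) hXr
    have hY3 : (X : ℝ) / 3 ≤ (Y : ℝ) := by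
      have : X ≤ 3 * Y := by omega
      have h2 : (X : ℝ) ≤ 3 * (Y : ℝ) := by exact_mod_cast this
      linarith
    have hY0 : (0 : ℝ) < Y := lt_of_lt_of_le (by positivity) hY3
    have hlog3 : 0 < Real.log 3 := Real.log_pos (by norm_num)
    have hlogX : 10 * Real.log 3 ≤ Real.log X := by
      have h := Real.log_le_log (by positivity) hXr
      rw [Real.log_pow] at h
      exact_mod_cast h
    have hlogY : 0.9 * Real.log X ≤ Real.log (Y : ℝ) := by
      have h := Real.log_le_log (by positivity) hY3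
      rw [Real.log_div hX0.ne' (by norm_num)] at h
      linarith
    have hlX0 : 0 < Real.log X := by linarith
    -- coefficients
    set c : Eis → ℂ := fun p => if Prime p ∧ X < 2 * nm p then ang l p else 0 with hc
    set f : ℕ → ℂ := fun m => (((max m Y : ℕ) : ℝ) ^ (-(1 : ℝ) / 6) : ℝ) with hf
    have e1 : ∑ p ∈ dyP X, ang l p * ((pC * (nm p : ℝ) ^ (-(1 : ℝ) / 6) : ℝ) : ℂ) =
        (pC : ℂ) * ∑ p ∈ primBall X, c p * f (nm p) := by
      rw [Finset.mul_sum, dyP, Finset.sum_filter]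
      refine Finset.sum_congr rfl (fun p _ => ?_)
      simp only [hc, hf]
      by_cases hp : Prime p ∧ X < 2 * nm p
      · rw [if_pos hp, if_pos hp]
        have : max (nm p) Y = nm p := max_eq_left (by omega)
        rw [this]
        push_cast
        ring
      · rw [if_neg hp, if_neg hp]; simp
    -- partial sums
    have hS : ∀ m ≤ X, ‖∑ x ∈ primBall m, c x‖ ≤ 2 * (K * X / (0.9 * Real.log X) ^ 2) := by
      intro m hm
      have hb : ∀ n : ℕ, Y ≤ n → n ≤ X → ‖∑ p ∈ (primBall n).filter Prime, ang l p‖ ≤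
          K * X / (0.9 * Real.log X) ^ 2 := by
        intro n hn hnX
        refine (hN0 n (hYN.trans hn)).trans ?_
        have h1 : (n : ℝ) ≤ X := by exact_mod_cast hnX
        have h2 : 0.9 * Real.log X ≤ Real.log n :=
          hlogY.trans (Real.log_le_log hY0 (by exact_mod_cast hn))
        gcongr
      rcases le_or_gt m Y with hmY | hmY
      · have : ∑ x ∈ primBall m, c x = 0 := by
          refine Finset.sum_eq_zero (fun x hx => ?_)
          simp only [hc]
          rw [if_neg]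
          rintro ⟨_, h⟩
          have := (mem_primBall.mp hx).1
          omega
        rw [this, norm_zero]; positivity
      · have e2 : ∑ x ∈ primBall m, c x =
            ∑ p ∈ (primBall m).filter Prime, ang l p - ∑ p ∈ (primBall Y).filter Prime, ang l p := by
          rw [eq_sub_iff_add_eq]
          simp only [hc]
          rw [← Finset.sum_filter]
          rw [← Finset.sum_filter_add_sum_filter_not ((primBall m).filter Prime)
            (fun p => X < 2 * nm p)]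
          congr 1
          · rw [Finset.filter_filter]
          · refine Finset.sum_congr ?_ (fun _ _ => rfl)
            ext p
            simp only [mem_filter, mem_primBall, not_lt]
            constructor
            · rintro ⟨⟨h1, h2⟩, h3⟩
              exact ⟨⟨⟨by omega, h2⟩, h3⟩, by omega⟩
            · rintro ⟨⟨⟨_, h2⟩, h3⟩, h4⟩
              exact ⟨⟨by omega, h2⟩, h3⟩
        rw [e2]
        calc _ ≤ ‖∑ p ∈ (primBall m).filter Prime, ang l p‖ +
              ‖∑ p ∈ (primBall Y).filter Prime, ang l p‖ := norm_sub_le _ _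
          _ ≤ _ := by linarith [hb m hmY.le hm, hb Y le_rfl hYX]
    have hab := norm_sum_primBall_weight_le c f X hS
    -- variation
    have hfm : ∀ m, ‖f (m + 1) - f m‖ = ‖f m‖ - ‖f (m + 1)‖ := by
      intro m
      have h1 : 0 ≤ ((max m Y : ℕ) : ℝ) ^ (-(1 : ℝ) / 6) := by positivity
      have h2 : 0 ≤ ((max (m + 1) Y : ℕ) : ℝ) ^ (-(1 : ℝ) / 6) := by positivity
      have h3 : ((max (m + 1) Y : ℕ) : ℝ) ^ (-(1 : ℝ) / 6) ≤
          ((max m Y : ℕ) : ℝ) ^ (-(1 : ℝ) / 6) := by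
        apply Real.rpow_le_rpow_of_nonpos
        · have : 0 < max m Y := lt_of_lt_of_le (by exact_mod_cast hY0) (le_max_right _ _)
          exact_mod_cast this
        · exact_mod_cast max_le_max (Nat.le_succ m) le_rfl
        · norm_num
      simp only [hf]
      rw [← Complex.ofReal_sub, Complex.norm_real, Complex.norm_real, Complex.norm_real,
        Real.norm_of_nonneg h1, Real.norm_of_nonneg h2, Real.norm_eq_abs, abs_sub_comm,
        abs_of_nonneg (by linarith)]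
    have hvar : ‖f X‖ + ∑ m ∈ range X, ‖f (m + 1) - f m‖ = ‖f 0‖ := by
      rw [Finset.sum_congr rfl (fun m _ => hfm m), Finset.sum_range_sub']
      ring
    rw [hvar] at hab
    have hf0 : ‖f 0‖ ≤ 2 * (X : ℝ) ^ (-(1 : ℝ) / 6) := by
      simp only [hf]
      rw [Complex.norm_real, Real.norm_of_nonneg (by positivity)]
      have : ((max 0 Y : ℕ) : ℝ) = (Y : ℝ) := by simp
      rw [this]
      calc (Y : ℝ) ^ (-(1 : ℝ) / 6) ≤ ((X : ℝ) / 3) ^ (-(1 : ℝ) / 6) :=
            Real.rpow_le_rpow_of_nonpos (by positivity) hY3 (by norm_num)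
        _ = (3 : ℝ) ^ ((1 : ℝ) / 6) * (X : ℝ) ^ (-(1 : ℝ) / 6) := by
            rw [Real.div_rpow hX0.le (by norm_num), neg_div, Real.rpow_neg (by norm_num : (0:ℝ) ≤ 3)]
            field_simp
        _ ≤ 2 * (X : ℝ) ^ (-(1 : ℝ) / 6) := by
            gcongr
            have h : ((3 : ℝ) ^ ((1 : ℝ) / 6)) ^ (6 : ℕ) ≤ (2 : ℝ) ^ (6 : ℕ) := by
              rw [← Real.rpow_natCast, ← Real.rpow_mul (by norm_num)]
              norm_num
            exact le_of_pow_le_pow_left₀ (by norm_num) (by norm_num) h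
    rw [e1, norm_mul, Complex.norm_real, Real.norm_of_nonneg hpC]
    calc pC * ‖∑ p ∈ primBall X, c p * f (nm p)‖
        ≤ pC * (2 * (K * X / (0.9 * Real.log X) ^ 2) * (2 * (X : ℝ) ^ (-(1 : ℝ) / 6))) := by
          refine mul_le_mul_of_nonneg_left (hab.trans ?_) hpC
          exact mul_le_mul_of_nonneg_left hf0 (by positivity)
      _ = (4 / 0.81 * K * pC) * ((X : ℝ) * (X : ℝ) ^ (-(1 : ℝ) / 6)) / Real.log X ^ 2 := by
          field_simp; ring
      _ = (4 / 0.81 * K * pC) * (X : ℝ) ^ ((5 : ℝ) / 6) / Real.log X ^ 2 := by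
          have : (X : ℝ) * (X : ℝ) ^ (-(1 : ℝ) / 6) = (X : ℝ) ^ ((5 : ℝ) / 6) := by
            nth_rewrite 1 [← Real.rpow_one (X : ℝ)]
            rw [← Real.rpow_add hX0]; norm_num
          rw [this]
      _ ≤ (20 * K * pC) * (X : ℝ) ^ ((5 : ℝ) / 6) / Real.log X ^ 2 := by
          gcongr
          norm_num
  intro ε hε
  obtain ⟨N1, hN1⟩ := exists_nat_ge (Real.exp (20 * K * pC / ε + 1))
  refine ⟨max N1 (max (3 * N0) (3 ^ 10)), fun X hX' => ?_⟩
  have h1 : N1 ≤ X := (le_max_left _ _).trans hX'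
  have h2 : 3 * N0 ≤ X := (le_max_left _ _).trans ((le_max_right _ _).trans hX')
  have h3 : 3 ^ 10 ≤ X := (le_max_right _ _).trans ((le_max_right _ _).trans hX')
  refine (main X h2 h3).trans ?_
  have hXr : (3 : ℝ) ^ (10 : ℕ) ≤ X := by exact_mod_cast h3
  have hX0 : (0 : ℝ) < X := lt_of_lt_of_le (by positivity) hXr
  have hlog : 20 * K * pC / ε + 1 ≤ Real.log X := by
    rw [Real.le_log_iff_exp_le hX0]
    exact hN1.trans (by exact_mod_cast h1)
  have hlpos : 0 < Real.log X := lt_of_lt_of_le (by positivity) hlog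
  have h4 : 20 * K * pC ≤ ε * Real.log X := by
    have : 20 * K * pC / ε ≤ Real.log X := by linarith
    rw [div_le_iff₀ hε] at this
    linarith
  unfold hX
  rw [div_le_iff₀ (by positivity)]
  calc 20 * K * pC * (X : ℝ) ^ ((5 : ℝ) / 6)
      ≤ (ε * Real.log X) * (X : ℝ) ^ ((5 : ℝ) / 6) := by gcongr
    _ = ε * ((X : ℝ) ^ ((5 : ℝ) / 6) / Real.log X) * Real.log X ^ 2 := by
        field_simp

/-- the defect is `o(X^{5/6}/log X)`. -/
theorem defect_tendsto (hD : ∀ l : ℤ, Dyadic_Prop l) (hPT : P355.PT_Prop) (l : ℤ) :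
    Tendsto (fun X : ℕ => Crest.Agent.R012.defect l X /
        (((X : ℝ) ^ ((5 : ℝ) / 6) / Real.log (X : ℝ) : ℝ) : ℂ)) atTop (𝓝 0) := by
  unfold Crest.Agent.R012.defect
  have hdy : DyO (fun p => ang l p * (G p - ((pC * (nm p : ℝ) ^ (-(1 : ℝ) / 6) : ℝ) : ℂ))) := by
    by_cases hl : l = 0
    · have h := hD l
      unfold Dyadic_Prop fS at h
      simpa [hl] using h
    · intro ε hε
      obtain ⟨X1, h1⟩ := hD l (ε / 2) (by positivity)
      obtain ⟨X2, h2⟩ := DyO_ang hPT hl (ε / 2) (by positivity)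
      refine ⟨max X1 X2, fun X hX' => ?_⟩
      have h3 := h1 X ((le_max_left _ _).trans hX')
      have h4 := h2 X ((le_max_right _ _).trans hX')
      simp only [fS, if_neg hl, sub_zero] at h3
      have e : ∑ p ∈ dyP X, ang l p * (G p - ((pC * (nm p : ℝ) ^ (-(1 : ℝ) / 6) : ℝ) : ℂ)) =
          ∑ p ∈ dyP X, ang l p * G p -
            ∑ p ∈ dyP X, ang l p * ((pC * (nm p : ℝ) ^ (-(1 : ℝ) / 6) : ℝ) : ℂ) := by
        rw [← Finset.sum_sub_distrib]
        exact Finset.sum_congr rfl (fun p _ => by ring)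
      rw [e]
      refine (norm_sub_le _ _).trans ?_
      linarith
  exact full_of_dyadic _ hdy

/-- **S0014**, modulo the sieve output and Siegel–Walfisz. -/
theorem top14 (hD : ∀ l : ℤ, Dyadic_Prop l) (hPT : P355.PT_Prop)
    (σ : Crest.NumberTheoryR.CubicGauss.EisK →+* ℂ) (ℓ : ℤ) :
    Tendsto (fun X : ℕ => Crest.NumberTheoryR.CubicGauss.twistedFirstMomentDefect σ ℓ X /
        (((X : ℝ) ^ ((5 : ℝ) / 6) / Real.log (X : ℝ) : ℝ) : ℂ)) atTop (𝓝 0) :=
  Bridge.s0014_of_defect (defect_tendsto hD hPT) σ ℓ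

/-- **S0013**, modulo the sieve output and Siegel–Walfisz. -/
theorem top13 (hD : ∀ l : ℤ, Dyadic_Prop l) (hPT : P355.PT_Prop) :
    Tendsto (fun X : ℕ =>
      (∑ p ∈ (Nat.primesBelow (X + 1)).filter (fun p => p % 3 = 1),
          (∑ x ∈ Finset.range p, Complex.exp (2 * Real.pi * Complex.I * ((x : ℂ) ^ 3 / (p : ℂ)))) /
            (2 * (Real.sqrt (p : ℝ) : ℂ))) /
        (((X : ℝ) ^ ((5 : ℝ) / 6) / Real.log (X : ℝ) : ℝ) : ℂ))
      atTop (𝓝 ((((2 * Real.pi) ^ ((2 : ℝ) / 3) / (5 * Real.Gamma (2 / 3)) : ℝ) : ℂ))) := by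
  refine Fin713.s13_of_defect (fun a b ha hb _ => Sym645.sy_reciprocity ha hb)
    (fun z hz => Gauss880.norm_G_le Gauss880.syG hz) ?_
  have h := defect_tendsto hD hPT 0
  refine h.congr (fun X => ?_)
  unfold Crest.Agent.R012.defect Fin713.defect
  congr 1
  refine Finset.sum_congr rfl (fun z hz => ?_)
  simp [ang]

end Crest.Agent.R012.Top277
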