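import Crest.Agent.R012.SpecMain_48
import Crest.Agent.R012.Top_277

/-!
# Row 12 (helper277): `Final_of` of the master interface, and the exact statements S0014, S0013
from `Main48.Dyadic_Prop` alone.
-/

set_option autoImplicit false

noncomputable section

open Filter Topology Finset
open Crest.Agent.R012.Eis

namespace Crest.Agent.R012.Final277

open Top277

lemma DyO_of_dyadic (hD : Main48.Dyadic_Prop) (l : ℤ) :
    DyO (fun p => ang l p * (G p - ((pC * (nm p : ℝ) ^ (-(1 : ℝ) / 6) : ℝ) : ℂ))) := by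
  obtain ⟨K, X0, h⟩ := hD l
  intro ε hε
  obtain ⟨N1, hN1⟩ := exists_nat_ge (Real.exp ((|K| / ε) ^ (4 : ℝ) + 1))
  refine ⟨max X0 (max N1 2), fun X hX' => ?_⟩
  have h1 : X0 ≤ X := (le_max_left _ _).trans hX'
  have h2 : N1 ≤ X := (le_max_left _ _).trans ((le_max_right _ _).trans hX')
  have h3 : 2 ≤ X := (le_max_right _ _).trans ((le_max_right _ _).trans hX')
  have hX0 : (0 : ℝ) < X := by
    have : (2 : ℝ) ≤ X := by exact_mod_cast h3
    linarith
  have hlog : (|K| / ε) ^ (4 : ℝ) + 1 ≤ Real.log X := by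
    rw [Real.le_log_iff_exp_le hX0]
    exact hN1.trans (by exact_mod_cast h2)
  have hlpos : 0 < Real.log X := lt_of_lt_of_le (by positivity) hlog
  have hle : |K| / ε ≤ Real.log X ^ ((1 : ℝ) / 4) := by
    have h4 : (|K| / ε) ^ (4 : ℝ) ≤ Real.log X := by linarith
    have h5 := Real.rpow_le_rpow (by positivity) h4 (by norm_num : (0 : ℝ) ≤ 1 / 4)
    rw [← Real.rpow_mul (by positivity)] at h5
    norm_num at h5
    exact h5
  refine (h X h1).trans ?_
  rw [div_le_iff₀ hε] at hle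
  unfold hX Main48.LX
  rw [div_le_iff₀ (by positivity)]
  have e : Real.log X ^ ((5 : ℝ) / 4) = Real.log X * Real.log X ^ ((1 : ℝ) / 4) := by
    nth_rewrite 2 [← Real.rpow_one (Real.log X)]
    rw [← Real.rpow_add hlpos]; norm_num
  calc K * (X : ℝ) ^ ((5 : ℝ) / 6) ≤ |K| * (X : ℝ) ^ ((5 : ℝ) / 6) := by
        gcongr; exact le_abs_self K
    _ ≤ (Real.log X ^ ((1 : ℝ) / 4) * ε) * (X : ℝ) ^ ((5 : ℝ) / 6) := by gcongr
    _ = ε * ((X : ℝ) ^ ((5 : ℝ) / 6) / Real.log X) * Real.log X ^ ((5 : ℝ) / 4) := by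
        rw [e]; field_simp

/-- **(277)** the final step of the master interface. -/
theorem final_of : Main48.Final_of := fun hD l => by
  unfold Crest.Agent.R012.defect
  exact full_of_dyadic _ (DyO_of_dyadic hD l)

/-- exact S0014 from the output of the sieve. -/
theorem s0014_of_dyadic (hD : Main48.Dyadic_Prop)
    (σ : Crest.NumberTheoryR.CubicGauss.EisK →+* ℂ) (ℓ : ℤ) :
    Tendsto (fun X : ℕ => Crest.NumberTheoryR.CubicGauss.twistedFirstMomentDefect σ ℓ X /
        (((X : ℝ) ^ ((5 : ℝ) / 6) / Real.log (X : ℝ) : ℝ) : ℂ)) atTop (𝓝 0) :=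
  Bridge.s0014_of_defect (final_of hD) σ ℓ

/-- exact S0013 from the output of the sieve. -/
theorem s0013_of_dyadic (hD : Main48.Dyadic_Prop) :
    Tendsto (fun X : ℕ =>
      (∑ p ∈ (Nat.primesBelow (X + 1)).filter (fun p => p % 3 = 1),
          (∑ x ∈ Finset.range p, Complex.exp (2 * Real.pi * Complex.I * ((x : ℂ) ^ 3 / (p : ℂ)))) /
            (2 * (Real.sqrt (p : ℝ) : ℂ))) /
        (((X : ℝ) ^ ((5 : ℝ) / 6) / Real.log (X : ℝ) : ℝ) : ℂ))
      atTop (𝓝 ((((2 * Real.pi) ^ ((2 : ℝ) / 3) / (5 * Real.Gamma (2 / 3)) : ℝ) : ℂ))) := by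
  refine Fin713.s13_of_defect (fun a b ha hb _ => Sym645.sy_reciprocity ha hb)
    (fun z hz => Gauss880.norm_G_le Gauss880.syG hz) ?_
  refine (final_of hD 0).congr (fun X => ?_)
  unfold Crest.Agent.R012.defect Fin713.defect
  congr 1
  refine Finset.sum_congr rfl (fun z hz => ?_)
  simp [ang]

end Crest.Agent.R012.Final277
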