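import Crest.Agent.R012.SpecMain_48
import Crest.Agent.R012.Dens_420

/-!
# Row 12 (IXR): the index forms `TIIx, TIIcx, T0x, SNHx` imply the plain forms

`Ix_of` of `SpecMain_48`: dyadic decomposition of the `b` variable and
`FX = (cut at X) - (cut at X/2)`.
-/

set_option autoImplicit false

noncomputable section

namespace Crest.Agent.R012.IxOf106

open Crest.Agent.R012 Eis Buch420 Main48 Finset

lemma nmp (T : Finset PrP) : 0 < nm (prd T) := nm_pos.mpr (prd_ne_zero T)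

lemma nmpR (T : Finset PrP) : (0 : ℝ) < nm (prd T) := by exact_mod_cast nmp T

open Classical in
/-- index set of the `a`-variable -/
def IB (X : ℕ) (B : ℝ) : Finset (Finset PrP) :=
  (UX X).powerset.filter (fun S => (nm (prd S) : ℝ) ≤ X / B)

lemma mem_IB {X : ℕ} {B : ℝ} {S : Finset PrP} :
    S ∈ IB X B ↔ S ∈ (UX X).powerset ∧ (nm (prd S) : ℝ) ≤ X / B := by
  unfold IB; rw [Finset.mem_filter]

lemma FX_eq (l : ℤ) (X : ℕ) (S T : Finset PrP) (z : ℂ) :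
    z * FX l X (prd S * prd T) =
      (if (nm (prd T) : ℝ) ≤ (X : ℝ) / nm (prd S) then z * Fl l (prd S * prd T) else 0) -
      (if (nm (prd T) : ℝ) ≤ (X : ℝ) / (2 * nm (prd S)) then z * Fl l (prd S * prd T) else 0) := by
  have hS := nmpR S
  have e1 : (nm (prd T) : ℝ) ≤ (X : ℝ) / nm (prd S) ↔ nm (prd S * prd T) ≤ X := by
    rw [le_div_iff₀ hS, nm_mul]
    constructor
    · intro h
      have : ((nm (prd S) * nm (prd T) : ℕ) : ℝ) ≤ (X : ℕ) := by push_cast; linarith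
      exact_mod_cast this
    · intro h
      have : ((nm (prd S) * nm (prd T) : ℕ) : ℝ) ≤ (X : ℕ) := by exact_mod_cast h
      push_cast at this; linarith
  have e2 : (nm (prd T) : ℝ) ≤ (X : ℝ) / (2 * nm (prd S)) ↔ ¬ X < 2 * nm (prd S * prd T) := by
    rw [le_div_iff₀ (by positivity), nm_mul, not_lt]
    constructor
    · intro h
      have : ((2 * (nm (prd S) * nm (prd T)) : ℕ) : ℝ) ≤ (X : ℕ) := by push_cast; linarith
      exact_mod_cast this
    · intro h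
      have : ((2 * (nm (prd S) * nm (prd T)) : ℕ) : ℝ) ≤ (X : ℕ) := by exact_mod_cast h
      push_cast at this; linarith
  unfold FX
  by_cases h1 : nm (prd S * prd T) ≤ X
  · by_cases h2 : X < 2 * nm (prd S * prd T)
    · rw [if_pos ⟨h2, h1⟩, if_pos (e1.mpr h1), if_neg (fun h => (e2.mp h) h2), sub_zero]
    · rw [if_neg (fun h => h2 h.1), if_pos (e1.mpr h1), if_pos (e2.mpr h2), mul_zero, sub_self]
  · have h2 : X < 2 * nm (prd S * prd T) := by omega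
    rw [if_neg (fun h => h1 h.2), if_neg (fun h => h1 (e1.mp h)), if_neg (fun h => (e2.mp h) h2),
      mul_zero, sub_zero]

/-- the bilinear form is a difference of two index forms. -/
lemma Bil_eq (l : ℤ) (X : ℕ) {B : ℝ} (hB : 0 < B) (α β : Finset PrP → ℂ)
    (hβ : ∀ T, β T ≠ 0 → B < nm (prd T)) :
    Bil l X α β =
      Ix l X (IB X B) id (fun S => (X : ℝ) / nm (prd S)) α β -
      Ix l X (IB X B) id (fun S => (X : ℝ) / (2 * nm (prd S))) α β := by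
  classical
  unfold Bil Ix
  rw [← Finset.sum_sub_distrib]
  have hsub : IB X B ⊆ (UX X).powerset := fun S hS => (mem_IB.mp hS).1
  rw [← Finset.sum_subset hsub]
  · refine Finset.sum_congr rfl fun S _ => ?_
    rw [← mul_sub, ← Finset.sum_sub_distrib, Finset.mul_sum]
    refine Finset.sum_congr rfl fun T _ => ?_
    rw [mul_assoc, FX_eq]
    simp only [id]
  · intro S hS hS'
    refine Finset.sum_eq_zero fun T _ => ?_
    by_cases h0 : β T = 0
    · rw [h0, mul_zero, zero_mul]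
    · have h1 : (X : ℝ) / B < nm (prd S) := by
        by_contra hc
        exact hS' (mem_IB.mpr ⟨hS, not_lt.mp hc⟩)
      have h2 := hβ T h0
      have h3 : (X : ℝ) < nm (prd S) * nm (prd T) := by
        rw [div_lt_iff₀ hB] at h1
        nlinarith [nmpR S]
      have h4 : ¬ nm (prd S * prd T) ≤ X := by
        rw [nm_mul, not_le]
        have : ((X : ℕ) : ℝ) < ((nm (prd S) * nm (prd T) : ℕ) : ℝ) := by push_cast; exact h3
        exact_mod_cast this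
      unfold FX
      rw [if_neg (fun h => h4 h.2), mul_zero]

lemma Mu_id {I : Finset (Finset PrP)} (α : Finset PrP → ℂ) :
    Mu I id α = ∑ S ∈ I, ‖α S‖ ^ 2 := by
  classical
  unfold Mu
  refine Finset.sum_congr rfl fun S hS => ?_
  rw [Finset.sum_eq_single S]
  · rw [if_pos rfl, sq]
  · intro T _ hT
    rw [if_neg]
    intro h; exact hT h.symm
  · intro h; exact absurd hS h

lemma card_IB {X : ℕ} {B : ℝ} (hB : 0 < B) : ((IB X B).card : ℝ) ≤ 12 * (X / B) := by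
  classical
  rcases le_or_gt 1 ((X : ℝ) / B) with h | h
  · have h1 : ((IB X B).image prd).card = (IB X B).card :=
      Finset.card_image_of_injective _ prd_injective
    rw [← h1]
    refine Dens420.card_nm_le h _ ?_
    intro z hz
    rw [Finset.mem_image] at hz
    obtain ⟨S, hS, rfl⟩ := hz
    exact (mem_IB.mp hS).2
  · have h1 : IB X B = ∅ := by
      rw [Finset.eq_empty_iff_forall_notMem]
      intro S hS
      have h2 := (mem_IB.mp hS).2
      have h3 : (1 : ℝ) ≤ nm (prd S) := by exact_mod_cast nmp S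
      linarith
    rw [h1]
    simp only [Finset.card_empty, Nat.cast_zero]
    positivity

lemma Mu_le {X : ℕ} {B : ℝ} (hB : 0 < B) {α : Finset PrP → ℂ} (hα : ∀ S, ‖α S‖ ≤ 1) :
    Mu (IB X B) id α ≤ 12 * (X / B) := by
  rw [Mu_id]
  refine le_trans ?_ (card_IB hB)
  rw [Finset.card_eq_sum_ones, Nat.cast_sum]
  refine Finset.sum_le_sum fun S _ => ?_
  have := hα S
  have h0 := norm_nonneg (α S)
  simp only [Nat.cast_one]
  nlinarith

/-! ### the dyadic decomposition -/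

open Classical in
lemma dyadic_sum (m n : ℕ) (z : ℂ) (K : ℕ) :
    ∑ k ∈ Finset.range K, (if 2 ^ k * m < n ∧ n ≤ 2 ^ (k + 1) * m then z else 0) =
      if m < n ∧ n ≤ 2 ^ K * m then z else 0 := by
  induction K with
  | zero =>
    rw [Finset.range_zero, Finset.sum_empty, if_neg]
    intro h; omega
  | succ K ih =>
    rw [Finset.sum_range_succ, ih]
    have hm : m ≤ 2 ^ K * m := Nat.le_mul_of_pos_left m (by positivity)
    have hm' : 2 ^ K * m ≤ 2 ^ (K + 1) * m :=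
      Nat.mul_le_mul_right m (Nat.pow_le_pow_right (by norm_num) (by omega))
    by_cases h1 : m < n ∧ n ≤ 2 ^ K * m
    · rw [if_pos h1, if_neg (by omega), if_pos (by omega), add_zero]
    · rw [if_neg h1, zero_add]
      by_cases h2 : 2 ^ K * m < n ∧ n ≤ 2 ^ (K + 1) * m
      · rw [if_pos h2, if_pos (by omega)]
      · rw [if_neg h2, if_neg (by omega)]

open Classical in
/-- the restriction of `β` to `m₁ < N(b) ≤ m₂`. -/
def cut (m₁ m₂ : ℕ) (β : Finset PrP → ℂ) : Finset PrP → ℂ := fun T =>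
  if m₁ < nm (prd T) ∧ nm (prd T) ≤ m₂ then β T else 0

lemma cut_ne {m₁ m₂ : ℕ} {β : Finset PrP → ℂ} {T : Finset PrP} (h : cut m₁ m₂ β T ≠ 0) :
    β T ≠ 0 ∧ m₁ < nm (prd T) ∧ nm (prd T) ≤ m₂ := by
  unfold cut at h
  by_cases h1 : m₁ < nm (prd T) ∧ nm (prd T) ≤ m₂
  · rw [if_pos h1] at h; exact ⟨h, h1⟩
  · rw [if_neg h1] at h; exact absurd rfl h

lemma swc_cut {β : Finset PrP → ℂ} (h : SWc β) (m₁ m₂ : ℕ) : SWc (cut m₁ m₂ β) := by
  classical
  obtain ⟨c, lo, hi, hc, hcl⟩ := h.int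
  refine ⟨fun T => ?_, c, fun T => max (lo T) (m₁ / nm (prd T) + 1),
    fun T => min (hi T) (m₂ / nm (prd T) + 1), hc, ?_⟩
  · unfold IxOf106.cut
    split_ifs
    · exact h.bd T
    · simp
  · intro T p hp
    have hpT : p ∉ T := fun h' => lt_irrefl _ (hp p h')
    have hT := nmp T
    have e0 : nm (prd (insert p T)) = nm p.1 * nm (prd T) := by rw [prd_insert hpT, nm_mul]
    have e1 : m₁ < nm (prd (insert p T)) ↔ m₁ / nm (prd T) + 1 ≤ nm p.1 := by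
      rw [e0, Nat.succ_le_iff, Nat.div_lt_iff_lt_mul hT]
    have e2 : nm (prd (insert p T)) ≤ m₂ ↔ nm p.1 < m₂ / nm (prd T) + 1 := by
      rw [e0, Nat.lt_succ_iff, Nat.le_div_iff_mul_le hT]
    unfold IxOf106.cut
    rw [hcl T p hp]
    by_cases h1 : lo T ≤ nm p.1 ∧ nm p.1 < hi T
    · by_cases h2 : m₁ < nm (prd (insert p T)) ∧ nm (prd (insert p T)) ≤ m₂
      · rw [if_pos h2, if_pos h1, if_pos]
        exact ⟨max_le h1.1 (e1.mp h2.1), lt_min h1.2 (e2.mp h2.2)⟩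
      · rw [if_neg h2, if_neg]
        rintro ⟨h3, h4⟩
        exact h2 ⟨e1.mpr ((le_max_right _ _).trans h3), e2.mpr (h4.trans_le (min_le_right _ _))⟩
    · rw [if_neg h1, ite_self]
      symm
      apply if_neg
      rintro ⟨h3, h4⟩
      exact h1 ⟨(le_max_left _ _).trans h3, h4.trans_le (min_le_left _ _)⟩

lemma Bil_sum (l : ℤ) (X : ℕ) (α : Finset PrP → ℂ) (β : Finset PrP → ℂ) {m K : ℕ}
    (h : ∀ T, β T ≠ 0 → m < nm (prd T) ∧ nm (prd T) ≤ 2 ^ K * m) :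
    Bil l X α β = ∑ k ∈ Finset.range K, Bil l X α (cut (2 ^ k * m) (2 ^ (k + 1) * m) β) := by
  classical
  unfold Bil
  symm
  rw [Finset.sum_comm]
  refine Finset.sum_congr rfl fun S _ => ?_
  rw [Finset.sum_comm]
  refine Finset.sum_congr rfl fun T _ => ?_
  rw [← Finset.sum_mul, ← Finset.mul_sum]
  have h1 := dyadic_sum m (nm (prd T)) (β T) K
  have h2 : ∑ k ∈ Finset.range K, cut (2 ^ k * m) (2 ^ (k + 1) * m) β T = β T := by
    unfold cut
    rw [h1]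
    by_cases h0 : β T = 0
    · rw [h0, ite_self]
    · rw [if_pos (h T h0)]
  rw [h2]

lemma exists_K {X : ℕ} (hX : 3 ≤ X) : ∃ K : ℕ, X ≤ 2 ^ K ∧ (K : ℝ) ≤ 3 * LX X := by
  refine ⟨Nat.clog 2 X, Nat.le_pow_clog (by norm_num) X, ?_⟩
  have hL : 1 ≤ LX X := by
    unfold LX
    rw [Real.le_log_iff_exp_le (by positivity)]
    have h3 : (3 : ℝ) ≤ X := by exact_mod_cast hX
    linarith [Real.exp_one_lt_d9]
  have h1 : 2 ^ (Nat.clog 2 X - 1) < X := Nat.pow_pred_clog_lt_self (by norm_num) (by omega)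
  have h2 : ((2 : ℝ) ^ (Nat.clog 2 X - 1)) < X := by exact_mod_cast h1
  have h3 := Real.log_lt_log (by positivity) h2
  rw [Real.log_pow] at h3
  have hpos : 0 < Nat.clog 2 X := Nat.clog_pos (by norm_num) (by omega)
  have h4 : ((Nat.clog 2 X - 1 : ℕ) : ℝ) = (Nat.clog 2 X : ℝ) - 1 := by
    rw [Nat.cast_sub hpos]; simp
  rw [h4] at h3
  have h5 := Real.log_two_gt_d9
  unfold LX at hL ⊢
  nlinarith

/-! ### Type II -/

/-- one block -/
lemma block_bound {l : ℤ} {X : ℕ} {B K R : ℝ} (hB : 0 < B) (hR : 0 < R)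
    {α β : Finset PrP → ℂ} (hα : ∀ S, ‖α S‖ ≤ 1) (hβ : ∀ T, β T ≠ 0 → B < nm (prd T))
    (hIx : ∀ g : Finset PrP → ℝ, ‖Ix l X (IB X B) id g α β‖ ≤
      K * (X : ℝ) ^ ((1 : ℝ) / 3) * Real.sqrt B * Real.sqrt (Mu (IB X B) id α) / R) (hX : 1 ≤ X) :
    ‖Bil l X α β‖ ≤ 8 * |K| * (X : ℝ) ^ ((5 : ℝ) / 6) / R := by
  have hX0 : (0 : ℝ) < X := by exact_mod_cast hX
  rw [Bil_eq l X hB α β hβ]
  have hM := Mu_le (X := X) hB hα
  revert hM hIx
  generalize Mu (IB X B) id α = M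
  intro hIx hM
  have key : ∀ g : Finset PrP → ℝ, ‖Ix l X (IB X B) id g α β‖ ≤
      4 * |K| * (X : ℝ) ^ ((5 : ℝ) / 6) / R := by
    intro g
    refine (hIx g).trans ?_
    rw [div_le_div_iff_of_pos_right hR]
    have h1 : Real.sqrt B * Real.sqrt M ≤ 4 * (X : ℝ) ^ ((1 : ℝ) / 2) := by
      rw [← Real.sqrt_mul hB.le, ← Real.sqrt_eq_rpow]
      have h2 : B * M ≤ 4 ^ 2 * X := by
        calc B * M ≤ B * (12 * (X / B)) := by gcongr
          _ = 12 * X := by field_simp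
          _ ≤ 4 ^ 2 * X := by nlinarith
      calc Real.sqrt (B * M) ≤ Real.sqrt (4 ^ 2 * X) := Real.sqrt_le_sqrt h2
        _ = 4 * Real.sqrt X := by
          rw [Real.sqrt_mul (by positivity), Real.sqrt_sq (by norm_num)]
    have h3 : (X : ℝ) ^ ((5 : ℝ) / 6) = (X : ℝ) ^ ((1 : ℝ) / 3) * (X : ℝ) ^ ((1 : ℝ) / 2) := by
      rw [← Real.rpow_add hX0]; norm_num
    rw [h3]
    have h4 : 0 ≤ (X : ℝ) ^ ((1 : ℝ) / 3) := by positivity
    have h5 : 0 ≤ Real.sqrt B * Real.sqrt M := by positivity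
    calc K * (X : ℝ) ^ ((1 : ℝ) / 3) * Real.sqrt B * Real.sqrt M
        = K * ((X : ℝ) ^ ((1 : ℝ) / 3) * (Real.sqrt B * Real.sqrt M)) := by ring
      _ ≤ |K| * ((X : ℝ) ^ ((1 : ℝ) / 3) * (Real.sqrt B * Real.sqrt M)) :=
          mul_le_mul_of_nonneg_right (le_abs_self K) (mul_nonneg h4 h5)
      _ ≤ |K| * ((X : ℝ) ^ ((1 : ℝ) / 3) * (4 * (X : ℝ) ^ ((1 : ℝ) / 2))) :=
          mul_le_mul_of_nonneg_left (mul_le_mul_of_nonneg_left h1 h4) (abs_nonneg K)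
      _ = _ := by ring
  calc ‖Ix l X (IB X B) id (fun S => (X : ℝ) / nm (prd S)) α β -
      Ix l X (IB X B) id (fun S => (X : ℝ) / (2 * nm (prd S))) α β‖ ≤ _ := norm_sub_le _ _
    _ ≤ 4 * |K| * (X : ℝ) ^ ((5 : ℝ) / 6) / R + 4 * |K| * (X : ℝ) ^ ((5 : ℝ) / 6) / R :=
        add_le_add (key _) (key _)
    _ = _ := by ring

lemma Bil_zero (l : ℤ) (X : ℕ) (α β : Finset PrP → ℂ) (h : ∀ T, β T = 0) : Bil l X α β = 0 := by
  unfold Bil
  refine Finset.sum_eq_zero fun S _ => Finset.sum_eq_zero fun T _ => ?_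
  rw [h T, mul_zero, zero_mul]

lemma LX_one_le {X : ℕ} (hX : 3 ≤ X) : 1 ≤ LX X := by
  unfold LX
  rw [Real.le_log_iff_exp_le (by positivity)]
  have h3 : (3 : ℝ) ≤ X := by exact_mod_cast hX
  linarith [Real.exp_one_lt_d9]

/-- assembling the blocks -/
lemma assemble {l : ℤ} {X : ℕ} {K : ℝ} {A : ℕ} (hX : 3 ≤ X) {m : ℕ}
    {α β : Finset PrP → ℂ} (hβ : ∀ T, β T ≠ 0 → m < nm (prd T) ∧ nm (prd T) ≤ X) (hm : 1 ≤ m)
    (h : ∀ k : ℕ, ‖Bil l X α (cut (2 ^ k * m) (2 ^ (k + 1) * m) β)‖ ≤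
      8 * |K| * (X : ℝ) ^ ((5 : ℝ) / 6) / LX X ^ (A + 1)) :
    ‖Bil l X α β‖ ≤ (24 * |K|) * (X : ℝ) ^ ((5 : ℝ) / 6) / LX X ^ A := by
  obtain ⟨J, hJ, hJL⟩ := exists_K hX
  have hL := LX_one_le hX
  rw [Bil_sum l X α β (m := m) (K := J)]
  · calc ‖∑ k ∈ Finset.range J, Bil l X α (cut (2 ^ k * m) (2 ^ (k + 1) * m) β)‖
        ≤ ∑ k ∈ Finset.range J, 8 * |K| * (X : ℝ) ^ ((5 : ℝ) / 6) / LX X ^ (A + 1) :=
          (norm_sum_le _ _).trans (Finset.sum_le_sum fun k _ => h k)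
      _ = J * (8 * |K| * (X : ℝ) ^ ((5 : ℝ) / 6) / LX X ^ (A + 1)) := by
          rw [Finset.sum_const, Finset.card_range, nsmul_eq_mul]
      _ ≤ (3 * LX X) * (8 * |K| * (X : ℝ) ^ ((5 : ℝ) / 6) / LX X ^ (A + 1)) := by gcongr
      _ = _ := by
          rw [pow_succ]
          have : LX X ≠ 0 := by linarith
          have : LX X ^ A ≠ 0 := by positivity
          field_simp
          ring
  · intro T hT
    refine ⟨(hβ T hT).1, (hβ T hT).2.trans (hJ.trans ?_)⟩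
    exact Nat.le_mul_of_pos_right _ hm

theorem TII_of : TIIx_Prop → TII_Prop := by
  intro hx l A η hη
  obtain ⟨C0, K, X0, h⟩ := hx l (A + 1) η hη
  set C1 : ℝ := max C0 0 with hC1
  -- `log X → ∞`
  refine ⟨C1 + 1, 24 * |K|, max X0 8, fun X hX α β hα hS hβ => ?_⟩
  have hX0 : X0 ≤ X := (le_max_left _ _).trans hX
  have hX8 : 8 ≤ X := (le_max_right _ _).trans hX
  have hXR : (8 : ℝ) ≤ X := by exact_mod_cast hX8
  have hL2 : 2 < LX X := by
    unfold LX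
    have h1 : Real.log 8 ≤ Real.log X := Real.log_le_log (by norm_num) hXR
    have h2 : Real.log 8 = 3 * Real.log 2 := by
      rw [show (8 : ℝ) = 2 ^ 3 by norm_num, Real.log_pow]; norm_num
    have := Real.log_two_gt_d9
    linarith
  have hL1 : 1 ≤ LX X := by linarith
  have hX13 : 1 ≤ (X : ℝ) ^ ((1 : ℝ) / 3) := Real.one_le_rpow (by linarith) (by norm_num)
  have hLC : 1 ≤ LX X ^ C1 := Real.one_le_rpow hL1 (le_max_right _ _)
  set y : ℝ := (X : ℝ) ^ ((1 : ℝ) / 3) * LX X ^ C1 with hy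
  have hy1 : 1 ≤ y := by rw [hy]; nlinarith
  set m : ℕ := ⌈y⌉₊ with hm
  have hym : y ≤ m := Nat.le_ceil y
  have hmy : (m : ℝ) < y + 1 := Nat.ceil_lt_add_one (by linarith)
  have hm1 : 1 ≤ m := by
    have : (1 : ℝ) ≤ m := hy1.trans hym
    exact_mod_cast this
  refine assemble (by omega) (m := m) ?_ hm1 ?_
  · intro T hT
    obtain ⟨-, -, h3, h4⟩ := hβ T hT
    constructor
    · have h5 : LX X ^ (C1 + 1) = LX X ^ C1 * LX X := by
        rw [Real.rpow_add (by linarith), Real.rpow_one]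
      rw [h5, ← mul_assoc, ← hy] at h3
      have : (m : ℝ) < nm (prd T) := by nlinarith
      exact_mod_cast this
    · have h5 : (X : ℝ) ^ (1 / 2 - η) ≤ (X : ℝ) ^ (1 : ℝ) :=
        Real.rpow_le_rpow_of_exponent_le (by linarith) (by linarith)
      rw [Real.rpow_one] at h5
      exact_mod_cast h4.trans h5
  · intro k
    by_cases hk : ((2 ^ k * m : ℕ) : ℝ) ≤ (X : ℝ) ^ (1 / 2 - η)
    · have hBpos : (0 : ℝ) < ((2 ^ k * m : ℕ) : ℝ) := by
        have : 0 < 2 ^ k * m := Nat.mul_pos (by positivity) hm1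
        exact_mod_cast this
      refine block_bound (B := ((2 ^ k * m : ℕ) : ℝ)) hBpos (by positivity) hα ?_ ?_ (by omega)
      · intro T hT
        exact_mod_cast (cut_ne hT).2.1
      · intro g
        refine h X hX0 ((2 ^ k * m : ℕ) : ℝ) _ ?_ hk (swc_cut hS _ _) ?_ (Finset PrP) (IB X _) id g α ?_
        · calc (X : ℝ) ^ ((1 : ℝ) / 3) * LX X ^ C0 ≤ (X : ℝ) ^ ((1 : ℝ) / 3) * LX X ^ C1 :=
                mul_le_mul_of_nonneg_left (Real.rpow_le_rpow_of_exponent_le hL1 (le_max_left _ _))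
                  (by positivity)
            _ = y := rfl
            _ ≤ m := hym
            _ ≤ ((2 ^ k * m : ℕ) : ℝ) := by
                exact_mod_cast Nat.le_mul_of_pos_left m (by positivity)
        · intro T hT
          obtain ⟨h1, h2, h3⟩ := cut_ne hT
          obtain ⟨-, h5, -, -⟩ := hβ T h1
          refine ⟨h5, by exact_mod_cast h2, ?_⟩
          have h6 : ((nm (prd T) : ℕ) : ℝ) ≤ ((2 ^ (k + 1) * m : ℕ) : ℝ) := by exact_mod_cast h3
          refine h6.trans (le_of_eq ?_)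
          push_cast; ring
        · intro S hS
          exact (mem_IB.mp hS).2
    · rw [Bil_zero]
      · rw [norm_zero]; positivity
      · intro T
        by_contra hc
        obtain ⟨h1, h2, h3⟩ := cut_ne hc
        obtain ⟨-, -, -, h4⟩ := hβ T h1
        apply hk
        have : ((2 ^ k * m : ℕ) : ℝ) ≤ nm (prd T) := by exact_mod_cast h2.le
        exact this.trans h4

/-- `X^{1/2-η} + 1 < X^{1/2-η/2}` and `X^{1/2+η/2} ≤ X`. -/
lemma exists_X0 {η : ℝ} (hη : 0 < η) (hη2 : η ≤ 1 / 4) : ∃ X0 : ℕ, 3 ≤ X0 ∧ ∀ X : ℕ, X0 ≤ X →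
    (⌈(X : ℝ) ^ (1 / 2 - η)⌉₊ : ℝ) < (X : ℝ) ^ (1 / 2 - η / 2) ∧
    (X : ℝ) ^ (1 / 2 + η / 2) ≤ X := by
  refine ⟨max 3 ⌈(3 : ℝ) ^ (2 / η)⌉₊, le_max_left _ _, fun X hX => ?_⟩
  have h3 : 3 ≤ X := (le_max_left _ _).trans hX
  have h3R : (3 : ℝ) ≤ X := by exact_mod_cast h3
  have hX1 : (1 : ℝ) ≤ X := by linarith
  have h4 : (3 : ℝ) ^ (2 / η) ≤ X := (Nat.le_ceil _).trans (by exact_mod_cast (le_max_right _ _).trans hX)
  have h5 : (3 : ℝ) ≤ (X : ℝ) ^ (η / 2) := by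
    calc (3 : ℝ) = ((3 : ℝ) ^ (2 / η)) ^ (η / 2) := by
          rw [← Real.rpow_mul (by norm_num)]
          rw [show 2 / η * (η / 2) = 1 by field_simp, Real.rpow_one]
      _ ≤ _ := Real.rpow_le_rpow (by positivity) h4 (by positivity)
  have h6 : 1 ≤ (X : ℝ) ^ (1 / 2 - η) := Real.one_le_rpow hX1 (by linarith)
  constructor
  · have h7 : (⌈(X : ℝ) ^ (1 / 2 - η)⌉₊ : ℝ) < (X : ℝ) ^ (1 / 2 - η) + 1 :=
      Nat.ceil_lt_add_one (by linarith)
    have h8 : (X : ℝ) ^ (1 / 2 - η / 2) = (X : ℝ) ^ (1 / 2 - η) * (X : ℝ) ^ (η / 2) := by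
      rw [← Real.rpow_add (by linarith)]; congr 1; ring
    rw [h8]; nlinarith
  · calc (X : ℝ) ^ (1 / 2 + η / 2) ≤ (X : ℝ) ^ (1 : ℝ) :=
        Real.rpow_le_rpow_of_exponent_le hX1 (by linarith)
      _ = X := Real.rpow_one _

theorem TIIc_of : TIIcx_Prop → TIIc_Prop := by
  rintro ⟨η₁, hη₁, hx⟩
  set η : ℝ := min η₁ (1 / 4) with hη
  have hη0 : 0 < η := lt_min hη₁ (by norm_num)
  have hη4 : η ≤ 1 / 4 := min_le_right _ _
  obtain ⟨X1, hX1, hX1'⟩ := exists_X0 hη0 hη4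
  refine ⟨η / 2, by positivity, fun l A => ?_⟩
  obtain ⟨K, X0, h⟩ := hx l (A + 1)
  refine ⟨24 * |K|, max X0 X1, fun X hX α β hα hS hβ => ?_⟩
  have hX0 : X0 ≤ X := (le_max_left _ _).trans hX
  have hXX1 : X1 ≤ X := (le_max_right _ _).trans hX
  have hX3 : 3 ≤ X := hX1.trans hXX1
  have hXR : (3 : ℝ) ≤ X := by exact_mod_cast hX3
  have hL1 : 1 ≤ LX X := LX_one_le hX3
  obtain ⟨hc1, hc2⟩ := hX1' X hXX1
  set m : ℕ := ⌈(X : ℝ) ^ (1 / 2 - η)⌉₊ with hm
  have h6 : 1 ≤ (X : ℝ) ^ (1 / 2 - η) := Real.one_le_rpow (by linarith) (by linarith)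
  have hym : (X : ℝ) ^ (1 / 2 - η) ≤ m := Nat.le_ceil _
  have hm1 : 1 ≤ m := by
    have : (1 : ℝ) ≤ m := h6.trans hym
    exact_mod_cast this
  have hlo : (X : ℝ) ^ (1 / 2 - η₁) ≤ (X : ℝ) ^ (1 / 2 - η) :=
    Real.rpow_le_rpow_of_exponent_le (by linarith) (by linarith [min_le_left η₁ (1 / 4)])
  have hhi : (X : ℝ) ^ (1 / 2 + η / 2) ≤ (X : ℝ) ^ (1 / 2 + η₁) :=
    Real.rpow_le_rpow_of_exponent_le (by linarith) (by linarith [min_le_left η₁ (1 / 4)])
  refine assemble hX3 (m := m) ?_ hm1 ?_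
  · intro T hT
    obtain ⟨-, -, h3, h4⟩ := hβ T hT
    constructor
    · exact_mod_cast hc1.trans_le h3
    · exact_mod_cast h4.trans hc2
  · intro k
    by_cases hk : ((2 ^ k * m : ℕ) : ℝ) ≤ (X : ℝ) ^ (1 / 2 + η / 2)
    · have hBpos : (0 : ℝ) < ((2 ^ k * m : ℕ) : ℝ) := by
        have : 0 < 2 ^ k * m := Nat.mul_pos (by positivity) hm1
        exact_mod_cast this
      refine block_bound (B := ((2 ^ k * m : ℕ) : ℝ)) hBpos (by positivity) hα ?_ ?_ (by omega)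
      · intro T hT
        exact_mod_cast (cut_ne hT).2.1
      · intro g
        refine h X hX0 ((2 ^ k * m : ℕ) : ℝ) _ ?_ (hk.trans hhi) (swc_cut hS _ _) ?_
          (Finset PrP) (IB X _) id g α ?_
        · calc (X : ℝ) ^ (1 / 2 - η₁) ≤ (X : ℝ) ^ (1 / 2 - η) := hlo
            _ ≤ m := hym
            _ ≤ ((2 ^ k * m : ℕ) : ℝ) := by
                exact_mod_cast Nat.le_mul_of_pos_left m (by positivity)
        · intro T hT
          obtain ⟨h1, h2, h3⟩ := cut_ne hT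
          obtain ⟨h4, h5, -, -⟩ := hβ T h1
          refine ⟨h4, h5, by exact_mod_cast h2, ?_⟩
          have h6 : ((nm (prd T) : ℕ) : ℝ) ≤ ((2 ^ (k + 1) * m : ℕ) : ℝ) := by exact_mod_cast h3
          refine h6.trans (le_of_eq ?_)
          push_cast; ring
        · intro S hS
          exact (mem_IB.mp hS).2
    · rw [Bil_zero]
      · rw [norm_zero]; positivity
      · intro T
        by_contra hc
        obtain ⟨h1, h2, h3⟩ := cut_ne hc
        obtain ⟨-, -, -, h4⟩ := hβ T h1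
        apply hk
        have : ((2 ^ k * m : ℕ) : ℝ) ≤ nm (prd T) := by exact_mod_cast h2.le
        exact this.trans h4

/-! ### T0 -/

lemma t0_real {X A B L K Sa Sb M z z1 z2 : ℝ} (hX : 1 ≤ X) (hA : 1 ≤ A) (hB : 0 < B) (hL : 2 < L)
    (hSa : 0 ≤ Sa) (hSb : 0 ≤ Sb) (hM : M ≤ Sa) (hAB : A * B ≤ X) (hz : z ≤ z1 + z2)
    (h1 : z1 ≤ L ^ K * X ^ ((1 : ℝ) / 3) * Real.sqrt Sb * Real.sqrt M)
    (h2 : z2 ≤ L ^ K * X ^ ((1 : ℝ) / 3) * Real.sqrt Sb * Real.sqrt M) :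
    z ≤ L ^ (K + 1) * X ^ ((5 : ℝ) / 6) * Real.sqrt (Sa / A) * Real.sqrt (Sb / B) := by
  have hX0 : 0 < X := by linarith
  have hA0 : 0 < A := by linarith
  have e2 : X ^ ((5 : ℝ) / 6) = X ^ ((1 : ℝ) / 3) * Real.sqrt X := by
    rw [Real.sqrt_eq_rpow, ← Real.rpow_add hX0]; norm_num
  have e3 : Real.sqrt M * Real.sqrt Sb ≤
      Real.sqrt X * (Real.sqrt (Sa / A) * Real.sqrt (Sb / B)) := by
    have e4 : X * (Sa / A * (Sb / B)) = Sa * Sb * (X / (A * B)) := by field_simp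
    have e5 : 1 ≤ X / (A * B) := by
      rw [le_div_iff₀ (mul_pos hA0 hB)]; linarith
    have e6 : 0 ≤ Sa * Sb := mul_nonneg hSa hSb
    have e7 : 0 ≤ Sa / A := div_nonneg hSa hA0.le
    calc Real.sqrt M * Real.sqrt Sb ≤ Real.sqrt Sa * Real.sqrt Sb :=
          mul_le_mul_of_nonneg_right (Real.sqrt_le_sqrt hM) (Real.sqrt_nonneg _)
      _ = Real.sqrt (Sa * Sb) := (Real.sqrt_mul hSa _).symm
      _ ≤ Real.sqrt (X * (Sa / A * (Sb / B))) := by
          refine Real.sqrt_le_sqrt ?_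
          rw [e4]; nlinarith
      _ = _ := by rw [Real.sqrt_mul hX0.le, Real.sqrt_mul e7]
  have h7 : 0 ≤ X ^ ((1 : ℝ) / 3) := Real.rpow_nonneg hX0.le _
  have h8 : L ^ (K + 1) = L ^ K * L := by
    rw [Real.rpow_add (by linarith), Real.rpow_one]
  have h9 : 0 < L ^ K := Real.rpow_pos_of_pos (by linarith) _
  have h10 : 0 ≤ Real.sqrt X * (Real.sqrt (Sa / A) * Real.sqrt (Sb / B)) := by positivity
  calc z ≤ 2 * (L ^ K * X ^ ((1 : ℝ) / 3) * Real.sqrt Sb * Real.sqrt M) := by linarith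
    _ = 2 * (L ^ K * (X ^ ((1 : ℝ) / 3) * (Real.sqrt M * Real.sqrt Sb))) := by ring
    _ ≤ L * (L ^ K * (X ^ ((1 : ℝ) / 3) *
        (Real.sqrt X * (Real.sqrt (Sa / A) * Real.sqrt (Sb / B))))) := by
        refine mul_le_mul hL.le ?_ ?_ (by linarith)
        · exact mul_le_mul_of_nonneg_left (mul_le_mul_of_nonneg_left e3 h7) h9.le
        · exact mul_nonneg h9.le (mul_nonneg h7 (by positivity))
    _ = _ := by rw [h8, e2]; ring

theorem T0_of : T0x_Prop → T0_Prop := by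
  intro hx l
  obtain ⟨D, K, X0, hD, h⟩ := hx l
  refine ⟨D, K + 1, max X0 8, hD, fun X hX A B α β hA hB1 hB2 hα hβ => ?_⟩
  have hX0 : X0 ≤ X := (le_max_left _ _).trans hX
  have hX8 : 8 ≤ X := (le_max_right _ _).trans hX
  have hXR : (8 : ℝ) ≤ X := by exact_mod_cast hX8
  have hL2 : 2 < LX X := by
    unfold LX
    have h1 : Real.log 8 ≤ Real.log X := Real.log_le_log (by norm_num) hXR
    have h2 : Real.log 8 = 3 * Real.log 2 := by
      rw [show (8 : ℝ) = 2 ^ 3 by norm_num, Real.log_pow]; norm_num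
    have := Real.log_two_gt_d9
    linarith
  have hBpos : 0 < B := lt_of_lt_of_le (by positivity) hB1
  have hD0 : (0 : ℝ) ≤ D := by linarith
  have hSa0 : 0 ≤ ∑ S ∈ (UX X).powerset, ‖α S‖ ^ 2 := Finset.sum_nonneg fun _ _ => sq_nonneg _
  have hSb0 : 0 ≤ ∑ T ∈ (UX X).powerset, D ^ T.card * ‖β T‖ ^ 2 :=
    Finset.sum_nonneg fun _ _ => mul_nonneg (pow_nonneg hD0 _) (sq_nonneg _)
  rcases lt_or_ge (X : ℝ) (A * B) with hAB | hAB
  · -- the form is zero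
    have h0 : Bil l X α β = 0 := by
      unfold Bil
      refine Finset.sum_eq_zero fun S _ => Finset.sum_eq_zero fun T _ => ?_
      by_cases hs : α S = 0
      · rw [hs, zero_mul, zero_mul]
      by_cases ht : β T = 0
      · rw [ht, mul_zero, zero_mul]
      have h1 := (hα S hs).1
      have h2 := (hβ T ht).1
      have h3 : (X : ℝ) < nm (prd S) * nm (prd T) := by nlinarith
      have h4 : ¬ nm (prd S * prd T) ≤ X := by
        rw [nm_mul, not_le]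
        have : ((X : ℕ) : ℝ) < ((nm (prd S) * nm (prd T) : ℕ) : ℝ) := by push_cast; exact h3
        exact_mod_cast this
      unfold FX
      rw [if_neg (fun h => h4 h.2), mul_zero]
    rw [h0, norm_zero]
    have hl : 0 ≤ LX X ^ (K + 1) := Real.rpow_nonneg (by linarith) _
    have hx' : 0 ≤ (X : ℝ) ^ ((5 : ℝ) / 6) := Real.rpow_nonneg (by linarith) _
    exact mul_nonneg (mul_nonneg (mul_nonneg hl hx') (Real.sqrt_nonneg _)) (Real.sqrt_nonneg _)
  · have hMu : Mu (IB X B) id α ≤ ∑ S ∈ (UX X).powerset, ‖α S‖ ^ 2 := by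
      rw [Mu_id]
      exact Finset.sum_le_sum_of_subset_of_nonneg (fun S hS => (mem_IB.mp hS).1)
        fun _ _ _ => sq_nonneg _
    have key := fun g : Finset PrP → ℝ => h X hX0 B β hB1 hB2 hβ (Finset PrP) (IB X B) id g α
        (fun S hS => (mem_IB.mp hS).2)
    rw [Bil_eq l X hBpos α β fun T hT => (hβ T hT).1]
    exact t0_real (by linarith) hA hBpos hL2 hSa0 hSb0 hMu hAB (norm_sub_le _ _) (key _) (key _)

/-! ### primes near `X^{1/2}` -/

open Classical in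
/-- indicator of the primes with `lo ≤ N(p) < hi` as in `SNHx_Prop`. -/
def pI (lo hi : ℕ) : Finset PrP → ℂ := fun T =>
  if ∃ p : PrP, T = {p} ∧ lo ≤ nm p.1 ∧ nm p.1 < hi then 1 else 0

lemma pI_ne {lo hi : ℕ} {T : Finset PrP} (h : pI lo hi T ≠ 0) :
    ∃ p : PrP, T = {p} ∧ lo ≤ nm p.1 ∧ nm p.1 < hi := by
  unfold pI at h
  by_contra hc
  rw [if_neg hc] at h
  exact h rfl

lemma pI_single (lo hi : ℕ) (p : PrP) [Decidable (lo ≤ nm p.1 ∧ nm p.1 < hi)] :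
    pI lo hi {p} = if lo ≤ nm p.1 ∧ nm p.1 < hi then 1 else 0 := by
  unfold pI
  by_cases h : lo ≤ nm p.1 ∧ nm p.1 < hi
  · rw [if_pos ⟨p, rfl, h⟩, if_pos h]
  · rw [if_neg h, if_neg]
    rintro ⟨q, hq, h2⟩
    have : p = q := Finset.singleton_injective hq
    subst this
    exact h h2

open Classical in
lemma sum_primes_eq (l : ℤ) (X : ℕ) (α : Finset PrP → ℂ) (V₁ V₂ : ℝ) :
    ∑ S ∈ (UX X).powerset, ∑ p ∈ (UX X).filter (fun p => V₁ ≤ nm p.1 ∧ (nm p.1 : ℝ) ≤ V₂),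
        α S * FX l X (prd S * p.1) = Bil l X α (pI ⌈V₁⌉₊ (⌊V₂⌋₊ + 1)) := by
  unfold Bil
  refine Finset.sum_congr rfl fun S _ => ?_
  rw [Finset.sum_filter]
  have hcond : ∀ p : PrP, (V₁ ≤ nm p.1 ∧ (nm p.1 : ℝ) ≤ V₂) ↔
      (⌈V₁⌉₊ ≤ nm p.1 ∧ nm p.1 < ⌊V₂⌋₊ + 1) := by
    intro p
    have hp : nm p.1 ≠ 0 := by have := PrP.two_le_nm p; omega
    rw [Nat.ceil_le, Nat.lt_succ_iff, Nat.le_floor_iff' hp]
  have h1 : ∑ p ∈ UX X, (if V₁ ≤ nm p.1 ∧ (nm p.1 : ℝ) ≤ V₂ then α S * FX l X (prd S * p.1) else 0) =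
      ∑ p ∈ UX X, α S * pI ⌈V₁⌉₊ (⌊V₂⌋₊ + 1) {p} * FX l X (prd S * prd {p}) := by
    refine Finset.sum_congr rfl fun p _ => ?_
    rw [pI_single, prd_singleton]
    by_cases h : V₁ ≤ nm p.1 ∧ (nm p.1 : ℝ) ≤ V₂
    · rw [if_pos h, if_pos ((hcond p).mp h), mul_one]
    · rw [if_neg h, if_neg (fun h' => h ((hcond p).mpr h')), mul_zero, zero_mul]
  rw [h1]
  have h2 : ∑ p ∈ UX X, α S * pI ⌈V₁⌉₊ (⌊V₂⌋₊ + 1) {p} * FX l X (prd S * prd {p}) =
      ∑ T ∈ (UX X).image (fun p => ({p} : Finset PrP)),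
        α S * pI ⌈V₁⌉₊ (⌊V₂⌋₊ + 1) T * FX l X (prd S * prd T) :=
    (Finset.sum_image (f := fun T => α S * pI ⌈V₁⌉₊ (⌊V₂⌋₊ + 1) T * FX l X (prd S * prd T))
      (fun a _ b _ h => Finset.singleton_injective h)).symm
  rw [h2]
  refine Finset.sum_subset ?_ ?_
  · intro T hT
    rw [Finset.mem_image] at hT
    obtain ⟨p, hp, rfl⟩ := hT
    rw [Finset.mem_powerset, Finset.singleton_subset_iff]; exact hp
  · intro T hT hT'
    by_contra hc
    have h3 : pI ⌈V₁⌉₊ (⌊V₂⌋₊ + 1) T ≠ 0 := by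
      intro h0; apply hc; rw [h0, mul_zero, zero_mul]
    obtain ⟨p, hp, -⟩ := pI_ne h3
    apply hT'
    rw [Finset.mem_image]
    refine ⟨p, ?_, hp.symm⟩
    rw [Finset.mem_powerset, hp, Finset.singleton_subset_iff] at hT
    exact hT

lemma cut_pI (m₁ m₂ lo hi : ℕ) :
    cut m₁ m₂ (pI lo hi) = pI (max lo (m₁ + 1)) (min hi (m₂ + 1)) := by
  classical
  funext T
  unfold cut pI
  by_cases h : ∃ p : PrP, T = {p} ∧ lo ≤ nm p.1 ∧ nm p.1 < hi
  · obtain ⟨p, rfl, h1, h2⟩ := h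
    rw [prd_singleton]
    by_cases h3 : m₁ < nm p.1 ∧ nm p.1 ≤ m₂
    · rw [if_pos h3, if_pos ⟨p, rfl, h1, h2⟩, if_pos]
      exact ⟨p, rfl, max_le h1 h3.1, lt_min h2 (Nat.lt_succ_of_le h3.2)⟩
    · rw [if_neg h3, if_neg]
      rintro ⟨q, hq, h4, h5⟩
      have : p = q := Finset.singleton_injective hq
      subst this
      exact h3 ⟨(le_max_right _ _).trans h4, Nat.le_of_lt_succ (h5.trans_le (min_le_right _ _))⟩
  · rw [if_neg h, ite_self, if_neg]
    rintro ⟨p, hp, h4, h5⟩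
    exact h ⟨p, hp, (le_max_left _ _).trans h4, h5.trans_le (min_le_left _ _)⟩

theorem snh_plain_of : SNHx_Prop → SNH_Prop := by
  rintro ⟨η₁, hη₁, hx⟩
  set η : ℝ := min η₁ (1 / 4) with hη
  have hη0 : 0 < η := lt_min hη₁ (by norm_num)
  have hη4 : η ≤ 1 / 4 := min_le_right _ _
  obtain ⟨X1, hX1, hX1'⟩ := exists_X0 hη0 hη4
  refine ⟨η / 2, by positivity, fun l A => ?_⟩
  obtain ⟨K, X0, h⟩ := hx l (A + 1)
  refine ⟨24 * |K|, max X0 X1, fun X hX α V₁ V₂ hα hV1 hV2 => ?_⟩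
  have hX0 : X0 ≤ X := (le_max_left _ _).trans hX
  have hXX1 : X1 ≤ X := (le_max_right _ _).trans hX
  have hX3 : 3 ≤ X := hX1.trans hXX1
  have hXR : (3 : ℝ) ≤ X := by exact_mod_cast hX3
  have hL1 : 1 ≤ LX X := LX_one_le hX3
  obtain ⟨hc1, hc2⟩ := hX1' X hXX1
  set m : ℕ := ⌈(X : ℝ) ^ (1 / 2 - η)⌉₊ with hm
  have h6 : 1 ≤ (X : ℝ) ^ (1 / 2 - η) := Real.one_le_rpow (by linarith) (by linarith)
  have hym : (X : ℝ) ^ (1 / 2 - η) ≤ m := Nat.le_ceil _
  have hm1 : 1 ≤ m := by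
    have : (1 : ℝ) ≤ m := h6.trans hym
    exact_mod_cast this
  have hlo : (X : ℝ) ^ (1 / 2 - η₁) ≤ (X : ℝ) ^ (1 / 2 - η) :=
    Real.rpow_le_rpow_of_exponent_le (by linarith) (by linarith [min_le_left η₁ (1 / 4)])
  have hhi : (X : ℝ) ^ (1 / 2 + η / 2) ≤ (X : ℝ) ^ (1 / 2 + η₁) :=
    Real.rpow_le_rpow_of_exponent_le (by linarith) (by linarith [min_le_left η₁ (1 / 4)])
  rw [sum_primes_eq]
  have hsupp : ∀ T, pI ⌈V₁⌉₊ (⌊V₂⌋₊ + 1) T ≠ 0 →
      V₁ ≤ nm (prd T) ∧ (nm (prd T) : ℝ) ≤ V₂ := by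
    intro T hT
    obtain ⟨p, rfl, h1, h2⟩ := pI_ne hT
    have hp : nm p.1 ≠ 0 := by have := PrP.two_le_nm p; omega
    rw [prd_singleton]
    exact ⟨Nat.ceil_le.mp h1, (Nat.le_floor_iff' hp).mp (Nat.lt_succ_iff.mp h2)⟩
  refine assemble hX3 (m := m) ?_ hm1 ?_
  · intro T hT
    obtain ⟨h3, h4⟩ := hsupp T hT
    constructor
    · exact_mod_cast hc1.trans_le (hV1.trans h3)
    · exact_mod_cast (h4.trans hV2).trans hc2
  · intro k
    by_cases hk : ((2 ^ k * m : ℕ) : ℝ) + 1 ≤ (X : ℝ) ^ (1 / 2 + η / 2)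
    · have hBpos : (0 : ℝ) < ((2 ^ k * m : ℕ) : ℝ) + 1 / 2 := by positivity
      refine block_bound (B := ((2 ^ k * m : ℕ) : ℝ) + 1 / 2) hBpos (by positivity) hα ?_ ?_
        (by omega)
      · intro T hT
        have h1 := (cut_ne hT).2.1
        have h2 : ((2 ^ k * m : ℕ) : ℝ) + 1 ≤ nm (prd T) := by exact_mod_cast h1
        linarith
      · intro g
        rw [cut_pI]
        refine h X hX0 (((2 ^ k * m : ℕ) : ℝ) + 1 / 2) _ _ ?_ ?_ ?_ ?_
          (Finset PrP) (IB X _) id g α ?_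
        · have h7 : (m : ℝ) ≤ ((2 ^ k * m : ℕ) : ℝ) := by
            exact_mod_cast Nat.le_mul_of_pos_left m (by positivity)
          linarith
        · linarith
        · have h8 : ((2 ^ k * m + 1 : ℕ) : ℝ) ≤
              ((max ⌈V₁⌉₊ (2 ^ k * m + 1) : ℕ) : ℝ) := by exact_mod_cast le_max_right _ _
          push_cast at h8 ⊢
          linarith
        · have h8 : ((min (⌊V₂⌋₊ + 1) (2 ^ (k + 1) * m + 1) : ℕ) : ℝ) ≤
              ((2 ^ (k + 1) * m + 1 : ℕ) : ℝ) := by exact_mod_cast min_le_right _ _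
          refine h8.trans (le_of_eq ?_)
          push_cast; ring
        · intro S hS
          exact (mem_IB.mp hS).2
    · rw [Bil_zero]
      · rw [norm_zero]; positivity
      · intro T
        by_contra hc
        obtain ⟨h1, h2, h3⟩ := cut_ne hc
        obtain ⟨-, h4⟩ := hsupp T h1
        apply hk
        have : ((2 ^ k * m : ℕ) : ℝ) + 1 ≤ nm (prd T) := by exact_mod_cast h2
        linarith

/-- **(IXR)** -/
theorem ix_of : Ix_of := ⟨TII_of, TIIc_of, T0_of⟩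

end Crest.Agent.R012.IxOf106
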