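import Crest.Agent.R012.NearHalf_828

/-!
# Row 12, item SNH: the composite part (helper47)

`CompPart_of : TIIc_Prop → CompPart`.
-/

set_option autoImplicit false

noncomputable section

open Complex Filter Topology

namespace Crest.Agent.R012.NearHalf828

open Crest.Agent.R012 Eis Buch420 Main48

namespace Comp47

/-- the condition on `b = prd T`. -/
def Cond (z V₁ V₂ : ℝ) (T : Finset PrP) : Prop :=
  2 ≤ T.card ∧ (∀ p ∈ T, z ≤ nm p.1) ∧ V₁ ≤ nm (prd T) ∧ (nm (prd T) : ℝ) ≤ V₂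

open Classical in
/-- the coefficient. -/
def be (z V₁ V₂ : ℝ) (T : Finset PrP) : ℂ := if Cond z V₁ V₂ T then 1 else 0

open Classical in
/-- coefficient `c`. -/
def cc (z : ℝ) (T : Finset PrP) : ℂ := if T.Nonempty ∧ ∀ p ∈ T, z ≤ nm p.1 then 1 else 0

/-- lower end. -/
def lo (z V₁ : ℝ) (T : Finset PrP) : ℕ := max ⌈z⌉₊ ⌈V₁ / nm (prd T)⌉₊

/-- upper end. -/
def hi (V₂ : ℝ) (T : Finset PrP) : ℕ := ⌊V₂ / nm (prd T)⌋₊ + 1

lemma nm_prd_pos (T : Finset PrP) : (0 : ℝ) < nm (prd T) := by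
  have : nm (prd T) ≠ 0 := by
    rw [Ne, nm_eq_zero]; exact prd_ne_zero T
  exact_mod_cast Nat.pos_of_ne_zero this

lemma nm_pos (p : PrP) : 0 < nm p.1 := by
  have : nm p.1 ≠ 0 := by
    rw [Ne, nm_eq_zero]; exact p.2.2.ne_zero
  exact Nat.pos_of_ne_zero this

lemma cond_insert {z V₁ V₂ : ℝ} {T : Finset PrP} {p : PrP} (hp : ∀ q ∈ T, q < p) :
    Cond z V₁ V₂ (insert p T) ↔
      (lo z V₁ T ≤ nm p.1 ∧ nm p.1 < hi V₂ T) ∧ (T.Nonempty ∧ ∀ q ∈ T, z ≤ nm q.1) := by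
  have hnot : p ∉ T := fun h => lt_irrefl _ (hp p h)
  have hT := nm_prd_pos T
  have hp0 := nm_pos p
  have e1 : (nm (prd (insert p T)) : ℝ) = nm p.1 * nm (prd T) := by
    rw [prd_insert hnot, nm_mul]; push_cast; rfl
  unfold Cond
  rw [e1, Finset.card_insert_of_notMem hnot]
  have h1 : lo z V₁ T ≤ nm p.1 ↔ z ≤ nm p.1 ∧ V₁ ≤ nm p.1 * nm (prd T) := by
    unfold lo
    rw [max_le_iff, Nat.ceil_le, Nat.ceil_le, div_le_iff₀ hT]
  have h2 : nm p.1 < hi V₂ T ↔ (nm p.1 * nm (prd T) : ℝ) ≤ V₂ := by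
    unfold hi
    rw [Nat.lt_succ_iff, Nat.le_floor_iff' hp0.ne', le_div_iff₀ hT]
  rw [h1, h2]
  have h3 : 2 ≤ T.card + 1 ↔ T.Nonempty := by
    rw [← Finset.card_pos]; omega
  rw [h3]
  simp only [Finset.mem_insert, forall_eq_or_imp]
  tauto

lemma swc_be (z V₁ V₂ : ℝ) : SWc (be z V₁ V₂) where
  bd T := by
    unfold be
    split_ifs <;> simp
  int := by
    refine ⟨cc z, lo z V₁, hi V₂, fun T => ?_, fun T p hp => ?_⟩
    · unfold cc
      split_ifs <;> simp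
    · have h := cond_insert (z := z) (V₁ := V₁) (V₂ := V₂) hp
      unfold be cc
      by_cases h1 : lo z V₁ T ≤ nm p.1 ∧ nm p.1 < hi V₂ T
      · by_cases h2 : T.Nonempty ∧ ∀ q ∈ T, z ≤ nm q.1
        · rw [if_pos (h.mpr ⟨h1, h2⟩), if_pos h1, if_pos h2]
        · rw [if_neg (fun h3 => h2 (h.mp h3).2), if_pos h1, if_neg h2]
      · rw [if_neg (fun h3 => h1 (h.mp h3).1), if_neg h1]

open Classical in
lemma sum_eq (l : ℤ) (X : ℕ) (α : Finset PrP → ℂ) (V₁ V₂ : ℝ) :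
    ∑ T ∈ ((UX X).filter (fun p => ¬ (nm p.1 : ℝ) < zX X)).powerset.filter (fun T => 2 ≤ T.card),
      Fa l X α V₁ V₂ T = Bil l X α (be (zX X) V₁ V₂) := by
  unfold Bil
  rw [Finset.sum_comm]
  have h1 : ∀ T ∈ (UX X).powerset, ∑ S ∈ (UX X).powerset,
      α S * be (zX X) V₁ V₂ T * FX l X (prd S * prd T) =
      if Cond (zX X) V₁ V₂ T then ∑ S ∈ (UX X).powerset, α S * FX l X (prd S * prd T) else 0 := by
    intro T _
    unfold be
    split_ifs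
    · simp
    · simp
  rw [Finset.sum_congr rfl h1, ← Finset.sum_filter]
  unfold Fa
  rw [← Finset.sum_filter]
  refine Finset.sum_congr ?_ fun _ _ => rfl
  ext T
  rw [Finset.mem_filter, Finset.mem_filter, Finset.mem_filter, Finset.mem_powerset,
    Finset.mem_powerset]
  constructor
  · rintro ⟨⟨h1, h2⟩, h3⟩
    refine ⟨fun p hp => (Finset.mem_filter.mp (h1 hp)).1, h2, fun p hp =>
      not_lt.mp (Finset.mem_filter.mp (h1 hp)).2, h3⟩
  · rintro ⟨h1, h2, h3, h4⟩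
    exact ⟨⟨fun p hp => Finset.mem_filter.mpr ⟨h1 hp, not_lt.mpr (h3 p hp)⟩, h2⟩, h4⟩

end Comp47

/-- **(SNH, composite part)** (helper47) -/
theorem compPart_of : CompPart_of := by
  rintro ⟨η, hη, H⟩
  refine ⟨η, hη, fun l A => ?_⟩
  obtain ⟨K, X0, h⟩ := H l A
  refine ⟨K, X0, fun X hX α V₁ V₂ hα hV1 hV2 => ?_⟩
  rw [Comp47.sum_eq]
  refine h X hX α (Comp47.be (zX X) V₁ V₂) hα (Comp47.swc_be _ _ _) fun T hT => ?_
  have hc : Comp47.Cond (zX X) V₁ V₂ T := by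
    by_contra hc
    exact hT (by unfold Comp47.be; rw [if_neg hc])
  exact ⟨hc.1, hc.2.1, hV1.trans hc.2.2.1, hc.2.2.2.trans hV2⟩

end Crest.Agent.R012.NearHalf828
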