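import Crest.Agent.R012.MV_400

/-!
# Row 12: sharp cut-off in index form (Perron), helper828

* `sq N x = ∑_{j<N} sin((2j+1)x)/(2j+1)`, `abs_sq_sub_le : |sq N x - π/4| ≤ 2/(N x)` on `(0,π/2]`.
* `perron_abs` : abstract form. `x i b = lg i - lb b`, `δ ≤ |x i b| ≤ π/2`, then
  `‖∑_{lb b < lg i} K i b‖ ≤ ½‖T 0‖ + (2/π) ∫_{1/2}^{2N} (‖T t‖ + ‖T (-t)‖)/t dt + 4/(Nδ) ∑∑ ‖K i b‖`,
  `T t = ∑_i ∑_b exp(i t (lg i - lb b)) K i b`.
* `perron_ix` : for `B < nm b ≤ 2B` and an arbitrary cut-off `nm b ≤ g i`.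
* `perron_ix_M` : the same with an `ℓ²`-hypothesis with bound `M t` for the bilinear form.
-/

set_option autoImplicit false

noncomputable section

open MeasureTheory Complex Set Filter Real

namespace Crest.Agent.R012.Perron828

open Crest.Agent.R012.Eis Crest.Agent.R012.MV400

/-- Partial sums of the square wave. -/
def sq (N : ℕ) (x : ℝ) : ℝ := ∑ j ∈ Finset.range N, Real.sin ((2 * j + 1) * x) / (2 * j + 1)

lemma sum_cos (N : ℕ) (x : ℝ) :
    (∑ j ∈ Finset.range N, Real.cos ((2 * j + 1) * x)) * (2 * Real.sin x) = Real.sin (2 * N * x) := by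
  induction N with
  | zero => simp
  | succ N ih =>
    rw [Finset.sum_range_succ, add_mul, ih]
    have e1 : (2 : ℝ) * ((N + 1 : ℕ) : ℝ) * x = (2 * N + 1) * x + x := by push_cast; ring
    have e2 : (2 : ℝ) * N * x = (2 * N + 1) * x - x := by ring
    rw [e1, e2, Real.sin_add, Real.sin_sub]
    ring

lemma hasDerivAt_sq (N : ℕ) (x : ℝ) :
    HasDerivAt (sq N) (∑ j ∈ Finset.range N, Real.cos ((2 * j + 1) * x)) x := by
  unfold sq
  refine HasDerivAt.fun_sum fun j _ => ?_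
  have hj : ((2 : ℝ) * j + 1) ≠ 0 := by positivity
  have h1 : HasDerivAt (fun x : ℝ => (2 * (j : ℝ) + 1) * x) (2 * j + 1) x := by
    simpa using (hasDerivAt_id x).const_mul (2 * (j : ℝ) + 1)
  have h2 := (h1.sin).div_const (2 * (j : ℝ) + 1)
  exact h2.congr_deriv (by rw [mul_div_assoc, div_self hj, mul_one])

lemma sq_neg (N : ℕ) (x : ℝ) : sq N (-x) = - sq N x := by
  unfold sq
  rw [← Finset.sum_neg_distrib]
  refine Finset.sum_congr rfl fun j _ => ?_
  rw [mul_neg, Real.sin_neg, neg_div]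

lemma sq_pi_div_two (N : ℕ) : sq N (π / 2) = ∑ j ∈ Finset.range N, (-1 : ℝ) ^ j / (2 * j + 1) := by
  unfold sq
  refine Finset.sum_congr rfl fun j _ => ?_
  congr 1
  have : (2 * (j : ℝ) + 1) * (π / 2) = π / 2 + j * π := by ring
  rw [this, Real.sin_add_nat_mul_pi, Real.sin_pi_div_two, mul_one]

lemma leibniz_bound (N : ℕ) : |sq N (π / 2) - π / 4| ≤ 1 / (2 * N + 1) := by
  rw [sq_pi_div_two]
  have hanti : Antitone (fun n : ℕ => 1 / (2 * (n : ℝ) + 1)) := by
    intro a b hab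
    apply one_div_le_one_div_of_le (by positivity)
    have : (a : ℝ) ≤ b := by exact_mod_cast hab
    linarith
  have hl : Tendsto (fun n => ∑ i ∈ Finset.range n, (-1 : ℝ) ^ i * (1 / (2 * (i : ℝ) + 1))) atTop
      (nhds (π / 4)) := by
    have := Real.tendsto_sum_pi_div_four
    refine this.congr fun n => Finset.sum_congr rfl fun i _ => ?_
    ring
  have hs : ∀ n, ∑ j ∈ Finset.range n, (-1 : ℝ) ^ j / (2 * j + 1) =
      ∑ i ∈ Finset.range n, (-1 : ℝ) ^ i * (1 / (2 * (i : ℝ) + 1)) := fun n =>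
    Finset.sum_congr rfl fun i _ => by ring
  rw [hs]
  rcases Nat.even_or_odd' N with ⟨k, rfl | rfl⟩
  · have h1 := hanti.alternating_series_le_tendsto hl k
    have h2 := hanti.tendsto_le_alternating_series hl k
    rw [Finset.sum_range_succ] at h2
    have e : (-1 : ℝ) ^ (2 * k) = 1 := by rw [pow_mul]; norm_num
    rw [e, one_mul] at h2
    rw [abs_le]
    constructor <;> [linarith; skip]
    have : (0 : ℝ) ≤ 1 / (2 * ((2 * k : ℕ) : ℝ) + 1) := by positivity
    linarith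
  · have h1 := hanti.alternating_series_le_tendsto hl (k + 1)
    have h2 := hanti.tendsto_le_alternating_series hl k
    have e0 : 2 * (k + 1) = (2 * k + 1) + 1 := by ring
    rw [e0, Finset.sum_range_succ] at h1
    have e : (-1 : ℝ) ^ (2 * k + 1) = -1 := by rw [pow_succ, pow_mul]; norm_num
    rw [e] at h1
    rw [abs_le]
    have : (0 : ℝ) ≤ 1 / (2 * ((2 * k + 1 : ℕ) : ℝ) + 1) := by positivity
    constructor <;> linarith

lemma abs_sq_sub_sq_le {N : ℕ} (hN : 1 ≤ N) {x : ℝ} (hx0 : 0 < x) (hx : x ≤ π / 2) :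
    |sq N x - sq N (π / 2)| ≤ 1 / (2 * N * Real.sin x) := by
  have hNpos : (0 : ℝ) < N := by exact_mod_cast hN
  have hsin : ∀ y ∈ Icc x (π / 2), 0 < Real.sin y := fun y hy =>
    Real.sin_pos_of_pos_of_lt_pi (lt_of_lt_of_le hx0 hy.1) (by linarith [hy.2, Real.pi_pos])
  have hcos : ∀ y ∈ Icc x (π / 2), 0 ≤ Real.cos y := fun y hy =>
    Real.cos_nonneg_of_mem_Icc ⟨by linarith [hy.1, Real.pi_pos], hy.2⟩
  -- the functions
  set Φ : ℝ → ℝ := fun y => sq N y + Real.cos (2 * N * y) / (4 * N * Real.sin y) with hΦ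
  set H : ℝ → ℝ := fun y => 1 / (4 * N * Real.sin y) with hH
  have hdΦ : ∀ y ∈ Icc x (π / 2), HasDerivAt Φ
      (-(Real.cos (2 * N * y) * Real.cos y) / (4 * N * Real.sin y ^ 2)) y := by
    intro y hy
    have hs := hsin y hy
    have h1 := hasDerivAt_sq N y
    have h2 : HasDerivAt (fun y : ℝ => Real.cos (2 * N * y)) (-Real.sin (2 * N * y) * (2 * N)) y := by
      have h3 : HasDerivAt (fun y : ℝ => 2 * (N : ℝ) * y) (2 * N) y := by
        simpa using (hasDerivAt_id y).const_mul (2 * (N : ℝ))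
      exact h3.cos
    have h4 : HasDerivAt (fun y : ℝ => 4 * (N : ℝ) * Real.sin y) (4 * N * Real.cos y) y :=
      (Real.hasDerivAt_sin y).const_mul _
    have h5 := h2.div h4 (by positivity)
    have h6 := h1.add h5
    refine h6.congr_deriv ?_
    have hc := sum_cos N y
    have hc' : ∑ j ∈ Finset.range N, Real.cos ((2 * j + 1) * y) =
        Real.sin (2 * N * y) / (2 * Real.sin y) := by
      rw [eq_div_iff (by positivity)]; exact hc
    rw [hc']
    field_simp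
    ring
  have hdH : ∀ y ∈ Icc x (π / 2), HasDerivAt H (-(Real.cos y) / (4 * N * Real.sin y ^ 2)) y := by
    intro y hy
    have hs := hsin y hy
    have h4 : HasDerivAt (fun y : ℝ => 4 * (N : ℝ) * Real.sin y) (4 * N * Real.cos y) y :=
      (Real.hasDerivAt_sin y).const_mul _
    have h5 := h4.inv (by positivity)
    have h6 : H = fun y => (4 * (N : ℝ) * Real.sin y)⁻¹ := by
      funext z; simp only [hH, one_div]
    rw [h6]
    refine h5.congr_deriv ?_
    field_simp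
  have hmem : x ∈ Icc x (π / 2) := ⟨le_refl _, hx⟩
  have hmem2 : π / 2 ∈ Icc x (π / 2) := ⟨hx, le_refl _⟩
  have hmono : MonotoneOn (fun y => Φ y - H y) (Icc x (π / 2)) := by
    refine monotoneOn_of_deriv_nonneg (convex_Icc _ _) ?_ ?_ ?_
    · intro y hy
      exact ((hdΦ y hy).sub (hdH y hy)).continuousAt.continuousWithinAt
    · intro y hy
      have hy' : y ∈ Icc x (π / 2) := interior_subset hy
      exact ((hdΦ y hy').sub (hdH y hy')).differentiableAt.differentiableWithinAt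
    · intro y hy
      have hy' : y ∈ Icc x (π / 2) := interior_subset hy
      have := ((hdΦ y hy').sub (hdH y hy')).deriv
      have hs := hsin y hy'
      have e : (fun y => Φ y - H y) = (Φ - H) := rfl
      rw [e, this]
      rw [← sub_div]
      apply div_nonneg _ (by positivity)
      have hc := hcos y hy'
      have hc1 := Real.cos_le_one (2 * N * y)
      nlinarith
  have hanti : AntitoneOn (fun y => Φ y + H y) (Icc x (π / 2)) := by
    refine antitoneOn_of_deriv_nonpos (convex_Icc _ _) ?_ ?_ ?_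
    · intro y hy
      exact ((hdΦ y hy).add (hdH y hy)).continuousAt.continuousWithinAt
    · intro y hy
      have hy' : y ∈ Icc x (π / 2) := interior_subset hy
      exact ((hdΦ y hy').add (hdH y hy')).differentiableAt.differentiableWithinAt
    · intro y hy
      have hy' : y ∈ Icc x (π / 2) := interior_subset hy
      have := ((hdΦ y hy').add (hdH y hy')).deriv
      have hs := hsin y hy'
      have e : (fun y => Φ y + H y) = (Φ + H) := rfl
      rw [e, this]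
      rw [← add_div]
      apply div_nonpos_of_nonpos_of_nonneg _ (by positivity)
      have hc := hcos y hy'
      have hc1 := Real.neg_one_le_cos (2 * N * y)
      nlinarith
  have h1 := hmono hmem hmem2 hx
  have h2 := hanti hmem hmem2 hx
  simp only at h1 h2
  have hHx : 0 < H x := by
    simp only [hH]; have := hsin x hmem; positivity
  have hHp : 0 < H (π / 2) := by
    simp only [hH]; have := hsin _ hmem2; positivity
  have e1 : sq N x = Φ x - Real.cos (2 * N * x) * H x := by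
    simp only [hΦ, hH]; ring
  have e2 : sq N (π / 2) = Φ (π / 2) - Real.cos (2 * N * (π / 2)) * H (π / 2) := by
    simp only [hΦ, hH]; ring
  have e3 : 1 / (2 * N * Real.sin x) = 2 * H x := by
    have := hsin x hmem
    simp only [hH]; field_simp; ring
  rw [e1, e2, e3, abs_le]
  have c1 := Real.cos_le_one (2 * N * x)
  have c2 := Real.neg_one_le_cos (2 * N * x)
  have c3 := Real.cos_le_one (2 * N * (π / 2))
  have c4 := Real.neg_one_le_cos (2 * N * (π / 2))
  constructor <;> nlinarith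

lemma abs_sq_sub_le {N : ℕ} (hN : 1 ≤ N) {x : ℝ} (hx0 : 0 < x) (hx : x ≤ π / 2) :
    |sq N x - π / 4| ≤ 2 / (N * x) := by
  have hNpos : (0 : ℝ) < N := by exact_mod_cast hN
  have hs : 0 < Real.sin x := Real.sin_pos_of_pos_of_lt_pi hx0 (by linarith [Real.pi_pos])
  have hs2 : 2 / π * x ≤ Real.sin x := Real.mul_le_sin hx0.le hx
  have h1 := abs_sq_sub_sq_le hN hx0 hx
  have h2 := leibniz_bound N
  have h3 : |sq N x - π / 4| ≤ 1 / (2 * N * Real.sin x) + 1 / (2 * N + 1) := by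
    calc |sq N x - π / 4| = |(sq N x - sq N (π / 2)) + (sq N (π / 2) - π / 4)| := by ring_nf
      _ ≤ _ := (abs_add_le _ _).trans (add_le_add h1 h2)
  have hx2 : x / 2 ≤ Real.sin x := by
    refine le_trans ?_ hs2
    have : (1 : ℝ) / 2 ≤ 2 / π := by
      rw [div_le_div_iff₀ (by norm_num) Real.pi_pos]; linarith [Real.pi_le_four]
    nlinarith
  have hx2' : x ≤ 2 := by linarith [Real.pi_le_four]
  have h4 : 1 / (2 * N * Real.sin x) ≤ 1 / (N * x) := by
    apply one_div_le_one_div_of_le (by positivity)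
    nlinarith
  have h5 : 1 / (2 * (N : ℝ) + 1) ≤ 1 / (N * x) := by
    apply one_div_le_one_div_of_le (by positivity)
    nlinarith
  calc |sq N x - π / 4| ≤ 1 / (N * x) + 1 / (N * x) := by linarith
    _ = 2 / (N * x) := by ring

/-- The Heaviside function on `[-π/2, π/2]`. -/
lemma heaviside_sq {N : ℕ} (hN : 1 ≤ N) {x : ℝ} (hx0 : x ≠ 0) (hx : |x| ≤ π / 2) :
    |(if 0 < x then (1 : ℝ) else 0) - 1 / 2 - 2 / π * sq N x| ≤ 2 / (N * |x|) := by
  have hNpos : (0 : ℝ) < N := by exact_mod_cast hN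
  have key : ∀ y : ℝ, 0 < y → y ≤ π / 2 → |1 / 2 - 2 / π * sq N y| ≤ 2 / (N * y) := by
    intro y hy hy2
    have h := abs_sq_sub_le hN hy hy2
    have e : 1 / 2 - 2 / π * sq N y = - (2 / π * (sq N y - π / 4)) := by
      have := Real.pi_ne_zero
      field_simp
      ring
    rw [e, abs_neg, abs_mul, abs_of_pos (by positivity)]
    have h2 : 2 / π ≤ 1 := by rw [div_le_one Real.pi_pos]; exact Real.two_le_pi
    calc 2 / π * |sq N y - π / 4| ≤ 1 * (2 / (N * y)) := by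
          apply mul_le_mul h2 h (abs_nonneg _) (by norm_num)
      _ = _ := one_mul _
  rcases lt_or_gt_of_ne hx0 with h | h
  · rw [if_neg (not_lt.mpr h.le)]
    have h2 := key (-x) (by linarith) (by rw [abs_of_neg h] at hx; exact hx)
    rw [sq_neg] at h2
    rw [abs_of_neg h]
    have e : (0 : ℝ) - 1 / 2 - 2 / π * sq N x = - (1 / 2 - 2 / π * - sq N x) := by ring
    rw [e, abs_neg]; exact h2
  · rw [if_pos h]
    have h2 := key x h (by rw [abs_of_pos h] at hx; exact hx)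
    rw [abs_of_pos h]
    have e : (1 : ℝ) - 1 / 2 - 2 / π * sq N x = 1 / 2 - 2 / π * sq N x := by ring
    rw [e]; exact h2

/-! ### Averaging over the period -/

lemma int_comp {k : ℝ} (hk : 0 < k) (Ψ : ℝ → ℝ) (hΨ : Continuous Ψ) :
    ∫ l in (1 : ℝ)..2, Ψ (k / l) / k = ∫ u in (k / 2)..k, Ψ u / u ^ 2 := by
  have h1 : ∀ x ∈ uIcc (1 : ℝ) 2, HasDerivAt (fun l : ℝ => k / l) (-(k / x ^ 2)) x := by
    intro x hx
    rw [uIcc_of_le (by norm_num)] at hx
    have hx0 : x ≠ 0 := by linarith [hx.1]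
    have := (hasDerivAt_inv hx0).const_mul k
    have e : (fun l : ℝ => k / l) = fun l => k * l⁻¹ := by funext l; rw [div_eq_mul_inv]
    rw [e]
    refine this.congr_deriv ?_
    rw [div_eq_mul_inv]; ring
  have h2 : ContinuousOn (fun x : ℝ => -(k / x ^ 2)) (uIcc (1 : ℝ) 2) := by
    rw [uIcc_of_le (by norm_num)]
    intro x hx
    have hx0 : x ^ 2 ≠ 0 := by have := hx.1; positivity
    exact ((continuousAt_const.div (continuousAt_id.pow 2) hx0).neg).continuousWithinAt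
  have h3 : ContinuousOn (fun u : ℝ => Ψ u / u ^ 2) ((fun l : ℝ => k / l) '' uIcc (1 : ℝ) 2) := by
    intro u hu
    obtain ⟨l, hl, rfl⟩ := hu
    rw [uIcc_of_le (by norm_num)] at hl
    have hl0 : 0 < l := by linarith [hl.1]
    have : (k / l) ^ 2 ≠ 0 := by positivity
    exact (hΨ.continuousAt.div (continuousAt_id.pow 2) this).continuousWithinAt
  have h4 := intervalIntegral.integral_comp_mul_deriv' h1 h2 h3
  have h5 : ∫ l in (1 : ℝ)..2, Ψ (k / l) / k = - ∫ l in (1 : ℝ)..2,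
      ((fun u : ℝ => Ψ u / u ^ 2) ∘ fun l : ℝ => k / l) l * (-(k / l ^ 2)) := by
    rw [← intervalIntegral.integral_neg]
    refine intervalIntegral.integral_congr fun l hl => ?_
    rw [uIcc_of_le (by norm_num)] at hl
    have hl0 : l ≠ 0 := by have := hl.1; linarith
    simp only [Function.comp_apply]
    field_simp
  rw [h5, h4, intervalIntegral.integral_symm (k / 2) (k / 1), neg_neg, div_one]

lemma sum_int_le {N : ℕ} (hN : 1 ≤ N) (Ψ : ℝ → ℝ) (hΨ : Continuous Ψ) (h0 : ∀ t, 0 ≤ Ψ t) :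
    ∑ j ∈ Finset.range N, ∫ u in ((2 * (j : ℝ) + 1) / 2)..(2 * (j : ℝ) + 1), Ψ u / u ^ 2 ≤
      2 * ∫ u in (1 / 2 : ℝ)..(2 * N), Ψ u / u := by
  have hN' : (1 : ℝ) ≤ N := by exact_mod_cast hN
  have hcont : ContinuousOn (fun u : ℝ => Ψ u / u ^ 2) (Icc (1 / 2) (2 * N)) := by
    intro u hu
    have : u ^ 2 ≠ 0 := by have := hu.1; positivity
    exact (hΨ.continuousAt.div (continuousAt_id.pow 2) this).continuousWithinAt
  have hcont1 : ContinuousOn (fun u : ℝ => Ψ u / u) (Icc (1 / 2) (2 * N)) := by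
    intro u hu
    have : u ≠ 0 := by have := hu.1; linarith
    exact (hΨ.continuousAt.div continuousAt_id this).continuousWithinAt
  have hint : IntegrableOn (fun u : ℝ => Ψ u / u ^ 2) (Ioc (1 / 2) (2 * N)) volume :=
    (hcont.integrableOn_Icc).mono_set Ioc_subset_Icc_self
  have hint1 : IntegrableOn (fun u : ℝ => Ψ u / u) (Ioc (1 / 2) (2 * N)) volume :=
    (hcont1.integrableOn_Icc).mono_set Ioc_subset_Icc_self
  have hI : ∀ j ∈ Finset.range N,
      ∫ u in ((2 * (j : ℝ) + 1) / 2)..(2 * (j : ℝ) + 1), Ψ u / u ^ 2 =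
        ∫ u in Ioc (1 / 2 : ℝ) (2 * N),
          (Ioc ((2 * (j : ℝ) + 1) / 2) (2 * (j : ℝ) + 1)).indicator (fun u => Ψ u / u ^ 2) u := by
    intro j hj
    have hj' : (j : ℝ) + 1 ≤ N := by exact_mod_cast Finset.mem_range.mp hj
    have hj0 : (0 : ℝ) ≤ j := Nat.cast_nonneg j
    rw [intervalIntegral.integral_of_le (by linarith), setIntegral_indicator measurableSet_Ioc]
    congr 2
    rw [Set.inter_eq_right.mpr]
    intro u hu
    exact ⟨by linarith [hu.1], by linarith [hu.2]⟩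
  rw [Finset.sum_congr rfl hI, ← integral_finsetSum]
  · rw [intervalIntegral.integral_of_le (by linarith), ← integral_const_mul]
    refine setIntegral_mono_on ?_ (hint1.const_mul 2) measurableSet_Ioc ?_
    · exact integrable_finsetSum _ fun j _ => hint.indicator measurableSet_Ioc
    · intro u hu
      have hu0 : 0 < u := by linarith [hu.1]
      have h1 : ∑ j ∈ Finset.range N, (Ioc ((2 * (j : ℝ) + 1) / 2) (2 * (j : ℝ) + 1)).indicator
          (fun u => Ψ u / u ^ 2) u =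
          ∑ j ∈ (Finset.range N).filter (fun j : ℕ => u ∈ Ioc ((2 * (j : ℝ) + 1) / 2) (2 * (j : ℝ) + 1)),
            Ψ u / u ^ 2 := by
        rw [Finset.sum_filter]
        refine Finset.sum_congr rfl fun j _ => ?_
        rw [Set.indicator_apply]
      rw [h1, Finset.sum_const, nsmul_eq_mul]
      have h2 : (((Finset.range N).filter
          (fun j : ℕ => u ∈ Ioc ((2 * (j : ℝ) + 1) / 2) (2 * (j : ℝ) + 1))).card : ℝ) ≤ 2 * u := by
        have h3 : (Finset.range N).filter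
            (fun j : ℕ => u ∈ Ioc ((2 * (j : ℝ) + 1) / 2) (2 * (j : ℝ) + 1)) ⊆
            Finset.range ⌈u - 1 / 2⌉₊ := by
          intro j hj
          rw [Finset.mem_filter] at hj
          rw [Finset.mem_range, Nat.lt_ceil]
          linarith [hj.2.1]
        have h4 := Finset.card_le_card h3
        rw [Finset.card_range] at h4
        have h5 : ((⌈u - 1 / 2⌉₊ : ℕ) : ℝ) < u - 1 / 2 + 1 :=
          Nat.ceil_lt_add_one (by linarith [hu.1])
        have h6 : (((Finset.range N).filter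
          (fun j : ℕ => u ∈ Ioc ((2 * (j : ℝ) + 1) / 2) (2 * (j : ℝ) + 1))).card : ℝ) ≤
            ((⌈u - 1 / 2⌉₊ : ℕ) : ℝ) := by exact_mod_cast h4
        linarith [hu.1]
      calc _ ≤ 2 * u * (Ψ u / u ^ 2) := by
            apply mul_le_mul_of_nonneg_right h2
            have := h0 u
            positivity
        _ = 2 * (Ψ u / u) := by field_simp
  · intro j _
    exact hint.indicator measurableSet_Ioc

/-! ### Abstract index form -/

section absform

variable {ι σ : Type*}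

/-- `T t = ∑_i ∑_b exp(i t x_{ib}) K i b`. -/
def TT (s : Finset ι) (S : Finset σ) (x : ι → σ → ℝ) (K : ι → σ → ℂ) (t : ℝ) : ℂ :=
  ∑ i ∈ s, ∑ b ∈ S, cexp (I * ((x i b : ℝ) : ℂ) * (t : ℂ)) * K i b

lemma continuous_TT (s : Finset ι) (S : Finset σ) (x : ι → σ → ℝ) (K : ι → σ → ℂ) :
    Continuous (TT s S x K) := by
  unfold TT
  fun_prop

lemma TT_zero (s : Finset ι) (S : Finset σ) (x : ι → σ → ℝ) (K : ι → σ → ℂ) :
    TT s S x K 0 = ∑ i ∈ s, ∑ b ∈ S, K i b := by
  simp [TT]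

lemma sin_sum_eq (s : Finset ι) (S : Finset σ) (x : ι → σ → ℝ) (K : ι → σ → ℂ) (t : ℝ) :
    ∑ i ∈ s, ∑ b ∈ S, ((Real.sin (t * x i b) : ℝ) : ℂ) * K i b =
      (TT s S x K t - TT s S x K (-t)) / (2 * I) := by
  unfold TT
  rw [← Finset.sum_sub_distrib, Finset.sum_div]
  refine Finset.sum_congr rfl fun i _ => ?_
  rw [← Finset.sum_sub_distrib, Finset.sum_div]
  refine Finset.sum_congr rfl fun b _ => ?_
  rw [← sub_mul, Complex.ofReal_sin, Complex.sin]
  have hI : (2 * I : ℂ) ≠ 0 := mul_ne_zero two_ne_zero I_ne_zero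
  rw [eq_div_iff hI]
  have e1 : cexp (-(((t * x i b : ℝ) : ℂ)) * I) = cexp (I * ((x i b : ℝ) : ℂ) * ((-t : ℝ) : ℂ)) := by
    congr 1; push_cast; ring
  have e2 : cexp (((t * x i b : ℝ) : ℂ) * I) = cexp (I * ((x i b : ℝ) : ℂ) * (t : ℂ)) := by
    congr 1; push_cast; ring
  rw [e1, e2]
  linear_combination ((cexp (I * ((x i b : ℝ) : ℂ) * ((-t : ℝ) : ℂ)) -
    cexp (I * ((x i b : ℝ) : ℂ) * (t : ℂ))) * K i b) * I_sq

lemma norm_sin_sum_le (s : Finset ι) (S : Finset σ) (x : ι → σ → ℝ) (K : ι → σ → ℂ) (t : ℝ) :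
    ‖∑ i ∈ s, ∑ b ∈ S, ((Real.sin (t * x i b) : ℝ) : ℂ) * K i b‖ ≤
      (‖TT s S x K t‖ + ‖TT s S x K (-t)‖) / 2 := by
  rw [sin_sum_eq, norm_div]
  have : ‖(2 * I : ℂ)‖ = 2 := by simp
  rw [this]
  gcongr
  exact norm_sub_le _ _

open Classical in
lemma step_lambda (s : Finset ι) (S : Finset σ) (x : ι → σ → ℝ) (K : ι → σ → ℂ) {δ : ℝ}
    (hδ : 0 < δ) (hx1 : ∀ i ∈ s, ∀ b ∈ S, δ ≤ |x i b|) (hx2 : ∀ i ∈ s, ∀ b ∈ S, |x i b| ≤ π / 2)
    {N : ℕ} (hN : 1 ≤ N) {l : ℝ} (hl1 : 1 ≤ l) (hl2 : l ≤ 2) :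
    ‖∑ i ∈ s, ∑ b ∈ S, (if 0 < x i b then K i b else 0)‖ ≤
      1 / 2 * ‖TT s S x K 0‖ + 2 / π * ∑ j ∈ Finset.range N,
        ((‖TT s S x K ((2 * j + 1) / l)‖ + ‖TT s S x K (-((2 * j + 1) / l))‖) / 2) / (2 * j + 1) +
      4 / (N * δ) * ∑ i ∈ s, ∑ b ∈ S, ‖K i b‖ := by
  have hNpos : (0 : ℝ) < N := by exact_mod_cast hN
  have hl0 : 0 < l := by linarith
  -- decomposition
  have hdec : ∑ i ∈ s, ∑ b ∈ S, (if 0 < x i b then K i b else 0) =
      1 / 2 * TT s S x K 0 + ((2 / π : ℝ) : ℂ) * ∑ j ∈ Finset.range N,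
        (∑ i ∈ s, ∑ b ∈ S, ((Real.sin ((2 * j + 1) / l * x i b) : ℝ) : ℂ) * K i b) / ((2 * j + 1 : ℝ) : ℂ)
      + ∑ i ∈ s, ∑ b ∈ S, (((if 0 < x i b then (1 : ℝ) else 0) - 1 / 2 - 2 / π * sq N (x i b / l) : ℝ) : ℂ)
          * K i b := by
    have h1 : ∑ j ∈ Finset.range N,
        (∑ i ∈ s, ∑ b ∈ S, ((Real.sin ((2 * j + 1) / l * x i b) : ℝ) : ℂ) * K i b) /
          ((2 * j + 1 : ℝ) : ℂ) =
        ∑ i ∈ s, ∑ b ∈ S, ((sq N (x i b / l) : ℝ) : ℂ) * K i b := by
      simp_rw [Finset.sum_div]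
      rw [Finset.sum_comm]
      refine Finset.sum_congr rfl fun i _ => ?_
      rw [Finset.sum_comm]
      refine Finset.sum_congr rfl fun b _ => ?_
      unfold sq
      push_cast
      rw [Finset.sum_mul]
      refine Finset.sum_congr rfl fun j _ => ?_
      have : ((2 * (j : ℂ) + 1) / l * (x i b : ℂ)) = (2 * (j : ℂ) + 1) * ((x i b : ℂ) / l) := by ring
      rw [this]; ring
    rw [h1, TT_zero, Finset.mul_sum, Finset.mul_sum, ← Finset.sum_add_distrib,
      ← Finset.sum_add_distrib]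
    refine Finset.sum_congr rfl fun i _ => ?_
    rw [Finset.mul_sum, Finset.mul_sum, ← Finset.sum_add_distrib, ← Finset.sum_add_distrib]
    refine Finset.sum_congr rfl fun b _ => ?_
    split_ifs <;> push_cast <;> ring
  rw [hdec]
  refine (norm_add_le _ _).trans (add_le_add ((norm_add_le _ _).trans (add_le_add ?_ ?_)) ?_)
  · rw [norm_mul]; simp
  · rw [norm_mul, Complex.norm_real, Real.norm_eq_abs, abs_of_pos (by positivity)]
    gcongr
    refine (norm_sum_le _ _).trans (Finset.sum_le_sum fun j _ => ?_)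
    rw [norm_div, Complex.norm_real, Real.norm_eq_abs,
      abs_of_pos (by positivity : (0 : ℝ) < 2 * j + 1)]
    gcongr
    exact norm_sin_sum_le s S x K _
  · rw [Finset.mul_sum]
    refine (norm_sum_le _ _).trans (Finset.sum_le_sum fun i hi => ?_)
    rw [Finset.mul_sum]
    refine (norm_sum_le _ _).trans (Finset.sum_le_sum fun b hb => ?_)
    rw [norm_mul, Complex.norm_real, Real.norm_eq_abs]
    gcongr
    have hxa := hx1 i hi b hb
    have hxb := hx2 i hi b hb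
    have hxne : x i b ≠ 0 := by
      intro h; rw [h, abs_zero] at hxa; linarith
    have hne : x i b / l ≠ 0 := div_ne_zero hxne hl0.ne'
    have hab : |x i b / l| = |x i b| / l := by rw [abs_div, abs_of_pos hl0]
    have hle : |x i b / l| ≤ π / 2 := by
      rw [hab]
      exact (div_le_self (abs_nonneg _) hl1).trans hxb
    have h2 := heaviside_sq hN hne hle
    have e : (if 0 < x i b / l then (1 : ℝ) else 0) = if 0 < x i b then (1 : ℝ) else 0 := by
      by_cases h : 0 < x i b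
      · rw [if_pos h, if_pos (div_pos h hl0)]
      · rw [if_neg h, if_neg]
        intro h'
        exact h (by have := mul_pos h' hl0; rwa [div_mul_cancel₀ _ hl0.ne'] at this)
    rw [e] at h2
    refine h2.trans ?_
    rw [hab]
    have hpos : 0 < |x i b| := abs_pos.mpr hxne
    rw [div_le_div_iff₀ (by positivity) (by positivity)]
    have : l * δ ≤ 2 * |x i b| := by nlinarith
    calc 2 * (N * δ) = 2 * N / l * (l * δ) := by field_simp
      _ ≤ 2 * N / l * (2 * |x i b|) := by gcongr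
      _ = 4 * (N * (|x i b| / l)) := by ring

open Classical in
/-- **Abstract Perron step in index form.** -/
theorem perron_abs (s : Finset ι) (S : Finset σ) (x : ι → σ → ℝ) (K : ι → σ → ℂ) {δ : ℝ}
    (hδ : 0 < δ) (hx1 : ∀ i ∈ s, ∀ b ∈ S, δ ≤ |x i b|) (hx2 : ∀ i ∈ s, ∀ b ∈ S, |x i b| ≤ π / 2)
    {N : ℕ} (hN : 1 ≤ N) :
    ‖∑ i ∈ s, ∑ b ∈ S, (if 0 < x i b then K i b else 0)‖ ≤
      1 / 2 * ‖TT s S x K 0‖ +
        2 / π * (∫ t in (1 / 2 : ℝ)..(2 * N), (‖TT s S x K t‖ + ‖TT s S x K (-t)‖) / t) +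
      4 / (N * δ) * ∑ i ∈ s, ∑ b ∈ S, ‖K i b‖ := by
  set Ψ : ℝ → ℝ := fun t => (‖TT s S x K t‖ + ‖TT s S x K (-t)‖) / 2 with hΨ
  have hΨc : Continuous Ψ := by
    have h1 := continuous_TT s S x K
    exact ((h1.norm).add ((h1.comp continuous_neg).norm)).div_const 2
  have hΨ0 : ∀ t, 0 ≤ Ψ t := fun t => by simp only [hΨ]; positivity
  have hstep0 : ∀ l ∈ Icc (1 : ℝ) 2, ‖∑ i ∈ s, ∑ b ∈ S, (if 0 < x i b then K i b else 0)‖ ≤
      1 / 2 * ‖TT s S x K 0‖ + 2 / π * ∑ j ∈ Finset.range N,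
      Ψ ((2 * j + 1) / l) / (2 * j + 1) + 4 / (N * δ) * ∑ i ∈ s, ∑ b ∈ S, ‖K i b‖ := fun l hl =>
    step_lambda s S x K hδ hx1 hx2 hN hl.1 hl.2
  obtain ⟨L, hL⟩ : ∃ L, L = ‖∑ i ∈ s, ∑ b ∈ S, (if 0 < x i b then K i b else 0)‖ := ⟨_, rfl⟩
  obtain ⟨P, hP⟩ : ∃ P, P = 1 / 2 * ‖TT s S x K 0‖ := ⟨_, rfl⟩
  obtain ⟨E, hE⟩ : ∃ E, E = 4 / (N * δ) * ∑ i ∈ s, ∑ b ∈ S, ‖K i b‖ := ⟨_, rfl⟩
  have hstep : ∀ l ∈ Icc (1 : ℝ) 2, L ≤ P + 2 / π * ∑ j ∈ Finset.range N,
      Ψ ((2 * j + 1) / l) / (2 * j + 1) + E := by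
    rw [hL, hP, hE]; exact hstep0
  rw [← hL, ← hP, ← hE]
  have hci : ∀ j : ℕ, IntervalIntegrable (fun l : ℝ => Ψ ((2 * (j : ℝ) + 1) / l) / (2 * j + 1))
      volume 1 2 := by
    intro j
    apply ContinuousOn.intervalIntegrable
    rw [uIcc_of_le (by norm_num)]
    intro l hl
    have hl0 : l ≠ 0 := by have := hl.1; linarith
    exact ((hΨc.continuousAt.comp (continuousAt_const.div continuousAt_id hl0)).div_const
      _).continuousWithinAt
  have hs : IntervalIntegrable (fun l : ℝ => ∑ j ∈ Finset.range N,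
      Ψ ((2 * (j : ℝ) + 1) / l) / (2 * j + 1)) volume 1 2 := by
    have := IntervalIntegrable.sum (Finset.range N) (fun j _ => hci j)
    have e : (fun l : ℝ => ∑ j ∈ Finset.range N, Ψ ((2 * (j : ℝ) + 1) / l) / (2 * j + 1)) =
        ∑ j ∈ Finset.range N, fun l : ℝ => Ψ ((2 * (j : ℝ) + 1) / l) / (2 * j + 1) := by
      funext l
      simp only [Finset.sum_apply]
    rw [e]; exact this
  have h1 : L ≤ ∫ l in (1 : ℝ)..2, (P + 2 / π * ∑ j ∈ Finset.range N,
      Ψ ((2 * j + 1) / l) / (2 * j + 1) + E) := by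
    have h2 : L = ∫ _ in (1 : ℝ)..2, L := by simp; norm_num
    rw [h2]
    refine intervalIntegral.integral_mono_on (by norm_num) (by simp) ?_ hstep
    refine ((intervalIntegrable_const).add (IntervalIntegrable.const_mul hs _)).add
      intervalIntegrable_const
  have h3 : ∫ l in (1 : ℝ)..2, (P + 2 / π * ∑ j ∈ Finset.range N,
      Ψ ((2 * j + 1) / l) / (2 * j + 1) + E) =
      P + 2 / π * (∑ j ∈ Finset.range N, ∫ u in ((2 * (j : ℝ) + 1) / 2)..(2 * (j : ℝ) + 1),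
        Ψ u / u ^ 2) + E := by
    rw [intervalIntegral.integral_add, intervalIntegral.integral_add,
      intervalIntegral.integral_const_mul, intervalIntegral.integral_finsetSum]
    · have h4 : ∀ j ∈ Finset.range N, ∫ l in (1 : ℝ)..2, Ψ ((2 * (j : ℝ) + 1) / l) / (2 * j + 1) =
          ∫ u in ((2 * (j : ℝ) + 1) / 2)..(2 * (j : ℝ) + 1), Ψ u / u ^ 2 := fun j _ =>
        int_comp (by positivity) Ψ hΨc
      rw [Finset.sum_congr rfl h4]
      simp only [intervalIntegral.integral_const, smul_eq_mul]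
      norm_num
    · exact fun j _ => hci j
    · exact intervalIntegrable_const
    · exact hs.const_mul _
    · exact (intervalIntegrable_const).add (hs.const_mul _)
    · exact intervalIntegrable_const
  have h5 := sum_int_le hN Ψ hΨc hΨ0
  have h6 : 2 * ∫ u in (1 / 2 : ℝ)..(2 * N), Ψ u / u =
      ∫ t in (1 / 2 : ℝ)..(2 * N), (‖TT s S x K t‖ + ‖TT s S x K (-t)‖) / t := by
    rw [← intervalIntegral.integral_const_mul]
    refine intervalIntegral.integral_congr fun t _ => ?_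
    simp only [hΨ]; ring
  rw [h6] at h5
  have hpi : 0 ≤ 2 / π := by positivity
  rw [h3] at h1
  linarith [mul_le_mul_of_nonneg_left h5 hpi]

end absform

/-! ### Concrete form over `Eis` -/

/-- the clipped cut-off `⌊g⌋ + 1/2`, in `[⌊B⌋ + 1/2, ⌊2B⌋ + 1/2]`. -/
def clip (B g : ℝ) : ℝ := ((max ⌊B⌋₊ (min ⌊2 * B⌋₊ ⌊g⌋₊) : ℕ) : ℝ) + 1 / 2

lemma clip_ge {B g : ℝ} (hB : 1 ≤ B) : B / 2 ≤ clip B g := by
  unfold clip
  have h1 : ((⌊B⌋₊ : ℕ) : ℝ) ≤ ((max ⌊B⌋₊ (min ⌊2 * B⌋₊ ⌊g⌋₊) : ℕ) : ℝ) := by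
    exact_mod_cast le_max_left _ _
  have h2 := Nat.lt_floor_add_one B
  linarith

lemma clip_le {B g : ℝ} (hB : 1 ≤ B) : clip B g ≤ 2 * B + 1 / 2 := by
  unfold clip
  have h1 : (max ⌊B⌋₊ (min ⌊2 * B⌋₊ ⌊g⌋₊) : ℕ) ≤ ⌊2 * B⌋₊ := by
    refine max_le (Nat.floor_le_floor (by linarith)) (min_le_left _ _)
  have h2 : ((max ⌊B⌋₊ (min ⌊2 * B⌋₊ ⌊g⌋₊) : ℕ) : ℝ) ≤ ((⌊2 * B⌋₊ : ℕ) : ℝ) := by exact_mod_cast h1
  have h3 := Nat.floor_le (a := 2 * B) (by linarith)
  linarith

lemma clip_pos {B g : ℝ} (hB : 1 ≤ B) : 0 < clip B g := by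
  have := clip_ge (g := g) hB; linarith

lemma le_iff_lt_clip {B g : ℝ} (hB : 1 ≤ B) {m : ℕ} (h1 : B < m) (h2 : (m : ℝ) ≤ 2 * B) :
    (m : ℝ) ≤ g ↔ (m : ℝ) < clip B g := by
  have hm : m ≠ 0 := by
    rintro rfl
    norm_num at h1
    linarith
  have hfB : ⌊B⌋₊ < m := (Nat.floor_lt (by linarith)).mpr h1
  have hf2 : m ≤ ⌊2 * B⌋₊ := Nat.le_floor h2
  have e1 : (m : ℝ) ≤ g ↔ m ≤ ⌊g⌋₊ := (Nat.le_floor_iff' hm).symm
  rw [e1]
  unfold clip
  constructor
  · intro h
    have : (m : ℝ) ≤ ((max ⌊B⌋₊ (min ⌊2 * B⌋₊ ⌊g⌋₊) : ℕ) : ℝ) := by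
      exact_mod_cast le_max_of_le_right (le_min hf2 h)
    linarith
  · intro h
    have h3 : m ≤ (max ⌊B⌋₊ (min ⌊2 * B⌋₊ ⌊g⌋₊) : ℕ) := by
      by_contra hc
      push Not at hc
      have : ((max ⌊B⌋₊ (min ⌊2 * B⌋₊ ⌊g⌋₊) : ℕ) : ℝ) + 1 ≤ m := by exact_mod_cast hc
      linarith
    rcases le_max_iff.mp h3 with h4 | h4
    · omega
    · exact h4.trans (min_le_right _ _)

lemma half_le_abs_clip_sub {B g : ℝ} (m : ℕ) : 1 / 2 ≤ |clip B g - m| := by
  unfold clip
  generalize (max ⌊B⌋₊ (min ⌊2 * B⌋₊ ⌊g⌋₊) : ℕ) = k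
  rcases le_or_gt m k with h | h
  · have : (m : ℝ) ≤ k := by exact_mod_cast h
    rw [abs_of_nonneg (by linarith)]; linarith
  · have : (k : ℝ) + 1 ≤ m := by exact_mod_cast h
    rw [abs_of_neg (by linarith)]; linarith

lemma abs_log_clip_ge {B g : ℝ} (hB : 1 ≤ B) {m : ℕ} (h1 : B < m) (h2 : (m : ℝ) ≤ 2 * B) :
    1 / (5 * B) ≤ |Real.log (clip B g) - Real.log m| := by
  have hc := clip_pos (g := g) hB
  have hc2 := clip_le (g := g) hB
  have hm : (0 : ℝ) < m := by linarith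
  have h := half_le_abs_clip_sub (B := B) (g := g) m
  rw [← Real.log_div hc.ne' hm.ne']
  rcases le_or_gt (m : ℝ) (clip B g) with h3 | h3
  · rw [abs_of_nonneg (by linarith)] at h
    have h4 := Real.one_sub_inv_le_log_of_pos (div_pos hc hm)
    rw [inv_div] at h4
    refine le_trans ?_ (le_abs_self _)
    refine le_trans ?_ h4
    rw [one_sub_div hc.ne', div_le_div_iff₀ (by positivity) hc]
    nlinarith
  · rw [abs_of_neg (by linarith)] at h
    have h4 := Real.one_sub_inv_le_log_of_pos (div_pos hm hc)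
    rw [inv_div] at h4
    have h5 : Real.log (clip B g / m) = - Real.log (m / clip B g) := by
      rw [← Real.log_inv, inv_div]
    rw [h5, abs_neg]
    refine le_trans ?_ (le_abs_self _)
    refine le_trans ?_ h4
    rw [one_sub_div hm.ne', div_le_div_iff₀ (by positivity) hm]
    nlinarith

lemma abs_log_clip_le {B g : ℝ} (hB : 1 ≤ B) {m : ℕ} (h1 : B < m) (h2 : (m : ℝ) ≤ 2 * B) :
    |Real.log (clip B g) - Real.log m| ≤ π / 2 := by
  have hc := clip_pos (g := g) hB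
  have hc2 := clip_le (g := g) hB
  have hc3 := clip_ge (g := g) hB
  have hm : (0 : ℝ) < m := by linarith
  have hlog4 : Real.log 4 ≤ π / 2 := by
    have : Real.log 4 = 2 * Real.log 2 := by
      rw [show (4 : ℝ) = 2 ^ 2 by norm_num, Real.log_pow]; norm_num
    rw [this]
    have := Real.log_two_lt_d9
    have := Real.pi_gt_three
    linarith
  refine le_trans ?_ hlog4
  rw [abs_le, ← Real.log_div hc.ne' hm.ne']
  constructor
  · rw [neg_le, ← Real.log_inv, inv_div]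
    apply Real.log_le_log (by positivity)
    rw [div_le_iff₀ hc]; linarith
  · apply Real.log_le_log (by positivity)
    rw [div_le_iff₀ hm]; linarith

section concrete

variable {ι : Type*}

open Classical in
/-- **Perron step, index form**: sharp cut-off `nm b ≤ g i`, arbitrary kernel `K i b`. -/
theorem perron_ix (s : Finset ι) (S : Finset Eis) {B : ℝ} (hB : 1 ≤ B)
    (hS : ∀ b ∈ S, B < nm b ∧ (nm b : ℝ) ≤ 2 * B) (g : ι → ℝ) (K : ι → Eis → ℂ) {N : ℕ}
    (hN : 1 ≤ N) :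
    ∃ θ : ℝ → ι → ℂ, (∀ t i, ‖θ t i‖ = 1) ∧ (∀ i, Continuous fun t => θ t i) ∧ (∀ i, θ 0 i = 1) ∧
      ‖∑ i ∈ s, ∑ b ∈ S, (if (nm b : ℝ) ≤ g i then K i b else 0)‖ ≤
        1 / 2 * ‖∑ i ∈ s, θ 0 i * ∑ b ∈ S, nit 0 b * K i b‖ +
        2 / π * (∫ t in (1 / 2 : ℝ)..(2 * N), (‖∑ i ∈ s, θ t i * ∑ b ∈ S, nit (-t) b * K i b‖ +
          ‖∑ i ∈ s, θ (-t) i * ∑ b ∈ S, nit t b * K i b‖) / t) +
        20 * B / N * ∑ i ∈ s, ∑ b ∈ S, ‖K i b‖ := by
  refine ⟨fun t i => cexp (I * ((Real.log (clip B (g i)) : ℝ) : ℂ) * (t : ℂ)), ?_, ?_, ?_, ?_⟩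
  · intro t i
    rw [Complex.norm_exp]
    have : (I * ((Real.log (clip B (g i)) : ℝ) : ℂ) * (t : ℂ)).re = 0 := by
      rw [mul_assoc, ← Complex.ofReal_mul, Complex.I_mul_re, Complex.ofReal_im, neg_zero]
    rw [this, Real.exp_zero]
  · intro i; fun_prop
  · intro i; simp
  · set x : ι → Eis → ℝ := fun i b => Real.log (clip B (g i)) - Real.log (nm b) with hx
    have h1 : ∀ i ∈ s, ∀ b ∈ S, 1 / (5 * B) ≤ |x i b| := fun i _ b hb =>
      abs_log_clip_ge hB (hS b hb).1 (hS b hb).2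
    have h2 : ∀ i ∈ s, ∀ b ∈ S, |x i b| ≤ π / 2 := fun i _ b hb =>
      abs_log_clip_le hB (hS b hb).1 (hS b hb).2
    have hmain := perron_abs s S x K (by positivity) h1 h2 hN
    have hb0 : ∀ b ∈ S, b ≠ 0 := by
      intro b hb h
      have := (hS b hb).1
      rw [h] at this
      simp at this
      linarith
    have hT : ∀ t : ℝ, TT s S x K t = ∑ i ∈ s, cexp (I * ((Real.log (clip B (g i)) : ℝ) : ℂ) * (t : ℂ)) *
        ∑ b ∈ S, nit (-t) b * K i b := by
      intro t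
      unfold TT
      refine Finset.sum_congr rfl fun i _ => ?_
      rw [Finset.mul_sum]
      refine Finset.sum_congr rfl fun b hb => ?_
      rw [nit_eq (hb0 b hb), ← mul_assoc, ← Complex.exp_add]
      congr 2
      simp only [hx]; push_cast; ring
    have hif : ∑ i ∈ s, ∑ b ∈ S, (if 0 < x i b then K i b else 0) =
        ∑ i ∈ s, ∑ b ∈ S, (if (nm b : ℝ) ≤ g i then K i b else 0) := by
      refine Finset.sum_congr rfl fun i _ => Finset.sum_congr rfl fun b hb => ?_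
      have hm : (0 : ℝ) < nm b := by have := (hS b hb).1; linarith
      have : 0 < x i b ↔ (nm b : ℝ) ≤ g i := by
        rw [le_iff_lt_clip hB (hS b hb).1 (hS b hb).2]
        simp only [hx, sub_pos]
        exact Real.log_lt_log_iff hm (clip_pos hB)
      simp only [this]
    rw [hif] at hmain
    simp only [hT] at hmain
    have e20 : 4 / (N * (1 / (5 * B))) = 20 * B / N := by
      field_simp; ring
    rw [e20] at hmain
    simpa using hmain

variable {A : Type*} [DecidableEq A]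

/-- number of pairs of indices with the same `a`. -/
def Rp (s : Finset ι) (a : ι → A) : ℕ := ((s ×ˢ s).filter (fun p => a p.1 = a p.2)).card

lemma Rp_eq (s : Finset ι) (a : ι → A) (AA : Finset A) (h : ∀ i ∈ s, a i ∈ AA) :
    (Rp s a : ℝ) = ∑ x ∈ AA, ((s.filter (fun i => a i = x)).card : ℝ) ^ 2 := by
  unfold Rp
  have h1 : ((s ×ˢ s).filter (fun p => a p.1 = a p.2)).card =
      ∑ x ∈ AA, (((s ×ˢ s).filter (fun p => a p.1 = a p.2)).filter (fun p => a p.1 = x)).card := by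
    refine Finset.card_eq_sum_card_fiberwise (f := fun p : ι × ι => a p.1) ?_
    intro p hp
    have : p.1 ∈ s := (Finset.mem_product.mp (Finset.mem_filter.mp hp).1).1
    exact h _ this
  rw [h1]
  push_cast
  refine Finset.sum_congr rfl fun x _ => ?_
  have h2 : ((s ×ˢ s).filter (fun p => a p.1 = a p.2)).filter (fun p => a p.1 = x) =
      (s.filter (fun i => a i = x)) ×ˢ (s.filter (fun i => a i = x)) := by
    ext p
    simp only [Finset.mem_filter, Finset.mem_product]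
    constructor
    · rintro ⟨⟨⟨h3, h4⟩, h5⟩, h6⟩
      exact ⟨⟨h3, h6⟩, ⟨h4, by rw [← h5]; exact h6⟩⟩
    · rintro ⟨⟨h3, h4⟩, ⟨h5, h6⟩⟩
      exact ⟨⟨⟨h3, h5⟩, by rw [h4, h6]⟩, h4⟩
  rw [h2, Finset.card_product]
  push_cast; ring

/-- regrouping of an index sum. -/
lemma regroup (s : Finset ι) (a : ι → A) (AA : Finset A) (h : ∀ i ∈ s, a i ∈ AA) (α : ι → ℂ)
    (f : A → ℂ) :
    ∑ i ∈ s, α i * f (a i) = ∑ x ∈ AA, (∑ i ∈ s.filter (fun i => a i = x), α i) * f x := by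
  rw [← Finset.sum_fiberwise_of_maps_to h]
  refine Finset.sum_congr rfl fun x _ => ?_
  rw [Finset.sum_mul]
  refine Finset.sum_congr rfl fun i hi => ?_
  rw [(Finset.mem_filter.mp hi).2]

lemma regroup_norm (s : Finset ι) (a : ι → A) (AA : Finset A) (h : ∀ i ∈ s, a i ∈ AA) (α : ι → ℂ)
    (hα : ∀ i ∈ s, ‖α i‖ ≤ 1) :
    ∑ x ∈ AA, ‖∑ i ∈ s.filter (fun i => a i = x), α i‖ ^ 2 ≤ Rp s a := by
  rw [Rp_eq s a AA h]
  refine Finset.sum_le_sum fun x _ => ?_
  gcongr
  refine (norm_sum_le _ _).trans ?_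
  calc ∑ i ∈ s.filter (fun i => a i = x), ‖α i‖ ≤ ∑ _i ∈ s.filter (fun i => a i = x), (1 : ℝ) :=
        Finset.sum_le_sum fun i hi => hα i (Finset.mem_filter.mp hi).1
    _ = _ := by simp

open Classical in
/-- **Perron step, index form, regrouped.**  The integral of the norms, with coefficients `u t x` of
`ℓ²`-norm at most `√R`, `R` = number of pairs `i, j` with `a i = a j`. -/
theorem perron_ix_norm (s : Finset ι) (a : ι → A) (AA : Finset A) (ha : ∀ i ∈ s, a i ∈ AA)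
    (α : ι → ℂ) (hα : ∀ i ∈ s, ‖α i‖ ≤ 1) (S : Finset Eis) {B : ℝ} (hB : 1 ≤ B)
    (hS : ∀ b ∈ S, B < nm b ∧ (nm b : ℝ) ≤ 2 * B) (g : ι → ℝ) (c : A → Eis → ℂ) {N : ℕ}
    (hN : 1 ≤ N) :
    ∃ u : ℝ → A → ℂ, (∀ t, ∑ x ∈ AA, ‖u t x‖ ^ 2 ≤ Rp s a) ∧ (∀ x, Continuous fun t => u t x) ∧
      ‖∑ i ∈ s, α i * ∑ b ∈ S.filter (fun b => (nm b : ℝ) ≤ g i), c (a i) b‖ ≤
        1 / 2 * ‖∑ x ∈ AA, u 0 x * ∑ b ∈ S, nit 0 b * c x b‖ +
        2 / π * (∫ t in (1 / 2 : ℝ)..(2 * N), (‖∑ x ∈ AA, u t x * ∑ b ∈ S, nit (-t) b * c x b‖ +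
          ‖∑ x ∈ AA, u (-t) x * ∑ b ∈ S, nit t b * c x b‖) / t) +
        20 * B / N * ∑ i ∈ s, ∑ b ∈ S, ‖c (a i) b‖ := by
  obtain ⟨θ, h1, h2, h3, h4⟩ := perron_ix s S hB hS g (fun i b => α i * c (a i) b) hN
  refine ⟨fun t x => ∑ i ∈ s.filter (fun i => a i = x), θ t i * α i, ?_, ?_, ?_⟩
  · intro t
    refine regroup_norm s a AA ha (fun i => θ t i * α i) fun i hi => ?_
    rw [norm_mul, h1, one_mul]; exact hα i hi
  · intro x
    exact continuous_finsetSum _ fun i _ => (h2 i).mul continuous_const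
  · have e : ∀ t v : ℝ, ∑ i ∈ s, θ t i * ∑ b ∈ S, nit v b * (α i * c (a i) b) =
        ∑ x ∈ AA, (∑ i ∈ s.filter (fun i => a i = x), θ t i * α i) * ∑ b ∈ S, nit v b * c x b := by
      intro t v
      rw [← regroup s a AA ha (fun i => θ t i * α i) (fun x => ∑ b ∈ S, nit v b * c x b)]
      refine Finset.sum_congr rfl fun i _ => ?_
      rw [mul_assoc, Finset.mul_sum (a := α i)]
      congr 1
      refine Finset.sum_congr rfl fun b _ => by ring
    have e0 : ∑ i ∈ s, ∑ b ∈ S, (if (nm b : ℝ) ≤ g i then α i * c (a i) b else 0) =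
        ∑ i ∈ s, α i * ∑ b ∈ S.filter (fun b => (nm b : ℝ) ≤ g i), c (a i) b := by
      refine Finset.sum_congr rfl fun i _ => ?_
      rw [Finset.sum_filter, Finset.mul_sum]
      refine Finset.sum_congr rfl fun b _ => ?_
      split_ifs <;> simp
    simp only [e, e0] at h4
    refine h4.trans (add_le_add le_rfl ?_)
    gcongr with i hi b hb
    rw [norm_mul]
    exact mul_le_of_le_one_left (norm_nonneg _) (hα i hi)

open Classical in
/-- **Perron step, index form, with an `ℓ²`-hypothesis** for the untruncated bilinear form. -/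
theorem perron_ix_M (s : Finset ι) (a : ι → A) (AA : Finset A) (ha : ∀ i ∈ s, a i ∈ AA)
    (α : ι → ℂ) (hα : ∀ i ∈ s, ‖α i‖ ≤ 1) (S : Finset Eis) {B : ℝ} (hB : 1 ≤ B)
    (hS : ∀ b ∈ S, B < nm b ∧ (nm b : ℝ) ≤ 2 * B) (g : ι → ℝ) (c : A → Eis → ℂ) {N : ℕ}
    (hN : 1 ≤ N) (M : ℝ → ℝ)
    (hMi : IntervalIntegrable (fun t => (M (-t) + M t) / t) volume (1 / 2) (2 * N))
    (hM : ∀ (t : ℝ) (u : A → ℂ), ‖∑ x ∈ AA, u x * ∑ b ∈ S, nit t b * c x b‖ ≤
      M t * Real.sqrt (∑ x ∈ AA, ‖u x‖ ^ 2)) (hM0 : ∀ t, 0 ≤ M t) :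
    ‖∑ i ∈ s, α i * ∑ b ∈ S.filter (fun b => (nm b : ℝ) ≤ g i), c (a i) b‖ ≤
      Real.sqrt (Rp s a) * (1 / 2 * M 0 +
        2 / π * ∫ t in (1 / 2 : ℝ)..(2 * N), (M (-t) + M t) / t) +
        20 * B / N * ∑ i ∈ s, ∑ b ∈ S, ‖c (a i) b‖ := by
  obtain ⟨u, h1, h2, h3⟩ := perron_ix_norm s a AA ha α hα S hB hS g c hN
  have hN' : (1 : ℝ) ≤ N := by exact_mod_cast hN
  have hb : ∀ t v : ℝ, ‖∑ x ∈ AA, u t x * ∑ b ∈ S, nit v b * c x b‖ ≤ Real.sqrt (Rp s a) * M v := by
    intro t v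
    refine (hM v (u t)).trans ?_
    rw [mul_comm]
    exact mul_le_mul_of_nonneg_right (Real.sqrt_le_sqrt (h1 t)) (hM0 v)
  have hnc : ∀ v : ℝ → ℝ, Continuous v → ∀ w : ℝ → ℝ, Continuous w →
      Continuous (fun t : ℝ => ‖∑ x ∈ AA, u (v t) x * ∑ b ∈ S, nit (w t) b * c x b‖) := by
    intro v hv w hw
    refine Continuous.norm (continuous_finsetSum _ fun x _ => ?_)
    refine ((h2 x).comp hv).mul (continuous_finsetSum _ fun b hb' => ?_)
    have hb0 : b ≠ 0 := by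
      intro h
      have := (hS b hb').1
      rw [h] at this
      simp at this
      linarith
    exact ((continuous_nit hb0).comp hw).mul continuous_const
  have hI : ∫ t in (1 / 2 : ℝ)..(2 * N), (‖∑ x ∈ AA, u t x * ∑ b ∈ S, nit (-t) b * c x b‖ +
          ‖∑ x ∈ AA, u (-t) x * ∑ b ∈ S, nit t b * c x b‖) / t ≤
      Real.sqrt (Rp s a) * ∫ t in (1 / 2 : ℝ)..(2 * N), (M (-t) + M t) / t := by
    rw [← intervalIntegral.integral_const_mul]
    refine intervalIntegral.integral_mono_on (by linarith) ?_ (hMi.const_mul _) ?_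
    · apply ContinuousOn.intervalIntegrable
      rw [uIcc_of_le (by linarith)]
      refine ContinuousOn.div ?_ continuousOn_id ?_
      · exact ((hnc _ continuous_id _ continuous_neg).add
          (hnc _ continuous_neg _ continuous_id)).continuousOn
      · intro t ht
        exact ne_of_gt (by linarith [ht.1])
    · intro t ht
      have ht0 : 0 < t := by linarith [ht.1]
      rw [← mul_div_assoc, mul_add]
      gcongr
      · exact hb t (-t)
      · exact hb (-t) t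
  refine h3.trans ?_
  have h5 := hb 0 0
  have hpi : 0 ≤ 2 / π := by positivity
  have h6 := mul_le_mul_of_nonneg_left hI hpi
  refine add_le_add ?_ le_rfl
  calc _ ≤ 1 / 2 * (Real.sqrt (Rp s a) * M 0) + 2 / π * (Real.sqrt (Rp s a) *
        ∫ t in (1 / 2 : ℝ)..(2 * N), (M (-t) + M t) / t) := by linarith
    _ = _ := by ring

end concrete

end Crest.Agent.R012.Perron828
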