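import Crest.Agent.R012.SieveC_812
import Crest.Agent.R012.SpecMain_48

/-!
# Row 12: the bilinear hypotheses of `Sieve812.sieve_bound` from the master interface (helper50)

`use_all`: `TII_Prop`, `TIIc_Prop`, `SNH_Prop`, `Edge_Prop` give `hPr`, `hR`, `hC`, `hE` of
`Sieve812.sieve_bound` for `f = FX l X`, `D = X^(1/3) (log X)^C0`, `V = X^(1/2+η)`, `w = wX X`.
-/

set_option autoImplicit false

noncomputable section

namespace Crest.Agent.R012.SieveUse50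

open Finset Eis Buch420 Sieve812 Main48

lemma supp_FX (l : ℤ) (X : ℕ) : Supp X (FX l X) where
  sq n h := by
    unfold FX Fl at h
    split_ifs at h with h1 h2
    · exact h2
    · exact absurd rfl h
    · exact absurd rfl h
  le n h := by
    unfold FX at h
    split_ifs at h with h1
    · exact h1.2
    · exact absurd rfl h
  lt n h := by
    unfold FX at h
    split_ifs at h with h1
    · exact h1.1
    · exact absurd rfl h

/-- a bounded interval of `ℕ` -/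
lemma exists_lo_hi (s : Set ℕ) (hs : s.OrdConnected) (M : ℕ) (hM : ∀ n ∈ s, n ≤ M) :
    ∃ lo hi : ℕ, ∀ n, n ∈ s ↔ lo ≤ n ∧ n < hi := by
  classical
  set S := (Finset.range (M + 1)).filter (fun n => n ∈ s) with hS
  have hmem : ∀ n, n ∈ S ↔ n ∈ s := by
    intro n
    rw [hS, Finset.mem_filter, Finset.mem_range]
    exact ⟨fun h => h.2, fun h => ⟨Nat.lt_succ_of_le (hM n h), h⟩⟩
  by_cases hne : S.Nonempty
  · refine ⟨S.min' hne, S.max' hne + 1, fun n => ⟨fun h => ?_, fun h => ?_⟩⟩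
    · rw [← hmem] at h
      exact ⟨S.min'_le n h, Nat.lt_succ_of_le (S.le_max' n h)⟩
    · have h1 := (hmem _).mp (S.min'_mem hne)
      have h2 := (hmem _).mp (S.max'_mem hne)
      exact hs.out h1 h2 ⟨h.1, Nat.le_of_lt_succ h.2⟩
  · refine ⟨0, 0, fun n => ⟨fun h => ?_, fun h => absurd h.2 (Nat.not_lt_zero n)⟩⟩
    exact absurd ⟨n, (hmem n).mpr h⟩ hne

/-- membership in the class `SWc` from an interval description -/
lemma swc_mk {β : Finset PrP → ℂ} (hb : ∀ T, ‖β T‖ ≤ 1) (c : Finset PrP → ℂ)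
    (hc : ∀ T, ‖c T‖ ≤ 1) (s : Finset PrP → Set ℕ) (hs : ∀ T, (s T).OrdConnected) (M : ℕ)
    (hM : ∀ T, ∀ n ∈ s T, n ≤ M)
    (h : ∀ (T : Finset PrP) (p : PrP), (∀ q ∈ T, q < p) →
      (nm p.1 ∈ s T → β (insert p T) = c T) ∧ (nm p.1 ∉ s T → β (insert p T) = 0)) : SWc β := by
  choose lo hi hlh using fun T => exists_lo_hi (s T) (hs T) M (hM T)
  refine ⟨hb, c, lo, hi, hc, fun T p hp => ?_⟩
  obtain ⟨h1, h2⟩ := h T p hp
  split_ifs with hc'
  · exact h1 ((hlh T _).mpr hc')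
  · exact h2 (fun hh => hc' ((hlh T _).mp hh))

lemma not_mem_of_lt {T : Finset PrP} {p : PrP} (h : ∀ q ∈ T, q < p) : p ∉ T :=
  fun hp => lt_irrefl _ (h p hp)

lemma mn_insert {T : Finset PrP} {p : PrP} (hT : T.Nonempty) (h : ∀ q ∈ T, q < p) :
    mn (insert p T) = mn T := by
  apply le_antisymm
  · exact mn_le (Finset.mem_insert_of_mem (mn_mem hT))
  · have h1 := mn_mem (Finset.insert_nonempty p T)
    rcases Finset.mem_insert.mp h1 with h2 | h2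
    · rw [h2]; exact (h _ (mn_mem hT)).le
    · exact mn_le h2

lemma erase_insert_mn {T : Finset PrP} {p : PrP} (hT : T.Nonempty) (h : ∀ q ∈ T, q < p) :
    (insert p T).erase (mn T) = insert p (T.erase (mn T)) := by
  have hne : mn T ≠ p := (h _ (mn_mem hT)).ne
  rw [Finset.erase_insert_of_ne hne.symm]

lemma insert_subset_UX {X : ℕ} {T : Finset PrP} {p : PrP} :
    insert p T ⊆ UX X ↔ nm p.1 ≤ X ∧ T ⊆ UX X := by
  rw [Finset.insert_subset_iff, mem_UX]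

/-! ### conversion of sums -/

open Classical in
lemma inner_eq (l : ℤ) (X : ℕ) (α : Eis → ℂ) (K : Finset PrP) :
    ∑ a ∈ primBall X, α a * FX l X (prd K * a) =
      ∑ S ∈ (UX X).powerset, α (prd S) * FX l X (prd S * prd K) := by
  have h1 := sum_J (supp_FX l X) K (fun J => α (prd J))
  have h2 : ∑ a ∈ primBall X, α (prd (pset a)) * FX l X (prd K * a) =
      ∑ a ∈ primBall X, α a * FX l X (prd K * a) := by
    refine Finset.sum_congr rfl fun a ha => ?_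
    by_cases h0 : FX l X (prd K * a) = 0
    · rw [h0]; simp
    · have hs := ((supp_FX l X).sq _ h0).of_mul_right
      rw [prd_pset (mem_primBall.mp ha).2 hs]
  rw [← h2, ← h1]
  refine Finset.sum_congr rfl fun S _ => ?_
  rw [mul_comm (prd S) (prd K)]

open Classical in
lemma bil_eq (l : ℤ) (X : ℕ) (α : Eis → ℂ) (β : Finset PrP → ℂ) :
    Bil l X (fun S => α (prd S)) β =
      ∑ K ∈ (UX X).powerset, β K * ∑ a ∈ primBall X, α a * FX l X (prd K * a) := by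
  unfold Bil
  rw [Finset.sum_comm]
  refine Finset.sum_congr rfl fun K _ => ?_
  rw [inner_eq, Finset.mul_sum]
  refine Finset.sum_congr rfl fun S _ => ?_
  ring

open Classical in
/-- a sum over a subset `s` of outer variables as a bilinear form -/
lemma bil_eq_set (l : ℤ) (X : ℕ) (α : Eis → ℂ) (s : Finset (Finset PrP))
    (hs : s ⊆ (UX X).powerset) (g : Finset PrP → ℂ) :
    ∑ K ∈ s, g K * ∑ a ∈ primBall X, α a * FX l X (prd K * a) =
      Bil l X (fun S => α (prd S)) (fun K => if K ∈ s then g K else 0) := by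
  rw [bil_eq, ← Finset.sum_subset hs]
  · refine Finset.sum_congr rfl fun K hK => ?_
    rw [if_pos hK]
  · intro K _ hK
    rw [if_neg hK, zero_mul]

/-! ### the coefficients of `Rset` -/

lemma norm_sgn_mul {n : ℕ} {z : ℂ} (hz : ‖z‖ ≤ 1) : ‖(-1 : ℂ) ^ n * z‖ ≤ 1 := by
  rw [norm_mul, norm_pow, norm_neg, norm_one, one_pow, one_mul]; exact hz

open Classical in
lemma swc_R (X : ℕ) (w D V u v : ℝ) (φ : PrP → ℂ) (hφ : ∀ p, ‖φ p‖ ≤ 1) :
    SWc (fun K => if K ∈ (Rset X w D V).filter (fun K => u < nK K ∧ nK K ≤ v) then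
      (-1 : ℂ) ^ K.card * φ (mn K) else 0) := by
  refine swc_mk (fun T => ?_) (fun T => (-1 : ℂ) ^ (T.card + 1) * φ (mn T))
    (fun T => norm_sgn_mul (hφ _))
    (fun T => {n : ℕ | T.Nonempty ∧ T ⊆ UX X ∧ (∀ q ∈ T, w ≤ (nm q.1 : ℝ)) ∧ n ≤ X ∧ w ≤ (n : ℝ) ∧
      (n : ℝ) * nK (T.erase (mn T)) < D ∧ D ≤ n * nK T ∧ n * nK T ≤ V ∧ u < n * nK T ∧
        n * nK T ≤ v}) (fun T => ?_) X (fun T n hn => hn.2.2.2.1) ?_
  · split_ifs
    · exact norm_sgn_mul (hφ _)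
    · simp
  · refine ⟨?_⟩
    rintro x ⟨h1, h2, h3, h4, h5, h6, h7, h8, h9, h10⟩ z
      ⟨-, -, -, k4, k5, k6, k7, k8, k9, k10⟩ y ⟨hxy, hyz⟩
    have hxy' : (x : ℝ) ≤ y := by exact_mod_cast hxy
    have hyz' : (y : ℝ) ≤ z := by exact_mod_cast hyz
    have hT0 := nK_pos T
    have hE0 := nK_pos (T.erase (mn T))
    have m1 := mul_le_mul_of_nonneg_right hxy' hT0.le
    have m2 := mul_le_mul_of_nonneg_right hyz' hT0.le
    have m3 := mul_le_mul_of_nonneg_right hyz' hE0.le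
    exact ⟨h1, h2, h3, hyz.trans k4, h5.trans hxy', lt_of_le_of_lt m3 k6, h7.trans m1,
      m2.trans k8, lt_of_lt_of_le h9 m1, m2.trans k10⟩
  · intro T p hp
    have hpT := not_mem_of_lt hp
    have key : insert p T ∈ (Rset X w D V).filter (fun K => u < nK K ∧ nK K ≤ v) ↔
        nm p.1 ∈ {n : ℕ | T.Nonempty ∧ T ⊆ UX X ∧ (∀ q ∈ T, w ≤ (nm q.1 : ℝ)) ∧ n ≤ X ∧
          w ≤ (n : ℝ) ∧ (n : ℝ) * nK (T.erase (mn T)) < D ∧ D ≤ n * nK T ∧ n * nK T ≤ V ∧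
          u < n * nK T ∧ n * nK T ≤ v} := by
      rw [Finset.mem_filter]
      unfold Rset
      rw [Finset.mem_filter, Finset.mem_powerset, insert_subset_UX, Finset.card_insert_of_notMem hpT,
        Cr_iff, nK_insert hpT, Finset.forall_mem_insert]
      rcases T.eq_empty_or_nonempty with hT | hT
      · subst hT
        simp
      · rw [mn_insert hT hp, erase_insert_mn hT hp, nK_insert (fun h => hpT (Finset.mem_of_mem_erase h))]
        have hc : 2 ≤ T.card + 1 := by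
          have := Finset.card_pos.mpr hT
          omega
        simp only [Set.mem_ofPred_eq, Finset.insert_nonempty, true_and, hT, hc]
        tauto
    constructor
    · intro h
      have h' := key.mpr h
      have hT : T.Nonempty := h.1
      show (if _ then _ else _) = _
      rw [if_pos h', Finset.card_insert_of_notMem hpT, mn_insert hT hp]
    · intro h
      show (if _ then _ else _) = _
      rw [if_neg (fun h' => h (key.mp h'))]

/-! ### the coefficients of `Cset` -/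

open Classical in
lemma swc_C (X : ℕ) (D V : ℝ) (hV : 0 < V) (φ : PrP → ℂ) (hφ : ∀ p, ‖φ p‖ ≤ 1) :
    SWc (fun K => if K ∈ Cset X D V then φ (mn K) else 0) := by
  refine swc_mk (fun T => ?_) (fun T => φ (mn T)) (fun T => hφ _)
    (fun T => {n : ℕ | T.card = 1 ∧ T ⊆ UX X ∧ (∀ q ∈ T, V / D ≤ (nm q.1 : ℝ)) ∧ n ≤ X ∧
      V / D ≤ (n : ℝ) ∧ D ≤ n * nK T ∧ V * (n * nK T) ≤ X}) (fun T => ?_) X
      (fun T n hn => hn.2.2.2.1) ?_
  · split_ifs
    · exact hφ _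
    · simp
  · refine ⟨?_⟩
    rintro x ⟨h1, h2, h3, h4, h5, h6, h7⟩ z ⟨-, -, -, k4, k5, k6, k7⟩ y ⟨hxy, hyz⟩
    have hxy' : (x : ℝ) ≤ y := by exact_mod_cast hxy
    have hyz' : (y : ℝ) ≤ z := by exact_mod_cast hyz
    have hT0 := nK_pos T
    have m1 := mul_le_mul_of_nonneg_right hxy' hT0.le
    have m2 := mul_le_mul_of_nonneg_right hyz' hT0.le
    exact ⟨h1, h2, h3, hyz.trans k4, h5.trans hxy', h6.trans m1,
      (mul_le_mul_of_nonneg_left m2 hV.le).trans k7⟩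
  · intro T p hp
    have hpT := not_mem_of_lt hp
    have key : insert p T ∈ Cset X D V ↔
        nm p.1 ∈ {n : ℕ | T.card = 1 ∧ T ⊆ UX X ∧ (∀ q ∈ T, V / D ≤ (nm q.1 : ℝ)) ∧ n ≤ X ∧
      V / D ≤ (n : ℝ) ∧ D ≤ n * nK T ∧ V * (n * nK T) ≤ X} := by
      rw [mem_Cset, insert_subset_UX, Finset.card_insert_of_notMem hpT, nK_insert hpT,
        Finset.forall_mem_insert]
      have hc : T.card + 1 = 2 ↔ T.card = 1 := by omega
      simp only [Set.mem_ofPred_eq, hc]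
      tauto
    constructor
    · intro h
      have h' := key.mpr h
      have hT : T.Nonempty := by rw [← Finset.card_pos, h.1]; norm_num
      show (if _ then _ else _) = _
      rw [if_pos h', mn_insert hT hp]
    · intro h
      show (if _ then _ else _) = _
      rw [if_neg (fun h' => h (key.mp h'))]

/-! ### primes -/

open Classical in
/-- singletons `{p}` with `u ≤ nm p ≤ v` -/
def Sing (X : ℕ) (u v : ℝ) : Finset (Finset PrP) :=
  ((UX X).filter (fun p => u ≤ (nm p.1 : ℝ) ∧ (nm p.1 : ℝ) ≤ v)).image (fun p => {p})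

lemma mem_Sing {X : ℕ} {u v : ℝ} {T : Finset PrP} :
    T ∈ Sing X u v ↔ ∃ p : PrP, T = {p} ∧ nm p.1 ≤ X ∧ u ≤ (nm p.1 : ℝ) ∧ (nm p.1 : ℝ) ≤ v := by
  unfold Sing
  rw [Finset.mem_image]
  constructor
  · rintro ⟨p, hp, rfl⟩
    rw [Finset.mem_filter, mem_UX] at hp
    exact ⟨p, rfl, hp.1, hp.2⟩
  · rintro ⟨p, rfl, h1, h2⟩
    exact ⟨p, by rw [Finset.mem_filter, mem_UX]; exact ⟨h1, h2⟩, rfl⟩

open Classical in
lemma swc_P (X : ℕ) (u v : ℝ) :
    SWc (fun K => if K ∈ Sing X u v then (1 : ℂ) else 0) := by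
  refine swc_mk (fun T => ?_) (fun _ => 1) (fun T => by simp)
    (fun T => {n : ℕ | T = ∅ ∧ n ≤ X ∧ u ≤ (n : ℝ) ∧ (n : ℝ) ≤ v}) (fun T => ?_) X
      (fun T n hn => hn.2.1) ?_
  · split_ifs <;> simp
  · refine ⟨?_⟩
    rintro x ⟨h1, h2, h3, h4⟩ z ⟨-, k2, k3, k4⟩ y ⟨hxy, hyz⟩
    have hxy' : (x : ℝ) ≤ y := by exact_mod_cast hxy
    have hyz' : (y : ℝ) ≤ z := by exact_mod_cast hyz
    exact ⟨h1, hyz.trans k2, h3.trans hxy', hyz'.trans k4⟩
  · intro T p hp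
    have hpT := not_mem_of_lt hp
    have key : insert p T ∈ Sing X u v ↔
        nm p.1 ∈ {n : ℕ | T = ∅ ∧ n ≤ X ∧ u ≤ (n : ℝ) ∧ (n : ℝ) ≤ v} := by
      rw [mem_Sing]
      simp only [Set.mem_ofPred_eq]
      constructor
      · rintro ⟨q, hq, h2⟩
        have hpq : p = q := by
          have : p ∈ ({q} : Finset PrP) := by rw [← hq]; exact Finset.mem_insert_self p T
          exact Finset.mem_singleton.mp this
        subst hpq
        refine ⟨?_, h2⟩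
        rw [Finset.eq_empty_iff_forall_notMem]
        intro r hr
        have : r ∈ ({p} : Finset PrP) := by rw [← hq]; exact Finset.mem_insert_of_mem hr
        rw [Finset.mem_singleton] at this
        exact hpT (this ▸ hr)
      · rintro ⟨rfl, h2⟩
        exact ⟨p, by simp, h2⟩
    constructor
    · intro h
      show (if _ then _ else _) = _
      rw [if_pos (key.mpr h)]
    · intro h
      show (if _ then _ else _) = _
      rw [if_neg (fun h' => h (key.mp h'))]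

/-! ### inequalities for large `X` -/

open Filter in
lemma LX_tendsto : Tendsto (fun X : ℕ => LX X) atTop atTop :=
  Real.tendsto_log_atTop.comp tendsto_natCast_atTop_atTop

open Filter in
lemma ev_LX (c : ℝ) : ∀ᶠ X : ℕ in atTop, c ≤ LX X := LX_tendsto.eventually_ge_atTop c

open Filter in
/-- powers of `log X` are absorbed. -/
lemma ev_pow {a b : ℝ} (hab : a < b) (c : ℝ) :
    ∀ᶠ X : ℕ in atTop, (X : ℝ) ^ a * LX X ^ c ≤ (X : ℝ) ^ b := by
  have h1 : ∀ᶠ x : ℝ in atTop, Real.log x ^ c ≤ x ^ (b - a) := by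
    have h := (isLittleO_log_rpow_rpow_atTop c (by linarith : 0 < b - a)).bound
      (by norm_num : (0 : ℝ) < 1)
    filter_upwards [h, eventually_ge_atTop (1 : ℝ)] with x hx hx1
    have h2 : 0 ≤ x ^ (b - a) := by positivity
    rw [one_mul, Real.norm_eq_abs, Real.norm_eq_abs, abs_of_nonneg h2] at hx
    exact (le_abs_self _).trans hx
  have h2 := tendsto_natCast_atTop_atTop (R := ℝ) |>.eventually h1
  filter_upwards [h2, eventually_ge_atTop 1] with X hX hX1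
  have hX0 : (0 : ℝ) < X := by exact_mod_cast hX1
  unfold LX
  calc (X : ℝ) ^ a * Real.log X ^ c ≤ (X : ℝ) ^ a * (X : ℝ) ^ (b - a) :=
        mul_le_mul_of_nonneg_left hX (by positivity)
    _ = (X : ℝ) ^ b := by rw [← Real.rpow_add hX0]; congr 1; ring

open Filter in
lemma ev_wX {e : ℝ} (he : 0 < e) : ∀ᶠ X : ℕ in atTop, wX X ≤ (X : ℝ) ^ e := by
  have h1 : ∀ᶠ y : ℝ in atTop, y ^ ((2 : ℝ) / 3) ≤ e * y := by
    have he3 : 0 < e⁻¹ ^ (3 : ℕ) := by positivity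
    filter_upwards [eventually_ge_atTop (e⁻¹ ^ (3 : ℕ))] with y hy
    have hy0 : 0 < y := lt_of_lt_of_le he3 hy
    have h1 : e⁻¹ ≤ y ^ ((1 : ℝ) / 3) := by
      have h := Real.rpow_le_rpow he3.le hy (by norm_num : (0 : ℝ) ≤ 1 / 3)
      rwa [← Real.rpow_natCast, ← Real.rpow_mul (by positivity),
        (by norm_num : ((3 : ℕ) : ℝ) * (1 / 3) = 1), Real.rpow_one] at h
    have h2 : y = y ^ ((2 : ℝ) / 3) * y ^ ((1 : ℝ) / 3) := by
      rw [← Real.rpow_add hy0]; norm_num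
    have h3 : 0 ≤ y ^ ((2 : ℝ) / 3) := by positivity
    calc y ^ ((2 : ℝ) / 3) = e * (y ^ ((2 : ℝ) / 3) * e⁻¹) := by field_simp
      _ ≤ e * (y ^ ((2 : ℝ) / 3) * y ^ ((1 : ℝ) / 3)) := by gcongr
      _ = e * y := by rw [← h2]
  filter_upwards [LX_tendsto.eventually h1, eventually_ge_atTop 1] with X hX hX1
  have hX0 : (0 : ℝ) < X := by exact_mod_cast hX1
  unfold wX
  rw [Real.rpow_def_of_pos hX0, Real.exp_le_exp, mul_comm (Real.log X)]
  exact hX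

/-! ### the adapters -/

open Classical in
lemma mem_Rset {X : ℕ} {w D V : ℝ} {K : Finset PrP} : K ∈ Rset X w D V ↔
    K ⊆ UX X ∧ 2 ≤ K.card ∧ (∀ p ∈ K, w ≤ (nm p.1 : ℝ)) ∧ Cr PrP.N D K ∧ nK K ≤ V := by
  unfold Rset; rw [Finset.mem_filter, Finset.mem_powerset]

lemma Rset_subset {X : ℕ} {w D V : ℝ} : Rset X w D V ⊆ (UX X).powerset := by
  intro K hK
  rw [Finset.mem_powerset]; exact (mem_Rset.mp hK).1

lemma Cset_subset {X : ℕ} {D V : ℝ} : Cset X D V ⊆ (UX X).powerset := by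
  intro K hK
  rw [Finset.mem_powerset]; exact (mem_Cset.mp hK).1

lemma Sing_subset {X : ℕ} {u v : ℝ} : Sing X u v ⊆ (UX X).powerset := by
  intro K hK
  obtain ⟨p, rfl, h1, -⟩ := mem_Sing.mp hK
  rw [Finset.mem_powerset, Finset.singleton_subset_iff, mem_UX]; exact h1

/-- lower bound for the least prime of a crossing set -/
lemma Cr_facts_low {D : ℝ} {K : Finset PrP} (hCr : Cr PrP.N D K) :
    nK K ≤ nm (mn K).1 * D := by
  obtain ⟨hne, hlt, -⟩ := Cr_iff.mp hCr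
  rw [← nK_erase (mn_mem hne)]
  have := one_le_nm (mn K)
  exact mul_le_mul_of_nonneg_left hlt.le (by linarith)

open Classical in
/-- sum over primes as a sum over singletons -/
lemma sum_Sing (X : ℕ) (u v : ℝ) (g : Finset PrP → ℂ) :
    ∑ T ∈ Sing X u v, g T =
      ∑ p ∈ (UX X).filter (fun p => u ≤ (nm p.1 : ℝ) ∧ (nm p.1 : ℝ) ≤ v), g {p} := by
  unfold Sing
  rw [Finset.sum_image (fun a _ b _ hab => Finset.singleton_injective hab)]

/-- Type II hypothesis for fixed `X`, non-critical -/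
def H1 (l : ℤ) (X : ℕ) (D x2 E : ℝ) : Prop := ∀ α β : Finset PrP → ℂ, (∀ S, ‖α S‖ ≤ 1) → SWc β →
  (∀ T, β T ≠ 0 → T.Nonempty ∧ (∀ p ∈ T, wX X ≤ nm p.1) ∧
    D ≤ nm (prd T) ∧ (nm (prd T) : ℝ) ≤ x2) → ‖Bil l X α β‖ ≤ E

/-- Type II hypothesis for fixed `X`, critical -/
def H2 (l : ℤ) (X : ℕ) (c x2 V E : ℝ) : Prop := ∀ α β : Finset PrP → ℂ, (∀ S, ‖α S‖ ≤ 1) →
  SWc β → (∀ T, β T ≠ 0 → 2 ≤ T.card ∧ (∀ p ∈ T, c ≤ nm p.1) ∧
    x2 ≤ nm (prd T) ∧ (nm (prd T) : ℝ) ≤ V) → ‖Bil l X α β‖ ≤ E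

open Classical in
/-- near half for fixed `X` -/
def H3 (l : ℤ) (X : ℕ) (x2 V E : ℝ) : Prop := ∀ (α : Finset PrP → ℂ) (V₁ V₂ : ℝ),
  (∀ S, ‖α S‖ ≤ 1) → x2 ≤ V₁ → V₂ ≤ V →
  ‖∑ S ∈ (UX X).powerset, ∑ p ∈ (UX X).filter (fun p => V₁ ≤ nm p.1 ∧ (nm p.1 : ℝ) ≤ V₂),
    α S * FX l X (prd S * p.1)‖ ≤ E

open Classical in
lemma useP {l : ℤ} {X : ℕ} {D V x2 E1 E3 : ℝ} (hx20 : 0 ≤ x2) (hw1 : wX X ≤ D)
    (h1 : H1 l X D x2 E1) (h3 : H3 l X x2 V E3) (V' : ℝ) (hV' : V' ≤ V) (α : Eis → ℂ)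
    (hα : ∀ a, ‖α a‖ ≤ 1) :
    ‖∑ p ∈ PV X D V', ∑ a ∈ primBall X, α a * FX l X (p.1 * a)‖ ≤ E1 + E3 := by
  have e1 : ∑ p ∈ PV X D V', ∑ a ∈ primBall X, α a * FX l X (p.1 * a) =
      ∑ p ∈ (UX X).filter (fun p => D ≤ (nm p.1 : ℝ) ∧ (nm p.1 : ℝ) ≤ min V' x2),
        ∑ a ∈ primBall X, α a * FX l X (prd {p} * a) +
      ∑ p ∈ (UX X).filter (fun p => max D ((⌊x2⌋₊ + 1 : ℕ) : ℝ) ≤ (nm p.1 : ℝ) ∧
        (nm p.1 : ℝ) ≤ V'), ∑ a ∈ primBall X, α a * FX l X (prd {p} * a) := by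
    simp only [prd_singleton]
    unfold PV
    rw [← Finset.sum_filter_add_sum_filter_not ((UX X).filter _)
      (fun p => (nm p.1 : ℝ) ≤ x2), Finset.filter_filter, Finset.filter_filter]
    refine congrArg₂ (· + ·) (Finset.sum_congr (Finset.filter_congr fun p _ => ?_) fun _ _ => rfl)
      (Finset.sum_congr (Finset.filter_congr fun p _ => ?_) fun _ _ => rfl)
    · rw [le_min_iff]; tauto
    · have h5 : ¬ (nm p.1 : ℝ) ≤ x2 ↔ ((⌊x2⌋₊ + 1 : ℕ) : ℝ) ≤ (nm p.1 : ℝ) := by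
        rw [not_le, Nat.cast_le, Nat.succ_le_iff, Nat.floor_lt hx20]
      rw [h5, max_le_iff]; tauto
  rw [e1]
  refine (norm_add_le _ _).trans (add_le_add ?_ ?_)
  · have e2 := sum_Sing X D (min V' x2)
      (fun T => (1 : ℂ) * ∑ a ∈ primBall X, α a * FX l X (prd T * a))
    simp only [one_mul] at e2
    rw [← e2]
    have e3 := bil_eq_set l X α (Sing X D (min V' x2)) Sing_subset (fun _ => 1)
    simp only [one_mul] at e3
    rw [e3]
    refine h1 _ _ (fun S => hα _) (swc_P X D (min V' x2)) ?_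
    intro T hT
    have hT' : T ∈ Sing X D (min V' x2) := by
      by_contra hc; exact hT (if_neg hc)
    obtain ⟨p, rfl, k1, k2, k3⟩ := mem_Sing.mp hT'
    rw [prd_singleton]
    refine ⟨Finset.singleton_nonempty p, ?_, k2, k3.trans (min_le_right _ _)⟩
    intro q hq
    rw [Finset.mem_singleton] at hq
    rw [hq]; exact hw1.trans k2
  · have e4 : ∑ p ∈ (UX X).filter (fun p => max D ((⌊x2⌋₊ + 1 : ℕ) : ℝ) ≤ (nm p.1 : ℝ) ∧
        (nm p.1 : ℝ) ≤ V'), ∑ a ∈ primBall X, α a * FX l X (prd {p} * a) =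
        ∑ S ∈ (UX X).powerset, ∑ p ∈ (UX X).filter (fun p =>
          max D ((⌊x2⌋₊ + 1 : ℕ) : ℝ) ≤ (nm p.1 : ℝ) ∧ (nm p.1 : ℝ) ≤ V'),
            α (prd S) * FX l X (prd S * p.1) := by
      refine Eq.trans (Finset.sum_congr rfl fun p _ => ?_) Finset.sum_comm
      rw [inner_eq, prd_singleton]
    rw [e4]
    refine h3 (fun S => α (prd S)) _ V' (fun S => hα _) ?_ hV'
    refine le_trans ?_ (le_max_right _ _)
    push_cast
    exact (Nat.lt_floor_add_one x2).le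

open Classical in
lemma useR {l : ℤ} {X : ℕ} {D V x2 c E1 E2 : ℝ} (hD0 : 0 < D) (hcD : c * D ≤ x2)
    (h1 : H1 l X D x2 E1) (h2 : H2 l X c x2 V E2) (φ : PrP → ℂ) (α : Eis → ℂ)
    (hφ : ∀ p, ‖φ p‖ ≤ 1) (hα : ∀ a, ‖α a‖ ≤ 1) :
    ‖∑ T ∈ Rset X (wX X) D V, (-1 : ℂ) ^ T.card * φ (mn T) *
      ∑ a ∈ primBall X, α a * FX l X (prd T * a)‖ ≤ E1 + E2 := by
  have e1 : ∑ T ∈ Rset X (wX X) D V, (-1 : ℂ) ^ T.card * φ (mn T) *
        ∑ a ∈ primBall X, α a * FX l X (prd T * a) =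
      ∑ T ∈ (Rset X (wX X) D V).filter (fun K => 0 < nK K ∧ nK K ≤ x2),
        (-1 : ℂ) ^ T.card * φ (mn T) * ∑ a ∈ primBall X, α a * FX l X (prd T * a) +
      ∑ T ∈ (Rset X (wX X) D V).filter (fun K => x2 < nK K ∧ nK K ≤ V),
        (-1 : ℂ) ^ T.card * φ (mn T) * ∑ a ∈ primBall X, α a * FX l X (prd T * a) := by
    rw [← Finset.sum_filter_add_sum_filter_not (Rset X (wX X) D V) (fun K => nK K ≤ x2)]
    refine congrArg₂ (· + ·) (Finset.sum_congr (Finset.filter_congr fun K _ => ?_) fun _ _ => rfl)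
      (Finset.sum_congr (Finset.filter_congr fun K hK => ?_) fun _ _ => rfl)
    · exact ⟨fun h => ⟨nK_pos K, h⟩, fun h => h.2⟩
    · rw [not_le]; exact ⟨fun h => ⟨h, (mem_Rset.mp hK).2.2.2.2⟩, fun h => h.1⟩
  rw [e1]
  refine (norm_add_le _ _).trans (add_le_add ?_ ?_)
  · rw [bil_eq_set l X α _ ((Finset.filter_subset _ _).trans Rset_subset)
      (fun T => (-1 : ℂ) ^ T.card * φ (mn T))]
    refine h1 _ _ (fun S => hα _) (swc_R X (wX X) D V 0 x2 φ hφ) ?_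
    intro T hT
    have hT' : T ∈ (Rset X (wX X) D V).filter (fun K => 0 < nK K ∧ nK K ≤ x2) := by
      by_contra hc; exact hT (if_neg hc)
    rw [Finset.mem_filter, mem_Rset] at hT'
    obtain ⟨⟨k1, k2, k3, k4, k5⟩, k6, k7⟩ := hT'
    refine ⟨?_, k3, ?_, k7⟩
    · rw [← Finset.card_pos]; omega
    · exact (Cr_iff.mp k4).2.2
  · rw [bil_eq_set l X α _ ((Finset.filter_subset _ _).trans Rset_subset)
      (fun T => (-1 : ℂ) ^ T.card * φ (mn T))]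
    refine h2 _ _ (fun S => hα _) (swc_R X (wX X) D V x2 V φ hφ) ?_
    intro T hT
    have hT' : T ∈ (Rset X (wX X) D V).filter (fun K => x2 < nK K ∧ nK K ≤ V) := by
      by_contra hc; exact hT (if_neg hc)
    rw [Finset.mem_filter, mem_Rset] at hT'
    obtain ⟨⟨k1, k2, k3, k4, k5⟩, k6, k7⟩ := hT'
    refine ⟨k2, ?_, k6.le, k7⟩
    intro p hp
    have h5 : (nm (mn T).1 : ℝ) ≤ nm p.1 := by exact_mod_cast PrP.nm_le_of_le (mn_le hp)
    have h6 : nK T ≤ nm (mn T).1 * D := Cr_facts_low k4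
    have h7 : c * D ≤ nm (mn T).1 * D := hcD.trans (k6.le.trans h6)
    exact (le_of_mul_le_mul_right h7 hD0).trans h5

open Classical in
lemma useC {l : ℤ} {X : ℕ} {D V x2 E1 : ℝ} (hD0 : 0 < D) (hV0 : 0 < V) (hVx2 : V * x2 = X)
    (hw2 : wX X * D ≤ V) (h1 : H1 l X D x2 E1) (φ : PrP → ℂ) (α : Eis → ℂ)
    (hφ : ∀ p, ‖φ p‖ ≤ 1) (hα : ∀ a, ‖α a‖ ≤ 1) :
    ‖∑ T ∈ Cset X D V, φ (mn T) * ∑ a ∈ primBall X, α a * FX l X (prd T * a)‖ ≤ E1 := by
  rw [bil_eq_set l X α _ Cset_subset (fun T => φ (mn T))]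
  refine h1 _ _ (fun S => hα _) (swc_C X D V hV0 φ hφ) ?_
  intro T hT
  have hT' : T ∈ Cset X D V := by
    by_contra hc; exact hT (if_neg hc)
  obtain ⟨k1, k2, k3, k4, k5⟩ := mem_Cset.mp hT'
  refine ⟨?_, ?_, k4, ?_⟩
  · rw [← Finset.card_pos]; omega
  · intro p hp
    refine le_trans ?_ (k3 p hp)
    rw [le_div_iff₀ hD0]; exact hw2
  · have h5 : V * nK T ≤ V * x2 := by rw [hVx2]; exact k5
    exact le_of_mul_le_mul_left h5 hV0

lemma const_le {K K' u : ℝ} {A : ℝ} (h : K ≤ K') (hu : 0 ≤ u) (hA : 0 ≤ A) :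
    K * u / A ≤ K' * u / A := by gcongr

open Classical Filter in
/-- **the adapters** -/
theorem adapters (hII : TII_Prop) (hIIc : TIIc_Prop) (hSNH : SNH_Prop) (hE : Edge_Prop) (l : ℤ)
    (A : ℕ) : ∃ (η C0 K : ℝ) (X0 : ℕ), 0 < η ∧ η ≤ 1 / 100 ∧ 1 ≤ C0 ∧ ∀ X : ℕ, X0 ≤ X →
    (∀ V' : ℝ, V' ≤ (X : ℝ) ^ (1 / 2 + η) → ∀ α : Eis → ℂ, (∀ a, ‖α a‖ ≤ 1) →
      ‖∑ p ∈ PV X ((X : ℝ) ^ ((1 : ℝ) / 3) * LX X ^ C0) V', ∑ a ∈ primBall X,
        α a * FX l X (p.1 * a)‖ ≤ K * (X : ℝ) ^ ((5 : ℝ) / 6) / LX X ^ A) ∧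
    (∀ (φ : PrP → ℂ) (α : Eis → ℂ), (∀ p, ‖φ p‖ ≤ 1) → (∀ a, ‖α a‖ ≤ 1) →
      ‖∑ T ∈ Rset X (wX X) ((X : ℝ) ^ ((1 : ℝ) / 3) * LX X ^ C0) ((X : ℝ) ^ (1 / 2 + η)),
        (-1 : ℂ) ^ T.card * φ (mn T) * ∑ a ∈ primBall X, α a * FX l X (prd T * a)‖ ≤
          K * (X : ℝ) ^ ((5 : ℝ) / 6) / LX X ^ A) ∧
    (∀ (φ : PrP → ℂ) (α : Eis → ℂ), (∀ p, ‖φ p‖ ≤ 1) → (∀ a, ‖α a‖ ≤ 1) →
      ‖∑ T ∈ Cset X ((X : ℝ) ^ ((1 : ℝ) / 3) * LX X ^ C0) ((X : ℝ) ^ (1 / 2 + η)),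
        φ (mn T) * ∑ a ∈ primBall X, α a * FX l X (prd T * a)‖ ≤
          K * (X : ℝ) ^ ((5 : ℝ) / 6) / LX X ^ A) ∧
    ‖∑ p ∈ PD X ((X : ℝ) ^ ((1 : ℝ) / 3) * LX X ^ C0),
      ∑ q ∈ PD X ((X : ℝ) ^ ((1 : ℝ) / 3) * LX X ^ C0),
      ∑ r ∈ PD X ((X : ℝ) ^ ((1 : ℝ) / 3) * LX X ^ C0), FX l X (p.1 * q.1 * r.1)‖ ≤
        K * (X : ℝ) ^ ((5 : ℝ) / 6) / LX X ^ ((5 : ℝ) / 4) := by
  obtain ⟨ηc, hηc, hc⟩ := hIIc
  obtain ⟨ηs, hηs, hs⟩ := hSNH
  set η := min (min ηc ηs) (1 / 100) with hηdef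
  have hη : 0 < η := lt_min (lt_min hηc hηs) (by norm_num)
  have hη1 : η ≤ 1 / 100 := min_le_right _ _
  have hηc' : η ≤ ηc := (min_le_left _ _).trans (min_le_left _ _)
  have hηs' : η ≤ ηs := (min_le_left _ _).trans (min_le_right _ _)
  obtain ⟨C1, K1, X1, h1⟩ := hII l A η hη
  obtain ⟨K2, X2, h2⟩ := hc l A
  obtain ⟨K3, X3, h3⟩ := hs l A
  set C0 := max C1 1 with hC0
  obtain ⟨K4, X4, h4⟩ := hE l C0
  set K := |K1| + |K2| + |K3| + |K4| with hK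
  have ev : ∀ᶠ X : ℕ in atTop, X1 ≤ X ∧ X2 ≤ X ∧ X3 ≤ X ∧ X4 ≤ X ∧ 1 ≤ X ∧ 1 ≤ LX X ∧
      (X : ℝ) ^ ((1 : ℝ) / 3 + 0.06) * LX X ^ C0 ≤ (X : ℝ) ^ (1 / 2 - η) ∧
      (X : ℝ) ^ ((1 : ℝ) / 3 + 0.06) * LX X ^ C0 ≤ (X : ℝ) ^ (1 / 2 + η) ∧
      wX X ≤ (X : ℝ) ^ (0.06 : ℝ) := by
    filter_upwards [eventually_ge_atTop X1, eventually_ge_atTop X2, eventually_ge_atTop X3,
      eventually_ge_atTop X4, eventually_ge_atTop 1, ev_LX 1,
      ev_pow (a := (1 : ℝ) / 3 + 0.06) (b := 1 / 2 - η) (by norm_num at hη1 ⊢; linarith) C0,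
      ev_pow (a := (1 : ℝ) / 3 + 0.06) (b := 1 / 2 + η) (by norm_num at hη1 ⊢; linarith) C0,
      ev_wX (e := 0.06) (by norm_num)]
      with X a1 a2 a3 a4 a5 a6 a7 a8 a9
    exact ⟨a1, a2, a3, a4, a5, a6, a7, a8, a9⟩
  obtain ⟨X0, hX0⟩ := eventually_atTop.mp ev
  refine ⟨η, C0, K, X0, hη, hη1, le_max_right _ _, fun X hX => ?_⟩
  obtain ⟨a1, a2, a3, a4, a5, a6, a7, a8, a9⟩ := hX0 X hX
  have hXpos : (0 : ℝ) < X := by exact_mod_cast a5
  have hX1 : (1 : ℝ) ≤ X := by exact_mod_cast a5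
  have hL0 : 0 < LX X := by linarith
  set D : ℝ := (X : ℝ) ^ ((1 : ℝ) / 3) * LX X ^ C0 with hDdef
  set V : ℝ := (X : ℝ) ^ (1 / 2 + η) with hVdef
  set x2 : ℝ := (X : ℝ) ^ (1 / 2 - η) with hx2def
  set M : ℝ := (X : ℝ) ^ ((5 : ℝ) / 6) with hM
  have hM0 : 0 ≤ M := by positivity
  have hLA : 0 ≤ LX X ^ A := by positivity
  have hD0 : 0 < D := by positivity
  have hV0 : 0 < V := by positivity
  have hx20 : 0 < x2 := by positivity
  have hVx2 : V * x2 = X := by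
    rw [hVdef, hx2def, ← Real.rpow_add hXpos, (by ring : 1 / 2 + η + (1 / 2 - η) = 1),
      Real.rpow_one]
  have hLC : 1 ≤ LX X ^ C0 := Real.one_le_rpow a6 (by linarith [le_max_right C1 (1 : ℝ)])
  have hDsplit : (X : ℝ) ^ ((1 : ℝ) / 3 + 0.06) * LX X ^ C0 = (X : ℝ) ^ (0.06 : ℝ) * D := by
    rw [hDdef, Real.rpow_add hXpos]; ring
  have hcD : (X : ℝ) ^ (0.06 : ℝ) * D ≤ x2 := by rw [← hDsplit]; exact a7
  have hw1 : wX X ≤ D := by
    have h5 : (X : ℝ) ^ (0.06 : ℝ) ≤ (X : ℝ) ^ ((1 : ℝ) / 3) :=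
      Real.rpow_le_rpow_of_exponent_le hX1 (by norm_num)
    have h6 : (X : ℝ) ^ ((1 : ℝ) / 3) ≤ D := by
      rw [hDdef]; exact le_mul_of_one_le_right (by positivity) hLC
    linarith
  have hw2 : wX X * D ≤ V := by
    have h5 : wX X * D ≤ (X : ℝ) ^ (0.06 : ℝ) * D := mul_le_mul_of_nonneg_right a9 hD0.le
    rw [hDsplit] at a8
    linarith
  have H1' : H1 l X D x2 (K1 * M / LX X ^ A) := by
    intro α β hα hβ hsupp
    refine h1 X a1 α β hα hβ fun T hT => ?_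
    obtain ⟨k1, k2, k3, k4⟩ := hsupp T hT
    refine ⟨k1, k2, le_trans ?_ k3, k4⟩
    rw [hDdef]
    exact mul_le_mul_of_nonneg_left (Real.rpow_le_rpow_of_exponent_le a6 (le_max_left _ _))
      (by positivity)
  have H2' : H2 l X ((X : ℝ) ^ (0.06 : ℝ)) x2 V (K2 * M / LX X ^ A) := by
    intro α β hα hβ hsupp
    refine h2 X a2 α β hα hβ fun T hT => ?_
    obtain ⟨k1, k2, k3, k4⟩ := hsupp T hT
    refine ⟨k1, k2, le_trans ?_ k3, k4.trans ?_⟩
    · exact Real.rpow_le_rpow_of_exponent_le hX1 (by linarith)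
    · exact Real.rpow_le_rpow_of_exponent_le hX1 (by linarith)
  have H3' : H3 l X x2 V (K3 * M / LX X ^ A) := by
    intro α V₁ V₂ hα hV1 hV2
    refine h3 X a3 α V₁ V₂ hα (le_trans ?_ hV1) (hV2.trans ?_)
    · exact Real.rpow_le_rpow_of_exponent_le hX1 (by linarith)
    · exact Real.rpow_le_rpow_of_exponent_le hX1 (by linarith)
  have n1 := abs_nonneg K1
  have n2 := abs_nonneg K2
  have n3 := abs_nonneg K3
  have n4 := abs_nonneg K4
  have l1 := le_abs_self K1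
  have l2 := le_abs_self K2
  have l3 := le_abs_self K3
  have l4 := le_abs_self K4
  refine ⟨?_, ?_, ?_, ?_⟩
  · intro V' hV' α hα
    refine (useP hx20.le hw1 H1' H3' V' hV' α hα).trans ?_
    have : K1 * M / LX X ^ A + K3 * M / LX X ^ A = (K1 + K3) * M / LX X ^ A := by ring
    rw [this]
    exact const_le (by linarith) hM0 hLA
  · intro φ α hφ hα
    refine (useR hD0 hcD H1' H2' φ α hφ hα).trans ?_
    have : K1 * M / LX X ^ A + K2 * M / LX X ^ A = (K1 + K2) * M / LX X ^ A := by ring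
    rw [this]
    exact const_le (by linarith) hM0 hLA
  · intro φ α hφ hα
    refine (useC hD0 hV0 hVx2 hw2 H1' φ α hφ hα).trans ?_
    exact const_le (by linarith) hM0 hLA
  · refine le_trans (h4 X a4) ?_
    exact const_le (by linarith) hM0 (by positivity)

end Crest.Agent.R012.SieveUse50
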