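import Crest.Agent.R012.SNH_Eng_828
import Crest.Agent.R012.PerronIx_828
import Crest.Agent.R012.Dens_420
import Crest.Agent.R012.SieveUse_50

/-!
# Row 12, item SNH (helper828): `CrPart_of : TIIx_Prop → CrPart`
-/

set_option autoImplicit false

noncomputable section

open Complex Filter Topology

namespace Crest.Agent.R012.NearHalf828

open Crest.Agent.R012 Eis Buch420 Main48 SNHEng828 Perron828

namespace Cr828

open Classical in
lemma mu_le_Rp {ι : Type} (I : Finset ι) (a : ι → Finset PrP) (α : ι → ℂ) (h : ∀ i ∈ I, ‖α i‖ ≤ 1) :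
    Mu I a α ≤ (Rp I a : ℝ) := by
  unfold Mu Rp
  have h1 : ((((I ×ˢ I).filter (fun p => a p.1 = a p.2)).card : ℕ) : ℝ) =
      ∑ i ∈ I, ∑ j ∈ I, if a i = a j then (1 : ℝ) else 0 := by
    rw [Finset.card_filter, Finset.sum_product]
    push_cast
    rfl
  have h2 : ∑ i ∈ I, ∑ j ∈ I, (if a i = a j then ‖α i‖ * ‖α j‖ else 0) ≤
      ∑ i ∈ I, ∑ j ∈ I, if a i = a j then (1 : ℝ) else 0 := by
    refine Finset.sum_le_sum fun i hi => Finset.sum_le_sum fun j hj => ?_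
    split_ifs
    · calc ‖α i‖ * ‖α j‖ ≤ 1 * 1 := mul_le_mul (h i hi) (h j hj) (norm_nonneg _) (by norm_num)
        _ = 1 := one_mul 1
    · exact le_rfl
  refine h2.trans (le_of_eq ?_)
  rw [← h1]

open Classical in
/-- `∑ 4^{ω(D)}` over squarefree `D` of norm `≤ Z`. -/
lemma sum_four (X : ℕ) (hX : 3 ≤ X) (DD : Finset (Finset PrP)) {Z : ℝ} (hZ : 0 ≤ Z)
    (h1 : ∀ D ∈ DD, D ⊆ UX X) (h2 : ∀ D ∈ DD, (nm (prd D) : ℝ) ≤ Z) :
    ∑ D ∈ DD, (4 : ℝ) ^ D.card ≤ Z * (Real.exp 300 * LX X ^ 8) := by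
  have h4c : (0 : ℝ) ≤ 4 := by norm_num
  have h3 := Dens420.sum_le_mul_sum_div h4c DD h2
  have hX3 : (3 : ℝ) ≤ X := by exact_mod_cast hX
  have hX2 : (2 : ℝ) ≤ X := by linarith
  have hp : ∀ D ∈ DD, ∀ p ∈ D, (nm p.1 : ℝ) ≤ X := by
    intro D hD p hp
    have := mem_UX.mp (h1 D hD hp)
    exact_mod_cast this
  have h4 := Dens420.sum_omega_div h4c hX2 DD hp
  have hL : 0 < Real.log X := Real.log_pos (by linarith)
  have e : (4 : ℝ) * (2 * Real.log (Real.log X) + 75) = 300 + 8 * Real.log (Real.log X) := by ring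
  rw [e, Real.exp_add] at h4
  have e8 : Real.exp (8 * Real.log (Real.log X)) = Real.log X ^ 8 := by
    have : (8 : ℝ) * Real.log (Real.log X) = ((8 : ℕ) : ℝ) * Real.log (Real.log X) := by norm_num
    rw [this, Real.exp_nat_mul, Real.exp_log hL]
  rw [e8] at h4
  exact h3.trans (mul_le_mul_of_nonneg_left h4 hZ)

open Classical in
/-- fibre count -/
lemma fibre_le {X : ℕ} {GG : Finset (Finset PrP)} (I : Finset (Finset PrP × Finset PrP))
    (hI : I ⊆ IxS X GG) (D : Finset PrP) :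
    ((I.filter (fun i => i.1 ∪ i.2 = D)).card : ℝ) ^ 2 ≤ (4 : ℝ) ^ D.card := by
  have h1 : (I.filter (fun i => i.1 ∪ i.2 = D)).card ≤ 2 ^ D.card := by
    rw [← Finset.card_powerset]
    refine Finset.card_le_card_of_injOn (fun i => i.2) ?_ ?_
    · intro i hi
      rw [Finset.mem_coe, Finset.mem_filter] at hi
      rw [Finset.mem_coe, Finset.mem_powerset, ← hi.2]
      exact Finset.subset_union_right
    · intro i hi j hj hij
      rw [Finset.mem_coe, Finset.mem_filter] at hi hj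
      have hdi : Disjoint i.1 i.2 := by
        have := hI hi.1
        rw [IxS, Finset.mem_filter] at this
        exact this.2
      have hdj : Disjoint j.1 j.2 := by
        have := hI hj.1
        rw [IxS, Finset.mem_filter] at this
        exact this.2
      have e1 : i.1 = D \ i.2 := by
        rw [← hi.2, Finset.union_sdiff_cancel_right hdi]
      have e2 : j.1 = D \ j.2 := by
        rw [← hj.2, Finset.union_sdiff_cancel_right hdj]
      have hij' : i.2 = j.2 := hij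
      exact Prod.ext (by rw [e1, e2, hij']) hij'
  have h2 : ((I.filter (fun i => i.1 ∪ i.2 = D)).card : ℝ) ≤ 2 ^ D.card := by exact_mod_cast h1
  have h3 : ((2 : ℝ) ^ D.card) ^ 2 = 4 ^ D.card := by
    rw [← pow_mul, mul_comm, pow_mul]; norm_num
  rw [← h3]
  exact pow_le_pow_left₀ (Nat.cast_nonneg _) h2 2

open Classical in
/-- The bound for `Mu` : index `(S, G)` disjoint, `a = S ∪ G`, `N(a) ≤ Z`. -/
lemma mu_bound {X : ℕ} (hX : 3 ≤ X) (GG : Finset (Finset PrP)) (hGG : ∀ G ∈ GG, G ⊆ UX X)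
    {Z : ℝ} (hZ : 0 ≤ Z) (α : Finset PrP × Finset PrP → ℂ) (hα : ∀ i, ‖α i‖ ≤ 1) :
    Mu ((IxS X GG).filter (fun i => (nm (prd (i.1 ∪ i.2)) : ℝ) ≤ Z)) (fun i => i.1 ∪ i.2) α ≤
      Z * (Real.exp 300 * LX X ^ 8) := by
  obtain ⟨I, hI⟩ : ∃ I, I = (IxS X GG).filter (fun i => (nm (prd (i.1 ∪ i.2)) : ℝ) ≤ Z) := ⟨_, rfl⟩
  obtain ⟨DD, hDD⟩ : ∃ DD, DD = (UX X).powerset.filter (fun D => (nm (prd D) : ℝ) ≤ Z) := ⟨_, rfl⟩
  rw [← hI]
  have hmem : ∀ i ∈ I, i.1 ∪ i.2 ∈ DD := by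
    intro i hi
    rw [hI, Finset.mem_filter, IxS, Finset.mem_filter, Finset.mem_product] at hi
    rw [hDD, Finset.mem_filter, Finset.mem_powerset]
    exact ⟨Finset.union_subset (Finset.mem_powerset.mp hi.1.1.1) (hGG _ hi.1.1.2), hi.2⟩
  have hsub : I ⊆ IxS X GG := by rw [hI]; exact Finset.filter_subset _ _
  refine (mu_le_Rp I _ α fun i _ => hα i).trans ?_
  rw [Rp_eq I (fun i => i.1 ∪ i.2) DD hmem]
  refine (Finset.sum_le_sum fun D _ => fibre_le I hsub D).trans ?_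
  refine sum_four X hX DD hZ ?_ ?_
  · intro D hD
    rw [hDD, Finset.mem_filter, Finset.mem_powerset] at hD
    exact hD.1
  · intro D hD
    rw [hDD, Finset.mem_filter] at hD
    exact hD.2

lemma numeric1 {X L B M K : ℝ} {A' : ℕ} (hX : 0 < X) (hL : 0 < L) (hB : 1 ≤ B)
    (hM : M ≤ X / B * (Real.exp 300 * L ^ 8)) :
    K * X ^ ((1 : ℝ) / 3) * Real.sqrt B * Real.sqrt M / L ^ A' ≤
      |K| * Real.exp 150 * X ^ ((5 : ℝ) / 6) * L ^ 4 / L ^ A' := by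
  have hB0 : 0 < B := by linarith
  have h3 : Real.sqrt B * Real.sqrt M ≤ X ^ ((1 : ℝ) / 2) * (Real.exp 150 * L ^ 4) := by
    rw [← Real.sqrt_mul hB0.le, ← Real.sqrt_eq_rpow]
    have e1 : Real.exp 150 * L ^ 4 = Real.sqrt ((Real.exp 150 * L ^ 4) ^ 2) :=
      (Real.sqrt_sq (by positivity)).symm
    rw [e1, ← Real.sqrt_mul hX.le]
    apply Real.sqrt_le_sqrt
    have e2 : (Real.exp 150 * L ^ 4) ^ 2 = Real.exp 300 * L ^ 8 := by
      have : Real.exp 300 = Real.exp 150 ^ 2 := by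
        rw [← Real.exp_nat_mul]; norm_num
      rw [this]; ring
    rw [e2]
    calc B * M ≤ B * (X / B * (Real.exp 300 * L ^ 8)) :=
          mul_le_mul_of_nonneg_left hM hB0.le
      _ = X * (Real.exp 300 * L ^ 8) := by
          field_simp
  have e3 : X ^ ((5 : ℝ) / 6) = X ^ ((1 : ℝ) / 3) * X ^ ((1 : ℝ) / 2) := by
    rw [← Real.rpow_add hX]; norm_num
  rw [e3]
  apply div_le_div_of_nonneg_right _ (by positivity)
  have hm : 0 ≤ X ^ ((1 : ℝ) / 3) := by positivity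
  have hR0 : 0 ≤ Real.sqrt B * Real.sqrt M := by positivity
  calc K * X ^ ((1 : ℝ) / 3) * Real.sqrt B * Real.sqrt M
      = K * (X ^ ((1 : ℝ) / 3) * (Real.sqrt B * Real.sqrt M)) := by ring
    _ ≤ |K| * (X ^ ((1 : ℝ) / 3) * (Real.sqrt B * Real.sqrt M)) :=
        mul_le_mul_of_nonneg_right (le_abs_self K) (mul_nonneg hm hR0)
    _ ≤ |K| * (X ^ ((1 : ℝ) / 3) * (X ^ ((1 : ℝ) / 2) * (Real.exp 150 * L ^ 4))) :=
        mul_le_mul_of_nonneg_left (mul_le_mul_of_nonneg_left h3 hm) (abs_nonneg K)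
    _ = _ := by ring

open Classical in
/-- consequence of `TIIx_Prop` for the index sets `IxS X GG`. -/
lemma tii_use {l : ℤ} {X : ℕ} {K : ℝ} {A' : ℕ} (hX : 3 ≤ X) {B : ℝ} (hB : 1 ≤ B)
    {β : Finset PrP → ℂ}
    (hT : ∀ (ι : Type) (I : Finset ι) (a : ι → Finset PrP) (g : ι → ℝ) (α : ι → ℂ),
      (∀ i ∈ I, (nm (prd (a i)) : ℝ) ≤ X / B) →
      ‖Ix l X I a g α β‖ ≤
        K * (X : ℝ) ^ ((1 : ℝ) / 3) * Real.sqrt B * Real.sqrt (Mu I a α) / LX X ^ A')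
    (GG : Finset (Finset PrP)) (hGG : ∀ G ∈ GG, G ⊆ UX X)
    (α' : Finset PrP × Finset PrP → ℂ) (hα' : ∀ i, ‖α' i‖ ≤ 1)
    (g : Finset PrP × Finset PrP → ℝ) :
    ‖Ix l X ((IxS X GG).filter (fun i => (nm (prd (i.1 ∪ i.2)) : ℝ) ≤ X / B))
      (fun i => i.1 ∪ i.2) g α' β‖ ≤
      |K| * Real.exp 150 * (X : ℝ) ^ ((5 : ℝ) / 6) * LX X ^ 4 / LX X ^ A' := by
  have hX3 : (3 : ℝ) ≤ X := by exact_mod_cast hX
  have hX0 : (0 : ℝ) < X := by linarith
  have hL : 0 < LX X := by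
    unfold LX
    exact Real.log_pos (by linarith)
  have hZ : (0 : ℝ) ≤ X / B := div_nonneg hX0.le (by linarith)
  have h2 := mu_bound hX GG hGG hZ α' hα'
  obtain ⟨I, hI⟩ : ∃ I, I = (IxS X GG).filter (fun i => (nm (prd (i.1 ∪ i.2)) : ℝ) ≤ X / B) :=
    ⟨_, rfl⟩
  rw [← hI] at h2 ⊢
  have h3 : ∀ i ∈ I, (nm (prd (i.1 ∪ i.2)) : ℝ) ≤ X / B := by
    intro i hi
    rw [hI, Finset.mem_filter] at hi
    exact hi.2
  have h1 := hT _ I (fun i => i.1 ∪ i.2) g α' h3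
  refine le_trans h1 ?_
  exact numeric1 hX0 hL hB h2

/-! ### The two classes -/

open Classical in
/-- primes -/
def lam1 (X : ℕ) (T : Finset PrP) : ℂ :=
  if T.card = 1 ∧ ∀ p ∈ T, ¬ (nm p.1 : ℝ) < wX X then 1 else 0

open Classical in
/-- composite rough numbers -/
def lam2 (X : ℕ) (T : Finset PrP) : ℂ :=
  if 2 ≤ T.card ∧ ∀ p ∈ T, ¬ (nm p.1 : ℝ) < wX X then 1 else 0

lemma ordConnected_aux (B s : ℝ) (hs : 0 < s) (q : ℕ → Prop) (hq : ∀ m n, m ≤ n → q m → q n) :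
    Set.OrdConnected {n : ℕ | q n ∧ B < s * n ∧ s * (n : ℝ) ≤ 2 * B} := by
  constructor
  rintro x ⟨hx1, hx2, -⟩ y ⟨-, -, hy3⟩ z ⟨hz1, hz2⟩
  have h1 : (x : ℝ) ≤ z := by exact_mod_cast hz1
  have h2 : (z : ℝ) ≤ y := by exact_mod_cast hz2
  refine ⟨hq _ _ hz1 hx1, ?_, ?_⟩
  · exact lt_of_lt_of_le hx2 (mul_le_mul_of_nonneg_left h1 hs.le)
  · exact (mul_le_mul_of_nonneg_left h2 hs.le).trans hy3

lemma bl_insert {B : ℝ} {T : Finset PrP} {p : PrP} (hp : ∀ q ∈ T, q < p) :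
    bl B (insert p T) ↔ B < (nm (prd T) : ℝ) * nm p.1 ∧ (nm (prd T) : ℝ) * nm p.1 ≤ 2 * B := by
  have hpT : p ∉ T := fun h => lt_irrefl _ (hp p h)
  unfold bl
  rw [prd_insert hpT, nm_mul]
  push_cast
  rw [mul_comm]

open Classical in
lemma swc1 (X : ℕ) (B : ℝ) (x : ℂ) (hx : ‖x‖ ≤ 1) :
    SWc (fun T => if bl B T then x * lam1 X T else 0) := by
  refine SieveUse50.swc_mk ?_ (fun T => if T = ∅ then x else 0) ?_
    (fun T => {n : ℕ | (wX X ≤ n) ∧ B < (nm (prd T) : ℝ) * n ∧ (nm (prd T) : ℝ) * n ≤ 2 * B})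
    ?_ ⌊2 * B⌋₊ ?_ ?_
  · intro T
    unfold lam1
    split_ifs <;> simp [hx]
  · intro T
    split_ifs <;> simp [hx]
  · intro T
    refine ordConnected_aux B _ (nm_prd_pos T) (fun n => wX X ≤ n) ?_
    intro m n hmn hm
    have : (m : ℝ) ≤ n := by exact_mod_cast hmn
    linarith
  · rintro T n ⟨-, -, h3⟩
    apply Nat.le_floor
    have h4 : (1 : ℝ) ≤ nm (prd T) := by exact_mod_cast nm_pos.mpr (prd_ne_zero T)
    have h5 : (0 : ℝ) ≤ n := Nat.cast_nonneg n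
    nlinarith
  · intro T p hp
    have hpT : p ∉ T := fun h => lt_irrefl _ (hp p h)
    constructor
    · rintro ⟨h1, h2⟩
      rw [if_pos ((bl_insert hp).mpr h2)]
      by_cases hT : T = ∅
      · subst hT
        rw [if_pos rfl]
        have : lam1 X (insert p ∅) = 1 := by
          unfold lam1
          rw [if_pos]
          refine ⟨by simp, ?_⟩
          intro q hq
          have : q = p := by simpa using hq
          rw [this]; exact not_lt.mpr h1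
        rw [this, mul_one]
      · rw [if_neg hT]
        have : lam1 X (insert p T) = 0 := by
          unfold lam1
          rw [if_neg]
          rintro ⟨h3, -⟩
          rw [Finset.card_insert_of_notMem hpT] at h3
          exact hT (Finset.card_eq_zero.mp (by omega))
        rw [this, mul_zero]
    · intro hn
      by_cases hb : bl B (insert p T)
      · rw [if_pos hb]
        have : lam1 X (insert p T) = 0 := by
          unfold lam1
          rw [if_neg]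
          rintro ⟨-, h3⟩
          apply hn
          exact ⟨not_lt.mp (h3 p (Finset.mem_insert_self p T)), (bl_insert hp).mp hb⟩
        rw [this, mul_zero]
      · rw [if_neg hb]

open Classical in
lemma swc2 (X : ℕ) (B : ℝ) (φ : ℕ → ℂ) (hφ : ∀ n, ‖φ n‖ ≤ 1) :
    SWc (fun T => if bl B T then φ (rkm X T) * lam2 X T else 0) := by
  refine SieveUse50.swc_mk ?_
    (fun T => if T.Nonempty ∧ ∀ p ∈ T, ¬ (nm p.1 : ℝ) < wX X then φ (rkm X T) else 0) ?_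
    (fun T => {n : ℕ | True ∧ B < (nm (prd T) : ℝ) * n ∧ (nm (prd T) : ℝ) * n ≤ 2 * B})
    ?_ ⌊2 * B⌋₊ ?_ ?_
  · intro T
    unfold lam2
    split_ifs <;> simp [hφ]
  · intro T
    split_ifs <;> simp [hφ]
  · intro T
    exact ordConnected_aux B _ (nm_prd_pos T) (fun _ => True) (fun _ _ _ _ => trivial)
  · rintro T n ⟨-, -, h3⟩
    apply Nat.le_floor
    have h4 : (1 : ℝ) ≤ nm (prd T) := by exact_mod_cast nm_pos.mpr (prd_ne_zero T)
    have h5 : (0 : ℝ) ≤ n := Nat.cast_nonneg n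
    nlinarith
  · intro T p hp
    have hpT : p ∉ T := fun h => lt_irrefl _ (hp p h)
    have key : lam2 X (insert p T) =
        if T.Nonempty ∧ ∀ q ∈ T, ¬ (nm q.1 : ℝ) < wX X then 1 else 0 := by
      unfold lam2
      have : (2 ≤ (insert p T).card ∧ ∀ q ∈ insert p T, ¬ (nm q.1 : ℝ) < wX X) ↔
          (T.Nonempty ∧ ∀ q ∈ T, ¬ (nm q.1 : ℝ) < wX X) := by
        rw [Finset.card_insert_of_notMem hpT]
        constructor
        · rintro ⟨h1, h2⟩
          exact ⟨Finset.card_pos.mp (by omega), fun q hq => h2 q (Finset.mem_insert_of_mem hq)⟩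
        · rintro ⟨h1, h2⟩
          refine ⟨by have := Finset.card_pos.mpr h1; omega, fun q hq => ?_⟩
          rcases Finset.mem_insert.mp hq with rfl | hq
          · obtain ⟨r, hr⟩ := h1
            have h3 := h2 r hr
            have h4 := PrP.nm_le_of_le (hp r hr).le
            have h5 : (nm r.1 : ℝ) ≤ nm q.1 := by exact_mod_cast h4
            push Not at h3 ⊢
            linarith
          · exact h2 q hq
      by_cases hc : T.Nonempty ∧ ∀ q ∈ T, ¬ (nm q.1 : ℝ) < wX X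
      · rw [if_pos hc, if_pos (this.mpr hc)]
      · rw [if_neg hc, if_neg (fun h => hc (this.mp h))]
    constructor
    · rintro ⟨-, h2⟩
      rw [if_pos ((bl_insert hp).mpr h2), key]
      by_cases hc : T.Nonempty ∧ ∀ q ∈ T, ¬ (nm q.1 : ℝ) < wX X
      · rw [if_pos hc, if_pos hc, rkm_insert hc.1 hp, mul_one]
      · rw [if_neg hc, if_neg hc, mul_zero]
    · intro hn
      rw [if_neg]
      intro hb
      exact hn ⟨trivial, (bl_insert hp).mp hb⟩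

/-! ### Elementary facts -/

lemma card_UX_le {X : ℕ} (hX : 1 ≤ X) : ((UX X).card : ℝ) ≤ 12 * X := by
  classical
  have h1 : ((UX X).image (fun p => p.1)).card = (UX X).card :=
    Finset.card_image_of_injective _ Subtype.val_injective
  rw [← h1]
  refine Dens420.card_nm_le (by exact_mod_cast hX) _ ?_
  intro z hz
  rw [Finset.mem_image] at hz
  obtain ⟨p, hp, rfl⟩ := hz
  exact_mod_cast mem_UX.mp hp

open Classical in
lemma cr_facts {X : ℕ} {G : Finset PrP}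
    (hG : G ∈ ((Uw X).filter (fun p => (nm p.1 : ℝ) < zX X)).powerset.filter
      (fun I => Cr PrP.N (D1 X) I)) :
    G ⊆ UX X ∧ G.Nonempty ∧ (∀ p ∈ G, (nm p.1 : ℝ) < zX X) ∧ D1 X ≤ nm (prd G) ∧
      (nm (prd G) : ℝ) < zX X * D1 X := by
  rw [Finset.mem_filter, Finset.mem_powerset] at hG
  obtain ⟨h1, hne, h2, h3⟩ := hG
  have hz : ∀ p ∈ G, (nm p.1 : ℝ) < zX X := fun p hp => (Finset.mem_filter.mp (h1 hp)).2
  refine ⟨?_, hne, hz, ?_, ?_⟩
  · intro p hp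
    have := (Finset.mem_filter.mp (h1 hp)).1
    unfold Uw at this
    exact (Finset.mem_filter.mp this).1
  · rw [← nu_eq]; exact h3
  · rw [← nu_eq]
    have hm := G.min'_mem hne
    have e : nu PrP.N G = PrP.N (G.min' hne) * nu PrP.N (G.erase (G.min' hne)) := by
      conv_lhs => rw [← Finset.insert_erase hm]
      rw [nu_insert _ (Finset.notMem_erase _ _)]
    rw [e]
    have h4 : PrP.N (G.min' hne) < zX X := hz _ hm
    have h5 : 0 < PrP.N (G.min' hne) := by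
      have := PrP.one_le_N (G.min' hne); linarith
    have h6 : 0 < nu PrP.N (G.erase (G.min' hne)) := nu_pos PrP.one_le_N _
    exact mul_lt_mul'' h4 h2 h5.le h6.le

open Classical in
/-- splitting of the inner sum into primes and composite numbers. -/
lemma split_T (l : ℤ) (X : ℕ) (α : Finset PrP → ℂ) (V₁ V₂ : ℝ) {G : Finset PrP}
    (hGX : G ⊆ UX X) (hne : G.Nonempty) (hz : ∀ p ∈ G, (nm p.1 : ℝ) < zX X)
    (hG2 : (nm (prd G) : ℝ) < zX X * D1 X) (hV1 : (nm (prd G) : ℝ) < V₁)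
    (hV2 : zX X * D1 X * zX X ≤ V₁) :
    ∑ T ∈ ((Uw X \ G).filter (fun p => Ab G p)).powerset, Fa l X α V₁ V₂ (G ∪ T) =
      ∑ T ∈ (UX X \ G).powerset,
        (if rkm X G < rkm X T then lam2 X T * Fa l X α V₁ V₂ (G ∪ T) else 0) +
      ∑ T ∈ (UX X \ G).powerset,
        (if (0 : ℕ) < 1 then lam1 X T * Fa l X α V₁ V₂ (G ∪ T) else 0) := by
  have hsub : ((Uw X \ G).filter (fun p => Ab G p)).powerset ⊆ (UX X \ G).powerset := by
    refine Finset.powerset_mono.mpr ?_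
    intro p hp
    rw [Finset.mem_filter, Finset.mem_sdiff] at hp
    rw [Finset.mem_sdiff]
    refine ⟨?_, hp.1.2⟩
    have := hp.1.1
    unfold Uw at this
    exact (Finset.mem_filter.mp this).1
  have h1 : ∑ T ∈ ((Uw X \ G).filter (fun p => Ab G p)).powerset, Fa l X α V₁ V₂ (G ∪ T) =
      ∑ T ∈ (UX X \ G).powerset, if T ∈ ((Uw X \ G).filter (fun p => Ab G p)).powerset then
        Fa l X α V₁ V₂ (G ∪ T) else 0 := by
    rw [← Finset.sum_filter]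
    refine Finset.sum_congr ?_ fun _ _ => rfl
    ext T
    rw [Finset.mem_filter]
    exact ⟨fun h => ⟨hsub h, h⟩, fun h => h.2⟩
  rw [h1, ← Finset.sum_add_distrib]
  refine Finset.sum_congr rfl fun T hT => ?_
  rw [Finset.mem_powerset] at hT
  have hmem : T ∈ ((Uw X \ G).filter (fun p => Ab G p)).powerset ↔
      (∀ p ∈ T, ¬ (nm p.1 : ℝ) < wX X) ∧ ∀ p ∈ T, Ab G p := by
    rw [Finset.mem_powerset]
    constructor
    · intro h
      refine ⟨fun p hp => ?_, fun p hp => (Finset.mem_filter.mp (h hp)).2⟩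
      have h2 := (Finset.mem_sdiff.mp (Finset.mem_filter.mp (h hp)).1).1
      unfold Uw at h2
      exact (Finset.mem_filter.mp h2).2
    · rintro ⟨h2, h3⟩ p hp
      have h4 := Finset.mem_sdiff.mp (hT hp)
      rw [Finset.mem_filter, Finset.mem_sdiff]
      refine ⟨⟨?_, h4.2⟩, h3 p hp⟩
      unfold Uw
      exact Finset.mem_filter.mpr ⟨h4.1, h2 p hp⟩
  rw [if_pos (by norm_num : (0 : ℕ) < 1)]
  have hdis : Disjoint G T := by
    rw [Finset.disjoint_left]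
    intro p hp hp'
    exact (Finset.mem_sdiff.mp (hT hp')).2 hp
  rcases Nat.lt_trichotomy T.card 1 with hc | hc | hc
  · -- empty
    have hT0 : T = ∅ := Finset.card_eq_zero.mp (by omega)
    subst hT0
    have hF : Fa l X α V₁ V₂ (G ∪ ∅) = 0 := by
      unfold Fa
      rw [if_neg]
      rintro ⟨h, -⟩
      rw [Finset.union_empty] at h
      exact absurd h (not_le.mpr hV1)
    rw [hF]; simp
  · -- one prime
    obtain ⟨p, rfl⟩ := Finset.card_eq_one.mp hc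
    have hl2 : lam2 X {p} = 0 := by
      unfold lam2
      rw [if_neg]
      rintro ⟨h, -⟩
      simp at h
    rw [hl2, zero_mul, ite_self, zero_add]
    by_cases hw : ¬ (nm p.1 : ℝ) < wX X
    · have hl1 : lam1 X {p} = 1 := by
        unfold lam1
        rw [if_pos]
        exact ⟨by simp, by simpa using hw⟩
      rw [hl1, one_mul]
      by_cases hF : Fa l X α V₁ V₂ (G ∪ {p}) = 0
      · rw [hF, ite_self]
      · rw [if_pos]
        rw [hmem]
        refine ⟨by simpa using hw, ?_⟩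
        intro q hq
        have hqp : q = p := by simpa using hq
        subst hqp
        have hV : V₁ ≤ nm (prd (G ∪ {q})) := by
          by_contra hcon
          apply hF
          unfold Fa
          rw [if_neg (fun h => hcon h.1)]
        rw [prd_union hdis, nm_mul, prd_singleton] at hV
        push_cast at hV
        refine ⟨G.min' hne, G.min'_mem hne, ?_⟩
        apply PrP.lt_of_nm_lt
        have h5 := hz _ (G.min'_mem hne)
        have h6 : zX X < nm q.1 := by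
          by_contra hcon
          push Not at hcon
          have h7 : (nm (prd G) : ℝ) * nm q.1 < zX X * D1 X * zX X := by
            have h8 : (0 : ℝ) < nm q.1 := by exact_mod_cast nm_pos.mpr q.ne_zero
            calc (nm (prd G) : ℝ) * nm q.1 < (zX X * D1 X) * nm q.1 :=
                  mul_lt_mul_of_pos_right hG2 h8
              _ ≤ (zX X * D1 X) * zX X :=
                  mul_le_mul_of_nonneg_left hcon (le_trans (nm_prd_pos G).le hG2.le)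
          linarith
        have h9 : (nm (G.min' hne).1 : ℝ) < nm q.1 := by linarith
        exact_mod_cast h9
    · have hl1 : lam1 X {p} = 0 := by
        unfold lam1
        rw [if_neg]
        rintro ⟨-, h⟩
        exact hw (h p (Finset.mem_singleton_self p))
      rw [hl1, zero_mul, if_neg]
      rw [hmem]
      rintro ⟨h, -⟩
      exact hw (h p (Finset.mem_singleton_self p))
  · -- at least two primes
    have hl1 : lam1 X T = 0 := by
      unfold lam1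
      rw [if_neg]
      rintro ⟨h, -⟩
      omega
    have hTne : T.Nonempty := Finset.card_pos.mp (by omega)
    rw [hl1, zero_mul, add_zero]
    by_cases hw : ∀ p ∈ T, ¬ (nm p.1 : ℝ) < wX X
    · have hl2 : lam2 X T = 1 := by
        unfold lam2
        rw [if_pos ⟨by omega, hw⟩]
      rw [hl2, one_mul]
      have : T ∈ ((Uw X \ G).filter (fun p => Ab G p)).powerset ↔ rkm X G < rkm X T := by
        rw [hmem, ← ab_iff hne hGX hTne]
        exact ⟨fun h => h.2, fun h => ⟨hw, h⟩⟩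
      by_cases hr : rkm X G < rkm X T
      · rw [if_pos hr, if_pos (this.mpr hr)]
      · rw [if_neg hr, if_neg (fun h => hr (this.mp h))]
    · have hl2 : lam2 X T = 0 := by
        unfold lam2
        rw [if_neg (fun h => hw h.2)]
      rw [hl2, zero_mul, ite_self, if_neg]
      rw [hmem]
      exact fun h => hw h.1

/-! ### Dyadic range -/

/-- number of dyadic blocks -/
def mX (X : ℕ) : ℕ := ⌊Real.logb 2 ((X : ℝ) ^ (0.075 : ℝ))⌋₊ + 1

lemma le_two_pow_mX {X : ℕ} (hX : 1 ≤ X) : (X : ℝ) ^ (0.075 : ℝ) ≤ 2 ^ mX X := by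
  have hX0 : (0 : ℝ) < X := by exact_mod_cast hX
  have h0 : 0 < (X : ℝ) ^ (0.075 : ℝ) := Real.rpow_pos_of_pos hX0 _
  have h1 : Real.logb 2 ((X : ℝ) ^ (0.075 : ℝ)) ≤ mX X := by
    unfold mX
    push_cast
    exact (Nat.lt_floor_add_one _).le
  calc (X : ℝ) ^ (0.075 : ℝ) = (2 : ℝ) ^ (Real.logb 2 ((X : ℝ) ^ (0.075 : ℝ))) :=
        (Real.rpow_logb (by norm_num) (by norm_num) h0).symm
    _ ≤ (2 : ℝ) ^ ((mX X : ℕ) : ℝ) := Real.rpow_le_rpow_of_exponent_le (by norm_num) h1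
    _ = 2 ^ mX X := Real.rpow_natCast _ _

lemma two_pow_le {X : ℕ} (hX : 1 ≤ X) {k : ℕ} (hk : k < mX X) : (2 : ℝ) ^ k ≤ (X : ℝ) ^ (0.075 : ℝ) := by
  have hX0 : (0 : ℝ) < X := by exact_mod_cast hX
  have hX1 : (1 : ℝ) ≤ X := by exact_mod_cast hX
  have h0 : 0 < (X : ℝ) ^ (0.075 : ℝ) := Real.rpow_pos_of_pos hX0 _
  have h00 : 1 ≤ (X : ℝ) ^ (0.075 : ℝ) := Real.one_le_rpow hX1 (by norm_num)
  have h1 : (k : ℝ) ≤ Real.logb 2 ((X : ℝ) ^ (0.075 : ℝ)) := by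
    have h2 : k ≤ ⌊Real.logb 2 ((X : ℝ) ^ (0.075 : ℝ))⌋₊ := by
      unfold mX at hk; omega
    have h3 : 0 ≤ Real.logb 2 ((X : ℝ) ^ (0.075 : ℝ)) := Real.logb_nonneg (by norm_num) h00
    exact le_trans (by exact_mod_cast h2) (Nat.floor_le h3)
  calc (2 : ℝ) ^ k = (2 : ℝ) ^ ((k : ℕ) : ℝ) := (Real.rpow_natCast _ _).symm
    _ ≤ (2 : ℝ) ^ (Real.logb 2 ((X : ℝ) ^ (0.075 : ℝ))) :=
        Real.rpow_le_rpow_of_exponent_le (by norm_num) h1
    _ = (X : ℝ) ^ (0.075 : ℝ) := Real.rpow_logb (by norm_num) (by norm_num) h0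

lemma mX_le {X : ℕ} (hX : 1 ≤ X) (hL : 1 ≤ LX X) : (mX X : ℝ) ≤ 2 * LX X := by
  have hX0 : (0 : ℝ) < X := by exact_mod_cast hX
  have hX1 : (1 : ℝ) ≤ X := by exact_mod_cast hX
  have h00 : 1 ≤ (X : ℝ) ^ (0.075 : ℝ) := Real.one_le_rpow hX1 (by norm_num)
  have h3 : 0 ≤ Real.logb 2 ((X : ℝ) ^ (0.075 : ℝ)) := Real.logb_nonneg (by norm_num) h00
  unfold mX
  push_cast
  have h4 := Nat.floor_le h3
  have h5 : Real.logb 2 ((X : ℝ) ^ (0.075 : ℝ)) ≤ LX X := by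
    unfold LX at hL ⊢
    rw [Real.logb, Real.log_rpow hX0, div_le_iff₀ (Real.log_pos (by norm_num))]
    have h6 : (0.5 : ℝ) ≤ Real.log 2 := by have := Real.log_two_gt_d9; linarith
    nlinarith
  linarith

lemma range_ok {X : ℕ} (hX : 3 ≤ X) {V₁ V₂ : ℝ} (hV1 : (X : ℝ) ^ (0.495 : ℝ) ≤ V₁)
    (hV2 : V₂ ≤ (X : ℝ) ^ (0.505 : ℝ)) {S G T : Finset PrP} (hG1 : D1 X ≤ nm (prd G))
    (hG2 : (nm (prd G) : ℝ) < zX X * D1 X) (h1 : loI X V₁ (S, G) < nm (prd T))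
    (h2 : (nm (prd T) : ℝ) ≤ hiI X V₂ (S, G)) :
    (X : ℝ) ^ (0.38 : ℝ) < nm (prd T) ∧ (nm (prd T) : ℝ) ≤ (X : ℝ) ^ (0.38 : ℝ) * 2 ^ mX X := by
  have hX0 : (0 : ℝ) < X := by
    have : (3 : ℝ) ≤ X := by exact_mod_cast hX
    linarith
  have hX1 : (1 : ℝ) < X := by
    have : (3 : ℝ) ≤ X := by exact_mod_cast hX
    linarith
  have hg := nm_prd_pos G
  have hT := nm_prd_pos T
  unfold loI at h1
  unfold hiI at h2
  simp only at h1 h2
  have h3 : ((⌈V₁ / nm (prd G)⌉₊ : ℝ) - 1) < nm (prd T) := lt_of_le_of_lt (le_max_left _ _) h1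
  have h4 : ⌈V₁ / nm (prd G)⌉₊ ≤ nm (prd T) := by
    have : ((⌈V₁ / nm (prd G)⌉₊ : ℕ) : ℝ) < ((nm (prd T) + 1 : ℕ) : ℝ) := by push_cast; linarith
    have h5 : ⌈V₁ / nm (prd G)⌉₊ < nm (prd T) + 1 := by exact_mod_cast this
    omega
  have h5 : V₁ / nm (prd G) ≤ nm (prd T) := Nat.ceil_le.mp h4
  rw [div_le_iff₀ hg] at h5
  have h6 : (nm (prd T) : ℝ) ≤ V₂ / nm (prd G) := h2.trans (min_le_left _ _)
  rw [le_div_iff₀ hg] at h6
  have e1 : zX X * D1 X = (X : ℝ) ^ (0.11 : ℝ) := by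
    unfold zX D1; rw [← Real.rpow_add hX0]; norm_num
  have e2 : (X : ℝ) ^ (0.495 : ℝ) = (X : ℝ) ^ (0.11 : ℝ) * (X : ℝ) ^ (0.385 : ℝ) := by
    rw [← Real.rpow_add hX0]; norm_num
  have e3 : (X : ℝ) ^ (0.505 : ℝ) = (X : ℝ) ^ (0.05 : ℝ) * (X : ℝ) ^ (0.455 : ℝ) := by
    rw [← Real.rpow_add hX0]; norm_num
  have e4 : (X : ℝ) ^ (0.455 : ℝ) = (X : ℝ) ^ (0.38 : ℝ) * (X : ℝ) ^ (0.075 : ℝ) := by
    rw [← Real.rpow_add hX0]; norm_num
  have p1 : 0 < (X : ℝ) ^ (0.11 : ℝ) := Real.rpow_pos_of_pos hX0 _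
  have p2 : 0 < (X : ℝ) ^ (0.05 : ℝ) := Real.rpow_pos_of_pos hX0 _
  have p3 : 0 < (X : ℝ) ^ (0.38 : ℝ) := Real.rpow_pos_of_pos hX0 _
  rw [e1] at hG2
  unfold D1 at hG1
  constructor
  · have h7 : (X : ℝ) ^ (0.38 : ℝ) < (X : ℝ) ^ (0.385 : ℝ) :=
      Real.rpow_lt_rpow_of_exponent_lt hX1 (by norm_num)
    refine lt_of_lt_of_le h7 ?_
    by_contra hc
    push Not at hc
    have h8 : (nm (prd T) : ℝ) * nm (prd G) < (X : ℝ) ^ (0.11 : ℝ) * (X : ℝ) ^ (0.385 : ℝ) := by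
      rw [mul_comm]
      exact mul_lt_mul'' hG2 hc hg.le hT.le
    rw [← e2] at h8
    linarith
  · have h8 : (nm (prd T) : ℝ) ≤ (X : ℝ) ^ (0.455 : ℝ) := by
      by_contra hc
      push Not at hc
      have h9 : (X : ℝ) ^ (0.455 : ℝ) * (X : ℝ) ^ (0.05 : ℝ) < (nm (prd T) : ℝ) * nm (prd G) :=
        mul_lt_mul hc hG1 p2 hT.le
      rw [mul_comm, ← e3] at h9
      linarith
    rw [e4] at h8
    exact h8.trans (mul_le_mul_of_nonneg_left (le_two_pow_mX (by omega)) p3.le)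

/-- Everything needed about a (large) `X`. -/
structure Good (l : ℤ) (A' : ℕ) (C0 K : ℝ) (X : ℕ) : Prop where
  three : 3 ≤ X
  L3 : 3 ≤ LX X
  b0 : (X : ℝ) ^ ((1 : ℝ) / 3) * LX X ^ C0 ≤ (X : ℝ) ^ (0.38 : ℝ)
  tii : ∀ (B : ℝ) (β : Finset PrP → ℂ), (X : ℝ) ^ ((1 : ℝ) / 3) * LX X ^ C0 ≤ B →
    B ≤ (X : ℝ) ^ (1 / 2 - (0.04 : ℝ)) → SWc β →
    (∀ T, β T ≠ 0 → (∀ p ∈ T, wX X ≤ nm p.1) ∧ B < nm (prd T) ∧ (nm (prd T) : ℝ) ≤ 2 * B) →
    ∀ (ι : Type) (I : Finset ι) (a : ι → Finset PrP) (g : ι → ℝ) (α : ι → ℂ),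
      (∀ i ∈ I, (nm (prd (a i)) : ℝ) ≤ X / B) →
      ‖Ix l X I a g α β‖ ≤
        K * (X : ℝ) ^ ((1 : ℝ) / 3) * Real.sqrt B * Real.sqrt (Mu I a α) / LX X ^ A'

/-- the block bound -/
def Qb (A' : ℕ) (K : ℝ) (X : ℕ) : ℝ :=
  |K| * Real.exp 150 * (X : ℝ) ^ ((5 : ℝ) / 6) * LX X ^ 4 / LX X ^ A'

lemma block_range {X : ℕ} (hX : 3 ≤ X) {k : ℕ} (hk : k < mX X) :
    1 ≤ (X : ℝ) ^ (0.38 : ℝ) * 2 ^ k ∧ (X : ℝ) ^ (0.38 : ℝ) ≤ (X : ℝ) ^ (0.38 : ℝ) * 2 ^ k ∧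
      (X : ℝ) ^ (0.38 : ℝ) * 2 ^ k ≤ (X : ℝ) ^ (1 / 2 - (0.04 : ℝ)) := by
  have hX3 : (3 : ℝ) ≤ X := by exact_mod_cast hX
  have hX0 : (0 : ℝ) < X := by linarith
  have h1 : 1 ≤ (X : ℝ) ^ (0.38 : ℝ) := Real.one_le_rpow (by linarith) (by norm_num)
  have h2 : (1 : ℝ) ≤ 2 ^ k := one_le_pow₀ (by norm_num)
  have h3 : (X : ℝ) ^ (0.38 : ℝ) ≤ (X : ℝ) ^ (0.38 : ℝ) * 2 ^ k := le_mul_of_one_le_right (by linarith) h2
  refine ⟨h1.trans h3, h3, ?_⟩
  have h4 := two_pow_le (by omega : 1 ≤ X) hk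
  calc (X : ℝ) ^ (0.38 : ℝ) * 2 ^ k ≤ (X : ℝ) ^ (0.38 : ℝ) * (X : ℝ) ^ (0.075 : ℝ) :=
        mul_le_mul_of_nonneg_left h4 (by linarith)
    _ = (X : ℝ) ^ (0.455 : ℝ) := by rw [← Real.rpow_add hX0]; norm_num
    _ ≤ (X : ℝ) ^ (1 / 2 - (0.04 : ℝ)) :=
        Real.rpow_le_rpow_of_exponent_le (by linarith) (by norm_num)

open Classical in
/-- the two index sums through the engine -/
lemma engine_use {l : ℤ} {A' : ℕ} {C0 K : ℝ} {X : ℕ} (hg : Good l A' C0 K X)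
    {α c : Finset PrP → ℂ} (hα : ∀ S, ‖α S‖ ≤ 1) (hc : ∀ G, ‖c G‖ ≤ 1) {V₁ V₂ : ℝ}
    (hV1 : (X : ℝ) ^ (0.495 : ℝ) ≤ V₁) (hV2 : V₂ ≤ (X : ℝ) ^ (0.505 : ℝ))
    (GG : Finset (Finset PrP))
    (hGG : ∀ G ∈ GG, G ⊆ UX X ∧ D1 X ≤ nm (prd G) ∧ (nm (prd G) : ℝ) < zX X * D1 X)
    (lam : Finset PrP → ℂ) (u v : Finset PrP → ℕ) (M : ℕ) (hM : 1 ≤ M) (hu : ∀ G ∈ GG, u G < M)
    (hv : ∀ T, v T ≤ M)
    (hlw : ∀ T, lam T ≠ 0 → ∀ p ∈ T, ¬ (nm p.1 : ℝ) < wX X)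
    (hswc : ∀ (B : ℝ) (φ : ℕ → ℂ), (∀ n, ‖φ n‖ ≤ 1) →
      SWc (fun T => if bl B T then φ (v T) * lam T else 0)) :
    ‖∑ G ∈ GG, c G * ∑ T ∈ (UX X \ G).powerset,
      (if u G < v T then lam T * Fa l X α V₁ V₂ (G ∪ T) else 0)‖ ≤
      mX X * ((2 + Real.log M) * (2 * Qb A' K X)) := by
  have hX := hg.three
  rw [reindex l X α V₁ V₂ GG c lam u v]
  have hB0 : 1 ≤ (X : ℝ) ^ (0.38 : ℝ) := by
    have hX3 : (3 : ℝ) ≤ X := by exact_mod_cast hX
    exact Real.one_le_rpow (by linarith) (by norm_num)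
  have hmem : ∀ i ∈ IxS X GG, i.2 ∈ GG := by
    intro i hi
    rw [IxS, Finset.mem_filter, Finset.mem_product] at hi
    exact hi.1.2
  refine engine_ix l X (IxS X GG) (fun i => i.1 ∪ i.2) (fun i => α i.1 * c i.2)
    (loI X V₁) (hiI X V₂) (fun i _ => hiI_mul_le X V₂ i) lam hB0 (mX X) ?_ (fun i => u i.2) v M hM
    (fun i hi => hu _ (hmem i hi)) (fun T _ => hv T) (Qb A' K X) ?_
  · rintro ⟨S, G⟩ hi T _ h1 h2 _
    obtain ⟨-, h3, h4⟩ := hGG G (hmem _ hi)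
    exact range_ok hX hV1 hV2 h3 h4 h1 h2
  · intro k hk φ hφ α' hα' g
    obtain ⟨r1, r2, r3⟩ := block_range hX hk
    have hα1 : ∀ i, ‖α' i‖ ≤ 1 := by
      intro i
      refine (hα' i).trans ?_
      rw [norm_mul]
      calc ‖α i.1‖ * ‖c i.2‖ ≤ 1 * 1 := mul_le_mul (hα _) (hc _) (norm_nonneg _) (by norm_num)
        _ = 1 := one_mul 1
    unfold Qb
    refine tii_use hX r1 ?_ GG (fun G hG => (hGG G hG).1) α' hα1 g
    refine hg.tii _ _ (hg.b0.trans r2) r3 (hswc _ φ hφ) ?_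
    intro T hT
    have hb : bl ((X : ℝ) ^ (0.38 : ℝ) * 2 ^ k) T := by
      by_contra h
      exact hT (if_neg h)
    have hl : lam T ≠ 0 := by
      intro h
      apply hT
      simp only [h, mul_zero, ite_self]
    exact ⟨fun p hp => not_lt.mp (hlw T hl p hp), hb.1, hb.2⟩

lemma log_card_le {X : ℕ} (hX : 3 ≤ X) (hL : 3 ≤ LX X) :
    2 + Real.log (((UX X).card + 1 : ℕ) : ℝ) ≤ 3 * LX X := by
  have hX3 : (3 : ℝ) ≤ X := by exact_mod_cast hX
  have hX0 : (0 : ℝ) < X := by linarith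
  have h1 := card_UX_le (by omega : 1 ≤ X)
  have h2 : (((UX X).card + 1 : ℕ) : ℝ) ≤ 13 * X := by push_cast; linarith
  have h3 : Real.log (((UX X).card + 1 : ℕ) : ℝ) ≤ Real.log (13 * X) :=
    Real.log_le_log (by positivity) h2
  rw [Real.log_mul (by norm_num) hX0.ne'] at h3
  have h4 : Real.log 13 ≤ 3 := by
    rw [Real.log_le_iff_le_exp (by norm_num)]
    have := Real.exp_one_gt_d9
    have e : Real.exp 3 = Real.exp 1 ^ 3 := by rw [← Real.exp_nat_mul]; norm_num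
    rw [e]
    calc (13 : ℝ) ≤ (2.7182818283 : ℝ) ^ 3 := by norm_num
      _ ≤ Real.exp 1 ^ 3 := pow_le_pow_left₀ (by norm_num) this.le 3
  unfold LX at hL ⊢
  linarith

lemma cr_large (l : ℤ) (A : ℕ) {C0 K : ℝ} {X : ℕ} (hg : Good l (A + 6) C0 K X)
    {α : Finset PrP → ℂ} (hα : ∀ S, ‖α S‖ ≤ 1) {V₁ V₂ : ℝ}
    (hV1 : (X : ℝ) ^ (0.495 : ℝ) ≤ V₁) (hV2 : V₂ ≤ (X : ℝ) ^ (0.505 : ℝ))
    (GG : Finset (Finset PrP)) (hGG : ∀ G ∈ GG, G ⊆ UX X ∧ G.Nonempty ∧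
      (∀ p ∈ G, (nm p.1 : ℝ) < zX X) ∧ D1 X ≤ nm (prd G) ∧ (nm (prd G) : ℝ) < zX X * D1 X) :
    ‖∑ G ∈ GG, (-1 : ℂ) ^ G.card *
      ∑ T ∈ (open Classical in ((Uw X \ G).filter (fun p => Ab G p)).powerset),
        Fa l X α V₁ V₂ (G ∪ T)‖ ≤
      20 * (|K| * Real.exp 150) * (X : ℝ) ^ ((5 : ℝ) / 6) / LX X ^ A := by
  classical
  have hX := hg.three
  have hL := hg.L3
  have hX3 : (3 : ℝ) ≤ X := by exact_mod_cast hX
  have hX0 : (0 : ℝ) < X := by linarith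
  have hX1 : (1 : ℝ) ≤ X := by linarith
  have hL0 : 0 < LX X := by linarith
  have hz0 : zX X * D1 X = (X : ℝ) ^ (0.11 : ℝ) := by
    unfold zX D1; rw [← Real.rpow_add hX0]; norm_num
  have hz1 : zX X * D1 X ≤ V₁ := by
    rw [hz0]
    exact (Real.rpow_le_rpow_of_exponent_le hX1 (by norm_num)).trans hV1
  have hz2 : zX X * D1 X * zX X ≤ V₁ := by
    rw [hz0]
    unfold zX
    rw [← Real.rpow_add hX0]
    exact (Real.rpow_le_rpow_of_exponent_le hX1 (by norm_num)).trans hV1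
  have hc : ∀ G : Finset PrP, ‖(-1 : ℂ) ^ G.card‖ ≤ 1 := by intro G; simp
  have hsplit : ∑ G ∈ GG, (-1 : ℂ) ^ G.card *
      ∑ T ∈ ((Uw X \ G).filter (fun p => Ab G p)).powerset, Fa l X α V₁ V₂ (G ∪ T) =
      ∑ G ∈ GG, (-1 : ℂ) ^ G.card * ∑ T ∈ (UX X \ G).powerset,
        (if rkm X G < rkm X T then lam2 X T * Fa l X α V₁ V₂ (G ∪ T) else 0) +
      ∑ G ∈ GG, (-1 : ℂ) ^ G.card * ∑ T ∈ (UX X \ G).powerset,
        (if (0 : ℕ) < 1 then lam1 X T * Fa l X α V₁ V₂ (G ∪ T) else 0) := by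
    rw [← Finset.sum_add_distrib]
    refine Finset.sum_congr rfl fun G hG => ?_
    obtain ⟨h1, h2, h3, h4, h5⟩ := hGG G hG
    rw [split_T l X α V₁ V₂ h1 h2 h3 h5 (lt_of_lt_of_le h5 hz1) hz2, mul_add]
  rw [hsplit]
  have hGG' : ∀ G ∈ GG, G ⊆ UX X ∧ D1 X ≤ nm (prd G) ∧ (nm (prd G) : ℝ) < zX X * D1 X := by
    intro G hG
    obtain ⟨h1, h2, h3, h4, h5⟩ := hGG G hG
    exact ⟨h1, h4, h5⟩
  have b2 := engine_use hg hα hc hV1 hV2 GG hGG' (lam2 X) (rkm X) (rkm X) ((UX X).card + 1)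
    (by omega) (fun G _ => rkm_lt X G) (fun T => (rkm_lt X T).le)
    (by
      intro T hT
      unfold lam2 at hT
      by_contra h
      exact hT (if_neg (fun h' => h h'.2)))
    (fun B φ hφ => swc2 X B φ hφ)
  have b1 := engine_use hg hα hc hV1 hV2 GG hGG' (lam1 X) (fun _ => 0) (fun _ => 1) 1
    le_rfl (fun G _ => by norm_num) (fun T => le_rfl)
    (by
      intro T hT
      unfold lam1 at hT
      by_contra h
      exact hT (if_neg (fun h' => h h'.2)))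
    (fun B φ hφ => swc1 X B (φ 1) (hφ 1))
  refine (norm_add_le _ _).trans ((add_le_add b2 b1).trans ?_)
  have hm := mX_le (by omega : 1 ≤ X) (by linarith)
  have hlc := log_card_le hX hL
  have hQ0 : 0 ≤ Qb (A + 6) K X := by unfold Qb; positivity
  have hm0 : (0 : ℝ) ≤ mX X := Nat.cast_nonneg _
  have e1 : (mX X : ℝ) * ((2 + Real.log (((UX X).card + 1 : ℕ) : ℝ)) * (2 * Qb (A + 6) K X)) ≤
      (2 * LX X) * ((3 * LX X) * (2 * Qb (A + 6) K X)) := by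
    apply mul_le_mul hm _ _ (by positivity)
    · exact mul_le_mul_of_nonneg_right hlc (by positivity)
    · have : 0 ≤ Real.log (((UX X).card + 1 : ℕ) : ℝ) := Real.log_natCast_nonneg _
      positivity
  have e2 : (mX X : ℝ) * ((2 + Real.log ((1 : ℕ) : ℝ)) * (2 * Qb (A + 6) K X)) ≤
      (2 * LX X) * (2 * (2 * Qb (A + 6) K X)) := by
    rw [Nat.cast_one, Real.log_one, add_zero]
    exact mul_le_mul_of_nonneg_right hm (by positivity)
  have e3 : (2 * LX X) * ((3 * LX X) * (2 * Qb (A + 6) K X)) +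
      (2 * LX X) * (2 * (2 * Qb (A + 6) K X)) ≤ 20 * (LX X ^ 2 * Qb (A + 6) K X) := by
    nlinarith [mul_nonneg hL0.le hQ0]
  refine (add_le_add e1 e2).trans (e3.trans (le_of_eq ?_))
  unfold Qb
  have hLp : LX X ^ (A + 6) = LX X ^ A * LX X ^ 6 := pow_add _ _ _
  rw [hLp]
  field_simp

theorem crPart_of' : CrPart_of := by
  intro hII l A
  obtain ⟨C0, K, X1, hT⟩ := hII l (A + 6) 0.04 (by norm_num)
  have ev : ∀ᶠ X : ℕ in atTop, Good l (A + 6) C0 K X := by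
    filter_upwards [SieveUse50.ev_pow (a := 1 / 3) (b := 0.38) (by norm_num) C0,
      SieveUse50.ev_LX 3, eventually_ge_atTop 3, eventually_ge_atTop X1] with X h1 h2 h3 h4
    exact ⟨h3, h2, h1, hT X h4⟩
  obtain ⟨X0, hX0⟩ := eventually_atTop.mp ev
  refine ⟨20 * (|K| * Real.exp 150), X0, fun X hX α V₁ V₂ hα hV1 hV2 => ?_⟩
  exact cr_large l A (hX0 X hX) hα hV1 hV2 _ (fun G hG => cr_facts hG)

end Cr828

/-- **`TIIx_Prop → CrPart`** -/
theorem crPart_of : CrPart_of := Cr828.crPart_of'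

end Crest.Agent.R012.NearHalf828
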