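import Crest.Agent.R012.SieveTI_812

/-!
# Row 12: final combination of the sieve theorem

`sieve_core`: `TI_Prop`, the adapters (helper50) and the Legendre part (helper420) imply
`Main48.Dyadic_Prop`.
-/

set_option autoImplicit false

noncomputable section

namespace Crest.Agent.R012.Sieve812

open Finset Eis Buch420 Main48

/-- level `D = X^(1/3) L^C` -/
def DX (X : ℕ) (C : ℝ) : ℝ := (X : ℝ) ^ ((1 : ℝ) / 3) * LX X ^ C

open Classical in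
/-- the four adapters: primes, composite `K`, pairs, edge triples -/
def Adapters (l : ℤ) (A : ℕ) : Prop :=
  ∃ (η C0 K : ℝ) (X0 : ℕ), 0 < η ∧ η ≤ 1 / 100 ∧ 1 ≤ C0 ∧ ∀ X : ℕ, X0 ≤ X →
    (∀ V' : ℝ, V' ≤ (X : ℝ) ^ (1 / 2 + η) → ∀ α : Eis → ℂ, (∀ a, ‖α a‖ ≤ 1) →
      ‖∑ p ∈ PV X ((X : ℝ) ^ ((1 : ℝ) / 3) * LX X ^ C0) V',
        ∑ a ∈ primBall X, α a * FX l X (p.1 * a)‖ ≤
        K * (X : ℝ) ^ ((5 : ℝ) / 6) / LX X ^ A) ∧
    (∀ (φ : PrP → ℂ) (α : Eis → ℂ), (∀ p, ‖φ p‖ ≤ 1) → (∀ a, ‖α a‖ ≤ 1) →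
      ‖∑ K ∈ Rset X (wX X) ((X : ℝ) ^ ((1 : ℝ) / 3) * LX X ^ C0) ((X : ℝ) ^ (1 / 2 + η)),
        (-1 : ℂ) ^ K.card * φ (mn K) * ∑ a ∈ primBall X, α a * FX l X (prd K * a)‖ ≤
        K * (X : ℝ) ^ ((5 : ℝ) / 6) / LX X ^ A) ∧
    (∀ (φ : PrP → ℂ) (α : Eis → ℂ), (∀ p, ‖φ p‖ ≤ 1) → (∀ a, ‖α a‖ ≤ 1) →
      ‖∑ K ∈ Cset X ((X : ℝ) ^ ((1 : ℝ) / 3) * LX X ^ C0) ((X : ℝ) ^ (1 / 2 + η)),
        φ (mn K) * ∑ a ∈ primBall X, α a * FX l X (prd K * a)‖ ≤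
        K * (X : ℝ) ^ ((5 : ℝ) / 6) / LX X ^ A) ∧
    ‖∑ p ∈ PD X ((X : ℝ) ^ ((1 : ℝ) / 3) * LX X ^ C0),
      ∑ q ∈ PD X ((X : ℝ) ^ ((1 : ℝ) / 3) * LX X ^ C0),
      ∑ r ∈ PD X ((X : ℝ) ^ ((1 : ℝ) / 3) * LX X ^ C0), FX l X (p.1 * q.1 * r.1)‖ ≤
      K * (X : ℝ) ^ ((5 : ℝ) / 6) / LX X ^ ((5 : ℝ) / 4)

/-- the Legendre part -/
def LegPart (l : ℤ) (A : ℕ) (C0 : ℝ) : Prop :=
  ∃ (K : ℝ) (X0 : ℕ), ∀ X : ℕ, X0 ≤ X → ∀ z : ℝ,
    ∀ (φ : PrP → ℂ) (α : Eis → ℂ), (∀ p, ‖φ p‖ ≤ 1) → (∀ a, ‖α a‖ ≤ 1) →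
      ‖∑ K ∈ Lset X (wX X) z ((X : ℝ) ^ ((1 : ℝ) / 3) * LX X ^ C0) ((X : ℝ) ^ ((2 : ℝ) / 5)),
        (-1 : ℂ) ^ K.card * φ (mn K) * ∑ a ∈ primBall X, α a * FX l X (prd K * a)‖ ≤
        K * (X : ℝ) ^ ((5 : ℝ) / 6) / LX X ^ A

open Classical in
/-- The sieved sum is the dyadic sum over primes. -/
lemma sum_UX_eq (l : ℤ) {X : ℕ} {z : ℝ} (hz : 2 * z ≤ X) :
    ∑ p ∈ (UX X).filter (fun p => z ≤ (nm p.1 : ℝ)), FX l X p.1 =
      ∑ p ∈ (primBall X).filter (fun p => Prime p ∧ X < 2 * nm p),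
        ang l p * (G p - ((pC * (nm p : ℝ) ^ (-(1 : ℝ) / 6) : ℝ) : ℂ)) := by
  have h1 : ∑ p ∈ (UX X).filter (fun p => z ≤ (nm p.1 : ℝ)), FX l X p.1 =
      ∑ p ∈ (UX X).filter (fun p => X < 2 * nm p.1), FX l X p.1 := by
    symm
    refine Finset.sum_subset ?_ ?_
    · intro p hp
      rw [Finset.mem_filter] at hp ⊢
      refine ⟨hp.1, ?_⟩
      have : (X : ℝ) < 2 * nm p.1 := by exact_mod_cast hp.2
      linarith
    · intro p hp hp'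
      rw [Finset.mem_filter] at hp hp'
      unfold FX
      rw [if_neg]
      rintro ⟨h, -⟩
      exact hp' ⟨hp.1, h⟩
  rw [h1]
  refine Finset.sum_bij (fun p _ => p.1) ?_ ?_ ?_ ?_
  · intro p hp
    rw [Finset.mem_filter, mem_UX] at hp
    rw [Finset.mem_filter, mem_primBall]
    exact ⟨⟨hp.1, p.isPrim⟩, p.prime, hp.2⟩
  · intro a _ b _ hab
    exact Subtype.ext hab
  · intro p hp
    rw [Finset.mem_filter, mem_primBall] at hp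
    let q : PrP := ⟨p, hp.1.2, hp.2.1⟩
    have hq : q ∈ (UX X).filter (fun p => X < 2 * nm p.1) :=
      Finset.mem_filter.mpr ⟨mem_UX.mpr hp.1.1, hp.2.2⟩
    exact ⟨q, hq, rfl⟩
  · intro p hp
    rw [Finset.mem_filter, mem_UX] at hp
    unfold FX Fl
    rw [if_pos ⟨hp.2, hp.1⟩, if_pos p.prime.squarefree]

open Filter Topology in
theorem sieve_core (hTI : TI_Prop) (hA : ∀ l : ℤ, Adapters l 3)
    (hL : ∀ (l : ℤ) (C0 : ℝ), LegPart l 3 C0) : Dyadic_Prop := by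
  intro l
  obtain ⟨η, C0, K, X0, hη, hη1, hC0, hAd⟩ := hA l
  obtain ⟨K', X0', hLeg⟩ := hL l C0
  obtain ⟨δ, C, hδ, hC, hTI'⟩ := TI_use hTI l
  -- constants
  set K1 := |K| with hK1
  set K2 := |K'| with hK2
  have hev := (eventually_params hC0 hη hη1).and
    ((eventually_LX_le (5 / 4 : ℝ) δ hδ).and
      ((tendsto_LX.eventually_ge_atTop 1).and
        ((eventually_ge_atTop X0).and ((eventually_ge_atTop X0').and (eventually_ge_atTop 12)))))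
  rw [eventually_atTop] at hev
  obtain ⟨X1, hX1⟩ := hev
  refine ⟨C + 5 / 2 * K1 + 10 * K1 + 5 * K2 + 1 / 3 * K1, X1, fun X hX => ?_⟩
  obtain ⟨hP, hLδ, hL1, hX0, hX0', hX12⟩ := hX1 X hX
  obtain ⟨a1, a2, a3, a4⟩ := hAd X hX0
  have hXpos : (0 : ℝ) < X := by exact_mod_cast (by omega : 0 < X)
  have hb := sieve_bound (supp_FX l X) hP (card_UX_le (X := X) (by omega)) (hTI' X (by omega))
    a1 a2 a3 (hLeg X hX0' _) a4
  rw [sum_UX_eq l hP.hz2] at hb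
  refine hb.trans ?_
  have hLpos : 0 < LX X := by linarith
  set Q := (X : ℝ) ^ ((5 : ℝ) / 6) with hQ
  have hQpos : 0 < Q := by positivity
  set M := LX X ^ ((5 : ℝ) / 4) with hM
  have hMpos : 0 < M := by positivity
  have hS := SX_le hX12
  -- E1
  have e1 : C * (X : ℝ) ^ (5 / 6 - δ) ≤ C * (Q / M) := by
    refine mul_le_mul_of_nonneg_left ?_ hC.le
    rw [Real.rpow_sub hXpos, le_div_iff₀ hMpos]
    have : (X : ℝ) ^ (5 / 6 : ℝ) / (X : ℝ) ^ δ * M ≤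
        (X : ℝ) ^ (5 / 6 : ℝ) / (X : ℝ) ^ δ * (X : ℝ) ^ δ :=
      mul_le_mul_of_nonneg_left hLδ (by positivity)
    refine this.trans (le_of_eq ?_)
    rw [div_mul_cancel₀ _ (by positivity)]
  -- E2
  have hM3 : M ≤ LX X ^ (3 : ℕ) := by
    rw [hM, ← Real.rpow_natCast]
    exact Real.rpow_le_rpow_of_exponent_le hL1 (by norm_num)
  have hM2 : LX X * M ≤ LX X ^ (3 : ℕ) := by
    have : LX X * M = LX X ^ ((1 : ℝ) + 5 / 4) := by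
      rw [Real.rpow_add hLpos, Real.rpow_one, hM]
    rw [this, ← Real.rpow_natCast]
    exact Real.rpow_le_rpow_of_exponent_le hL1 (by norm_num)
  have hK : K ≤ K1 := le_abs_self K
  have hK' : K' ≤ K2 := le_abs_self K'
  have hK10 : 0 ≤ K1 := abs_nonneg _
  have hK20 : 0 ≤ K2 := abs_nonneg _
  have e2 : K * Q / LX X ^ (3 : ℕ) ≤ K1 * (Q / M) := by
    rw [← mul_div_assoc]
    calc K * Q / LX X ^ (3 : ℕ) ≤ K1 * Q / LX X ^ (3 : ℕ) := by gcongr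
      _ ≤ K1 * Q / M := by gcongr
  have e3 : ∀ κ κ' : ℝ, κ ≤ κ' → 0 ≤ κ' → LX X * (κ * Q / LX X ^ (3 : ℕ)) ≤ κ' * (Q / M) := by
    intro κ κ' h1 h2
    rw [← mul_div_assoc, ← mul_div_assoc, div_le_div_iff₀ (by positivity) hMpos]
    calc LX X * (κ * Q) * M ≤ LX X * (κ' * Q) * M := by gcongr
      _ = κ' * Q * (LX X * M) := by ring
      _ ≤ κ' * Q * LX X ^ 3 := by gcongr
  have e4 := e3 K K1 hK hK10
  have e5 := e3 K' K2 hK' hK20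
  have hnn : 0 ≤ K * Q / LX X ^ (3 : ℕ) := by
    refine le_trans (norm_nonneg _) (a3 (fun _ => 0) (fun _ => 0) (by simp) (by simp))
  have hnn' : 0 ≤ K' * Q / LX X ^ (3 : ℕ) := by
    refine le_trans (norm_nonneg _) (hLeg X hX0' 0 (fun _ => 0) (fun _ => 0) (by simp) (by simp))
  have e6 : (SX X : ℝ) * (K * Q / LX X ^ (3 : ℕ) + K * Q / LX X ^ (3 : ℕ) +
      K' * Q / LX X ^ (3 : ℕ)) ≤ (10 * K1 + 5 * K2) * (Q / M) := by
    calc (SX X : ℝ) * (K * Q / LX X ^ (3 : ℕ) + K * Q / LX X ^ (3 : ℕ) +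
        K' * Q / LX X ^ (3 : ℕ)) ≤ (5 * LX X) * (K * Q / LX X ^ (3 : ℕ) +
          K * Q / LX X ^ (3 : ℕ) + K' * Q / LX X ^ (3 : ℕ)) :=
          mul_le_mul_of_nonneg_right hS (by linarith)
      _ = 10 * (LX X * (K * Q / LX X ^ (3 : ℕ))) + 5 * (LX X * (K' * Q / LX X ^ (3 : ℕ))) := by
          ring
      _ ≤ 10 * (K1 * (Q / M)) + 5 * (K2 * (Q / M)) := by linarith
      _ = _ := by ring
  have e7 : K * Q / M ≤ K1 * (Q / M) := by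
    rw [← mul_div_assoc]; gcongr
  have e8 : (C + 5 / 2 * K1 + 10 * K1 + 5 * K2 + 1 / 3 * K1) * Q / M =
      C * (Q / M) + 5 / 2 * (K1 * (Q / M)) + (10 * K1 + 5 * K2) * (Q / M) +
        1 / 3 * (K1 * (Q / M)) := by ring
  rw [e8]
  have h54 : LX X ^ (5 / 4 : ℝ) = M := rfl
  linarith

end Crest.Agent.R012.Sieve812
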