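import Mathlib

/-!
# Row 12, W14: one-dimensional weight / smoothing toolkit (helper600)

Everything is normalised so that `w u = ∫ t, ker w t * exp (i t u)`, i.e.
`ker w t = (1/2π) ∫ u, w u * exp (-i t u)`; with `u = log N` the exponential is `N^{it}`.
-/

set_option autoImplicit false

noncomputable section

open MeasureTheory Real FourierTransform Complex Set Filter Topology
open scoped ContDiff

namespace Crest.Agent.R012.Weight600

/-! ### The oscillation `e^{itu}` -/

/-- `osc t u = exp (i t u)`. -/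
def osc (t u : ℝ) : ℂ := cexp (((t * u : ℝ) : ℂ) * I)

/-- `pw t x = x^{it}` for `x > 0`. -/
def pw (t x : ℝ) : ℂ := osc t (Real.log x)

lemma norm_osc (t u : ℝ) : ‖osc t u‖ = 1 := by
  unfold osc; rw [Complex.norm_exp_ofReal_mul_I]

lemma osc_zero_left (u : ℝ) : osc 0 u = 1 := by simp [osc]

lemma osc_zero_right (t : ℝ) : osc t 0 = 1 := by simp [osc]

lemma osc_add_right (t u v : ℝ) : osc t (u + v) = osc t u * osc t v := by
  unfold osc; rw [← Complex.exp_add]; congr 1; push_cast; ring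

lemma osc_add_left (s t u : ℝ) : osc (s + t) u = osc s u * osc t u := by
  unfold osc; rw [← Complex.exp_add]; congr 1; push_cast; ring

lemma osc_neg_left (t u : ℝ) : osc (-t) u = (starRingEnd ℂ) (osc t u) := by
  unfold osc
  rw [← Complex.exp_conj]
  congr 1
  simp

lemma osc_neg_right (t u : ℝ) : osc t (-u) = (starRingEnd ℂ) (osc t u) := by
  rw [← osc_neg_left]; unfold osc; congr 2; push_cast; ring

lemma osc_mul_conj (t u : ℝ) : osc t u * (starRingEnd ℂ) (osc t u) = 1 := by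
  rw [Complex.mul_conj, Complex.normSq_eq_norm_sq, norm_osc]; simp

lemma osc_ne_zero (t u : ℝ) : osc t u ≠ 0 := by
  unfold osc; exact Complex.exp_ne_zero _

lemma osc_sub_right (t u v : ℝ) : osc t (u - v) = osc t u * (starRingEnd ℂ) (osc t v) := by
  rw [sub_eq_add_neg, osc_add_right, osc_neg_right]

lemma continuous_osc_left (u : ℝ) : Continuous fun t => osc t u := by
  unfold osc; fun_prop

lemma continuous_osc_right (t : ℝ) : Continuous fun u => osc t u := by
  unfold osc; fun_prop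

lemma continuous_osc : Continuous fun p : ℝ × ℝ => osc p.1 p.2 := by
  unfold osc; fun_prop

lemma norm_pw (t x : ℝ) : ‖pw t x‖ = 1 := norm_osc _ _

lemma pw_eq_cpow {x : ℝ} (hx : 0 < x) (t : ℝ) : pw t x = (x : ℂ) ^ ((t : ℂ) * I) := by
  unfold pw osc
  rw [Complex.cpow_def_of_ne_zero (by exact_mod_cast hx.ne'), ← Complex.ofReal_log hx.le]
  congr 1
  push_cast; ring

lemma pw_eq_cpow' {x : ℝ} (hx : 0 < x) (t : ℝ) : pw t x = (x : ℂ) ^ (I * (t : ℂ)) := by
  rw [pw_eq_cpow hx, mul_comm]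

lemma pw_mul {x y : ℝ} (hx : x ≠ 0) (hy : y ≠ 0) (t : ℝ) : pw t (x * y) = pw t x * pw t y := by
  unfold pw; rw [Real.log_mul hx hy, osc_add_right]

lemma pw_div {x y : ℝ} (hx : x ≠ 0) (hy : y ≠ 0) (t : ℝ) :
    pw t (x / y) = pw t x * (starRingEnd ℂ) (pw t y) := by
  unfold pw; rw [Real.log_div hx hy, osc_sub_right]

lemma pw_inv (t x : ℝ) : pw t x⁻¹ = (starRingEnd ℂ) (pw t x) := by
  unfold pw; rw [Real.log_inv, osc_neg_right]

lemma pw_one (t : ℝ) : pw t 1 = 1 := by simp [pw, osc_zero_right]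

lemma pw_zero_left (x : ℝ) : pw 0 x = 1 := by simp [pw, osc_zero_left]

lemma pw_add_left (s t x : ℝ) : pw (s + t) x = pw s x * pw t x := osc_add_left _ _ _

lemma pw_neg_left (t x : ℝ) : pw (-t) x = (starRingEnd ℂ) (pw t x) := osc_neg_left _ _

lemma pw_mul_conj (t x : ℝ) : pw t x * (starRingEnd ℂ) (pw t x) = 1 := osc_mul_conj _ _

lemma continuous_pw_left (x : ℝ) : Continuous fun t => pw t x := continuous_osc_left _

/-! ### The kernel and Fourier inversion -/

/-- `ker w t = (1/2π) ∫ w(u) e^{-itu} du`. -/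
def ker (w : ℝ → ℂ) (t : ℝ) : ℂ := (1 / (2 * π) : ℂ) * ∫ u : ℝ, w u * osc t (-u)

lemma fourier_eq_integral_osc (w : ℝ → ℂ) (ξ : ℝ) :
    𝓕 w ξ = ∫ u : ℝ, w u * osc (2 * π * ξ) (-u) := by
  rw [Real.fourier_real_eq_integral_exp_smul]
  congr 1
  ext u
  rw [smul_eq_mul, mul_comm]
  congr 1
  unfold osc
  congr 2
  push_cast
  ring

lemma ker_eq_fourier (w : ℝ → ℂ) (t : ℝ) :
    ker w t = (1 / (2 * π) : ℂ) * 𝓕 w (t / (2 * π)) := by
  rw [fourier_eq_integral_osc, ker]
  have : 2 * π * (t / (2 * π)) = t := by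
    field_simp
  rw [this]

lemma fourier_eq_ker (w : ℝ → ℂ) (ξ : ℝ) :
    𝓕 w ξ = (2 * π : ℂ) * ker w (2 * π * ξ) := by
  rw [fourier_eq_integral_osc, ker, ← mul_assoc]
  have : (2 * π : ℂ) * (1 / (2 * π)) = 1 := by
    have : (π : ℂ) ≠ 0 := by exact_mod_cast Real.pi_ne_zero
    field_simp
  rw [this, one_mul]

lemma norm_ker_le (w : ℝ → ℂ) (t : ℝ) : ‖ker w t‖ ≤ (1 / (2 * π)) * ∫ u, ‖w u‖ := by
  unfold ker
  rw [norm_mul]
  have h1 : ‖(1 / (2 * π) : ℂ)‖ = 1 / (2 * π) := by
    rw [norm_div, norm_mul, norm_one, Complex.norm_real, Real.norm_of_nonneg pi_pos.le]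
    simp
  rw [h1]
  gcongr
  refine (norm_integral_le_integral_norm _).trans (le_of_eq ?_)
  congr 1; ext u
  rw [norm_mul, norm_osc, mul_one]

lemma continuous_ker {w : ℝ → ℂ} (hw : Integrable w) : Continuous (ker w) := by
  have : ker w = fun t => (1 / (2 * π) : ℂ) * 𝓕 w (t / (2 * π)) := by
    ext t; exact ker_eq_fourier w t
  rw [this]
  have h := (VectorFourier.fourierIntegral_continuous Real.continuous_fourierChar
    (by exact continuous_inner : Continuous fun p : ℝ × ℝ => (innerₗ ℝ) p.1 p.2) hw)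
  have h' : Continuous (𝓕 w) := h
  exact continuous_const.mul (h'.comp (continuous_id.div_const _))

/-- Inversion at every point. -/
theorem inversion {w : ℝ → ℂ} (hc : Continuous w) (hi : Integrable w)
    (hk : Integrable (ker w)) (u : ℝ) : ∫ t, ker w t * osc t u = w u := by
  have h2 : (2 * π : ℝ) ≠ 0 := by positivity
  have hF : Integrable (𝓕 w) := by
    have : (𝓕 w) = fun ξ => (2 * π : ℂ) * ker w (2 * π * ξ) := by
      ext ξ; exact fourier_eq_ker w ξ
    rw [this]
    exact (hk.comp_mul_left' h2).const_mul _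
  have h := congrFun (hc.fourierInv_fourier_eq hi hF) u
  rw [← h, Real.fourierInv_eq']
  have e : (fun ξ : ℝ => cexp (↑(2 * π * inner ℝ ξ u) * I) • 𝓕 w ξ)
      = fun ξ : ℝ => (2 * π : ℂ) * (fun t : ℝ => ker w t * osc t u) (2 * π * ξ) := by
    ext ξ
    rw [fourier_eq_ker w ξ]
    simp only [smul_eq_mul]
    rw [mul_comm, mul_assoc]
    congr 2
    unfold osc
    congr 2
    simp [mul_comm]
    ring
  rw [e, integral_const_mul, Measure.integral_comp_mul_left (fun t : ℝ => ker w t * osc t u)]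
  rw [abs_of_pos (show (0:ℝ) < (2 * π)⁻¹ by positivity)]
  rw [Complex.real_smul, ← mul_assoc]
  have : (2 * π : ℂ) * ((2 * π)⁻¹ : ℝ) = 1 := by
    have : (π : ℂ) ≠ 0 := by exact_mod_cast Real.pi_ne_zero
    push_cast
    field_simp
  rw [this, one_mul]


/-! ### Smooth compactly supported functions -/

theorem ker_integrable {w : ℝ → ℂ} (h1 : ContDiff ℝ ∞ w) (h2 : HasCompactSupport w) :
    Integrable (ker w) := by
  have h : Integrable (𝓕 w) := by
    have := (𝓕 (h2.toSchwartzMap h1)).integrable (μ := volume)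
    exact this
  have e : ker w = fun t => (1 / (2 * π) : ℂ) * 𝓕 w (t / (2 * π)) := by
    ext t; exact ker_eq_fourier w t
  rw [e]
  exact (h.comp_div (by positivity)).const_mul _

theorem ker_decay {w : ℝ → ℂ} (h1 : ContDiff ℝ ∞ w) (h2 : HasCompactSupport w) (k : ℕ) :
    ∃ C : ℝ, 0 < C ∧ ∀ t, ‖ker w t‖ * (1 + |t|) ^ k ≤ C := by
  obtain ⟨C0, hC0, h0⟩ := (𝓕 (h2.toSchwartzMap h1)).decay 0 0
  obtain ⟨Ck, hCk, hk⟩ := (𝓕 (h2.toSchwartzMap h1)).decay k 0
  have e : ∀ ξ, (𝓕 (h2.toSchwartzMap h1)) ξ = 𝓕 w ξ := by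
    intro ξ
    rfl
  simp only [norm_iteratedFDeriv_zero, pow_zero, one_mul, e] at h0 hk
  refine ⟨2 ^ (k - 1) * (C0 + (2 * π) ^ k * Ck), by positivity, fun t => ?_⟩
  have hn : ‖ker w t‖ ≤ ‖𝓕 w (t / (2 * π))‖ := by
    rw [ker_eq_fourier, norm_mul]
    have : ‖(1 / (2 * π) : ℂ)‖ ≤ 1 := by
      rw [norm_div, norm_mul, norm_one, Complex.norm_real, Real.norm_of_nonneg pi_pos.le]
      simp only [Complex.norm_ofNat]
      rw [div_le_one (by positivity)]
      nlinarith [Real.pi_gt_three]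
    calc _ ≤ 1 * ‖𝓕 w (t / (2 * π))‖ := by gcongr
      _ = _ := one_mul _
  calc ‖ker w t‖ * (1 + |t|) ^ k
      ≤ ‖𝓕 w (t / (2 * π))‖ * (2 ^ (k - 1) * (1 ^ k + |t| ^ k)) := by
        gcongr
        exact add_pow_le zero_le_one (abs_nonneg t) k
    _ = 2 ^ (k - 1) * (‖𝓕 w (t / (2 * π))‖ +
          (2 * π) ^ k * (‖t / (2 * π)‖ ^ k * ‖𝓕 w (t / (2 * π))‖)) := by
        have : |t| ^ k = (2 * π) ^ k * ‖t / (2 * π)‖ ^ k := by
          rw [← mul_pow, norm_div, Real.norm_eq_abs, Real.norm_of_nonneg (by positivity : (0:ℝ) ≤ 2 * π)]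
          congr 1; field_simp
        rw [one_pow, this]; ring
    _ ≤ 2 ^ (k - 1) * (C0 + (2 * π) ^ k * Ck) := by
        gcongr
        · exact h0 _
        · exact hk _

theorem inversion_smooth {w : ℝ → ℂ} (h1 : ContDiff ℝ ∞ w) (h2 : HasCompactSupport w) (u : ℝ) :
    ∫ t, ker w t * osc t u = w u :=
  inversion h1.continuous (h1.continuous.integrable_of_hasCompactSupport h2)
    (ker_integrable h1 h2) u

lemma ker_deriv {w : ℝ → ℂ} (hi : Integrable w) (hd : Differentiable ℝ w)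
    (hi' : Integrable (deriv w)) (t : ℝ) : ker (deriv w) t = (I * t) * ker w t := by
  rw [ker_eq_fourier, ker_eq_fourier, Real.fourier_deriv hi hd hi']
  have : (π : ℂ) ≠ 0 := by exact_mod_cast Real.pi_ne_zero
  simp only [smul_eq_mul]
  push_cast
  field_simp

lemma ker_sub {w v : ℝ → ℂ} (hw : Integrable w) (hv : Integrable v) (t : ℝ) :
    ker (fun u => w u - v u) t = ker w t - ker v t := by
  unfold ker
  rw [← mul_sub, ← integral_sub]
  · congr 2; ext u; ring
  · refine hw.mul_bdd (c := 1) ?_ ?_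
    · exact ((continuous_osc_right t).comp continuous_neg).aestronglyMeasurable
    · exact Eventually.of_forall fun u => (norm_osc _ _).le
  · refine hv.mul_bdd (c := 1) ?_ ?_
    · exact ((continuous_osc_right t).comp continuous_neg).aestronglyMeasurable
    · exact Eventually.of_forall fun u => (norm_osc _ _).le

/-- Kernel of a dilated translate. -/
lemma ker_dilate (w : ℝ → ℂ) (a : ℝ) {η : ℝ} (hη : 0 < η) (t : ℝ) :
    ker (fun u => (η⁻¹ : ℂ) * w ((u - a) / η)) t = osc t (-a) * ker w (η * t) := by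
  unfold ker
  have e : (fun u : ℝ => (η⁻¹ : ℂ) * w ((u - a) / η) * osc t (-u))
      = fun u => (fun y => (η⁻¹ : ℂ) * (osc t (-a) * (w y * osc (η * t) (-y)))) ((u - a) / η) := by
    ext u
    simp only
    have : osc t (-u) = osc t (-a) * osc (η * t) (-((u - a) / η)) := by
      have h2 : osc (η * t) (-((u - a) / η)) = osc t (-(u - a)) := by
        unfold osc; congr 3; field_simp
      rw [h2, ← osc_add_right]; congr 1; ring
    rw [this]; ring
  rw [e, integral_sub_right_eq_self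
    (fun u => (fun y => (η⁻¹ : ℂ) * (osc t (-a) * (w y * osc (η * t) (-y)))) (u / η)) a,
    Measure.integral_comp_div (fun y => (η⁻¹ : ℂ) * (osc t (-a) * (w y * osc (η * t) (-y)))) η,
    integral_const_mul, integral_const_mul, abs_of_pos hη, Complex.real_smul]
  have : (η : ℂ) ≠ 0 := by exact_mod_cast hη.ne'
  field_simp


/-! ### The fixed bump and the smooth step -/

/-- The fixed bump (`= 1` near `[-1/2,1/2]`, supported in `(-1,1)`) before normalisation. -/
def bmp : ContDiffBump (0 : ℝ) := ⟨1 / 2, 1, by norm_num, by norm_num⟩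

/-- `phi` : smooth, even, nonnegative, supported in `(-1, 1)`, integral `1`. -/
def phi (x : ℝ) : ℝ := bmp.normed volume x

lemma phi_nonneg (x : ℝ) : 0 ≤ phi x := bmp.nonneg_normed x

lemma contDiff_phi : ContDiff ℝ ∞ phi := by
  have := bmp.contDiff_normed (μ := (volume : Measure ℝ)) (n := ⊤)
  exact this

lemma continuous_phi : Continuous phi := contDiff_phi.continuous

lemma integral_phi : ∫ x, phi x = 1 := bmp.integral_normed

lemma phi_eq_zero {x : ℝ} (hx : 1 ≤ |x|) : phi x = 0 := by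
  have h : x ∉ Function.support (bmp.normed (volume : Measure ℝ)) := by
    rw [bmp.support_normed_eq]
    simp only [Metric.mem_ball, dist_zero_right, Real.norm_eq_abs, not_lt]
    exact hx
  simpa [phi] using h

lemma hasCompactSupport_phi : HasCompactSupport phi := by
  have := bmp.hasCompactSupport_normed (μ := (volume : Measure ℝ))
  exact this

lemma integrable_phi : Integrable phi :=
  continuous_phi.integrable_of_hasCompactSupport hasCompactSupport_phi

lemma phi_neg (x : ℝ) : phi (-x) = phi x := by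
  unfold phi; exact bmp.normed_neg x

/-- The smooth step: `0` for `x ≤ -1`, `1` for `x ≥ 1`, nondecreasing, `C^∞`. -/
def Phi (x : ℝ) : ℝ := ∫ y in (-1 : ℝ)..x, phi y

lemma hasDerivAt_Phi (x : ℝ) : HasDerivAt Phi (phi x) x :=
  (continuous_phi.integral_hasStrictDerivAt (-1) x).hasDerivAt

lemma deriv_Phi : deriv Phi = phi := by
  ext x; exact (hasDerivAt_Phi x).deriv

lemma differentiable_Phi : Differentiable ℝ Phi := fun x => (hasDerivAt_Phi x).differentiableAt

lemma contDiff_Phi : ContDiff ℝ ∞ Phi := by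
  rw [contDiff_infty_iff_deriv]
  exact ⟨differentiable_Phi, by rw [deriv_Phi]; exact contDiff_phi⟩

lemma continuous_Phi : Continuous Phi := contDiff_Phi.continuous

lemma monotone_Phi : Monotone Phi := by
  apply monotone_of_deriv_nonneg differentiable_Phi
  intro x; rw [deriv_Phi]; exact phi_nonneg x

lemma Phi_of_le {x : ℝ} (hx : x ≤ -1) : Phi x = 0 := by
  unfold Phi
  rw [intervalIntegral.integral_symm, intervalIntegral.integral_of_le hx]
  rw [neg_eq_zero]
  rw [setIntegral_eq_zero_of_forall_eq_zero]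
  intro y hy
  apply phi_eq_zero
  rw [abs_of_nonpos (by linarith [hy.2])]
  linarith [hy.2]

lemma Phi_of_ge {x : ℝ} (hx : 1 ≤ x) : Phi x = 1 := by
  unfold Phi
  rw [intervalIntegral.integral_of_le (by linarith)]
  refine Eq.trans ?_ integral_phi
  apply setIntegral_eq_integral_of_forall_compl_eq_zero
  intro y hy
  apply phi_eq_zero
  simp only [mem_Ioc, not_and_or, not_lt, not_le] at hy
  rcases hy with h | h
  · rw [abs_of_nonpos (by linarith)]; linarith
  · rw [abs_of_nonneg (by linarith)]; linarith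

lemma Phi_nonneg (x : ℝ) : 0 ≤ Phi x := by
  have h := monotone_Phi (min_le_left x (-1))
  rw [Phi_of_le (min_le_right x (-1))] at h
  exact h

lemma Phi_le_one (x : ℝ) : Phi x ≤ 1 := by
  have h := monotone_Phi (le_max_left x 1)
  rw [Phi_of_ge (le_max_right x 1)] at h
  exact h

/-! ### Smoothed indicator of `[a, b]` at scale `η` -/

/-- Smoothed indicator function of `[a,b]` at scale `η`: equals `1` on `[a+η, b-η]`,
`0` outside `(a-η, b+η)`. -/
def cutL (a b η u : ℝ) : ℝ := Phi ((u - a) / η) - Phi ((u - b) / η)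

lemma cutL_add (a b c η u : ℝ) : cutL a b η u + cutL b c η u = cutL a c η u := by
  unfold cutL; ring

lemma cutL_self (a η u : ℝ) : cutL a a η u = 0 := by unfold cutL; ring

lemma cutL_translate (a b η c u : ℝ) : cutL (a + c) (b + c) η (u + c) = cutL a b η u := by
  unfold cutL; congr 2 <;> ring

section cut

variable {a b η : ℝ}

lemma cutL_nonneg (hη : 0 < η) (hab : a ≤ b) (u : ℝ) : 0 ≤ cutL a b η u := by
  unfold cutL
  have : Phi ((u - b) / η) ≤ Phi ((u - a) / η) := by
    apply monotone_Phi; gcongr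
  linarith

lemma cutL_le_one (u : ℝ) : cutL a b η u ≤ 1 := by
  unfold cutL
  linarith [Phi_le_one ((u - a) / η), Phi_nonneg ((u - b) / η)]

lemma cutL_eq_one (hη : 0 < η) {u : ℝ} (h1 : a + η ≤ u) (h2 : u ≤ b - η) : cutL a b η u = 1 := by
  unfold cutL
  rw [Phi_of_ge, Phi_of_le]
  · ring
  · rw [div_le_iff₀ hη]; linarith
  · rw [le_div_iff₀ hη]; linarith

lemma cutL_eq_zero_left (hη : 0 < η) (hab : a ≤ b) {u : ℝ} (h : u ≤ a - η) :
    cutL a b η u = 0 := by
  unfold cutL
  rw [Phi_of_le, Phi_of_le]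
  · ring
  · rw [div_le_iff₀ hη]; linarith
  · rw [div_le_iff₀ hη]; linarith

lemma cutL_eq_zero_right (hη : 0 < η) (hab : a ≤ b) {u : ℝ} (h : b + η ≤ u) :
    cutL a b η u = 0 := by
  unfold cutL
  rw [Phi_of_ge, Phi_of_ge]
  · ring
  · rw [le_div_iff₀ hη]; linarith
  · rw [le_div_iff₀ hη]; linarith

lemma cutL_ne_zero (hη : 0 < η) (hab : a ≤ b) {u : ℝ} (h : cutL a b η u ≠ 0) :
    a - η < u ∧ u < b + η := by
  constructor
  · by_contra hh
    exact h (cutL_eq_zero_left hη hab (not_lt.mp hh))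
  · by_contra hh
    exact h (cutL_eq_zero_right hη hab (not_lt.mp hh))

/-- Difference with the sharp indicator is supported near the end points. -/
lemma abs_cutL_sub_indicator_le (hη : 0 < η) (hab : a ≤ b) (u : ℝ) :
    |cutL a b η u - (if a ≤ u ∧ u ≤ b then 1 else 0)| ≤
      (if |u - a| < η ∨ |u - b| < η then 1 else 0) := by
  have h0 := cutL_nonneg hη hab u
  have h1 := cutL_le_one (a := a) (b := b) (η := η) u
  by_cases hc : |u - a| < η ∨ |u - b| < η
  · rw [if_pos hc]
    split_ifs <;> rw [abs_le] <;> constructor <;> linarith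
  · rw [if_neg hc]
    push Not at hc
    obtain ⟨ha, hb⟩ := hc
    apply le_of_eq
    rw [abs_eq_zero, sub_eq_zero]
    rcases lt_or_ge u a with h | h
    · rw [if_neg (by intro hh; linarith [hh.1])]
      rw [abs_of_neg (by linarith)] at ha
      exact cutL_eq_zero_left hη hab (by linarith)
    · rcases lt_or_ge b u with h' | h'
      · rw [if_neg (by intro hh; linarith [hh.2])]
        rw [abs_of_pos (by linarith)] at hb
        exact cutL_eq_zero_right hη hab (by linarith)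
      · rw [if_pos ⟨h, h'⟩]
        rw [abs_of_nonneg (by linarith)] at ha
        rw [abs_of_nonpos (by linarith)] at hb
        exact cutL_eq_one hη (by linarith) (by linarith)

lemma contDiff_cutL : ContDiff ℝ ∞ (cutL a b η) := by
  unfold cutL
  refine ContDiff.sub ?_ ?_
  · exact contDiff_Phi.comp (by fun_prop)
  · exact contDiff_Phi.comp (by fun_prop)

lemma hasCompactSupport_cutL (hη : 0 < η) (hab : a ≤ b) : HasCompactSupport (cutL a b η) := by
  apply HasCompactSupport.intro (isCompact_Icc (a := a - η) (b := b + η))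
  intro u hu
  simp only [mem_Icc, not_and_or, not_le] at hu
  rcases hu with h | h
  · exact cutL_eq_zero_left hη hab h.le
  · exact cutL_eq_zero_right hη hab h.le

/-- complex version -/
def cutC (a b η u : ℝ) : ℂ := (cutL a b η u : ℂ)

lemma contDiff_cutC : ContDiff ℝ ∞ (cutC a b η) :=
  Complex.ofRealCLM.contDiff.comp contDiff_cutL

lemma hasCompactSupport_cutC (hη : 0 < η) (hab : a ≤ b) : HasCompactSupport (cutC a b η) :=
  (hasCompactSupport_cutL hη hab).comp_left (g := ((↑) : ℝ → ℂ)) Complex.ofReal_zero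

/-- The kernel of `cutL`. -/
def kerC (a b η t : ℝ) : ℂ := ker (cutC a b η) t

lemma integrable_kerC (hη : 0 < η) (hab : a ≤ b) : Integrable (kerC a b η) :=
  ker_integrable contDiff_cutC (hasCompactSupport_cutC hη hab)

lemma integrable_cutC (hη : 0 < η) (hab : a ≤ b) : Integrable (cutC a b η) :=
  contDiff_cutC.continuous.integrable_of_hasCompactSupport (hasCompactSupport_cutC hη hab)

lemma continuous_kerC (hη : 0 < η) (hab : a ≤ b) : Continuous (kerC a b η) :=
  continuous_ker (integrable_cutC hη hab)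

/-- **The representation** `cutL a b η u = ∫ kerC(t) e^{itu} dt`. -/
theorem cutL_eq_integral (hη : 0 < η) (hab : a ≤ b) (u : ℝ) :
    ∫ t, kerC a b η t * osc t u = (cutL a b η u : ℂ) :=
  inversion_smooth contDiff_cutC (hasCompactSupport_cutC hη hab) u

/-- `pk s = (1/2π) ∫ phi(y) e^{-isy} dy`. -/
def pk (s : ℝ) : ℂ := ker (fun x => (phi x : ℂ)) s

lemma pk_decay (k : ℕ) : ∃ C : ℝ, 0 < C ∧ ∀ s, ‖pk s‖ * (1 + |s|) ^ k ≤ C :=
  ker_decay (Complex.ofRealCLM.contDiff.comp contDiff_phi)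
    (hasCompactSupport_phi.comp_left (g := ((↑) : ℝ → ℂ)) Complex.ofReal_zero) k

lemma continuous_pk : Continuous pk :=
  continuous_ker (integrable_phi.ofReal)

/-- The constants `Ck k` with `‖pk s‖ (1+|s|)^k ≤ Ck k`. -/
def Ck (k : ℕ) : ℝ := (pk_decay k).choose

lemma Ck_pos (k : ℕ) : 0 < Ck k := (pk_decay k).choose_spec.1

lemma pk_le (k : ℕ) (s : ℝ) : ‖pk s‖ ≤ Ck k / (1 + |s|) ^ k := by
  rw [le_div_iff₀ (by positivity)]
  exact (pk_decay k).choose_spec.2 s

lemma hasDerivAt_cutL (u : ℝ) :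
    HasDerivAt (cutL a b η) (η⁻¹ * phi ((u - a) / η) - η⁻¹ * phi ((u - b) / η)) u := by
  unfold cutL
  have h : ∀ c : ℝ, HasDerivAt (fun u => Phi ((u - c) / η)) (η⁻¹ * phi ((u - c) / η)) u := by
    intro c
    have h1 : HasDerivAt (fun u : ℝ => (u - c) / η) (1 / η) u :=
      ((hasDerivAt_id u).sub_const c).div_const η
    have h2 := (hasDerivAt_Phi ((u - c) / η)).comp u h1
    exact h2.congr_deriv (by rw [one_div]; ring)
  exact (h a).sub (h b)

lemma deriv_cutC : deriv (cutC a b η) = fun u =>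
    (fun u => (η⁻¹ : ℂ) * (fun x => (phi x : ℂ)) ((u - a) / η)) u -
      (fun u => (η⁻¹ : ℂ) * (fun x => (phi x : ℂ)) ((u - b) / η)) u := by
  ext u
  have h := (hasDerivAt_cutL (a := a) (b := b) (η := η) u).ofReal_comp
  have h2 := h.deriv
  unfold cutC
  rw [h2]
  push_cast
  ring

lemma kerC_mul (hη : 0 < η) (hab : a ≤ b) (t : ℝ) :
    (I * t) * kerC a b η t = (osc t (-a) - osc t (-b)) * pk (η * t) := by
  have hint : ∀ c : ℝ, Integrable (fun u : ℝ => (η⁻¹ : ℂ) * (fun x => (phi x : ℂ)) ((u - c) / η)) := by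
    intro c
    have : Integrable (fun u : ℝ => (phi ((u - c) / η) : ℂ)) := by
      have h := (integrable_phi.ofReal (𝕜 := ℂ)).comp_div hη.ne'
      exact h.comp_sub_right c
    exact this.const_mul _
  unfold kerC
  rw [← ker_deriv (integrable_cutC hη hab)
    (contDiff_cutC.differentiable (by simp)) ?_, deriv_cutC,
    ker_sub (hint a) (hint b), ker_dilate (fun x => (phi x : ℂ)) a hη,
    ker_dilate (fun x => (phi x : ℂ)) b hη]
  · unfold pk; ring
  · rw [deriv_cutC]; exact (hint a).sub (hint b)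

lemma norm_osc_sub_le (t u v : ℝ) : ‖osc t u - osc t v‖ ≤ |t| * |u - v| := by
  have h : osc t u - osc t v = osc t v * (cexp (I * ((t * (u - v) : ℝ) : ℂ)) - 1) := by
    have : cexp (I * ((t * (u - v) : ℝ) : ℂ)) = osc t (u - v) := by
      unfold osc; rw [mul_comm]
    rw [this, mul_sub, ← osc_add_right, mul_one]; congr 2; ring
  rw [h, norm_mul, norm_osc, one_mul]
  refine (Real.norm_exp_I_mul_ofReal_sub_one_le (x := t * (u - v))).trans ?_
  rw [Real.norm_eq_abs, abs_mul]

lemma norm_osc_sub_le_two (t u v : ℝ) : ‖osc t u - osc t v‖ ≤ 2 := by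
  refine (norm_sub_le _ _).trans ?_
  rw [norm_osc, norm_osc]; norm_num

/-- First bound for the kernel. -/
lemma norm_kerC_le_div (hη : 0 < η) (hab : a ≤ b) {t : ℝ} (ht : t ≠ 0) :
    ‖kerC a b η t‖ ≤ 2 / |t| * ‖pk (η * t)‖ := by
  have h := congrArg norm (kerC_mul hη hab t)
  rw [norm_mul, norm_mul, norm_mul, Complex.norm_I, one_mul, Complex.norm_real,
    Real.norm_eq_abs] at h
  have hp : 0 < |t| := abs_pos.mpr ht
  rw [div_mul_eq_mul_div, le_div_iff₀ hp, mul_comm, h]
  gcongr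
  exact norm_osc_sub_le_two _ _ _

/-- Second bound for the kernel. -/
lemma norm_kerC_le_sub (hη : 0 < η) (hab : a ≤ b) (t : ℝ) :
    ‖kerC a b η t‖ ≤ (b - a) * ‖pk (η * t)‖ := by
  have key : ∀ t : ℝ, t ≠ 0 → ‖kerC a b η t‖ ≤ (b - a) * ‖pk (η * t)‖ := by
    intro t ht
    have h := congrArg norm (kerC_mul hη hab t)
    rw [norm_mul, norm_mul, norm_mul, Complex.norm_I, one_mul, Complex.norm_real,
      Real.norm_eq_abs] at h
    have hp : 0 < |t| := abs_pos.mpr ht
    have h2 : ‖osc t (-a) - osc t (-b)‖ ≤ |t| * (b - a) := by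
      refine (norm_osc_sub_le _ _ _).trans (le_of_eq ?_)
      congr 1
      rw [abs_of_nonneg (by linarith)]; ring
    have h3 : |t| * ‖kerC a b η t‖ ≤ |t| * ((b - a) * ‖pk (η * t)‖) := by
      rw [h, ← mul_assoc]; gcongr
    exact le_of_mul_le_mul_left h3 hp
  have hcl : IsClosed {t : ℝ | ‖kerC a b η t‖ ≤ (b - a) * ‖pk (η * t)‖} :=
    isClosed_le (continuous_kerC hη hab).norm
      (continuous_const.mul (continuous_pk.comp (continuous_const.mul continuous_id)).norm)
  have hd : Dense ({0}ᶜ : Set ℝ) := dense_compl_singleton 0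
  have hsub : ({0}ᶜ : Set ℝ) ⊆ {t : ℝ | ‖kerC a b η t‖ ≤ (b - a) * ‖pk (η * t)‖} :=
    fun t ht => key t ht
  have : closure ({0}ᶜ : Set ℝ) ⊆ {t : ℝ | ‖kerC a b η t‖ ≤ (b - a) * ‖pk (η * t)‖} :=
    hcl.closure_subset_iff.mpr hsub
  exact this (hd t)


/-! ### `L¹` bounds for the kernel -/

/-- A one-sided `L¹` bound from the three pointwise bounds. -/
lemma setIntegral_Ioi_le {g : ℝ → ℝ} (hg : IntegrableOn g (Ioi 0)) {L η c0 c1 : ℝ}
    (hη : 0 < η) (hL : η ≤ L)
    (h1 : ∀ t, 0 < t → g t ≤ L * c0) (h2 : ∀ t, 0 < t → g t ≤ 2 / t * c0)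
    (h3 : ∀ t, 0 < t → g t ≤ 2 * c1 / η * t ^ (-2 : ℝ)) :
    ∫ t in Ioi 0, g t ≤ c0 * (1 + 2 * Real.log (L / η)) + 2 * c1 := by
  have hLp : 0 < L := lt_of_lt_of_le hη hL
  have hA : 0 < 1 / L := by positivity
  have hB : 0 < 1 / η := by positivity
  have hAB : 1 / L ≤ 1 / η := one_div_le_one_div_of_le hη hL
  have hs1 : Ioi (0 : ℝ) = Ioc 0 (1 / L) ∪ Ioi (1 / L) := by
    rw [Ioc_union_Ioi_eq_Ioi hA.le]
  have hs2 : Ioi (1 / L : ℝ) = Ioc (1 / L) (1 / η) ∪ Ioi (1 / η) := by
    rw [Ioc_union_Ioi_eq_Ioi hAB]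
  have i1 : IntegrableOn g (Ioc 0 (1 / L)) := hg.mono_set Ioc_subset_Ioi_self
  have i2 : IntegrableOn g (Ioi (1 / L)) := hg.mono_set (Ioi_subset_Ioi hA.le)
  have i3 : IntegrableOn g (Ioc (1 / L) (1 / η)) := i2.mono_set Ioc_subset_Ioi_self
  have i4 : IntegrableOn g (Ioi (1 / η)) := hg.mono_set (Ioi_subset_Ioi hB.le)
  have e1 : ∫ t in Ioi 0, g t = (∫ t in Ioc 0 (1 / L), g t) + ∫ t in Ioi (1 / L), g t := by
    rw [hs1, setIntegral_union Ioc_disjoint_Ioi_same measurableSet_Ioi i1 i2]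
  have e2 : ∫ t in Ioi (1 / L), g t =
      (∫ t in Ioc (1 / L) (1 / η), g t) + ∫ t in Ioi (1 / η), g t := by
    rw [hs2, setIntegral_union Ioc_disjoint_Ioi_same measurableSet_Ioi i3 i4]
  have b1 : ∫ t in Ioc 0 (1 / L), g t ≤ c0 := by
    calc ∫ t in Ioc 0 (1 / L), g t ≤ ∫ t in Ioc 0 (1 / L), L * c0 := by
          apply setIntegral_mono_on i1 (integrableOn_const (by simp)) measurableSet_Ioc
          intro t ht; exact h1 t ht.1
      _ = c0 := by
          rw [setIntegral_const]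
          simp only [Real.volume_real_Ioc_of_le hA.le, smul_eq_mul]
          field_simp
          ring
  have b2 : ∫ t in Ioc (1 / L) (1 / η), g t ≤ 2 * c0 * Real.log (L / η) := by
    have hne : (0 : ℝ) ∉ Set.uIcc (1 / L) (1 / η) := by
      rw [Set.uIcc_of_le hAB]; intro h; linarith [h.1]
    have hint : IntervalIntegrable (fun t : ℝ => 2 / t * c0) volume (1 / L) (1 / η) := by
      have h : IntervalIntegrable (fun t : ℝ => t⁻¹) volume (1 / L) (1 / η) :=
        intervalIntegral.intervalIntegrable_inv (fun x hx h0 => hne (h0 ▸ hx)) continuousOn_id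
      have e : (fun t : ℝ => 2 / t * c0) = fun t => (2 * c0) * t⁻¹ := by
        ext t; rw [div_eq_mul_inv]; ring
      rw [e]; exact h.const_mul _
    calc ∫ t in Ioc (1 / L) (1 / η), g t ≤ ∫ t in Ioc (1 / L) (1 / η), 2 / t * c0 := by
          apply setIntegral_mono_on i3 ?_ measurableSet_Ioc
          · intro t ht; exact h2 t (hA.trans ht.1)
          · exact (intervalIntegrable_iff_integrableOn_Ioc_of_le hAB).mp hint
      _ = 2 * c0 * Real.log (L / η) := by
          rw [← intervalIntegral.integral_of_le hAB]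
          have e : (fun t : ℝ => 2 / t * c0) = fun t => (2 * c0) * t⁻¹ := by
            ext t; rw [div_eq_mul_inv]; ring
          rw [e, intervalIntegral.integral_const_mul, integral_inv hne]
          congr 2
          field_simp
  have b3 : ∫ t in Ioi (1 / η), g t ≤ 2 * c1 := by
    calc ∫ t in Ioi (1 / η), g t ≤ ∫ t in Ioi (1 / η), 2 * c1 / η * t ^ (-2 : ℝ) := by
          apply setIntegral_mono_on i4 ?_ measurableSet_Ioi
          · intro t ht; exact h3 t (hB.trans ht)
          · exact (integrableOn_Ioi_rpow_of_lt (by norm_num) hB).const_mul _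
      _ = 2 * c1 := by
          rw [integral_const_mul, integral_Ioi_rpow_of_lt (by norm_num) hB]
          have : ((-2 : ℝ) + 1) = -1 := by norm_num
          rw [this, Real.rpow_neg_one]
          field_simp
  rw [e1, e2]
  nlinarith

/-- `∫_ℝ g = ∫_{t>0} g(t) + g(-t)`. -/
lemma integral_eq_Ioi_add {g : ℝ → ℝ} (hg : Integrable g) :
    ∫ t, g t = (∫ t in Ioi 0, g t) + ∫ t in Ioi 0, g (-t) := by
  rw [← integral_add_compl (measurableSet_Iic (a := (0 : ℝ))) hg, compl_Iic, add_comm]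
  congr 1
  have := integral_comp_neg_Ioi (0 : ℝ) g
  rw [neg_zero] at this
  rw [this]

/-- The absolute constant of `integral_norm_kerC_le`. -/
def Cint : ℝ := 4 * (Ck 0 + Ck 1)

lemma Cint_pos : 0 < Cint := by
  unfold Cint
  have := Ck_pos 0
  have := Ck_pos 1
  positivity

/-- `∫ ‖kerC‖ ≤ C (1 + log((b-a)/η))`. -/
theorem integral_norm_kerC_le (hη : 0 < η) (hL : η ≤ b - a) :
    ∫ t, ‖kerC a b η t‖ ≤ Cint * (1 + Real.log ((b - a) / η)) := by
  have hab : a ≤ b := by linarith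
  have hint := (integrable_kerC hη hab).norm
  have q1 : ∀ t, ‖kerC a b η t‖ ≤ (b - a) * Ck 0 := by
    intro t
    refine (norm_kerC_le_sub hη hab t).trans ?_
    have := pk_le 0 (η * t)
    rw [pow_zero, div_one] at this
    have : 0 ≤ b - a := by linarith
    gcongr
  have q2 : ∀ t, t ≠ 0 → ‖kerC a b η t‖ ≤ 2 / |t| * Ck 0 := by
    intro t ht
    refine (norm_kerC_le_div hη hab ht).trans ?_
    have := pk_le 0 (η * t)
    rw [pow_zero, div_one] at this
    gcongr
  have q3 : ∀ t, t ≠ 0 → ‖kerC a b η t‖ ≤ 2 * Ck 1 / η * |t| ^ (-2 : ℝ) := by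
    intro t ht
    have hp : 0 < |t| := abs_pos.mpr ht
    refine (norm_kerC_le_div hη hab ht).trans ?_
    have h := pk_le 1 (η * t)
    rw [pow_one] at h
    have h' : ‖pk (η * t)‖ ≤ Ck 1 / (η * |t|) := by
      refine h.trans ?_
      rw [abs_mul, abs_of_pos hη]
      have := Ck_pos 1
      gcongr
      linarith [mul_pos hη hp]
    calc 2 / |t| * ‖pk (η * t)‖ ≤ 2 / |t| * (Ck 1 / (η * |t|)) := by gcongr
      _ = 2 * Ck 1 / η * |t| ^ (-2 : ℝ) := by
        rw [Real.rpow_neg hp.le, show (2 : ℝ) = ((2 : ℕ) : ℝ) by norm_num, Real.rpow_natCast]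
        push_cast
        field_simp
  rw [integral_eq_Ioi_add hint]
  have r1 : ∫ t in Ioi 0, ‖kerC a b η t‖ ≤
      Ck 0 * (1 + 2 * Real.log ((b - a) / η)) + 2 * Ck 1 := by
    apply setIntegral_Ioi_le hint.integrableOn hη hL
    · intro t _; exact q1 t
    · intro t ht; have := q2 t ht.ne'; rwa [abs_of_pos ht] at this
    · intro t ht; have := q3 t ht.ne'; rwa [abs_of_pos ht] at this
  have r2 : ∫ t in Ioi 0, ‖kerC a b η (-t)‖ ≤
      Ck 0 * (1 + 2 * Real.log ((b - a) / η)) + 2 * Ck 1 := by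
    apply setIntegral_Ioi_le (hint.comp_neg).integrableOn hη hL
    · intro t _; exact q1 (-t)
    · intro t ht; have := q2 (-t) (neg_ne_zero.mpr ht.ne'); rwa [abs_neg, abs_of_pos ht] at this
    · intro t ht; have := q3 (-t) (neg_ne_zero.mpr ht.ne'); rwa [abs_neg, abs_of_pos ht] at this
  have hlog : 0 ≤ Real.log ((b - a) / η) := by
    apply Real.log_nonneg; rw [le_div_iff₀ hη]; linarith
  have := Ck_pos 0
  have := Ck_pos 1
  unfold Cint
  nlinarith [mul_nonneg (Ck_pos 1).le hlog]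

/-- One-sided tail bound. -/
lemma setIntegral_tail_le {g : ℝ → ℝ} (hg : IntegrableOn g (Ioi 0)) {D T : ℝ} (hT : 0 < T)
    {k : ℕ} (hk : 0 < k) (h : ∀ t, T < t → g t ≤ D * t ^ (-(k : ℝ) - 1)) :
    ∫ t in Ioi T, g t ≤ D / k * T ^ (-(k : ℝ)) := by
  have hk' : (0 : ℝ) < k := by exact_mod_cast hk
  calc ∫ t in Ioi T, g t ≤ ∫ t in Ioi T, D * t ^ (-(k : ℝ) - 1) := by
        apply setIntegral_mono_on (hg.mono_set (Ioi_subset_Ioi hT.le)) ?_ measurableSet_Ioi
        · intro t ht; exact h t ht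
        · exact (integrableOn_Ioi_rpow_of_lt (by linarith) hT).const_mul _
    _ = D / k * T ^ (-(k : ℝ)) := by
        rw [integral_const_mul, integral_Ioi_rpow_of_lt (by linarith) hT]
        have : -(k : ℝ) - 1 + 1 = -k := by ring
        rw [this]
        field_simp

/-- `∫_{|t|>T} ‖kerC‖ ≤ 4 C_k (ηT)^{-k}`. -/
theorem tail_norm_kerC_le (hη : 0 < η) (hab : a ≤ b) {T : ℝ} (hT : 0 < T) {k : ℕ} (hk : 0 < k) :
    ∫ t in {t : ℝ | T < |t|}, ‖kerC a b η t‖ ≤ 4 * Ck k / (η * T) ^ k := by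
  have hint := (integrable_kerC hη hab).norm
  have hk' : (1 : ℝ) ≤ k := by exact_mod_cast hk
  have q : ∀ t, t ≠ 0 → ‖kerC a b η t‖ ≤ 2 * Ck k / η ^ k * |t| ^ (-(k : ℝ) - 1) := by
    intro t ht
    have hp : 0 < |t| := abs_pos.mpr ht
    refine (norm_kerC_le_div hη hab ht).trans ?_
    have h := pk_le k (η * t)
    have h' : ‖pk (η * t)‖ ≤ Ck k / (η * |t|) ^ k := by
      refine h.trans ?_
      rw [abs_mul, abs_of_pos hη]
      have := Ck_pos k
      gcongr
      linarith [mul_pos hη hp]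
    calc 2 / |t| * ‖pk (η * t)‖ ≤ 2 / |t| * (Ck k / (η * |t|) ^ k) := by gcongr
      _ = 2 * Ck k / η ^ k * |t| ^ (-(k : ℝ) - 1) := by
        rw [Real.rpow_sub_one hp.ne', Real.rpow_neg hp.le, Real.rpow_natCast, mul_pow]
        field_simp
  have hset : {t : ℝ | T < |t|} = Ioi T ∪ Iio (-T) := by
    ext t; simp only [Set.mem_ofPred_eq, mem_union, mem_Ioi, mem_Iio, lt_abs]
    constructor
    · rintro (h | h)
      · exact Or.inl h
      · exact Or.inr (by linarith)
    · rintro (h | h)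
      · exact Or.inl h
      · exact Or.inr (by linarith)
  have hdisj : Disjoint (Ioi T) (Iio (-T)) := by
    rw [Set.disjoint_left]; intro x hx hx'
    simp only [mem_Ioi, mem_Iio] at hx hx'; linarith
  rw [hset, setIntegral_union hdisj measurableSet_Iio hint.integrableOn hint.integrableOn]
  have r1 : ∫ t in Ioi T, ‖kerC a b η t‖ ≤ (2 * Ck k / η ^ k) / k * T ^ (-(k : ℝ)) := by
    apply setIntegral_tail_le hint.integrableOn hT hk
    intro t ht
    have := q t (hT.trans ht).ne'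
    rwa [abs_of_pos (hT.trans ht)] at this
  have r2 : ∫ t in Iio (-T), ‖kerC a b η t‖ ≤ (2 * Ck k / η ^ k) / k * T ^ (-(k : ℝ)) := by
    have e : ∫ t in Iio (-T), ‖kerC a b η t‖ = ∫ t in Ioi T, ‖kerC a b η (-t)‖ := by
      rw [← integral_Iic_eq_integral_Iio]
      exact (integral_comp_neg_Ioi T (fun t => ‖kerC a b η t‖)).symm
    rw [e]
    apply setIntegral_tail_le (g := fun t => ‖kerC a b η (-t)‖) hint.comp_neg.integrableOn hT hk
    intro t ht
    have := q (-t) (neg_ne_zero.mpr (hT.trans ht).ne')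
    rwa [abs_neg, abs_of_pos (hT.trans ht)] at this
  have hC := Ck_pos k
  have hfin : (2 * Ck k / η ^ k) / k * T ^ (-(k : ℝ)) ≤ 2 * Ck k / (η * T) ^ k := by
    rw [Real.rpow_neg hT.le, Real.rpow_natCast, mul_pow]
    calc (2 * Ck k / η ^ k) / k * (T ^ k)⁻¹ ≤ (2 * Ck k / η ^ k) / 1 * (T ^ k)⁻¹ := by gcongr
      _ = _ := by field_simp
  calc _ ≤ 2 * Ck k / (η * T) ^ k + 2 * Ck k / (η * T) ^ k := by linarith
    _ = _ := by ring

end cut

/-! ### Finite sums: separation of variables -/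

lemma integrable_mul_osc {m : ℝ → ℂ} (hm : Integrable m) (u : ℝ) :
    Integrable fun t => m t * osc t u :=
  hm.mul_bdd (c := 1) (continuous_osc_left u).aestronglyMeasurable
    (Eventually.of_forall fun _ => (norm_osc _ _).le)

section sums

variable {ι : Type*} (s : Finset ι) (f : ι → ℂ) (u : ι → ℝ)

lemma continuous_sum_osc : Continuous fun t => ∑ i ∈ s, f i * osc t (u i) :=
  continuous_finsetSum _ fun _ _ => continuous_const.mul (continuous_osc_left _)

lemma norm_sum_osc_le (t : ℝ) : ‖∑ i ∈ s, f i * osc t (u i)‖ ≤ ∑ i ∈ s, ‖f i‖ := by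
  refine (norm_sum_le _ _).trans (le_of_eq ?_)
  apply Finset.sum_congr rfl
  intro i _
  rw [norm_mul, norm_osc, mul_one]

/-- If `w (u i) = ∫ m(t) e^{itu_i}` for all `i ∈ s`, then
`∑ f_i w_i = ∫ m(t) ∑ f_i e^{it u_i}`. -/
theorem sum_eq_integral {m : ℝ → ℂ} (hm : Integrable m) {w : ι → ℂ}
    (hw : ∀ i ∈ s, ∫ t, m t * osc t (u i) = w i) :
    ∑ i ∈ s, f i * w i = ∫ t, m t * ∑ i ∈ s, f i * osc t (u i) := by
  have e : (fun t => m t * ∑ i ∈ s, f i * osc t (u i))
      = fun t => ∑ i ∈ s, f i * (m t * osc t (u i)) := by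
    ext t; rw [Finset.mul_sum]; apply Finset.sum_congr rfl; intro i _; ring
  rw [e, integral_finsetSum]
  · apply Finset.sum_congr rfl
    intro i hi
    rw [integral_const_mul, hw i hi]
  · intro i _
    exact (integrable_mul_osc hm _).const_mul _

/-- Bound with an arbitrary kernel: main part `|t| ≤ T`, tail `|t| > T`. -/
theorem norm_integral_mul_le {m : ℝ → ℂ} (hm : Integrable m) {D : ℝ → ℂ} (hD : Continuous D)
    {T B M : ℝ} (hB0 : 0 ≤ B) (hB : ∀ t, |t| ≤ T → ‖D t‖ ≤ B) (hM : ∀ t, ‖D t‖ ≤ M) :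
    ‖∫ t, m t * D t‖ ≤ (∫ t, ‖m t‖) * B + (∫ t in {t : ℝ | T < |t|}, ‖m t‖) * M := by
  have hM0 : 0 ≤ M := (norm_nonneg _).trans (hM 0)
  have hmD : Integrable fun t => ‖m t‖ * ‖D t‖ := by
    have := hm.norm.mul_bdd (c := M) (g := fun t => ‖D t‖) hD.norm.aestronglyMeasurable
      (Eventually.of_forall fun t => by rw [norm_norm]; exact hM t)
    exact this
  have hmeas : MeasurableSet {t : ℝ | T < |t|} := by
    exact measurableSet_lt measurable_const continuous_abs.measurable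
  calc ‖∫ t, m t * D t‖ ≤ ∫ t, ‖m t‖ * ‖D t‖ := by
        refine (norm_integral_le_integral_norm _).trans (le_of_eq ?_)
        congr 1; ext t; rw [norm_mul]
    _ = (∫ t in {t : ℝ | T < |t|}, ‖m t‖ * ‖D t‖) +
          ∫ t in {t : ℝ | T < |t|}ᶜ, ‖m t‖ * ‖D t‖ :=
        (integral_add_compl hmeas hmD).symm
    _ ≤ (∫ t in {t : ℝ | T < |t|}, ‖m t‖ * M) + ∫ t in {t : ℝ | T < |t|}ᶜ, ‖m t‖ * B := by
        apply add_le_add
        · apply setIntegral_mono_on hmD.integrableOn (hm.norm.mul_const _).integrableOn hmeas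
          intro t _; gcongr; exact hM t
        · apply setIntegral_mono_on hmD.integrableOn (hm.norm.mul_const _).integrableOn
            hmeas.compl
          intro t ht
          gcongr
          apply hB
          simpa using ht
    _ ≤ (∫ t in {t : ℝ | T < |t|}, ‖m t‖) * M + (∫ t, ‖m t‖) * B := by
        rw [integral_mul_const, integral_mul_const]
        have h : ∫ t in {t : ℝ | T < |t|}ᶜ, ‖m t‖ ≤ ∫ t, ‖m t‖ :=
          setIntegral_le_integral hm.norm (Eventually.of_forall fun t => norm_nonneg _)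
        gcongr
    _ = _ := by ring


/-- Same without splitting: only the sup bound. -/
theorem norm_integral_mul_le' {m : ℝ → ℂ} (hm : Integrable m) {D : ℝ → ℂ}
    {B : ℝ} (hB : ∀ t, ‖D t‖ ≤ B) : ‖∫ t, m t * D t‖ ≤ (∫ t, ‖m t‖) * B := by
  calc ‖∫ t, m t * D t‖ ≤ ∫ t, ‖m t‖ * B := by
        apply norm_integral_le_of_norm_le (hm.norm.mul_const _)
        refine Eventually.of_forall fun t => ?_
        rw [norm_mul]; gcongr; exact hB t
    _ = _ := integral_mul_const _ _

variable {a b η : ℝ}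

theorem sum_cutL_eq (hη : 0 < η) (hab : a ≤ b) :
    ∑ i ∈ s, f i * (cutL a b η (u i) : ℂ) =
      ∫ t, kerC a b η t * ∑ i ∈ s, f i * osc t (u i) :=
  sum_eq_integral s f u (integrable_kerC hη hab) (fun i _ => cutL_eq_integral hη hab (u i))

/-- `|∑ f_i cutL(u_i)| ≤ ∫ ‖kerC(t)‖ |∑ f_i e^{itu_i}| dt`. -/
theorem norm_sum_cutL_le_integral (hη : 0 < η) (hab : a ≤ b) :
    ‖∑ i ∈ s, f i * (cutL a b η (u i) : ℂ)‖ ≤
      ∫ t, ‖kerC a b η t‖ * ‖∑ i ∈ s, f i * osc t (u i)‖ := by
  rw [sum_cutL_eq s f u hη hab]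
  refine (norm_integral_le_integral_norm _).trans (le_of_eq ?_)
  congr 1; ext t; rw [norm_mul]

/-- **Separation with truncation**. -/
theorem norm_sum_cutL_le (hη : 0 < η) (hL : η ≤ b - a) {T B : ℝ} (hT : 0 < T) {k : ℕ}
    (hk : 0 < k) (hB : ∀ t, |t| ≤ T → ‖∑ i ∈ s, f i * osc t (u i)‖ ≤ B) :
    ‖∑ i ∈ s, f i * (cutL a b η (u i) : ℂ)‖ ≤
      Cint * (1 + Real.log ((b - a) / η)) * B +
        4 * Ck k / (η * T) ^ k * ∑ i ∈ s, ‖f i‖ := by
  have hab : a ≤ b := by linarith
  have hB0 : 0 ≤ B := (norm_nonneg _).trans (hB 0 (by simpa using hT.le))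
  rw [sum_cutL_eq s f u hη hab]
  refine (norm_integral_mul_le (integrable_kerC hη hab) (continuous_sum_osc s f u) hB0 hB
    (norm_sum_osc_le s f u)).trans ?_
  have h1 := integral_norm_kerC_le hη hL
  have h2 := tail_norm_kerC_le (a := a) (b := b) hη hab hT hk
  have h3 : 0 ≤ ∑ i ∈ s, ‖f i‖ := Finset.sum_nonneg fun i _ => norm_nonneg _
  gcongr

/-- Replace a sharp cut-off by the smooth one. -/
theorem norm_sum_sharp_sub_cutL_le (hη : 0 < η) (hab : a ≤ b) :
    ‖∑ i ∈ s.filter (fun i => a ≤ u i ∧ u i ≤ b), f i -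
        ∑ i ∈ s, f i * (cutL a b η (u i) : ℂ)‖ ≤
      ∑ i ∈ s.filter (fun i => |u i - a| < η ∨ |u i - b| < η), ‖f i‖ := by
  classical
  rw [Finset.sum_filter, Finset.sum_filter, ← Finset.sum_sub_distrib]
  refine (norm_sum_le _ _).trans (Finset.sum_le_sum fun i _ => ?_)
  have h := abs_cutL_sub_indicator_le (a := a) (b := b) hη hab (u i)
  have e : (if a ≤ u i ∧ u i ≤ b then f i else 0) - f i * (cutL a b η (u i) : ℂ) =
      -(f i * ((cutL a b η (u i) - (if a ≤ u i ∧ u i ≤ b then 1 else 0) : ℝ) : ℂ)) := by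
    split_ifs <;> push_cast <;> ring
  rw [e, norm_neg, norm_mul, Complex.norm_real, Real.norm_eq_abs]
  calc ‖f i‖ * |cutL a b η (u i) - (if a ≤ u i ∧ u i ≤ b then 1 else 0)|
      ≤ ‖f i‖ * (if |u i - a| < η ∨ |u i - b| < η then 1 else 0) := by gcongr
    _ = _ := by split_ifs <;> simp

end sums

/-! ### Partition into smooth cells -/

/-- `∑_{j<n} cell_j = cutL a (a+nκ) η`, `cell_j = cutL (a+jκ) (a+(j+1)κ) η`. -/
lemma sum_range_cutL (a κ η u : ℝ) (n : ℕ) :
    ∑ j ∈ Finset.range n, cutL (a + j * κ) (a + (j + 1) * κ) η u = cutL a (a + n * κ) η u := by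
  induction n with
  | zero => simp [cutL_self]
  | succ n ih =>
    rw [Finset.sum_range_succ, ih, cutL_add]
    push_cast
    rfl

/-- The partition of unity on `ℝ` with mesh `κ`: `cell κ j` is supported in
`((j-1)κ, (j+2)κ)`. -/
def cell (κ : ℝ) (j : ℤ) (u : ℝ) : ℝ := cutL (j * κ) ((j + 1) * κ) κ u

lemma cell_nonneg {κ : ℝ} (hκ : 0 < κ) (j : ℤ) (u : ℝ) : 0 ≤ cell κ j u :=
  cutL_nonneg hκ (by nlinarith) u

lemma cell_le_one {κ : ℝ} (j : ℤ) (u : ℝ) : cell κ j u ≤ 1 := cutL_le_one u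

lemma cell_ne_zero {κ : ℝ} (hκ : 0 < κ) {j : ℤ} {u : ℝ} (h : cell κ j u ≠ 0) :
    (j - 1) * κ < u ∧ u < (j + 2) * κ := by
  have := cutL_ne_zero hκ (by nlinarith) h
  constructor <;> nlinarith [this.1, this.2]

lemma sum_cell_Ico (κ u : ℝ) (J : ℤ) (n : ℕ) :
    ∑ j ∈ Finset.range n, cell κ (J + j) u = cutL (J * κ) ((J + n) * κ) κ u := by
  have := sum_range_cutL (J * κ) κ κ u n
  unfold cell
  convert this using 2
  · push_cast; congr 1 <;> ring
  · ring

/-- All the cells meeting `[A, B]` sum to one there. -/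
lemma sum_cell_eq_one {κ : ℝ} (hκ : 0 < κ) {u : ℝ} {J : ℤ} {n : ℕ}
    (h1 : (J + 1) * κ ≤ u) (h2 : u ≤ (J + n - 1) * κ) :
    ∑ j ∈ Finset.range n, cell κ (J + j) u = 1 := by
  rw [sum_cell_Ico]
  exact cutL_eq_one hκ (by linarith) (by linarith)

/-! ### Multiplicative form -/

/-- Smooth cut-off of `[A,B]` (multiplicatively, at logarithmic scale `η`). -/
def cutM (A B η x : ℝ) : ℝ := cutL (Real.log A) (Real.log B) η (Real.log x)

lemma cutM_nonneg {A B η : ℝ} (hη : 0 < η) (hA : 0 < A) (hAB : A ≤ B) (x : ℝ) :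
    0 ≤ cutM A B η x := cutL_nonneg hη (Real.log_le_log hA hAB) _

lemma cutM_le_one {A B η : ℝ} (x : ℝ) : cutM A B η x ≤ 1 := cutL_le_one _

lemma cutM_eq_one {A B η x : ℝ} (hη : 0 < η) (hA : 0 < A) (hB : 0 < B)
    (h1 : A * Real.exp η ≤ x) (h2 : x ≤ B * Real.exp (-η)) : cutM A B η x = 1 := by
  have hx : 0 < x := lt_of_lt_of_le (by positivity) h1
  apply cutL_eq_one hη
  · have := Real.log_le_log (by positivity) h1
    rwa [Real.log_mul hA.ne' (Real.exp_ne_zero _), Real.log_exp] at this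
  · have := Real.log_le_log hx h2
    rwa [Real.log_mul hB.ne' (Real.exp_ne_zero _), Real.log_exp] at this

lemma cutM_ne_zero {A B η x : ℝ} (hη : 0 < η) (hA : 0 < A) (hAB : A ≤ B) (hx : 0 < x)
    (h : cutM A B η x ≠ 0) : A * Real.exp (-η) < x ∧ x < B * Real.exp η := by
  have hB : 0 < B := lt_of_lt_of_le hA hAB
  have := cutL_ne_zero hη (Real.log_le_log hA hAB) h
  constructor
  · rw [← Real.log_lt_log_iff (by positivity) hx, Real.log_mul hA.ne' (Real.exp_ne_zero _),
      Real.log_exp]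
    linarith [this.1]
  · rw [← Real.log_lt_log_iff hx (by positivity), Real.log_mul hB.ne' (Real.exp_ne_zero _),
      Real.log_exp]
    linarith [this.2]

/-- `cutM A B η x = ∫ m(t) x^{it} dt`. -/
theorem cutM_eq_integral {A B η : ℝ} (hη : 0 < η) (hA : 0 < A) (hAB : A ≤ B) (x : ℝ) :
    ∫ t, kerC (Real.log A) (Real.log B) η t * pw t x = (cutM A B η x : ℂ) :=
  cutL_eq_integral hη (Real.log_le_log hA hAB) _

/-! ### Exact detection of inequalities between natural numbers -/

/-- kernel detecting `n ≤ X` for natural numbers `n ≥ 1`. -/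
def kerLe (X : ℕ) : ℝ → ℂ := kerC (-1) (Real.log (X + 1 / 2)) (1 / (4 * (X + 1)))

lemma kerLe_aux (X : ℕ) : (1 : ℝ) / (4 * (X + 1)) ≤ Real.log (X + 1 / 2) - (-1) := by
  have hX : (0 : ℝ) ≤ X := Nat.cast_nonneg X
  have h1 : Real.log (1 / 2) ≤ Real.log (X + 1 / 2) :=
    Real.log_le_log (by norm_num) (by linarith)
  have h2 : Real.log (1 / 2) = -Real.log 2 := by
    rw [one_div, Real.log_inv]
  have h3 := Real.log_two_lt_d9
  have h4 : (1 : ℝ) / (4 * (X + 1)) ≤ 1 / 4 := by
    apply one_div_le_one_div_of_le (by norm_num); linarith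
  rw [h2] at h1
  have : (0.6931471808 : ℝ) < 3 / 4 := by norm_num
  linarith

lemma integrable_kerLe (X : ℕ) : Integrable (kerLe X) := by
  have := kerLe_aux X
  have h : (0 : ℝ) < 1 / (4 * (X + 1)) := by positivity
  exact integrable_kerC h (by linarith)

theorem kerLe_eq (X n : ℕ) (hn : 1 ≤ n) :
    ∫ t, kerLe X t * pw t n = if n ≤ X then 1 else 0 := by
  have haux := kerLe_aux X
  have hη : (0 : ℝ) < 1 / (4 * (X + 1)) := by positivity
  have hX : (0 : ℝ) ≤ X := Nat.cast_nonneg X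
  have hn' : (1 : ℝ) ≤ n := by exact_mod_cast hn
  have hn0 : (0 : ℝ) < n := by linarith
  have e := cutL_eq_integral (a := -1) (b := Real.log (X + 1 / 2)) hη (by linarith) (Real.log n)
  unfold kerLe pw
  rw [e]
  have h14 : (1 : ℝ) / (4 * (X + 1)) ≤ 1 := by
    rw [div_le_one (by positivity)]; linarith
  have hlogn : 0 ≤ Real.log n := Real.log_nonneg hn'
  split_ifs with h
  · have hnX : (n : ℝ) ≤ X := by exact_mod_cast h
    rw [cutL_eq_one hη]
    · simp
    · linarith
    · have hXp : (0 : ℝ) < X := by linarith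
      have : Real.log X ≤ Real.log (X + 1 / 2) - 1 / (4 * (X + 1)) := by
        have h1 : 1 - (X : ℝ) / (X + 1 / 2) ≤ Real.log ((X + 1 / 2) / X) := by
          have := Real.one_sub_inv_le_log_of_pos (x := ((X : ℝ) + 1 / 2) / X) (by positivity)
          rwa [inv_div] at this
        rw [Real.log_div (by positivity) hXp.ne'] at h1
        have h2 : (1 : ℝ) / (4 * (X + 1)) ≤ 1 - (X : ℝ) / (X + 1 / 2) := by
          rw [one_sub_div (by positivity), div_le_div_iff₀ (by positivity) (by positivity)]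
          nlinarith
        linarith
      exact (Real.log_le_log hn0 hnX).trans this
  · have hnX : (X : ℝ) + 1 ≤ n := by
      have : X + 1 ≤ n := by omega
      exact_mod_cast this
    rw [cutL_eq_zero_right hη (by linarith)]
    · simp
    · have : Real.log (X + 1 / 2) + 1 / (4 * (X + 1)) ≤ Real.log (X + 1) := by
        have h1 : 1 - ((X : ℝ) + 1 / 2) / (X + 1) ≤ Real.log ((X + 1) / (X + 1 / 2)) := by
          have := Real.one_sub_inv_le_log_of_pos (x := ((X : ℝ) + 1) / (X + 1 / 2))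
            (by positivity)
          rwa [inv_div] at this
        rw [Real.log_div (by positivity) (by positivity)] at h1
        have h2 : (1 : ℝ) / (4 * (X + 1)) ≤ 1 - ((X : ℝ) + 1 / 2) / (X + 1) := by
          rw [one_sub_div (by positivity), div_le_div_iff₀ (by positivity) (by positivity)]
          nlinarith
        linarith
      exact this.trans (Real.log_le_log (by positivity) hnX)

theorem integral_norm_kerLe_le (X : ℕ) :
    ∫ t, ‖kerLe X t‖ ≤ 4 * Cint * (1 + Real.log (X + 1)) := by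
  have haux := kerLe_aux X
  have hη : (0 : ℝ) < 1 / (4 * (X + 1)) := by positivity
  have hX : (0 : ℝ) ≤ X := Nat.cast_nonneg X
  have h := integral_norm_kerC_le hη haux
  have hlog : 0 ≤ Real.log ((X : ℝ) + 1) := Real.log_nonneg (by linarith)
  have h1 : Real.log (X + 1 / 2) ≤ Real.log (X + 1) :=
    Real.log_le_log (by positivity) (by linarith)
  have h2 : Real.log ((X : ℝ) + 1) ≤ X := by
    have := Real.log_le_sub_one_of_pos (x := (X : ℝ) + 1) (by positivity)
    linarith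
  have hpos : 0 < Real.log (X + 1 / 2) - (-1) := lt_of_lt_of_le hη haux
  have h3 : Real.log ((Real.log (X + 1 / 2) - (-1)) / (1 / (4 * (X + 1)))) ≤
      Real.log 4 + 2 * Real.log (X + 1) := by
    have : Real.log 4 + 2 * Real.log (X + 1) = Real.log (4 * (X + 1) ^ 2) := by
      rw [Real.log_mul (by norm_num) (by positivity), Real.log_pow]; push_cast; ring
    rw [this]
    apply Real.log_le_log (by positivity)
    rw [div_div_eq_mul_div, div_one]
    nlinarith
  have h4 : Real.log 4 ≤ 2 := by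
    have : (4 : ℝ) = 2 ^ 2 := by norm_num
    rw [this, Real.log_pow]
    have := Real.log_two_lt_d9
    push_cast; linarith
  have hC := Cint_pos
  unfold kerLe
  refine h.trans ?_
  nlinarith [mul_nonneg hC.le hlog]

theorem tail_norm_kerLe_le (X : ℕ) {T : ℝ} (hT : 0 < T) {k : ℕ} (hk : 0 < k) :
    ∫ t in {t : ℝ | T < |t|}, ‖kerLe X t‖ ≤ 4 * Ck k * (4 * (X + 1) / T) ^ k := by
  have haux := kerLe_aux X
  have hη : (0 : ℝ) < 1 / (4 * (X + 1)) := by positivity
  have h := tail_norm_kerC_le (a := -1) (b := Real.log (X + 1 / 2)) hη (by linarith) hT hk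
  unfold kerLe
  refine h.trans (le_of_eq ?_)
  rw [div_eq_mul_inv, ← inv_pow]
  congr 2
  field_simp

/-- Kernel detecting `m < n` for natural numbers `1 ≤ m, n ≤ Y`. -/
def kerLt (Y : ℕ) : ℝ → ℂ :=
  kerC (1 / (2 * (Y + 1))) (Real.log (Y + 1) + 1) (1 / (4 * (Y + 1)))

lemma kerLt_aux (Y : ℕ) :
    (1 : ℝ) / (4 * (Y + 1)) ≤ (Real.log (Y + 1) + 1) - 1 / (2 * (Y + 1)) := by
  have hY : (0 : ℝ) ≤ Y := Nat.cast_nonneg Y
  have hlog : 0 ≤ Real.log ((Y : ℝ) + 1) := Real.log_nonneg (by linarith)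
  have h1 : (1 : ℝ) / (4 * (Y + 1)) ≤ 1 / 4 := by
    apply one_div_le_one_div_of_le (by norm_num); linarith
  have h2 : (1 : ℝ) / (2 * (Y + 1)) ≤ 1 / 2 := by
    apply one_div_le_one_div_of_le (by norm_num); linarith
  linarith

lemma integrable_kerLt (Y : ℕ) : Integrable (kerLt Y) := by
  have := kerLt_aux Y
  have h : (0 : ℝ) < 1 / (4 * (Y + 1)) := by positivity
  exact integrable_kerC h (by linarith)

/-- `∫ kerLt(t) n^{it} m^{-it} dt = 1_{m<n}` for `1 ≤ m, n ≤ Y`. -/
theorem kerLt_eq (Y m n : ℕ) (hm : 1 ≤ m) (hmY : m ≤ Y) (hn : 1 ≤ n) (hnY : n ≤ Y) :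
    ∫ t, kerLt Y t * (pw t n * (starRingEnd ℂ) (pw t m)) = if m < n then 1 else 0 := by
  have haux := kerLt_aux Y
  have hη : (0 : ℝ) < 1 / (4 * (Y + 1)) := by positivity
  have hY : (0 : ℝ) ≤ Y := Nat.cast_nonneg Y
  have hn' : (1 : ℝ) ≤ n := by exact_mod_cast hn
  have hm' : (1 : ℝ) ≤ m := by exact_mod_cast hm
  have hn0 : (0 : ℝ) < n := by linarith
  have hm0 : (0 : ℝ) < m := by linarith
  have hnY' : (n : ℝ) ≤ Y := by exact_mod_cast hnY
  have hmY' : (m : ℝ) ≤ Y := by exact_mod_cast hmY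
  have e := cutL_eq_integral (a := 1 / (2 * (Y + 1))) (b := Real.log (Y + 1) + 1) hη
    (by linarith) (Real.log n - Real.log m)
  have e2 : ∀ t, pw t n * (starRingEnd ℂ) (pw t m) = osc t (Real.log n - Real.log m) := by
    intro t; unfold pw; rw [osc_sub_right]
  simp only [e2]
  unfold kerLt
  rw [e]
  have h24 : (1 : ℝ) / (2 * (Y + 1)) = 2 * (1 / (4 * (Y + 1))) := by field_simp; norm_num
  split_ifs with h
  · rw [cutL_eq_one hη]
    · simp
    · -- log n - log m ≥ 1/(m+1)
      have hmn : (m : ℝ) + 1 ≤ n := by exact_mod_cast h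
      have h1 : 1 - (m : ℝ) / n ≤ Real.log (n / m) := by
        have := Real.one_sub_inv_le_log_of_pos (x := (n : ℝ) / m) (by positivity)
        rwa [inv_div] at this
      rw [Real.log_div hn0.ne' hm0.ne'] at h1
      have h2 : (1 : ℝ) / (Y + 1) ≤ 1 - (m : ℝ) / n := by
        rw [one_sub_div hn0.ne', div_le_div_iff₀ (by positivity) hn0]
        nlinarith
      have h3 : (1 : ℝ) / (2 * (Y + 1)) + 1 / (4 * (Y + 1)) ≤ 1 / (Y + 1) := by
        rw [h24]
        have : (1 : ℝ) / (Y + 1) = 4 * (1 / (4 * (Y + 1))) := by field_simp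
        rw [this]
        linarith
      linarith
    · have h1 : Real.log n ≤ Real.log (Y + 1) := Real.log_le_log hn0 (by linarith)
      have h2 : 0 ≤ Real.log m := Real.log_nonneg hm'
      have h3 : (1 : ℝ) / (4 * (Y + 1)) ≤ 1 := by
        rw [div_le_one (by positivity)]; linarith
      linarith
  · have hmn : (n : ℝ) ≤ m := by exact_mod_cast (not_lt.mp h)
    rw [cutL_eq_zero_left hη (by linarith)]
    · simp
    · have h1 : Real.log n ≤ Real.log m := Real.log_le_log hn0 hmn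
      rw [h24]
      linarith

theorem integral_norm_kerLt_le (Y : ℕ) :
    ∫ t, ‖kerLt Y t‖ ≤ 4 * Cint * (1 + Real.log (Y + 1)) := by
  have haux := kerLt_aux Y
  have hη : (0 : ℝ) < 1 / (4 * (Y + 1)) := by positivity
  have hY : (0 : ℝ) ≤ Y := Nat.cast_nonneg Y
  have h := integral_norm_kerC_le hη haux
  have hlog : 0 ≤ Real.log ((Y : ℝ) + 1) := Real.log_nonneg (by linarith)
  have h2 : Real.log ((Y : ℝ) + 1) ≤ Y := by
    have := Real.log_le_sub_one_of_pos (x := (Y : ℝ) + 1) (by positivity)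
    linarith
  have hpos : 0 < (Real.log (Y + 1) + 1) - 1 / (2 * (Y + 1)) := lt_of_lt_of_le hη haux
  have hp2 : (0 : ℝ) < 1 / (2 * (Y + 1)) := by positivity
  have h3 : Real.log (((Real.log (Y + 1) + 1) - 1 / (2 * (Y + 1))) / (1 / (4 * (Y + 1)))) ≤
      Real.log 4 + 2 * Real.log (Y + 1) := by
    have : Real.log 4 + 2 * Real.log (Y + 1) = Real.log (4 * (Y + 1) ^ 2) := by
      rw [Real.log_mul (by norm_num) (by positivity), Real.log_pow]; push_cast; ring
    rw [this]
    apply Real.log_le_log (by positivity)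
    rw [div_div_eq_mul_div, div_one]
    nlinarith
  have h4 : Real.log 4 ≤ 2 := by
    have : (4 : ℝ) = 2 ^ 2 := by norm_num
    rw [this, Real.log_pow]
    have := Real.log_two_lt_d9
    push_cast; linarith
  have hC := Cint_pos
  unfold kerLt
  refine h.trans ?_
  nlinarith [mul_nonneg hC.le hlog]

theorem tail_norm_kerLt_le (Y : ℕ) {T : ℝ} (hT : 0 < T) {k : ℕ} (hk : 0 < k) :
    ∫ t in {t : ℝ | T < |t|}, ‖kerLt Y t‖ ≤ 4 * Ck k * (4 * (Y + 1) / T) ^ k := by
  have haux := kerLt_aux Y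
  have hη : (0 : ℝ) < 1 / (4 * (Y + 1)) := by positivity
  have h := tail_norm_kerC_le (a := 1 / (2 * (Y + 1))) (b := Real.log (Y + 1) + 1) hη
    (by linarith) hT hk
  unfold kerLt
  refine h.trans (le_of_eq ?_)
  rw [div_eq_mul_inv, ← inv_pow]
  congr 2
  field_simp

section sums2

variable {ι : Type*} (s : Finset ι) (f : ι → ℂ)

/-- Removing the condition `N i ≤ X` costs `O(1 + log X)`. -/
theorem norm_sum_filter_le (N : ι → ℕ) (hN : ∀ i ∈ s, 1 ≤ N i) (X : ℕ) {B : ℝ}
    (hB : ∀ t : ℝ, ‖∑ i ∈ s, f i * pw t (N i)‖ ≤ B) :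
    ‖∑ i ∈ s.filter (fun i => N i ≤ X), f i‖ ≤ 4 * Cint * (1 + Real.log (X + 1)) * B := by
  classical
  have e : ∑ i ∈ s.filter (fun i => N i ≤ X), f i = ∑ i ∈ s, f i * (if N i ≤ X then 1 else 0) := by
    rw [Finset.sum_filter]; apply Finset.sum_congr rfl; intro i _; split_ifs <;> simp
  have hB0 : 0 ≤ B := (norm_nonneg _).trans (hB 0)
  rw [e, sum_eq_integral s f (fun i => Real.log (N i)) (integrable_kerLe X)
    (fun i hi => kerLe_eq X (N i) (hN i hi))]
  refine (norm_integral_mul_le' (integrable_kerLe X) hB).trans ?_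
  have := integral_norm_kerLe_le X
  gcongr

/-- Removing the condition `M i < N i` costs `O(1 + log Y)`. -/
theorem norm_sum_filter_lt_le (M N : ι → ℕ) (Y : ℕ) (hM : ∀ i ∈ s, 1 ≤ M i ∧ M i ≤ Y)
    (hN : ∀ i ∈ s, 1 ≤ N i ∧ N i ≤ Y) {B : ℝ}
    (hB : ∀ t : ℝ, ‖∑ i ∈ s, f i * (pw t (N i) * (starRingEnd ℂ) (pw t (M i)))‖ ≤ B) :
    ‖∑ i ∈ s.filter (fun i => M i < N i), f i‖ ≤ 4 * Cint * (1 + Real.log (Y + 1)) * B := by
  classical
  have e : ∑ i ∈ s.filter (fun i => M i < N i), f i =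
      ∑ i ∈ s, f i * (if M i < N i then 1 else 0) := by
    rw [Finset.sum_filter]; apply Finset.sum_congr rfl; intro i _; split_ifs <;> simp
  have hB0 : 0 ≤ B := (norm_nonneg _).trans (hB 0)
  have e2 : ∀ (t : ℝ) (i : ι), pw t (N i) * (starRingEnd ℂ) (pw t (M i)) =
      osc t (Real.log (N i) - Real.log (M i)) := by
    intro t i; unfold pw; rw [osc_sub_right]
  simp only [e2] at hB
  rw [e, sum_eq_integral s f (fun i => Real.log (N i) - Real.log (M i)) (integrable_kerLt Y)
    (fun i hi => by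
      have := kerLt_eq Y (M i) (N i) (hM i hi).1 (hM i hi).2 (hN i hi).1 (hN i hi).2
      simpa only [e2] using this)]
  refine (norm_integral_mul_le' (integrable_kerLt Y) hB).trans ?_
  have := integral_norm_kerLt_le Y
  gcongr

end sums2

/-! ### General smooth weights on `(0, ∞)` -/

section mellin

variable {W : ℝ → ℂ}

/-- The Mellin kernel of `W` on the imaginary axis:
`melK W t = (1/2π) ∫ W(e^u) e^{-itu} du`, so that `W x = ∫ melK W t x^{it} dt`. -/
def melK (W : ℝ → ℂ) (t : ℝ) : ℂ := ker (fun u => W (Real.exp u)) t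

lemma contDiff_comp_exp (h1 : ContDiff ℝ ∞ W) : ContDiff ℝ ∞ (fun u => W (Real.exp u)) :=
  h1.comp Real.contDiff_exp

lemma hasCompactSupport_comp_exp (h2 : HasCompactSupport W) (h3 : tsupport W ⊆ Ioi 0) :
    HasCompactSupport (fun u => W (Real.exp u)) := by
  have hK : IsCompact (Real.log '' tsupport W) := by
    apply h2.isCompact.image_of_continuousOn
    apply Real.continuousOn_log.mono
    intro x hx
    have : 0 < x := h3 hx
    simpa using this.ne'
  apply HasCompactSupport.intro hK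
  intro u hu
  by_contra hne
  exact hu ⟨Real.exp u, subset_tsupport _ hne, Real.log_exp u⟩

theorem integrable_melK (h1 : ContDiff ℝ ∞ W) (h2 : HasCompactSupport W)
    (h3 : tsupport W ⊆ Ioi 0) : Integrable (melK W) :=
  ker_integrable (contDiff_comp_exp h1) (hasCompactSupport_comp_exp h2 h3)

theorem continuous_melK (h1 : ContDiff ℝ ∞ W) (h2 : HasCompactSupport W)
    (h3 : tsupport W ⊆ Ioi 0) : Continuous (melK W) :=
  continuous_ker ((contDiff_comp_exp h1).continuous.integrable_of_hasCompactSupport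
    (hasCompactSupport_comp_exp h2 h3))

theorem melK_decay (h1 : ContDiff ℝ ∞ W) (h2 : HasCompactSupport W)
    (h3 : tsupport W ⊆ Ioi 0) (k : ℕ) :
    ∃ C : ℝ, 0 < C ∧ ∀ t, ‖melK W t‖ * (1 + |t|) ^ k ≤ C :=
  ker_decay (contDiff_comp_exp h1) (hasCompactSupport_comp_exp h2 h3) k

/-- **Mellin inversion on the imaginary axis**. -/
theorem mellin_inversion (h1 : ContDiff ℝ ∞ W) (h2 : HasCompactSupport W)
    (h3 : tsupport W ⊆ Ioi 0) {x : ℝ} (hx : 0 < x) : ∫ t, melK W t * pw t x = W x := by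
  have := inversion_smooth (contDiff_comp_exp h1) (hasCompactSupport_comp_exp h2 h3) (Real.log x)
  simp only [Real.exp_log hx] at this
  exact this

/-- Separation of variables for a smooth weight: `∑ f_i W(N_i) = ∫ melK(t) ∑ f_i N_i^{it}`. -/
theorem sum_W_eq (h1 : ContDiff ℝ ∞ W) (h2 : HasCompactSupport W)
    (h3 : tsupport W ⊆ Ioi 0) {ι : Type*} (s : Finset ι) (f : ι → ℂ) (N : ι → ℝ)
    (hN : ∀ i ∈ s, 0 < N i) :
    ∑ i ∈ s, f i * W (N i) = ∫ t, melK W t * ∑ i ∈ s, f i * pw t (N i) :=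
  sum_eq_integral s f (fun i => Real.log (N i)) (integrable_melK h1 h2 h3)
    (fun i hi => mellin_inversion h1 h2 h3 (hN i hi))

end mellin

end Crest.Agent.R012.Weight600
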