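import Crest.Agent.R012.GaussInst_880
import Crest.Agent.R012.Weight_600
import Crest.Agent.R012.PC_355
import Crest.Agent.R012.Dens_420

/-!
# Row 12: the sparse class (L), (L')

Bilinear sums `∑ α_a β_b F_l(ab)` where one of the variables has a large `w`-smooth part.
-/

set_option autoImplicit false

noncomputable section

namespace Crest.Agent.R012.Sparse420

open Finset Eis Buch420 Dens420 Weight600

/-- `F_l(n) = (n/|n|)^l (G(n) - [l = 0] c N(n)^{-1/6})` for squarefree `n`, `0` otherwise. -/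
def Fl (l : ℤ) (n : Eis) : ℂ :=
  open Classical in
  if Squarefree n then
    ang l n * (G n - (if l = 0 then ((pC * (nm n : ℝ) ^ (-(1 / 6) : ℝ) : ℝ) : ℂ) else 0))
  else 0

/-- Upper bound for the dispersion without main term (T8gen at centre `0`). -/
def T8Prop : Prop :=
  ∃ C : ℝ, 0 < C ∧ ∃ k : ℕ, ∀ A B : ℝ, 1 ≤ A → 1 ≤ B → B ^ ((3 : ℝ) / 2) ≤ A →
    ∀ T : Finset Eis, (∀ b ∈ T, IsPrim b ∧ Squarefree b ∧ (nm b : ℝ) ≤ B) → ∀ β : Eis → ℂ,
    ∀ S : Finset Eis, (∀ a ∈ S, IsPrim a ∧ (nm a : ℝ) ≤ A) →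
      ∑ a ∈ S, ‖∑ b ∈ T, β b * G b * (starRingEnd ℂ) (sy a b)‖ ^ 2 ≤
        C * (Real.log (A * B + 2)) ^ k * (A + (A * B) ^ ((2 : ℝ) / 3)) * ∑ b ∈ T, ‖β b‖ ^ 2

lemma ang_mul (l : ℤ) (a b : Eis) : ang l (a * b) = ang l a * ang l b := by
  unfold ang
  rw [← mul_zpow]
  congr 1
  rw [map_mul, norm_mul]
  push_cast
  rw [mul_div_mul_comm]

/-- bilinear form of T8 -/
lemma bilinear {M : ℝ} (S T : Finset Eis) (hS : ∀ a ∈ S, IsPrim a) (hT : ∀ b ∈ T, IsPrim b)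
    (α β : Eis → ℂ)
    (hM : ∑ a ∈ S, ‖∑ b ∈ T, β b * G b * (starRingEnd ℂ) (sy a b)‖ ^ 2 ≤
      M * ∑ b ∈ T, ‖β b‖ ^ 2) :
    ‖∑ x ∈ S ×ˢ T, α x.1 * β x.2 * G (x.1 * x.2)‖ ^ 2 ≤
      M * (∑ a ∈ S, ‖α a‖ ^ 2) * ∑ b ∈ T, ‖β b‖ ^ 2 := by
  have h1 : ∑ x ∈ S ×ˢ T, α x.1 * β x.2 * G (x.1 * x.2) =
      ∑ a ∈ S, α a * G a * ∑ b ∈ T, β b * G b * (starRingEnd ℂ) (sy a b) := by
    rw [Finset.sum_product]
    refine Finset.sum_congr rfl fun a ha => ?_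
    rw [Finset.mul_sum]
    refine Finset.sum_congr rfl fun b hb => ?_
    simp only
    rw [Gauss880.G_mul_all Gauss880.syG (hS a ha) (hT b hb)]
    ring
  rw [h1]
  have h2 : ‖∑ a ∈ S, α a * G a * ∑ b ∈ T, β b * G b * (starRingEnd ℂ) (sy a b)‖ ≤
      ∑ a ∈ S, ‖α a‖ * ‖∑ b ∈ T, β b * G b * (starRingEnd ℂ) (sy a b)‖ := by
    refine (norm_sum_le _ _).trans (Finset.sum_le_sum fun a ha => ?_)
    rw [norm_mul, norm_mul]
    have := Gauss880.norm_G_le Gauss880.syG (hS a ha)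
    have h3 : ‖α a‖ * ‖G a‖ ≤ ‖α a‖ := by nlinarith [norm_nonneg (α a)]
    exact mul_le_mul_of_nonneg_right h3 (norm_nonneg _)
  have h3 := Finset.sum_mul_sq_le_sq_mul_sq S (fun a => ‖α a‖)
    (fun a => ‖∑ b ∈ T, β b * G b * (starRingEnd ℂ) (sy a b)‖)
  have h4 : 0 ≤ ∑ a ∈ S, ‖α a‖ ^ 2 := Finset.sum_nonneg fun _ _ => by positivity
  calc ‖∑ a ∈ S, α a * G a * ∑ b ∈ T, β b * G b * (starRingEnd ℂ) (sy a b)‖ ^ 2
      ≤ (∑ a ∈ S, ‖α a‖ * ‖∑ b ∈ T, β b * G b * (starRingEnd ℂ) (sy a b)‖) ^ 2 :=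
        pow_le_pow_left₀ (norm_nonneg _) h2 2
    _ ≤ (∑ a ∈ S, ‖α a‖ ^ 2) *
        ∑ a ∈ S, ‖∑ b ∈ T, β b * G b * (starRingEnd ℂ) (sy a b)‖ ^ 2 := h3
    _ ≤ (∑ a ∈ S, ‖α a‖ ^ 2) * (M * ∑ b ∈ T, ‖β b‖ ^ 2) := mul_le_mul_of_nonneg_left hM h4
    _ = _ := by ring

open Classical in
/-- one box with sharp cutoff -/
lemma box_cut {M : ℝ} (S T : Finset Eis) (hS : ∀ a ∈ S, IsPrim a)
    (hT : ∀ b ∈ T, IsPrim b) (α β : Eis → ℂ)
    (hM : ∀ β' : Eis → ℂ, ∑ a ∈ S, ‖∑ b ∈ T, β' b * G b * (starRingEnd ℂ) (sy a b)‖ ^ 2 ≤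
      M * ∑ b ∈ T, ‖β' b‖ ^ 2) (X : ℕ) :
    ‖∑ x ∈ (S ×ˢ T).filter (fun x => nm (x.1 * x.2) ≤ X), α x.1 * β x.2 * G (x.1 * x.2)‖ ≤
      4 * Cint * (1 + Real.log (X + 1)) *
        Real.sqrt (M * (∑ a ∈ S, ‖α a‖ ^ 2) * ∑ b ∈ T, ‖β b‖ ^ 2) := by
  refine norm_sum_filter_le (S ×ˢ T) (fun x => α x.1 * β x.2 * G (x.1 * x.2))
    (fun x => nm (x.1 * x.2)) ?_ X ?_
  · intro x hx
    rw [Finset.mem_product] at hx
    have := nm_pos.mpr (mul_ne_zero (hS _ hx.1).ne_zero (hT _ hx.2).ne_zero)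
    omega
  · intro t
    have e : ∑ x ∈ S ×ˢ T, α x.1 * β x.2 * G (x.1 * x.2) * pw t (nm (x.1 * x.2) : ℕ) =
        ∑ x ∈ S ×ˢ T, (α x.1 * pw t (nm x.1 : ℕ)) * (β x.2 * pw t (nm x.2 : ℕ)) *
          G (x.1 * x.2) := by
      refine Finset.sum_congr rfl fun x hx => ?_
      rw [Finset.mem_product] at hx
      have h1 : ((nm x.1 : ℕ) : ℝ) ≠ 0 := by
        exact_mod_cast (nm_pos.mpr (hS _ hx.1).ne_zero).ne'
      have h2 : ((nm x.2 : ℕ) : ℝ) ≠ 0 := by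
        exact_mod_cast (nm_pos.mpr (hT _ hx.2).ne_zero).ne'
      rw [nm_mul]
      push_cast
      rw [pw_mul h1 h2]
      ring
    rw [e]
    have h1 := bilinear (M := M) S T hS hT (fun a => α a * pw t (nm a : ℕ))
      (fun b => β b * pw t (nm b : ℕ)) (by
        have := hM (fun b => β b * pw t (nm b : ℕ))
        exact this)
    have h2 : ∑ a ∈ S, ‖α a * pw t (nm a : ℕ)‖ ^ 2 = ∑ a ∈ S, ‖α a‖ ^ 2 :=
      Finset.sum_congr rfl fun a _ => by rw [norm_mul, norm_pw, mul_one]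
    have h3 : ∑ b ∈ T, ‖β b * pw t (nm b : ℕ)‖ ^ 2 = ∑ b ∈ T, ‖β b‖ ^ 2 :=
      Finset.sum_congr rfl fun a _ => by rw [norm_mul, norm_pw, mul_one]
    simp only [h2, h3] at h1
    exact Real.le_sqrt_of_sq_le h1


open Classical in
/-- one box with a two sided sharp cutoff -/
lemma box_cut2 {M : ℝ} (S T : Finset Eis) (hS : ∀ a ∈ S, IsPrim a)
    (hT : ∀ b ∈ T, IsPrim b) (α β : Eis → ℂ)
    (hM : ∀ β' : Eis → ℂ, ∑ a ∈ S, ‖∑ b ∈ T, β' b * G b * (starRingEnd ℂ) (sy a b)‖ ^ 2 ≤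
      M * ∑ b ∈ T, ‖β' b‖ ^ 2) (X X1 X2 : ℕ) (h1 : X1 ≤ X) (h2 : X2 ≤ X) :
    ‖∑ x ∈ (S ×ˢ T).filter (fun x => X1 < nm (x.1 * x.2) ∧ nm (x.1 * x.2) ≤ X2),
        α x.1 * β x.2 * G (x.1 * x.2)‖ ≤
      8 * Cint * (1 + Real.log (X + 1)) *
        Real.sqrt (M * (∑ a ∈ S, ‖α a‖ ^ 2) * ∑ b ∈ T, ‖β b‖ ^ 2) := by
  have e : ∑ x ∈ (S ×ˢ T).filter (fun x => X1 < nm (x.1 * x.2) ∧ nm (x.1 * x.2) ≤ X2),
        α x.1 * β x.2 * G (x.1 * x.2) =
      ∑ x ∈ (S ×ˢ T).filter (fun x => nm (x.1 * x.2) ≤ X2), α x.1 * β x.2 * G (x.1 * x.2) -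
      ∑ x ∈ (S ×ˢ T).filter (fun x => nm (x.1 * x.2) ≤ min X1 X2),
        α x.1 * β x.2 * G (x.1 * x.2) := by
    rw [Finset.sum_filter, Finset.sum_filter, Finset.sum_filter, ← Finset.sum_sub_distrib]
    refine Finset.sum_congr rfl fun x _ => ?_
    by_cases c1 : X1 < nm (x.1 * x.2) <;> by_cases c2 : nm (x.1 * x.2) ≤ X2
    · have c3 : ¬ nm (x.1 * x.2) ≤ min X1 X2 := by omega
      rw [if_pos ⟨c1, c2⟩, if_pos c2, if_neg c3, sub_zero]
    · have c3 : ¬ nm (x.1 * x.2) ≤ min X1 X2 := by omega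
      rw [if_neg (fun h => c2 h.2), if_neg c2, if_neg c3, sub_zero]
    · have c3 : nm (x.1 * x.2) ≤ min X1 X2 := by omega
      rw [if_neg (fun h => c1 h.1), if_pos c2, if_pos c3, sub_self]
    · have c3 : ¬ nm (x.1 * x.2) ≤ min X1 X2 := by omega
      rw [if_neg (fun h => c1 h.1), if_neg c2, if_neg c3, sub_zero]
  rw [e]
  have b2 := box_cut S T hS hT α β hM X2
  have b1 := box_cut S T hS hT α β hM (min X1 X2)
  set Q := Real.sqrt (M * (∑ a ∈ S, ‖α a‖ ^ 2) * ∑ b ∈ T, ‖β b‖ ^ 2)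
  have hQ : 0 ≤ Q := Real.sqrt_nonneg _
  have hC : 0 ≤ Cint := Cint_pos.le
  have m2 : Real.log ((X2 : ℝ) + 1) ≤ Real.log (X + 1) := by
    apply Real.log_le_log (by positivity)
    have : (X2 : ℝ) ≤ X := by exact_mod_cast h2
    linarith
  have m1 : Real.log (((min X1 X2 : ℕ) : ℝ) + 1) ≤ Real.log (X + 1) := by
    apply Real.log_le_log (by positivity)
    have : ((min X1 X2 : ℕ) : ℝ) ≤ X := by exact_mod_cast (min_le_left _ _).trans h1
    linarith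
  have l1 : 4 * Cint * (1 + Real.log (((min X1 X2 : ℕ) : ℝ) + 1)) * Q ≤
      4 * Cint * (1 + Real.log (X + 1)) * Q := by gcongr
  have l2 : 4 * Cint * (1 + Real.log ((X2 : ℝ) + 1)) * Q ≤
      4 * Cint * (1 + Real.log (X + 1)) * Q := by gcongr
  refine (norm_sub_le _ _).trans ?_
  linarith

open Classical in
/-- The `G` part: dyadic decomposition in `b`. -/
lemma G_part {C : ℝ} (hC : 0 < C) {k : ℕ}
    (H : ∀ A B : ℝ, 1 ≤ A → 1 ≤ B → B ^ ((3 : ℝ) / 2) ≤ A →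
      ∀ T : Finset Eis, (∀ b ∈ T, IsPrim b ∧ Squarefree b ∧ (nm b : ℝ) ≤ B) → ∀ β : Eis → ℂ,
      ∀ S : Finset Eis, (∀ a ∈ S, IsPrim a ∧ (nm a : ℝ) ≤ A) →
        ∑ a ∈ S, ‖∑ b ∈ T, β b * G b * (starRingEnd ℂ) (sy a b)‖ ^ 2 ≤
          C * (Real.log (A * B + 2)) ^ k * (A + (A * B) ^ ((2 : ℝ) / 3)) * ∑ b ∈ T, ‖β b‖ ^ 2)
    {X : ℕ} (hX : 2 ≤ X) (S T : Finset Eis) (hS : ∀ a ∈ S, IsPrim a)
    (hT : ∀ b ∈ T, IsPrim b ∧ Squarefree b ∧ (X : ℝ) ^ ((1 : ℝ) / 3) ≤ nm b ∧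
      (nm b : ℝ) ≤ (X : ℝ) ^ ((2 : ℝ) / 5) / 4)
    (α β : Eis → ℂ) {Δ : ℝ}
    (hΔ : ∀ j : ℕ, (∑ a ∈ S.filter (fun a => (nm a : ℝ) ≤ X / 2 ^ j), ‖α a‖ ^ 2) *
      (∑ b ∈ T.filter (fun b => Nat.log 2 (nm b) = j), ‖β b‖ ^ 2) ≤ X * Δ)
    (X1 X2 : ℕ) (h1 : X1 ≤ X) (h2 : X2 ≤ X) :
    ‖∑ x ∈ (S ×ˢ T).filter (fun x => X1 < nm (x.1 * x.2) ∧ nm (x.1 * x.2) ≤ X2),
        α x.1 * β x.2 * G (x.1 * x.2)‖ ≤
      (Nat.log 2 X + 1 : ℕ) * (8 * Cint * (1 + Real.log (X + 1)) *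
        (Real.sqrt (4 * C * (Real.log (2 * X + 2)) ^ k * Δ) * (X : ℝ) ^ ((5 : ℝ) / 6))) := by
  have hX0 : (0 : ℝ) < X := by exact_mod_cast (by omega : 0 < X)
  have hX1 : (1 : ℝ) ≤ X := by exact_mod_cast (by omega : 1 ≤ X)
  have hCi : 0 ≤ Cint := Cint_pos.le
  have hl0 : 0 ≤ Real.log (2 * (X : ℝ) + 2) := Real.log_nonneg (by linarith)
  set P : Eis × Eis → Prop := fun x => X1 < nm (x.1 * x.2) ∧ nm (x.1 * x.2) ≤ X2 with hP
  set J : ℕ := Nat.log 2 X + 1 with hJ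
  -- upper bound for nm b
  have hbX : ∀ b ∈ T, nm b ≤ X := by
    intro b hb
    have h3 := (hT b hb).2.2.2
    have h4 : (X : ℝ) ^ ((2 : ℝ) / 5) ≤ X := by
      calc (X : ℝ) ^ ((2 : ℝ) / 5) ≤ (X : ℝ) ^ (1 : ℝ) :=
            Real.rpow_le_rpow_of_exponent_le hX1 (by norm_num)
        _ = X := Real.rpow_one _
    have h5 : (nm b : ℝ) ≤ X := by linarith
    exact_mod_cast h5
  have hsplit : ∑ x ∈ (S ×ˢ T).filter P, α x.1 * β x.2 * G (x.1 * x.2) =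
      ∑ j ∈ Finset.range J, ∑ x ∈ ((S ×ˢ T).filter P).filter (fun x => Nat.log 2 (nm x.2) = j),
        α x.1 * β x.2 * G (x.1 * x.2) := by
    symm
    refine Finset.sum_fiberwise_of_maps_to (fun x hx => ?_) _
    rw [Finset.mem_filter, Finset.mem_product] at hx
    rw [Finset.mem_range, hJ]
    exact Nat.lt_succ_of_le (Nat.log_mono_right (hbX _ hx.1.2))
  rw [hsplit]
  refine (norm_sum_le _ _).trans ?_
  have hterm : ∀ j ∈ Finset.range J,
      ‖∑ x ∈ ((S ×ˢ T).filter P).filter (fun x => Nat.log 2 (nm x.2) = j),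
        α x.1 * β x.2 * G (x.1 * x.2)‖ ≤ 8 * Cint * (1 + Real.log (X + 1)) *
        (Real.sqrt (4 * C * (Real.log (2 * X + 2)) ^ k * Δ) * (X : ℝ) ^ ((5 : ℝ) / 6)) := by
    intro j _
    set Sj := S.filter (fun a => (nm a : ℝ) ≤ X / 2 ^ j) with hSj
    set Tj := T.filter (fun b => Nat.log 2 (nm b) = j) with hTj
    have hlX : 0 ≤ Real.log ((X : ℝ) + 1) := Real.log_nonneg (by linarith)
    rcases Tj.eq_empty_or_nonempty with hemp | ⟨b0, hb0⟩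
    · have h0 : ((S ×ˢ T).filter P).filter (fun x => Nat.log 2 (nm x.2) = j) = ∅ := by
        rw [Finset.filter_eq_empty_iff]
        intro x hx hx2
        rw [Finset.mem_filter, Finset.mem_product] at hx
        have : x.2 ∈ Tj := by rw [hTj, Finset.mem_filter]; exact ⟨hx.1.2, hx2⟩
        rw [hemp] at this
        exact Finset.notMem_empty _ this
      rw [h0, Finset.sum_empty, norm_zero]
      positivity
    -- powers of two
    have hb0' := Finset.mem_filter.mp hb0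
    have hb0T := hT b0 hb0'.1
    have hb0pos : 0 < nm b0 := nm_pos.mpr hb0T.1.ne_zero
    have hlow : ∀ b ∈ Tj, (2 : ℝ) ^ j ≤ nm b := by
      intro b hb
      rw [hTj, Finset.mem_filter] at hb
      have hb1 : nm b ≠ 0 := (nm_pos.mpr (hT b hb.1).1.ne_zero).ne'
      have := Nat.pow_log_le_self 2 hb1
      rw [hb.2] at this
      exact_mod_cast this
    have hup : ∀ b ∈ Tj, (nm b : ℝ) ≤ 2 ^ (j + 1) := by
      intro b hb
      rw [hTj, Finset.mem_filter] at hb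
      have := Nat.lt_pow_succ_log_self (b := 2) (by norm_num) (nm b)
      rw [hb.2] at this
      exact_mod_cast this.le
    set u : ℝ := (2 : ℝ) ^ j with hu
    have hu1 : 1 ≤ u := one_le_pow₀ (by norm_num)
    have hu0 : 0 < u := by linarith
    have huv : u ≤ (X : ℝ) ^ ((2 : ℝ) / 5) / 4 := (hlow b0 hb0).trans hb0T.2.2.2
    set v : ℝ := (X : ℝ) ^ ((2 : ℝ) / 5) with hv
    have hv0 : 0 < v := Real.rpow_pos_of_pos hX0 _
    have hvX : v ^ ((5 : ℝ) / 2) = X := by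
      rw [hv, ← Real.rpow_mul hX0.le]; norm_num
    have hB : (2 : ℝ) ^ (j + 1) = 2 * u := by rw [hu, pow_succ]; ring
    have hcond : ((2 : ℝ) ^ (j + 1)) ^ ((3 : ℝ) / 2) ≤ X / u := by
      rw [hB, le_div_iff₀ hu0]
      calc (2 * u) ^ ((3 : ℝ) / 2) * u ≤ v ^ ((3 : ℝ) / 2) * v := by
            apply mul_le_mul _ (by linarith) hu0.le (by positivity)
            exact Real.rpow_le_rpow (by positivity) (by linarith) (by norm_num)
        _ = v ^ ((5 : ℝ) / 2) := by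
            rw [← Real.rpow_add_one hv0.ne']; norm_num
        _ = X := hvX
    have hA1 : 1 ≤ X / u := by
      rw [le_div_iff₀ hu0, one_mul]
      have : (nm b0 : ℝ) ≤ X := by exact_mod_cast hbX b0 hb0'.1
      exact (hlow b0 hb0).trans this
    have hAB : X / u * (2 : ℝ) ^ (j + 1) = 2 * X := by rw [hB]; field_simp
    set Mj : ℝ := C * (Real.log (2 * X + 2)) ^ k * (X / u + (2 * (X : ℝ)) ^ ((2 : ℝ) / 3)) with hMj
    have hM0 : 0 ≤ Mj := by positivity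
    have hMM : ∀ β' : Eis → ℂ,
        ∑ a ∈ Sj, ‖∑ b ∈ Tj, β' b * G b * (starRingEnd ℂ) (sy a b)‖ ^ 2 ≤
        Mj * ∑ b ∈ Tj, ‖β' b‖ ^ 2 := by
      intro β'
      have := H (X / u) ((2 : ℝ) ^ (j + 1)) hA1 (one_le_pow₀ (by norm_num)) hcond Tj
        (fun b hb => by
          have hb' := Finset.mem_filter.mp hb
          exact ⟨(hT b hb'.1).1, (hT b hb'.1).2.1, hup b hb⟩) β' Sj
        (fun a ha => by
          have ha' := Finset.mem_filter.mp ha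
          exact ⟨hS a ha'.1, ha'.2⟩)
      rw [hAB] at this
      exact this
    have hset : ((S ×ˢ T).filter P).filter (fun x => Nat.log 2 (nm x.2) = j) =
        (Sj ×ˢ Tj).filter P := by
      ext x
      simp only [Finset.mem_filter, Finset.mem_product, hSj, hTj]
      constructor
      · rintro ⟨⟨⟨hx1, hx2⟩, hx3⟩, hx4⟩
        refine ⟨⟨⟨hx1, ?_⟩, hx2, hx4⟩, hx3⟩
        rw [le_div_iff₀ hu0]
        have hb1 : (2 : ℝ) ^ j ≤ nm x.2 := hlow x.2 (by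
          rw [hTj, Finset.mem_filter]; exact ⟨hx2, hx4⟩)
        have h5 : nm x.1 * nm x.2 ≤ X := by
          rw [← nm_mul]; exact hx3.2.trans h2
        have h6 : (nm x.1 : ℝ) * nm x.2 ≤ X := by exact_mod_cast h5
        refine le_trans ?_ h6
        exact mul_le_mul_of_nonneg_left hb1 (Nat.cast_nonneg _)
      · rintro ⟨⟨⟨hx1, _⟩, hx2, hx4⟩, hx3⟩
        exact ⟨⟨⟨hx1, hx2⟩, hx3⟩, hx4⟩
    rw [hset]
    have hbox := box_cut2 Sj Tj (fun a ha => hS a (Finset.mem_filter.mp ha).1)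
      (fun b hb => (hT b (Finset.mem_filter.mp hb).1).1) α β hMM X X1 X2 h1 h2
    refine hbox.trans ?_
    refine mul_le_mul_of_nonneg_left ?_ (by positivity)
    have hD := hΔ j
    have hXΔ : 0 ≤ X * Δ := le_trans (mul_nonneg (Finset.sum_nonneg fun _ _ => by positivity)
      (Finset.sum_nonneg fun _ _ => by positivity)) hD
    have hΔ0 : 0 ≤ Δ := by
      by_contra hc
      push Not at hc
      nlinarith
    -- size of Mj
    have hu3 : X / u ≤ 2 * (X : ℝ) ^ ((2 : ℝ) / 3) := by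
      rw [div_le_iff₀ hu0]
      have h5 : (X : ℝ) ^ ((1 : ℝ) / 3) ≤ 2 * u := by
        rw [← hB]; exact hb0T.2.2.1.trans (hup b0 hb0)
      calc (X : ℝ) = (X : ℝ) ^ ((2 : ℝ) / 3) * (X : ℝ) ^ ((1 : ℝ) / 3) := by
            rw [← Real.rpow_add hX0]; norm_num
        _ ≤ (X : ℝ) ^ ((2 : ℝ) / 3) * (2 * u) := by gcongr
        _ = _ := by ring
    have h23 : (2 * (X : ℝ)) ^ ((2 : ℝ) / 3) ≤ 2 * (X : ℝ) ^ ((2 : ℝ) / 3) := by
      rw [Real.mul_rpow (by norm_num) hX0.le]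
      refine mul_le_mul_of_nonneg_right ?_ (by positivity)
      calc (2 : ℝ) ^ ((2 : ℝ) / 3) ≤ (2 : ℝ) ^ (1 : ℝ) :=
            Real.rpow_le_rpow_of_exponent_le (by norm_num) (by norm_num)
        _ = 2 := Real.rpow_one _
    have hMle : Mj ≤ 4 * C * (Real.log (2 * X + 2)) ^ k * (X : ℝ) ^ ((2 : ℝ) / 3) := by
      rw [hMj]
      have : 0 ≤ C * (Real.log (2 * X + 2)) ^ k := by positivity
      nlinarith [Real.rpow_pos_of_pos hX0 ((2 : ℝ) / 3)]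
    have hfin : Mj * (∑ a ∈ Sj, ‖α a‖ ^ 2) * ∑ b ∈ Tj, ‖β b‖ ^ 2 ≤
        (4 * C * (Real.log (2 * X + 2)) ^ k * Δ) * (X : ℝ) ^ ((5 : ℝ) / 3) := by
      have e53 : (X : ℝ) ^ ((5 : ℝ) / 3) = (X : ℝ) ^ ((2 : ℝ) / 3) * X := by
        rw [← Real.rpow_add_one hX0.ne']; norm_num
      rw [mul_assoc]
      calc Mj * ((∑ a ∈ Sj, ‖α a‖ ^ 2) * ∑ b ∈ Tj, ‖β b‖ ^ 2) ≤ Mj * (X * Δ) :=
            mul_le_mul_of_nonneg_left hD hM0
        _ ≤ (4 * C * (Real.log (2 * X + 2)) ^ k * (X : ℝ) ^ ((2 : ℝ) / 3)) * (X * Δ) :=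
            mul_le_mul_of_nonneg_right hMle hXΔ
        _ = _ := by rw [e53]; ring
    calc Real.sqrt (Mj * (∑ a ∈ Sj, ‖α a‖ ^ 2) * ∑ b ∈ Tj, ‖β b‖ ^ 2)
        ≤ Real.sqrt ((4 * C * (Real.log (2 * X + 2)) ^ k * Δ) * (X : ℝ) ^ ((5 : ℝ) / 3)) :=
          Real.sqrt_le_sqrt hfin
      _ = Real.sqrt (4 * C * (Real.log (2 * X + 2)) ^ k * Δ) *
            Real.sqrt ((X : ℝ) ^ ((5 : ℝ) / 3)) := Real.sqrt_mul (by positivity) _
      _ = _ := by
          congr 1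
          rw [Real.sqrt_eq_rpow, ← Real.rpow_mul hX0.le]
          norm_num
  refine (Finset.sum_le_sum hterm).trans ?_
  rw [Finset.sum_const, Finset.card_range, nsmul_eq_mul]


/-! ### Densities in terms of elements -/

/-- the `w`-smooth part of a squarefree primary number -/
def spart (w : ℝ) (b : Eis) : Eis :=
  open Classical in prd ((pset b).filter (fun p => (nm p.1 : ℝ) ≤ w))

lemma pset_injOn (S : Finset Eis) (hS : ∀ a ∈ S, IsPrim a ∧ Squarefree a) :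
    Set.InjOn pset (S : Set Eis) := by
  intro a ha b hb h
  rw [← prd_pset (hS a ha).1 (hS a ha).2, ← prd_pset (hS b hb).1 (hS b hb).2, h]

open Classical in
lemma sum_eq_pset (S : Finset Eis) (hS : ∀ a ∈ S, IsPrim a ∧ Squarefree a) (g : Eis → ℝ) :
    ∑ a ∈ S, g a = ∑ T ∈ S.image pset, g (prd T) := by
  rw [Finset.sum_image (pset_injOn S hS)]
  exact Finset.sum_congr rfl fun a ha => by rw [prd_pset (hS a ha).1 (hS a ha).2]

/-- `2 log log X + 75` is positive. -/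
lemma LL_pos {X : ℝ} (hX : 2 ≤ X) : 0 < 2 * Real.log (Real.log X) + 75 := by
  have l1 := Real.log_two_gt_d9
  have h1 : Real.log 2 ≤ Real.log X := Real.log_le_log (by norm_num) hX
  have h2 : 1 - (Real.log X)⁻¹ ≤ Real.log (Real.log X) :=
    Real.one_sub_inv_le_log_of_pos (by linarith)
  have h3 : (Real.log X)⁻¹ ≤ 2 := by
    rw [inv_le_comm₀ (by linarith) (by norm_num)]; linarith
  linarith

/-- weight of a general set -/
def W1 (c X : ℝ) : ℝ := Real.exp (c * (2 * Real.log (Real.log X) + 75))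

/-- saving for sparse sets -/
def dl (c c0 X w : ℝ) : ℝ :=
  Real.exp (-(c0 * Real.log X / Real.log w)) * Real.exp (Real.exp 1 * c * (2 * Real.log (Real.log w) + 75))

lemma W1_pos (c X : ℝ) : 0 < W1 c X := Real.exp_pos _
lemma dl_pos (c c0 X w : ℝ) : 0 < dl c c0 X w := mul_pos (Real.exp_pos _) (Real.exp_pos _)

open Classical in
lemma dens_general {c : ℝ} (hc : 0 ≤ c) {X : ℝ} (hX : 2 ≤ X) (S : Finset Eis)
    (hS : ∀ a ∈ S, IsPrim a ∧ Squarefree a) (hn : ∀ a ∈ S, (nm a : ℝ) ≤ X) :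
    ∑ a ∈ S, c ^ (pset a).card / (nm a : ℝ) ≤ W1 c X := by
  rw [sum_eq_pset S hS (fun a => c ^ (pset a).card / (nm a : ℝ))]
  simp only [pset_prd]
  refine sum_omega_div hc hX _ ?_
  intro T hT p hp
  rw [Finset.mem_image] at hT
  obtain ⟨a, ha, rfl⟩ := hT
  have h1 := (mem_pset (hS a ha).1.ne_zero).mp hp
  have h2 : nm p.1 ≤ nm a := nm_le_of_dvd' (hS a ha).1.ne_zero h1
  have h3 : (nm p.1 : ℝ) ≤ nm a := by exact_mod_cast h2
  exact h3.trans (hn a ha)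

open Classical in
lemma dens_sparse {c : ℝ} (hc : 0 ≤ c) {c0 X w : ℝ} (hX : 2 ≤ X) (hw : 2 ≤ w) (S : Finset Eis)
    (hS : ∀ a ∈ S, IsPrim a ∧ Squarefree a) (hn : ∀ a ∈ S, (nm a : ℝ) ≤ X)
    (hsp : ∀ a ∈ S, X ^ c0 ≤ (nm (spart w a) : ℝ)) :
    ∑ a ∈ S, c ^ (pset a).card / (nm a : ℝ) ≤ W1 c X * dl c c0 X w := by
  rw [sum_eq_pset S hS (fun a => c ^ (pset a).card / (nm a : ℝ))]
  simp only [pset_prd]
  have h := sum_smooth_part hc (w := w) (Y := X ^ c0) (B := X) hw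
    (Real.rpow_pos_of_pos (by linarith) _) hX (S.image pset) (by
      intro T hT
      rw [Finset.mem_image] at hT
      obtain ⟨a, ha, rfl⟩ := hT
      refine ⟨fun p hp => ?_, hsp a ha⟩
      have h1 := (mem_pset (hS a ha).1.ne_zero).mp hp
      have h2 : nm p.1 ≤ nm a := nm_le_of_dvd' (hS a ha).1.ne_zero h1
      have h3 : (nm p.1 : ℝ) ≤ nm a := by exact_mod_cast h2
      exact h3.trans (hn a ha))
  rw [Real.log_rpow (by linarith)] at h
  refine h.trans (le_of_eq ?_)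
  unfold W1 dl
  ring

/-- from `1/nm` sums to counting sums -/
lemma sq_sum_le {c A D : ℝ} (hc : 0 ≤ c) (hA : 0 ≤ A) (S : Finset Eis) (hS : ∀ a ∈ S, IsPrim a)
    (hn : ∀ a ∈ S, (nm a : ℝ) ≤ A)
    (α : Eis → ℂ) (hα : ∀ a ∈ S, ‖α a‖ ≤ c ^ (pset a).card)
    (hD : ∑ a ∈ S, (c ^ 2) ^ (pset a).card / (nm a : ℝ) ≤ D) :
    ∑ a ∈ S, ‖α a‖ ^ 2 ≤ A * D := by
  calc ∑ a ∈ S, ‖α a‖ ^ 2 ≤ ∑ a ∈ S, A * ((c ^ 2) ^ (pset a).card / (nm a : ℝ)) := by
        refine Finset.sum_le_sum fun a ha => ?_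
        have h0 : (0 : ℝ) < nm a := by exact_mod_cast nm_pos.mpr (hS a ha).ne_zero
        have h1 : ‖α a‖ ^ 2 ≤ (c ^ 2) ^ (pset a).card := by
          rw [← pow_mul, mul_comm, pow_mul]
          exact pow_le_pow_left₀ (norm_nonneg _) (hα a ha) 2
        rw [mul_div_assoc', le_div_iff₀ h0, mul_comm]
        exact mul_le_mul (hn a ha) h1 (by positivity) hA
    _ = A * ∑ a ∈ S, ((c ^ 2) ^ (pset a).card / (nm a : ℝ)) := by rw [Finset.mul_sum]
    _ ≤ _ := mul_le_mul_of_nonneg_left hD hA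

lemma rpow_exp_bound {c0 P : ℝ} (hc0 : 0 < c0) (hP : 0 ≤ P) :
    ∃ C : ℝ, 0 < C ∧ ∀ L : ℝ, 0 < L → L ^ P * Real.exp (-(c0 * L ^ ((1 : ℝ) / 3))) ≤ C := by
  obtain ⟨n, hn⟩ := exists_nat_ge (3 * P)
  refine ⟨1 + n.factorial / c0 ^ n, by positivity, fun L hL => ?_⟩
  set s : ℝ := L ^ ((1 : ℝ) / 3) with hs
  have hs0 : 0 < s := Real.rpow_pos_of_pos hL _
  have hLs : L ^ P = s ^ (3 * P) := by
    rw [hs, ← Real.rpow_mul hL.le]; congr 1; ring
  rw [hLs]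
  have hfac : 0 ≤ (n.factorial : ℝ) / c0 ^ n := by positivity
  rcases le_or_gt s 1 with h1 | h1
  · have h2 : s ^ (3 * P) ≤ 1 := Real.rpow_le_one hs0.le h1 (by positivity)
    have h3 : Real.exp (-(c0 * s)) ≤ 1 := Real.exp_le_one_iff.mpr (by nlinarith)
    have : s ^ (3 * P) * Real.exp (-(c0 * s)) ≤ 1 := mul_le_one₀ h2 (Real.exp_pos _).le h3
    linarith
  · have h2 : s ^ (3 * P) ≤ s ^ n := by
      rw [← Real.rpow_natCast]
      exact Real.rpow_le_rpow_of_exponent_le h1.le hn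
    have h3 := Real.pow_div_factorial_le_exp (c0 * s) (by positivity) n
    have h4 : s ^ n ≤ n.factorial / c0 ^ n * Real.exp (c0 * s) := by
      rw [mul_pow, div_le_iff₀ (by positivity)] at h3
      rw [div_mul_eq_mul_div, le_div_iff₀ (by positivity)]
      linarith
    have h5 : s ^ (3 * P) * Real.exp (-(c0 * s)) ≤ n.factorial / c0 ^ n := by
      calc s ^ (3 * P) * Real.exp (-(c0 * s)) ≤
            (n.factorial / c0 ^ n * Real.exp (c0 * s)) * Real.exp (-(c0 * s)) :=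
            mul_le_mul_of_nonneg_right (h2.trans h4) (Real.exp_pos _).le
        _ = n.factorial / c0 ^ n := by
            rw [mul_assoc, ← Real.exp_add]; simp
    linarith

/-- The saving beats every power of `log X`. -/
lemma delta_bound {c c0 : ℝ} (hc : 0 ≤ c) (hc0 : 0 < c0) (m : ℕ) :
    ∃ C : ℝ, 0 < C ∧ ∀ X w : ℝ, 2 ≤ X → 2 ≤ w → Real.log w ≤ (Real.log X) ^ ((2 : ℝ) / 3) →
      2 * (W1 c X * W1 c X * dl c c0 X w) ≤ C / (Real.log X) ^ m := by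
  set P : ℝ := 4 * c + 4 / 3 * (Real.exp 1 * c) + m with hPdef
  have hP : 0 ≤ P := by positivity
  obtain ⟨C, hC, hb⟩ := rpow_exp_bound hc0 hP
  refine ⟨2 * (Real.exp (150 * c) * Real.exp (75 * (Real.exp 1 * c))) * C, by positivity, ?_⟩
  intro X w hX hw hwX
  set L := Real.log X with hL
  have hL0 : 0 < L := Real.log_pos (by linarith)
  have hlw : 0 < Real.log w := Real.log_pos (by linarith)
  rw [le_div_iff₀ (by positivity)]
  have e1 : W1 c X * W1 c X = Real.exp (150 * c) * L ^ (4 * c) := by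
    unfold W1
    rw [← Real.exp_add, Real.rpow_def_of_pos hL0, ← Real.exp_add]
    congr 1; ring
  have e2 : dl c c0 X w ≤ Real.exp (-(c0 * L ^ ((1 : ℝ) / 3))) *
      (Real.exp (75 * (Real.exp 1 * c)) * L ^ (4 / 3 * (Real.exp 1 * c))) := by
    unfold dl
    refine mul_le_mul ?_ ?_ (Real.exp_pos _).le (Real.exp_pos _).le
    · apply Real.exp_le_exp.mpr
      rw [neg_le_neg_iff, mul_div_assoc]
      refine mul_le_mul_of_nonneg_left ?_ hc0.le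
      rw [le_div_iff₀ hlw]
      calc L ^ ((1 : ℝ) / 3) * Real.log w ≤ L ^ ((1 : ℝ) / 3) * L ^ ((2 : ℝ) / 3) := by gcongr
        _ = L := by rw [← Real.rpow_add hL0]; norm_num
    · rw [Real.rpow_def_of_pos hL0, ← Real.exp_add]
      apply Real.exp_le_exp.mpr
      have h1 : Real.log (Real.log w) ≤ 2 / 3 * Real.log L := by
        rw [← Real.log_rpow hL0]
        exact Real.log_le_log hlw hwX
      have h2 : 0 ≤ Real.exp 1 * c := by positivity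
      nlinarith
  have e3 : (L : ℝ) ^ m = L ^ (m : ℝ) := (Real.rpow_natCast L m).symm
  have hb' := hb L hL0
  have e4 : L ^ P = L ^ (4 * c) * L ^ (4 / 3 * (Real.exp 1 * c)) * L ^ (m : ℝ) := by
    rw [hPdef, Real.rpow_add hL0, Real.rpow_add hL0]
  rw [e1, e3]
  calc 2 * (Real.exp (150 * c) * L ^ (4 * c) * dl c c0 X w) * L ^ (m : ℝ)
      ≤ 2 * (Real.exp (150 * c) * L ^ (4 * c) * (Real.exp (-(c0 * L ^ ((1 : ℝ) / 3))) *
      (Real.exp (75 * (Real.exp 1 * c)) * L ^ (4 / 3 * (Real.exp 1 * c))))) * L ^ (m : ℝ) := by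
        gcongr
    _ = 2 * (Real.exp (150 * c) * Real.exp (75 * (Real.exp 1 * c))) *
        (L ^ P * Real.exp (-(c0 * L ^ ((1 : ℝ) / 3)))) := by rw [e4]; ring
    _ ≤ _ := by gcongr


lemma Fl_eq (l : ℤ) {n : Eis} (hn : IsPrim n) :
    Fl l n = ang l n * G n - (open Classical in if l = 0 ∧ Squarefree n then
      ang l n * ((pC * (nm n : ℝ) ^ (-(1 / 6) : ℝ) : ℝ) : ℂ) else 0) := by
  classical
  unfold Fl
  by_cases h : Squarefree n
  · by_cases h0 : l = 0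
    · simp only [h, h0, if_true, true_and]; ring
    · simp only [h, h0, if_true, if_false, false_and]; ring
  · rw [Gauss880.G_eq_zero Gauss880.syG hn h]
    simp [h]

lemma pC_nonneg : 0 ≤ pC := by
  unfold pC
  have : 0 < Real.Gamma (2 / 3) := Real.Gamma_pos_of_pos (by norm_num)
  positivity

open Classical in
/-- The model part is trivial. -/
lemma model_part (l : ℤ) {X : ℕ} (hX : 2 ≤ X) (S T : Finset Eis) (hS : ∀ a ∈ S, IsPrim a)
    (hT : ∀ b ∈ T, IsPrim b) (α β : Eis → ℂ) (X1 X2 : ℕ) (h2 : X2 ≤ X) {D1 D2 : ℝ}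
    (hD1 : ∑ a ∈ S.filter (fun a => (nm a : ℝ) ≤ X), ‖α a‖ / (nm a : ℝ) ≤ D1)
    (hD2 : ∑ b ∈ T.filter (fun b => (nm b : ℝ) ≤ X), ‖β b‖ / (nm b : ℝ) ≤ D2) :
    ‖∑ x ∈ (S ×ˢ T).filter (fun x => X1 < nm (x.1 * x.2) ∧ nm (x.1 * x.2) ≤ X2),
      α x.1 * β x.2 * (if l = 0 ∧ Squarefree (x.1 * x.2) then
        ang l (x.1 * x.2) * ((pC * (nm (x.1 * x.2) : ℝ) ^ (-(1 / 6) : ℝ) : ℝ) : ℂ) else 0)‖ ≤
      pC * (X : ℝ) ^ ((5 : ℝ) / 6) * (D1 * D2) := by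
  have hX0 : (0 : ℝ) < X := by exact_mod_cast (by omega : 0 < X)
  have hpC := pC_nonneg
  set S' := S.filter (fun a => (nm a : ℝ) ≤ X) with hS'
  set T' := T.filter (fun b => (nm b : ℝ) ≤ X) with hT'
  have hpos : ∀ x ∈ S ×ˢ T, 0 < nm x.1 ∧ 0 < nm x.2 := by
    intro x hx
    rw [Finset.mem_product] at hx
    exact ⟨nm_pos.mpr (hS _ hx.1).ne_zero, nm_pos.mpr (hT _ hx.2).ne_zero⟩
  calc _ ≤ ∑ x ∈ (S ×ˢ T).filter (fun x => X1 < nm (x.1 * x.2) ∧ nm (x.1 * x.2) ≤ X2),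
        (pC * (X : ℝ) ^ ((5 : ℝ) / 6)) * ((‖α x.1‖ / nm x.1) * (‖β x.2‖ / nm x.2)) := by
        refine (norm_sum_le _ _).trans (Finset.sum_le_sum fun x hx => ?_)
        rw [Finset.mem_filter] at hx
        obtain ⟨p1, p2⟩ := hpos x hx.1
        have q1 : (0 : ℝ) < nm x.1 := by exact_mod_cast p1
        have q2 : (0 : ℝ) < nm x.2 := by exact_mod_cast p2
        have q3 : (nm (x.1 * x.2) : ℝ) = nm x.1 * nm x.2 := by rw [nm_mul]; push_cast; ring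
        have q4 : (nm x.1 : ℝ) * nm x.2 ≤ X := by
          rw [← q3]; exact_mod_cast hx.2.2.trans h2
        have q0 : (0 : ℝ) < (nm x.1 : ℝ) * nm x.2 := by positivity
        have key : ((nm x.1 : ℝ) * nm x.2) ^ (-(1 / 6) : ℝ) ≤
            (X : ℝ) ^ ((5 : ℝ) / 6) / ((nm x.1 : ℝ) * nm x.2) := by
          rw [le_div_iff₀ q0, ← Real.rpow_add_one q0.ne']
          have e6 : (-(1 / 6) : ℝ) + 1 = 5 / 6 := by norm_num
          rw [e6]
          exact Real.rpow_le_rpow q0.le q4 (by norm_num)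
        split_ifs with hl
        · rw [norm_mul, norm_mul, norm_mul, Complex.norm_real, Real.norm_eq_abs,
            abs_of_nonneg (by positivity), q3]
          have ha := P355.norm_ang_le l (x.1 * x.2)
          calc ‖α x.1‖ * ‖β x.2‖ * (‖ang l (x.1 * x.2)‖ *
                (pC * ((nm x.1 : ℝ) * nm x.2) ^ (-(1 / 6) : ℝ)))
              ≤ ‖α x.1‖ * ‖β x.2‖ * (1 *
                (pC * ((X : ℝ) ^ ((5 : ℝ) / 6) / ((nm x.1 : ℝ) * nm x.2)))) := by gcongr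
            _ = _ := by field_simp
        · rw [mul_zero, norm_zero]; positivity
    _ ≤ ∑ x ∈ S' ×ˢ T', (pC * (X : ℝ) ^ ((5 : ℝ) / 6)) *
          ((‖α x.1‖ / nm x.1) * (‖β x.2‖ / nm x.2)) := by
        refine Finset.sum_le_sum_of_subset_of_nonneg ?_ (fun x _ _ => by positivity)
        intro x hx
        rw [Finset.mem_filter] at hx
        obtain ⟨p1, p2⟩ := hpos x hx.1
        rw [Finset.mem_product] at hx
        have h5 : nm x.1 * nm x.2 ≤ X := by rw [← nm_mul]; exact hx.2.2.trans h2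
        rw [Finset.mem_product, hS', hT', Finset.mem_filter, Finset.mem_filter]
        refine ⟨⟨hx.1.1, ?_⟩, hx.1.2, ?_⟩
        · have : nm x.1 ≤ X := by nlinarith
          exact_mod_cast this
        · have : nm x.2 ≤ X := by nlinarith
          exact_mod_cast this
    _ = (pC * (X : ℝ) ^ ((5 : ℝ) / 6)) *
          ((∑ a ∈ S', ‖α a‖ / (nm a : ℝ)) * ∑ b ∈ T', ‖β b‖ / (nm b : ℝ)) := by
        rw [← Finset.mul_sum, Finset.sum_mul_sum, Finset.sum_product]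
    _ ≤ _ := by
        refine mul_le_mul_of_nonneg_left ?_ (by positivity)
        refine mul_le_mul hD1 hD2 (Finset.sum_nonneg fun _ _ => by positivity) ?_
        exact le_trans (Finset.sum_nonneg fun _ _ => by positivity) hD1


lemma natlog_le {X : ℕ} (hX : 2 ≤ X) : ((Nat.log 2 X + 1 : ℕ) : ℝ) ≤ 3 * Real.log X := by
  have l1 := Real.log_two_gt_d9
  have hX0 : (0 : ℝ) < X := by exact_mod_cast (by omega : 0 < X)
  have h1 : (2 : ℝ) ^ Nat.log 2 X ≤ X := by exact_mod_cast Nat.pow_log_le_self 2 (by omega)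
  have h2 := Real.log_le_log (by positivity) h1
  rw [Real.log_pow] at h2
  have h3 : Real.log 2 ≤ Real.log X := Real.log_le_log (by norm_num) (by exact_mod_cast hX)
  have h4 : (Nat.log 2 X : ℝ) * 0.69 ≤ Real.log X := by
    refine le_trans ?_ h2
    exact mul_le_mul_of_nonneg_left (by linarith) (Nat.cast_nonneg _)
  push_cast
  linarith

open Classical in
/-- **The sparse class.**  `T8Prop` + Rankin: if one of the two variables has a large `w`-smooth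
part then the bilinear sum of `F_l` is `≪_K X^{5/6} (log X)^{-K}`. -/
theorem sparse (H : T8Prop) (l : ℤ) {c0 c : ℝ} (hc0 : 0 < c0) (hc : 1 ≤ c) (K : ℕ) :
    ∃ C : ℝ, 0 < C ∧ ∀ X : ℕ, 2 ≤ X → ∀ w : ℝ, 2 ≤ w →
      Real.log w ≤ (Real.log X) ^ ((2 : ℝ) / 3) →
      ∀ S T : Finset Eis, (∀ a ∈ S, IsPrim a ∧ Squarefree a) →
      (∀ b ∈ T, IsPrim b ∧ Squarefree b ∧ (X : ℝ) ^ ((1 : ℝ) / 3) ≤ nm b ∧
        (nm b : ℝ) ≤ (X : ℝ) ^ ((2 : ℝ) / 5) / 4) →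
      ((∀ a ∈ S, (X : ℝ) ^ c0 ≤ (nm (spart w a) : ℝ)) ∨
        (∀ b ∈ T, (X : ℝ) ^ c0 ≤ (nm (spart w b) : ℝ))) →
      ∀ α β : Eis → ℂ, (∀ a ∈ S, ‖α a‖ ≤ c ^ (pset a).card) →
      (∀ b ∈ T, ‖β b‖ ≤ c ^ (pset b).card) →
      ∀ X1 X2 : ℕ, X1 ≤ X → X2 ≤ X →
      ‖∑ x ∈ (S ×ˢ T).filter (fun x => X1 < nm (x.1 * x.2) ∧ nm (x.1 * x.2) ≤ X2),
        α x.1 * β x.2 * Fl l (x.1 * x.2)‖ ≤
        C * (X : ℝ) ^ ((5 : ℝ) / 6) / (Real.log X) ^ K := by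
  obtain ⟨C8, hC8, k, H8⟩ := H
  have hc00 : (0 : ℝ) ≤ c := by linarith
  obtain ⟨Ca, hCa, hda⟩ := delta_bound (c := c ^ 2) (c0 := c0) (by positivity) hc0
    (k + 2 * (K + 2))
  obtain ⟨Cb, hCb, hdb⟩ := delta_bound (c := c) (c0 := c0) hc00 hc0 K
  have hCi := Cint_pos
  have hpC := pC_nonneg
  refine ⟨96 * Cint * Real.sqrt (4 * C8 * 3 ^ k * Ca) + pC * Cb + 1, by positivity, ?_⟩
  intro X hX w hw hwX S T hS hT hsp α β hα hβ X1 X2 h1 h2
  have hX0 : (0 : ℝ) < X := by exact_mod_cast (by omega : 0 < X)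
  have hX2 : (2 : ℝ) ≤ X := by exact_mod_cast hX
  have l1 := Real.log_two_gt_d9
  have l2 := Real.log_two_lt_d9
  set L := Real.log X with hL
  have hL2 : Real.log 2 ≤ L := Real.log_le_log (by norm_num) hX2
  have hL0 : 0 < L := by linarith
  -- split
  have hsplit : ∑ x ∈ (S ×ˢ T).filter (fun x => X1 < nm (x.1 * x.2) ∧ nm (x.1 * x.2) ≤ X2),
        α x.1 * β x.2 * Fl l (x.1 * x.2) =
      ∑ x ∈ (S ×ˢ T).filter (fun x => X1 < nm (x.1 * x.2) ∧ nm (x.1 * x.2) ≤ X2),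
        (α x.1 * ang l x.1) * (β x.2 * ang l x.2) * G (x.1 * x.2) -
      ∑ x ∈ (S ×ˢ T).filter (fun x => X1 < nm (x.1 * x.2) ∧ nm (x.1 * x.2) ≤ X2),
      α x.1 * β x.2 * (if l = 0 ∧ Squarefree (x.1 * x.2) then
        ang l (x.1 * x.2) * ((pC * (nm (x.1 * x.2) : ℝ) ^ (-(1 / 6) : ℝ) : ℝ) : ℂ) else 0) := by
    rw [← Finset.sum_sub_distrib]
    refine Finset.sum_congr rfl fun x hx => ?_
    rw [Finset.mem_filter, Finset.mem_product] at hx
    rw [Fl_eq l ((hS _ hx.1.1).1.mul (hT _ hx.1.2).1), ang_mul]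
    ring
  rw [hsplit]
  refine (norm_sub_le _ _).trans ?_
  have hW1 : ∀ e, 0 < W1 e X := fun e => W1_pos e X
  have hdl : ∀ e, 0 < dl e c0 X w := fun e => dl_pos e c0 X w
  -- densities
  have dS : ∀ e : ℝ, 0 ≤ e → ∀ S' : Finset Eis, S' ⊆ S → (∀ a ∈ S', (nm a : ℝ) ≤ X) →
      ∑ a ∈ S', e ^ (pset a).card / (nm a : ℝ) ≤ W1 e X := fun e he S' hSS hn =>
    dens_general he hX2 S' (fun a ha => hS a (hSS ha)) hn
  have dT : ∀ e : ℝ, 0 ≤ e → ∀ T' : Finset Eis, T' ⊆ T → (∀ a ∈ T', (nm a : ℝ) ≤ X) →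
      ∑ a ∈ T', e ^ (pset a).card / (nm a : ℝ) ≤ W1 e X := fun e he T' hTT hn =>
    dens_general he hX2 T' (fun a ha => ⟨(hT a (hTT ha)).1, (hT a (hTT ha)).2.1⟩) hn
  have hbX : ∀ b ∈ T, (nm b : ℝ) ≤ X := by
    intro b hb
    have h3 := (hT b hb).2.2.2
    have h4 : (X : ℝ) ^ ((2 : ℝ) / 5) ≤ X := by
      calc (X : ℝ) ^ ((2 : ℝ) / 5) ≤ (X : ℝ) ^ (1 : ℝ) :=
            Real.rpow_le_rpow_of_exponent_le (by linarith) (by norm_num)
        _ = X := Real.rpow_one _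
    have h5 : 0 ≤ (X : ℝ) ^ ((2 : ℝ) / 5) := by positivity
    linarith
  -- product of the two densities, with the saving
  have dprod : ∀ e : ℝ, 0 ≤ e → ∀ S' T' : Finset Eis, S' ⊆ S → T' ⊆ T →
      (∀ a ∈ S', (nm a : ℝ) ≤ X) →
      ∃ D1 D2 : ℝ, ∑ a ∈ S', e ^ (pset a).card / (nm a : ℝ) ≤ D1 ∧
        ∑ b ∈ T', e ^ (pset b).card / (nm b : ℝ) ≤ D2 ∧ 0 ≤ D1 ∧ 0 ≤ D2 ∧
        D1 * D2 = W1 e X * W1 e X * dl e c0 X w := by
    intro e he S' T' hSS hTT hn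
    rcases hsp with hs | hs
    · refine ⟨W1 e X * dl e c0 X w, W1 e X, ?_, ?_, (mul_pos (hW1 e) (hdl e)).le, (hW1 e).le,
        by ring⟩
      · exact dens_sparse he hX2 hw S' (fun a ha => hS a (hSS ha)) hn
          (fun a ha => hs a (hSS ha))
      · exact dT e he T' hTT (fun b hb => hbX b (hTT hb))
    · refine ⟨W1 e X, W1 e X * dl e c0 X w, ?_, ?_, (hW1 e).le, (mul_pos (hW1 e) (hdl e)).le,
        by ring⟩
      · exact dS e he S' hSS hn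
      · exact dens_sparse he hX2 hw T' (fun a ha => ⟨(hT a (hTT ha)).1, (hT a (hTT ha)).2.1⟩)
          (fun b hb => hbX b (hTT hb)) (fun a ha => hs a (hTT ha))
  -- G part
  have hα' : ∀ a ∈ S, ‖α a * ang l a‖ ≤ c ^ (pset a).card := fun a ha => by
    rw [norm_mul]
    have := P355.norm_ang_le l a
    have h3 := hα a ha
    nlinarith [norm_nonneg (α a), norm_nonneg (ang l a)]
  have hβ' : ∀ b ∈ T, ‖β b * ang l b‖ ≤ c ^ (pset b).card := fun b hb => by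
    rw [norm_mul]
    have := P355.norm_ang_le l b
    have h3 := hβ b hb
    nlinarith [norm_nonneg (β b), norm_nonneg (ang l b)]
  set Δ : ℝ := 2 * (W1 (c ^ 2) X * W1 (c ^ 2) X * dl (c ^ 2) c0 X w) with hΔdef
  have hΔ0 : 0 ≤ Δ := by have := hW1 (c ^ 2); have := hdl (c ^ 2); positivity
  have hΔ : ∀ j : ℕ, (∑ a ∈ S.filter (fun a => (nm a : ℝ) ≤ X / 2 ^ j), ‖α a * ang l a‖ ^ 2) *
      (∑ b ∈ T.filter (fun b => Nat.log 2 (nm b) = j), ‖β b * ang l b‖ ^ 2) ≤ X * Δ := by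
    intro j
    set S' := S.filter (fun a => (nm a : ℝ) ≤ X / 2 ^ j) with hS'
    set T' := T.filter (fun b => Nat.log 2 (nm b) = j) with hT'
    have hu0 : (0 : ℝ) < 2 ^ j := by positivity
    have hSS : S' ⊆ S := Finset.filter_subset _ _
    have hTT : T' ⊆ T := Finset.filter_subset _ _
    have hnS : ∀ a ∈ S', (nm a : ℝ) ≤ X / 2 ^ j := fun a ha => (Finset.mem_filter.mp ha).2
    have hnS' : ∀ a ∈ S', (nm a : ℝ) ≤ X := fun a ha => (hnS a ha).trans (by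
      rw [div_le_iff₀ hu0]
      have : (1 : ℝ) ≤ 2 ^ j := one_le_pow₀ (by norm_num)
      nlinarith)
    have hnT : ∀ b ∈ T', (nm b : ℝ) ≤ 2 ^ (j + 1) := by
      intro b hb
      rw [hT', Finset.mem_filter] at hb
      have := Nat.lt_pow_succ_log_self (b := 2) (by norm_num) (nm b)
      rw [hb.2] at this
      exact_mod_cast this.le
    obtain ⟨D1, D2, hD1, hD2, hD10, hD20, hDD⟩ := dprod (c ^ 2) (by positivity) S' T' hSS hTT hnS'
    have q1 := sq_sum_le hc00 (A := X / 2 ^ j) (by positivity) S' (fun a ha => (hS a (hSS ha)).1)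
      hnS (fun a => α a * ang l a) (fun a ha => hα' a (hSS ha)) hD1
    have q2 := sq_sum_le hc00 (A := 2 ^ (j + 1)) (by positivity) T' (fun a ha => (hT a (hTT ha)).1)
      hnT (fun a => β a * ang l a) (fun a ha => hβ' a (hTT ha)) hD2
    calc _ ≤ (X / 2 ^ j * D1) * (2 ^ (j + 1) * D2) :=
          mul_le_mul q1 q2 (Finset.sum_nonneg fun _ _ => by positivity) (by positivity)
      _ = 2 * X * (D1 * D2) := by rw [pow_succ]; field_simp
      _ = X * Δ := by rw [hDD, hΔdef]; ring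
  have hG := G_part hC8 H8 hX S T (fun a ha => (hS a ha).1) hT (fun a => α a * ang l a)
    (fun b => β b * ang l b) hΔ X1 X2 h1 h2
  have hM : ‖∑ x ∈ (S ×ˢ T).filter (fun x => X1 < nm (x.1 * x.2) ∧ nm (x.1 * x.2) ≤ X2),
      α x.1 * β x.2 * (if l = 0 ∧ Squarefree (x.1 * x.2) then
        ang l (x.1 * x.2) * ((pC * (nm (x.1 * x.2) : ℝ) ^ (-(1 / 6) : ℝ) : ℝ) : ℂ) else 0)‖ ≤
      pC * Cb * (X : ℝ) ^ ((5 : ℝ) / 6) / L ^ K := by
    obtain ⟨D1, D2, hD1, hD2, hD10, hD20, hDD⟩ := dprod c hc00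
      (S.filter (fun a => (nm a : ℝ) ≤ X)) (T.filter (fun a => (nm a : ℝ) ≤ X))
      (Finset.filter_subset _ _) (Finset.filter_subset _ _)
      (fun a ha => (Finset.mem_filter.mp ha).2)
    have e1 : ∑ a ∈ S.filter (fun a => (nm a : ℝ) ≤ X), ‖α a‖ / (nm a : ℝ) ≤ D1 := by
      refine le_trans (Finset.sum_le_sum fun a ha => ?_) hD1
      exact div_le_div_of_nonneg_right (hα a (Finset.mem_filter.mp ha).1) (Nat.cast_nonneg _)
    have e2 : ∑ a ∈ T.filter (fun a => (nm a : ℝ) ≤ X), ‖β a‖ / (nm a : ℝ) ≤ D2 := by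
      refine le_trans (Finset.sum_le_sum fun a ha => ?_) hD2
      exact div_le_div_of_nonneg_right (hβ a (Finset.mem_filter.mp ha).1) (Nat.cast_nonneg _)
    have e3 := model_part l hX S T (fun a ha => (hS a ha).1) (fun a ha => (hT a ha).1) α β X1 X2
      h2 e1 e2
    refine e3.trans ?_
    rw [hDD]
    have e4 := hdb X w hX2 hw hwX
    have e5 : W1 c X * W1 c X * dl c c0 X w ≤ Cb / L ^ K := by
      have := hW1 c; have := hdl c
      have h0 : 0 ≤ W1 c X * W1 c X * dl c c0 X w := by positivity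
      linarith
    calc pC * (X : ℝ) ^ ((5 : ℝ) / 6) * (W1 c X * W1 c X * dl c c0 X w)
        ≤ pC * (X : ℝ) ^ ((5 : ℝ) / 6) * (Cb / L ^ K) :=
          mul_le_mul_of_nonneg_left e5 (by positivity)
      _ = _ := by ring
  -- numeric bounds
  have n1 := natlog_le hX
  have n2 : 1 + Real.log ((X : ℝ) + 1) ≤ 4 * L := by
    have h3 : Real.log ((X : ℝ) + 1) ≤ Real.log (2 * X) := Real.log_le_log (by positivity) (by linarith)
    rw [Real.log_mul (by norm_num) hX0.ne'] at h3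
    have : Real.log (X : ℝ) = L := rfl
    linarith
  have n3 : Real.log (2 * (X : ℝ) + 2) ≤ 3 * L := by
    have h3 : Real.log (2 * (X : ℝ) + 2) ≤ Real.log (2 ^ 2 * X) :=
      Real.log_le_log (by positivity) (by linarith)
    rw [Real.log_mul (by norm_num) hX0.ne', Real.log_pow] at h3
    have : Real.log (X : ℝ) = L := rfl
    push_cast at h3
    linarith
  have n30 : 0 ≤ Real.log (2 * (X : ℝ) + 2) := Real.log_nonneg (by linarith)
  have n20 : 0 ≤ 1 + Real.log ((X : ℝ) + 1) := by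
    have : 0 ≤ Real.log ((X : ℝ) + 1) := Real.log_nonneg (by linarith)
    linarith
  have n4 : Real.sqrt (4 * C8 * (Real.log (2 * X + 2)) ^ k * Δ) ≤
      Real.sqrt (4 * C8 * 3 ^ k * Ca) / L ^ (K + 2) := by
    have h3 := hda X w hX2 hw hwX
    have h4 : 4 * C8 * (Real.log (2 * X + 2)) ^ k * Δ ≤
        (4 * C8 * 3 ^ k * Ca) / (L ^ (K + 2)) ^ 2 := by
      calc 4 * C8 * (Real.log (2 * X + 2)) ^ k * Δ ≤
            4 * C8 * (3 * L) ^ k * (Ca / L ^ (k + 2 * (K + 2))) := by gcongr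
        _ = _ := by
            rw [mul_pow, pow_add, ← pow_mul, mul_comm (K + 2) 2]
            field_simp
    refine (Real.sqrt_le_sqrt h4).trans (le_of_eq ?_)
    rw [Real.sqrt_div (by positivity), Real.sqrt_sq (by positivity)]
  have hG' : ‖∑ x ∈ (S ×ˢ T).filter (fun x => X1 < nm (x.1 * x.2) ∧ nm (x.1 * x.2) ≤ X2),
        (α x.1 * ang l x.1) * (β x.2 * ang l x.2) * G (x.1 * x.2)‖ ≤
      96 * Cint * Real.sqrt (4 * C8 * 3 ^ k * Ca) * (X : ℝ) ^ ((5 : ℝ) / 6) / L ^ K := by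
    refine hG.trans ?_
    calc ((Nat.log 2 X + 1 : ℕ) : ℝ) * (8 * Cint * (1 + Real.log (X + 1)) *
          (Real.sqrt (4 * C8 * (Real.log (2 * X + 2)) ^ k * Δ) * (X : ℝ) ^ ((5 : ℝ) / 6)))
        ≤ (3 * L) * (8 * Cint * (4 * L) *
          (Real.sqrt (4 * C8 * 3 ^ k * Ca) / L ^ (K + 2) * (X : ℝ) ^ ((5 : ℝ) / 6))) := by
          gcongr
      _ = _ := by
          rw [pow_add]
          field_simp
          ring
  have hfin : 96 * Cint * Real.sqrt (4 * C8 * 3 ^ k * Ca) * (X : ℝ) ^ ((5 : ℝ) / 6) / L ^ K +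
      pC * Cb * (X : ℝ) ^ ((5 : ℝ) / 6) / L ^ K ≤
      (96 * Cint * Real.sqrt (4 * C8 * 3 ^ k * Ca) + pC * Cb + 1) * (X : ℝ) ^ ((5 : ℝ) / 6) /
        L ^ K := by
    rw [← add_div, ← add_mul]
    refine div_le_div_of_nonneg_right ?_ (by positivity)
    refine mul_le_mul_of_nonneg_right (by linarith) (by positivity)
  linarith

end Crest.Agent.R012.Sparse420
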