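import Crest.Agent.R012.SpecMain_48
import Crest.Agent.R012.SieveFin_812
import Crest.Agent.R012.Sparse_420

/-!
# Row 12: the sparse class from `T0_Prop`

`sparse_of_T0`: if one of the two variables has a large `w`-smooth part, then the bilinear form is
`≪_A X^{5/6} (log X)^{-A}`.  `L_of_T0`: the Legendre part of the sieve.
-/

set_option autoImplicit false

noncomputable section

namespace Crest.Agent.R012.SparseT0420

open Finset Eis Buch420 Dens420 Main48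
open Sparse420 (W1 dl W1_pos dl_pos delta_bound natlog_le)

lemma Bil_left (l : ℤ) (X : ℕ) (α β : Finset PrP → ℂ) (J : ℕ) (jj : Finset PrP → ℕ)
    (h : ∀ S ∈ (UX X).powerset, α S ≠ 0 → jj S < J) :
    Bil l X α β = ∑ j ∈ Finset.range J, Bil l X (fun S => if jj S = j then α S else 0) β := by
  unfold Bil
  symm
  refine Finset.sum_comm.trans (Finset.sum_congr rfl fun S hS => ?_)
  refine Finset.sum_comm.trans (Finset.sum_congr rfl fun T _ => ?_)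
  have h1 : ∑ j ∈ Finset.range J, (if jj S = j then α S else 0) = α S := by
    rw [Finset.sum_ite_eq]
    by_cases h0 : α S = 0
    · simp [h0]
    · rw [if_pos (Finset.mem_range.mpr (h S hS h0))]
  rw [← Finset.sum_mul, ← Finset.sum_mul, h1]

lemma Bil_right (l : ℤ) (X : ℕ) (α β : Finset PrP → ℂ) (J : ℕ) (jj : Finset PrP → ℕ)
    (h : ∀ S ∈ (UX X).powerset, β S ≠ 0 → jj S < J) :
    Bil l X α β = ∑ j ∈ Finset.range J, Bil l X α (fun S => if jj S = j then β S else 0) := by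
  unfold Bil
  symm
  refine Finset.sum_comm.trans (Finset.sum_congr rfl fun S hS => ?_)
  refine Finset.sum_comm.trans (Finset.sum_congr rfl fun T hT => ?_)
  have h1 : ∑ j ∈ Finset.range J, (if jj T = j then β T else 0) = β T := by
    rw [Finset.sum_ite_eq]
    by_cases h0 : β T = 0
    · simp [h0]
    · rw [if_pos (Finset.mem_range.mpr (h T hT h0))]
  rw [← Finset.sum_mul, ← Finset.mul_sum, h1]

lemma Bil_zero_right (l : ℤ) (X : ℕ) (α β : Finset PrP → ℂ) (h : ∀ T, β T = 0) :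
    Bil l X α β = 0 := by
  unfold Bil
  refine Finset.sum_eq_zero fun S _ => Finset.sum_eq_zero fun T _ => ?_
  rw [h T]; ring

open Classical in
/-- weighted `ℓ²` norm, general -/
lemma l2_general {c D : ℝ} (hc : 1 ≤ c) (hD : 1 ≤ D) {X : ℕ} (γ : Finset PrP → ℂ)
    (hγ : ∀ S, ‖γ S‖ ≤ c ^ S.card) {R : ℝ} (hR : 0 ≤ R)
    (hn : ∀ S, γ S ≠ 0 → (nm (prd S) : ℝ) ≤ R) {M : ℝ}
    (hM : ∑ S ∈ (UX X).powerset.filter (fun S => γ S ≠ 0),
      (D * c ^ 2) ^ S.card / (nm (prd S) : ℝ) ≤ M) :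
    ∑ S ∈ (UX X).powerset, D ^ S.card * ‖γ S‖ ^ 2 ≤ R * M := by
  have h1 : ∑ S ∈ (UX X).powerset, D ^ S.card * ‖γ S‖ ^ 2 =
      ∑ S ∈ (UX X).powerset.filter (fun S => γ S ≠ 0), D ^ S.card * ‖γ S‖ ^ 2 := by
    rw [Finset.sum_filter]
    refine Finset.sum_congr rfl fun S _ => ?_
    by_cases h : γ S = 0
    · simp [h]
    · rw [if_pos h]
  rw [h1]
  calc ∑ S ∈ (UX X).powerset.filter (fun S => γ S ≠ 0), D ^ S.card * ‖γ S‖ ^ 2
      ≤ ∑ S ∈ (UX X).powerset.filter (fun S => γ S ≠ 0), (D * c ^ 2) ^ S.card := by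
        refine Finset.sum_le_sum fun S _ => ?_
        rw [mul_pow, ← pow_mul, mul_comm 2 S.card, pow_mul]
        exact mul_le_mul_of_nonneg_left (pow_le_pow_left₀ (norm_nonneg _) (hγ S) 2)
          (by positivity)
    _ ≤ R * ∑ S ∈ (UX X).powerset.filter (fun S => γ S ≠ 0),
          (D * c ^ 2) ^ S.card / (nm (prd S) : ℝ) :=
        sum_le_mul_sum_div (by positivity) _ (fun S hS => hn S (Finset.mem_filter.mp hS).2)
    _ ≤ R * M := mul_le_mul_of_nonneg_left hM hR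

open Classical in
lemma dens_gen {c : ℝ} (hc : 0 ≤ c) {X : ℕ} (hX : 2 ≤ X) (γ : Finset PrP → ℂ) :
    ∑ S ∈ (UX X).powerset.filter (fun S => γ S ≠ 0), c ^ S.card / (nm (prd S) : ℝ) ≤ W1 c X := by
  refine sum_omega_div hc (by exact_mod_cast hX) _ ?_
  intro S hS p hp
  rw [Finset.mem_filter, Finset.mem_powerset] at hS
  exact_mod_cast mem_UX.mp (hS.1 hp)

open Classical in
lemma dens_sp {c : ℝ} (hc : 0 ≤ c) {X : ℕ} (hX : 2 ≤ X) {c0 w : ℝ} (hw : 2 ≤ w)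
    (γ : Finset PrP → ℂ)
    (hsp : ∀ S, γ S ≠ 0 → (X : ℝ) ^ c0 ≤ (nm (prd (S.filter (fun p => (nm p.1 : ℝ) ≤ w))) : ℝ)) :
    ∑ S ∈ (UX X).powerset.filter (fun S => γ S ≠ 0), c ^ S.card / (nm (prd S) : ℝ) ≤
      W1 c X * dl c c0 X w := by
  have hX0 : (0 : ℝ) < X := by exact_mod_cast (by omega : 0 < X)
  have h := sum_smooth_part hc (w := w) (Y := (X : ℝ) ^ c0) (B := X) hw
    (Real.rpow_pos_of_pos hX0 _) (by exact_mod_cast hX)
    ((UX X).powerset.filter (fun S => γ S ≠ 0)) (by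
      intro S hS
      rw [Finset.mem_filter, Finset.mem_powerset] at hS
      refine ⟨fun p hp => by exact_mod_cast mem_UX.mp (hS.1 hp), ?_⟩
      have := hsp S hS.2
      convert this using 4)
  rw [Real.log_rpow hX0] at h
  refine h.trans (le_of_eq ?_)
  unfold W1 dl
  ring

lemma log_block {n : ℕ} (hn : 2 ≤ n) :
    2 ^ Nat.log 2 (n - 1) < n ∧ n ≤ 2 * 2 ^ Nat.log 2 (n - 1) := by
  have h1 : 2 ^ Nat.log 2 (n - 1) ≤ n - 1 := Nat.pow_log_le_self 2 (by omega)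
  have h2 : n - 1 < 2 ^ (Nat.log 2 (n - 1) + 1) := Nat.lt_pow_succ_log_self (by norm_num) _
  rw [pow_succ] at h2
  omega

/-- restriction of `S` to `2 ≤ N ≤ X` -/
def rst (X : ℕ) (α : Finset PrP → ℂ) (S : Finset PrP) : ℂ :=
  if 2 ≤ nm (prd S) ∧ nm (prd S) ≤ X then α S else 0

lemma rst_ne {X : ℕ} {α : Finset PrP → ℂ} {S : Finset PrP} (h : rst X α S ≠ 0) :
    α S ≠ 0 ∧ 2 ≤ nm (prd S) ∧ nm (prd S) ≤ X := by
  unfold rst at h
  by_cases h1 : 2 ≤ nm (prd S) ∧ nm (prd S) ≤ X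
  · rw [if_pos h1] at h; exact ⟨h, h1⟩
  · rw [if_neg h1] at h; exact absurd rfl h

lemma norm_rst_le {X : ℕ} {α : Finset PrP → ℂ} {c : ℝ} (hc : 1 ≤ c)
    (h : ∀ S, ‖α S‖ ≤ c ^ S.card) (S : Finset PrP) : ‖rst X α S‖ ≤ c ^ S.card := by
  unfold rst
  split_ifs
  · exact h S
  · rw [norm_zero]; positivity

lemma two_le_rpow {X : ℝ} (hX : 4 ≤ X) : (2 : ℝ) ≤ X ^ (0.59 : ℝ) := by
  calc (2 : ℝ) = (4 : ℝ) ^ (0.5 : ℝ) := by
        rw [show (4 : ℝ) = 2 ^ (2 : ℝ) by norm_num, ← Real.rpow_mul (by norm_num)]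
        norm_num
    _ ≤ (4 : ℝ) ^ (0.59 : ℝ) :=
        Real.rpow_le_rpow_of_exponent_le (by norm_num) (by norm_num)
    _ ≤ _ := Real.rpow_le_rpow (by norm_num) hX (by norm_num)

lemma Bil_rst (l : ℤ) {X : ℕ} (hX4 : 4 ≤ X) (α β : Finset PrP → ℂ)
    (hβn : ∀ T, β T ≠ 0 → (nm (prd T) : ℝ) ≤ (X : ℝ) ^ (0.41 : ℝ)) :
    Bil l X α β = Bil l X (rst X α) β := by
  have hX4' : (4 : ℝ) ≤ X := by exact_mod_cast hX4
  have hX0 : (0 : ℝ) < X := by linarith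
  unfold Bil
  refine Finset.sum_congr rfl fun S _ => Finset.sum_congr rfl fun T _ => ?_
  by_cases hS : 2 ≤ nm (prd S) ∧ nm (prd S) ≤ X
  · unfold rst; rw [if_pos hS]
  · have h1 : rst X α S = 0 := by unfold rst; rw [if_neg hS]
    rw [h1]
    by_cases hT : β T = 0
    · rw [hT]; ring
    · have h2 : FX l X (prd S * prd T) = 0 := by
        unfold FX
        rw [if_neg]
        rintro ⟨h3, h4⟩
        rw [nm_mul] at h3 h4
        have hposT : 0 < nm (prd T) := nm_pos.mpr (prd_ne_zero T)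
        apply hS
        refine ⟨?_, le_trans (Nat.le_mul_of_pos_right _ hposT) h4⟩
        by_contra hc1
        have h5 : nm (prd S) ≤ 1 := by omega
        have h6 : nm (prd S) * nm (prd T) ≤ nm (prd T) := by nlinarith
        have h7 : (X : ℝ) < 2 * nm (prd T) := by exact_mod_cast (by omega : X < 2 * nm (prd T))
        have h8 := hβn T hT
        have h9 := two_le_rpow hX4'
        have h10 : (X : ℝ) = (X : ℝ) ^ (0.59 : ℝ) * (X : ℝ) ^ (0.41 : ℝ) := by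
          rw [← Real.rpow_add hX0]; norm_num
        have h11 : (0 : ℝ) < (X : ℝ) ^ (0.41 : ℝ) := Real.rpow_pos_of_pos hX0 _
        nlinarith
      rw [h2]; ring

/-- dyadic index -/
def jx (S : Finset PrP) : ℕ := Nat.log 2 (nm (prd S) - 1)

/-- dyadic piece -/
def blk (j : ℕ) (γ : Finset PrP → ℂ) (S : Finset PrP) : ℂ := if jx S = j then γ S else 0

lemma blk_ne {j : ℕ} {γ : Finset PrP → ℂ} {S : Finset PrP} (h : blk j γ S ≠ 0) :
    γ S ≠ 0 ∧ jx S = j := by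
  unfold blk at h
  by_cases h1 : jx S = j
  · rw [if_pos h1] at h; exact ⟨h, h1⟩
  · rw [if_neg h1] at h; exact absurd rfl h

lemma norm_blk_le {j : ℕ} {γ : Finset PrP → ℂ} {c : ℝ} (hc : 1 ≤ c)
    (h : ∀ S, ‖γ S‖ ≤ c ^ S.card) (S : Finset PrP) : ‖blk j γ S‖ ≤ c ^ S.card := by
  unfold blk
  split_ifs
  · exact h S
  · rw [norm_zero]; positivity

lemma blk_range {j : ℕ} {γ : Finset PrP → ℂ} (h2 : ∀ S, γ S ≠ 0 → 2 ≤ nm (prd S))
    (S : Finset PrP) (h : blk j γ S ≠ 0) :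
    (2 : ℝ) ^ j < nm (prd S) ∧ (nm (prd S) : ℝ) ≤ 2 * 2 ^ j := by
  obtain ⟨h3, h4⟩ := blk_ne h
  have h5 := log_block (h2 S h3)
  unfold jx at h4
  rw [h4] at h5
  exact ⟨by exact_mod_cast h5.1, by exact_mod_cast h5.2⟩

lemma jx_lt {X : ℕ} (S : Finset PrP) (hS : nm (prd S) ≤ X) : jx S < Nat.log 2 X + 1 := by
  have : Nat.log 2 (nm (prd S) - 1) ≤ Nat.log 2 X := Nat.log_mono_right (by omega)
  unfold jx
  omega

open Classical in
/-- spart condition -/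
def Sp (w Y : ℝ) (γ : Finset PrP → ℂ) : Prop :=
  ∀ T, γ T ≠ 0 → Y ≤ (nm (prd (T.filter (fun p => (nm p.1 : ℝ) ≤ w))) : ℝ)

open Classical in
/-- the densities of the two variables, with the saving -/
lemma dens_pair {c c0 w : ℝ} (hc : 0 ≤ c) {X : ℕ} (hX2 : 2 ≤ X) (hw : 2 ≤ w)
    (α β : Finset PrP → ℂ) (hsp : Sp w ((X : ℝ) ^ c0) β ∨ Sp w ((X : ℝ) ^ c0) α) :
    ∃ M1 M2 : ℝ,
      ∑ S ∈ (UX X).powerset.filter (fun S => α S ≠ 0), c ^ S.card / (nm (prd S) : ℝ) ≤ M1 ∧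
      ∑ S ∈ (UX X).powerset.filter (fun S => β S ≠ 0), c ^ S.card / (nm (prd S) : ℝ) ≤ M2 ∧
      0 ≤ M1 ∧ 0 ≤ M2 ∧ M1 * M2 = W1 c X * W1 c X * dl c c0 X w := by
  have hW := W1_pos c X
  have hdl := dl_pos c c0 X w
  rcases hsp with hs | hs
  · exact ⟨W1 c X, W1 c X * dl c c0 X w, dens_gen hc hX2 _, dens_sp hc hX2 hw _ hs, hW.le,
      (mul_pos hW hdl).le, by ring⟩
  · exact ⟨W1 c X * dl c c0 X w, W1 c X, dens_sp hc hX2 hw _ hs, dens_gen hc hX2 _,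
      (mul_pos hW hdl).le, hW.le, by ring⟩

open Classical in
/-- one dyadic block -/
lemma block {l : ℤ} {D K0 : ℝ} {X1 : ℕ} (hD : 1 ≤ D)
    (H : ∀ X : ℕ, X1 ≤ X →
      ∀ (A B : ℝ) (α β : Finset PrP → ℂ), 1 ≤ A → (X : ℝ) ^ (0.34 : ℝ) ≤ B →
      B ≤ (X : ℝ) ^ (0.41 : ℝ) →
      (∀ S, α S ≠ 0 → A < nm (prd S) ∧ (nm (prd S) : ℝ) ≤ 2 * A) →
      (∀ T, β T ≠ 0 → B < nm (prd T) ∧ (nm (prd T) : ℝ) ≤ 2 * B) →
      ‖Bil l X α β‖ ≤ LX X ^ K0 * (X : ℝ) ^ ((5 : ℝ) / 6) *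
        Real.sqrt ((∑ S ∈ (UX X).powerset, ‖α S‖ ^ 2) / A) *
        Real.sqrt ((∑ T ∈ (UX X).powerset, D ^ T.card * ‖β T‖ ^ 2) / B))
    {c0 c : ℝ} (hc : 1 ≤ c) {X : ℕ} (hX1 : X1 ≤ X) (hX2 : 2 ≤ X) {w : ℝ} (hw : 2 ≤ w)
    (α β : Finset PrP → ℂ) (hα : ∀ S, ‖α S‖ ≤ c ^ S.card) (hβ : ∀ T, ‖β T‖ ≤ c ^ T.card)
    (hα2 : ∀ S, α S ≠ 0 → 2 ≤ nm (prd S))
    (hβn : ∀ T, β T ≠ 0 → 2 * (X : ℝ) ^ (0.34 : ℝ) ≤ nm (prd T) ∧
        (nm (prd T) : ℝ) ≤ (X : ℝ) ^ (0.41 : ℝ))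
    (hsp : Sp w ((X : ℝ) ^ c0) β ∨ Sp w ((X : ℝ) ^ c0) α) {Q : ℝ}
    (hQ : 2 * (W1 (D * c ^ 2) X * W1 (D * c ^ 2) X * dl (D * c ^ 2) c0 X w) ≤ Q)
    (j k : ℕ) :
    ‖Bil l X (blk j α) (blk k β)‖ ≤
      LX X ^ K0 * (X : ℝ) ^ ((5 : ℝ) / 6) * Real.sqrt (2 * Q) := by
  have hX0 : (0 : ℝ) < X := by exact_mod_cast (by omega : 0 < X)
  have hX1' : (1 : ℝ) ≤ X := by exact_mod_cast (by omega : 1 ≤ X)
  have hL0 : 0 ≤ LX X := Real.log_nonneg hX1'
  have hposR : 0 ≤ LX X ^ K0 * (X : ℝ) ^ ((5 : ℝ) / 6) * Real.sqrt (2 * Q) := by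
    positivity
  by_cases hex : ∃ T, blk k β T ≠ 0
  · obtain ⟨T0, hT0⟩ := hex
    have hβ2 : ∀ T, β T ≠ 0 → 2 ≤ nm (prd T) := by
      intro T hT
      have h1 := (hβn T hT).1
      have h2 : (1 : ℝ) ≤ (X : ℝ) ^ (0.34 : ℝ) := Real.one_le_rpow hX1' (by norm_num)
      have : (2 : ℝ) ≤ nm (prd T) := by linarith
      exact_mod_cast this
    have hβk := blk_range (j := k) hβ2
    have hαj := blk_range (j := j) hα2
    have hT0b := hβk T0 hT0
    have hTn := hβn T0 (blk_ne hT0).1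
    have hB1 : (X : ℝ) ^ (0.34 : ℝ) ≤ 2 ^ k := by linarith [hTn.1, hT0b.2]
    have hB2 : (2 : ℝ) ^ k ≤ (X : ℝ) ^ (0.41 : ℝ) := by linarith [hTn.2, hT0b.1]
    have hA1 : (1 : ℝ) ≤ 2 ^ j := one_le_pow₀ (by norm_num)
    refine (H X hX1 (2 ^ j) (2 ^ k) (blk j α) (blk k β) hA1 hB1 hB2 hαj hβk).trans ?_
    have hsp' : Sp w ((X : ℝ) ^ c0) (blk k β) ∨ Sp w ((X : ℝ) ^ c0) (blk j α) := by
      rcases hsp with h | h
      · exact Or.inl fun T hT => h T (blk_ne hT).1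
      · exact Or.inr fun T hT => h T (blk_ne hT).1
    obtain ⟨M1, M2, hM1, hM2, hM10, hM20, hMM⟩ := dens_pair (c := D * c ^ 2) (by positivity) hX2 hw
      (blk j α) (blk k β) hsp'
    have q1 := l2_general hc hD (blk j α) (norm_blk_le hc hα)
      (R := 2 * 2 ^ j) (by positivity) (fun S hS => (hαj S hS).2) hM1
    have q2 := l2_general hc hD (blk k β) (norm_blk_le hc hβ)
      (R := 2 * 2 ^ k) (by positivity) (fun S hS => (hβk S hS).2) hM2
    have q1' : ∑ S ∈ (UX X).powerset, ‖blk j α S‖ ^ 2 ≤ 2 * 2 ^ j * M1 := by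
      refine le_trans (Finset.sum_le_sum fun S _ => ?_) q1
      have : (1 : ℝ) ≤ D ^ S.card := one_le_pow₀ hD
      nlinarith [sq_nonneg ‖blk j α S‖]
    have hA0 : (0 : ℝ) < 2 ^ j := by positivity
    have hB0 : (0 : ℝ) < 2 ^ k := by positivity
    have q2' : ∑ T ∈ (UX X).powerset, D ^ T.card * ‖blk k β T‖ ^ 2 ≤ 2 * 2 ^ k * M2 := q2
    generalize ∑ S ∈ (UX X).powerset, ‖blk j α S‖ ^ 2 = s1 at q1' ⊢
    generalize ∑ T ∈ (UX X).powerset, D ^ T.card * ‖blk k β T‖ ^ 2 = s2 at q2' ⊢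
    have r1 : s1 / 2 ^ j ≤ 2 * M1 := by
      rw [div_le_iff₀ hA0]; linarith
    have r2 : s2 / 2 ^ k ≤ 2 * M2 := by
      rw [div_le_iff₀ hB0]; linarith
    have r3 : Real.sqrt (s1 / 2 ^ j) * Real.sqrt (s2 / 2 ^ k) ≤ Real.sqrt (2 * Q) := by
      calc Real.sqrt (s1 / 2 ^ j) * Real.sqrt (s2 / 2 ^ k)
          ≤ Real.sqrt (2 * M1) * Real.sqrt (2 * M2) :=
            mul_le_mul (Real.sqrt_le_sqrt r1) (Real.sqrt_le_sqrt r2) (Real.sqrt_nonneg _)
              (Real.sqrt_nonneg _)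
        _ = Real.sqrt (2 * M1 * (2 * M2)) := (Real.sqrt_mul (by positivity) _).symm
        _ ≤ Real.sqrt (2 * Q) := by
            apply Real.sqrt_le_sqrt
            calc 2 * M1 * (2 * M2) = 2 * (2 * (M1 * M2)) := by ring
              _ ≤ 2 * Q := by
                rw [hMM]
                exact mul_le_mul_of_nonneg_left hQ (by norm_num)
    rw [mul_assoc]
    exact mul_le_mul_of_nonneg_left r3 (by positivity)
  · push Not at hex
    rw [Bil_zero_right l X _ _ hex, norm_zero]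
    exact hposR

open Classical in
/-- **The sparse class.** -/
theorem sparse_of_T0 (h0 : T0_Prop) (l : ℤ) {c0 c : ℝ} (hc0 : 0 < c0) (hc : 1 ≤ c) (A : ℕ) :
    ∃ (K : ℝ) (X0 : ℕ), 0 < K ∧ ∀ X : ℕ, X0 ≤ X → ∀ w : ℝ, 2 ≤ w →
      Real.log w ≤ (Real.log X) ^ ((2 : ℝ) / 3) →
      ∀ α β : Finset PrP → ℂ, (∀ S, ‖α S‖ ≤ c ^ S.card) → (∀ T, ‖β T‖ ≤ c ^ T.card) →
      (∀ T, β T ≠ 0 → 2 * (X : ℝ) ^ (0.34 : ℝ) ≤ nm (prd T) ∧
        (nm (prd T) : ℝ) ≤ (X : ℝ) ^ (0.41 : ℝ)) →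
      (Sp w ((X : ℝ) ^ c0) β ∨ Sp w ((X : ℝ) ^ c0) α) →
      ‖Bil l X α β‖ ≤ K * (X : ℝ) ^ ((5 : ℝ) / 6) / LX X ^ A := by
  obtain ⟨D, K0, X1, hD, H⟩ := h0 l
  obtain ⟨m, hm⟩ := exists_nat_ge (2 * (K0 + 2 + A))
  obtain ⟨Cd, hCd, hdel⟩ := delta_bound (c := D * c ^ 2) (c0 := c0) (by positivity) hc0 m
  refine ⟨9 * Real.sqrt (2 * Cd), max X1 4, by positivity, ?_⟩
  intro X hXX w hw hwX α β hα hβ hβn hsp
  have hX1 : X1 ≤ X := le_trans (le_max_left _ _) hXX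
  have hX4 : 4 ≤ X := le_trans (le_max_right _ _) hXX
  have hX2 : 2 ≤ X := by omega
  have hX4' : (4 : ℝ) ≤ X := by exact_mod_cast hX4
  have hX0 : (0 : ℝ) < X := by linarith
  have hL1 : 1 ≤ LX X := by
    unfold LX
    rw [Real.le_log_iff_exp_le hX0]
    linarith [Real.exp_one_lt_d9]
  have hL0 : 0 < LX X := by linarith
  have hXpow : (X : ℝ) ^ (0.41 : ℝ) ≤ X := by
    calc (X : ℝ) ^ (0.41 : ℝ) ≤ (X : ℝ) ^ (1 : ℝ) :=
          Real.rpow_le_rpow_of_exponent_le (by linarith) (by norm_num)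
      _ = X := Real.rpow_one _
  have hβlt : ∀ S ∈ (UX X).powerset, β S ≠ 0 → jx S < Nat.log 2 X + 1 := by
    intro S _ hS
    apply jx_lt
    have := (hβn S hS).2.trans hXpow
    exact_mod_cast this
  have hsp' : Sp w ((X : ℝ) ^ c0) β ∨ Sp w ((X : ℝ) ^ c0) (rst X α) := by
    rcases hsp with h | h
    · exact Or.inl h
    · exact Or.inr fun T hT => h T (rst_ne hT).1
  have hblock := block (c0 := c0) hD H hc hX1 hX2 hw (rst X α) β (norm_rst_le hc hα) hβ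
    (fun S hS => (rst_ne hS).2.1) hβn hsp' (hdel X w (by exact_mod_cast hX2) hw hwX)
  rw [Bil_rst l hX4 α β (fun T hT => (hβn T hT).2), Bil_left l X (rst X α) β (Nat.log 2 X + 1) jx
    (fun S _ hS => jx_lt S (rst_ne hS).2.2)]
  have hJ3 : ((Nat.log 2 X + 1 : ℕ) : ℝ) ≤ 3 * LX X := natlog_le hX2
  generalize Nat.log 2 X + 1 = J at hJ3 hβlt ⊢
  have hsum : ‖∑ j ∈ Finset.range J, Bil l X (blk j (rst X α)) β‖ ≤
      (J : ℝ) * ((J : ℝ) *
        (LX X ^ K0 * (X : ℝ) ^ ((5 : ℝ) / 6) * Real.sqrt (2 * (Cd / LX X ^ m)))) := by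
    refine (norm_sum_le _ _).trans ?_
    have h1 : ∀ j ∈ Finset.range J, ‖Bil l X (blk j (rst X α)) β‖ ≤
        (J : ℝ) * (LX X ^ K0 * (X : ℝ) ^ ((5 : ℝ) / 6) * Real.sqrt (2 * (Cd / LX X ^ m))) := by
      intro j _
      rw [Bil_right l X _ β J jx hβlt]
      refine (norm_sum_le _ _).trans ?_
      refine (Finset.sum_le_sum fun k _ => hblock j k).trans ?_
      rw [Finset.sum_const, Finset.card_range, nsmul_eq_mul]
      exact le_rfl
    refine (Finset.sum_le_sum h1).trans ?_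
    rw [Finset.sum_const, Finset.card_range, nsmul_eq_mul]
  refine le_trans hsum ?_
  have hJ0 : (0 : ℝ) ≤ J := Nat.cast_nonneg _
  have hsq : Real.sqrt (2 * (Cd / LX X ^ m)) ≤ Real.sqrt (2 * Cd) / LX X ^ (K0 + 2 + A) := by
    rw [show 2 * (Cd / LX X ^ m) = 2 * Cd / LX X ^ m by ring, Real.sqrt_div (by positivity)]
    refine div_le_div_of_nonneg_left (by positivity) (by positivity) ?_
    apply Real.le_sqrt_of_sq_le
    rw [← Real.rpow_natCast, ← Real.rpow_mul hL0.le, ← Real.rpow_natCast]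
    exact Real.rpow_le_rpow_of_exponent_le hL1 (by push_cast; linarith)
  calc (J : ℝ) * ((J : ℝ) *
        (LX X ^ K0 * (X : ℝ) ^ ((5 : ℝ) / 6) * Real.sqrt (2 * (Cd / LX X ^ m))))
      ≤ (3 * LX X) * ((3 * LX X) *
        (LX X ^ K0 * (X : ℝ) ^ ((5 : ℝ) / 6) *
          (Real.sqrt (2 * Cd) / LX X ^ (K0 + 2 + A)))) := by
        gcongr
    _ = 9 * Real.sqrt (2 * Cd) * (X : ℝ) ^ ((5 : ℝ) / 6) *
        (LX X ^ 2 * LX X ^ K0 / LX X ^ (K0 + 2 + A)) := by ring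
    _ = 9 * Real.sqrt (2 * Cd) * (X : ℝ) ^ ((5 : ℝ) / 6) * (1 / LX X ^ A) := by
        congr 1
        rw [Real.rpow_add hL0, Real.rpow_add hL0, Real.rpow_natCast,
          show (2 : ℝ) = ((2 : ℕ) : ℝ) by norm_num, Real.rpow_natCast]
        have h1 : LX X ^ K0 ≠ 0 := (Real.rpow_pos_of_pos hL0 _).ne'
        field_simp
    _ = _ := by ring

/-! ### The Legendre part of the sieve -/

lemma supp_FX (l : ℤ) (X : ℕ) : Sieve812.Supp X (FX l X) := by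
  have key : ∀ n, FX l X n ≠ 0 → (X < 2 * nm n ∧ nm n ≤ X) ∧ Squarefree n := by
    intro n hn
    unfold FX at hn
    by_cases h : X < 2 * nm n ∧ nm n ≤ X
    · rw [if_pos h] at hn
      refine ⟨h, ?_⟩
      unfold Fl at hn
      by_contra hc
      rw [if_neg hc] at hn
      exact hn rfl
    · rw [if_neg h] at hn; exact absurd rfl hn
  exact ⟨fun n hn => (key n hn).2, fun n hn => (key n hn).1.2, fun n hn => (key n hn).1.1⟩

open Classical in
/-- bilinear sums over a set `s` of outer variables as `Bil` -/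
lemma outer_eq_Bil (l : ℤ) (X : ℕ) (s : Finset (Finset PrP)) (hs : s ⊆ (UX X).powerset)
    (γ : Finset PrP → ℂ) (α : Eis → ℂ) :
    ∑ K ∈ s, γ K * ∑ a ∈ primBall X, α a * FX l X (prd K * a) =
      Bil l X (fun S => α (prd S)) (fun K => if K ∈ s then γ K else 0) := by
  unfold Bil
  symm
  refine Finset.sum_comm.trans ?_
  have h1 : ∀ T ∈ (UX X).powerset, ∑ S ∈ (UX X).powerset,
      α (prd S) * (if T ∈ s then γ T else 0) * FX l X (prd S * prd T) =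
      if T ∈ s then γ T * ∑ a ∈ primBall X, α a * FX l X (prd T * a) else 0 := by
    intro T _
    by_cases hT : T ∈ s
    · simp only [if_pos hT]
      have h2 := Sieve812.sum_J (supp_FX l X) T (fun S => α (prd S))
      have h3 : ∑ a ∈ primBall X, α (prd (pset a)) * FX l X (prd T * a) =
          ∑ a ∈ primBall X, α a * FX l X (prd T * a) := by
        refine Finset.sum_congr rfl fun a ha => ?_
        by_cases h0 : FX l X (prd T * a) = 0
        · rw [h0]; ring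
        · have h4 := ((supp_FX l X).sq _ h0).of_mul_right
          rw [prd_pset (mem_primBall.mp ha).2 h4]
      rw [← h3, ← h2, Finset.mul_sum]
      refine Finset.sum_congr rfl fun S _ => ?_
      rw [mul_comm (prd S) (prd T)]
      ring
    · simp only [if_neg hT, mul_zero, zero_mul, Finset.sum_const_zero]
  rw [Finset.sum_congr rfl h1, ← Finset.sum_filter]
  refine Finset.sum_congr ?_ fun _ _ => rfl
  ext T
  rw [Finset.mem_filter]
  exact ⟨fun h => h.2, fun h => ⟨hs h, h⟩⟩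

lemma log_wX (X : ℕ) : Real.log (wX X) = (Real.log X) ^ ((2 : ℝ) / 3) := by
  unfold wX; rw [Real.log_exp]

/-- `w ≤ X^0.01` for large `X` -/
lemma wX_le : ∀ᶠ X : ℕ in Filter.atTop, wX X ≤ (X : ℝ) ^ (0.01 : ℝ) := by
  refine Filter.eventually_atTop.mpr ⟨⌈Real.exp (10 ^ 6)⌉₊, fun X hX => ?_⟩
  have h1 : Real.exp (10 ^ 6) ≤ X := (Nat.le_ceil _).trans (by exact_mod_cast hX)
  have hX0 : (0 : ℝ) < X := lt_of_lt_of_le (Real.exp_pos _) h1
  have h2 : (10 : ℝ) ^ 6 ≤ Real.log X := by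
    rw [Real.le_log_iff_exp_le hX0]; exact h1
  unfold wX
  rw [Real.rpow_def_of_pos hX0]
  apply Real.exp_le_exp.mpr
  set L := Real.log X
  have hL0 : 0 < L := by
    have : (0 : ℝ) < 10 ^ 6 := by norm_num
    linarith
  have h3 : (100 : ℝ) ≤ L ^ ((1 : ℝ) / 3) := by
    calc (100 : ℝ) = ((10 : ℝ) ^ 6) ^ ((1 : ℝ) / 3) := by
          rw [show ((10 : ℝ) ^ 6) = 100 ^ (3 : ℝ) by norm_num, ← Real.rpow_mul (by norm_num)]
          norm_num
      _ ≤ _ := Real.rpow_le_rpow (by norm_num) h2 (by norm_num)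
  have h4 : L = L ^ ((2 : ℝ) / 3) * L ^ ((1 : ℝ) / 3) := by
    rw [← Real.rpow_add hL0]; norm_num
  have h5 : 0 < L ^ ((2 : ℝ) / 3) := Real.rpow_pos_of_pos hL0 _
  nlinarith

lemma log_pow_le (C s : ℝ) (hs : 0 < s) :
    ∀ᶠ X : ℕ in Filter.atTop, LX X ^ C ≤ (X : ℝ) ^ s := by
  have h := (isLittleO_log_rpow_rpow_atTop C hs).bound (c := 1) one_pos
  have h2 := tendsto_natCast_atTop_atTop (R := ℝ) |>.eventually h
  filter_upwards [h2, Filter.eventually_ge_atTop 1] with X hX hX1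
  have hX1' : (1 : ℝ) ≤ X := by exact_mod_cast hX1
  have hL : 0 ≤ Real.log X := Real.log_nonneg hX1'
  rw [one_mul, Real.norm_of_nonneg (by positivity), Real.norm_of_nonneg (by positivity)] at hX
  exact hX

open Classical in
/-- facts about the outer variables of the Legendre part -/
lemma Lset_facts {X : ℕ} {w z D Y : ℝ} {K : Finset PrP}
    (hK : K ∈ Sieve812.Lset X w z D Y) :
    Y ≤ nm (prd K) ∧ (nm (prd K) : ℝ) ≤ w * Y ∧
      Y / D ≤ (nm (prd (K.filter (fun p => (nm p.1 : ℝ) ≤ w))) : ℝ) ∧ K ⊆ UX X := by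
  unfold Sieve812.Lset at hK
  rw [Finset.mem_filter, Finset.mem_powerset, Sieve812.Cr_iff] at hK
  obtain ⟨hKU, hKz, hKD, hKlo, hne, hlt, hge⟩ := hK
  have h1 : (nm (Sieve812.mn K).1 : ℝ) < w := by
    obtain ⟨p, hp⟩ := hKlo
    have hp' := Finset.mem_filter.mp hp
    have h2 : (nm (Sieve812.mn K).1 : ℝ) ≤ nm p.1 := by
      exact_mod_cast PrP.nm_le_of_le (Sieve812.mn_le hp'.1)
    linarith [hp'.2]
  have h3 := Sieve812.nK_erase (Sieve812.mn_mem hne)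
  have h4 := Sieve812.nK_pos (K.erase (Sieve812.mn K))
  have h5 := Sieve812.one_le_nm (Sieve812.mn K)
  refine ⟨hge, ?_, ?_, hKU⟩
  · show Sieve812.nK K ≤ w * Y
    rw [← h3]
    exact mul_le_mul h1.le hlt.le h4.le (by linarith)
  · have h6 := Sieve812.nK_union (Sieve812.disjoint_hi_lo w K)
    rw [Sieve812.hi_union_lo] at h6
    have h7 := Sieve812.nK_pos (Sieve812.hi w K)
    have h8 := Sieve812.nK_pos (Sieve812.lo w K)
    have hD0 : 0 < D := lt_trans h7 hKD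
    have h9 : Sieve812.nK (Sieve812.lo w K) ≤
        Sieve812.nK (K.filter (fun p => (nm p.1 : ℝ) ≤ w)) := by
      apply Sieve812.nK_mono
      intro p hp
      rw [Finset.mem_filter]
      have := Finset.mem_filter.mp hp
      exact ⟨this.1, this.2.le⟩
    have h10 : Y / D ≤ Sieve812.nK (Sieve812.lo w K) := by
      rw [div_le_iff₀ hD0]
      nlinarith
    exact h10.trans h9

open Classical in
/-- **Legendre part** of `Sieve812.exact`, from `T0_Prop`. -/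
theorem L_of_T0 (h0 : T0_Prop) (l : ℤ) (A : ℕ) (C0 : ℝ) :
    ∃ (K : ℝ) (X0 : ℕ), 0 < K ∧ ∀ X : ℕ, X0 ≤ X → ∀ z D Y : ℝ,
      0 < D → D ≤ (X : ℝ) ^ ((1 : ℝ) / 3) * LX X ^ C0 →
      (X : ℝ) ^ (0.39 : ℝ) ≤ Y → Y ≤ (X : ℝ) ^ (0.4 : ℝ) →
      ∀ (φ : PrP → ℂ) (α : Eis → ℂ), (∀ p, ‖φ p‖ ≤ 1) → (∀ a, ‖α a‖ ≤ 1) →
      ‖∑ K ∈ Sieve812.Lset X (wX X) z D Y, (-1 : ℂ) ^ K.card * φ (Sieve812.mn K) *
        ∑ a ∈ primBall X, α a * FX l X (prd K * a)‖ ≤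
        K * (X : ℝ) ^ ((5 : ℝ) / 6) / LX X ^ A := by
  obtain ⟨K, X1, hK, H⟩ := sparse_of_T0 h0 l (c0 := 0.05) (c := 1) (by norm_num) le_rfl A
  obtain ⟨X2, hX2⟩ := Filter.eventually_atTop.mp wX_le
  obtain ⟨X3, hX3⟩ := Filter.eventually_atTop.mp (log_pow_le C0 0.006 (by norm_num))
  refine ⟨K, max (max X1 X2) (max X3 ⌈Real.exp 100⌉₊), hK, ?_⟩
  intro X hX z D Y hD0 hD hY1 hY2 φ α hφ hα
  have k1 : X1 ≤ X := (le_max_left _ _).trans ((le_max_left _ _).trans hX)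
  have k2 : wX X ≤ (X : ℝ) ^ (0.01 : ℝ) :=
    hX2 X ((le_max_right _ _).trans ((le_max_left _ _).trans hX))
  have k3 : LX X ^ C0 ≤ (X : ℝ) ^ (0.006 : ℝ) :=
    hX3 X ((le_max_left _ _).trans ((le_max_right _ _).trans hX))
  have k4 : Real.exp 100 ≤ X := (Nat.le_ceil _).trans
    (by exact_mod_cast (le_max_right _ _).trans ((le_max_right _ _).trans hX))
  have hX0 : (0 : ℝ) < X := lt_of_lt_of_le (Real.exp_pos _) k4
  have hlog : 100 ≤ Real.log X := by rw [Real.le_log_iff_exp_le hX0]; exact k4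
  have hXe : (1 : ℝ) ≤ X := by
    have : (1 : ℝ) ≤ Real.exp 100 := Real.one_le_exp (by norm_num)
    linarith
  have hL1 : 1 ≤ Real.log X := by linarith
  have hw2 : 2 ≤ wX X := by
    unfold wX
    have h1 : (1 : ℝ) ≤ (Real.log X) ^ ((2 : ℝ) / 3) := Real.one_le_rpow hL1 (by norm_num)
    have h2 := Real.add_one_le_exp ((Real.log X) ^ ((2 : ℝ) / 3))
    linarith
  have hY0 : 0 < Y := lt_of_lt_of_le (Real.rpow_pos_of_pos hX0 _) hY1
  rw [outer_eq_Bil l X _ (fun K hK' => Finset.mem_powerset.mpr (Lset_facts hK').2.2.2)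
    (fun K => (-1 : ℂ) ^ K.card * φ (Sieve812.mn K)) α]
  refine H X k1 (wX X) hw2 (log_wX X).le _ _ ?_ ?_ ?_ (Or.inl ?_)
  · intro S; rw [one_pow]; exact hα _
  · intro T
    rw [one_pow]
    split_ifs
    · rw [norm_mul, norm_pow, norm_neg, norm_one, one_pow, one_mul]; exact hφ _
    · rw [norm_zero]; exact zero_le_one
  · intro T hT
    have hT' : T ∈ Sieve812.Lset X (wX X) z D Y := by
      by_contra hc; exact hT (if_neg hc)
    obtain ⟨f1, f2, f3, -⟩ := Lset_facts hT'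
    constructor
    · refine le_trans ?_ (hY1.trans f1)
      have h1 : (2 : ℝ) ≤ (X : ℝ) ^ (0.05 : ℝ) := by
        rw [Real.rpow_def_of_pos hX0]
        have := Real.add_one_le_exp (Real.log X * 0.05)
        linarith
      calc 2 * (X : ℝ) ^ (0.34 : ℝ) ≤ (X : ℝ) ^ (0.05 : ℝ) * (X : ℝ) ^ (0.34 : ℝ) := by gcongr
        _ = (X : ℝ) ^ (0.39 : ℝ) := by rw [← Real.rpow_add hX0]; norm_num
    · refine f2.trans ?_
      calc wX X * Y ≤ (X : ℝ) ^ (0.01 : ℝ) * (X : ℝ) ^ (0.4 : ℝ) := by gcongr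
        _ = (X : ℝ) ^ (0.41 : ℝ) := by rw [← Real.rpow_add hX0]; norm_num
  · intro T hT
    have hT' : T ∈ Sieve812.Lset X (wX X) z D Y := by
      by_contra hc; exact hT (if_neg hc)
    obtain ⟨f1, f2, f3, -⟩ := Lset_facts hT'
    refine le_trans ?_ f3
    rw [le_div_iff₀ hD0]
    calc (X : ℝ) ^ (0.05 : ℝ) * D
        ≤ (X : ℝ) ^ (0.05 : ℝ) * ((X : ℝ) ^ ((1 : ℝ) / 3) * (X : ℝ) ^ (0.006 : ℝ)) := by
          gcongr
          exact hD.trans (by gcongr)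
      _ = (X : ℝ) ^ (0.05 + ((1 : ℝ) / 3 + 0.006)) := by
          rw [Real.rpow_add hX0, Real.rpow_add hX0]
      _ ≤ (X : ℝ) ^ (0.39 : ℝ) := Real.rpow_le_rpow_of_exponent_le hXe (by norm_num)
      _ ≤ Y := hY1

/-- `LegPart` of helper812. -/
theorem legPart (h0 : T0_Prop) (l : ℤ) (A : ℕ) (C0 : ℝ) : Sieve812.LegPart l A C0 := by
  obtain ⟨K, X0, -, H⟩ := L_of_T0 h0 l A C0
  refine ⟨K, max X0 2, fun X hX z φ α hφ hα => ?_⟩
  have hX2 : 2 ≤ X := (le_max_right _ _).trans hX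
  have hX0 : (0 : ℝ) < X := by exact_mod_cast (by omega : 0 < X)
  have hX1 : (1 : ℝ) ≤ X := by exact_mod_cast (by omega : 1 ≤ X)
  have hL : 0 < LX X := Real.log_pos (by exact_mod_cast (by omega : 1 < X))
  refine H X ((le_max_left _ _).trans hX) z _ _ (by positivity) le_rfl ?_ ?_ φ α hφ hα
  · exact Real.rpow_le_rpow_of_exponent_le hX1 (by norm_num)
  · exact Real.rpow_le_rpow_of_exponent_le hX1 (by norm_num)

end Crest.Agent.R012.SparseT0420
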