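import Crest.Agent.R012.NearHalf_828
import Crest.Agent.R012.SparseT0_420
import Crest.Agent.R012.IxOf_106
import Crest.Agent.R012.SieveUse_50

/-!
# Row 12, item SNH: the `L` part (helper50)

`lPart_of : T0x_Prop → LPart`.  The three couplings between `E` (primes `< w`) and `T = I ∪ J`
(order of the least primes, and `V₁ ≤ N(E T) ≤ V₂`) are separated by `Sep812.sep_bound`; the rest is
the sparse class `SparseT0420.sparse_of_T0`.
-/

set_option autoImplicit false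

noncomputable section

namespace Crest.Agent.R012.SNHL50

open Finset Eis Buch420 Sieve812 Main48 NearHalf828

/-! ### separation of three couplings -/

lemma sep3 {A B ι₁ : Type*} [LinearOrder ι₁] (U₁ : Finset ι₁) (S N : ℕ) (h1 : U₁.card ≤ 2 ^ S)
    (hN : N + 1 ≤ 2 ^ S) (sA : Finset A) (sB : Finset B) (u₁ : A → ι₁) (v₁ : B → ι₁)
    (hu₁ : ∀ a ∈ sA, u₁ a ∈ U₁) (hv₁ : ∀ b ∈ sB, v₁ b ∈ U₁) (r s : A → ℕ) (n : B → ℕ)
    (hr : ∀ a ∈ sA, r a ≤ N) (hs : ∀ a ∈ sA, s a ≤ N) (hn : ∀ b ∈ sB, n b + 1 ≤ N)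
    (F : A → B → ℂ) (E : ℝ)
    (h : ∀ (x : A → ℂ) (y : B → ℂ), (∀ a, ‖x a‖ ≤ 1) → (∀ b, ‖y b‖ ≤ 1) →
      ‖∑ a ∈ sA, ∑ b ∈ sB, x a * y b * F a b‖ ≤ E) :
    ‖∑ a ∈ sA, ∑ b ∈ sB, (if u₁ a < v₁ b ∧ n b < r a ∧ s a < n b + 1 then F a b else 0)‖ ≤
      S * (S * (S * E)) := by
  have hcard : (Finset.range (N + 1)).card ≤ 2 ^ S := by rw [Finset.card_range]; exact hN
  have e0 : ∀ a b, (if u₁ a < v₁ b ∧ n b < r a ∧ s a < n b + 1 then F a b else 0) =
      if u₁ a < v₁ b then (if n b < r a then (if s a < n b + 1 then F a b else 0) else 0)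
        else 0 := by
    intro a b
    by_cases k1 : u₁ a < v₁ b <;> by_cases k2 : n b < r a <;> by_cases k3 : s a < n b + 1 <;>
      simp [k1, k2, k3]
  simp only [e0]
  refine Sep812.sep_bound U₁ S h1 sA sB u₁ v₁ hu₁ hv₁ _ _ fun φ ψ hφ hψ => ?_
  have e1 : ∑ a ∈ sA, ∑ b ∈ sB, φ (u₁ a) * ψ (v₁ b) *
      (if n b < r a then (if s a < n b + 1 then F a b else 0) else 0) =
      ∑ b ∈ sB, ∑ a ∈ sA, (if n b < r a then φ (u₁ a) * ψ (v₁ b) *
        (if s a < n b + 1 then F a b else 0) else 0) := by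
    rw [Finset.sum_comm]
    refine Finset.sum_congr rfl fun b _ => Finset.sum_congr rfl fun a _ => ?_
    split_ifs <;> simp
  rw [e1]
  refine Sep812.sep_bound (Finset.range (N + 1)) S hcard sB sA n r
    (fun b hb => Finset.mem_range.mpr (by have := hn b hb; omega))
    (fun a ha => Finset.mem_range.mpr (by have := hr a ha; omega)) _ _ fun φ₂ ψ₂ hφ₂ hψ₂ => ?_
  have e2 : ∑ b ∈ sB, ∑ a ∈ sA, φ₂ (n b) * ψ₂ (r a) * (φ (u₁ a) * ψ (v₁ b) *
        (if s a < n b + 1 then F a b else 0)) =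
      ∑ a ∈ sA, ∑ b ∈ sB, (if s a < n b + 1 then φ₂ (n b) * ψ₂ (r a) * (φ (u₁ a) * ψ (v₁ b) *
        F a b) else 0) := by
    rw [Finset.sum_comm]
    refine Finset.sum_congr rfl fun b _ => Finset.sum_congr rfl fun a _ => ?_
    split_ifs <;> simp
  rw [e2]
  refine Sep812.sep_bound (Finset.range (N + 1)) S hcard sA sB s (fun b => n b + 1)
    (fun a ha => Finset.mem_range.mpr (by have := hs a ha; omega))
    (fun b hb => Finset.mem_range.mpr (by have := hn b hb; omega)) _ _ fun φ₃ ψ₃ hφ₃ hψ₃ => ?_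
  have h2 := h (fun a => φ₃ (s a) * (ψ₂ (r a) * φ (u₁ a)))
    (fun b => ψ₃ (n b + 1) * (φ₂ (n b) * ψ (v₁ b))) ?_ ?_
  · refine le_trans (le_of_eq ?_) h2
    congr 1
    refine Finset.sum_congr rfl fun a _ => Finset.sum_congr rfl fun b _ => ?_
    ring
  · intro a
    rw [norm_mul, norm_mul]
    exact mul_le_one₀ (hφ₃ _) (by positivity) (mul_le_one₀ (hψ₂ _) (norm_nonneg _) (hφ _))
  · intro b
    rw [norm_mul, norm_mul]
    exact mul_le_one₀ (hψ₃ _) (by positivity) (mul_le_one₀ (hφ₂ _) (norm_nonneg _) (hψ _))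

/-! ### the sets -/

open Classical in
/-- crossing sets of primes `< w` -/
def EE (X : ℕ) : Finset (Finset PrP) :=
  ((UX X).filter (fun p => (nm p.1 : ℝ) < wX X)).powerset.filter (fun E => Cr PrP.N (D2 X) E)

open Classical in
lemma mem_EE {X : ℕ} {E : Finset PrP} : E ∈ EE X ↔
    E ⊆ UX X ∧ (∀ p ∈ E, (nm p.1 : ℝ) < wX X) ∧ E.Nonempty ∧ nK (E.erase (mn E)) < D2 X ∧
      D2 X ≤ nK E := by
  unfold EE
  rw [Finset.mem_filter, Finset.mem_powerset, Cr_iff, Finset.subset_iff, Finset.subset_iff]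
  constructor
  · rintro ⟨h1, h2⟩
    exact ⟨fun p hp => (Finset.mem_filter.mp (h1 hp)).1, fun p hp => (Finset.mem_filter.mp (h1 hp)).2,
      h2⟩
  · rintro ⟨h1, h2, h3⟩
    exact ⟨fun p hp => Finset.mem_filter.mpr ⟨h1 hp, h2 p hp⟩, h3⟩

/-- the middle primes -/
def Zp (X : ℕ) (p : PrP) : Prop := wX X ≤ (nm p.1 : ℝ) ∧ (nm p.1 : ℝ) < zX X

open Classical in
/-- coefficient of `T = I ∪ J` -/
def gam (X : ℕ) (T : Finset PrP) : ℂ :=
  ∑ I ∈ (T.filter (Zp X)).powerset, if nu PrP.N I < D1 X then (-1 : ℂ) ^ I.card else 0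

lemma norm_gam_le (X : ℕ) (T : Finset PrP) : ‖gam X T‖ ≤ (2 : ℝ) ^ T.card := by
  classical
  unfold gam
  refine (norm_sum_le _ _).trans ?_
  have h1 : ∀ I ∈ (T.filter (Zp X)).powerset,
      ‖(if nu PrP.N I < D1 X then (-1 : ℂ) ^ I.card else 0)‖ ≤ 1 := by
    intro I _
    split_ifs
    · rw [norm_pow, norm_neg, norm_one, one_pow]
    · simp
  refine (Finset.sum_le_sum h1).trans ?_
  rw [Finset.sum_const, nsmul_eq_mul, mul_one, Finset.card_powerset]
  have h2 : (T.filter (Zp X)).card ≤ T.card := Finset.card_filter_le _ _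
  push_cast
  exact pow_le_pow_right₀ (by norm_num) h2

/-- inner sum -/
def Hf (l : ℤ) (X : ℕ) (α : Finset PrP → ℂ) (E T : Finset PrP) : ℂ :=
  ∑ S ∈ (UX X).powerset, α S * FX l X (prd S * (prd E * prd T))

lemma Hf_zero {l : ℤ} {X : ℕ} {α : Finset PrP → ℂ} {E T : Finset PrP} (h : ¬ Disjoint E T) :
    Hf l X α E T = 0 := by
  unfold Hf
  refine Finset.sum_eq_zero fun S _ => ?_
  have : FX l X (prd S * (prd E * prd T)) = 0 := by
    by_contra hc
    have hs := ((SieveUse50.supp_FX l X).sq _ hc).of_mul_right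
    rw [Finset.not_disjoint_iff] at h
    obtain ⟨p, hp, hp'⟩ := h
    exact p.prime.not_isUnit (hs _ (mul_dvd_mul (dvd_prd_iff.mpr hp) (dvd_prd_iff.mpr hp')))
  rw [this, mul_zero]

/-- window -/
def Win (V₁ V₂ : ℝ) (E T : Finset PrP) : Prop := V₁ ≤ nK E * nK T ∧ nK E * nK T ≤ V₂

open Classical in
lemma Fa_union {l : ℤ} {X : ℕ} {α : Finset PrP → ℂ} {V₁ V₂ : ℝ} {E T : Finset PrP}
    (h : Disjoint E T) :
    Fa l X α V₁ V₂ (E ∪ T) = if Win V₁ V₂ E T then Hf l X α E T else 0 := by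
  unfold Fa Win Hf
  have e : ((nm (prd (E ∪ T)) : ℕ) : ℝ) = nK E * nK T := by
    rw [prd_union h, nm_mul]
    push_cast
    rfl
  rw [e, prd_union h]
  by_cases hc : V₁ ≤ nK E * nK T ∧ nK E * nK T ≤ V₂
  · rw [if_pos hc, if_pos hc]
  · rw [if_neg hc, if_neg hc]

open Classical in
lemma step_E {l : ℤ} {X : ℕ} {α : Finset PrP → ℂ} {V₁ V₂ : ℝ} {E : Finset PrP} (hE : E ∈ EE X) :
    ∑ I ∈ ((Uw X).filter (fun p => (nm p.1 : ℝ) < zX X)).powerset.filter
        (fun I => nu PrP.N I < D1 X), (-1 : ℂ) ^ I.card *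
      ∑ J ∈ (((UX X \ I) \ E).filter (fun p => Ab E p)).powerset, Fa l X α V₁ V₂ (I ∪ (E ∪ J)) =
    ∑ T ∈ (UX X).powerset, if (∀ p ∈ T, Ab E p) then
      gam X T * (if Win V₁ V₂ E T then Hf l X α E T else 0) else 0 := by
  obtain ⟨hE1, hE2, hE3, hE4, hE5⟩ := mem_EE.mp hE
  set AE := (UX X \ E).filter (fun p => Ab E p) with hAE
  have hx := exchange AE (Zp X) (fun I T => (if nu PrP.N I < D1 X then (-1 : ℂ) ^ I.card else 0) *
    Fa l X α V₁ V₂ (E ∪ T))
  have hset : AE.filter (Zp X) = (Uw X).filter (fun p => (nm p.1 : ℝ) < zX X) := by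
    ext p
    rw [hAE]
    unfold Uw Zp
    simp only [Finset.mem_filter, Finset.mem_sdiff, not_lt]
    constructor
    · rintro ⟨⟨⟨h1, h2⟩, h3⟩, h4, h5⟩
      exact ⟨⟨h1, h4⟩, h5⟩
    · rintro ⟨⟨h1, h4⟩, h5⟩
      refine ⟨⟨⟨h1, fun hp => ?_⟩, ?_⟩, h4, h5⟩
      · exact absurd (hE2 p hp) (not_lt.mpr h4)
      · obtain ⟨q, hq⟩ := hE3
        refine ⟨q, hq, PrP.lt_of_nm_lt ?_⟩
        have := hE2 q hq
        exact_mod_cast lt_of_lt_of_le this h4
  rw [hset] at hx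
  have e1 : ∑ I ∈ ((Uw X).filter (fun p => (nm p.1 : ℝ) < zX X)).powerset.filter
        (fun I => nu PrP.N I < D1 X), (-1 : ℂ) ^ I.card *
      ∑ J ∈ (((UX X \ I) \ E).filter (fun p => Ab E p)).powerset,
        Fa l X α V₁ V₂ (I ∪ (E ∪ J)) =
      ∑ I ∈ ((Uw X).filter (fun p => (nm p.1 : ℝ) < zX X)).powerset,
        ∑ J ∈ (AE \ I).powerset, (if nu PrP.N I < D1 X then (-1 : ℂ) ^ I.card else 0) *
          Fa l X α V₁ V₂ (E ∪ (I ∪ J)) := by
    rw [Finset.sum_filter]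
    refine Finset.sum_congr rfl fun I _ => ?_
    have hs : (((UX X \ I) \ E).filter (fun p => Ab E p)) = AE \ I := by
      ext p
      rw [hAE]
      simp only [Finset.mem_filter, Finset.mem_sdiff]
      constructor
      · rintro ⟨⟨⟨h1, h2⟩, h3⟩, h4⟩
        exact ⟨⟨⟨h1, h3⟩, h4⟩, h2⟩
      · rintro ⟨⟨⟨h1, h3⟩, h4⟩, h2⟩
        exact ⟨⟨⟨h1, h2⟩, h3⟩, h4⟩
    rw [hs]
    by_cases h : nu PrP.N I < D1 X
    · rw [if_pos h, if_pos h, Finset.mul_sum]
      refine Finset.sum_congr rfl fun J _ => ?_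
      rw [Finset.union_left_comm I E J]
    · rw [if_neg h, if_neg h]
      refine (Finset.sum_eq_zero fun J _ => ?_).symm
      rw [zero_mul]
  rw [e1, ← hx]
  have e2 : ∀ T ∈ AE.powerset, ∑ I ∈ (T.filter (Zp X)).powerset,
      (if nu PrP.N I < D1 X then (-1 : ℂ) ^ I.card else 0) * Fa l X α V₁ V₂ (E ∪ T) =
      gam X T * Fa l X α V₁ V₂ (E ∪ T) := by
    intro T _
    unfold gam
    rw [Finset.sum_mul]
  rw [Finset.sum_congr rfl e2]
  have hsub : AE.powerset ⊆ (UX X).powerset := by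
    rw [Finset.powerset_mono, hAE]
    exact (Finset.filter_subset _ _).trans Finset.sdiff_subset
  rw [← Finset.sum_subset hsub]
  · refine Finset.sum_congr rfl fun T hT => ?_
    rw [Finset.mem_powerset] at hT
    have hdis : Disjoint E T := by
      rw [Finset.disjoint_left]
      intro p hp hp'
      have := hT hp'
      rw [hAE, Finset.mem_filter, Finset.mem_sdiff] at this
      exact this.1.2 hp
    have hAb : ∀ p ∈ T, Ab E p := by
      intro p hp
      have := hT hp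
      rw [hAE, Finset.mem_filter] at this
      exact this.2
    rw [if_pos hAb, Fa_union hdis]
  · intro T hT hT'
    rw [Finset.mem_powerset] at hT hT'
    split_ifs with h1 h2
    · have hnd : ¬ Disjoint E T := by
        intro hd
        apply hT'
        intro p hp
        rw [hAE, Finset.mem_filter, Finset.mem_sdiff]
        exact ⟨⟨hT hp, fun hpE => (Finset.disjoint_left.mp hd hpE hp)⟩, h1 p hp⟩
      rw [Hf_zero hnd, mul_zero]
    · rw [mul_zero]
    · rfl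

open Classical in
/-- the class of `T = I ∪ J` -/
def TT (X : ℕ) : Finset (Finset PrP) := (UX X).powerset.filter (fun T =>
  2 * (X : ℝ) ^ (0.34 : ℝ) ≤ nK T ∧ nK T ≤ (X : ℝ) ^ (0.41 : ℝ))

lemma mem_TT {X : ℕ} {T : Finset PrP} : T ∈ TT X ↔
    T ⊆ UX X ∧ 2 * (X : ℝ) ^ (0.34 : ℝ) ≤ nK T ∧ nK T ≤ (X : ℝ) ^ (0.41 : ℝ) := by
  classical
  unfold TT
  rw [Finset.mem_filter, Finset.mem_powerset]

/-- `X` is large -/
structure Big (X : ℕ) : Prop where
  one : 12 ≤ X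
  w2 : 2 ≤ wX X
  w : wX X ≤ (X : ℝ) ^ (0.01 : ℝ)
  p : 2 * (X : ℝ) ^ (0.34 : ℝ) ≤ (X : ℝ) ^ (0.385 : ℝ)

lemma big_ev : ∀ᶠ X : ℕ in Filter.atTop, Big X := by
  have h1 := SieveUse50.ev_wX (e := 0.01) (by norm_num)
  have h2 := SieveUse50.ev_pow (a := 0.34) (b := 0.385) (by norm_num) 1
  have h3 := SieveUse50.ev_LX 2
  filter_upwards [h1, h2, h3, Filter.eventually_ge_atTop 12] with X k1 k2 k3 k4
  rw [Real.rpow_one] at k2
  refine ⟨k4, ?_, k1, ?_⟩
  · unfold wX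
    have h4 : (1 : ℝ) ≤ (Real.log X) ^ ((2 : ℝ) / 3) :=
      Real.one_le_rpow (by unfold LX at k3; linarith) (by norm_num)
    have h5 := Real.add_one_le_exp ((Real.log X) ^ ((2 : ℝ) / 3))
    linarith
  · refine le_trans ?_ k2
    rw [mul_comm]
    exact mul_le_mul_of_nonneg_left k3 (by positivity)

lemma EE_hi {X : ℕ} {E : Finset PrP} (hb : Big X) (hE : E ∈ EE X) :
    nK E ≤ (X : ℝ) ^ (0.11 : ℝ) := by
  obtain ⟨hE1, hE2, hE3, hE4, hE5⟩ := mem_EE.mp hE
  have hX0 : (0 : ℝ) < X := by exact_mod_cast (by have := hb.one; omega : 0 < X)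
  have h1 := nK_erase (mn_mem hE3)
  have h2 := (hE2 _ (mn_mem hE3)).le.trans hb.w
  rw [← h1, show (0.11 : ℝ) = 0.01 + 0.1 by norm_num, Real.rpow_add hX0]
  exact mul_le_mul h2 hE4.le (nK_pos _).le (by positivity)

lemma win_TT {X : ℕ} {E T : Finset PrP} {V₁ V₂ : ℝ} (hb : Big X) (hE : E ∈ EE X)
    (hT : T ⊆ UX X) (hV1 : (X : ℝ) ^ (0.495 : ℝ) ≤ V₁) (hV2 : V₂ ≤ (X : ℝ) ^ (0.505 : ℝ))
    (hW : Win V₁ V₂ E T) : T ∈ TT X := by
  have h1 := EE_hi hb hE
  obtain ⟨hE1, hE2, hE3, hE4, hE5⟩ := mem_EE.mp hE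
  have hX1 : (1 : ℝ) ≤ X := by exact_mod_cast (by have := hb.one; omega : 1 ≤ X)
  have hX0 : (0 : ℝ) < X := by linarith
  have hT0 := nK_pos T
  have hE0 := nK_pos E
  obtain ⟨hW1, hW2⟩ := hW
  rw [mem_TT]
  refine ⟨hT, hb.p.trans ?_, ?_⟩
  · have h2 : (X : ℝ) ^ (0.11 : ℝ) * (X : ℝ) ^ (0.385 : ℝ) ≤ (X : ℝ) ^ (0.11 : ℝ) * nK T := by
      rw [← Real.rpow_add hX0]
      norm_num
      calc (X : ℝ) ^ ((99 : ℝ) / 200) = (X : ℝ) ^ (0.495 : ℝ) := by norm_num
        _ ≤ V₁ := hV1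
        _ ≤ nK E * nK T := hW1
        _ ≤ (X : ℝ) ^ (0.11 : ℝ) * nK T := mul_le_mul_of_nonneg_right h1 hT0.le
        _ = (X : ℝ) ^ ((11 : ℝ) / 100) * nK T := by norm_num
    exact le_of_mul_le_mul_left h2 (by positivity)
  · have h2 : (X : ℝ) ^ (0.1 : ℝ) * nK T ≤ (X : ℝ) ^ (0.1 : ℝ) * (X : ℝ) ^ (0.41 : ℝ) := by
      calc (X : ℝ) ^ (0.1 : ℝ) * nK T ≤ nK E * nK T := mul_le_mul_of_nonneg_right hE5 hT0.le
        _ ≤ V₂ := hW2
        _ ≤ (X : ℝ) ^ (0.505 : ℝ) := hV2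
        _ ≤ (X : ℝ) ^ (0.1 + 0.41 : ℝ) := Real.rpow_le_rpow_of_exponent_le hX1 (by norm_num)
        _ = _ := Real.rpow_add hX0 _ _
    exact le_of_mul_le_mul_left h2 (by positivity)

lemma TT_nonempty {X : ℕ} {T : Finset PrP} (hb : Big X) (hT : T ∈ TT X) : T.Nonempty := by
  rw [Finset.nonempty_iff_ne_empty]
  rintro rfl
  obtain ⟨-, h1, -⟩ := mem_TT.mp hT
  have hX1 : (1 : ℝ) ≤ X := by exact_mod_cast (by have := hb.one; omega : 1 ≤ X)
  have h2 : (1 : ℝ) ≤ (X : ℝ) ^ (0.34 : ℝ) := Real.one_le_rpow hX1 (by norm_num)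
  rw [nK_empty] at h1
  linarith

lemma TT_le {X : ℕ} {T : Finset PrP} (hb : Big X) (hT : T ∈ TT X) : nm (prd T) ≤ X := by
  obtain ⟨-, -, h1⟩ := mem_TT.mp hT
  have hX1 : (1 : ℝ) ≤ X := by exact_mod_cast (by have := hb.one; omega : 1 ≤ X)
  have h2 : (X : ℝ) ^ (0.41 : ℝ) ≤ (X : ℝ) ^ (1 : ℝ) :=
    Real.rpow_le_rpow_of_exponent_le hX1 (by norm_num)
  rw [Real.rpow_one] at h2
  have h3 : ((nm (prd T) : ℕ) : ℝ) ≤ X := h1.trans h2
  exact_mod_cast h3

/-- upper cut-off -/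
def rr (V₂ : ℝ) (E : Finset PrP) : ℕ := ⌊V₂ / nK E⌋₊ + 1
/-- lower cut-off -/
def ss (X : ℕ) (V₁ : ℝ) (E : Finset PrP) : ℕ := min ⌈V₁ / nK E⌉₊ (X + 1)

lemma win_iff {X : ℕ} {V₁ V₂ : ℝ} {E T : Finset PrP} (hT : nm (prd T) ≤ X) :
    Win V₁ V₂ E T ↔ nm (prd T) < rr V₂ E ∧ ss X V₁ E < nm (prd T) + 1 := by
  have hE0 := nK_pos E
  have hT0 : nm (prd T) ≠ 0 := (nm_pos.mpr (prd_ne_zero T)).ne'
  unfold Win rr ss
  have h1 : (nm (prd T) < ⌊V₂ / nK E⌋₊ + 1) ↔ nK E * nK T ≤ V₂ := by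
    rw [Nat.lt_succ_iff, Nat.le_floor_iff' hT0, le_div_iff₀ hE0, mul_comm]
    rfl
  have h2 : (min ⌈V₁ / nK E⌉₊ (X + 1) < nm (prd T) + 1) ↔ V₁ ≤ nK E * nK T := by
    rw [Nat.lt_succ_iff, min_le_iff]
    have h3 : ¬ (X + 1 ≤ nm (prd T)) := by omega
    rw [or_iff_left h3, Nat.ceil_le, div_le_iff₀ hE0, mul_comm]
    rfl
  rw [h1, h2]
  tauto

open Classical in
lemma conv (l : ℤ) (X : ℕ) (α g : Finset PrP → ℂ) (T : Finset PrP) :
    ∑ S ∈ (UX X).powerset, (∑ E ∈ S.powerset, g E * α (S \ E)) * FX l X (prd S * prd T) =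
      ∑ E ∈ (UX X).powerset, g E * Hf l X α E T := by
  have hx := exchange (UX X) (fun _ => True)
    (fun E S => g E * α (S \ E) * FX l X (prd S * prd T))
  simp only [Finset.filter_true] at hx
  have e1 : ∀ S ∈ (UX X).powerset, (∑ E ∈ S.powerset, g E * α (S \ E)) *
      FX l X (prd S * prd T) = ∑ E ∈ S.powerset, g E * α (S \ E) * FX l X (prd S * prd T) := by
    intro S _
    rw [Finset.sum_mul]
  rw [Finset.sum_congr rfl e1, hx]
  refine Finset.sum_congr rfl fun E hE => ?_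
  unfold Hf
  rw [Finset.mul_sum]
  have hsub : (UX X \ E).powerset ⊆ (UX X).powerset := by
    rw [Finset.powerset_mono]; exact Finset.sdiff_subset
  rw [← Finset.sum_subset hsub]
  · refine Finset.sum_congr rfl fun J hJ => ?_
    rw [Finset.mem_powerset] at hJ
    have hdis : Disjoint E J := by
      rw [Finset.disjoint_left]
      intro p hp hp'
      exact (Finset.mem_sdiff.mp (hJ hp')).2 hp
    have h1 : (E ∪ J) \ E = J := by
      rw [Finset.union_sdiff_left, Finset.sdiff_eq_self_iff_disjoint]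
      exact hdis.symm
    rw [h1, prd_union hdis]
    rw [show prd J * (prd E * prd T) = prd E * prd J * prd T by ring]
    ring
  · intro J hJ hJ'
    rw [Finset.mem_powerset] at hJ hJ'
    have hnd : ¬ Disjoint E J := by
      intro hd
      apply hJ'
      intro p hp
      rw [Finset.mem_sdiff]
      exact ⟨hJ hp, fun hpE => (Finset.disjoint_left.mp hd hpE hp)⟩
    have : FX l X (prd J * (prd E * prd T)) = 0 := by
      by_contra hc
      have hs : Squarefree (prd E * prd J) := by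
        have := (SieveUse50.supp_FX l X).sq _ hc
        rw [show prd J * (prd E * prd T) = prd E * prd J * prd T by ring] at this
        exact this.of_mul_left
      rw [Finset.not_disjoint_iff] at hnd
      obtain ⟨p, hp, hp'⟩ := hnd
      exact p.prime.not_isUnit (hs _ (mul_dvd_mul (dvd_prd_iff.mpr hp) (dvd_prd_iff.mpr hp')))
    rw [this]; ring

/-- the new left coefficient -/
def al (α g : Finset PrP → ℂ) (S : Finset PrP) : ℂ := by
  classical exact ∑ E ∈ S.powerset, g E * α (S \ E)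

open Classical in
lemma al_def (α g : Finset PrP → ℂ) (S : Finset PrP) :
    al α g S = ∑ E ∈ S.powerset, g E * α (S \ E) := rfl

lemma norm_al_le {α g : Finset PrP → ℂ} (hα : ∀ S, ‖α S‖ ≤ 1) (hg : ∀ E, ‖g E‖ ≤ 1)
    (S : Finset PrP) : ‖al α g S‖ ≤ (2 : ℝ) ^ S.card := by
  classical
  rw [al_def]
  refine (norm_sum_le _ _).trans ?_
  have h1 : ∀ E ∈ S.powerset, ‖g E * α (S \ E)‖ ≤ 1 := by
    intro E _
    rw [norm_mul]
    exact mul_le_one₀ (hg _) (norm_nonneg _) (hα _)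
  refine (Finset.sum_le_sum h1).trans ?_
  rw [Finset.sum_const, nsmul_eq_mul, mul_one, Finset.card_powerset]
  push_cast
  exact le_refl _

lemma sp_al {X : ℕ} {α g : Finset PrP → ℂ} (hg : ∀ E, g E ≠ 0 → E ∈ EE X) :
    SparseT0420.Sp (wX X) ((X : ℝ) ^ (0.1 : ℝ)) (al α g) := by
  classical
  intro S hS
  rw [al_def] at hS
  obtain ⟨E, hE, hE'⟩ := Finset.exists_ne_zero_of_sum_ne_zero hS
  rw [Finset.mem_powerset] at hE
  have h1 := hg E (left_ne_zero_of_mul hE')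
  obtain ⟨hE1, hE2, hE3, hE4, hE5⟩ := mem_EE.mp h1
  have h2 : nK E ≤ nK (S.filter (fun p => (nm p.1 : ℝ) ≤ wX X)) := by
    apply nK_mono
    intro p hp
    rw [Finset.mem_filter]
    exact ⟨hE hp, (hE2 p hp).le⟩
  exact hE5.trans h2

open Classical in
/-- the separated form is a `Bil` -/
lemma to_bil (l : ℤ) (X : ℕ) (α : Finset PrP → ℂ) (x : Finset PrP → ℂ) (y : Finset PrP → ℂ) :
    ∑ E ∈ EE X, ∑ T ∈ TT X, x E * y T * ((-1 : ℂ) ^ E.card * (gam X T * Hf l X α E T)) =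
      Bil l X (al α (fun E => if E ∈ EE X then x E * (-1 : ℂ) ^ E.card else 0))
        (fun T => if T ∈ TT X then y T * gam X T else 0) := by
  have hE : EE X ⊆ (UX X).powerset := by
    intro E hE
    rw [Finset.mem_powerset]; exact (mem_EE.mp hE).1
  have hT : TT X ⊆ (UX X).powerset := by
    intro T hT
    rw [Finset.mem_powerset]; exact (mem_TT.mp hT).1
  unfold Bil
  refine Eq.trans ?_ Finset.sum_comm
  refine Eq.trans Finset.sum_comm ?_
  rw [← Finset.sum_subset hT]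
  · refine Finset.sum_congr rfl fun T hT' => ?_
    have h1 := conv l X α (fun E => if E ∈ EE X then x E * (-1 : ℂ) ^ E.card else 0) T
    have h2 : ∑ S ∈ (UX X).powerset,
        al α (fun E => if E ∈ EE X then x E * (-1 : ℂ) ^ E.card else 0) S *
        (if T ∈ TT X then y T * gam X T else 0) * FX l X (prd S * prd T) =
        (y T * gam X T) * ∑ S ∈ (UX X).powerset,
          (∑ E ∈ S.powerset, (if E ∈ EE X then x E * (-1 : ℂ) ^ E.card else 0) * α (S \ E)) *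
            FX l X (prd S * prd T) := by
      rw [if_pos hT', Finset.mul_sum]
      refine Finset.sum_congr rfl fun S _ => ?_
      rw [al_def]; ring
    rw [h2, h1, Finset.mul_sum, ← Finset.sum_subset hE]
    · refine Finset.sum_congr rfl fun E hE' => ?_
      rw [if_pos hE']; ring
    · intro E _ hE'
      rw [if_neg hE']; ring
  · intro T _ hT'
    refine Finset.sum_eq_zero fun S _ => ?_
    show _ * (if T ∈ TT X then y T * gam X T else 0) * _ = 0
    rw [if_neg hT']; ring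

/-- **The L part.** -/
theorem lPart_of : LPart_of := by
  classical
  intro h0x l A
  have h0 : T0_Prop := IxOf106.ix_of.2.2 h0x
  obtain ⟨K, X1, hK, H⟩ := SparseT0420.sparse_of_T0 h0 l (c0 := 0.1) (c := 2) (by norm_num)
    (by norm_num) (A + 3)
  obtain ⟨X2, hX2⟩ := Filter.eventually_atTop.mp big_ev
  refine ⟨125 * K, max X1 X2, ?_⟩
  intro X hX α V₁ V₂ hα hV1 hV2
  have hb := hX2 X ((le_max_right _ _).trans hX)
  have hH := H X ((le_max_left _ _).trans hX) (wX X) hb.w2 (SparseT0420.log_wX X).le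
  have hX1 : (1 : ℝ) ≤ X := by exact_mod_cast (by have := hb.one; omega : 1 ≤ X)
  have hX0 : (0 : ℝ) < X := by linarith
  -- rewriting
  have e1 : ∑ I ∈ ((Uw X).filter (fun p => (nm p.1 : ℝ) < zX X)).powerset.filter
        (fun I => nu PrP.N I < D1 X), (-1 : ℂ) ^ I.card *
      ∑ E ∈ ((UX X \ I).filter (fun p => (nm p.1 : ℝ) < wX X)).powerset.filter
        (fun E => Cr PrP.N (D2 X) E), (-1 : ℂ) ^ E.card *
      ∑ J ∈ (((UX X \ I) \ E).filter (fun p => Ab E p)).powerset, Fa l X α V₁ V₂ (I ∪ (E ∪ J)) =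
      ∑ E ∈ EE X, (-1 : ℂ) ^ E.card *
        ∑ I ∈ ((Uw X).filter (fun p => (nm p.1 : ℝ) < zX X)).powerset.filter
          (fun I => nu PrP.N I < D1 X), (-1 : ℂ) ^ I.card *
        ∑ J ∈ (((UX X \ I) \ E).filter (fun p => Ab E p)).powerset,
          Fa l X α V₁ V₂ (I ∪ (E ∪ J)) := by
    have e2 : ∀ I ∈ ((Uw X).filter (fun p => (nm p.1 : ℝ) < zX X)).powerset.filter
        (fun I => nu PrP.N I < D1 X), ((UX X \ I).filter
          (fun p => (nm p.1 : ℝ) < wX X)).powerset.filter (fun E => Cr PrP.N (D2 X) E) =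
        EE X := by
      intro I hI
      rw [Finset.mem_filter, Finset.mem_powerset] at hI
      have : (UX X \ I).filter (fun p => (nm p.1 : ℝ) < wX X) =
          (UX X).filter (fun p => (nm p.1 : ℝ) < wX X) := by
        ext p
        simp only [Finset.mem_filter, Finset.mem_sdiff]
        constructor
        · rintro ⟨⟨h1, -⟩, h3⟩
          exact ⟨h1, h3⟩
        · rintro ⟨h1, h3⟩
          refine ⟨⟨h1, fun hp => ?_⟩, h3⟩
          have h4 := (Finset.mem_filter.mp (hI.1 hp)).1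
          unfold Uw at h4
          exact (Finset.mem_filter.mp h4).2 h3
      unfold EE
      rw [this]
    have e3 : ∀ I ∈ ((Uw X).filter (fun p => (nm p.1 : ℝ) < zX X)).powerset.filter
        (fun I => nu PrP.N I < D1 X), (-1 : ℂ) ^ I.card *
      ∑ E ∈ ((UX X \ I).filter (fun p => (nm p.1 : ℝ) < wX X)).powerset.filter
        (fun E => Cr PrP.N (D2 X) E), (-1 : ℂ) ^ E.card *
      ∑ J ∈ (((UX X \ I) \ E).filter (fun p => Ab E p)).powerset, Fa l X α V₁ V₂ (I ∪ (E ∪ J)) =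
        ∑ E ∈ EE X, (-1 : ℂ) ^ E.card * ((-1 : ℂ) ^ I.card *
          ∑ J ∈ (((UX X \ I) \ E).filter (fun p => Ab E p)).powerset,
            Fa l X α V₁ V₂ (I ∪ (E ∪ J))) := by
      intro I hI
      rw [e2 I hI, Finset.mul_sum]
      refine Finset.sum_congr rfl fun E _ => ?_
      ring
    rw [Finset.sum_congr rfl e3]
    refine Finset.sum_comm.trans (Finset.sum_congr rfl fun E _ => ?_)
    rw [Finset.mul_sum]
  have e4 : ∀ E ∈ EE X, (-1 : ℂ) ^ E.card *
        ∑ I ∈ ((Uw X).filter (fun p => (nm p.1 : ℝ) < zX X)).powerset.filter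
          (fun I => nu PrP.N I < D1 X), (-1 : ℂ) ^ I.card *
        ∑ J ∈ (((UX X \ I) \ E).filter (fun p => Ab E p)).powerset,
          Fa l X α V₁ V₂ (I ∪ (E ∪ J)) =
      ∑ T ∈ TT X, (if mn E < mn T ∧ nm (prd T) < rr V₂ E ∧ ss X V₁ E < nm (prd T) + 1 then
        (-1 : ℂ) ^ E.card * (gam X T * Hf l X α E T) else 0) := by
    intro E hE
    rw [step_E hE, Finset.mul_sum]
    have hT : TT X ⊆ (UX X).powerset := by
      intro T hT
      rw [Finset.mem_powerset]; exact (mem_TT.mp hT).1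
    rw [← Finset.sum_subset hT]
    · refine Finset.sum_congr rfl fun T hT' => ?_
      have h1 := forall_ab_iff (mem_EE.mp hE).2.2.1 (TT_nonempty hb hT')
      have h2 := win_iff (V₁ := V₁) (V₂ := V₂) (E := E) (TT_le hb hT')
      by_cases c1 : mn E < mn T
      · rw [if_pos (h1.mpr c1)]
        by_cases c2 : Win V₁ V₂ E T
        · rw [if_pos c2, if_pos ⟨c1, h2.mp c2⟩]
        · rw [if_neg c2, if_neg (fun hh => c2 (h2.mpr hh.2)), mul_zero, mul_zero]
      · rw [if_neg (fun hh => c1 (h1.mp hh)), if_neg (fun hh => c1 hh.1), mul_zero]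
    · intro T hT1 hT2
      rw [Finset.mem_powerset] at hT1
      have c2 : ¬ Win V₁ V₂ E T := fun hh => hT2 (win_TT hb hE hT1 hV1 hV2 hh)
      rw [if_neg c2]
      split_ifs <;> simp
  rw [e1, Finset.sum_congr rfl e4]
  -- separation
  have hS1 := card_UX_le (X := X) (by have := hb.one; omega)
  have hS2 : X + 1 + 1 ≤ 2 ^ SX X := by
    have := Nat.le_pow_clog (b := 2) (by norm_num) (12 * X)
    unfold SX
    have := hb.one
    omega
  have hsep := sep3 (UX X) (SX X) (X + 1) hS1 hS2 (EE X) (TT X) mn mn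
    (fun E hE => (mem_EE.mp hE).1 (mn_mem (mem_EE.mp hE).2.2.1))
    (fun T hT => (mem_TT.mp hT).1 (mn_mem (TT_nonempty hb hT)))
    (rr V₂) (ss X V₁) (fun T => nm (prd T)) ?_ ?_ ?_
    (fun E T => (-1 : ℂ) ^ E.card * (gam X T * Hf l X α E T))
    (K * (X : ℝ) ^ ((5 : ℝ) / 6) / LX X ^ (A + 3)) ?_
  · refine hsep.trans ?_
    have hL0 : 0 < LX X := by
      unfold LX
      exact Real.log_pos (by
        have := hb.one
        have : (12 : ℝ) ≤ X := by exact_mod_cast this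
        linarith)
    have hS3 := SX_le hb.one
    have hS0 : (0 : ℝ) ≤ SX X := Nat.cast_nonneg _
    have hQ : 0 ≤ K * (X : ℝ) ^ ((5 : ℝ) / 6) / LX X ^ (A + 3) := by positivity
    calc (SX X : ℝ) * (SX X * (SX X * (K * (X : ℝ) ^ ((5 : ℝ) / 6) / LX X ^ (A + 3))))
        = (SX X : ℝ) ^ 3 * (K * (X : ℝ) ^ ((5 : ℝ) / 6) / LX X ^ (A + 3)) := by ring
      _ ≤ (5 * LX X) ^ 3 * (K * (X : ℝ) ^ ((5 : ℝ) / 6) / LX X ^ (A + 3)) :=
          mul_le_mul_of_nonneg_right (pow_le_pow_left₀ hS0 hS3 3) hQ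
      _ = 125 * K * (X : ℝ) ^ ((5 : ℝ) / 6) / LX X ^ A := by
          rw [pow_add]
          field_simp
          ring
  · intro E _
    unfold rr
    have h1 : V₂ / nK E ≤ X := by
      rw [div_le_iff₀ (nK_pos E)]
      calc V₂ ≤ (X : ℝ) ^ (0.505 : ℝ) := hV2
        _ ≤ (X : ℝ) ^ (1 : ℝ) := Real.rpow_le_rpow_of_exponent_le hX1 (by norm_num)
        _ = X := Real.rpow_one _
        _ ≤ X * nK E := by nlinarith [one_le_nK E]
    have h2 : ⌊V₂ / nK E⌋₊ ≤ X := by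
      have := Nat.floor_le_floor h1
      rwa [Nat.floor_natCast] at this
    omega
  · intro E _
    exact min_le_right _ _
  · intro T hT
    have := TT_le hb hT
    omega
  · intro x y hx hy
    rw [to_bil]
    have hg : ∀ E, ‖(if E ∈ EE X then x E * (-1 : ℂ) ^ E.card else 0)‖ ≤ 1 := by
      intro E
      split_ifs
      · rw [norm_mul, norm_pow, norm_neg, norm_one, one_pow, mul_one]; exact hx E
      · simp
    refine hH _ _ (norm_al_le hα hg) ?_ ?_ (Or.inr (sp_al ?_))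
    · intro T
      split_ifs
      · rw [norm_mul]
        calc ‖y T‖ * ‖gam X T‖ ≤ 1 * (2 : ℝ) ^ T.card :=
              mul_le_mul (hy T) (norm_gam_le X T) (norm_nonneg _) (by norm_num)
          _ = _ := one_mul _
      · rw [norm_zero]; positivity
    · intro T hT
      have : T ∈ TT X := by
        by_contra hc
        exact hT (if_neg hc)
      exact (mem_TT.mp this).2
    · intro E hE
      by_contra hc
      exact hE (if_neg hc)

end Crest.Agent.R012.SNHL50
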