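import Crest.Agent.R012.SpecMain_48

/-!
# Row 12, item SNH (helper828): primes near `X^(1/2)`.  Definitions and the four parts.

`Fa l X α V₁ V₂ T = ∑_S α_S F_X(prd S · prd T)` if `V₁ ≤ N(prd T) ≤ V₂`, else `0`.
Parameters `w = wX X`, `z = X^0.06`, levels `X^0.05` (primes in `[w, z)`) and `X^0.1` (primes `< w`).

`∑_p Fa {p} = (rough) - (composite)`, `composite = CompPart`, and `rough = TIPart + LPart + CrPart`.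
-/

set_option autoImplicit false

noncomputable section

open Complex Filter Topology

namespace Crest.Agent.R012.NearHalf828

open Crest.Agent.R012 Eis Buch420 Main48

/-- `z = X^0.06`. -/
def zX (X : ℕ) : ℝ := (X : ℝ) ^ (0.06 : ℝ)
/-- level for the primes in `[w, z)`. -/
def D1 (X : ℕ) : ℝ := (X : ℝ) ^ (0.05 : ℝ)
/-- level for the primes `< w`. -/
def D2 (X : ℕ) : ℝ := (X : ℝ) ^ (0.1 : ℝ)

open Classical in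
/-- `∑_S α_S F_X(prd S · prd T)`, restricted to `V₁ ≤ N(prd T) ≤ V₂`. -/
def Fa (l : ℤ) (X : ℕ) (α : Finset PrP → ℂ) (V₁ V₂ : ℝ) (T : Finset PrP) : ℂ :=
  if V₁ ≤ nm (prd T) ∧ (nm (prd T) : ℝ) ≤ V₂ then
    ∑ S ∈ (UX X).powerset, α S * FX l X (prd S * prd T) else 0

open Classical in
/-- primes `≥ w`. -/
def Uw (X : ℕ) : Finset PrP := (UX X).filter (fun p => ¬ (nm p.1 : ℝ) < wX X)

open Classical in
/-- **TI part.**  `I`, `E` run over arbitrary families of sets of norm `< X^0.05`, `< X^0.1`. -/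
def TIPart : Prop := ∀ l : ℤ, ∃ (δ K : ℝ) (X0 : ℕ), 0 < δ ∧ ∀ X : ℕ, X0 ≤ X →
  ∀ (α : Finset PrP → ℂ) (V₁ V₂ : ℝ), (∀ S, ‖α S‖ ≤ 1) →
    (X : ℝ) ^ (0.495 : ℝ) ≤ V₁ → V₂ ≤ (X : ℝ) ^ (0.505 : ℝ) →
  ∀ (II : Finset (Finset PrP)) (EE : Finset PrP → Finset (Finset PrP)),
    (∀ I ∈ II, I ⊆ UX X ∧ nu PrP.N I < D1 X) →
    (∀ I ∈ II, ∀ E ∈ EE I, E ⊆ UX X \ I ∧ nu PrP.N E < D2 X) →
    ‖∑ I ∈ II, (-1 : ℂ) ^ I.card * ∑ E ∈ EE I, (-1 : ℂ) ^ E.card *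
      ∑ J ∈ ((UX X \ I) \ E).powerset, Fa l X α V₁ V₂ (I ∪ (E ∪ J))‖ ≤
      K * (X : ℝ) ^ (5 / 6 - δ)

open Classical in
/-- **L part** (crossing of the level by the primes `< w`). -/
def LPart : Prop := ∀ (l : ℤ) (A : ℕ), ∃ (K : ℝ) (X0 : ℕ), ∀ X : ℕ, X0 ≤ X →
  ∀ (α : Finset PrP → ℂ) (V₁ V₂ : ℝ), (∀ S, ‖α S‖ ≤ 1) →
    (X : ℝ) ^ (0.495 : ℝ) ≤ V₁ → V₂ ≤ (X : ℝ) ^ (0.505 : ℝ) →
    ‖∑ I ∈ ((Uw X).filter (fun p => (nm p.1 : ℝ) < zX X)).powerset.filter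
        (fun I => nu PrP.N I < D1 X), (-1 : ℂ) ^ I.card *
      ∑ E ∈ ((UX X \ I).filter (fun p => (nm p.1 : ℝ) < wX X)).powerset.filter
        (fun E => Cr PrP.N (D2 X) E), (-1 : ℂ) ^ E.card *
      ∑ J ∈ (((UX X \ I) \ E).filter (fun p => Ab E p)).powerset, Fa l X α V₁ V₂ (I ∪ (E ∪ J))‖ ≤
      K * (X : ℝ) ^ ((5 : ℝ) / 6) / LX X ^ A

open Classical in
/-- **Cr part** (crossing of the level by the primes in `[w, z)`). -/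
def CrPart : Prop := ∀ (l : ℤ) (A : ℕ), ∃ (K : ℝ) (X0 : ℕ), ∀ X : ℕ, X0 ≤ X →
  ∀ (α : Finset PrP → ℂ) (V₁ V₂ : ℝ), (∀ S, ‖α S‖ ≤ 1) →
    (X : ℝ) ^ (0.495 : ℝ) ≤ V₁ → V₂ ≤ (X : ℝ) ^ (0.505 : ℝ) →
    ‖∑ I ∈ ((Uw X).filter (fun p => (nm p.1 : ℝ) < zX X)).powerset.filter
        (fun I => Cr PrP.N (D1 X) I), (-1 : ℂ) ^ I.card *
      ∑ J ∈ ((Uw X \ I).filter (fun p => Ab I p)).powerset, Fa l X α V₁ V₂ (I ∪ J)‖ ≤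
      K * (X : ℝ) ^ ((5 : ℝ) / 6) / LX X ^ A

open Classical in
/-- **composite part**. -/
def CompPart : Prop := ∃ η : ℝ, 0 < η ∧ ∀ (l : ℤ) (A : ℕ), ∃ (K : ℝ) (X0 : ℕ), ∀ X : ℕ, X0 ≤ X →
  ∀ (α : Finset PrP → ℂ) (V₁ V₂ : ℝ), (∀ S, ‖α S‖ ≤ 1) →
    (X : ℝ) ^ (1 / 2 - η) ≤ V₁ → V₂ ≤ (X : ℝ) ^ (1 / 2 + η) →
    ‖∑ T ∈ ((UX X).filter (fun p => ¬ (nm p.1 : ℝ) < zX X)).powerset.filter (fun T => 2 ≤ T.card),
      Fa l X α V₁ V₂ T‖ ≤ K * (X : ℝ) ^ ((5 : ℝ) / 6) / LX X ^ A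

/-- (helper766) -/
def TIPart_of : Prop := TI_Prop → TIPart
/-- (helper286; helper50 backup) -/
def LPart_of : Prop := T0x_Prop → LPart
/-- (helper828) -/
def CrPart_of : Prop := TIIx_Prop → CrPart
/-- (helper47) -/
def CompPart_of : Prop := TIIc_Prop → CompPart
/-- (helper828) -/
def SNH_assembly : Prop := TIPart → LPart → CrPart → CompPart → SNH_Prop

end Crest.Agent.R012.NearHalf828
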