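import Crest.Agent.R012.SNHb_766
import Crest.Agent.R012.NearHalf_828
import Crest.Agent.R012.Div_277

/-!
# Row 12: primes near `X^(1/2)`, the Type I part (`NearHalf828.TIPart_of`)
-/

set_option autoImplicit false

noncomputable section

namespace Crest.Agent.R012.SNH766

open Finset Eis Buch420 Sieve812 Main48 NearHalf828

open Classical in
/-- type I sum -/
def GG (l : ℤ) (X : ℕ) (d : Eis) (y : ℕ) : ℝ :=
  ‖∑ m ∈ (primBall X).filter (fun m => nm (d * m) ≤ y), Fl l (d * m)‖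

lemma exists_max (l : ℤ) (X : ℕ) :
    ∃ Y : Eis → ℕ, (∀ d, Y d ≤ X) ∧ ∀ d, ∀ y, y ≤ X → GG l X d y ≤ GG l X d (Y d) := by
  have h : ∀ d : Eis, ∃ y : ℕ, y ≤ X ∧ ∀ y', y' ≤ X → GG l X d y' ≤ GG l X d y := by
    intro d
    obtain ⟨y, hy, hmax⟩ := Finset.exists_max_image (Finset.range (X + 1)) (GG l X d)
      ⟨0, by simp⟩
    exact ⟨y, by rw [Finset.mem_range] at hy; omega, fun y' hy' => hmax y' (by
      rw [Finset.mem_range]; omega)⟩
  choose Y hY1 hY2 using h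
  exact ⟨Y, hY1, hY2⟩

lemma Fl_eq_zero (l : ℤ) {n : Eis} (h : ¬ Squarefree n) : Fl l n = 0 := by
  unfold Fl; rw [if_neg h]

lemma FX_ne_zero {l : ℤ} {X : ℕ} {n : Eis} (h : FX l X n ≠ 0) :
    Squarefree n ∧ X < 2 * nm n ∧ nm n ≤ X := by
  unfold FX at h
  split_ifs at h with h1
  · refine ⟨?_, h1⟩
    by_contra hc
    exact h (Fl_eq_zero l hc)
  · exact absurd rfl h

open Classical in
/-- The inner sum. -/
lemma inner_le (l : ℤ) {X : ℕ} {Y : Eis → ℕ}
    (hY : ∀ d, ∀ y, y ≤ X → GG l X d y ≤ GG l X d (Y d)) {S T0 : Finset PrP}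
    (hd : Disjoint S T0) {V₁ V₂ : ℝ} (hV : 0 < V₁) :
    ‖∑ J ∈ (UX X \ T0).powerset, (if V₁ ≤ nm (prd (T0 ∪ J)) ∧ (nm (prd (T0 ∪ J)) : ℝ) ≤ V₂ then
        FX l X (prd S * prd (T0 ∪ J)) else 0)‖ ≤
      2 * GG l X (prd (S ∪ T0)) (Y (prd (S ∪ T0))) := by
  set f : Eis → ℂ := fun n => if V₁ ≤ nm n ∧ (nm n : ℝ) ≤ V₂ then FX l X (prd S * n) else 0
    with hf
  have hS0 : 0 < nm (prd S) := nm_pos.mpr (prd_ne_zero S)
  have hT0 : 0 < nm (prd T0) := nm_pos.mpr (prd_ne_zero T0)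
  have hfs : ∀ n, f n ≠ 0 → Squarefree n ∧ nm n ≤ X := by
    intro n hn
    rw [hf] at hn
    simp only at hn
    split_ifs at hn with h1
    · have h2 := FX_ne_zero hn
      refine ⟨h2.1.of_mul_right, ?_⟩
      have h3 := h2.2.2
      rw [nm_mul] at h3
      nlinarith
    · exact absurd rfl hn
  have e1 : ∑ J ∈ (UX X \ T0).powerset, (if V₁ ≤ nm (prd (T0 ∪ J)) ∧
      (nm (prd (T0 ∪ J)) : ℝ) ≤ V₂ then FX l X (prd S * prd (T0 ∪ J)) else 0) =
      ∑ n ∈ (primBall X).filter (fun n => prd T0 ∣ n), f n :=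
    sum_powerset_multiples f hfs T0
  set D := prd (S ∪ T0) with hD
  have hDe : D = prd S * prd T0 := prd_union hd
  -- change to `m`
  have e2 : ∑ n ∈ (primBall X).filter (fun n => prd T0 ∣ n), f n =
      ∑ m ∈ primBall X, f (prd T0 * m) := by
    rw [Div277.primBall_filter_dvd X (isPrim_prd T0), Finset.sum_map]
    simp only [Div277.mulEmb_apply]
    refine Finset.sum_subset ?_ ?_
    · intro m hm
      rw [mem_primBall] at hm ⊢
      exact ⟨hm.1.trans (Nat.div_le_self _ _), hm.2⟩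
    · intro m hm hm'
      by_contra hc
      apply hm'
      have h2 := (hfs _ hc).2
      rw [nm_mul] at h2
      rw [mem_primBall] at hm ⊢
      refine ⟨?_, hm.2⟩
      rw [Nat.le_div_iff_mul_le hT0, mul_comm]; exact h2
  -- the two cut-offs
  set y2 : ℕ := min X ⌊V₂ * nm (prd S)⌋₊ with hy2
  set y1 : ℕ := min y2 (max (⌈V₁ * nm (prd S)⌉₊ - 1) (X / 2)) with hy1
  have hSr : (0 : ℝ) < nm (prd S) := by exact_mod_cast hS0
  have e3 : ∀ m ∈ primBall X, f (prd T0 * m) =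
      (if nm (D * m) ≤ y2 then Fl l (D * m) else 0) -
      (if nm (D * m) ≤ y1 then Fl l (D * m) else 0) := by
    intro m hm
    rw [mem_primBall] at hm
    have hm0 : 0 < nm m := nm_pos.mpr hm.2.ne_zero
    have hDm : D * m = prd S * (prd T0 * m) := by rw [hDe, mul_assoc]
    have hN : nm (D * m) = nm (prd S) * nm (prd T0 * m) := by rw [hDm, nm_mul]
    have hNpos : 0 < nm (D * m) := by
      rw [hN, nm_mul]; positivity
    have c1 : V₁ ≤ nm (prd T0 * m) ↔ ¬ nm (D * m) ≤ ⌈V₁ * nm (prd S)⌉₊ - 1 := by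
      have h1 : 0 < V₁ * nm (prd S) := mul_pos hV hSr
      have h2 : 0 < ⌈V₁ * nm (prd S)⌉₊ := Nat.ceil_pos.mpr h1
      have h3 : (¬ nm (D * m) ≤ ⌈V₁ * nm (prd S)⌉₊ - 1) ↔ ⌈V₁ * nm (prd S)⌉₊ ≤ nm (D * m) := by
        omega
      rw [h3, Nat.ceil_le, hN]
      push_cast
      rw [mul_comm V₁]
      exact (mul_le_mul_iff_right₀ hSr).symm
    have c2 : (nm (prd T0 * m) : ℝ) ≤ V₂ ↔ nm (D * m) ≤ ⌊V₂ * nm (prd S)⌋₊ := by
      rw [Nat.le_floor_iff' hNpos.ne', hN]
      push_cast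
      rw [mul_comm V₂]
      exact (mul_le_mul_iff_right₀ hSr).symm
    have c3 : X < 2 * nm (D * m) ↔ ¬ nm (D * m) ≤ X / 2 := by omega
    rw [hf]
    simp only
    rw [← hDm]
    have c4 : ((V₁ ≤ nm (prd T0 * m) ∧ (nm (prd T0 * m) : ℝ) ≤ V₂) ∧
        X < 2 * nm (D * m) ∧ nm (D * m) ≤ X) ↔ (nm (D * m) ≤ y2 ∧ ¬ nm (D * m) ≤ y1) := by
      rw [c1, c2, c3, hy1, hy2]
      omega
    by_cases h1 : (V₁ ≤ nm (prd T0 * m) ∧ (nm (prd T0 * m) : ℝ) ≤ V₂) ∧
        X < 2 * nm (D * m) ∧ nm (D * m) ≤ X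
    · have h2 := c4.mp h1
      rw [if_pos h1.1, if_pos h2.1, if_neg h2.2, sub_zero]
      unfold FX
      rw [if_pos h1.2]
    · have h3 : (if V₁ ≤ nm (prd T0 * m) ∧ (nm (prd T0 * m) : ℝ) ≤ V₂ then FX l X (D * m)
          else 0) = 0 := by
        split_ifs with h4
        · unfold FX
          rw [if_neg (fun h5 => h1 ⟨h4, h5⟩)]
        · rfl
      rw [h3]
      have h5 : ¬ (nm (D * m) ≤ y2 ∧ ¬ nm (D * m) ≤ y1) := fun h6 => h1 (c4.mpr h6)
      have h12 : y1 ≤ y2 := min_le_left _ _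
      by_cases h6 : nm (D * m) ≤ y2
      · have h7 : nm (D * m) ≤ y1 := by
          by_contra h8; exact h5 ⟨h6, h8⟩
        rw [if_pos h6, if_pos h7, sub_self]
      · rw [if_neg h6, if_neg (fun h8 => h6 (h8.trans h12)), sub_self]
  rw [e1, e2, Finset.sum_congr rfl e3, Finset.sum_sub_distrib, ← Finset.sum_filter,
    ← Finset.sum_filter]
  refine (norm_sub_le _ _).trans ?_
  have h1 := hY D y2 (min_le_left _ _)
  have h2 := hY D y1 ((min_le_left _ _).trans (min_le_left _ _))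
  unfold GG at h1 h2 ⊢
  linarith

open Classical in
lemma two_pow_card_le_tau (D : Finset PrP) : 2 ^ D.card ≤ Div277.tau (prd D) := by
  rw [← Finset.card_powerset, Div277.tau, ← Finset.card_image_of_injective _ prd_injective]
  refine Finset.card_le_card ?_
  intro d hd
  rw [Finset.mem_image] at hd
  obtain ⟨T, hT, rfl⟩ := hd
  rw [Div277.mem_dvs (prd_ne_zero D)]
  exact ⟨isPrim_prd T, prd_dvd_prd_iff.mpr (Finset.mem_powerset.mp hT)⟩

open Classical in
/-- the triple sum -/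
lemma triple_le (P : Finset PrP) (H : Finset PrP → ℝ) (hH : ∀ D, 0 ≤ H D) :
    ∑ I ∈ P.powerset, ∑ E ∈ P.powerset, ∑ S ∈ P.powerset, H (S ∪ (I ∪ E)) ≤
      ∑ D ∈ P.powerset, (2 : ℝ) ^ D.card * 2 ^ D.card * 2 ^ D.card * H D := by
  have e1 : ∑ I ∈ P.powerset, ∑ E ∈ P.powerset, ∑ S ∈ P.powerset, H (S ∪ (I ∪ E)) =
      ∑ x ∈ P.powerset ×ˢ (P.powerset ×ˢ P.powerset), H (x.2.2 ∪ (x.1 ∪ x.2.1)) := by
    rw [Finset.sum_product]
    refine Finset.sum_congr rfl fun I _ => ?_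
    rw [Finset.sum_product]
  rw [e1]
  have hmap : ∀ x ∈ P.powerset ×ˢ (P.powerset ×ˢ P.powerset), x.2.2 ∪ (x.1 ∪ x.2.1) ∈ P.powerset := by
    intro x hx
    rw [Finset.mem_product, Finset.mem_product, Finset.mem_powerset, Finset.mem_powerset,
      Finset.mem_powerset] at hx
    rw [Finset.mem_powerset]
    exact Finset.union_subset hx.2.2 (Finset.union_subset hx.1 hx.2.1)
  rw [← Finset.sum_fiberwise_of_maps_to hmap]
  refine Finset.sum_le_sum fun D _ => ?_
  have e2 : ∑ x ∈ (P.powerset ×ˢ (P.powerset ×ˢ P.powerset)).filter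
      (fun x => x.2.2 ∪ (x.1 ∪ x.2.1) = D), H (x.2.2 ∪ (x.1 ∪ x.2.1)) =
      ((P.powerset ×ˢ (P.powerset ×ˢ P.powerset)).filter
        (fun x => x.2.2 ∪ (x.1 ∪ x.2.1) = D)).card * H D := by
    rw [← nsmul_eq_mul, ← Finset.sum_const]
    refine Finset.sum_congr rfl fun x hx => ?_
    rw [(Finset.mem_filter.mp hx).2]
  rw [e2]
  refine mul_le_mul_of_nonneg_right ?_ (hH D)
  have h3 : (P.powerset ×ˢ (P.powerset ×ˢ P.powerset)).filter
        (fun x => x.2.2 ∪ (x.1 ∪ x.2.1) = D) ⊆ D.powerset ×ˢ (D.powerset ×ˢ D.powerset) := by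
    intro x hx
    have h4 := (Finset.mem_filter.mp hx).2
    rw [Finset.mem_product, Finset.mem_product, Finset.mem_powerset, Finset.mem_powerset,
      Finset.mem_powerset, ← h4]
    refine ⟨?_, ?_, ?_⟩
    · exact Finset.subset_union_left.trans Finset.subset_union_right
    · exact Finset.subset_union_right.trans Finset.subset_union_right
    · exact Finset.subset_union_left
  have h5 := Finset.card_le_card h3
  rw [Finset.card_product, Finset.card_product, Finset.card_powerset] at h5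
  have h6 : 2 ^ D.card * (2 ^ D.card * 2 ^ D.card) = 2 ^ D.card * 2 ^ D.card * 2 ^ D.card := by ring
  rw [h6] at h5
  exact_mod_cast h5

open Classical in
theorem tiPart : TIPart_of := by
  intro hTI l
  obtain ⟨δ, C, hδ, hC, hmain⟩ := hTI l (1 / 100) (by norm_num)
  obtain ⟨Ct, hCt, htau⟩ := Div277.tau_le_rpow (ε := δ / 6) (by positivity)
  refine ⟨δ / 2, 2 * Ct ^ 3 * C, 2, by positivity, ?_⟩
  intro X hX2 α V₁ V₂ hα hV1 hV2 II EE hII hEE
  have hXr : (2 : ℝ) ≤ X := by exact_mod_cast hX2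
  have hX0 : (0 : ℝ) < X := by linarith
  have hX1 : (1 : ℝ) ≤ X := by linarith
  have hV : 0 < V₁ := lt_of_lt_of_le (Real.rpow_pos_of_pos hX0 _) hV1
  obtain ⟨Y, hYX, hY⟩ := exists_max l X
  have hGG0 : ∀ d y, 0 ≤ GG l X d y := fun d y => norm_nonneg _
  -- the majorant
  set H : Finset PrP → ℝ := fun D =>
    if (nm (prd D) : ℝ) ≤ (X : ℝ) ^ ((2 : ℝ) / 3 - 1 / 100) then
      2 * GG l X (prd D) (Y (prd D)) else 0 with hH
  have hH0 : ∀ D, 0 ≤ H D := by
    intro D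
    rw [hH]
    simp only
    split_ifs
    · have := hGG0 (prd D) (Y (prd D)); linarith
    · exact le_rfl
  -- bound for a triple
  have key : ∀ I ∈ II, ∀ E ∈ EE I, ∀ S ∈ (UX X).powerset,
      ‖∑ J ∈ ((UX X \ I) \ E).powerset, (if V₁ ≤ nm (prd (I ∪ (E ∪ J))) ∧
        (nm (prd (I ∪ (E ∪ J))) : ℝ) ≤ V₂ then FX l X (prd S * prd (I ∪ (E ∪ J))) else 0)‖ ≤
        H (S ∪ (I ∪ E)) := by
    intro I hI E hE S hS
    have e1 : (UX X \ I) \ E = UX X \ (I ∪ E) := by
      ext p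
      rw [Finset.mem_sdiff, Finset.mem_sdiff, Finset.mem_sdiff, Finset.mem_union, not_or,
        and_assoc]
    have e2 : ∀ J : Finset PrP, I ∪ (E ∪ J) = (I ∪ E) ∪ J := fun J =>
      (Finset.union_assoc _ _ _).symm
    simp only [e1, e2]
    by_cases hd : Disjoint S (I ∪ E)
    · by_cases hS2 : nK S * V₁ ≤ X
      · have hIE : Disjoint I E := by
          rw [Finset.disjoint_left]
          intro p hp hp'
          exact (Finset.mem_sdiff.mp ((hEE I hI E hE).1 hp')).2 hp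
        have hsmall : (nm (prd (S ∪ (I ∪ E))) : ℝ) ≤ (X : ℝ) ^ ((2 : ℝ) / 3 - 1 / 100) := by
          have h1 : (nm (prd (S ∪ (I ∪ E))) : ℝ) = nK S * (nK I * nK E) := by
            rw [← nK_nat, nK_union hd, nK_union hIE]
          have h2 : nK S ≤ (X : ℝ) ^ (0.505 : ℝ) := by
            have h3 : nK S ≤ X / V₁ := by rw [le_div_iff₀ hV]; exact hS2
            have h4 : (X : ℝ) / V₁ ≤ X / (X : ℝ) ^ (0.495 : ℝ) :=
              div_le_div_of_nonneg_left hX0.le (Real.rpow_pos_of_pos hX0 _) hV1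
            have h5 : (X : ℝ) / (X : ℝ) ^ (0.495 : ℝ) = (X : ℝ) ^ (0.505 : ℝ) := by
              conv_lhs => rw [← Real.rpow_one (X : ℝ), ← Real.rpow_mul hX0.le, one_mul]
              rw [← Real.rpow_sub hX0]
              norm_num
            linarith
          have h3 : nK I ≤ (X : ℝ) ^ (0.05 : ℝ) := by
            have := (hII I hI).2.le
            rw [nK_eq]; exact this
          have h4 : nK E ≤ (X : ℝ) ^ (0.1 : ℝ) := by
            have := (hEE I hI E hE).2.le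
            rw [nK_eq]; exact this
          rw [h1]
          calc nK S * (nK I * nK E) ≤ (X : ℝ) ^ (0.505 : ℝ) * ((X : ℝ) ^ (0.05 : ℝ) *
                (X : ℝ) ^ (0.1 : ℝ)) := by
                have a1 := nK_pos I
                have a2 := nK_pos E
                have a3 := nK_pos S
                gcongr
            _ = (X : ℝ) ^ (0.655 : ℝ) := by
                rw [← Real.rpow_add hX0, ← Real.rpow_add hX0]; norm_num
            _ ≤ (X : ℝ) ^ ((2 : ℝ) / 3 - 1 / 100) :=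
                Real.rpow_le_rpow_of_exponent_le hX1 (by norm_num)
        have h1 := inner_le l hY hd (V₂ := V₂) hV
        rw [hH]
        simp only
        rw [if_pos hsmall]
        exact h1
      · have h0 : ∑ J ∈ (UX X \ (I ∪ E)).powerset, (if V₁ ≤ nm (prd ((I ∪ E) ∪ J)) ∧
          (nm (prd ((I ∪ E) ∪ J)) : ℝ) ≤ V₂ then FX l X (prd S * prd ((I ∪ E) ∪ J)) else 0) = 0 := by
          refine Finset.sum_eq_zero fun J _ => ?_
          split_ifs with h1
          · by_contra hc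
            have h2 := (FX_ne_zero hc).2.2
            rw [nm_mul] at h2
            have h3 : nK S * (nm (prd ((I ∪ E) ∪ J)) : ℝ) ≤ X := by
              rw [nK_nat]; exact_mod_cast h2
            apply hS2
            have := nK_pos S
            nlinarith [h1.1]
          · rfl
        rw [h0, norm_zero]; exact hH0 _
    · have h0 : ∑ J ∈ (UX X \ (I ∪ E)).powerset, (if V₁ ≤ nm (prd ((I ∪ E) ∪ J)) ∧
          (nm (prd ((I ∪ E) ∪ J)) : ℝ) ≤ V₂ then FX l X (prd S * prd ((I ∪ E) ∪ J)) else 0) = 0 := by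
        refine Finset.sum_eq_zero fun J _ => ?_
        split_ifs with h1
        · by_contra hc
          have h2 := (FX_ne_zero hc).1
          apply hd
          rw [Finset.disjoint_left]
          intro p hp hp'
          have h3 : p.1 ∣ prd S := dvd_prd_iff.mpr hp
          have h4 : p.1 ∣ prd ((I ∪ E) ∪ J) := dvd_prd_iff.mpr (Finset.mem_union_left _ hp')
          exact p.prime.not_isUnit (h2 _ (mul_dvd_mul h3 h4))
        · rfl
      rw [h0, norm_zero]; exact hH0 _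
  -- the total sum is bounded by the triple sum
  have step1 : ‖∑ I ∈ II, (-1 : ℂ) ^ I.card * ∑ E ∈ EE I, (-1 : ℂ) ^ E.card *
      ∑ J ∈ ((UX X \ I) \ E).powerset, Fa l X α V₁ V₂ (I ∪ (E ∪ J))‖ ≤
      ∑ I ∈ II, ∑ E ∈ EE I, ∑ S ∈ (UX X).powerset, H (S ∪ (I ∪ E)) := by
    refine (norm_sum_le _ _).trans (Finset.sum_le_sum fun I hI => ?_)
    rw [norm_mul, norm_pow, norm_neg, norm_one, one_pow, one_mul]
    refine (norm_sum_le _ _).trans (Finset.sum_le_sum fun E hE => ?_)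
    rw [norm_mul, norm_pow, norm_neg, norm_one, one_pow, one_mul]
    have e1 : ∑ J ∈ ((UX X \ I) \ E).powerset, Fa l X α V₁ V₂ (I ∪ (E ∪ J)) =
        ∑ S ∈ (UX X).powerset, α S * ∑ J ∈ ((UX X \ I) \ E).powerset,
          (if V₁ ≤ nm (prd (I ∪ (E ∪ J))) ∧ (nm (prd (I ∪ (E ∪ J))) : ℝ) ≤ V₂ then
            FX l X (prd S * prd (I ∪ (E ∪ J))) else 0) := by
      simp only [Finset.mul_sum]
      rw [Finset.sum_comm]
      refine Finset.sum_congr rfl fun J _ => ?_
      unfold Fa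
      split_ifs with h
      · rfl
      · simp
    rw [e1]
    refine (norm_sum_le _ _).trans (Finset.sum_le_sum fun S hS => ?_)
    rw [norm_mul]
    have h1 := key I hI E hE S hS
    have h2 := hα S
    calc ‖α S‖ * _ ≤ 1 * _ := mul_le_mul_of_nonneg_right h2 (norm_nonneg _)
      _ ≤ H (S ∪ (I ∪ E)) := by rw [one_mul]; exact h1
  have step2 : ∑ I ∈ II, ∑ E ∈ EE I, ∑ S ∈ (UX X).powerset, H (S ∪ (I ∪ E)) ≤
      ∑ I ∈ (UX X).powerset, ∑ E ∈ (UX X).powerset, ∑ S ∈ (UX X).powerset, H (S ∪ (I ∪ E)) := by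
    have hnn : ∀ I E, 0 ≤ ∑ S ∈ (UX X).powerset, H (S ∪ (I ∪ E)) := fun I E =>
      Finset.sum_nonneg fun S _ => hH0 _
    refine (Finset.sum_le_sum fun I hI => ?_).trans (Finset.sum_le_sum_of_subset_of_nonneg ?_ ?_)
    · refine Finset.sum_le_sum_of_subset_of_nonneg (t := (UX X).powerset) ?_ ?_
      · intro E hE
        rw [Finset.mem_powerset]
        exact (hEE I hI E hE).1.trans Finset.sdiff_subset
      · intro E _ _; exact hnn I E
    · intro I hI
      rw [Finset.mem_powerset]; exact (hII I hI).1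
    · intro I _ _
      exact Finset.sum_nonneg fun E _ => hnn I E
  have step3 := triple_le (UX X) H hH0
  -- back to the sum over `d`
  have step4 : ∑ D ∈ (UX X).powerset, (2 : ℝ) ^ D.card * 2 ^ D.card * 2 ^ D.card * H D ≤
      Ct ^ 3 * (X : ℝ) ^ (δ / 2) * (2 * ∑ d ∈ (primBall X).filter (fun d => Squarefree d ∧
        (nm d : ℝ) ≤ (X : ℝ) ^ ((2 : ℝ) / 3 - 1 / 100)), GG l X d (Y d)) := by
    have h1 : ∀ D ∈ (UX X).powerset, (2 : ℝ) ^ D.card * 2 ^ D.card * 2 ^ D.card * H D ≤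
        Ct ^ 3 * (X : ℝ) ^ (δ / 2) * H D := by
      intro D _
      rw [hH]
      simp only
      split_ifs with h2
      · refine mul_le_mul_of_nonneg_right ?_ (by have := hGG0 (prd D) (Y (prd D)); linarith)
        have h3 : (2 : ℝ) ^ D.card ≤ Ct * (X : ℝ) ^ (δ / 6) := by
          have h4 : (2 : ℝ) ^ D.card ≤ Div277.tau (prd D) := by
            exact_mod_cast two_pow_card_le_tau D
          have h5 := htau (prd D) (prd_ne_zero D)
          have h6 : (nm (prd D) : ℝ) ^ (δ / 6) ≤ (X : ℝ) ^ (δ / 6) := by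
            refine Real.rpow_le_rpow (Nat.cast_nonneg _) ?_ (by positivity)
            refine h2.trans ?_
            conv_rhs => rw [← Real.rpow_one (X : ℝ)]
            exact Real.rpow_le_rpow_of_exponent_le hX1 (by norm_num)
          have h7 : Ct * (nm (prd D) : ℝ) ^ (δ / 6) ≤ Ct * (X : ℝ) ^ (δ / 6) :=
            mul_le_mul_of_nonneg_left h6 (by linarith)
          linarith
        have h0 : (0 : ℝ) ≤ 2 ^ D.card := by positivity
        have e : Ct ^ 3 * (X : ℝ) ^ (δ / 2) = (Ct * (X : ℝ) ^ (δ / 6)) * (Ct * (X : ℝ) ^ (δ / 6)) *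
            (Ct * (X : ℝ) ^ (δ / 6)) := by
          have : (X : ℝ) ^ (δ / 2) = (X : ℝ) ^ (δ / 6) * (X : ℝ) ^ (δ / 6) * (X : ℝ) ^ (δ / 6) := by
            rw [← Real.rpow_add hX0, ← Real.rpow_add hX0]; ring_nf
          rw [this]; ring
        rw [e]
        have hpos : 0 ≤ Ct * (X : ℝ) ^ (δ / 6) := le_trans h0 h3
        exact mul_le_mul (mul_le_mul h3 h3 h0 hpos) h3 h0 (mul_nonneg hpos hpos)
      · simp
    refine (Finset.sum_le_sum h1).trans ?_
    rw [← Finset.mul_sum]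
    refine mul_le_mul_of_nonneg_left ?_ (by positivity)
    rw [hH]
    simp only
    rw [← Finset.sum_filter, ← Finset.mul_sum]
    refine mul_le_mul_of_nonneg_left ?_ (by norm_num)
    rw [← Finset.sum_image (s := ((UX X).powerset.filter
      (fun D => (nm (prd D) : ℝ) ≤ (X : ℝ) ^ ((2 : ℝ) / 3 - 1 / 100)))) (g := prd)
      (f := fun d => GG l X d (Y d)) (fun a _ b _ hab => prd_injective hab)]
    refine Finset.sum_le_sum_of_subset_of_nonneg ?_ fun _ _ _ => hGG0 _ _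
    intro d hd
    rw [Finset.mem_image] at hd
    obtain ⟨D, hD, rfl⟩ := hd
    rw [Finset.mem_filter] at hD
    rw [Finset.mem_filter, mem_primBall]
    refine ⟨⟨?_, isPrim_prd D⟩, squarefree_prd D, hD.2⟩
    have h2 : (nm (prd D) : ℝ) ≤ X := by
      refine hD.2.trans ?_
      conv_rhs => rw [← Real.rpow_one (X : ℝ)]
      exact Real.rpow_le_rpow_of_exponent_le hX1 (by norm_num)
    exact_mod_cast h2
  have step5 := hmain X hX2 Y hYX
  have step6 : Ct ^ 3 * (X : ℝ) ^ (δ / 2) * (2 * ∑ d ∈ (primBall X).filter (fun d => Squarefree d ∧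
        (nm d : ℝ) ≤ (X : ℝ) ^ ((2 : ℝ) / 3 - 1 / 100)), GG l X d (Y d)) ≤
      2 * Ct ^ 3 * C * (X : ℝ) ^ (5 / 6 - δ / 2) := by
    have h1 : ∑ d ∈ (primBall X).filter (fun d => Squarefree d ∧
        (nm d : ℝ) ≤ (X : ℝ) ^ ((2 : ℝ) / 3 - 1 / 100)), GG l X d (Y d) ≤
        C * (X : ℝ) ^ (5 / 6 - δ) := step5
    have h2 : (X : ℝ) ^ (5 / 6 - δ / 2) = (X : ℝ) ^ (δ / 2) * (X : ℝ) ^ (5 / 6 - δ) := by
      rw [← Real.rpow_add hX0]; ring_nf
    rw [h2]
    have h3 : 0 ≤ Ct ^ 3 * (X : ℝ) ^ (δ / 2) := by positivity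
    calc Ct ^ 3 * (X : ℝ) ^ (δ / 2) * (2 * _) ≤ Ct ^ 3 * (X : ℝ) ^ (δ / 2) *
          (2 * (C * (X : ℝ) ^ (5 / 6 - δ))) := by gcongr
      _ = _ := by ring
  exact step1.trans (step2.trans (step3.trans (step4.trans step6)))

end Crest.Agent.R012.SNH766
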