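import Crest.Agent.R012.SNH_828
import Crest.Agent.R012.SNH_Cr_828
import Crest.Agent.R012.SNH_TI_766
import Crest.Agent.R012.SNH_L_50
import Crest.Agent.R012.SNH_Comp_47
import Crest.Agent.R012.IxOf_106

/-! # Row 12 (helper828): `Main48.SNH_of` -/

set_option autoImplicit false

namespace Crest.Agent.R012.NearHalf828

open Main48

/-- **Primes near `X^(1/2)`** -/
theorem snh_of : Main48.SNH_of := fun hI hII hIIc h0 =>
  snh_assembly (SNH766.tiPart hI) (SNHL50.lPart_of h0) (crPart_of hII)
    (compPart_of (IxOf106.TIIc_of hIIc))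

end Crest.Agent.R012.NearHalf828
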