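import Crest.Agent.R012.PC_355
import Crest.Agent.R012.Quot_666

/-!
# Row 12, part (P): lattice counting modulo a general `q ∈ ℤ[ω]` (helper355)

`‖∑_{b ∈ ball N} X b * ang l b‖ ≤ C_l * √(nm q) * √N` for `X` periodic modulo `q`, `|X| ≤ 1`,
with `sumMod q X = 0` if `l = 0`.
-/

set_option autoImplicit false

noncomputable section

open Complex

namespace Crest.Agent.R012.P355

open Crest.Agent.R012 Eis

/-- a complete residue system consisting of small elements -/
lemma exists_small_crs {q : Eis} (hq : q ≠ 0) :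
    ∃ S : Finset Eis, IsCRS q S ∧ ∀ s ∈ S, nm s < nm q := by
  classical
  refine ⟨(crs q).image (fun s => s - q * quo s q), ?_, ?_⟩
  · have h := isCRS_crs hq
    rw [isCRS_iff] at h ⊢
    obtain ⟨h1, h2⟩ := h
    constructor
    · intro x
      obtain ⟨s, hs, hd⟩ := h1 x
      refine ⟨s - q * quo s q, Finset.mem_image_of_mem _ hs, ?_⟩
      have e : x - (s - q * quo s q) = (x - s) + q * quo s q := by ring
      rw [e]
      exact dvd_add hd (Dvd.intro _ rfl)
    · intro s hs t ht hd
      obtain ⟨s', hs', rfl⟩ := Finset.mem_image.mp hs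
      obtain ⟨t', ht', rfl⟩ := Finset.mem_image.mp ht
      have e : s' - t' = (s' - q * quo s' q - (t' - q * quo t' q)) + q * (quo s' q - quo t' q) := by
        ring
      have : s' = t' := h2 s' hs' t' ht' (by rw [e]; exact dvd_add hd (Dvd.intro _ rfl))
      rw [this]
  · intro s hs
    obtain ⟨s', hs', rfl⟩ := Finset.mem_image.mp hs
    exact nm_sub_quo_lt s' hq

lemma block_sum_q {q : Eis} (hq : q ≠ 0) {S : Finset Eis} (hS : IsCRS q S)
    (hsm : ∀ s ∈ S, nm s < nm q) (N : ℕ) (F : Eis → ℂ) :
    ∑ b ∈ ball N, F b = ∑ k ∈ ball (4 * N + 4), ∑ s ∈ S,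
      (if nm (q * k + s) ≤ N then F (q * k + s) else 0) := by
  classical
  rw [← Finset.sum_product', ← Finset.sum_filter]
  symm
  apply Finset.sum_nbij (fun kp => q * kp.1 + kp.2)
  · intro kp hkp
    rw [Finset.mem_filter] at hkp
    exact mem_ball.mpr hkp.2
  · intro a ha b hb hab
    rw [Finset.mem_coe, Finset.mem_filter, Finset.mem_product] at ha hb
    simp only at hab
    have h1 : a.2 = b.2 := by
      apply hS.inj ha.1.2 hb.1.2
      refine ⟨b.1 - a.1, ?_⟩
      linear_combination hab
    have h2 : a.1 = b.1 := by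
      rw [h1] at hab
      exact mul_left_cancel₀ hq (add_right_cancel hab)
    exact Prod.ext h2 h1
  · intro b hb
    rw [Finset.mem_coe, mem_ball] at hb
    obtain ⟨s, ⟨hs, k, hk⟩, -⟩ := hS b
    refine ⟨(k, s), ?_, ?_⟩
    · rw [Finset.mem_coe, Finset.mem_filter, Finset.mem_product]
      have hbk : q * k + s = b := by rw [← hk]; ring
      refine ⟨⟨?_, hs⟩, by simp only; rw [hbk]; exact hb⟩
      simp only
      rw [mem_ball]
      have hqR : (1 : ℝ) ≤ ‖toC q‖ := by
        rw [norm_toC, Real.one_le_sqrt]; exact_mod_cast nm_pos.mpr hq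
      have hsR : ‖toC s‖ ≤ ‖toC q‖ := by
        rw [norm_toC, norm_toC]; exact Real.sqrt_le_sqrt (by exact_mod_cast (hsm s hs).le)
      have h3 : ‖toC q‖ * ‖toC k‖ ≤ Real.sqrt N + ‖toC q‖ := by
        rw [← norm_mul, ← map_mul, ← hk, map_sub]
        refine (norm_sub_le _ _).trans ?_
        have := norm_le_of_nm_le hb
        linarith
      have h6 : ‖toC k‖ ≤ Real.sqrt N + 1 := by
        have : ‖toC q‖ * ‖toC k‖ ≤ ‖toC q‖ * (Real.sqrt N + 1) := by
          nlinarith [Real.sqrt_nonneg (N : ℝ)]
        exact le_of_mul_le_mul_left this (by linarith)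
      have h7 : ((nm k : ℕ) : ℝ) ≤ 4 * N + 4 := by
        rw [← norm_toC_sq]
        have hN2 : Real.sqrt N ^ 2 = N := Real.sq_sqrt (Nat.cast_nonneg N)
        nlinarith [norm_nonneg (toC k), Real.sqrt_nonneg (N : ℝ), sq_nonneg (Real.sqrt N - 1)]
      exact_mod_cast h7
    · simp only; rw [← hk]; ring
  · intro _ _; rfl

/-- mean zero modulo `q`, for every angular character. -/
theorem mean_zero_bound_q (l : ℤ) {q : Eis} (hq : q ≠ 0) {X : Eis → ℂ} (hX : ∀ a, ‖X a‖ ≤ 1)
    (hper : PMod q X) (h0 : sumMod q X = 0) {N : ℕ} (hN : 1 ≤ N) :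
    ‖∑ b ∈ ball N, X b * ang l b‖ ≤ (302 + 180 * |(l : ℝ)|) * Real.sqrt (nm q) * Real.sqrt N := by
  classical
  obtain ⟨S, hS, hsm⟩ := exists_small_crs hq
  rw [sumMod_eq_sum hS hper] at h0
  rw [← norm_toC]
  set M : ℝ := ‖toC q‖ with hMdef
  have hsN : 1 ≤ Real.sqrt N := by
    rw [Real.one_le_sqrt]; exact_mod_cast hN
  have hMR : (1 : ℝ) ≤ M := by
    rw [hMdef, norm_toC, Real.one_le_sqrt]; exact_mod_cast nm_pos.mpr hq
  have hScard : (S.card : ℝ) = M ^ 2 := by
    rw [hS.card, hMdef, norm_toC_sq]
  have hl0 := abs_nonneg (l : ℝ)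
  rcases lt_or_ge (Real.sqrt N) M with hcase | hcase
  · refine (norm_sum_le_of_le (ball N) (f := fun b => X b * ang l b) (n := fun _ => 1) ?_).trans ?_
    · intro b _
      rw [norm_mul]
      exact mul_le_one₀ (hX b) (norm_nonneg _) (norm_ang_le l b)
    · rw [Finset.sum_const, nsmul_eq_mul, mul_one]
      refine (ball_card N hN).trans ?_
      have e : (25 : ℝ) * N = 25 * Real.sqrt N * Real.sqrt N := by
        rw [mul_assoc, Real.mul_self_sqrt (Nat.cast_nonneg N)]
      rw [e]
      have : 25 * Real.sqrt N ≤ (302 + 180 * |(l : ℝ)|) * M := by nlinarith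
      exact mul_le_mul_of_nonneg_right this (by linarith)
  · set R : ℝ := Real.sqrt N / M with hRdef
    have hMpos : (0 : ℝ) < M := by linarith
    have hMR2 : M * R = Real.sqrt N := by rw [hRdef]; field_simp
    have hR1 : 1 ≤ R := by rw [hRdef, le_div_iff₀ hMpos]; linarith
    set G : Eis → Eis → ℂ := fun k p => if nm (q * k + p) ≤ N then ang l (q * k + p) else 0 with hG
    set G0 : Eis → ℂ := fun k => if nm (q * k) ≤ N then ang l (q * k) else 0 with hG0
    have hSum : ∑ b ∈ ball N, X b * ang l b =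
        ∑ k ∈ ball (4 * N + 4), ∑ p ∈ S, X p * (G k p - G0 k) := by
      rw [block_sum_q hq hS hsm]
      apply Finset.sum_congr rfl
      intro k _
      simp only [mul_sub]
      rw [Finset.sum_sub_distrib, ← Finset.sum_mul, h0, zero_mul, sub_zero]
      apply Finset.sum_congr rfl
      intro p _
      simp only [hG]
      split_ifs
      · have : q * k + p = p + q * k := by ring
        rw [this, hper]
      · simp
    set D : Eis → ℝ := fun k => (if R - 1 ≤ ‖toC k‖ ∧ ‖toC k‖ ≤ R + 1 then 2 else 0) +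
      (if k = 0 then 2 else 0) +
      (if 1 ≤ ‖toC k‖ ∧ ‖toC k‖ ≤ R then 2 * |(l : ℝ)| * (1 / ‖toC k‖) else 0) with hD
    have hGle : ∀ k p, ‖G k p‖ ≤ 1 := by
      intro k p; simp only [hG]; split_ifs
      · exact norm_ang_le _ _
      · simp
    have hG0le : ∀ k, ‖G0 k‖ ≤ 1 := by
      intro k; simp only [hG0]; split_ifs
      · exact norm_ang_le _ _
      · simp
    have h2 : ∀ k p, ‖G k p - G0 k‖ ≤ 2 := by
      intro k p
      refine (norm_sub_le _ _).trans ?_
      linarith [hGle k p, hG0le k]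
    have hlast : ∀ k : Eis, 0 ≤ (if 1 ≤ ‖toC k‖ ∧ ‖toC k‖ ≤ R then 2 * |(l : ℝ)| * (1 / ‖toC k‖) else 0) := by
      intro k; split_ifs
      · positivity
      · exact le_rfl
    have key : ∀ k, ∀ p ∈ S, ‖G k p - G0 k‖ ≤ D k := by
      intro k p hp
      have hpn : ‖toC p‖ < M := by
        rw [hMdef, norm_toC, norm_toC]
        exact Real.sqrt_lt_sqrt (Nat.cast_nonneg _) (by exact_mod_cast hsm p hp)
      have hnMk : ‖toC (q * k)‖ = M * ‖toC k‖ := by
        rw [map_mul, norm_mul]
      have hdiff : ‖toC (q * k + p) - toC (q * k)‖ < M := by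
        rw [map_add]; simpa using hpn
      by_cases c1 : R - 1 ≤ ‖toC k‖ ∧ ‖toC k‖ ≤ R + 1
      · have : 2 ≤ D k := by
          simp only [hD]; rw [if_pos c1]
          have := hlast k
          split_ifs at this ⊢ <;> linarith
        exact (h2 k p).trans this
      · have hDge : 0 ≤ D k := by
          simp only [hD]
          have := hlast k
          split_ifs at this ⊢ <;> linarith
        rcases lt_or_ge (R + 1) ‖toC k‖ with c2 | c2
        · -- both outside
          have o1 : ¬ nm (q * k) ≤ N := by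
            rw [nm_le_iff, hnMk, not_le, ← hMR2]
            exact mul_lt_mul_of_pos_left (by linarith) hMpos
          have o2 : ¬ nm (q * k + p) ≤ N := by
            rw [nm_le_iff, not_le]
            have h3 : ‖toC (q * k)‖ - ‖toC (q * k + p)‖ < M := by
              refine lt_of_le_of_lt (norm_sub_norm_le _ _) ?_
              rw [norm_sub_rev]; exact hdiff
            have h4 : M * (R + 1) < M * ‖toC k‖ := mul_lt_mul_of_pos_left c2 hMpos
            rw [hnMk] at h3
            nlinarith
          have : G k p - G0 k = 0 := by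
            simp only [hG, hG0]; rw [if_neg o1, if_neg o2, sub_zero]
          rw [this, norm_zero]
          exact hDge
        · have c3 : ‖toC k‖ < R - 1 := by
            by_contra hcon
            exact c1 ⟨not_lt.mp hcon, c2⟩
          have i1 : nm (q * k) ≤ N := by
            rw [nm_le_iff, hnMk, ← hMR2]
            exact mul_le_mul_of_nonneg_left (by linarith) hMpos.le
          have i2 : nm (q * k + p) ≤ N := by
            rw [nm_le_iff]
            have h3 : ‖toC (q * k + p)‖ - ‖toC (q * k)‖ < M :=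
              lt_of_le_of_lt (norm_sub_norm_le _ _) hdiff
            have h4 : M * ‖toC k‖ < M * (R - 1) := mul_lt_mul_of_pos_left c3 hMpos
            rw [hnMk] at h3
            nlinarith
          by_cases hk : k = 0
          · have : 2 ≤ D k := by
              simp only [hD]; rw [if_pos hk]
              have := hlast k
              split_ifs at this ⊢ <;> linarith
            exact (h2 k p).trans this
          · have hk1 : 1 ≤ ‖toC k‖ := by
              rw [norm_toC, Real.one_le_sqrt]
              exact_mod_cast nm_pos.mpr hk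
            have hkR : ‖toC k‖ ≤ R := by linarith
            have n0 : q * k ≠ 0 := mul_ne_zero hq hk
            have n1 : q * k + p ≠ 0 := by
              intro h
              rw [h] at hdiff
              simp only [map_zero, zero_sub, norm_neg] at hdiff
              rw [hnMk] at hdiff
              nlinarith
            have e : G k p - G0 k = ang l (q * k + p) - ang l (q * k) := by
              simp only [hG, hG0]; rw [if_pos i1, if_pos i2]
            rw [e]
            refine (ang_sub_le l n1 n0).trans ?_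
            have h5 : 2 * |(l : ℝ)| * (1 / ‖toC k‖) ≤ D k := by
              simp only [hD]
              rw [if_pos (⟨hk1, hkR⟩ : 1 ≤ ‖toC k‖ ∧ ‖toC k‖ ≤ R)]
              split_ifs <;> linarith
            refine le_trans ?_ h5
            rw [hnMk]
            have h6 : 2 * ‖toC (q * k + p) - toC (q * k)‖ / (M * ‖toC k‖) ≤
                2 * (1 / ‖toC k‖) := by
              rw [div_le_iff₀ (by positivity)]
              have : 2 * (1 / ‖toC k‖) * (M * ‖toC k‖) = 2 * M := by field_simp
              rw [this]; linarith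
            calc _ ≤ |(l : ℝ)| * (2 * (1 / ‖toC k‖)) := by gcongr
              _ = _ := by ring
    have hsumD : ∑ k ∈ ball (4 * N + 4), D k ≤ (302 + 180 * |(l : ℝ)|) * R := by
      simp only [hD]
      rw [Finset.sum_add_distrib, Finset.sum_add_distrib]
      have t1 : ∑ k ∈ ball (4 * N + 4), (if R - 1 ≤ ‖toC k‖ ∧ ‖toC k‖ ≤ R + 1 then (2 : ℝ) else 0) ≤
          300 * R := by
        rw [← Finset.sum_filter, Finset.sum_const, nsmul_eq_mul]
        have := annulus_count (R := R) (c := 1) (by linarith) (by norm_num)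
          ((ball (4 * N + 4)).filter (fun k => R - 1 ≤ ‖toC k‖ ∧ ‖toC k‖ ≤ R + 1))
          (fun z hz => (Finset.mem_filter.mp hz).2)
        nlinarith
      have t2 : ∑ k ∈ ball (4 * N + 4), (if k = 0 then (2 : ℝ) else 0) ≤ 2 := by
        rw [Finset.sum_ite_eq']
        split_ifs <;> norm_num
      have t3 : ∑ k ∈ ball (4 * N + 4), (if 1 ≤ ‖toC k‖ ∧ ‖toC k‖ ≤ R then
          2 * |(l : ℝ)| * (1 / ‖toC k‖) else 0) ≤ 180 * |(l : ℝ)| * R := by
        rw [← Finset.sum_filter, ← Finset.mul_sum]
        have := sum_inv_norm (R := R) (by linarith)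
          ((ball (4 * N + 4)).filter (fun k => 1 ≤ ‖toC k‖ ∧ ‖toC k‖ ≤ R))
          (fun z hz => (Finset.mem_filter.mp hz).2)
        calc _ ≤ 2 * |(l : ℝ)| * (90 * R) := by gcongr
          _ = _ := by ring
      nlinarith
    rw [hSum]
    refine (norm_sum_le_of_le (ball (4 * N + 4)) (n := fun k => M ^ 2 * D k) ?_).trans ?_
    · intro k _
      refine (norm_sum_le_of_le S (n := fun _ => D k) ?_).trans ?_
      · intro p hp
        rw [norm_mul]
        calc _ ≤ 1 * ‖G k p - G0 k‖ := by gcongr; exact hX _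
          _ ≤ D k := by rw [one_mul]; exact key k p hp
      · rw [Finset.sum_const, nsmul_eq_mul, hScard]
    · rw [← Finset.mul_sum]
      calc M ^ 2 * ∑ k ∈ ball (4 * N + 4), D k ≤ M ^ 2 * ((302 + 180 * |(l : ℝ)|) * R) := by
            gcongr
        _ = (302 + 180 * |(l : ℝ)|) * M * (M * R) := by ring
        _ = _ := by rw [hMR2]

/-- sums of a function periodic modulo `q` against an angular character. -/
theorem C2q (l : ℤ) : ∃ C : ℝ, 0 < C ∧ ∀ (q : Eis) (X : Eis → ℂ), q ≠ 0 → (∀ a, ‖X a‖ ≤ 1) →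
    PMod q X → (l = 0 → sumMod q X = 0) →
    ∀ N : ℕ, 1 ≤ N → ‖∑ b ∈ ball N, X b * ang l b‖ ≤ C * Real.sqrt (nm q) * Real.sqrt N := by
  by_cases hl : l = 0
  · refine ⟨302 + 180 * |(l : ℝ)|, by positivity, fun q X hq hX hper h0 N hN => ?_⟩
    exact mean_zero_bound_q l hq hX hper (h0 hl) hN
  · obtain ⟨C1, hC1, h1⟩ := ang_sum_bound hl
    refine ⟨2 * (302 + 180 * |(l : ℝ)|) + C1, by positivity, fun q X hq hX hper _ N hN => ?_⟩
    have hMR : (1 : ℝ) ≤ Real.sqrt (nm q) := by
      rw [Real.one_le_sqrt]; exact_mod_cast nm_pos.mpr hq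
    have hnC : ((nm q : ℕ) : ℂ) ≠ 0 := by exact_mod_cast (nm_pos.mpr hq).ne'
    have hnR : (0 : ℝ) < ((nm q : ℕ) : ℝ) := by exact_mod_cast nm_pos.mpr hq
    set c : ℂ := sumMod q X / (nm q : ℂ) with hc
    have hcle : ‖c‖ ≤ 1 := by
      rw [hc, norm_div, Complex.norm_natCast, div_le_one hnR]
      have := norm_sumMod_le hq hX
      linarith
    have h2 := mean_zero_bound_q l hq (X := fun b => (X b - c) / 2) ?_ ?_ ?_ hN
    · have h3 := h1 N hN
      have e : ∑ b ∈ ball N, X b * ang l b = 2 * ∑ b ∈ ball N, (X b - c) / 2 * ang l b +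
          c * ∑ b ∈ ball N, ang l b := by
        rw [Finset.mul_sum, Finset.mul_sum, ← Finset.sum_add_distrib]
        apply Finset.sum_congr rfl
        intro b _
        ring
      rw [e]
      refine (norm_add_le _ _).trans ?_
      rw [norm_mul, norm_mul]
      have hs := Real.sqrt_nonneg (N : ℝ)
      have h4 : ‖c‖ * ‖∑ b ∈ ball N, ang l b‖ ≤ C1 * Real.sqrt (nm q) * Real.sqrt N := by
        calc _ ≤ 1 * (C1 * Real.sqrt N) := by gcongr
          _ ≤ Real.sqrt (nm q) * (C1 * Real.sqrt N) := by gcongr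
          _ = _ := by ring
      have h5 : ‖(2 : ℂ)‖ = 2 := by simp
      rw [h5]
      nlinarith
    · intro a
      rw [norm_div]
      have h5 : ‖(2 : ℂ)‖ = 2 := by simp
      rw [h5, div_le_one (by norm_num)]
      refine (norm_sub_le _ _).trans ?_
      linarith [hX a]
    · intro x t
      simp only [hper x t]
    · have e : ∀ x, (X x - c) / 2 = (X x - c) * (1 / 2) := by intro x; ring
      rw [sumMod_congr e, sumMod_mul_right hq, sumMod_sub hq, sumMod_const hq, hc]
      field_simp
      ring

/-- sums over primary elements, `q` divisible by `3`. -/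
theorem C2q_prim (l : ℤ) : ∃ C : ℝ, 0 < C ∧ ∀ (q : Eis) (χ : Eis → ℂ), q ≠ 0 → (3 : Eis) ∣ q →
    (∀ a, IsPrim a → ‖χ a‖ ≤ 1) →
    (∀ a b, IsPrim a → IsPrim b → q ∣ a - b → χ a = χ b) →
    (l = 0 → ∃ a, IsPrim a ∧ IsCoprime a q ∧ χ a ≠ 1 ∧ ∀ b, IsPrim b → χ (a * b) = χ a * χ b) →
    ∀ N : ℕ, ‖∑ b ∈ primBall N, χ b * ang l b‖ ≤ C * Real.sqrt (nm q) * Real.sqrt N := by
  classical
  obtain ⟨C, hC, h⟩ := C2q l
  refine ⟨C, hC, fun q χ hq h3 hle hper hne N => ?_⟩
  set X : Eis → ℂ := fun b => if IsPrim b then χ b else 0 with hXdef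
  have hprim : ∀ x t, IsPrim (x + q * t) ↔ IsPrim x := by
    intro x t
    unfold IsPrim
    have e : x + q * t - 1 = (x - 1) + q * t := by ring
    rw [e]
    exact dvd_add_left (Dvd.dvd.mul_right h3 t)
  have hXper : PMod q X := by
    intro x t
    simp only [hXdef]
    by_cases hx : IsPrim x
    · rw [if_pos hx, if_pos ((hprim x t).mpr hx)]
      exact hper _ _ ((hprim x t).mpr hx) hx ⟨t, by ring⟩
    · rw [if_neg hx, if_neg (fun h => hx ((hprim x t).mp h))]
  rcases Nat.eq_zero_or_pos N with rfl | hN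
  · have h25 := C1 0
    have : primBall 0 = ∅ := by
      rw [← Finset.card_eq_zero]
      simpa using h25
    rw [this]; simp
  · have h1 := h q X hq ?_ hXper ?_ N hN
    · refine le_trans (le_of_eq ?_) h1
      congr 1
      unfold primBall
      rw [Finset.sum_filter]
      apply Finset.sum_congr rfl
      intro b _
      simp only [hXdef]
      split_ifs
      · rfl
      · simp
    · intro a
      simp only [hXdef]
      split_ifs with ha
      · exact hle a ha
      · simp
    · intro hl
      obtain ⟨a, ha, hcop, hne', hmul⟩ := hne hl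
      have hXmul : ∀ b, X (a * b) = χ a * X b := by
        intro b
        simp only [hXdef]
        by_cases hb : IsPrim b
        · rw [if_pos hb, if_pos ((isPrim_mul_iff ha).mpr hb), hmul b hb]
        · rw [if_neg hb, if_neg (fun h => hb ((isPrim_mul_iff ha).mp h)), mul_zero]
      have h5 := sumMod_mul_coprime hq hXper hcop
      rw [sumMod_congr hXmul, sumMod_mul_left hq] at h5
      have h6 : (χ a - 1) * sumMod q X = 0 := by rw [sub_mul, h5]; ring
      rcases mul_eq_zero.mp h6 with h7 | h7
      · exact absurd (sub_eq_zero.mp h7) hne'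
      · exact h7

end Crest.Agent.R012.P355
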