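import Crest.Agent.R012.PFinal_355
import Crest.Agent.R012.PC2_355
import Crest.Agent.R012.Sym6_645

/-!
# Row 12, part (P): Siegel–Walfisz for `(h/·) (·/|·|)^l N(·)^{it}` (helper355)
-/

set_option autoImplicit false

noncomputable section

open Complex

namespace Crest.Agent.R012.P355

open Crest.Agent.R012 Eis PSer47

/-- `b ↦ (h/b)` is a character on the primary elements. -/
theorem isChar_sy (h : Eis) : IsChar (fun b => sy h b) where
  one := Sym645.sy_one_right h
  mul a b ha hb := Sym645.sy_mul_right h ha.ne_zero hb.ne_zero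
  norm a ha := by
    by_cases hc : IsCoprime h a
    · right; exact Sym645.norm_sy_of_isCoprime (Sym645.prim_nm_mod ha) hc
    · left; exact (Sym645.sy_eq_zero_iff (Sym645.prim_nm_mod ha)).mpr hc

open Classical in
/-- Siegel–Walfisz for `χ * ang l * nm^{it}`, `χ` periodic modulo `q ∈ ℤ[ω]`. -/
theorem SW_of_PT_q (hPT : PT_Prop) (l : ℤ) (A C : ℕ) : ∃ K : ℝ, 0 < K ∧ ∀ (q : Eis) (χ : Eis → ℂ),
    q ≠ 0 → (3 : Eis) ∣ q → IsChar χ →
    (∀ a b, IsPrim a → IsPrim b → q ∣ a - b → χ a = χ b) →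
    (l = 0 → ∃ a, IsPrim a ∧ IsCoprime a q ∧ χ a ≠ 1 ∧ χ a ^ 2 ≠ 1) →
    ∀ x t : ℝ, 2 ≤ x → ((nm q : ℕ) : ℝ) ≤ Real.log x ^ C → |t| ≤ Real.log x ^ C →
      ‖∑ p ∈ (primBall ⌊x⌋₊).filter (fun p => Prime p),
        χ p * ang l p * (nm p : ℂ) ^ ((t : ℂ) * I)‖ ≤ K * x / Real.log x ^ A := by
  obtain ⟨C1', hC1', h1⟩ := C2q_prim l
  obtain ⟨C2', hC2', h2⟩ := C2q_prim (2 * l)
  obtain ⟨K, hK, hP⟩ := hPT A (2 * C + 1)
  set D : ℝ := C1' + C2' + 1 with hD
  set c0 : ℝ := 3 * D + 1 with hc0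
  have hD1 : 1 ≤ D := by rw [hD]; linarith
  refine ⟨K + 25 * c0 ^ A, by positivity, ?_⟩
  intro q χ hq h3 hχ hper hne x t hx hMx htx
  have hlx : 0 < Real.log x := Real.log_pos (by linarith)
  have hx0 : 0 < x := by linarith
  have hchar : IsChar (fun b => χ b * ang l b) := hχ.mul' (ang_isChar l)
  have hnq : (1 : ℝ) ≤ ((nm q : ℕ) : ℝ) := by exact_mod_cast nm_pos.mpr hq
  set M : ℝ := Real.sqrt (nm q) with hM
  have hMR : (1 : ℝ) ≤ M := by rw [hM, Real.one_le_sqrt]; exact hnq
  have hMle : M ≤ ((nm q : ℕ) : ℝ) := by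
    have := Real.mul_self_sqrt (show (0 : ℝ) ≤ ((nm q : ℕ) : ℝ) by linarith)
    rw [← hM] at this
    nlinarith
  rcases lt_or_ge (Real.log x) c0 with hsm | hlg
  · have ht := trivial_bound (fun p => χ p * ang l p * (nm p : ℂ) ^ ((t : ℂ) * I)) ?_ hx0.le
    · refine ht.trans ?_
      have e1 : Real.log x ^ A ≤ c0 ^ A := pow_le_pow_left₀ hlx.le hsm.le A
      rw [le_div_iff₀ (by positivity)]
      have : 25 * x * Real.log x ^ A ≤ 25 * x * c0 ^ A := by gcongr
      nlinarith [mul_pos hK hx0]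
    · intro b hb
      rw [norm_mul]
      calc _ ≤ (1 : ℝ) * 1 := by
            apply mul_le_mul (hchar.norm_le hb) (norm_nm_cpow_le b t hb) (norm_nonneg _) (by norm_num)
        _ = 1 := by norm_num
  · have hfin := hP (fun b => χ b * ang l b) (D * M) hchar (by nlinarith) ?_ ?_ x t hx ?_
    · refine hfin.trans ?_
      gcongr
      have : 0 ≤ 25 * c0 ^ A := by positivity
      linarith
    · intro N
      refine (h1 q χ hq h3 (fun a ha => hχ.norm_le ha) hper ?_ N).trans ?_
      · intro hl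
        obtain ⟨a, ha, hcop, hne1, hne2⟩ := hne hl
        exact ⟨a, ha, hcop, hne1, fun b hb => hχ.mul a b ha hb⟩
      · gcongr
        rw [hD]; linarith
    · intro N
      have e : ∀ b, (χ b * ang l b) ^ 2 = χ b ^ 2 * ang (2 * l) b := by
        intro b; rw [mul_pow, ang_sq]
      simp only [e]
      refine (h2 q (fun b => χ b ^ 2) hq h3 (fun a ha => hχ.sq.norm_le ha) ?_ ?_ N).trans ?_
      · intro a b ha hb h
        simp only [hper a b ha hb h]
      · intro hl
        obtain ⟨a, ha, hcop, hne1, hne2⟩ := hne (by omega)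
        exact ⟨a, ha, hcop, hne2, fun b hb => hχ.sq.mul a b ha hb⟩
      · gcongr
        rw [hD]; linarith
    · have hl1 : 1 ≤ Real.log x := by rw [hc0] at hlg; linarith
      have hp1 : 1 ≤ Real.log x ^ C := one_le_pow₀ hl1
      have hp0 : 0 < Real.log x ^ C := by positivity
      have ht2 : |t| + 2 ≤ 3 * Real.log x ^ C := by linarith
      have hMx' : M ≤ Real.log x ^ C := hMle.trans hMx
      calc D * M * (|t| + 2) ≤ D * Real.log x ^ C * (3 * Real.log x ^ C) := by gcongr
        _ = (3 * D) * (Real.log x ^ C * Real.log x ^ C) := by ring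
        _ ≤ Real.log x * (Real.log x ^ C * Real.log x ^ C) := by
            gcongr
            rw [hc0] at hlg; linarith
        _ = Real.log x ^ (2 * C + 1) := by ring

lemma nm_nine : nm (9 : Eis) = 81 := by
  have : (9 : Eis) = ((9 : ℕ) : Eis) := by norm_num
  rw [this, nm_natCast]; norm_num

/-- nontriviality of `(h/·)` and its square for a noncube `h`. -/
lemma exists_nontrivial {h : Eis} (h0 : h ≠ 0) (hh : ¬ ∃ e, h = e ^ 3) :
    ∃ a, IsPrim a ∧ IsCoprime a (9 * h) ∧ sy h a ≠ 1 ∧ sy h a ^ 2 ≠ 1 := by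
  obtain ⟨b, hb, hcop, hne⟩ := Sym645.exists_sy_ne_one h0 hh
  refine ⟨b, hb, ?_, hne, ?_⟩
  · have h9 : IsCoprime b (9 : Eis) := by
      have h3 := hb.isCoprime_three
      have : (9 : Eis) = 3 * 3 := by norm_num
      rw [this]
      exact h3.mul_right h3
    exact h9.mul_right hcop.symm
  · intro h2
    apply hne
    have h3 := Sym645.sy_cube (Sym645.prim_nm_mod hb) hcop
    calc sy h b = sy h b * sy h b ^ 2 := by rw [h2, mul_one]
      _ = sy h b ^ 3 := by ring
      _ = 1 := h3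

open Classical in
/-- **Siegel–Walfisz for `(h/·) ang^l N^{it}`** : `h ≠ 0`, and `h` not a cube or `l ≠ 0`. -/
theorem SW_sy_of_PT (hPT : PT_Prop) (l : ℤ) (A C : ℕ) : ∃ K : ℝ, 0 < K ∧ ∀ (h : Eis),
    h ≠ 0 → (l = 0 → ¬ ∃ e, h = e ^ 3) →
    ∀ x t : ℝ, 2 ≤ x → ((nm h : ℕ) : ℝ) ≤ Real.log x ^ C → |t| ≤ Real.log x ^ C →
      ‖∑ p ∈ (primBall ⌊x⌋₊).filter (fun p => Prime p),
        sy h p * ang l p * (nm p : ℂ) ^ ((t : ℂ) * I)‖ ≤ K * x / Real.log x ^ A := by
  obtain ⟨K, hK, hP⟩ := SW_of_PT_q hPT l A (C + 2)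
  refine ⟨K + 25 * 81 ^ A, by positivity, ?_⟩
  intro h h0 hh x t hx hhx htx
  have hlx : 0 < Real.log x := Real.log_pos (by linarith)
  have hx0 : 0 < x := by linarith
  have hchar : IsChar (fun b => sy h b * ang l b) := (isChar_sy h).mul' (ang_isChar l)
  rcases lt_or_ge (Real.log x) 81 with hsm | hlg
  · have ht := trivial_bound (fun p => sy h p * ang l p * (nm p : ℂ) ^ ((t : ℂ) * I)) ?_ hx0.le
    · refine ht.trans ?_
      have e1 : Real.log x ^ A ≤ 81 ^ A := pow_le_pow_left₀ hlx.le hsm.le A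
      rw [le_div_iff₀ (by positivity)]
      have : 25 * x * Real.log x ^ A ≤ 25 * x * 81 ^ A := by gcongr
      nlinarith [mul_pos hK hx0]
    · intro b hb
      rw [norm_mul]
      calc _ ≤ (1 : ℝ) * 1 := by
            apply mul_le_mul (hchar.norm_le hb) (norm_nm_cpow_le b t hb) (norm_nonneg _) (by norm_num)
        _ = 1 := by norm_num
  · have hp0 : 0 < Real.log x ^ C := by positivity
    refine (hP (9 * h) (fun b => sy h b) ?_ ?_ (isChar_sy h) ?_ ?_ x t hx ?_ ?_).trans ?_
    · exact mul_ne_zero (by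
        intro h9
        have := nm_nine
        rw [h9] at this
        simp at this) h0
    · exact ⟨3 * h, by ring⟩
    · intro a b ha hb hd
      exact Sym645.sy_periodic h0 ha hb hd
    · intro hl
      exact exists_nontrivial h0 (hh hl)
    · rw [nm_mul, nm_nine]
      push_cast
      calc (81 : ℝ) * nm h ≤ Real.log x * Real.log x ^ C := by gcongr
        _ ≤ Real.log x ^ (C + 2) := by
            have : Real.log x ^ (C + 2) = Real.log x * (Real.log x * Real.log x ^ C) := by ring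
            rw [this]
            have h1 : 1 ≤ Real.log x := by linarith
            nlinarith [mul_pos hlx hp0]
    · refine htx.trans ?_
      exact pow_le_pow_right₀ (by linarith) (by omega)
    · gcongr
      have : (0 : ℝ) ≤ 25 * 81 ^ A := by positivity
      linarith

end Crest.Agent.R012.P355
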