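import Crest.Agent.R012.LSer_47

/-!
# Row 12, part (P2): bounds for the derivatives of the L-series near `Re s = 1`

From `∑_{n ≤ N} ‖a n‖ ≤ C₀ N` and `‖∑_{n ≤ N} a n‖ ≤ Q √N` we get, for `1 < Re s ≤ 2`,
`‖LSeries (logMul^[j] a) s‖ ≤ C (log (Q (|t| + 2)))^{j+1}`.
-/

set_option autoImplicit false

noncomputable section

open Complex Filter Topology MeasureTheory

namespace Crest.Agent.R012.LDer47

open Crest.Agent.R012 Crest.Agent.R012.Eis Crest.Agent.R012.PSer47 Crest.Agent.R012.LSer47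

/-- `log^j · a` -/
def lp (j : ℕ) (a : ℕ → ℂ) (n : ℕ) : ℂ := ((Real.log n : ℝ) : ℂ) ^ j * a n

theorem logMul_iter (a : ℕ → ℂ) (k : ℕ) : LSeries.logMul^[k] a = lp k a := by
  induction k with
  | zero =>
    ext n
    simp [lp]
  | succ k ih =>
    rw [Function.iterate_succ', Function.comp_apply, ih]
    ext n
    simp only [LSeries.logMul, lp, ← Complex.natCast_log]
    ring

/-- the smooth weight -/
def gw (j : ℕ) (s : ℂ) (u : ℝ) : ℂ := ((Real.log u : ℝ) : ℂ) ^ j * (u : ℂ) ^ (-s)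

lemma pow_log_le (j : ℕ) {u : ℝ} (hu : 1 ≤ u) :
    (1 + Real.log u) ^ j ≤ (2 * 4 ^ j * j.factorial) * u ^ (1 / 4 : ℝ) := by
  have hu0 : 0 < u := by linarith
  have hl : 0 ≤ Real.log u := Real.log_nonneg hu
  have h := Real.pow_div_factorial_le_exp ((1 + Real.log u) / 4) (by linarith) j
  have hf : (0 : ℝ) < j.factorial := by exact_mod_cast Nat.factorial_pos j
  rw [div_le_iff₀ hf, div_pow, div_le_iff₀ (by positivity)] at h
  refine h.trans ?_
  have h2 : Real.exp ((1 + Real.log u) / 4) ≤ 2 * u ^ (1 / 4 : ℝ) := by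
    rw [add_div, Real.exp_add]
    have e1 : Real.exp (Real.log u / 4) = u ^ (1 / 4 : ℝ) := by
      rw [Real.rpow_def_of_pos hu0]
      congr 1
      ring
    rw [e1]
    have e2 : Real.exp (1 / 4) ≤ 2 := by
      have h1 : Real.exp (1 / 4) ≤ Real.exp (Real.log 2) := by
        apply Real.exp_le_exp.mpr
        have := Real.log_two_gt_d9
        linarith
      rwa [Real.exp_log (by norm_num)] at h1
    gcongr
  calc Real.exp ((1 + Real.log u) / 4) * j.factorial * 4 ^ j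
      ≤ (2 * u ^ (1 / 4 : ℝ)) * j.factorial * 4 ^ j := by gcongr
    _ = _ := by ring

lemma gw_hasDerivAt (j : ℕ) (s : ℂ) {u : ℝ} (hu : 1 ≤ u) :
    HasDerivAt (gw j s) ((j * ((Real.log u : ℝ) : ℂ) ^ (j - 1) * ((u⁻¹ : ℝ) : ℂ)) * (u : ℂ) ^ (-s) +
      ((Real.log u : ℝ) : ℂ) ^ j * (-s * (u : ℂ) ^ (-s - 1))) u := by
  have hu0 : 0 < u := by linarith
  have h1 : HasDerivAt (fun y : ℝ => ((Real.log y : ℝ) : ℂ)) ((u⁻¹ : ℝ) : ℂ) u :=
    (Real.hasDerivAt_log hu0.ne').ofReal_comp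
  have h2 := h1.pow j
  have h3 : HasDerivAt (fun y : ℝ => (y : ℂ) ^ (-s)) (-s * (u : ℂ) ^ (-s - 1)) u := by
    by_cases hs : s = 0
    · subst hs
      simp only [neg_zero, Complex.cpow_zero, zero_mul]
      exact hasDerivAt_const _ _
    · have := hasDerivAt_ofReal_cpow_const' (x := u) (r := -s - 1) hu0.ne'
        (by intro h; apply hs; linear_combination -h)
      have h4 := this.const_mul (-s)
      have e : (fun y : ℝ => (-s) * ((y : ℂ) ^ (-s - 1 + 1) / (-s - 1 + 1))) =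
          fun y : ℝ => (y : ℂ) ^ (-s) := by
        ext y
        rw [show -s - 1 + 1 = -s by ring]
        field_simp
      rw [e] at h4
      exact h4
  exact h2.mul h3

lemma norm_cpow_le {s : ℂ} (hs : 1 ≤ s.re) {u : ℝ} (hu : 1 ≤ u) : ‖(u : ℂ) ^ (-s)‖ ≤ u⁻¹ := by
  have hu0 : 0 < u := by linarith
  rw [Complex.norm_cpow_eq_rpow_re_of_pos hu0, Complex.neg_re, ← Real.rpow_neg_one]
  exact Real.rpow_le_rpow_of_exponent_le hu (by linarith)

lemma norm_cpow_le' {s : ℂ} (hs : 1 ≤ s.re) {u : ℝ} (hu : 1 ≤ u) :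
    ‖(u : ℂ) ^ (-s - 1)‖ ≤ (u⁻¹) ^ 2 := by
  have hu0 : 0 < u := by linarith
  rw [Complex.norm_cpow_eq_rpow_re_of_pos hu0]
  have : (u⁻¹) ^ 2 = u ^ (-2 : ℝ) := by
    rw [Real.rpow_neg hu0.le, inv_pow]
    norm_cast
  rw [this]
  apply Real.rpow_le_rpow_of_exponent_le hu
  simp
  linarith

lemma gw_norm_le (j : ℕ) {s : ℂ} (hs : 1 ≤ s.re) {u : ℝ} (hu : 1 ≤ u) :
    ‖gw j s u‖ ≤ (1 + Real.log u) ^ j * u⁻¹ := by
  have hl : 0 ≤ Real.log u := Real.log_nonneg hu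
  unfold gw
  rw [norm_mul, norm_pow, Complex.norm_real, Real.norm_of_nonneg hl]
  exact mul_le_mul (by gcongr; linarith) (norm_cpow_le hs hu) (norm_nonneg _) (by positivity)

lemma gw_deriv_norm_le (j : ℕ) {s : ℂ} (hs : 1 ≤ s.re) {u : ℝ} (hu : 1 ≤ u) :
    ‖deriv (gw j s) u‖ ≤ (j + ‖s‖) * (1 + Real.log u) ^ j * (u⁻¹) ^ 2 := by
  have hu0 : 0 < u := by linarith
  have hl : 0 ≤ Real.log u := Real.log_nonneg hu
  rw [(gw_hasDerivAt j s hu).deriv]
  have h1 : ‖(j * ((Real.log u : ℝ) : ℂ) ^ (j - 1) * ((u⁻¹ : ℝ) : ℂ)) * (u : ℂ) ^ (-s)‖ ≤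
      j * (1 + Real.log u) ^ j * (u⁻¹) ^ 2 := by
    rw [norm_mul, norm_mul, norm_mul, norm_pow, Complex.norm_real, Complex.norm_real,
      Real.norm_of_nonneg hl, Real.norm_of_nonneg (inv_pos.mpr hu0).le, Complex.norm_natCast]
    have h2 : Real.log u ^ (j - 1) ≤ (1 + Real.log u) ^ j := by
      calc Real.log u ^ (j - 1) ≤ (1 + Real.log u) ^ (j - 1) := by gcongr; linarith
        _ ≤ (1 + Real.log u) ^ j := pow_le_pow_right₀ (by linarith) (by omega)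
    calc (j : ℝ) * Real.log u ^ (j - 1) * u⁻¹ * ‖(u : ℂ) ^ (-s)‖
        ≤ j * (1 + Real.log u) ^ j * u⁻¹ * u⁻¹ := by
          gcongr
          exact norm_cpow_le hs hu
      _ = _ := by ring
  have h3 : ‖((Real.log u : ℝ) : ℂ) ^ j * (-s * (u : ℂ) ^ (-s - 1))‖ ≤
      ‖s‖ * (1 + Real.log u) ^ j * (u⁻¹) ^ 2 := by
    rw [norm_mul, norm_mul, norm_pow, Complex.norm_real, Real.norm_of_nonneg hl, norm_neg]
    calc Real.log u ^ j * (‖s‖ * ‖(u : ℂ) ^ (-s - 1)‖)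
        ≤ (1 + Real.log u) ^ j * (‖s‖ * (u⁻¹) ^ 2) := by
          gcongr
          · linarith
          · exact norm_cpow_le' hs hu
      _ = _ := by ring
  calc _ ≤ _ := norm_add_le _ _
    _ ≤ j * (1 + Real.log u) ^ j * (u⁻¹) ^ 2 + ‖s‖ * (1 + Real.log u) ^ j * (u⁻¹) ^ 2 :=
        add_le_add h1 h3
    _ = _ := by ring

lemma gw_deriv_cont (j : ℕ) (s : ℂ) (a b : ℝ) (ha : 1 ≤ a) :
    ContinuousOn (deriv (gw j s)) (Set.Icc a b) := by
  have h : Set.EqOn (deriv (gw j s)) (fun u : ℝ =>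
      (j * ((Real.log u : ℝ) : ℂ) ^ (j - 1) * ((u⁻¹ : ℝ) : ℂ)) * (u : ℂ) ^ (-s) +
      ((Real.log u : ℝ) : ℂ) ^ j * (-s * (u : ℂ) ^ (-s - 1))) (Set.Icc a b) := fun u hu =>
    (gw_hasDerivAt j s (ha.trans hu.1)).deriv
  refine ContinuousOn.congr ?_ h
  have hlog : ContinuousOn (fun u : ℝ => ((Real.log u : ℝ) : ℂ)) (Set.Icc a b) := by
    refine Complex.continuous_ofReal.comp_continuousOn (Real.continuousOn_log.mono ?_)
    intro u hu
    have : a ≤ u := hu.1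
    simp only [Set.mem_compl_iff, Set.mem_singleton_iff]
    linarith
  have hinv : ContinuousOn (fun u : ℝ => ((u⁻¹ : ℝ) : ℂ)) (Set.Icc a b) := by
    refine Complex.continuous_ofReal.comp_continuousOn (continuousOn_inv₀.mono ?_)
    intro u hu
    have : a ≤ u := hu.1
    simp only [Set.mem_compl_iff, Set.mem_singleton_iff]
    linarith
  have hpow : ∀ z : ℂ, ContinuousOn (fun u : ℝ => (u : ℂ) ^ z) (Set.Icc a b) := by
    intro z u hu
    have : a ≤ u := hu.1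
    exact (Complex.continuousAt_ofReal_cpow_const u z (Or.inr (by linarith))).continuousWithinAt
  exact (((continuousOn_const.mul (hlog.pow _)).mul hinv).mul (hpow _)).add
    ((hlog.pow _).mul (continuousOn_const.mul (hpow _)))

/-- the tail of the series by partial summation -/
lemma tail_bound (j : ℕ) {a : ℕ → ℂ} (h0 : a 0 = 0) {Q : ℝ} (hQ : 0 ≤ Q)
    (hS : ∀ N : ℕ, ‖∑ n ∈ Finset.Icc 1 N, a n‖ ≤ Q * Real.sqrt N) {s : ℂ} (hs : 1 ≤ s.re)
    {Y M : ℕ} (hY : 1 ≤ Y) (hYM : Y ≤ M) :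
    ‖∑ n ∈ Finset.Ioc Y M, gw j s n * a n‖ ≤
      (2 * 4 ^ j * j.factorial) * Q * (2 + 4 * (j + ‖s‖)) * (Y : ℝ) ^ (-(1 / 4) : ℝ) := by
  set D : ℝ := 2 * 4 ^ j * j.factorial with hD
  have hD0 : 0 ≤ D := by positivity
  have hYr : (1 : ℝ) ≤ Y := by exact_mod_cast hY
  have hY0 : (0 : ℝ) < Y := by linarith
  have hMr : (Y : ℝ) ≤ M := by exact_mod_cast hYM
  have hS0 : ∀ N : ℕ, ‖∑ n ∈ Finset.Icc 0 N, a n‖ ≤ Q * Real.sqrt N := by
    intro N
    have e : ∑ n ∈ Finset.Icc 0 N, a n = ∑ n ∈ Finset.Icc 1 N, a n := by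
      rw [← Finset.sum_erase_add (Finset.Icc 0 N) _ (Finset.left_mem_Icc.mpr (Nat.zero_le N)), h0,
        add_zero]
      refine Finset.sum_congr ?_ fun _ _ => rfl
      ext n
      simp only [Finset.mem_erase, Finset.mem_Icc]
      omega
    rw [e]
    exact hS N
  have hint : IntegrableOn (deriv (gw j s)) (Set.Icc (Y : ℝ) M) :=
    (gw_deriv_cont j s Y M hYr).integrableOn_Icc
  rw [sum_mul_eq_sub_sub_integral_mul' a hYM
    (fun t ht => (gw_hasDerivAt j s (hYr.trans ht.1)).differentiableAt) hint]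
  -- pointwise estimates
  have hbd : ∀ N : ℕ, Y ≤ N → ‖gw j s N * ∑ n ∈ Finset.Icc 0 N, a n‖ ≤
      D * Q * (Y : ℝ) ^ (-(1 / 4) : ℝ) := by
    intro N hN
    have hNr : (Y : ℝ) ≤ N := by exact_mod_cast hN
    have hN1 : (1 : ℝ) ≤ N := hYr.trans hNr
    have hN0 : (0 : ℝ) < N := by linarith
    rw [norm_mul]
    calc ‖gw j s N‖ * ‖∑ n ∈ Finset.Icc 0 N, a n‖
        ≤ ((D * (N : ℝ) ^ (1 / 4 : ℝ)) * (N : ℝ)⁻¹) * (Q * Real.sqrt N) := by
          gcongr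
          · refine (gw_norm_le j hs hN1).trans ?_
            gcongr
            exact pow_log_le j hN1
          · exact hS0 N
      _ = D * Q * (N : ℝ) ^ (-(1 / 4) : ℝ) := by
          rw [Real.sqrt_eq_rpow, ← Real.rpow_neg_one (N : ℝ)]
          have : (N : ℝ) ^ (-(1 / 4) : ℝ) = (N : ℝ) ^ (1 / 4 : ℝ) * (N : ℝ) ^ (-1 : ℝ) *
              (N : ℝ) ^ (1 / 2 : ℝ) := by
            rw [← Real.rpow_add hN0, ← Real.rpow_add hN0]
            norm_num
          rw [this]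
          ring
      _ ≤ D * Q * (Y : ℝ) ^ (-(1 / 4) : ℝ) := by
          have : (N : ℝ) ^ (-(1 / 4) : ℝ) ≤ (Y : ℝ) ^ (-(1 / 4) : ℝ) :=
            Real.rpow_le_rpow_of_nonpos hY0 hNr (by norm_num)
          gcongr
  have hI : ‖∫ t in Set.Ioc (Y : ℝ) M, deriv (gw j s) t * ∑ k ∈ Finset.Icc 0 ⌊t⌋₊, a k‖ ≤
      (j + ‖s‖) * D * Q * (4 * (Y : ℝ) ^ (-(1 / 4) : ℝ)) := by
    have hgi : IntegrableOn (fun t : ℝ => (j + ‖s‖) * D * Q * t ^ (-(5 / 4) : ℝ))
        (Set.Ioi (Y : ℝ)) :=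
      (integrableOn_Ioi_rpow_of_lt (by norm_num) hY0).const_mul _
    have h1 : ‖∫ t in Set.Ioc (Y : ℝ) M, deriv (gw j s) t * ∑ k ∈ Finset.Icc 0 ⌊t⌋₊, a k‖ ≤
        ∫ t in Set.Ioc (Y : ℝ) M, (j + ‖s‖) * D * Q * t ^ (-(5 / 4) : ℝ) := by
      apply MeasureTheory.norm_integral_le_of_norm_le
      · exact hgi.mono_set Set.Ioc_subset_Ioi_self
      · refine (MeasureTheory.ae_restrict_iff' measurableSet_Ioc).mpr (Eventually.of_forall ?_)
        intro t ht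
        have ht1 : 1 ≤ t := hYr.trans ht.1.le
        have ht0 : 0 < t := by linarith
        rw [norm_mul]
        have h2 : ‖∑ k ∈ Finset.Icc 0 ⌊t⌋₊, a k‖ ≤ Q * Real.sqrt t := by
          refine (hS0 _).trans ?_
          gcongr
          exact Nat.floor_le ht0.le
        calc ‖deriv (gw j s) t‖ * ‖∑ k ∈ Finset.Icc 0 ⌊t⌋₊, a k‖
            ≤ ((j + ‖s‖) * (D * t ^ (1 / 4 : ℝ)) * (t⁻¹) ^ 2) * (Q * Real.sqrt t) := by
              gcongr
              refine (gw_deriv_norm_le j hs ht1).trans ?_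
              gcongr
              exact pow_log_le j ht1
          _ = (j + ‖s‖) * D * Q * t ^ (-(5 / 4) : ℝ) := by
              have e : t ^ (-(5 / 4) : ℝ) = t ^ (1 / 4 : ℝ) * (t⁻¹) ^ 2 * Real.sqrt t := by
                rw [Real.sqrt_eq_rpow, ← Real.rpow_neg_one t, ← Real.rpow_natCast,
                  ← Real.rpow_mul ht0.le, ← Real.rpow_add ht0, ← Real.rpow_add ht0]
                norm_num
              rw [e]
              ring
    refine h1.trans ?_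
    have h2 : ∫ t in Set.Ioc (Y : ℝ) M, (j + ‖s‖) * D * Q * t ^ (-(5 / 4) : ℝ) ≤
        ∫ t in Set.Ioi (Y : ℝ), (j + ‖s‖) * D * Q * t ^ (-(5 / 4) : ℝ) := by
      apply MeasureTheory.setIntegral_mono_set hgi
      · refine (MeasureTheory.ae_restrict_iff' measurableSet_Ioi).mpr (Eventually.of_forall ?_)
        intro t ht
        have ht0 : 0 < t := lt_trans hY0 ht
        simp only [Pi.zero_apply]
        positivity
      · exact Set.Ioc_subset_Ioi_self.eventuallyLE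
    refine h2.trans (le_of_eq ?_)
    rw [MeasureTheory.integral_const_mul, integral_Ioi_rpow_of_lt (by norm_num) hY0]
    norm_num
    left
    ring
  calc _ ≤ ‖gw j s M * ∑ k ∈ Finset.Icc 0 M, a k - gw j s Y * ∑ k ∈ Finset.Icc 0 Y, a k‖ +
        ‖∫ t in Set.Ioc (Y : ℝ) M, deriv (gw j s) t * ∑ k ∈ Finset.Icc 0 ⌊t⌋₊, a k‖ :=
        norm_sub_le _ _
    _ ≤ (D * Q * (Y : ℝ) ^ (-(1 / 4) : ℝ) + D * Q * (Y : ℝ) ^ (-(1 / 4) : ℝ)) +
        (j + ‖s‖) * D * Q * (4 * (Y : ℝ) ^ (-(1 / 4) : ℝ)) := by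
        gcongr
        refine (norm_sub_le _ _).trans (add_le_add (hbd M hYM) (hbd Y le_rfl))
    _ = _ := by ring

/-- the head of the series -/
lemma head_bound (j : ℕ) {a : ℕ → ℂ} {C : ℝ} (hC : 0 ≤ C)
    (ha : ∀ N : ℕ, ∑ n ∈ Finset.Icc 1 N, ‖a n‖ ≤ C * N) {s : ℂ} (hs : 1 ≤ s.re) (Y : ℕ) :
    ‖∑ n ∈ Finset.Icc 1 Y, gw j s n * a n‖ ≤ C * Real.log Y ^ j * (1 + Real.log Y) := by
  rcases Nat.eq_zero_or_pos Y with rfl | hY
  · simp only [Finset.Icc_eq_empty_of_lt one_pos, Finset.sum_empty, norm_zero, Nat.cast_zero,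
      Real.log_zero, add_zero, mul_one]
    positivity
  calc ‖∑ n ∈ Finset.Icc 1 Y, gw j s n * a n‖ ≤ ∑ n ∈ Finset.Icc 1 Y, ‖gw j s n * a n‖ :=
        norm_sum_le _ _
    _ ≤ ∑ n ∈ Finset.Icc 1 Y, Real.log Y ^ j * (‖a n‖ / n) := by
        refine Finset.sum_le_sum fun n hn => ?_
        rw [Finset.mem_Icc] at hn
        have h1 : (1 : ℝ) ≤ n := by exact_mod_cast hn.1
        have h2 : (n : ℝ) ≤ Y := by exact_mod_cast hn.2
        have hl : 0 ≤ Real.log n := Real.log_nonneg h1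
        have hl2 : Real.log n ≤ Real.log Y := Real.log_le_log (by linarith) h2
        unfold gw
        rw [norm_mul, norm_mul, norm_pow, Complex.norm_real, Real.norm_of_nonneg hl]
        calc Real.log n ^ j * ‖((n : ℝ) : ℂ) ^ (-s)‖ * ‖a n‖
            ≤ Real.log Y ^ j * ((n : ℝ))⁻¹ * ‖a n‖ := by
              gcongr
              exact norm_cpow_le hs h1
          _ = _ := by ring
    _ = Real.log Y ^ j * ∑ n ∈ Finset.Icc 1 Y, ‖a n‖ / n := by rw [Finset.mul_sum]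
    _ ≤ Real.log Y ^ j * (C * (1 + Real.log Y)) := by
        have : 0 ≤ Real.log Y := Real.log_natCast_nonneg Y
        gcongr
        exact sum_norm_div_le hC ha Y
    _ = _ := by ring

lemma term_eq (j : ℕ) (a : ℕ → ℂ) (s : ℂ) {n : ℕ} (hn : n ≠ 0) :
    LSeries.term (lp j a) s n = gw j s n * a n := by
  rw [LSeries.term_of_ne_zero hn]
  unfold lp gw
  rw [Complex.ofReal_natCast, Complex.cpow_neg, div_eq_mul_inv]
  ring

lemma half_le_log {Z : ℝ} (hZ : 2 ≤ Z) : 1 ≤ 2 * Real.log Z := by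
  have h1 : Real.log 2 ≤ Real.log Z := Real.log_le_log (by norm_num) hZ
  have h2 := Real.log_two_gt_d9
  linarith

/-- the constant in `deriv_bound` -/
def Cj (C : ℝ) (j : ℕ) : ℝ :=
  7 * 5 ^ j * C + 2 ^ (j + 1) * ((2 * 4 ^ j * j.factorial) * (4 * j + 6))

lemma Cj_nonneg {C : ℝ} (hC : 0 ≤ C) (j : ℕ) : 0 ≤ Cj C j := by
  unfold Cj
  positivity

/-- **(P2)** bounds for the derivatives of the L-series -/
theorem deriv_bound {a : ℕ → ℂ} (h0 : a 0 = 0) {C Q : ℝ} (hC : 0 ≤ C) (hQ : 1 ≤ Q)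
    (ha : ∀ N : ℕ, ∑ n ∈ Finset.Icc 1 N, ‖a n‖ ≤ C * N)
    (hS : ∀ N : ℕ, ‖∑ n ∈ Finset.Icc 1 N, a n‖ ≤ Q * Real.sqrt N) (j : ℕ) {s : ℂ}
    (hs : 1 < s.re) (hs2 : s.re ≤ 2) :
    ‖iteratedDeriv j (LSeries a) s‖ ≤ Cj C j * Real.log (Q * (|s.im| + 2)) ^ (j + 1) := by
  set Z : ℝ := Q * (|s.im| + 2) with hZ
  have him : 0 ≤ |s.im| := abs_nonneg _
  have hZ2 : 2 ≤ Z := by rw [hZ]; nlinarith
  have hZ0 : 0 < Z := by linarith
  have hl := half_le_log hZ2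
  have hl0 : 0 < Real.log Z := by linarith
  -- summability
  have hO : (fun n : ℕ => ∑ k ∈ Finset.Icc 1 n, ‖a k‖) =O[atTop] fun n : ℕ => (n : ℝ) ^ (1 : ℝ) := by
    refine Asymptotics.IsBigO.of_bound C (Eventually.of_forall fun N => ?_)
    rw [Real.rpow_one, Real.norm_natCast, Real.norm_of_nonneg
      (Finset.sum_nonneg fun _ _ => norm_nonneg _)]
    exact ha N
  have hsum : ∀ z : ℂ, 1 < z.re → LSeriesSummable a z := fun z hz =>
    LSeriesSummable_of_sum_norm_bigO hO zero_le_one hz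
  have habs := abscissa_lt_of_summable hsum hs
  rw [LSeries_iteratedDeriv j habs, norm_mul, norm_pow, norm_neg, norm_one, one_pow, one_mul,
    logMul_iter]
  have hsj : LSeriesSummable (lp j a) s := by
    apply LSeriesSummable_of_abscissaOfAbsConv_lt_re
    rw [← logMul_iter, LSeries.absicssaOfAbsConv_logPowMul]
    exact habs
  -- partial sums
  have hpart : Tendsto (fun M : ℕ => ∑ n ∈ Finset.Icc 1 M, gw j s n * a n) atTop
      (𝓝 (LSeries (lp j a) s)) := by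
    have h1 := hsj.hasSum.tendsto_sum_nat
    have h2 := (tendsto_add_atTop_iff_nat 1).mpr h1
    refine h2.congr fun M => ?_
    rw [Finset.range_eq_Ico, ← Finset.sum_erase_add _ _ (show 0 ∈ Finset.Ico 0 (M + 1) by simp),
      LSeries.term_zero, add_zero]
    refine Finset.sum_congr ?_ fun n hn => ?_
    · ext n
      simp only [Finset.mem_erase, Finset.mem_Ico, Finset.mem_Icc]
      omega
    · exact term_eq j a s (by simp only [Finset.mem_Icc] at hn; omega)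
  -- the truncation point
  set Y : ℕ := ⌈Z ^ 4⌉₊ with hY
  have hYZ : Z ^ 4 ≤ Y := Nat.le_ceil _
  have hZ4 : (16 : ℝ) ≤ Z ^ 4 := by
    calc (16 : ℝ) = 2 ^ 4 := by norm_num
      _ ≤ Z ^ 4 := by gcongr
  have hYZ2 : (Y : ℝ) ≤ Z ^ 5 := by
    have h1 := (Nat.ceil_lt_add_one (show 0 ≤ Z ^ 4 by positivity)).le
    calc (Y : ℝ) ≤ Z ^ 4 + 1 := h1
      _ ≤ Z ^ 4 * 2 := by linarith
      _ ≤ Z ^ 4 * Z := by gcongr
      _ = Z ^ 5 := by ring
  have hY1r : (1 : ℝ) ≤ Y := by linarith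
  have hY1 : 1 ≤ Y := by exact_mod_cast hY1r
  have hY0 : (0 : ℝ) < Y := by linarith
  have hlY : Real.log Y ≤ 5 * Real.log Z := by
    calc Real.log Y ≤ Real.log (Z ^ 5) := Real.log_le_log hY0 hYZ2
      _ = _ := by rw [Real.log_pow]; norm_num
  have hlY0 : 0 ≤ Real.log Y := Real.log_nonneg hY1r
  have hYpow : (Y : ℝ) ^ (-(1 / 4) : ℝ) ≤ Z⁻¹ := by
    calc (Y : ℝ) ^ (-(1 / 4) : ℝ) ≤ (Z ^ 4) ^ (-(1 / 4) : ℝ) :=
          Real.rpow_le_rpow_of_nonpos (by positivity) hYZ (by norm_num)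
      _ = Z⁻¹ := by
          rw [← Real.rpow_natCast, ← Real.rpow_mul hZ0.le, ← Real.rpow_neg_one]
          norm_num
  have hsn : ‖s‖ ≤ |s.im| + 2 := by
    have := Complex.norm_le_abs_re_add_abs_im s
    rw [abs_of_pos (show 0 < s.re by linarith)] at this
    linarith
  set D : ℝ := 2 * 4 ^ j * j.factorial with hD
  have hD0 : 0 ≤ D := by positivity
  -- bound for all partial sums
  have hb : ∀ M : ℕ, Y ≤ M → ‖∑ n ∈ Finset.Icc 1 M, gw j s n * a n‖ ≤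
      Cj C j * Real.log Z ^ (j + 1) := by
    intro M hM
    have e : ∑ n ∈ Finset.Icc 1 M, gw j s n * a n = ∑ n ∈ Finset.Icc 1 Y, gw j s n * a n +
        ∑ n ∈ Finset.Ioc Y M, gw j s n * a n := by
      have h1 : ∀ N : ℕ, Finset.Icc 1 N = Finset.Ioc 0 N := fun N => rfl
      rw [h1, h1, Finset.sum_Ioc_consecutive _ (Nat.zero_le Y) hM]
    rw [e]
    have t1 := head_bound j hC ha hs.le Y
    have t2 := tail_bound j h0 (by linarith) hS hs.le hY1 hM
    have b1 : C * Real.log Y ^ j * (1 + Real.log Y) ≤ 7 * 5 ^ j * C * Real.log Z ^ (j + 1) := by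
      calc C * Real.log Y ^ j * (1 + Real.log Y)
          ≤ C * (5 * Real.log Z) ^ j * (7 * Real.log Z) := by
            gcongr
            linarith
        _ = _ := by ring
    have b2 : D * Q * (2 + 4 * (j + ‖s‖)) * (Y : ℝ) ^ (-(1 / 4) : ℝ) ≤
        2 ^ (j + 1) * (D * (4 * j + 6)) * Real.log Z ^ (j + 1) := by
      have c1 : Q * (2 + 4 * (j + ‖s‖)) ≤ (4 * j + 6) * Z := by
        have hj : (0 : ℝ) ≤ j := Nat.cast_nonneg j
        have : 2 + 4 * (j + ‖s‖) ≤ (4 * j + 6) * (|s.im| + 2) := by nlinarith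
        calc Q * (2 + 4 * (j + ‖s‖)) ≤ Q * ((4 * j + 6) * (|s.im| + 2)) := by gcongr
          _ = _ := by rw [hZ]; ring
      have c2 : (1 : ℝ) ≤ (2 * Real.log Z) ^ (j + 1) := one_le_pow₀ hl
      calc D * Q * (2 + 4 * (j + ‖s‖)) * (Y : ℝ) ^ (-(1 / 4) : ℝ)
          = D * (Q * (2 + 4 * (j + ‖s‖))) * (Y : ℝ) ^ (-(1 / 4) : ℝ) := by ring
        _ ≤ D * ((4 * j + 6) * Z) * Z⁻¹ := by gcongr
        _ = D * (4 * j + 6) * 1 := by field_simp
        _ ≤ D * (4 * j + 6) * (2 * Real.log Z) ^ (j + 1) := by gcongr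
        _ = _ := by ring
    calc _ ≤ _ := norm_add_le _ _
      _ ≤ 7 * 5 ^ j * C * Real.log Z ^ (j + 1) +
          2 ^ (j + 1) * (D * (4 * j + 6)) * Real.log Z ^ (j + 1) :=
          add_le_add (t1.trans b1) (t2.trans b2)
      _ = _ := by unfold Cj; ring
  exact le_of_tendsto hpart.norm (eventually_atTop.mpr ⟨Y, hb⟩)

/-- (P2) for completely multiplicative `ψ` on primary elements -/
theorem deriv_bound_push {f : Eis → ℂ} (hf : ∀ b, IsPrim b → ‖f b‖ ≤ 1) {Q : ℝ} (hQ : 1 ≤ Q)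
    (hS : ∀ N : ℕ, ‖∑ b ∈ primBall N, f b‖ ≤ Q * Real.sqrt N) (j : ℕ) {s : ℂ}
    (hs : 1 < s.re) (hs2 : s.re ≤ 2) :
    ‖iteratedDeriv j (LSeries (push f)) s‖ ≤
      Cj 18 j * Real.log (Q * (|s.im| + 2)) ^ (j + 1) :=
  deriv_bound (push_zero f) (by norm_num) hQ (sum_norm_push_le hf)
    (fun N => by rw [sum_push]; exact hS N) j hs hs2

end Crest.Agent.R012.LDer47
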