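import Crest.Agent.R012.PInv_255
import Crest.Agent.R012.PSer_47

/-!
# Row 12, part (P): from von Mangoldt sums to sums over primary primes
-/

set_option autoImplicit false

open Complex

namespace Crest.Agent.R012.PLog255

open Crest.Agent.R012 Crest.Agent.R012.Eis PSer47

noncomputable section

/-- Abel summation with a nonnegative antitone weight. -/
theorem abel {a : ℕ → ℂ} {w : ℕ → ℝ} {M : ℕ} {B : ℝ} (N : ℕ) (hMN : M < N)
    (hw : ∀ n, M < n → w (n + 1) ≤ w n) (hw0 : ∀ n, M < n → 0 ≤ w n)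
    (hB : ∀ n, M < n → n ≤ N → ‖∑ m ∈ Finset.Ioc M n, a m‖ ≤ B) :
    ‖∑ n ∈ Finset.Ioc M N, (w n : ℂ) * a n‖ ≤ w (M + 1) * B := by
  have key : ∀ N, M < N → (∀ n, M < n → n ≤ N → ‖∑ m ∈ Finset.Ioc M n, a m‖ ≤ B) →
      ‖∑ n ∈ Finset.Ioc M N, (w n : ℂ) * a n - (w N : ℂ) * ∑ n ∈ Finset.Ioc M N, a n‖ ≤
        (w (M + 1) - w N) * B := by
    intro N hMN
    induction N, hMN using Nat.le_induction with
    | base =>
      intro _
      have : Finset.Ioc M (M + 1) = {M + 1} := by
        ext n; simp only [Finset.mem_Ioc, Finset.mem_singleton]; omega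
      rw [Nat.succ_eq_add_one, this]
      simp
    | succ N hMN ih =>
      intro hB
      have hMN' : M < N := hMN
      have h1 := ih (fun n h1 h2 => hB n h1 (by omega))
      rw [Finset.sum_Ioc_succ_top (by omega), Finset.sum_Ioc_succ_top (by omega)]
      have e : ∑ n ∈ Finset.Ioc M N, (w n : ℂ) * a n + (w (N + 1) : ℂ) * a (N + 1) -
          (w (N + 1) : ℂ) * (∑ n ∈ Finset.Ioc M N, a n + a (N + 1)) =
          (∑ n ∈ Finset.Ioc M N, (w n : ℂ) * a n - (w N : ℂ) * ∑ n ∈ Finset.Ioc M N, a n) +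
          ((w N - w (N + 1) : ℝ) : ℂ) * ∑ n ∈ Finset.Ioc M N, a n := by
        push_cast; ring
      rw [e]
      refine (norm_add_le _ _).trans ?_
      rw [norm_mul, Complex.norm_real, Real.norm_of_nonneg (by linarith [hw N hMN'])]
      have h2 := hB N hMN' (by omega)
      have h3 : (w N - w (N + 1)) * ‖∑ n ∈ Finset.Ioc M N, a n‖ ≤ (w N - w (N + 1)) * B :=
        mul_le_mul_of_nonneg_left h2 (by linarith [hw N hMN'])
      linarith
  have h1 := key N hMN hB
  have h2 := hB N hMN le_rfl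
  have h3 : ‖(w N : ℂ) * ∑ n ∈ Finset.Ioc M N, a n‖ ≤ w N * B := by
    rw [norm_mul, Complex.norm_real, Real.norm_of_nonneg (hw0 N hMN)]
    exact mul_le_mul_of_nonneg_left h2 (hw0 N hMN)
  have h4 := norm_sub_norm_le (∑ n ∈ Finset.Ioc M N, (w n : ℂ) * a n)
    ((w N : ℂ) * ∑ n ∈ Finset.Ioc M N, a n)
  linarith

open Classical in
/-- the primary primes of norm `≤ N` -/
def primes (N : ℕ) : Finset Eis := (primBall N).filter (fun p => Prime p)

theorem mem_primes {N : ℕ} {p : Eis} : p ∈ primes N ↔ nm p ≤ N ∧ IsPrim p ∧ Prime p := by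
  simp [primes, mem_primBall, and_assoc]

theorem primes_subset (N : ℕ) : primes N ⊆ primBall N := by
  classical
  exact Finset.filter_subset _ _

/-- number of proper prime powers -/
theorem card_pp_le (N : ℕ) (S : Finset Eis) (hS : ∀ b ∈ S, b ∈ primBall N ∧ IsPP b ∧ ¬ Prime b) :
    S.card ≤ 18 * Nat.sqrt N * Nat.log 2 N := by
  classical
  have hsub : S ⊆ (primBall (Nat.sqrt N) ×ˢ Finset.Icc 1 (Nat.log 2 N)).image
      (fun q => q.1 ^ q.2) := by
    intro b hb
    obtain ⟨h1, ⟨p, k, hp, hp', hk, rfl⟩, h3⟩ := hS b hb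
    rw [mem_primBall, nm_pow] at h1
    have hk2 : 2 ≤ k := by
      rcases Nat.eq_or_lt_of_le hk with h | h
      · exact absurd (by rw [← h, pow_one]; exact hp) h3
      · exact h
    have hp2 := two_le_nm_of_prime hp
    simp only [Finset.mem_image, Finset.mem_product, mem_primBall, Finset.mem_Icc, Prod.exists]
    refine ⟨p, k, ⟨⟨?_, hp'⟩, hk, ?_⟩, rfl⟩
    · rw [Nat.le_sqrt']
      exact (Nat.pow_le_pow_right (by omega) hk2).trans h1.1
    · have h4 : 2 ^ k ≤ N := (Nat.pow_le_pow_left hp2 k).trans h1.1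
      exact Nat.le_log_of_pow_le (by norm_num) h4
  refine (Finset.card_le_card hsub).trans (Finset.card_image_le.trans ?_)
  rw [Finset.card_product, Nat.card_Icc, Nat.add_sub_cancel]
  exact Nat.mul_le_mul_right _ (card_primBall_le' _)

theorem Lam_le {b : Eis} (hb : b ≠ 0) : Lam b ≤ Real.log (nm b) := by
  by_cases h : IsPP b
  · obtain ⟨p, k, hp, hp', hk, rfl⟩ := h
    rw [Lam_pow hp hp' hk, nm_pow]
    have h2 := two_le_nm_of_prime hp
    apply Real.log_le_log (by positivity)
    push_cast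
    have : (1 : ℝ) ≤ nm p := by exact_mod_cast (by omega : 1 ≤ nm p)
    exact le_self_pow₀ this (by omega)
  · rw [Lam_of_not h]
    exact Real.log_natCast_nonneg _

/-- proper prime powers contribute `O(√N log² N)` -/
theorem pp_sum (g : Eis → ℂ) (hg : ∀ b, IsPrim b → ‖g b‖ ≤ 1) (N : ℕ) (hN : 1 ≤ N) :
    ‖∑ b ∈ primBall N, (Lam b : ℂ) * g b - ∑ p ∈ primes N, (Real.log (nm p) : ℂ) * g p‖ ≤
      36 * Real.sqrt N * Real.log N ^ 2 := by
  classical
  have hl0 : 0 ≤ Real.log N := Real.log_natCast_nonneg N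
  have e1 : ∑ p ∈ primes N, (Real.log (nm p) : ℂ) * g p =
      ∑ b ∈ (primBall N).filter (fun p => Prime p), (Lam b : ℂ) * g b := by
    unfold primes
    refine Finset.sum_congr rfl fun p hp => ?_
    rw [Finset.mem_filter, mem_primBall] at hp
    rw [Lam_prime hp.2 hp.1.2]
  rw [e1, ← Finset.sum_filter_add_sum_filter_not (primBall N) (fun p => Prime p)
    (fun b => (Lam b : ℂ) * g b), add_sub_cancel_left]
  rw [← Finset.sum_filter_add_sum_filter_not ((primBall N).filter (fun p => ¬ Prime p))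
    (fun b => IsPP b) (fun b => (Lam b : ℂ) * g b)]
  have e2 : ∑ b ∈ ((primBall N).filter (fun p => ¬ Prime p)).filter (fun b => ¬ IsPP b),
      (Lam b : ℂ) * g b = 0 := by
    refine Finset.sum_eq_zero fun b hb => ?_
    rw [Finset.mem_filter] at hb
    rw [Lam_of_not hb.2]; simp
  rw [e2, add_zero]
  set S := ((primBall N).filter (fun p => ¬ Prime p)).filter (fun b => IsPP b) with hS
  have hc := card_pp_le N S (fun b hb => by
    rw [hS, Finset.mem_filter, Finset.mem_filter] at hb
    exact ⟨hb.1.1, hb.2, hb.1.2⟩)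
  have hc' : (S.card : ℝ) ≤ 18 * Real.sqrt N * (2 * Real.log N) := by
    have h1 : (S.card : ℝ) ≤ 18 * (Nat.sqrt N : ℝ) * (Nat.log 2 N : ℝ) := by exact_mod_cast hc
    have h2 : (Nat.sqrt N : ℝ) ≤ Real.sqrt N := Real.nat_sqrt_le_real_sqrt
    have h3 : (Nat.log 2 N : ℝ) ≤ 2 * Real.log N := by
      have h4 : (2 : ℝ) ^ (Nat.log 2 N) ≤ N := by exact_mod_cast Nat.pow_log_le_self 2 (by omega)
      have h5 := Real.log_le_log (by positivity) h4
      rw [Real.log_pow] at h5
      have h6 : (1 / 2 : ℝ) ≤ Real.log 2 := Crest.Agent.SW.log_half le_rfl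
      have h7 : (0 : ℝ) ≤ Nat.log 2 N := Nat.cast_nonneg _
      nlinarith
    refine h1.trans ?_
    gcongr
  calc ‖∑ b ∈ S, (Lam b : ℂ) * g b‖ ≤ ∑ b ∈ S, ‖(Lam b : ℂ) * g b‖ := norm_sum_le _ _
    _ ≤ ∑ _b ∈ S, Real.log N := by
        refine Finset.sum_le_sum fun b hb => ?_
        rw [hS, Finset.mem_filter, Finset.mem_filter, mem_primBall] at hb
        have h0 : b ≠ 0 := hb.1.1.2.ne_zero
        have h1 := Lam_le h0
        have h2 : Real.log (nm b) ≤ Real.log N :=
          Real.log_le_log (by exact_mod_cast nm_pos.mpr h0) (by exact_mod_cast hb.1.1.1)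
        have h3 := hg b hb.1.1.2
        rw [norm_mul, Complex.norm_real, Real.norm_of_nonneg (Lam_nonneg b)]
        have h4 := Lam_nonneg b
        nlinarith
    _ = S.card * Real.log N := by rw [Finset.sum_const, nsmul_eq_mul]
    _ ≤ 18 * Real.sqrt N * (2 * Real.log N) * Real.log N := by gcongr
    _ = _ := by ring

open Classical in
/-- `∑_{p primary prime, nm p = n} g p` -/
def cc (g : Eis → ℂ) (n : ℕ) : ℂ := push (fun b => if Prime b then g b else 0) n

theorem sum_cc (g : Eis → ℂ) (N : ℕ) : ∑ n ∈ Finset.Ioc 0 N, cc g n = ∑ p ∈ primes N, g p := by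
  classical
  have h := sum_push (fun b => if Prime b then g b else 0) N
  unfold cc
  rw [primes, Finset.sum_filter, ← h]
  rfl

theorem log_mul_cc (g : Eis → ℂ) (n : ℕ) :
    (Real.log n : ℂ) * cc g n = cc (fun b => (Real.log (nm b) : ℂ) * g b) n := by
  classical
  unfold cc push
  rw [Finset.mul_sum]
  refine Finset.sum_congr rfl fun b hb => ?_
  rw [mem_fib] at hb
  by_cases hp : Prime b
  · simp only [if_pos hp, hb.1]
  · simp only [if_neg hp, mul_zero]

theorem card_primes_le (N : ℕ) : ((primes N).card : ℝ) ≤ 18 * N := by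
  have h := (Finset.card_le_card (primes_subset N)).trans (card_primBall_le' N)
  exact_mod_cast h

theorem norm_sum_primes_le (g : Eis → ℂ) (hg : ∀ b, IsPrim b → ‖g b‖ ≤ 1) (N : ℕ) :
    ‖∑ p ∈ primes N, g p‖ ≤ 18 * N := by
  calc ‖∑ p ∈ primes N, g p‖ ≤ ∑ p ∈ primes N, ‖g p‖ := norm_sum_le _ _
    _ ≤ ∑ _p ∈ primes N, (1 : ℝ) :=
        Finset.sum_le_sum fun p hp => hg p (mem_primes.mp hp).2.1
    _ = (primes N).card := by simp
    _ ≤ 18 * N := card_primes_le N

/-- **Removal of the weight.** -/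
theorem primes_of_Lam (g : Eis → ℂ) (hg : ∀ b, IsPrim b → ‖g b‖ ≤ 1) (x B : ℝ) (hx : 2 ≤ x)
    (hB : ∀ n : ℕ, Real.sqrt x < n → (n : ℝ) ≤ x → ‖∑ b ∈ primBall n, (Lam b : ℂ) * g b‖ ≤ B) :
    ‖∑ p ∈ primes ⌊x⌋₊, g p‖ ≤ 4 * B + 400 * Real.sqrt x * (1 + Real.log x) ^ 2 := by
  have hx0 : 0 ≤ x := by linarith
  have hsx : 1 ≤ Real.sqrt x := by rw [Real.one_le_sqrt]; linarith
  have hlx : 1 / 2 ≤ Real.log x := Crest.Agent.SW.log_half hx
  set N := ⌊x⌋₊ with hN
  set M := ⌊Real.sqrt x⌋₊ with hM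
  have hNx : (N : ℝ) ≤ x := Nat.floor_le hx0
  have hMx : (M : ℝ) ≤ Real.sqrt x := Nat.floor_le (by linarith)
  have hM1 : 1 ≤ M := by rw [hM, Nat.one_le_floor_iff]; exact hsx
  have hxM : Real.sqrt x < M + 1 := Nat.lt_floor_add_one _
  have hsq : Real.sqrt x * Real.sqrt x = x := Real.mul_self_sqrt hx0
  have hMN : M ≤ N := Nat.floor_le_floor (by nlinarith)
  have hB0 : 0 ≤ B := by
    have h1 : Real.sqrt x < (N : ℝ) ∨ M = N := by
      rcases Nat.eq_or_lt_of_le hMN with h | h
      · right; exact h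
      · left
        have : (M : ℝ) + 1 ≤ N := by exact_mod_cast h
        linarith
    rcases h1 with h1 | h1
    · exact (norm_nonneg _).trans (hB N h1 hNx)
    · -- `M = N` is impossible for `x ≥ 2`
      exfalso
      have h2 : x < N + 1 := Nat.lt_floor_add_one _
      have h3 : (N : ℝ) = M := by rw [h1]
      have h4 : (2 : ℝ) ≤ N := by
        have : 2 ≤ N := by rw [hN]; exact Nat.le_floor (by exact_mod_cast hx)
        exact_mod_cast this
      nlinarith
  -- the two parts
  have hsplit : ∑ p ∈ primes N, g p = ∑ p ∈ primes M, g p + ∑ n ∈ Finset.Ioc M N, cc g n := by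
    rw [← sum_cc, ← sum_cc, Finset.sum_Ioc_consecutive _ (Nat.zero_le M) hMN]
  rw [hsplit]
  have h1 : ‖∑ p ∈ primes M, g p‖ ≤ 18 * Real.sqrt x :=
    (norm_sum_primes_le g hg M).trans (by linarith)
  have h2 : ‖∑ n ∈ Finset.Ioc M N, cc g n‖ ≤
      4 * (B + 36 * Real.sqrt x * Real.log x ^ 2 + 18 * Real.sqrt x * Real.log x) := by
    rcases Nat.eq_or_lt_of_le hMN with h | hlt
    · rw [h, Finset.Ioc_self, Finset.sum_empty, norm_zero]
      positivity
    have e : ∑ n ∈ Finset.Ioc M N, cc g n =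
        ∑ n ∈ Finset.Ioc M N, (((Real.log n)⁻¹ : ℝ) : ℂ) * ((Real.log n : ℂ) * cc g n) := by
      refine Finset.sum_congr rfl fun n hn => ?_
      have hn' := Finset.mem_Ioc.mp hn
      have h3 : 0 < Real.log n := Real.log_pos (by exact_mod_cast (by omega : 1 < n))
      rw [← mul_assoc, ← Complex.ofReal_mul, inv_mul_cancel₀ h3.ne', Complex.ofReal_one, one_mul]
    rw [e]
    have hpos : ∀ n, M < n → 0 < Real.log n := fun n hn =>
      Real.log_pos (by exact_mod_cast (by omega : 1 < n))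
    refine (abel (w := fun n => (Real.log n)⁻¹)
      (B := B + 36 * Real.sqrt x * Real.log x ^ 2 + 18 * Real.sqrt x * Real.log x) N hlt
      ?_ ?_ ?_).trans ?_
    · intro n hn
      have h3 := hpos n hn
      have h4 : Real.log n ≤ Real.log ((n + 1 : ℕ) : ℝ) :=
        Real.log_le_log (by exact_mod_cast (by omega : 0 < n)) (by push_cast; linarith)
      exact inv_anti₀ h3 h4
    · intro n hn
      exact (inv_pos.mpr (hpos n hn)).le
    · intro n hn1 hn2
      have hn1' : Real.sqrt x < n := by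
        have : (M : ℝ) + 1 ≤ n := by exact_mod_cast hn1
        linarith
      have hnx : (n : ℝ) ≤ x := le_trans (by exact_mod_cast hn2) hNx
      have e3 : ∑ m ∈ Finset.Ioc M n, (Real.log m : ℂ) * cc g m =
          ∑ p ∈ primes n, (Real.log (nm p) : ℂ) * g p -
            ∑ p ∈ primes M, (Real.log (nm p) : ℂ) * g p := by
        rw [← sum_cc, ← sum_cc, ← Finset.sum_Ioc_consecutive _ (Nat.zero_le M) hn1.le,
          add_sub_cancel_left]
        exact Finset.sum_congr rfl fun m _ => log_mul_cc g m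
      rw [e3]
      refine (norm_sub_le _ _).trans ?_
      have h4 : ‖∑ p ∈ primes n, (Real.log (nm p) : ℂ) * g p‖ ≤
          B + 36 * Real.sqrt x * Real.log x ^ 2 := by
        have h5 := pp_sum g hg n (by omega)
        have h6 := hB n hn1' hnx
        have h7 : ‖∑ p ∈ primes n, (Real.log (nm p) : ℂ) * g p‖ ≤
            ‖∑ b ∈ primBall n, (Lam b : ℂ) * g b‖ +
            ‖∑ b ∈ primBall n, (Lam b : ℂ) * g b -
              ∑ p ∈ primes n, (Real.log (nm p) : ℂ) * g p‖ := by
          have := norm_sub_le (∑ b ∈ primBall n, (Lam b : ℂ) * g b)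
            (∑ b ∈ primBall n, (Lam b : ℂ) * g b - ∑ p ∈ primes n, (Real.log (nm p) : ℂ) * g p)
          rwa [sub_sub_cancel] at this
        have hn0 : (0 : ℝ) < n := by linarith
        have h8 : Real.sqrt n ≤ Real.sqrt x := Real.sqrt_le_sqrt hnx
        have h9 : Real.log n ≤ Real.log x := Real.log_le_log hn0 hnx
        have h10 : 0 ≤ Real.log n := Real.log_natCast_nonneg n
        have h11 : 36 * Real.sqrt n * Real.log n ^ 2 ≤ 36 * Real.sqrt x * Real.log x ^ 2 := by
          gcongr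
        linarith
      have h5 : ‖∑ p ∈ primes M, (Real.log (nm p) : ℂ) * g p‖ ≤
          18 * Real.sqrt x * Real.log x := by
        calc ‖∑ p ∈ primes M, (Real.log (nm p) : ℂ) * g p‖
            ≤ ∑ p ∈ primes M, ‖(Real.log (nm p) : ℂ) * g p‖ := norm_sum_le _ _
          _ ≤ ∑ _p ∈ primes M, Real.log x := by
              refine Finset.sum_le_sum fun p hp => ?_
              rw [mem_primes] at hp
              have h6 : 0 ≤ Real.log (nm p) := Real.log_natCast_nonneg _
              have h7 : Real.log (nm p) ≤ Real.log x := by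
                apply Real.log_le_log
                · exact_mod_cast nm_pos.mpr hp.2.1.ne_zero
                · have : (nm p : ℝ) ≤ M := by exact_mod_cast hp.1
                  nlinarith
              have h8 := hg p hp.2.1
              rw [norm_mul, Complex.norm_real, Real.norm_of_nonneg h6]
              nlinarith
          _ = (primes M).card * Real.log x := by rw [Finset.sum_const, nsmul_eq_mul]
          _ ≤ 18 * M * Real.log x := by
              gcongr
              exact card_primes_le M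
          _ ≤ 18 * Real.sqrt x * Real.log x := by gcongr
      linarith
    · have h3 : (Real.log ((M + 1 : ℕ) : ℝ))⁻¹ ≤ 4 := by
        have h4 : Real.log x ≤ 2 * Real.log ((M + 1 : ℕ) : ℝ) := by
          have h5 : Real.log x = 2 * Real.log (Real.sqrt x) := by
            rw [Real.log_sqrt hx0]; ring
          rw [h5]
          have h6 : Real.log (Real.sqrt x) ≤ Real.log ((M + 1 : ℕ) : ℝ) :=
            Real.log_le_log (by linarith) (by push_cast; linarith)
          linarith
        have h5 : 1 / 4 ≤ Real.log ((M + 1 : ℕ) : ℝ) := by linarith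
        calc (Real.log ((M + 1 : ℕ) : ℝ))⁻¹ ≤ (1 / 4)⁻¹ := inv_anti₀ (by norm_num) h5
          _ = 4 := by norm_num
      exact mul_le_mul_of_nonneg_right h3 (by positivity)
  refine (norm_add_le _ _).trans ?_
  have h3 : 0 ≤ Real.sqrt x := by linarith
  have h4 : 18 * Real.sqrt x +
      4 * (B + 36 * Real.sqrt x * Real.log x ^ 2 + 18 * Real.sqrt x * Real.log x) ≤
      4 * B + 400 * Real.sqrt x * (1 + Real.log x) ^ 2 := by
    have h5 : 0 ≤ Real.sqrt x * (382 + 728 * Real.log x + 256 * Real.log x ^ 2) := by positivity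
    nlinarith
  linarith

end

end Crest.Agent.R012.PLog255
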