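import Crest.Agent.R012.PSW_255
import Crest.Agent.R012.PLog_255
import Crest.Agent.R012.LDer_47
import Crest.Agent.R012.PFinal_355

/-!
# Row 12, part (P): Siegel–Walfisz over `ℤ[ω]`, unconditional abstract form

* `SW_Lam'` : von Mangoldt weight
* `PT` : `P355.PT_Prop` (sum over primary primes)
* `SW_twisted` : the form for `χ * ang l * nm^{it}`, `χ` periodic.
-/

set_option autoImplicit false

open Complex

namespace Crest.Agent.R012.PT255

open Crest.Agent.R012 Crest.Agent.R012.Eis PSer47 PSW255 PLog255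

noncomputable section

theorem p2Prop : P2Prop := fun j => by
  refine ⟨max 1 (LDer47.Cj 18 j), le_max_left _ _, ?_⟩
  intro ψ Q hψ hQ hS s h1 h2
  refine (LDer47.deriv_bound_push (fun b hb => hψ.norm_le hb) hQ hS j h1 h2).trans ?_
  have h0 : 0 ≤ Real.log (Q * (|s.im| + 2)) := Real.log_nonneg (by nlinarith [abs_nonneg s.im])
  gcongr
  exact le_max_right _ _

theorem p2One : P2One := by
  refine ⟨36, by norm_num, fun x h1 h2 => ?_⟩
  have := LSer47.norm_LSeries_push_le (f := fun _ => 1) (s := (x : ℂ)) (fun b _ => by simp)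
    (by simpa using h1) (by simpa using h2)
  simpa using this

/-- **Siegel–Walfisz over `ℤ[ω]` with von Mangoldt weight** (abstract form) -/
theorem SW_Lam' (A C : ℕ) : ∃ K : ℝ, 0 < K ∧
    ∀ (ψ : Eis → ℂ) (Q : ℝ), IsChar ψ → 1 ≤ Q →
    (∀ N : ℕ, ‖∑ b ∈ primBall N, ψ b‖ ≤ Q * Real.sqrt N) →
    (∀ N : ℕ, ‖∑ b ∈ primBall N, ψ b ^ 2‖ ≤ Q * Real.sqrt N) →
    ∀ (t x : ℝ), 2 ≤ x → Q * (|t| + 2) ≤ Real.log x ^ C →
      ‖∑ b ∈ primBall ⌊x⌋₊, (Lam b : ℂ) * ψ b * (nm b : ℂ) ^ (t * I)‖ ≤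
        K * x / Real.log x ^ A :=
  SW_Lam p2Prop p2One A C

/-- `√x (1 + log x)^2 ≤ c x / (log x)^A` -/
theorem sqrt_le (A : ℕ) : ∃ c : ℝ, 0 < c ∧ ∀ x : ℝ, 2 ≤ x →
    Real.sqrt x * (1 + Real.log x) ^ 2 ≤ c * x / Real.log x ^ A := by
  obtain ⟨c, hc, h⟩ := PInv255.one_add_log_pow_le (A + 2) (1 / 2) (by norm_num)
  refine ⟨c, by linarith, fun x hx => ?_⟩
  have hl : 0 < Real.log x := by linarith [Crest.Agent.SW.log_half hx]
  have h1 := h x (by linarith)
  rw [← Real.sqrt_eq_rpow] at h1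
  rw [le_div_iff₀ (by positivity)]
  have h2 : Real.log x ^ A ≤ (1 + Real.log x) ^ A := by gcongr; linarith
  have hs : Real.sqrt x * Real.sqrt x = x := Real.mul_self_sqrt (by linarith)
  have h3 : 0 ≤ Real.sqrt x := Real.sqrt_nonneg x
  calc Real.sqrt x * (1 + Real.log x) ^ 2 * Real.log x ^ A
      ≤ Real.sqrt x * (1 + Real.log x) ^ 2 * (1 + Real.log x) ^ A := by gcongr
    _ = Real.sqrt x * (1 + Real.log x) ^ (A + 2) := by ring
    _ ≤ Real.sqrt x * (c * Real.sqrt x) := by gcongr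
    _ = c * (Real.sqrt x * Real.sqrt x) := by ring
    _ = c * x := by rw [hs]

/-- **Siegel–Walfisz over `ℤ[ω]` for primary primes** (abstract form, `P355.PT_Prop`) -/
theorem PT : P355.PT_Prop := by
  intro A C
  obtain ⟨K, hK, h⟩ := SW_Lam' A (C + 1)
  obtain ⟨c, hc, hcx⟩ := sqrt_le A
  set L0 : ℝ := 2 ^ (C + 1) with hL0
  have hL01 : 1 ≤ L0 := one_le_pow₀ (by norm_num)
  refine ⟨18 * L0 ^ A + 4 * (K * 2 ^ A) + 400 * c, by positivity, ?_⟩
  intro ψ Q hψ hQ hS hS2 x t hx hQx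
  have hx0 : 0 < x := by linarith
  have hl : 1 / 2 ≤ Real.log x := Crest.Agent.SW.log_half hx
  have hl0 : 0 < Real.log x := by linarith
  have hlA : 0 < Real.log x ^ A := by positivity
  have ht := abs_nonneg t
  have hg : ∀ b, IsPrim b → ‖ψ b * (nm b : ℂ) ^ ((t : ℂ) * I)‖ ≤ 1 :=
    fun b hb => (hψ.mul' (nmTwist_isChar t)).norm_le hb
  change ‖∑ p ∈ primes ⌊x⌋₊, ψ p * (nm p : ℂ) ^ ((t : ℂ) * I)‖ ≤ _
  rcases lt_or_ge (Real.log x) L0 with hsm | hlg
  · have h1 := norm_sum_primes_le _ hg ⌊x⌋₊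
    have h2 : (⌊x⌋₊ : ℝ) ≤ x := Nat.floor_le hx0.le
    refine h1.trans ?_
    rw [le_div_iff₀ hlA]
    have h3 : Real.log x ^ A ≤ L0 ^ A := by gcongr
    calc 18 * (⌊x⌋₊ : ℝ) * Real.log x ^ A ≤ 18 * x * L0 ^ A := by gcongr
      _ = 18 * L0 ^ A * x := by ring
      _ ≤ (18 * L0 ^ A + 4 * (K * 2 ^ A) + 400 * c) * x := by
          gcongr
          have : 0 < 4 * (K * 2 ^ A) := by positivity
          linarith
  · have hB : ∀ n : ℕ, Real.sqrt x < n → (n : ℝ) ≤ x →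
        ‖∑ b ∈ primBall n, (Lam b : ℂ) * (ψ b * (nm b : ℂ) ^ ((t : ℂ) * I))‖ ≤
          K * 2 ^ A * x / Real.log x ^ A := by
      intro n hn1 hn2
      have hsx : 1 ≤ Real.sqrt x := by rw [Real.one_le_sqrt]; linarith
      have hn0 : (0 : ℝ) < n := by linarith
      have hlog : Real.log x / 2 ≤ Real.log n := by
        rw [← Real.log_sqrt hx0.le]
        exact Real.log_le_log (by linarith) hn1.le
      have hn2' : (2 : ℝ) ≤ n := by
        have h1 : (1 : ℝ) < n := by linarith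
        have h2 : 1 < n := by exact_mod_cast h1
        exact_mod_cast h2
      have hln : 2 ^ C ≤ Real.log n := by
        have : L0 = 2 * 2 ^ C := by rw [hL0]; ring
        linarith
      have hln0 : 0 < Real.log n := by linarith [Crest.Agent.SW.log_half hn2']
      have hcond : Q * (|t| + 2) ≤ Real.log n ^ (C + 1) := by
        calc Q * (|t| + 2) ≤ Real.log x ^ C := hQx
          _ ≤ (2 * Real.log n) ^ C := by gcongr; linarith
          _ = 2 ^ C * Real.log n ^ C := mul_pow _ _ _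
          _ ≤ Real.log n * Real.log n ^ C := by gcongr
          _ = Real.log n ^ (C + 1) := by ring
      have key := h ψ Q hψ hQ hS hS2 t n hn2' hcond
      rw [Nat.floor_natCast] at key
      have e : ∑ b ∈ primBall n, (Lam b : ℂ) * (ψ b * (nm b : ℂ) ^ ((t : ℂ) * I)) =
          ∑ b ∈ primBall n, (Lam b : ℂ) * ψ b * (nm b : ℂ) ^ ((t : ℂ) * I) :=
        Finset.sum_congr rfl fun b _ => by ring
      rw [e]
      refine key.trans ?_
      rw [div_le_div_iff₀ (by positivity) hlA]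
      have h5 : Real.log x ^ A ≤ 2 ^ A * Real.log n ^ A := by
        rw [← mul_pow]
        gcongr
        linarith
      calc K * n * Real.log x ^ A ≤ K * x * (2 ^ A * Real.log n ^ A) := by gcongr
        _ = K * 2 ^ A * x * Real.log n ^ A := by ring
    have hfin := primes_of_Lam _ hg x _ hx hB
    refine hfin.trans ?_
    have h6 := hcx x hx
    have h7 : 400 * Real.sqrt x * (1 + Real.log x) ^ 2 ≤ 400 * (c * x / Real.log x ^ A) := by
      calc 400 * Real.sqrt x * (1 + Real.log x) ^ 2 =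
          400 * (Real.sqrt x * (1 + Real.log x) ^ 2) := by ring
        _ ≤ _ := by gcongr
    have h8 : 4 * (K * 2 ^ A * x / Real.log x ^ A) + 400 * (c * x / Real.log x ^ A) ≤
        (18 * L0 ^ A + 4 * (K * 2 ^ A) + 400 * c) * x / Real.log x ^ A := by
      have e : (18 * L0 ^ A + 4 * (K * 2 ^ A) + 400 * c) * x / Real.log x ^ A =
          18 * L0 ^ A * x / Real.log x ^ A + (4 * (K * 2 ^ A * x / Real.log x ^ A) +
            400 * (c * x / Real.log x ^ A)) := by ring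
      rw [e]
      have : 0 ≤ 18 * L0 ^ A * x / Real.log x ^ A := by positivity
      linarith
    linarith

open Classical in
/-- Siegel–Walfisz for `χ * ang l * nm^{it}`, `χ` periodic modulo `M ≤ (log x)^C`. -/
theorem SW_twisted (l : ℤ) (A C : ℕ) : ∃ K : ℝ, 0 < K ∧ ∀ (M : ℕ) (χ : Eis → ℂ),
    0 < M → 3 ∣ M → IsChar χ →
    (∀ a b, IsPrim a → IsPrim b → (M : Eis) ∣ a - b → χ a = χ b) →
    (l = 0 → ∃ a, IsPrim a ∧ IsCoprime a (M : Eis) ∧ χ a ≠ 1 ∧ χ a ^ 2 ≠ 1) →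
    ∀ x t : ℝ, 2 ≤ x → (M : ℝ) ≤ Real.log x ^ C → |t| ≤ Real.log x ^ C →
      ‖∑ p ∈ (primBall ⌊x⌋₊).filter (fun p => Prime p),
        χ p * ang l p * (nm p : ℂ) ^ ((t : ℂ) * I)‖ ≤ K * x / Real.log x ^ A :=
  P355.SW_of_PT PT l A C

end

end Crest.Agent.R012.PT255
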