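import Crest.Agent.R012.SWBcore_994
import Crest.Agent.R012.PSW_355
import Crest.Agent.R012.PT_255
import Crest.Agent.R012.SpecMain_48

/-!
# Row 12, item SWB (helper994): Siegel–Walfisz for coefficients of class `Main48.SWc`

`SWB_disj`, `SWB` : for `β` of class `SWc`, supported on nonempty sets of primary primes of norm
`≥ w`, `log X ≤ (log w)²`, `h` not a cube (or `l ≠ 0`), `nm h, |t|, log nm k ≤ (log X)^C`, `n ≤ X`:

`|∑_{nm b ≤ n, (b, k) = 1} β_b (h/b) ang l b nm(b)^{it}| ≤ K n / (log X)^A`.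
-/

set_option autoImplicit false

noncomputable section

open Complex

namespace Crest.Agent.R012.SWB994

open Crest.Agent.R012 Eis Buch420 PSer47

lemma ClsB.of_SWc {w : ℝ} {β : Finset PrP → ℂ} (h : Main48.SWc β)
    (hs : ∀ T, β T ≠ 0 → T.Nonempty ∧ ∀ p ∈ T, w ≤ (nm p.1 : ℝ)) : ClsB w β where
  empty := by
    by_contra hc
    exact Finset.not_nonempty_empty (hs _ hc).1
  rough T hT := (hs T hT).2
  ex := h.int

/-- A completely multiplicative function on `prd T`. -/
lemma prod_char {ψ : Eis → ℂ} (h : IsChar ψ) (T : Finset PrP) : ∏ p ∈ T, ψ p.1 = ψ (prd T) := by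
  classical
  induction T using Finset.induction_on with
  | empty => simp [h.one]
  | insert p T hp ih =>
    rw [Finset.prod_insert hp, prd_insert hp, h.mul _ _ p.isPrim (isPrim_prd T), ih]

open Classical in
lemma sum_UX (f : Eis → ℂ) (m : ℕ) :
    ∑ p ∈ UX m, f p.1 = ∑ p ∈ (primBall m).filter (fun p => Prime p), f p := by
  have h1 : (UX m).image (fun p : PrP => p.1) = (primBall m).filter (fun p => Prime p) := by
    ext z
    rw [Finset.mem_image, Finset.mem_filter, mem_primBall]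
    constructor
    · rintro ⟨p, hp, rfl⟩
      exact ⟨⟨mem_UX.mp hp, p.isPrim⟩, p.prime⟩
    · rintro ⟨⟨h1, h2⟩, h3⟩
      exact ⟨⟨z, h2, h3⟩, mem_UX.mpr h1, rfl⟩
  rw [← h1]
  exact (Finset.sum_image (f := f) (g := fun p : PrP => p.1) (s := UX m)
    (fun a _ b _ h => Subtype.ext h)).symm

lemma isCoprime_prd_iff {T : Finset PrP} {k : Eis} (hk : k ≠ 0) :
    IsCoprime (prd T) k ↔ Disjoint T (pset k) := by
  unfold prd
  rw [IsCoprime.prod_left_iff, Finset.disjoint_left]
  refine forall₂_congr fun p _ => ?_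
  rw [mem_pset hk, (p.prime.irreducible.coprime_iff_not_dvd)]

/-- `#{p ∣ k} ≤ log (nm k)` -/
lemma card_pset_le {k : Eis} (hk : k ≠ 0) : ((pset k).card : ℝ) ≤ Real.log (nm k) := by
  have h1 : prd (pset k) ∣ k := by
    unfold prd
    refine Finset.prod_dvd_of_coprime ?_ ?_
    · intro p _ q _ hpq
      refine (p.prime.irreducible.coprime_iff_not_dvd).mpr ?_
      rw [PrP.dvd_iff_eq]; exact hpq
    · intro p hp; exact (mem_pset hk).mp hp
  have h2 := nm_le_of_dvd' hk h1
  have h3 : (3 : ℝ) ^ (pset k).card ≤ nm (prd (pset k)) := by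
    rw [Dens420.nm_prd]
    rw [← Finset.prod_const]
    refine Finset.prod_le_prod (fun _ _ => by norm_num) fun p _ => ?_
    have := Dens420.four_le_nm p
    have h4 : (4 : ℝ) ≤ nm p.1 := by exact_mod_cast this
    linarith
  have h4 : (3 : ℝ) ^ (pset k).card ≤ nm k := h3.trans (by exact_mod_cast h2)
  have h5 := Real.log_le_log (by positivity) h4
  rw [Real.log_pow] at h5
  have h6 : (1 : ℝ) ≤ Real.log 3 := by
    rw [Real.le_log_iff_exp_le (by norm_num)]
    have := Real.exp_one_lt_d9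
    linarith
  nlinarith [Nat.cast_nonneg (α := ℝ) (pset k).card]

/-- `x^(2 N) ≤ (2N)! e^x` in the form needed -/
lemma pow_le_exp {L v : ℝ} (hL : 0 ≤ L) (hv : 0 ≤ v) (h : L ≤ v ^ 2) (N : ℕ) :
    L ^ N ≤ (2 * N).factorial * Real.exp v := by
  have h1 : L ^ N ≤ v ^ (2 * N) := by
    rw [pow_mul]
    exact pow_le_pow_left₀ hL h N
  have h2 := Real.pow_div_factorial_le_exp v hv (2 * N)
  rw [div_le_iff₀ (by positivity)] at h2
  linarith

set_option maxHeartbeats 1600000 in
/-- **Siegel–Walfisz for the class `SWc`**, coprimality to a set `K` of primes. -/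
theorem SWB_disj (l : ℤ) (A C : ℕ) : ∃ K : ℝ, 0 < K ∧ ∀ (X w : ℝ) (β : Finset PrP → ℂ),
    2 ≤ X → 1 ≤ w → Real.log X ≤ Real.log w ^ 2 → Main48.SWc β →
    (∀ T, β T ≠ 0 → T.Nonempty ∧ ∀ p ∈ T, w ≤ (nm p.1 : ℝ)) →
    ∀ (h : Eis) (Kp : Finset PrP) (t : ℝ) (n : ℕ), h ≠ 0 → (l = 0 → ¬ ∃ e, h = e ^ 3) →
      (nm h : ℝ) ≤ Real.log X ^ C → (Kp.card : ℝ) ≤ Real.log X ^ C → |t| ≤ Real.log X ^ C →
      (n : ℝ) ≤ X →
      ‖∑ T ∈ (TB n).filter (fun T => Disjoint T Kp),
        β T * (sy h (prd T) * ang l (prd T) * (nm (prd T) : ℂ) ^ ((t : ℂ) * I))‖ ≤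
        K * n / Real.log X ^ A := by
  obtain ⟨K0, hK0, hSW⟩ := P355.SW_sy_of_PT PT255.PT l (3 * (A + 2)) (3 * C)
  set K : ℝ := 12 * 64 ^ A + 2 * K0 * Real.exp 75 + 12 * (2 * (A + C)).factorial +
    24 * 77 * (2 * (A + 1)).factorial with hK
  refine ⟨K, by positivity, ?_⟩
  intro X w β hX hw hXw hβ hsupp h Kp t n h0 hh hhX hKp ht hnX
  set L := Real.log X with hL
  have hL0 : 0 < L := Real.log_pos (by linarith)
  set ψ : Eis → ℂ := fun b => sy h b * ang l b * (nm b : ℂ) ^ ((t : ℂ) * I) with hψ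
  have hchar : IsChar ψ := ((P355.isChar_sy h).mul' (ang_isChar l)).mul' (nmTwist_isChar t)
  have hcls : ClsB w β := ClsB.of_SWc hβ hsupp
  have hrew : ∑ T ∈ (TB n).filter (fun T => Disjoint T Kp),
        β T * (sy h (prd T) * ang l (prd T) * (nm (prd T) : ℂ) ^ ((t : ℂ) * I)) =
      ∑ T ∈ (TB n).filter (fun T => Disjoint T Kp), β T * ∏ p ∈ T, ψ p.1 := by
    refine Finset.sum_congr rfl fun T _ => ?_
    rw [prod_char hchar]
  rw [hrew]
  have hψ1 : ∀ p : PrP, ‖ψ p.1‖ ≤ 1 := fun p => hchar.norm_le p.isPrim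
  rcases lt_or_ge L 64 with hsm | hlg
  · -- trivial bound
    have h1 : ‖∑ T ∈ (TB n).filter (fun T => Disjoint T Kp), β T * ∏ p ∈ T, ψ p.1‖ ≤
        ((TB n).filter (fun T => Disjoint T Kp)).card := by
      refine (norm_sum_le_of_le _ (n := fun _ => 1) ?_).trans (by simp)
      intro T _
      rw [prod_char hchar, norm_mul]
      calc ‖β T‖ * ‖ψ (prd T)‖ ≤ 1 * 1 := by
            gcongr
            · exact hcls.norm_le T
            · exact hchar.norm_le (isPrim_prd T)
        _ = 1 := by norm_num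
    have h2 : (((TB n).filter (fun T => Disjoint T Kp)).card : ℝ) ≤ 12 * n / 1 := by
      refine card_le _ n one_pos fun T hT => ?_
      rw [Finset.mem_filter, mem_TB] at hT
      rw [mul_one]
      exact_mod_cast hT.1
    rw [div_one] at h2
    refine (h1.trans h2).trans ?_
    rw [le_div_iff₀ (by positivity)]
    have h3 : L ^ A ≤ 64 ^ A := pow_le_pow_left₀ hL0.le hsm.le A
    have h4 : 12 * 64 ^ A ≤ K := by
      rw [hK]
      have : 0 ≤ 2 * K0 * Real.exp 75 + 12 * (2 * (A + C)).factorial +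
        24 * 77 * (2 * (A + 1)).factorial := by positivity
      linarith
    calc 12 * (n : ℝ) * L ^ A ≤ 12 * n * 64 ^ A := by gcongr
      _ = 12 * 64 ^ A * n := by ring
      _ ≤ K * n := by gcongr
  · -- main case
    set v := Real.log w with hv
    have hv0 : 0 ≤ v := Real.log_nonneg hw
    have hv8 : 8 ≤ v := by nlinarith
    have hw0 : 0 < w := by linarith
    have hwexp : Real.exp v = w := Real.exp_log hw0
    have hv3 : v ^ 2 ≤ (v / 2) ^ 3 := by
      have : (v / 2) ^ 3 - v ^ 2 = v ^ 2 * (v - 8) / 8 := by ring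
      have h1 : 0 ≤ v ^ 2 * (v - 8) / 8 := by
        have : 0 ≤ v - 8 := by linarith
        positivity
      linarith
    have hL3 : L ≤ (v / 2) ^ 3 := hXw.trans hv3
    have hw2 : 2 ≤ w := by
      rw [← hwexp]
      have := Real.add_one_le_exp v
      linarith
    have hS : ∀ m : ℕ, w ≤ (m : ℝ) + 1 → m ≤ n →
        ‖∑ p ∈ UX m, ψ p.1‖ ≤ K0 / L ^ (A + 2) * m := by
      intro m hm hmn
      have hm1 : w / 2 ≤ m := by linarith
      have hlogm : v / 2 ≤ Real.log m := by
        have h1 : Real.log (w / 2) ≤ Real.log m := Real.log_le_log (by linarith) hm1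
        rw [Real.log_div hw0.ne' (by norm_num)] at h1
        have h2 := Real.log_two_lt_d9
        rw [← hv] at h1
        linarith
      have hlogm3 : L ≤ Real.log m ^ 3 := hL3.trans (pow_le_pow_left₀ (by linarith) hlogm 3)
      have hm2 : (2 : ℝ) ≤ m := by
        have h9 : (9 : ℝ) ≤ w := by
          rw [← hwexp]
          have := Real.add_one_le_exp v
          linarith
        linarith
      have hLC : L ^ C ≤ Real.log m ^ (3 * C) := by
        rw [pow_mul]
        exact pow_le_pow_left₀ hL0.le hlogm3 C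
      have hLA : L ^ (A + 2) ≤ Real.log m ^ (3 * (A + 2)) := by
        rw [pow_mul]
        exact pow_le_pow_left₀ hL0.le hlogm3 (A + 2)
      have h5 := hSW h h0 hh m t hm2 (hhX.trans hLC) (ht.trans hLC)
      rw [Nat.floor_natCast] at h5
      rw [sum_UX ψ m]
      refine h5.trans ?_
      rw [div_mul_eq_mul_div]
      exact div_le_div_of_nonneg_left (by positivity) (by positivity) hLA
    have hδ0 : 0 ≤ K0 / L ^ (A + 2) := by positivity
    refine (core hw hcls hψ1 hδ0 hS Kp).trans ?_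
    have hXU : ∀ p ∈ UX n, (nm p.1 : ℝ) ≤ X := by
      intro p hp
      rw [mem_UX] at hp
      exact le_trans (by exact_mod_cast hp) hnX
    have hL1 : 1 ≤ L := by linarith
    have hlogL : Real.log L ≤ L := by
      have := Real.log_le_sub_one_of_pos hL0
      linarith
    have b1 : ∑ T ∈ (UX n).powerset, 1 / (nm (prd T) : ℝ) ≤ Real.exp 75 * L ^ 2 := by
      have h1 := Dens420.sum_omega_div (c := 1) zero_le_one hX (UX n).powerset (by
        intro T hT p hp
        exact hXU p (Finset.mem_powerset.mp hT hp))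
      simp only [one_pow, one_mul] at h1
      refine h1.trans ?_
      rw [Real.exp_add, ← hL]
      have : Real.exp (2 * Real.log L) = L ^ 2 := by
        rw [mul_comm, Real.exp_mul, Real.exp_log hL0]
        norm_num
      rw [this, mul_comm]
    have b2 : ∑ p ∈ UX n, 1 / (nm p.1 : ℝ) ≤ 77 * L := by
      have h1 := Dens420.sum_inv_le' (UX n) hX hXU
      rw [← hL] at h1
      linarith
    have e1 := pow_le_exp hL0.le hv0 hXw (A + C)
    have e2 := pow_le_exp hL0.le hv0 hXw (A + 1)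
    rw [hwexp] at e1 e2
    have hLA0 : 0 < L ^ A := by positivity
    have T1 : 2 * (K0 / L ^ (A + 2)) * n * (∑ T ∈ (UX n).powerset, 1 / (nm (prd T) : ℝ)) ≤
        2 * K0 * Real.exp 75 * n / L ^ A := by
      calc 2 * (K0 / L ^ (A + 2)) * n * (∑ T ∈ (UX n).powerset, 1 / (nm (prd T) : ℝ)) ≤
          2 * (K0 / L ^ (A + 2)) * n * (Real.exp 75 * L ^ 2) := by gcongr
        _ = 2 * K0 * Real.exp 75 * n / L ^ A := by
          rw [pow_add]
          field_simp
    have T2 : 12 * n * (Kp.card : ℝ) / w ≤ 12 * (2 * (A + C)).factorial * n / L ^ A := by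
      rw [div_le_div_iff₀ hw0 hLA0]
      calc 12 * n * (Kp.card : ℝ) * L ^ A ≤ 12 * n * L ^ C * L ^ A := by gcongr
        _ = 12 * n * L ^ (A + C) := by rw [pow_add]; ring
        _ ≤ 12 * n * ((2 * (A + C)).factorial * w) := by gcongr
        _ = 12 * (2 * (A + C)).factorial * n * w := by ring
    have T3 : 24 * n / w * (∑ p ∈ UX n, 1 / (nm p.1 : ℝ)) ≤
        24 * 77 * (2 * (A + 1)).factorial * n / L ^ A := by
      calc 24 * n / w * (∑ p ∈ UX n, 1 / (nm p.1 : ℝ)) ≤ 24 * n / w * (77 * L) := by gcongr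
        _ = (24 * n * (77 * L)) / w := by ring
        _ ≤ _ := by
          rw [div_le_div_iff₀ hw0 hLA0]
          calc 24 * n * (77 * L) * L ^ A = 24 * 77 * n * L ^ (A + 1) := by ring
            _ ≤ 24 * 77 * n * ((2 * (A + 1)).factorial * w) := by gcongr
            _ = 24 * 77 * (2 * (A + 1)).factorial * n * w := by ring
    have hfin : 2 * K0 * Real.exp 75 * n / L ^ A + 12 * (2 * (A + C)).factorial * n / L ^ A +
        24 * 77 * (2 * (A + 1)).factorial * n / L ^ A ≤ K * n / L ^ A := by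
      rw [← add_div, ← add_div]
      refine div_le_div_of_nonneg_right ?_ hLA0.le
      rw [hK]
      have : (0 : ℝ) ≤ 12 * 64 ^ A * n := by positivity
      nlinarith
    linarith

/-- **Siegel–Walfisz for the class `SWc`**. -/
theorem SWB (l : ℤ) (A C : ℕ) : ∃ K : ℝ, 0 < K ∧ ∀ (X w : ℝ) (β : Finset PrP → ℂ),
    2 ≤ X → 1 ≤ w → Real.log X ≤ Real.log w ^ 2 → Main48.SWc β →
    (∀ T, β T ≠ 0 → T.Nonempty ∧ ∀ p ∈ T, w ≤ (nm p.1 : ℝ)) →
    ∀ (h k : Eis) (t : ℝ) (n : ℕ), h ≠ 0 → (l = 0 → ¬ ∃ e, h = e ^ 3) → k ≠ 0 →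
      (nm h : ℝ) ≤ Real.log X ^ C → Real.log (nm k) ≤ Real.log X ^ C → |t| ≤ Real.log X ^ C →
      (n : ℝ) ≤ X →
      ‖∑ T ∈ (TB n).filter (fun T => Disjoint T (pset k)),
        β T * (sy h (prd T) * ang l (prd T) * (nm (prd T) : ℂ) ^ ((t : ℂ) * I))‖ ≤
        K * n / Real.log X ^ A := by
  obtain ⟨K, hK, hSW⟩ := SWB_disj l A C
  refine ⟨K, hK, ?_⟩
  intro X w β hX hw hXw hβ hsupp h k t n h0 hh hk hhX hkX ht hnX
  exact hSW X w β hX hw hXw hβ hsupp h (pset k) t n h0 hh hhX ((card_pset_le hk).trans hkX) ht hnX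

end Crest.Agent.R012.SWB994
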