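import Crest.Agent.R012.TIISpec_54
import Crest.Agent.R012.SWB_994

/-!
# Row 12, item TIIS: the Siegel–Walfisz input `TII54.SWx_Prop` (helper355, from SWB_994)
-/

set_option autoImplicit false

noncomputable section

open Complex

namespace Crest.Agent.R012.SWx355

open Crest.Agent.R012 Eis Buch420 Main48 MV400 TII54 SWB994

lemma rpow_le_pow_ceil {L K : ℝ} (hL : 1 ≤ L) : L ^ K ≤ L ^ ⌈K⌉₊ := by
  rw [← Real.rpow_natCast]
  exact Real.rpow_le_rpow_of_exponent_le hL (Nat.le_ceil K)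

/-- **Siegel–Walfisz input of the Type II assembly.** -/
theorem SWx : SWx_Prop := by
  classical
  intro l K hK
  obtain ⟨D, hD, hSW⟩ := SWB_disj l ⌈K⌉₊ ⌈K⌉₊
  refine ⟨2 * D, 3, by positivity, ?_⟩
  intro X hX B β hB hBX hβ hsupp h hh t ht
  have hX3 : (3 : ℝ) ≤ X := by exact_mod_cast hX
  have hL1 : 1 ≤ LX X := by
    unfold LX
    rw [Real.le_log_iff_exp_le (by linarith)]
    have := Real.exp_one_lt_d9
    linarith
  have hL0 : 0 < LX X := by linarith
  have hpow : LX X ^ K ≤ LX X ^ ⌈K⌉₊ := rpow_le_pow_ceil hL1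
  -- the support
  have hne : ∀ T, β T ≠ 0 → T.Nonempty ∧ ∀ p ∈ T, wX X ≤ (nm p.1 : ℝ) := by
    intro T hT
    obtain ⟨h1, h2, h3⟩ := hsupp T hT
    refine ⟨?_, h1⟩
    rw [Finset.nonempty_iff_ne_empty]
    rintro rfl
    rw [prd_empty, nm_one] at h2
    push_cast at h2
    linarith
  have hw1 : 1 ≤ wX X := by
    unfold wX
    apply Real.one_le_exp
    exact Real.rpow_nonneg (by unfold LX at hL0; exact hL0.le) _
  have hlw : Real.log X ≤ Real.log (wX X) ^ 2 := by
    unfold wX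
    rw [Real.log_exp, ← Real.rpow_natCast, ← Real.rpow_mul (by unfold LX at hL0; exact hL0.le)]
    have h1 : 1 ≤ Real.log X := hL1
    calc Real.log X = Real.log X ^ (1 : ℝ) := (Real.rpow_one _).symm
      _ ≤ Real.log X ^ ((2 : ℝ) / 3 * (2 : ℕ)) :=
          Real.rpow_le_rpow_of_exponent_le h1 (by norm_num)
  unfold T411.NC at hh
  rw [Finset.mem_filter] at hh
  obtain ⟨hh1, hh2, hh3⟩ := hh
  have hnm : (nm h : ℝ) ≤ LX X ^ K := by
    exact ((LS2.mem_bl (Real.rpow_nonneg hL0.le K)).mp hh1).2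
  have hn : ((⌊2 * B⌋₊ : ℕ) : ℝ) ≤ 2 * B := Nat.floor_le (by linarith)
  have hmain := hSW X (wX X) β (by linarith) hw1 hlw hβ hne h ∅ t ⌊2 * B⌋₊ hh2
    (fun _ => by rintro ⟨e, he⟩; exact hh3 e he) (hnm.trans hpow)
    (by simp only [Finset.card_empty, Nat.cast_zero]; positivity) (ht.trans hpow)
    (hn.trans hBX)
  -- the two sums agree
  have hsum : tw l X β h t = ∑ T ∈ (TB ⌊2 * B⌋₊).filter (fun T => Disjoint T ∅),
      β T * (sy h (prd T) * ang l (prd T) * (nm (prd T) : ℂ) ^ ((t : ℂ) * I)) := by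
    unfold tw
    symm
    have hsub : (TB ⌊2 * B⌋₊).filter (fun T => Disjoint T ∅) ⊆ (UX X).powerset := by
      intro T hT
      rw [Finset.mem_filter] at hT
      unfold TB at hT
      rw [Finset.mem_filter, Finset.mem_powerset] at hT
      rw [Finset.mem_powerset]
      intro p hp
      rw [mem_UX]
      have h1 := mem_UX.mp (hT.1.1 hp)
      have h2 : ⌊2 * B⌋₊ ≤ X := by exact_mod_cast hn.trans hBX
      omega
    rw [← Finset.sum_subset hsub]
    · refine Finset.sum_congr rfl fun T _ => ?_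
      unfold nit
      ring
    · intro T hT hT2
      have : β T = 0 := by
        by_contra hne0
        apply hT2
        obtain ⟨h1, h2, h3⟩ := hsupp T hne0
        have h4 : nm (prd T) ≤ ⌊2 * B⌋₊ := Nat.le_floor h3
        rw [Finset.mem_filter]
        refine ⟨?_, by simp⟩
        unfold TB
        rw [Finset.mem_filter, Finset.mem_powerset]
        refine ⟨?_, h4⟩
        intro p hp
        rw [mem_UX]
        exact (nm_le_of_mem hp).trans h4
      rw [this]
      simp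
  rw [hsum]
  refine hmain.trans ?_
  have hneg : LX X ^ (-K) = (LX X ^ K)⁻¹ := Real.rpow_neg hL0.le K
  rw [hneg]
  have hKpos : 0 < LX X ^ K := Real.rpow_pos_of_pos hL0 K
  have e1 : D * (⌊2 * B⌋₊ : ℝ) / Real.log X ^ ⌈K⌉₊ ≤ D * (2 * B) / LX X ^ K := by
    have : LX X ^ K ≤ Real.log X ^ ⌈K⌉₊ := hpow
    gcongr
  refine e1.trans (le_of_eq ?_)
  field_simp

end Crest.Agent.R012.SWx355
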