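import Crest.Agent.R012.SieveFin_812
import Crest.Agent.R012.SieveUse_50
import Crest.Agent.R012.SparseT0_420

/-!
# Row 12: the sieve theorem `Main48.Sieve_of`
-/

set_option autoImplicit false

namespace Crest.Agent.R012.SieveOf420

open Crest.Agent.R012 Main48

/-- The sieve theorem (812, 50, 420). -/
theorem sieve_of : Main48.Sieve_of := fun hI hII hIIc h0 hSNH hE =>
  Sieve812.sieve_core hI (fun l => SieveUse50.adapters hII hIIc hSNH hE l 3)
    (fun l C0 => SparseT0420.legPart h0 l 3 C0)

end Crest.Agent.R012.SieveOf420
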