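import Crest.Agent.R012.GramC_858
import Crest.Agent.R012.Mob_705
import Crest.Agent.R012.CharSumP_852

/-!
# Row 12, item MG (part D): reindexing sums over cubes

* `tsum_cubes` : `∑' c, g c = (1/3) ∑' m, g (m^3)` for `g` supported on nonzero cubes
* `tsum_cubes_lam` : `∑' c, g c = (1/3) ∑' m, g ((λ m)^3)` if moreover `g c ≠ 0 → 3 ∣ c`
* `psi_lam_cube` : `ψ((λ m)^3) = PE m = Pw aM m`
* `aMp p`, `Pw (aMp p) m = PE m` for `p ∤ m` ... (level `p`)
-/

set_option autoImplicit false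

noncomputable section

open MeasureTheory Set Complex Filter
open scoped ENNReal ComplexConjugate Topology

namespace Crest.Agent.R012.Gram858

open Crest.Agent.R012.Eis Crest.Agent.R012.LatSum413 Crest.Agent.R012.Div277
  Crest.Agent.R012.Mob705

/-! ## Cube roots in `Eis` -/

lemma w_ne_one : (w : Eis) ≠ 1 := by
  intro h
  have := congrArg QuadraticAlgebra.im h
  simp at this

lemma w_sq_ne_one : (w ^ 2 : Eis) ≠ 1 := by
  intro h
  have h1 : w ^ 2 * w = 1 * w := by rw [h]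
  rw [← pow_succ, w_cube, one_mul] at h1
  exact w_ne_one h1.symm

lemma cube_eq_iff {e m : Eis} : m ^ 3 = e ^ 3 ↔ m = e ∨ m = w * e ∨ m = w ^ 2 * e := by
  constructor
  · intro h
    have h1 : (m - e) * ((m - w * e) * (m - w ^ 2 * e)) = 0 := by
      have h2 := one_add_w_add
      have h3 := w_cube
      have : (m - e) * ((m - w * e) * (m - w ^ 2 * e)) =
          m ^ 3 - e ^ 3 - m ^ 2 * e * (1 + w + w ^ 2) + m * e ^ 2 * (1 + w + w ^ 2)
            + (w ^ 3 - 1) * (m * e ^ 2 - e ^ 3) := by ring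
      rw [this, h2, h3, h]; ring
    rcases mul_eq_zero.mp h1 with h2 | h2
    · left; exact sub_eq_zero.mp h2
    rcases mul_eq_zero.mp h2 with h3 | h3
    · right; left; exact sub_eq_zero.mp h3
    · right; right; exact sub_eq_zero.mp h3
  · rintro (h | h | h)
    · rw [h]
    · rw [h, mul_pow, w_cube, one_mul]
    · rw [h, mul_pow, ← pow_mul, mul_comm 2 3, pow_mul, w_cube, one_pow, one_mul]

lemma card_cube_fiber {e : Eis} (he : e ≠ 0) :
    Nat.card ((fun m : Eis => m ^ 3) ⁻¹' {e ^ 3}) = 3 := by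
  classical
  have h1 : ((fun m : Eis => m ^ 3) ⁻¹' {e ^ 3}) = ({e, w * e, w ^ 2 * e} : Set Eis) := by
    ext m
    simp only [mem_preimage, mem_singleton_iff, mem_insert_iff]
    exact cube_eq_iff
  have h2 : e ≠ w * e := by
    intro h
    have : (w - 1) * e = 0 := by linear_combination -h
    rcases mul_eq_zero.mp this with h | h
    · exact w_ne_one (sub_eq_zero.mp h)
    · exact he h
  have h3 : e ≠ w ^ 2 * e := by
    intro h
    have : (w ^ 2 - 1) * e = 0 := by linear_combination -h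
    rcases mul_eq_zero.mp this with h | h
    · exact w_sq_ne_one (sub_eq_zero.mp h)
    · exact he h
  have h4 : w * e ≠ w ^ 2 * e := by
    intro h
    have : (w - 1) * (w * e) = 0 := by linear_combination -h
    rcases mul_eq_zero.mp this with h | h
    · exact w_ne_one (sub_eq_zero.mp h)
    · rcases mul_eq_zero.mp h with h | h
      · exact isUnit_w.ne_zero h
      · exact he h
  rw [h1, Nat.card_coe_set_eq]
  rw [Set.ncard_insert_of_notMem (by simp [h2, h3]), Set.ncard_pair h4]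

/-- A sum over cubes. -/
theorem tsum_cubes {g : Eis → ℂ} (h0 : g 0 = 0) (hc : ∀ c, g c ≠ 0 → ∃ e, c = e ^ 3)
    (hs : Summable fun m : Eis => g (m ^ 3)) :
    ∑' c, g c = (1 / 3) * ∑' m : Eis, g (m ^ 3) := by
  have h1 := (hs.hasSum.tsum_fiberwise (fun m : Eis => m ^ 3)).tsum_eq
  have h2 : ∀ c : Eis, ∑' b : ((fun m : Eis => m ^ 3) ⁻¹' {c}), g ((b : Eis) ^ 3) = 3 * g c := by
    intro c
    have h3 : ∀ b : ((fun m : Eis => m ^ 3) ⁻¹' {c}), g ((b : Eis) ^ 3) = g c := by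
      intro b
      have := b.2
      simp only [mem_preimage, mem_singleton_iff] at this
      rw [this]
    rw [tsum_congr h3, tsum_const]
    by_cases hgc : g c = 0
    · rw [hgc]; simp
    · obtain ⟨e, he⟩ := hc c hgc
      have he0 : e ≠ 0 := by
        rintro rfl
        rw [he] at hgc
        exact hgc (by simpa using h0)
      rw [he, card_cube_fiber he0]
      norm_num
  rw [← h1, tsum_congr h2, tsum_mul_left]
  ring

/-- A sum over cubes divisible by `3`. -/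
theorem tsum_cubes_lam {g : Eis → ℂ} (h0 : g 0 = 0) (hc : ∀ c, g c ≠ 0 → ∃ e, c = e ^ 3)
    (h3 : ∀ c, g c ≠ 0 → (3 : Eis) ∣ c) (hs : Summable fun m : Eis => g (m ^ 3)) :
    ∑' c, g c = (1 / 3) * ∑' m : Eis, g ((lam * m) ^ 3) := by
  rw [tsum_cubes h0 hc hs]
  congr 1
  have hinj : Function.Injective (fun m : Eis => lam * m) := mul_right_injective₀ lam_ne_zero
  rw [← hinj.tsum_eq (f := fun m : Eis => g (m ^ 3))]
  intro m hm
  rw [Function.mem_support] at hm
  have h4 := h3 _ hm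
  have h5 : lam ∣ m := prime_lam.dvd_of_dvd_pow (lam_dvd_three.trans h4)
  obtain ⟨t, rfl⟩ := h5
  exact ⟨t, rfl⟩

/-! ## The densities -/

/-- `μ(d)/N(d)` on primary `d`. -/
def aM (d : Eis) : ℝ := open Classical in if IsPrim d then (muE d : ℝ) / nm d else 0

lemma aM_le (d : Eis) (_ : d ≠ 0) : |aM d| ≤ 1 / nm d := by
  classical
  unfold aM
  split_ifs
  · rw [abs_div, Nat.abs_cast]
    gcongr
    exact abs_muE_le_real d
  · simp

lemma Pw_aM {m : Eis} (hm : m ≠ 0) : Pw aM m = PE m := by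
  classical
  rw [PE_eq_sum hm]
  unfold Pw
  rw [tsum_eq_sum (s := dvs m)]
  · apply Finset.sum_congr rfl
    intro d hd
    rw [mem_dvs hm] at hd
    rw [if_pos hd.2, aM, if_pos hd.1]
    ring
  · intro d hd
    rw [mem_dvs hm] at hd
    split_ifs with h
    · rw [aM, if_neg (fun h1 => hd ⟨h1, h⟩)]
    · rfl

lemma pp_lam : pp lam = ∅ := by
  rw [Finset.eq_empty_iff_forall_notMem]
  intro p hp
  rw [mem_pp lam_ne_zero] at hp
  have h1 : Associated p lam := hp.1.2.associated_of_dvd prime_lam hp.2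
  exact hp.1.1.not_lam_dvd h1.symm.dvd

lemma psi_lam_cube {m : Eis} (hm : m ≠ 0) : Count852.psi ((lam * m) ^ 3) = PE m := by
  have h1 : Count852.psi ((lam * m) ^ 3) = PE ((lam * m) ^ 3) := rfl
  rw [h1]
  unfold PE
  rw [pp_pow (mul_ne_zero lam_ne_zero hm) (by norm_num), pp_mul lam_ne_zero hm, pp_lam,
    Finset.empty_union]

/-! ## `LatHyp` for the densities, levels `1` and `p` -/

lemma LatHyp.congr {P Q : Eis → ℂ} {w : ℝ → ℝ} {κ : ℂ} {C₀ τ : ℝ} (h : LatHyp P w κ C₀ τ)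
    (hPQ : ∀ m, m ≠ 0 → P m = Q m) : LatHyp Q w κ C₀ τ := by
  intro S hS
  have h1 := h S hS
  have h2 : ∀ m : Eis, (if m = 0 then (0 : ℂ) else Q m * ((gr w (rho3 m / S) : ℝ) : ℂ)) =
      (if m = 0 then (0 : ℂ) else P m * ((gr w (rho3 m / S) : ℝ) : ℂ)) := by
    intro m
    split_ifs with hm
    · rfl
    · rw [hPQ m hm]
  rw [tsum_congr h2]
  exact h1

/-- The main constant. -/
def kap1 (w : ℝ → ℝ) : ℂ := ((2 / Real.sqrt 3 * ∑' d : Eis, aM d / nm d : ℝ) : ℂ) * grI w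

theorem latHyp_PE {w : ℝ → ℝ} (hwd : ContDiff ℝ 2 w) {α β : ℝ} (hα : 0 < α) (hβ : 0 ≤ β)
    (hw : ∀ x, w x ≠ 0 → α ≤ x ∧ x ≤ β) {τ : ℝ} (hτ0 : 0 < τ) (hτ : τ < 2 / 3) :
    ∃ C₀ : ℝ, 0 ≤ C₀ ∧ LatHyp (fun m => ((PE m : ℝ) : ℂ)) w (kap1 w) C₀ τ := by
  obtain ⟨C₀, hC₀, h⟩ := latHyp_C2 hwd hα hβ hw hτ0 hτ
  refine ⟨C₀, hC₀, (h aM aM_le).congr ?_⟩
  intro m hm
  rw [Pw_aM hm]

/-- `μ(d)/N(d)` on primary `d` not divisible by `p`. -/
def aMp (p d : Eis) : ℝ :=
  open Classical in if IsPrim d ∧ ¬ p ∣ d then (muE d : ℝ) / nm d else 0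

lemma aMp_le (p d : Eis) (_ : d ≠ 0) : |aMp p d| ≤ 1 / nm d := by
  classical
  unfold aMp
  split_ifs
  · rw [abs_div, Nat.abs_cast]
    gcongr
    exact abs_muE_le_real d
  · simp

/-- `∏_{q ∣ m, q ≠ p} (1 - 1/N q)` -/
def PEp (p m : Eis) : ℝ := ∏ q ∈ (pp m).erase p, (1 - 1 / (nm q : ℝ))

lemma PEp_mul_self {p m : Eis} (hp : IsPP p) (hm : m ≠ 0) :
    PE (p * m) = (1 - 1 / (nm p : ℝ)) * PEp p m := by
  classical
  unfold PE PEp
  rw [pp_mul hp.ne_zero hm, pp_prime hp]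
  have h1 : {p} ∪ pp m = insert p ((pp m).erase p) := by
    ext q
    simp only [Finset.mem_union, Finset.mem_singleton, Finset.mem_insert, Finset.mem_erase]
    tauto
  rw [h1, Finset.prod_insert (Finset.notMem_erase p _)]

lemma Pw_aMp {p m : Eis} (hp : IsPP p) (hm : m ≠ 0) : Pw (aMp p) m = PEp p m := by
  classical
  -- write as a divisor sum with the multiplicative function `F`
  set F : Eis → ℝ := fun d => if p ∣ d then 0 else 1 / (nm d : ℝ) with hF
  have h1 := sum_dvs_muE_mul (R := ℝ) hm F (by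
    intro S hS
    simp only [hF]
    by_cases hpS : p ∈ S
    · have hdv : p ∣ ∏ q ∈ S, q := Finset.dvd_prod_of_mem (fun q : Eis => q) hpS
      rw [if_pos hdv]
      symm
      apply Finset.prod_eq_zero hpS
      simp
    · rw [if_neg (by
        intro h
        exact hpS ((hS.dvd_prod hp).mp h)), nm_prod]
      have : ∀ q ∈ S, (if p ∣ q then (0 : ℝ) else 1 / (nm q : ℝ)) = 1 / nm q := by
        intro q hq
        rw [if_neg]
        intro h
        exact hpS ((hp.eq_of_dvd (hS q hq) h) ▸ hq)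
      rw [Finset.prod_congr rfl this]
      push_cast
      rw [Finset.prod_div_distrib, Finset.prod_const_one])
  have h2 : Pw (aMp p) m = ∑ d ∈ dvs m, (muE d : ℝ) * F d := by
    unfold Pw
    rw [tsum_eq_sum (s := dvs m)]
    · apply Finset.sum_congr rfl
      intro d hd
      rw [mem_dvs hm] at hd
      rw [if_pos hd.2]
      unfold aMp
      simp only [hF]
      by_cases hpd : p ∣ d
      · simp [hpd]
      · rw [if_pos ⟨hd.1, hpd⟩, if_neg hpd]; ring
    · intro d hd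
      rw [mem_dvs hm] at hd
      split_ifs with h
      · unfold aMp
        rw [if_neg (fun h1 => hd ⟨h1.1, h⟩)]
      · rfl
  rw [h2, h1]
  unfold PEp
  by_cases hpm : p ∈ pp m
  · rw [← Finset.mul_prod_erase _ _ hpm]
    simp only [hF]
    rw [if_pos dvd_rfl, sub_zero, one_mul]
    apply Finset.prod_congr rfl
    intro q hq
    rw [Finset.mem_erase] at hq
    rw [if_neg]
    intro h
    exact hq.1 (hp.eq_of_dvd (isPP_of_mem_pp hq.2) h).symm
  · rw [Finset.erase_eq_of_notMem hpm]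
    apply Finset.prod_congr rfl
    intro q hq
    simp only [hF]
    rw [if_neg]
    intro h
    exact hpm ((hp.eq_of_dvd (isPP_of_mem_pp hq) h) ▸ hq)

lemma summable_of_le {a : Eis → ℝ} (ha : ∀ d ≠ 0, |a d| ≤ 1 / nm d) :
    Summable fun d : Eis => a d / nm d := by
  have h := summable_nm_rpow (s := 2) (by norm_num)
  apply Summable.of_norm_bounded h
  intro d
  by_cases hd : d = 0
  · subst hd; simp
  · have h1 : (0 : ℝ) < nm d := by exact_mod_cast nm_pos.mpr hd
    rw [norm_div, Real.norm_eq_abs, Real.norm_eq_abs, Nat.abs_cast]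
    calc |a d| / nm d ≤ (1 / nm d) / nm d := by gcongr; exact ha d hd
      _ = (nm d : ℝ) ^ (-2 : ℝ) := by
        rw [Real.rpow_neg h1.le]
        norm_num
        field_simp

/-- `Σ μ(d)/N(d)² = (1 - 1/N(p)²) Σ_{p ∤ d} μ(d)/N(d)²`. -/
lemma tsum_aM_eq {p : Eis} (hp : IsPP p) :
    ∑' d : Eis, aM d / nm d = (1 - 1 / (nm p : ℝ) ^ 2) * ∑' d : Eis, aMp p d / nm d := by
  classical
  have hN : (0 : ℝ) < nm p := by exact_mod_cast nm_pos.mpr hp.ne_zero
  have hsp := summable_of_le (aMp_le p)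
  -- the part divisible by `p`
  set b : Eis → ℝ := fun d => if p ∣ d then aM d / nm d else 0 with hb
  have h1 : ∀ d : Eis, aM d / nm d = aMp p d / nm d + b d := by
    intro d
    simp only [hb, aM, aMp]
    by_cases h1 : IsPrim d <;> by_cases h2 : p ∣ d <;> simp [h1, h2]
  have hinj : Function.Injective (fun m : Eis => p * m) := mul_right_injective₀ hp.ne_zero
  have hbsupp : Function.support b ⊆ Set.range (fun m : Eis => p * m) := by
    intro d hd
    rw [Function.mem_support] at hd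
    by_contra hn
    apply hd
    have : ¬ p ∣ d := by
      rintro ⟨t, rfl⟩
      exact hn ⟨t, rfl⟩
    simp [hb, this]
  have h2 : ∀ m : Eis, b (p * m) = (-(1 / (nm p : ℝ) ^ 2)) * (aMp p m / nm m) := by
    intro m
    simp only [hb]
    rw [if_pos (dvd_mul_right p m)]
    unfold aM aMp
    by_cases hm0 : m = 0
    · subst hm0; simp
    have hNm : (0 : ℝ) < nm m := by exact_mod_cast nm_pos.mpr hm0
    by_cases hmP : IsPrim m
    · rw [if_pos (hp.1.mul hmP)]
      by_cases hpm : p ∣ m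
      · rw [if_neg (fun h => h.2 hpm)]
        have : ¬ IsCoprime p m := by rw [hp.isCoprime_iff]; simpa using hpm
        rw [muE_mul_of_not_coprime this]
        simp
      · rw [if_pos ⟨hmP, hpm⟩]
        have hc : IsCoprime p m := by rw [hp.isCoprime_iff]; exact hpm
        rw [muE_mul hp.ne_zero hm0 hc, muE_prime hp.2, nm_mul]
        push_cast
        field_simp
    · have hmp : ¬ IsPrim (p * m) := by
        intro h
        exact hmP (h.of_mul_left hp.1)
      rw [if_neg hmp, if_neg (fun h => hmP h.1)]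
      simp
  have hbs : Summable b := by
    rw [← hinj.summable_iff (by
      intro d hd
      by_contra h
      exact hd (hbsupp h))]
    have : (b ∘ fun m : Eis => p * m) = fun m => (-(1 / (nm p : ℝ) ^ 2)) * (aMp p m / nm m) := by
      ext m; exact h2 m
    rw [this]
    exact hsp.mul_left _
  rw [tsum_congr h1, hsp.tsum_add hbs, ← hinj.tsum_eq hbsupp, tsum_congr h2, tsum_mul_left]
  ring

/-- `LatHyp` for the density restricted to multiples of `p`. -/
theorem latHyp_PE_dvd {w : ℝ → ℝ} (hwd : ContDiff ℝ 2 w) {α β : ℝ} (hα : 0 < α) (hβ : 0 ≤ β)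
    (hw : ∀ x, w x ≠ 0 → α ≤ x ∧ x ≤ β) {τ : ℝ} (hτ0 : 0 < τ) (hτ : τ < 2 / 3) :
    ∃ C₀ : ℝ, 0 ≤ C₀ ∧ ∀ p : Eis, IsPP p →
      LatHyp (fun m => open Classical in if p ∣ m then ((PE m : ℝ) : ℂ) else 0) w
        (kap1 w / (nm p + 1)) C₀ τ := by
  classical
  obtain ⟨C₀, hC₀, h⟩ := latHyp_C2 hwd hα hβ hw hτ0 hτ
  refine ⟨C₀, hC₀, fun p hp => ?_⟩
  have hN4 := hp.four_le_nm
  have hN : (4 : ℝ) ≤ nm p := by exact_mod_cast hN4
  have hf0 : (0 : ℝ) ≤ 1 - 1 / (nm p : ℝ) := by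
    rw [sub_nonneg, div_le_one (by linarith)]; linarith
  have hf1 : 1 - 1 / (nm p : ℝ) ≤ 1 := by
    have : (0 : ℝ) ≤ 1 / nm p := by positivity
    linarith
  have h1 := h (aMp p) (aMp_le p)
  have h2 := h1.smul (((1 - 1 / (nm p : ℝ) : ℝ)) : ℂ)
  have h3 := (h2.mono (C₁ := C₀) (by
    rw [Complex.norm_real, Real.norm_of_nonneg hf0]
    nlinarith)).dvd hτ0.le hC₀ hp.ne_zero (P := fun m =>
      if p ∣ m then (((1 - 1 / (nm p : ℝ) : ℝ)) : ℂ) * ((Pw (aMp p) (m / p) : ℝ) : ℂ) else 0)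
      (fun m => rfl)
  have h4 := h3.congr (Q := fun m => if p ∣ m then ((PE m : ℝ) : ℂ) else 0) (by
    intro m hm
    by_cases hpm : p ∣ m
    · simp only [hpm, if_true]
      obtain ⟨t, rfl⟩ := hpm
      have ht : t ≠ 0 := right_ne_zero_of_mul hm
      rw [mul_div_cancel_left₀ t hp.ne_zero, PEp_mul_self hp ht, Pw_aMp hp ht]
      push_cast
      ring
    · simp only [hpm, if_false])
  have h5 : kap1 w / (nm p + 1) = (((1 - 1 / (nm p : ℝ) : ℝ)) : ℂ) *
      (((2 / Real.sqrt 3 * ∑' d : Eis, aMp p d / nm d : ℝ) : ℂ) * grI w) / nm p := by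
    unfold kap1
    rw [tsum_aM_eq hp]
    have hNC : ((nm p : ℕ) : ℂ) ≠ 0 := by
      exact_mod_cast (nm_pos.mpr hp.ne_zero).ne'
    have hNC1 : ((nm p : ℕ) : ℂ) + 1 ≠ 0 := by
      exact_mod_cast Nat.succ_ne_zero (nm p)
    push_cast
    field_simp
    ring
  rw [h5]
  exact h4

/-- `LatHyp` for the level `p` weights `N - 1 + [p ∣ m]` times the density. -/
theorem latHyp_level {w : ℝ → ℝ} (hwd : ContDiff ℝ 2 w) {α β : ℝ} (hα : 0 < α) (hβ : 0 ≤ β)
    (hw : ∀ x, w x ≠ 0 → α ≤ x ∧ x ≤ β) {τ : ℝ} (hτ0 : 0 < τ) (hτ : τ < 2 / 3)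
    {p : Eis} (hp : IsPP p) :
    ∃ C₀ : ℝ, 0 ≤ C₀ ∧
      LatHyp (fun m => open Classical in
        (if p ∣ m then (nm p : ℂ) else (nm p - 1 : ℂ)) * ((PE m : ℝ) : ℂ)) w
        (kap1 w * (nm p) ^ 2 / (nm p + 1)) C₀ τ := by
  classical
  obtain ⟨C₀, hC₀, h⟩ := latHyp_PE hwd hα hβ hw hτ0 hτ
  obtain ⟨C₁, hC₁, h'⟩ := latHyp_PE_dvd hwd hα hβ hw hτ0 hτ
  have hw0 : ∀ x < α, w x = 0 := by
    intro x hx
    by_contra hne
    exact absurd (hw x hne).1 (not_le.mpr hx)
  have h1 := (h.smul ((nm p : ℂ) - 1)).add hα hw0 (h' p hp)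
  refine ⟨‖((nm p : ℂ) - 1)‖ * C₀ + C₁, by positivity, ?_⟩
  have h2 := h1.congr (Q := fun m => (if p ∣ m then (nm p : ℂ) else (nm p - 1 : ℂ)) *
      ((PE m : ℝ) : ℂ)) (by
    intro m _
    by_cases hpm : p ∣ m
    · simp only [hpm, if_true]; ring
    · simp only [hpm, if_false]; ring)
  have h3 : kap1 w * (nm p) ^ 2 / (nm p + 1) =
      ((nm p : ℂ) - 1) * kap1 w + kap1 w / (nm p + 1) := by
    have hNC1 : ((nm p : ℕ) : ℂ) + 1 ≠ 0 := by
      exact_mod_cast Nat.succ_ne_zero (nm p)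
    field_simp
    ring
  rw [h3]
  exact h2

end Crest.Agent.R012.Gram858
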