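import Crest.Agent.R012.T1cA_413
import Crest.Agent.R012.GramD_858
import Crest.Agent.R012.Spec_T_411
import Crest.Agent.R012.Sym6_645

/-!
# Row 12, (T1c): the cubes of the dual sum.  `T411.T1c` is `t1c`.
-/

set_option autoImplicit false

noncomputable section

open MeasureTheory Set Complex

namespace Crest.Agent.R012.T1c413

open Crest.Agent.R012 Crest.Agent.R012.Eis Div277 Mob705 LatSum413 T411

/-! ### The phase -/

lemma toC_sq3' : toC sq3 = (Real.sqrt 3 : ℂ) * Complex.I := by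
  rw [toC_apply, sq3_re, sq3_im]
  apply Complex.ext
  · simp [wC]; norm_num
  · simp [wC]; ring

lemma eC_phase {h : Eis} {n : ℤ} (hn : (3 : Eis) ∣ h - (n : Eis)) :
    eC (toC h / (3 * toC sq3)) = 1 := by
  obtain ⟨t, ht⟩ := hn
  have h1 : toC h = (n : ℂ) + 3 * toC t := by
    have : h = (n : Eis) + 3 * t := by rw [← ht]; ring
    rw [this, map_add, map_mul, map_intCast, map_ofNat]
  have hsq : toC sq3 ≠ 0 := toC_ne_zero sq3_ne_zero
  have e1 : toC h / (3 * toC sq3) = (n : ℂ) / (3 * toC sq3) + toC t / toC sq3 := by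
    rw [h1]; field_simp
  rw [e1, eC_add, eC_toC_div_sq3, mul_one, eC_eq_one_iff]
  refine ⟨0, ?_⟩
  rw [toC_sq3']
  have h3 : (Real.sqrt 3 : ℂ) ≠ 0 := by
    have : (0 : ℝ) < Real.sqrt 3 := by positivity
    exact_mod_cast this.ne'
  have e2 : (n : ℂ) / (3 * ((Real.sqrt 3 : ℂ) * Complex.I)) =
      ((-(n : ℝ) / (3 * Real.sqrt 3) : ℝ) : ℂ) * Complex.I := by
    push_cast
    field_simp
    rw [Complex.I_sq]
    ring
  rw [e2, Complex.re_ofReal_mul, Complex.I_re]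
  simp

lemma cube_mod_three (m : Eis) : (3 : Eis) ∣ m ^ 3 - ((m.re ^ 3 + m.im ^ 3 : ℤ) : Eis) := by
  have hm := eq_re_add m
  have hw := w_cube
  have key : ∀ a b : ℤ, ((a : Eis) + (b : Eis) * w) ^ 3 - ((a ^ 3 + b ^ 3 : ℤ) : Eis) =
      3 * ((a : Eis) ^ 2 * b * w + (a : Eis) * (b : Eis) ^ 2 * w ^ 2) := by
    intro a b
    push_cast
    linear_combination ((b : Eis) ^ 3) * hw
  have := key m.re m.im
  rw [← hm] at this
  exact ⟨_, this⟩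

lemma phase_one {u m : Eis} (hu : IsPrim u) : eC (toC (u * m ^ 3) / (3 * toC sq3)) = 1 := by
  apply eC_phase (n := m.re ^ 3 + m.im ^ 3)
  obtain ⟨s, hs⟩ := hu
  obtain ⟨t, ht⟩ := cube_mod_three m
  refine ⟨s * m ^ 3 + t, ?_⟩
  have : u * m ^ 3 - ((m.re ^ 3 + m.im ^ 3 : ℤ) : Eis) =
      (u - 1) * m ^ 3 + (m ^ 3 - ((m.re ^ 3 + m.im ^ 3 : ℤ) : Eis)) := by ring
  rw [this, hs, ht]; ring

/-! ### The decomposition `b₁ = e k₁`, `b₂ = e k₂` -/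

section Dec

variable {b₁ b₂ : Eis}

lemma ppSet_inter (b₁ b₂ : Eis) : PPSet (pp b₁ ∩ pp b₂) :=
  (ppSet_pp b₁).subset Finset.inter_subset_left

lemma ppSet_sdiff (b₁ b₂ : Eis) : PPSet (pp b₁ \ pp b₂) :=
  (ppSet_pp b₁).subset Finset.sdiff_subset

lemma gE_isPrim (b₁ b₂ : Eis) : IsPrim (gE b₁ b₂) := (ppSet_inter b₁ b₂).isPrim_prod
lemma kE_isPrim (b₁ b₂ : Eis) : IsPrim (kE b₁ b₂) := (ppSet_sdiff b₁ b₂).isPrim_prod

lemma pp_gE (b₁ b₂ : Eis) : pp (gE b₁ b₂) = pp b₁ ∩ pp b₂ := (ppSet_inter b₁ b₂).pp_prod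
lemma pp_kE (b₁ b₂ : Eis) : pp (kE b₁ b₂) = pp b₁ \ pp b₂ := (ppSet_sdiff b₁ b₂).pp_prod

lemma gE_comm (b₁ b₂ : Eis) : gE b₁ b₂ = gE b₂ b₁ := by
  unfold gE; rw [Finset.inter_comm]

lemma gE_mul_kE (h : SqP b₁) : gE b₁ b₂ * kE b₁ b₂ = b₁ := by
  unfold gE kE
  rw [Finset.prod_inter_mul_prod_sdiff, prod_pp h.1 h.2]

lemma isCoprime_of_disjoint {a b : Eis} (ha : IsPrim a) (h : Disjoint (pp a) (pp b)) (hb : b ≠ 0) :
    IsCoprime a b := by
  rw [isCoprime_iff_pp ha]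
  intro p hp h1 h2
  exact Finset.disjoint_left.mp h ((mem_pp ha.ne_zero).mpr ⟨hp, h1⟩) ((mem_pp hb).mpr ⟨hp, h2⟩)

lemma coprime_gE_kE (b₁ b₂ : Eis) : IsCoprime (gE b₁ b₂) (kE b₁ b₂) := by
  refine isCoprime_of_disjoint (gE_isPrim _ _) ?_ (kE_isPrim _ _).ne_zero
  rw [pp_gE, pp_kE, Finset.disjoint_left]
  intro p hp hp'
  exact (Finset.mem_sdiff.mp hp').2 (Finset.mem_inter.mp hp).2

lemma coprime_gE_kE' (b₁ b₂ : Eis) : IsCoprime (gE b₁ b₂) (kE b₂ b₁) := by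
  rw [gE_comm]; exact coprime_gE_kE b₂ b₁

lemma pp_dec (h1 : SqP b₁) (h2 : SqP b₂) :
    PE (gE b₁ b₂) * PE (kE b₁ b₂ * kE b₂ b₁) = PE (b₁ * b₂) := by
  unfold PE
  rw [pp_mul (kE_isPrim _ _).ne_zero (kE_isPrim _ _).ne_zero, pp_mul h1.1.ne_zero h2.1.ne_zero,
    pp_gE, pp_kE, pp_kE, ← Finset.prod_union]
  · congr 1
    ext p
    simp only [Finset.mem_union, Finset.mem_inter, Finset.mem_sdiff]
    tauto
  · rw [Finset.disjoint_left]
    intro p hp hp'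
    simp only [Finset.mem_union, Finset.mem_inter, Finset.mem_sdiff] at hp hp'
    tauto

end Dec

/-! ### One term -/

lemma conj_mul_self_of_norm {z : ℂ} (h : ‖z‖ = 1) : z * (starRingEnd ℂ) z = 1 := by
  rw [Complex.mul_conj, Complex.normSq_eq_norm_sq, h]; simp

open Classical in
lemma sym_factor {k u m : Eis} (hk : IsPrim k) (hu : IsCoprime u k) :
    sy (u * m ^ 3) k * (starRingEnd ℂ) (sy u k) = if IsCoprime m k then 1 else 0 := by
  have hk3 : nm k % 3 = 1 := hk.nm_mod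
  rw [Sym645.sy_mul_left hk3, Sym645.sy_pow_left hk3]
  split_ifs with h
  · rw [Sym645.sy_cube hk3 h, mul_one]
    exact conj_mul_self_of_norm (Sym645.norm_sy_of_isCoprime hk3 hu)
  · rw [(Sym645.sy_eq_zero_iff hk3).mpr h]; simp

/-- The term of the dual sum. -/
def trm (A : ℝ) (e k₁ k₂ f h : Eis) : ℂ :=
  eC (toC h / (3 * toC sq3)) *
    (Real.exp (-(4 * Real.pi ^ 2 * A * nm h / (27 * nm f * nm k₁ * nm k₂))) : ℂ) *
    (sy h k₁ * (starRingEnd ℂ) (sy (f * e) k₁)) *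
    (starRingEnd ℂ) (sy h k₂ * (starRingEnd ℂ) (sy (f * e) k₂))

open Classical in
lemma trm_cube {A : ℝ} {e k₁ k₂ f m : Eis} (he : IsPrim e) (hf : IsPrim f) (h1 : IsPrim k₁)
    (h2 : IsPrim k₂) (hc1 : IsCoprime (f * e) k₁) (hc2 : IsCoprime (f * e) k₂) :
    trm A e k₁ k₂ f (f * e * m ^ 3) = if IsCoprime m (k₁ * k₂) then
      (Real.exp (-(4 * Real.pi ^ 2 * A * nm e / (27 * nm k₁ * nm k₂) * (nm m : ℝ) ^ 3)) : ℂ)
      else 0 := by
  unfold trm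
  have hfe : IsPrim (f * e) := hf.mul he
  rw [phase_one hfe, sym_factor h1 hc1, sym_factor h2 hc2, one_mul]
  have hnf : (nm f : ℝ) ≠ 0 := by
    have := nm_pos.mpr hf.ne_zero; positivity
  have e1 : (4 * Real.pi ^ 2 * A * nm (f * e * m ^ 3) / (27 * nm f * nm k₁ * nm k₂) : ℝ) =
      4 * Real.pi ^ 2 * A * nm e / (27 * nm k₁ * nm k₂) * (nm m : ℝ) ^ 3 := by
    rw [nm_mul, nm_mul, nm_pow]
    push_cast
    have h3 : (nm k₁ : ℝ) ≠ 0 := by have := nm_pos.mpr h1.ne_zero; positivity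
    have h4 : (nm k₂ : ℝ) ≠ 0 := by have := nm_pos.mpr h2.ne_zero; positivity
    field_simp
  rw [e1]
  by_cases ha : IsCoprime m k₁ <;> by_cases hb : IsCoprime m k₂
  · rw [if_pos ha, if_pos hb, if_pos (ha.mul_right hb)]; simp
  · rw [if_pos ha, if_neg hb, if_neg (fun h => hb h.of_mul_right_right)]; simp
  · rw [if_neg ha, if_neg (fun h : IsCoprime m (k₁ * k₂) => ha h.of_mul_right_left)]; simp
  · rw [if_neg ha, if_neg (fun h : IsCoprime m (k₁ * k₂) => ha h.of_mul_right_left)]; simp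

open Classical in
/-- The sum over `h = f e m³`, `m ≠ 0`. -/
lemma tsum_cube_term {A : ℝ} (hA : 0 < A) {e k₁ k₂ f : Eis} (he : IsPrim e) (hf : IsPrim f)
    (h1 : IsPrim k₁) (h2 : IsPrim k₂) (hc1 : IsCoprime (f * e) k₁) (hc2 : IsCoprime (f * e) k₂) :
    ∑' h : Eis, (if isCubeE e f h then trm A e k₁ k₂ f h else 0) =
      (1 / 3) * ((∑' m : Eis, (if m ≠ 0 ∧ IsCoprime m (k₁ * k₂) then
        Real.exp (-(4 * Real.pi ^ 2 * A * nm e / (27 * nm k₁ * nm k₂) * (nm m : ℝ) ^ 3)) else 0) :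
          ℝ) : ℂ) := by
  have hfe0 : f * e ≠ 0 := mul_ne_zero hf.ne_zero he.ne_zero
  set g : Eis → ℂ := fun c => if ∃ m : Eis, m ≠ 0 ∧ c = m ^ 3 then trm A e k₁ k₂ f (f * e * c) else 0
    with hg
  have hinj : Function.Injective (fun c : Eis => f * e * c) := mul_right_injective₀ hfe0
  have hval : ∀ c : Eis, (if isCubeE e f (f * e * c) then trm A e k₁ k₂ f (f * e * c) else 0) =
      g c := by
    intro c
    simp only [hg]
    have : isCubeE e f (f * e * c) ↔ ∃ m : Eis, m ≠ 0 ∧ c = m ^ 3 := by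
      unfold isCubeE
      constructor
      · rintro ⟨m, hm, h⟩
        exact ⟨m, hm, mul_left_cancel₀ hfe0 h⟩
      · rintro ⟨m, hm, rfl⟩
        exact ⟨m, hm, rfl⟩
    by_cases hc : ∃ m : Eis, m ≠ 0 ∧ c = m ^ 3
    · rw [if_pos (this.mpr hc), if_pos hc]
    · rw [if_neg (fun h => hc (this.mp h)), if_neg hc]
  have e1 : ∑' h : Eis, (if isCubeE e f h then trm A e k₁ k₂ f h else 0) = ∑' c, g c := by
    rw [← hinj.tsum_eq (f := fun h : Eis => if isCubeE e f h then trm A e k₁ k₂ f h else 0)]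
    · exact tsum_congr hval
    · intro h hh
      rw [Function.mem_support] at hh
      by_cases hc : isCubeE e f h
      · obtain ⟨m, hm, rfl⟩ := hc
        exact ⟨m ^ 3, rfl⟩
      · rw [if_neg hc] at hh; exact absurd rfl hh
  have hcub : ∀ m : Eis, g (m ^ 3) = (((if m ≠ 0 ∧ IsCoprime m (k₁ * k₂) then
      Real.exp (-(4 * Real.pi ^ 2 * A * nm e / (27 * nm k₁ * nm k₂) * (nm m : ℝ) ^ 3)) else 0) :
        ℝ) : ℂ) := by
    intro m
    simp only [hg]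
    by_cases hm : m = 0
    · subst hm
      rw [if_neg, if_neg]
      · simp
      · simp
      · rintro ⟨m', hm', h⟩
        exact hm' (pow_eq_zero_iff (three_ne_zero) |>.mp (by rw [← h]; simp))
    · rw [if_pos ⟨m, hm, rfl⟩, trm_cube he hf h1 h2 hc1 hc2]
      by_cases hcop : IsCoprime m (k₁ * k₂)
      · rw [if_pos hcop, if_pos ⟨hm, hcop⟩]
      · rw [if_neg hcop, if_neg (fun h => hcop h.2)]; simp
  obtain ⟨C, hC0, hC⟩ := coprime_cube_sum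
  have hcpos : 0 < 4 * Real.pi ^ 2 * A * nm e / (27 * nm k₁ * nm k₂) := by
    have := nm_pos.mpr he.ne_zero
    have := nm_pos.mpr h1.ne_zero
    have := nm_pos.mpr h2.ne_zero
    positivity
  have hs := (hC _ (k₁ * k₂) hcpos (h1.mul h2)).1
  rw [e1, Gram858.tsum_cubes (g := g)]
  · rw [tsum_congr hcub, Complex.ofReal_tsum]
  · simp only [hg]
    rw [if_neg]
    rintro ⟨m', hm', h⟩
    exact hm' (pow_eq_zero_iff (three_ne_zero) |>.mp h.symm)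
  · intro c hc
    simp only [hg] at hc
    by_contra hne
    apply hc
    rw [if_neg]
    rintro ⟨m, _, rfl⟩
    exact hne ⟨m, rfl⟩
  · have := (Complex.ofRealCLM.summable hs)
    refine this.congr (fun m => ?_)
    rw [hcub m]
    rfl

open Classical in
/-- The cube part of a pair, exactly. -/
lemma CP_eq {A : ℝ} (hA : 0 < A) (b₁ b₂ : Eis) :
    CP A b₁ b₂ = ((2 * Real.pi * A / (9 * Real.sqrt 3) /
      Real.sqrt ((nm (kE b₁ b₂) : ℝ) * nm (kE b₂ b₁)) * (PE (gE b₁ b₂) * (1 / 3)) *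
      ∑' m : Eis, (if m ≠ 0 ∧ IsCoprime m (kE b₁ b₂ * kE b₂ b₁) then
        Real.exp (-(4 * Real.pi ^ 2 * A * nm (gE b₁ b₂) /
          (27 * nm (kE b₁ b₂) * nm (kE b₂ b₁)) * (nm m : ℝ) ^ 3)) else 0) : ℝ) : ℂ) := by
  set e := gE b₁ b₂ with he
  set k₁ := kE b₁ b₂ with hk1
  set k₂ := kE b₂ b₁ with hk2
  have hep : IsPrim e := gE_isPrim _ _
  have hk1p : IsPrim k₁ := kE_isPrim _ _
  have hk2p : IsPrim k₂ := kE_isPrim _ _
  set T : ℝ := ∑' m : Eis, (if m ≠ 0 ∧ IsCoprime m (k₁ * k₂) then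
        Real.exp (-(4 * Real.pi ^ 2 * A * nm e / (27 * nm k₁ * nm k₂) * (nm m : ℝ) ^ 3)) else 0)
    with hT
  have hsum : ∀ f ∈ dvs e, ∑' h : Eis, (if isCubeE e f h then
        eC (toC h / (3 * toC sq3)) *
        (Real.exp (-(4 * Real.pi ^ 2 * A * nm h / (27 * nm f * nm k₁ * nm k₂))) : ℂ) *
        (sy h k₁ * (starRingEnd ℂ) (sy (f * e) k₁)) *
        (starRingEnd ℂ) (sy h k₂ * (starRingEnd ℂ) (sy (f * e) k₂)) else 0) = (1 / 3) * (T : ℂ) := by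
    intro f hf
    obtain ⟨hfp, hfe⟩ := (mem_dvs hep.ne_zero).mp hf
    have c1 : IsCoprime (f * e) k₁ := by
      have := coprime_gE_kE b₁ b₂
      exact IsCoprime.mul_left (this.of_isCoprime_of_dvd_left hfe) this
    have c2 : IsCoprime (f * e) k₂ := by
      have := coprime_gE_kE' b₁ b₂
      exact IsCoprime.mul_left (this.of_isCoprime_of_dvd_left hfe) this
    exact tsum_cube_term hA hep hfp hk1p hk2p c1 c2
  unfold CP dualP
  rw [Finset.sum_congr rfl (fun f hf => by rw [hsum f hf]), ← Finset.sum_mul]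
  have hPE : ∑ f ∈ dvs e, (((muE f : ℝ) / nm f : ℝ) : ℂ) = (PE e : ℂ) := by
    rw [PE_eq_sum hep.ne_zero]
    push_cast
    refine Finset.sum_congr rfl fun f _ => ?_
    ring
  rw [hPE]
  push_cast
  ring

lemma Ic_scale {A e n : ℝ} (hA : 0 < A) (he : 0 < e) (hn : 0 < n) :
    Ic (4 * Real.pi ^ 2 / 27 * (A * (e * n⁻¹))) = Ic (4 * Real.pi ^ 2 / 27) *
      (A ^ (-(1 / 3) : ℝ) * e ^ (-(1 / 3) : ℝ) * n ^ ((1 : ℝ) / 3)) := by
  have h0 : (0 : ℝ) < 4 * Real.pi ^ 2 / 27 := by positivity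
  have hn' : (n⁻¹ : ℝ) ^ (-(1 / 3) : ℝ) = n ^ ((1 : ℝ) / 3) := by
    rw [Real.inv_rpow hn.le, Real.rpow_neg hn.le, inv_inv]
  rw [Ic_eq (by positivity), Ic_eq h0,
    Real.mul_rpow h0.le (by positivity), Real.mul_rpow hA.le (by positivity),
    Real.mul_rpow he.le (by positivity), hn']
  ring

lemma alg_exp {A e n : ℝ} (hA : 0 < A) (he : 0 < e) (hn : 0 < n) :
    A ^ ((2 : ℝ) / 3) * (e ^ 2 * n) ^ (-(1 : ℝ) / 6) =
      A / Real.sqrt n * (A ^ (-(1 / 3) : ℝ) * e ^ (-(1 / 3) : ℝ) * n ^ ((1 : ℝ) / 3)) := by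
  have e1 : (e ^ 2 * n) ^ (-(1 : ℝ) / 6) = e ^ (-(1 / 3) : ℝ) * n ^ (-(1 : ℝ) / 6) := by
    rw [Real.mul_rpow (by positivity) hn.le, ← Real.rpow_natCast, ← Real.rpow_mul he.le]
    norm_num
  have e2 : n ^ (-(1 : ℝ) / 6) = n ^ ((1 : ℝ) / 3) / Real.sqrt n := by
    rw [Real.sqrt_eq_rpow, ← Real.rpow_sub hn]
    norm_num
  have e3 : A ^ ((2 : ℝ) / 3) = A * A ^ (-(1 / 3) : ℝ) := by
    rw [← Real.rpow_one_add' hA.le (by norm_num)]; norm_num
  rw [e1, e2, e3]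
  ring

/-- The main term, in real variables. -/
lemma main_alg {A e n P1 P2 : ℝ} (hA : 0 < A) (he : 0 < e) (hn : 0 < n) :
    cM * A ^ ((2 : ℝ) / 3) * (P1 * P2) * (e ^ 2 * n) ^ (-(1 : ℝ) / 6) =
      2 * Real.pi * A / (9 * Real.sqrt 3) / Real.sqrt n * (P1 * (1 / 3)) *
        (P2 * (2 / Real.sqrt 3 * Ic (4 * Real.pi ^ 2 / 27 * (A * (e * n⁻¹))))) := by
  have hcM : cM = 2 * Real.pi / (9 * Real.sqrt 3) * (1 / 3) * (2 / Real.sqrt 3) *
      Ic (4 * Real.pi ^ 2 / 27) := by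
    rw [cM, ← Gam413.cube_const]; rfl
  have h := alg_exp hA he hn
  rw [Ic_scale hA he hn, hcM]
  calc _ = 2 * Real.pi / (9 * Real.sqrt 3) * (1 / 3) * (2 / Real.sqrt 3) *
      Ic (4 * Real.pi ^ 2 / 27) * (P1 * P2) *
        (A ^ ((2 : ℝ) / 3) * (e ^ 2 * n) ^ (-(1 : ℝ) / 6)) := by ring
    _ = _ := by rw [h]; ring

/-- The size of the coefficient, in real variables. -/
lemma coef_alg {A e n P1 : ℝ} (hA : 0 < A) (he : 0 < e) (hn : 0 < n) (hP : P1 ≤ 1) :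
    2 * Real.pi * A / (9 * Real.sqrt 3) / Real.sqrt n * (P1 * (1 / 3)) ≤
      2 * Real.pi / (9 * Real.sqrt 3) * (1 / 3) * (A * e / Real.sqrt (e ^ 2 * n)) := by
  have e4 : Real.sqrt (e ^ 2 * n) = e * Real.sqrt n := by
    rw [Real.sqrt_mul (by positivity), Real.sqrt_sq he.le]
  have hs : 0 < Real.sqrt n := by positivity
  have h3 : 0 < Real.sqrt 3 := by positivity
  rw [e4]
  calc 2 * Real.pi * A / (9 * Real.sqrt 3) / Real.sqrt n * (P1 * (1 / 3))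
      ≤ 2 * Real.pi * A / (9 * Real.sqrt 3) / Real.sqrt n * (1 * (1 / 3)) := by gcongr
    _ = _ := by field_simp

/-- **(T1c)** -/
theorem t1c : T1c := by
  obtain ⟨C, hC0, hC⟩ := coprime_cube_sum
  refine ⟨2 * Real.pi / (9 * Real.sqrt 3) * (1 / 3) * C, 1, ?_⟩
  intro A b₁ b₂ hA h1 h2 _
  have hA0 : 0 < A := by linarith
  have hCP := CP_eq hA0 b₁ b₂
  have hPE : PE (gE b₁ b₂) * PE (kE b₁ b₂ * kE b₂ b₁) = PE (b₁ * b₂) := pp_dec h1 h2
  have hb1 : gE b₁ b₂ * kE b₁ b₂ = b₁ := gE_mul_kE h1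
  have hb2 : gE b₁ b₂ * kE b₂ b₁ = b₂ := by rw [gE_comm]; exact gE_mul_kE h2
  have hep : IsPrim (gE b₁ b₂) := gE_isPrim _ _
  have hk1p : IsPrim (kE b₁ b₂) := kE_isPrim _ _
  have hk2p : IsPrim (kE b₂ b₁) := kE_isPrim _ _
  generalize gE b₁ b₂ = e at *
  generalize kE b₁ b₂ = k₁ at *
  generalize kE b₂ b₁ = k₂ at *
  have hne : (0 : ℝ) < nm e := by exact_mod_cast nm_pos.mpr hep.ne_zero
  have hn1 : (0 : ℝ) < nm k₁ := by exact_mod_cast nm_pos.mpr hk1p.ne_zero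
  have hn2 : (0 : ℝ) < nm k₂ := by exact_mod_cast nm_pos.mpr hk2p.ne_zero
  have hn : (0 : ℝ) < (nm k₁ : ℝ) * nm k₂ := by positivity
  have hnb : (nm b₁ : ℝ) * nm b₂ = (nm e : ℝ) ^ 2 * ((nm k₁ : ℝ) * nm k₂) := by
    rw [← hb1, ← hb2, nm_mul, nm_mul]; push_cast; ring
  have hc : (4 * Real.pi ^ 2 * A * nm e / (27 * nm k₁ * nm k₂) : ℝ) =
      4 * Real.pi ^ 2 / 27 * (A * (nm e * ((nm k₁ : ℝ) * nm k₂)⁻¹)) := by field_simp
  rw [hCP, hc]
  have hb := (hC (4 * Real.pi ^ 2 / 27 * (A * (nm e * ((nm k₁ : ℝ) * nm k₂)⁻¹))) (k₁ * k₂)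
    (by positivity) (hk1p.mul hk2p)).2
  have hm := main_alg (P1 := PE e) (P2 := PE (k₁ * k₂)) hA0 hne hn
  have hq := coef_alg (P1 := PE e) hA0 hne hn (PE_le_one e)
  have hPE0 := (PE_pos e).le
  have htau : (tau (k₁ * k₂) : ℝ) ≤ tau (b₁ * b₂) := by
    exact_mod_cast tau_le_of_dvd (mul_ne_zero h1.1.ne_zero h2.1.ne_zero)
      (mul_dvd_mul ⟨e, by rw [← hb1]; ring⟩ ⟨e, by rw [← hb2]; ring⟩)
  unfold MM
  rw [hnb, ← hPE, hm]
  have hQ0 : 0 ≤ 2 * Real.pi * A / (9 * Real.sqrt 3) / Real.sqrt ((nm k₁ : ℝ) * nm k₂) *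
    (PE e * (1 / 3)) := by positivity
  generalize 2 * Real.pi * A / (9 * Real.sqrt 3) / Real.sqrt ((nm k₁ : ℝ) * nm k₂) *
    (PE e * (1 / 3)) = Q at *
  rw [← Complex.ofReal_sub, Complex.norm_real, Real.norm_eq_abs, ← mul_sub, abs_mul,
    abs_of_nonneg hQ0]
  refine (mul_le_mul hq (hb.trans (mul_le_mul_of_nonneg_left htau hC0)) (abs_nonneg _)
    (by positivity)).trans (le_of_eq ?_)
  rw [pow_one]; ring

end Crest.Agent.R012.T1c413
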