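import Crest.Agent.R012.T3Sharp_85
import Crest.Agent.R012.Spec_T_411
import Crest.Agent.R012.SpecM_49

/-!
# Row 12, item T3

`T3_proof : T411.T3` : the model-model main term of the dispersion;
`Dsf_eq : M49.Dsf = kap 1`.
-/

set_option autoImplicit false
set_option linter.unusedSimpArgs false
set_option linter.unusedVariables false

noncomputable section

open Finset MeasureTheory

namespace Crest.Agent.R012.T3_85

open Eis Crest.Agent.R012 Crest.Agent.R012.Mob705 Crest.Agent.R012.Div277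
open Crest.Agent.R012.Tau85

/-! ### `M49.Dsf = kap 1` -/

lemma zeta2_eq : M49.zeta2 = Z2 1 := by
  classical
  unfold M49.zeta2 Z2
  refine tsum_congr fun m => ?_
  unfold z2
  by_cases h : IsPrim m
  · rw [if_pos h, if_pos ⟨h, isCoprime_one_right⟩]
  · rw [if_neg h, if_neg (fun h' => h h'.1)]

theorem Dsf_eq : M49.Dsf = kap 1 := by
  have h1 := Z_mul_Z2 1
  have h2 := Z2_pos 1
  have h3 : Z 1 = (Z2 1)⁻¹ := eq_inv_of_mul_eq_one_left h1
  unfold M49.Dsf
  rw [kap_one, zeta2_eq, kap0, h3]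
  ring

/-! ### Exponential weights -/

/-- summand of `P3`. -/
def fq (A : ℝ) (b : Eis) (q : Eis × Eis) : ℝ := by
  classical
  exact if T411.SqP q.1 ∧ IsPrim q.2 ∧ IsCoprime (q.1 * q.2) b then
      Real.exp (-((nm q.1 : ℝ) * (nm q.2 : ℝ) ^ 3) / A) * (nm q.1 : ℝ) ^ (-(1 : ℝ) / 3) else 0

/-- coefficient of the pair `q`. -/
def cq (b : Eis) (q : Eis × Eis) : ℝ := by
  classical
  exact if q ∈ TP ∧ IsCoprime (cp q) b then (nm q.1 : ℝ) ^ (-(1 / 3) : ℝ) else 0

lemma cq_nonneg (b : Eis) (q : Eis × Eis) : 0 ≤ cq b q := by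
  classical
  unfold cq; split_ifs <;> positivity

lemma cond_iff (b : Eis) (q : Eis × Eis) :
    (T411.SqP q.1 ∧ IsPrim q.2 ∧ IsCoprime (q.1 * q.2) b) ↔ (q ∈ TP ∧ IsCoprime (cp q) b) := by
  rw [isCoprime_cp, IsCoprime.mul_left_iff]
  unfold T411.SqP TP
  simp only [Set.mem_setOf_eq]
  tauto

lemma fq_eq (A : ℝ) (b : Eis) (q : Eis × Eis) :
    fq A b q = cq b q * Real.exp (-(nm (cp q) : ℝ) / A) := by
  classical
  unfold fq cq
  by_cases h : q ∈ TP ∧ IsCoprime (cp q) b
  · rw [if_pos h, if_pos ((cond_iff b q).mpr h), nm_cp]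
    push_cast
    rw [mul_comm]
    norm_num
  · rw [if_neg h, if_neg (fun h' => h ((cond_iff b q).mp h')), zero_mul]

lemma cq_eq_zero {b : Eis} {q : Eis × Eis} (h : ¬ (q ∈ TP ∧ IsCoprime (cp q) b)) : cq b q = 0 := by
  classical
  unfold cq; rw [if_neg h]

/-- For each `t`, the sum of the coefficients with `N(a₀m³) ≤ t`. -/
lemma tsum_cq (b : Eis) (t : ℝ) :
    ∑' q : Eis × Eis, ENNReal.ofReal (if (nm (cp q) : ℝ) ≤ t then cq b q else 0) =
      ENNReal.ofReal (TT b t) := by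
  classical
  have h := tsum_TP' (E := ENNReal)
    (fun a => if a ∈ pb t then ENNReal.ofReal (g2 b a) else 0) ?_
  · rw [tsum_eq_sum (s := pb t) (fun a ha => if_neg ha)] at h
    have h2 : ∑ a ∈ pb t, (if a ∈ pb t then ENNReal.ofReal (g2 b a) else 0) =
        ENNReal.ofReal (TT b t) := by
      unfold TT
      rw [ENNReal.ofReal_sum_of_nonneg (fun a _ => g2_nonneg b a)]
      exact Finset.sum_congr rfl fun a ha => if_pos ha
    rw [← h2, h]
    refine tsum_congr fun q => ?_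
    by_cases hq : q ∈ TP
    · rw [if_pos hq]
      by_cases hn : (nm (cp q) : ℝ) ≤ t
      · rw [if_pos hn, if_pos (mem_pb.mpr ⟨hn, cp_isPrim hq⟩)]
        by_cases hc : IsCoprime (cp q) b
        · rw [g2_cp hq hc]; unfold cq; rw [if_pos ⟨hq, hc⟩]
        · unfold g2; rw [if_neg hc, cq_eq_zero (fun h' => hc h'.2)]
      · rw [if_neg hn, if_neg (fun h' => hn (mem_pb.mp h').1)]; simp
    · rw [if_neg hq, cq_eq_zero (fun h' => hq h'.1)]; simp
  · intro a ha
    have h0 : g2 b a = 0 := by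
      unfold g2
      rw [tauE_eq_zero ha]; simp
    rw [h0]; simp

/-- the weight. -/
def wt (A t : ℝ) : ℝ := A⁻¹ * Real.exp (-(A⁻¹ * t))

lemma wt_nonneg {A : ℝ} (hA : 0 < A) (t : ℝ) : 0 ≤ wt A t := by unfold wt; positivity

lemma measurable_wt (A : ℝ) : Measurable (wt A) := by unfold wt; fun_prop

lemma lint_wt {A : ℝ} (hA : 0 < A) {c n : ℝ} (hc : 0 ≤ c) (hn : 0 ≤ n) :
    ∫⁻ t in Set.Ioi 0, ENNReal.ofReal (if n ≤ t then c else 0) * ENNReal.ofReal (wt A t) =
      ENNReal.ofReal (c * Real.exp (-n / A)) := by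
  have e1 : ∀ t ∈ Set.Ioi (0 : ℝ), ENNReal.ofReal (if n ≤ t then c else 0) *
      ENNReal.ofReal (wt A t) =
      (Set.Ici n).indicator (fun t => ENNReal.ofReal (c * wt A t)) t := by
    intro t _
    by_cases h : n ≤ t
    · rw [if_pos h, Set.indicator_of_mem (show t ∈ Set.Ici n from h), ENNReal.ofReal_mul hc]
    · rw [if_neg h, Set.indicator_of_notMem (show t ∉ Set.Ici n from h)]; simp
  rw [setLIntegral_congr_fun measurableSet_Ioi e1, lintegral_indicator measurableSet_Ici,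
    Measure.restrict_restrict measurableSet_Ici]
  have e2 : (∫⁻ t in Set.Ici n ∩ Set.Ioi 0, ENNReal.ofReal (c * wt A t)) =
      ∫⁻ t in Set.Ioi n, ENNReal.ofReal (c * wt A t) := by
    apply setLIntegral_congr
    rcases hn.lt_or_eq with h | h
    · have : Set.Ici n ∩ Set.Ioi 0 = Set.Ici n := by
        ext x; simp only [Set.mem_inter_iff, Set.mem_Ici, Set.mem_Ioi]
        constructor
        · exact fun hx => hx.1
        · exact fun hx => ⟨hx, by linarith⟩
      rw [this]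
      exact Ioi_ae_eq_Ici.symm
    · subst h
      have : Set.Ici (0 : ℝ) ∩ Set.Ioi 0 = Set.Ioi 0 := by
        ext x; simp only [Set.mem_inter_iff, Set.mem_Ici, Set.mem_Ioi]
        constructor
        · exact fun hx => hx.2
        · exact fun hx => ⟨hx.le, hx⟩
      rw [this]
  rw [e2]
  have hi : IntegrableOn (fun t => c * wt A t) (Set.Ioi n) := by
    have := (integrableOn_exp_mul_Ioi (a := -A⁻¹) (by simpa using hA) n).const_mul (c * A⁻¹)
    refine IntegrableOn.congr_fun (f := fun x => c * A⁻¹ * Real.exp (-A⁻¹ * x)) this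
      (fun t _ => ?_) measurableSet_Ioi
    unfold wt; simp only; rw [neg_mul]; ring
  rw [← ofReal_integral_eq_lintegral_ofReal hi
    (Filter.Eventually.of_forall fun t => mul_nonneg hc (wt_nonneg hA t))]
  congr 1
  have e3 : ∀ t, c * wt A t = (c * A⁻¹) * Real.exp (-A⁻¹ * t) := by
    intro t; unfold wt; rw [neg_mul]; ring
  simp_rw [e3]
  rw [integral_const_mul, integral_exp_mul_Ioi (by simpa using hA)]
  have hA' : A ≠ 0 := hA.ne'
  have e4 : -A⁻¹ * n = -n / A := by field_simp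
  rw [e4]
  field_simp

lemma P3_eq {A : ℝ} (hA : 0 < A) (b : Eis) :
    T411.P3 A b = ∫ t in Set.Ioi 0, TT b t * wt A t := by
  classical
  have h1 : T411.P3 A b = ∑' q, fq A b q := rfl
  have hnn : ∀ q, 0 ≤ fq A b q := fun q => by
    rw [fq_eq]; exact mul_nonneg (cq_nonneg b q) (Real.exp_nonneg _)
  have hTT : ∀ t, 0 ≤ TT b t := fun t => Finset.sum_nonneg fun a _ => g2_nonneg b a
  have hTm : Measurable (TT b) := by
    have : Monotone (TT b) := by
      intro s t hst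
      exact Finset.sum_le_sum_of_subset_of_nonneg (pb_mono hst) fun a _ _ => g2_nonneg b a
    exact this.measurable
  have h2 : ∑' q, fq A b q = (∑' q, ENNReal.ofReal (fq A b q)).toReal := by
    rw [ENNReal.tsum_toReal_eq (fun q => ENNReal.ofReal_ne_top)]
    exact tsum_congr fun q => (ENNReal.toReal_ofReal (hnn q)).symm
  have h3 : ∀ q, ENNReal.ofReal (fq A b q) = ∫⁻ t in Set.Ioi 0,
      ENNReal.ofReal (if (nm (cp q) : ℝ) ≤ t then cq b q else 0) * ENNReal.ofReal (wt A t) := by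
    intro q
    rw [lint_wt hA (cq_nonneg b q) (Nat.cast_nonneg _), fq_eq]
  rw [h1, h2, integral_eq_lintegral_of_nonneg_ae
    (Filter.Eventually.of_forall fun t => mul_nonneg (hTT t) (wt_nonneg hA t))
    (hTm.mul (measurable_wt A)).aestronglyMeasurable]
  congr 1
  rw [tsum_congr h3, ← lintegral_tsum]
  · refine lintegral_congr fun t => ?_
    rw [ENNReal.tsum_mul_right, tsum_cq, ENNReal.ofReal_mul (hTT t)]
  · intro q
    refine (Measurable.mul ?_ (measurable_wt A).ennreal_ofReal).aemeasurable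
    refine Measurable.ennreal_ofReal (Measurable.ite ?_ measurable_const measurable_const)
    exact measurableSet_Ici

lemma int_pow_wt {A s : ℝ} (hA : 0 < A) (hs : 0 < s + 1) :
    IntegrableOn (fun t => t ^ s * wt A t) (Set.Ioi 0) ∧
      ∫ t in Set.Ioi 0, t ^ s * wt A t = A ^ s * Real.Gamma (s + 1) := by
  have h := Real.integral_rpow_mul_exp_neg_mul_Ioi (a := s + 1) (r := A⁻¹) hs (by positivity)
  have e : ∀ t : ℝ, t ^ s * wt A t = A⁻¹ * (t ^ (s + 1 - 1) * Real.exp (-(A⁻¹ * t))) := by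
    intro t; unfold wt; rw [add_sub_cancel_right]; ring
  have hne : ∫ t in Set.Ioi 0, t ^ (s + 1 - 1) * Real.exp (-(A⁻¹ * t)) ≠ 0 := by
    rw [h]
    have := Real.Gamma_pos_of_pos hs
    positivity
  constructor
  · simp_rw [e]
    exact (Integrable.of_integral_ne_zero hne).const_mul _
  · simp_rw [e]
    rw [integral_const_mul, h]
    have : (1 / A⁻¹) ^ (s + 1) = A ^ s * A := by
      rw [one_div, inv_inv, Real.rpow_add_one hA.ne']
    rw [this]
    field_simp

lemma EL_le {A t : ℝ} (hA : 1 ≤ A) (ht : 0 < t) :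
    EL t ≤ 2 * (1 + Real.log A) * (1 + Real.sqrt (A⁻¹ * t)) := by
  have hA0 : 0 < A := by linarith
  have hlA : 0 ≤ Real.log A := Real.log_nonneg hA
  have hs : Real.sqrt t = Real.sqrt A * Real.sqrt (A⁻¹ * t) := by
    rw [← Real.sqrt_mul hA0.le, mul_inv_cancel_left₀ hA0.ne']
  set x := Real.sqrt (A⁻¹ * t) with hx
  have hx0 : 0 ≤ x := Real.sqrt_nonneg _
  have hsA : 1 ≤ Real.sqrt A := by
    rw [show (1 : ℝ) = Real.sqrt 1 by simp]; exact Real.sqrt_le_sqrt hA
  unfold EL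
  rw [hs]
  have h1 : 1 + Real.sqrt A * x ≤ (2 * Real.sqrt A) * (1 + x) := by nlinarith
  have h2 : Real.log (1 + Real.sqrt A * x) ≤ Real.log ((2 * Real.sqrt A) * (1 + x)) :=
    Real.log_le_log (by positivity) h1
  rw [Real.log_mul (by positivity) (by positivity), Real.log_mul (by norm_num) (by positivity),
    Real.log_sqrt hA0.le] at h2
  have h3 : Real.log (1 + x) ≤ x := by
    have := Real.log_le_sub_one_of_pos (x := 1 + x) (by positivity)
    linarith
  have h4 : Real.log 2 < 1 := by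
    have := Real.log_two_lt_d9; linarith
  nlinarith [mul_nonneg hlA hx0]

theorem T3_proof : T411.T3 := by
  classical
  refine ⟨20000000 * (Real.Gamma (1 / 3 + 1) + Real.Gamma (5 / 6 + 1)), 1, fun A b hA hb => ?_⟩
  have hA0 : 0 < A := by linarith
  have hb0 := hb.ne_zero
  have hlA : 0 ≤ Real.log A := Real.log_nonneg hA
  obtain ⟨hi1, hv1⟩ := int_pow_wt (s := 2 / 3) hA0 (by norm_num)
  obtain ⟨hi2, hv2⟩ := int_pow_wt (s := 1 / 3) hA0 (by norm_num)
  obtain ⟨hi3, hv3⟩ := int_pow_wt (s := 5 / 6) hA0 (by norm_num)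
  have hTm : Measurable (TT b) := by
    have : Monotone (TT b) := by
      intro s t hst
      exact Finset.sum_le_sum_of_subset_of_nonneg (pb_mono hst) fun a _ _ => g2_nonneg b a
    exact this.measurable
  -- the difference
  set K := 20000000 * sig b * (1 + Real.log A) with hK
  have hs1 := one_le_sig b
  have hK0 : 0 ≤ K := by positivity
  have hbound : ∀ t ∈ Set.Ioi (0 : ℝ),
      ‖(TT b t - 3 / 2 * (kap0 * PE b) * t ^ (2 / 3 : ℝ)) * wt A t‖ ≤
      K * (t ^ (1 / 3 : ℝ) * wt A t) + K * A ^ (-(1 / 2) : ℝ) * (t ^ (5 / 6 : ℝ) * wt A t) := by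
    intro t ht
    have ht0 : 0 < t := ht
    rw [norm_mul, Real.norm_eq_abs, Real.norm_eq_abs, abs_of_nonneg (wt_nonneg hA0 t)]
    have h1 := abs_TT_sub_le hb0 ht0.le
    have h2 := EL_le hA ht0
    have hw := wt_nonneg hA0 t
    have h3 : Real.sqrt (A⁻¹ * t) = A ^ (-(1 / 2) : ℝ) * t ^ (1 / 2 : ℝ) := by
      rw [Real.sqrt_eq_rpow, Real.mul_rpow (by positivity) ht0.le, Real.inv_rpow hA0.le,
        Real.rpow_neg hA0.le]
    have h4 : t ^ (5 / 6 : ℝ) = t ^ (1 / 3 : ℝ) * t ^ (1 / 2 : ℝ) := by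
      rw [← Real.rpow_add ht0]; norm_num
    calc |TT b t - 3 / 2 * (kap0 * PE b) * t ^ (2 / 3 : ℝ)| * wt A t ≤
        (10000000 * sig b * t ^ (1 / 3 : ℝ) *
          (2 * (1 + Real.log A) * (1 + Real.sqrt (A⁻¹ * t)))) * wt A t := by
          gcongr
          refine h1.trans ?_
          have : 0 ≤ 10000000 * sig b * t ^ (1 / 3 : ℝ) := by positivity
          exact mul_le_mul_of_nonneg_left h2 this
      _ = _ := by rw [h3, h4, hK]; ring
  have hI1 : IntegrableOn (fun t => K * (t ^ (1 / 3 : ℝ) * wt A t) +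
      K * A ^ (-(1 / 2) : ℝ) * (t ^ (5 / 6 : ℝ) * wt A t)) (Set.Ioi 0) :=
    (hi2.const_mul K).add (hi3.const_mul _)
  have hI2 : IntegrableOn (fun t => (TT b t - 3 / 2 * (kap0 * PE b) * t ^ (2 / 3 : ℝ)) * wt A t)
      (Set.Ioi 0) := by
    refine Integrable.mono' hI1 ?_ ?_
    · refine Measurable.aestronglyMeasurable ?_
      exact (hTm.sub (measurable_const.mul (measurable_id.pow_const _))).mul (measurable_wt A)
    · filter_upwards [ae_restrict_mem measurableSet_Ioi] with t ht using hbound t ht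
  have hI3 : IntegrableOn (fun t => 3 / 2 * (kap0 * PE b) * (t ^ (2 / 3 : ℝ) * wt A t))
      (Set.Ioi 0) := hi1.const_mul _
  have e1 : T411.P3 A b - 2 * Real.pi / (9 * Real.sqrt 3) * Real.Gamma (2 / 3) * PE b *
      A ^ ((2 : ℝ) / 3) =
      ∫ t in Set.Ioi 0, (TT b t - 3 / 2 * (kap0 * PE b) * t ^ (2 / 3 : ℝ)) * wt A t := by
    have e2 : ∫ t in Set.Ioi 0, TT b t * wt A t =
        (∫ t in Set.Ioi 0, (TT b t - 3 / 2 * (kap0 * PE b) * t ^ (2 / 3 : ℝ)) * wt A t) +
        ∫ t in Set.Ioi 0, 3 / 2 * (kap0 * PE b) * (t ^ (2 / 3 : ℝ) * wt A t) := by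
      rw [← integral_add hI2 hI3]
      refine setIntegral_congr_fun measurableSet_Ioi fun t _ => ?_
      ring
    rw [P3_eq hA0, e2, integral_const_mul, hv1, Real.Gamma_add_one (by norm_num)]
    unfold kap0
    ring
  rw [e1, ← Real.norm_eq_abs]
  refine (norm_integral_le_integral_norm _).trans ?_
  refine (setIntegral_mono_on hI2.norm hI1 measurableSet_Ioi hbound).trans ?_
  rw [integral_add (hi2.const_mul K) (hi3.const_mul _), integral_const_mul, integral_const_mul,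
    hv2, hv3]
  have e3 : A ^ (-(1 / 2) : ℝ) * A ^ (5 / 6 : ℝ) = A ^ (1 / 3 : ℝ) := by
    rw [← Real.rpow_add hA0]; norm_num
  have hg1 : 0 < Real.Gamma (1 / 3 + 1) := Real.Gamma_pos_of_pos (by norm_num)
  have hg2 : 0 < Real.Gamma (5 / 6 + 1) := Real.Gamma_pos_of_pos (by norm_num)
  calc K * (A ^ (1 / 3 : ℝ) * Real.Gamma (1 / 3 + 1)) +
        K * A ^ (-(1 / 2) : ℝ) * (A ^ (5 / 6 : ℝ) * Real.Gamma (5 / 6 + 1)) =
      K * ((A ^ (1 / 3 : ℝ)) * (Real.Gamma (1 / 3 + 1))) +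
        K * ((A ^ (-(1 / 2) : ℝ) * A ^ (5 / 6 : ℝ)) * Real.Gamma (5 / 6 + 1)) := by ring
    _ = 20000000 * (Real.Gamma (1 / 3 + 1) + Real.Gamma (5 / 6 + 1)) * sig b *
        A ^ (1 / 3 : ℝ) * (1 + Real.log A) := by rw [e3, hK]; ring
    _ ≤ 20000000 * (Real.Gamma (1 / 3 + 1) + Real.Gamma (5 / 6 + 1)) * (tau b : ℝ) ^ 1 *
        A ^ ((1 : ℝ) / 3) * (1 + Real.log A) := by
        rw [pow_one]
        gcongr
        exact sig_le_tau hb0

end Crest.Agent.R012.T3_85
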