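import Crest.Agent.R012.T13_541
import Crest.Agent.R012.T3_85
import Crest.Agent.R012.T1c_413

/-!
# Row 12, part (T): (T13) holds (helper541)
-/

set_option autoImplicit false

namespace Crest.Agent.R012.T13x541

/-- (T13), unconditional. -/
theorem t13 : T411.T13 := t13_of_t1c_t3 T1c413.t1c T3_85.T3_proof

end Crest.Agent.R012.T13x541
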