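import Crest.Agent.R012.T1d_671

/-!
# Row 12: `T411.T1d`

* `sep_main` : separated form of the dual sum over all pairs, arbitrary set of frequencies,
  weight `(1 + N(h)/K)^{-N}`
* `t1d : T411.T1d`
-/

set_option autoImplicit false

noncomputable section

open Finset MeasureTheory

namespace Crest.Agent.R012.T1d671

open Eis Div277 Mob705 Tau671 T411 T1x671

open Classical in
lemma summable_wK_Q {A B : ℝ} (hA : 0 < A) (hB : 0 < B) {N : ℕ} (hN : 2 ≤ N) {𝓑 : Finset Eis}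
    (hsq : ∀ b ∈ 𝓑, SqP b) (β : Eis → ℂ) {e f : Eis} (he : IsPrim e) (hf : IsPrim f) (g : Eis)
    (H : Eis → Prop) : Summable (fun h : Eis => if H h then wK N A B e f h *
        ∫ u : ℝ, (1 + u ^ 2)⁻¹ * ‖Qf 𝓑 β e f g h u‖ ^ 2 else 0) := by
  refine Summable.of_norm_bounded ((summable_wK hA hB hN he hf).mul_right
    (Real.pi * (∑ n ∈ 𝓑.biUnion dvs, ‖β (e * g * n)‖) ^ 2)) fun h => ?_
  have h1 := wK_nonneg (B := B) hA N e f h
  have h2 := integral_Qf_nonneg 𝓑 β e f g h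
  split_ifs
  · rw [Real.norm_of_nonneg (by positivity)]
    exact mul_le_mul_of_nonneg_left (integral_Qf_le hsq β e f g h) h1
  · rw [norm_zero]
    have := Real.pi_pos
    positivity

open Classical in
/-- **Separated form of the dual sum of all pairs.** -/
theorem sep_main (N : ℕ) (hN : 2 ≤ N) : ∃ C : ℝ, 0 < C ∧
    ∀ (A B : ℝ) (𝓑 : Finset Eis) (β : Eis → ℂ),
    0 < A → 0 < B → (∀ b ∈ 𝓑, SqP b) → (∀ b ∈ 𝓑, B < nm b) → (∀ b ∈ 𝓑, (nm b : ℝ) ≤ 2 * B) →
    ∀ H : Eis → Eis → Eis → Prop,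
    ‖∑ e ∈ 𝓑.biUnion dvs, ∑ k1 ∈ 𝓑.biUnion dvs, ∑ k2 ∈ 𝓑.biUnion dvs,
      (if e * k1 ∈ 𝓑 ∧ e * k2 ∈ 𝓑 ∧ IsCoprime k1 k2 then
        β (e * k1) * (starRingEnd ℂ) (β (e * k2)) * dualP A e k1 k2 (H e) else 0)‖ ≤
      C * ∑ e ∈ 𝓑.biUnion dvs, ∑ f ∈ dvs e, ∑ g ∈ (𝓑.biUnion dvs).filter (IsCoprime · e),
        A * nm e / (B * nm f) * ∑' h : Eis, if H e f h then
          wK N A B e f h * ∫ u : ℝ, (1 + u ^ 2)⁻¹ * ‖Qf 𝓑 β e f g h u‖ ^ 2 else 0 := by
  obtain ⟨C, hC, hb⟩ := norm_Br_le N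
  refine ⟨2 * Real.pi / (9 * Real.sqrt 3) * C, by positivity,
    fun A B 𝓑 β hA hB hsq hlo hhi H => ?_⟩
  rw [Finset.mul_sum]
  refine (norm_sum_le _ _).trans (Finset.sum_le_sum fun e he => ?_)
  have hep := mem_D hsq he
  have ne : (0 : ℝ) < nm e := by exact_mod_cast nm_pos.mpr hep.ne_zero
  rw [sum_dualP_eq hA hsq β e (H e), norm_mul, Complex.norm_real,
    Real.norm_of_nonneg (by positivity)]
  have h1 : ‖∑ f ∈ dvs e, (((muE f : ℝ) / nm f : ℝ) : ℂ) *
        ∑' h : Eis, (if H e f h then ph h * Br A 𝓑 β e f h else 0)‖ ≤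
      ∑ f ∈ dvs e, (nm f : ℝ)⁻¹ * (C * (nm e / B) *
        ∑ g ∈ (𝓑.biUnion dvs).filter (IsCoprime · e), ∑' h : Eis, if H e f h then
          wK N A B e f h * ∫ u : ℝ, (1 + u ^ 2)⁻¹ * ‖Qf 𝓑 β e f g h u‖ ^ 2 else 0) := by
    refine (norm_sum_le _ _).trans (Finset.sum_le_sum fun f hf => ?_)
    have hfp := isPrim_of_mem_dvs hf
    have nf : (0 : ℝ) < nm f := by exact_mod_cast nm_pos.mpr hfp.ne_zero
    rw [norm_mul]
    have h2 : ‖(((muE f : ℝ) / nm f : ℝ) : ℂ)‖ ≤ (nm f : ℝ)⁻¹ := by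
      rw [Complex.norm_real, norm_div, Real.norm_eq_abs, Real.norm_of_nonneg nf.le, ← one_div]
      gcongr
      exact abs_muE_le_real f
    refine mul_le_mul h2 ?_ (norm_nonneg _) (by positivity)
    refine tsum_of_norm_bounded (g := fun h => C * (nm e / B) *
        ∑ g ∈ (𝓑.biUnion dvs).filter (IsCoprime · e), if H e f h then
          wK N A B e f h * ∫ u : ℝ, (1 + u ^ 2)⁻¹ * ‖Qf 𝓑 β e f g h u‖ ^ 2 else 0) ?_ ?_
    · refine HasSum.mul_left _ (hasSum_sum fun g _ => ?_)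
      exact (summable_wK_Q hA hB hN hsq β hep hfp g (H e f)).hasSum
    · intro h
      by_cases hH : H e f h
      · simp only [if_pos hH]
        rw [norm_mul, norm_ph, one_mul]
        exact hb A B 𝓑 β hA hB hsq hlo hhi e f h hep hfp (dvd_of_mem_dvs hf)
      · simp only [if_neg hH, Finset.sum_const_zero, mul_zero, norm_zero, le_refl]
  calc 2 * Real.pi * A / (9 * Real.sqrt 3) * ‖∑ f ∈ dvs e, (((muE f : ℝ) / nm f : ℝ) : ℂ) *
        ∑' h : Eis, (if H e f h then ph h * Br A 𝓑 β e f h else 0)‖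
      ≤ 2 * Real.pi * A / (9 * Real.sqrt 3) *
        ∑ f ∈ dvs e, (nm f : ℝ)⁻¹ * (C * (nm e / B) *
        ∑ g ∈ (𝓑.biUnion dvs).filter (IsCoprime · e), ∑' h : Eis, if H e f h then
          wK N A B e f h * ∫ u : ℝ, (1 + u ^ 2)⁻¹ * ‖Qf 𝓑 β e f g h u‖ ^ 2 else 0) := by
        gcongr
    _ = _ := by
        rw [Finset.mul_sum, Finset.mul_sum]
        refine Finset.sum_congr rfl fun f hf => ?_
        have nf : (0 : ℝ) < nm f := by
          exact_mod_cast nm_pos.mpr (isPrim_of_mem_dvs hf).ne_zero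
        rw [← Finset.mul_sum]
        field_simp

/-! ### The diagonal -/

lemma sum_exp_Icc_le {y : ℝ} (hy : 0 < y) (X : ℕ) :
    ∑ m ∈ Icc 1 X, Real.exp (-(y * m)) ≤ (1 - Real.exp (-(y * X))) / y := by
  induction X with
  | zero => simp
  | succ X ih =>
    rw [Finset.sum_Icc_succ_top (by omega)]
    refine (add_le_add ih le_rfl).trans ?_
    rw [div_add' _ _ _ hy.ne']
    gcongr
    have h1 : y + 1 ≤ Real.exp y := Real.add_one_le_exp y
    have h2 : Real.exp (-(y * X)) = Real.exp (-(y * ((X + 1 : ℕ) : ℝ))) * Real.exp y := by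
      rw [← Real.exp_add]; congr 1; push_cast; ring
    rw [h2]
    nlinarith [Real.exp_pos (-(y * ((X + 1 : ℕ) : ℝ)))]

open Classical in
lemma tsum_exp_le {y : ℝ} (hy : 0 < y) :
    ∑' h : Eis, (if h ≠ 0 then Real.exp (-(y * nm h)) else 0) ≤ 100 / y := by
  have hs : Summable (fun h : Eis => if h ≠ 0 then Real.exp (-(y * nm h)) else 0) := by
    refine Summable.of_norm_bounded (summable_exp hy) fun h => ?_
    split_ifs
    · rw [Real.norm_of_nonneg (Real.exp_pos _).le]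
    · rw [norm_zero]; positivity
  refine hs.tsum_le_of_sum_le fun s => ?_
  obtain ⟨X, hX⟩ : ∃ X : ℕ, ∀ h ∈ s, nm h ≤ X := by
    refine ⟨s.sup nm, fun h hh => Finset.le_sup hh⟩
  calc ∑ h ∈ s, (if h ≠ 0 then Real.exp (-(y * nm h)) else 0)
      = ∑ h ∈ s.filter (· ≠ 0), Real.exp (-(y * nm h)) := by rw [Finset.sum_filter]
    _ ≤ ∑ h ∈ nz X, Real.exp (-(y * nm h)) := by
        refine Finset.sum_le_sum_of_subset_of_nonneg ?_ fun _ _ _ => (Real.exp_pos _).le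
        intro h hh
        rw [Finset.mem_filter] at hh
        exact mem_nz.mpr ⟨hh.2, hX h hh.1⟩
    _ ≤ 100 * ∑ m ∈ Icc 1 X, Real.exp (-(y * m)) := by
        refine sum_antitone_le (fun m => Real.exp (-(y * m))) ?_ (fun m => (Real.exp_pos _).le) X
        intro m _
        apply Real.exp_le_exp.mpr
        push_cast
        nlinarith
    _ ≤ 100 * ((1 - Real.exp (-(y * X))) / y) := by gcongr; exact sum_exp_Icc_le hy X
    _ ≤ 100 * (1 / y) := by
        gcongr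
        linarith [Real.exp_pos (-(y * X))]
    _ = 100 / y := by ring

open Classical in
/-- the noncube part of the diagonal is small -/
lemma norm_NP_self_le {A : ℝ} (hA : 0 < A) {b : Eis} (hb : SqP b) :
    ‖NP A b b‖ ≤ 200 * tau b := by
  unfold NP
  rw [gE_self hb, kE_self, dualP_eq, norm_mul, Complex.norm_real,
    Real.norm_of_nonneg (by positivity)]
  have h1 : ‖∑ f ∈ dvs b, (((muE f : ℝ) / nm f : ℝ) : ℂ) *
      ∑' h : Eis, (if isNonCubeE b f h then dT A b 1 1 f h else 0)‖ ≤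
      ∑ f ∈ dvs b, (27 * 100 / (4 * Real.pi ^ 2 * A)) := by
    refine (norm_sum_le _ _).trans (Finset.sum_le_sum fun f hf => ?_)
    have nf : (0 : ℝ) < nm f := by
      exact_mod_cast nm_pos.mpr (isPrim_of_mem_dvs hf).ne_zero
    rw [norm_mul]
    have h2 : ‖(((muE f : ℝ) / nm f : ℝ) : ℂ)‖ ≤ (nm f : ℝ)⁻¹ := by
      rw [Complex.norm_real, norm_div, Real.norm_eq_abs, Real.norm_of_nonneg nf.le, ← one_div]
      gcongr
      exact abs_muE_le_real f
    have hy : 0 < 4 * Real.pi ^ 2 * A / (27 * nm f) := by positivity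
    have h3 : ‖∑' h : Eis, (if isNonCubeE b f h then dT A b 1 1 f h else 0)‖ ≤
        ∑' h : Eis, (if h ≠ 0 then Real.exp (-(4 * Real.pi ^ 2 * A / (27 * nm f) * nm h))
          else 0) := by
      refine tsum_of_norm_bounded (Summable.hasSum ?_) fun h => ?_
      · refine Summable.of_norm_bounded (summable_exp hy) fun h => ?_
        split_ifs
        · rw [Real.norm_of_nonneg (Real.exp_pos _).le]
        · rw [norm_zero]; positivity
      · by_cases hh : isNonCubeE b f h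
        · rw [if_pos hh, if_pos hh.1]
          refine (norm_dT_le b f h isPrim_one isPrim_one).trans (le_of_eq ?_)
          rw [nm_one]
          congr 2
          push_cast
          field_simp
        · rw [if_neg hh, norm_zero]
          split_ifs <;> positivity
    calc _ ≤ (nm f : ℝ)⁻¹ * (100 / (4 * Real.pi ^ 2 * A / (27 * nm f))) := by
          refine mul_le_mul h2 (h3.trans (tsum_exp_le hy)) (norm_nonneg _) (by positivity)
      _ = _ := by field_simp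
  calc _ ≤ 2 * Real.pi * A / (9 * Real.sqrt 3) / Real.sqrt ((nm 1 : ℝ) * nm 1) *
        ∑ f ∈ dvs b, (27 * 100 / (4 * Real.pi ^ 2 * A)) := by gcongr
    _ = (150 / (Real.pi * Real.sqrt 3)) * tau b := by
        rw [Finset.sum_const, nsmul_eq_mul, nm_one]
        unfold tau
        push_cast
        rw [mul_one, Real.sqrt_one]
        field_simp
        ring
    _ ≤ 200 * tau b := by
        gcongr
        rw [div_le_iff₀ (by positivity)]
        have h3 : 1 ≤ Real.sqrt 3 := by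
          rw [Real.one_le_sqrt]; norm_num
        nlinarith [Real.pi_gt_three]

/-! ### T1d -/

lemma wK_two_le_om {A B : ℝ} (hA : 0 < A) (hB : 0 < B) {e f h : Eis} (he : IsPrim e)
    (hf : IsPrim f) (hh : h ≠ 0) :
    wK 2 A B e f h ≤ om (nm f * B ^ 2 / ((nm e : ℝ) ^ 2 * A)) h := by
  have ne : (0 : ℝ) < nm e := by exact_mod_cast nm_pos.mpr he.ne_zero
  have nf : (0 : ℝ) < nm f := by exact_mod_cast nm_pos.mpr hf.ne_zero
  have nh : (0 : ℝ) < nm h := by exact_mod_cast nm_pos.mpr hh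
  set x := nm f * B ^ 2 / ((nm e : ℝ) ^ 2 * A) / nm h with hx
  have hx0 : 0 < x := by positivity
  have e1 : wK 2 A B e f h = ((1 + x⁻¹) ^ 2)⁻¹ := by
    unfold wK
    congr 3
    rw [hx]
    field_simp
  rw [e1]
  unfold om
  rw [← hx]
  refine le_min ?_ ?_
  · rcases le_total x 1 with h1 | h1
    · have h2 : x ^ 2 ≤ x ^ ((1 : ℝ) / 4) := by
        rw [← Real.rpow_natCast]
        exact Real.rpow_le_rpow_of_exponent_ge hx0 h1 (by norm_num)
      refine le_trans ?_ h2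
      rw [inv_le_comm₀ (by positivity) (by positivity), ← inv_pow]
      gcongr
      linarith
    · have h2 : 1 ≤ x ^ ((1 : ℝ) / 4) := Real.one_le_rpow h1 (by norm_num)
      refine le_trans ?_ h2
      apply inv_le_one_of_one_le₀
      apply one_le_pow₀
      have : 0 < x⁻¹ := by positivity
      linarith
  · have : x ^ (2 : ℝ) = x ^ 2 := by
      rw [← Real.rpow_natCast]; norm_num
    rw [this, inv_le_comm₀ (by positivity) (by positivity), ← inv_pow]
    gcongr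
    linarith

lemma om_nonneg {K : ℝ} (hK : 0 < K) (h : Eis) : 0 ≤ om K h := by
  unfold om
  exact le_min (by positivity) (by positivity)

open Classical in
lemma summable_om {K : ℝ} (hK : 0 < K) (P : Eis → Prop) (hP : ∀ h, P h → h ≠ 0) (M : ℝ)
    (hM : 0 ≤ M) : Summable (fun h : Eis => if P h then om K h * M else 0) := by
  have h0 := (summable_wt (c := 1) one_pos (N := 2) le_rfl).mul_left (4 * K ^ 2 * M)
  refine Summable.of_nonneg_of_le (fun h => ?_) (fun h => ?_) h0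
  · split_ifs
    · exact mul_nonneg (om_nonneg hK h) hM
    · exact le_rfl
  · split_ifs with hh
    · have n1 : (1 : ℝ) ≤ nm h := by exact_mod_cast nm_pos.mpr (hP h hh)
      have h1 : om K h ≤ (K / nm h) ^ 2 := by
        unfold om
        refine (min_le_right _ _).trans (le_of_eq ?_)
        rw [← Real.rpow_natCast]; norm_num
      calc om K h * M ≤ (K / nm h) ^ 2 * M := by gcongr
        _ = K ^ 2 * M * ((nm h : ℝ) ^ 2)⁻¹ := by rw [div_pow]; ring
        _ ≤ K ^ 2 * M * (4 * ((1 + (nm h : ℝ) * 1) ^ 2)⁻¹) := by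
            gcongr
            rw [inv_le_iff_one_le_mul₀ (by positivity), ← div_eq_mul_inv, div_mul_eq_mul_div,
              one_le_div (by positivity)]
            nlinarith
        _ = _ := by ring
    · have : 0 ≤ ((1 + (nm h : ℝ) * 1) ^ 2)⁻¹ := by positivity
      positivity

open Classical in
/-- exchange of the sum over `h` and the integral -/
lemma tsum_integral_le {A B : ℝ} (hA : 0 < A) (hB : 0 < B) {𝓑 : Finset Eis}
    (hsq : ∀ b ∈ 𝓑, SqP b) (β : Eis → ℂ) {e f : Eis} (he : IsPrim e) (hf : IsPrim f) (g : Eis) :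
    ∑' h : Eis, (if isNonCubeE e f h then
          wK 2 A B e f h * ∫ u : ℝ, (1 + u ^ 2)⁻¹ * ‖Qf 𝓑 β e f g h u‖ ^ 2 else 0) ≤
      ∫ u : ℝ, (1 + u ^ 2)⁻¹ * ∑' h : Eis, if isNonCubeE e f h then
        om (nm f * B ^ 2 / ((nm e : ℝ) ^ 2 * A)) h * ‖Qf 𝓑 β e f g h u‖ ^ 2 else 0 := by
  have ne : (0 : ℝ) < nm e := by exact_mod_cast nm_pos.mpr he.ne_zero
  have nf : (0 : ℝ) < nm f := by exact_mod_cast nm_pos.mpr hf.ne_zero
  set K := nm f * B ^ 2 / ((nm e : ℝ) ^ 2 * A) with hK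
  have hK0 : 0 < K := by positivity
  set M := Real.pi * (∑ n ∈ 𝓑.biUnion dvs, ‖β (e * g * n)‖) ^ 2 with hM
  have hM0 : 0 ≤ M := by
    have := Real.pi_pos
    positivity
  set F : Eis → ℝ → ℝ := fun h u => if isNonCubeE e f h then
    om K h * ((1 + u ^ 2)⁻¹ * ‖Qf 𝓑 β e f g h u‖ ^ 2) else 0 with hF
  have hFint : ∀ h, Integrable (F h) := by
    intro h
    rw [hF]
    by_cases hh : isNonCubeE e f h
    · simp only [if_pos hh]
      exact (integrable_Qf hsq β e f g h).const_mul _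
    · simp only [if_neg hh]
      exact integrable_zero _ _ _
  have hFnn : ∀ h u, 0 ≤ F h u := by
    intro h u
    rw [hF]
    beta_reduce
    split_ifs
    · exact mul_nonneg (om_nonneg hK0 h) (by positivity)
    · exact le_rfl
  have hI : ∀ h, ∫ u, F h u = if isNonCubeE e f h then
      om K h * ∫ u : ℝ, (1 + u ^ 2)⁻¹ * ‖Qf 𝓑 β e f g h u‖ ^ 2 else 0 := by
    intro h
    rw [hF]
    by_cases hh : isNonCubeE e f h
    · simp only [if_pos hh]
      exact integral_const_mul _ _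
    · simp only [if_neg hh, integral_zero]
  have hsumI : Summable (fun h => if isNonCubeE e f h then
      om K h * ∫ u : ℝ, (1 + u ^ 2)⁻¹ * ‖Qf 𝓑 β e f g h u‖ ^ 2 else 0) := by
    refine Summable.of_nonneg_of_le (fun h => ?_) (fun h => ?_)
      (summable_om hK0 (isNonCubeE e f) (fun h hh => hh.1) M hM0)
    · split_ifs
      · exact mul_nonneg (om_nonneg hK0 h) (integral_Qf_nonneg 𝓑 β e f g h)
      · exact le_rfl
    · split_ifs
      · exact mul_le_mul_of_nonneg_left (integral_Qf_le hsq β e f g h) (om_nonneg hK0 h)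
      · exact le_rfl
  have hFsum : Summable fun h => ∫ u, ‖F h u‖ := by
    refine hsumI.congr fun h => ?_
    rw [← hI h]
    refine integral_congr_ae (Filter.Eventually.of_forall fun u => ?_)
    exact (Real.norm_of_nonneg (hFnn h u)).symm
  have key := integral_tsum_of_summable_integral_norm hFint hFsum
  have e2 : ∀ u : ℝ, (1 + u ^ 2)⁻¹ * ∑' h : Eis, (if isNonCubeE e f h then
        om K h * ‖Qf 𝓑 β e f g h u‖ ^ 2 else 0) = ∑' h : Eis, F h u := by
    intro u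
    rw [← tsum_mul_left]
    refine tsum_congr fun h => ?_
    rw [hF]
    beta_reduce
    split_ifs
    · ring
    · rw [mul_zero]
  simp_rw [e2]
  rw [← key]
  refine Summable.tsum_le_tsum (fun h => ?_)
    (summable_wK_Q hA hB le_rfl hsq β he hf g (isNonCubeE e f)) (by
      refine hsumI.congr fun h => ?_
      rw [hI h])
  rw [hI h]
  split_ifs with hh
  · exact mul_le_mul_of_nonneg_right (wK_two_le_om hA hB he hf hh.1)
      (integral_Qf_nonneg 𝓑 β e f g h)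
  · exact le_rfl

open Classical in
/-- **T1d.** -/
theorem t1d : T411.T1d := by
  obtain ⟨C, hC, hsep⟩ := sep_main 2 le_rfl
  refine ⟨C + 200, by positivity, fun A B 𝓑 β hA1 hB1 hcls => ?_⟩
  have hA : 0 < A := by linarith
  have hB : 0 < B := by linarith
  have hsq := hcls.sq
  set X : Eis → Eis → ℂ := fun b1 b2 => β b1 * (starRingEnd ℂ) (β b2) * NP A b1 b2 with hX
  -- remove the diagonal
  have e1 : ∑ b₁ ∈ 𝓑, ∑ b₂ ∈ 𝓑.erase b₁, β b₁ * (starRingEnd ℂ) (β b₂) * NP A b₁ b₂ =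
      ∑ b1 ∈ 𝓑, ∑ b2 ∈ 𝓑, X b1 b2 - ∑ b ∈ 𝓑, X b b := by
    rw [← Finset.sum_sub_distrib]
    refine Finset.sum_congr rfl fun b1 hb1 => ?_
    rw [← Finset.sum_erase_eq_sub hb1]
  have e2 : ∑ b1 ∈ 𝓑, ∑ b2 ∈ 𝓑, X b1 b2 =
      ∑ e ∈ 𝓑.biUnion dvs, ∑ k1 ∈ 𝓑.biUnion dvs, ∑ k2 ∈ 𝓑.biUnion dvs,
      (if e * k1 ∈ 𝓑 ∧ e * k2 ∈ 𝓑 ∧ IsCoprime k1 k2 then
        β (e * k1) * (starRingEnd ℂ) (β (e * k2)) * dualP A e k1 k2 (isNonCubeE e) else 0) := by
    rw [sum_pairs_gcd hsq (fun d hd => mem_D hsq hd) (D_closed hsq)]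
    refine Finset.sum_congr rfl fun e he => Finset.sum_congr rfl fun k1 hk1 =>
      Finset.sum_congr rfl fun k2 hk2 => ?_
    by_cases hc : e * k1 ∈ 𝓑 ∧ e * k2 ∈ 𝓑 ∧ IsCoprime k1 k2
    · rw [if_pos hc, if_pos hc, hX]
      beta_reduce
      unfold NP
      obtain ⟨a1, a2, a3⟩ := gE_kE_mul (mem_D hsq he) (mem_D hsq hk1) (mem_D hsq hk2)
        (hsq _ hc.1).2 (hsq _ hc.2.1).2 hc.2.2
      rw [a1, a2, a3]
    · rw [if_neg hc, if_neg hc]
  rw [e1]
  refine (norm_sub_le _ _).trans ?_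
  have h1 : ‖∑ b ∈ 𝓑, X b b‖ ≤ 200 * ∑ b ∈ 𝓑, ‖β b‖ ^ 2 * (tau b : ℝ) ^ 2 := by
    rw [Finset.mul_sum]
    refine (norm_sum_le _ _).trans (Finset.sum_le_sum fun b hb => ?_)
    rw [hX]
    beta_reduce
    rw [norm_mul, norm_mul, RCLike.norm_conj]
    have h2 := norm_NP_self_le hA (hsq b hb)
    have h3 : (1 : ℝ) ≤ tau b := by exact_mod_cast one_le_tau (hsq b hb).1.ne_zero
    calc ‖β b‖ * ‖β b‖ * ‖NP A b b‖ ≤ ‖β b‖ * ‖β b‖ * (200 * tau b) := by gcongr
      _ = ‖β b‖ ^ 2 * (200 * (tau b * 1)) := by ring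
      _ ≤ ‖β b‖ ^ 2 * (200 * (tau b * tau b)) := by gcongr
      _ = _ := by ring
  have h2 := hsep A B 𝓑 β hA hB hsq hcls.lo hcls.hi isNonCubeE
  rw [← e2] at h2
  have h3 : ∑ e ∈ 𝓑.biUnion dvs, ∑ f ∈ dvs e, ∑ g ∈ (𝓑.biUnion dvs).filter (IsCoprime · e),
        A * nm e / (B * nm f) * ∑' h : Eis, (if isNonCubeE e f h then
          wK 2 A B e f h * ∫ u : ℝ, (1 + u ^ 2)⁻¹ * ‖Qf 𝓑 β e f g h u‖ ^ 2 else 0) ≤
      ∑ e ∈ 𝓑.biUnion dvs, ∑ f ∈ dvs e, ∑ g ∈ (𝓑.biUnion dvs).filter (IsCoprime · e),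
        A * nm e / (B * nm f) * ∫ u : ℝ, (1 + u ^ 2)⁻¹ * ∑' h : Eis, (if isNonCubeE e f h then
        om (nm f * B ^ 2 / ((nm e : ℝ) ^ 2 * A)) h * ‖Qf 𝓑 β e f g h u‖ ^ 2 else 0) := by
    refine Finset.sum_le_sum fun e he => Finset.sum_le_sum fun f hf =>
      Finset.sum_le_sum fun g _ => ?_
    refine mul_le_mul_of_nonneg_left ?_ (by positivity)
    exact tsum_integral_le hA hB hsq β (mem_D hsq he) (isPrim_of_mem_dvs hf) g
  have h4 : 0 ≤ ∑ e ∈ 𝓑.biUnion dvs, ∑ f ∈ dvs e,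
      ∑ g ∈ (𝓑.biUnion dvs).filter (IsCoprime · e),
        A * nm e / (B * nm f) * ∫ u : ℝ, (1 + u ^ 2)⁻¹ * ∑' h : Eis, (if isNonCubeE e f h then
        om (nm f * B ^ 2 / ((nm e : ℝ) ^ 2 * A)) h * ‖Qf 𝓑 β e f g h u‖ ^ 2 else 0) := by
    refine Finset.sum_nonneg fun e he => Finset.sum_nonneg fun f hf =>
      Finset.sum_nonneg fun g _ => mul_nonneg (by positivity) (integral_nonneg fun u => ?_)
    have ne : (0 : ℝ) < nm e := by exact_mod_cast nm_pos.mpr (mem_D hsq he).ne_zero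
    have nf : (0 : ℝ) < nm f := by exact_mod_cast nm_pos.mpr (isPrim_of_mem_dvs hf).ne_zero
    refine mul_nonneg (by positivity) (tsum_nonneg fun h => ?_)
    split_ifs
    · exact mul_nonneg (om_nonneg (by positivity) h) (by positivity)
    · exact le_rfl
  have h5 : 0 ≤ ∑ b ∈ 𝓑, ‖β b‖ ^ 2 * (tau b : ℝ) ^ 2 := by positivity
  have h6 := h2.trans (mul_le_mul_of_nonneg_left h3 hC.le)
  have h7 : ‖∑ b1 ∈ 𝓑, ∑ b2 ∈ 𝓑, X b1 b2‖ + ‖∑ b ∈ 𝓑, X b b‖ ≤
      (C + 200) * ∑ b ∈ 𝓑, ‖β b‖ ^ 2 * (tau b : ℝ) ^ 2 +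
      (C + 200) * ∑ e ∈ 𝓑.biUnion dvs, ∑ f ∈ dvs e,
      ∑ g ∈ (𝓑.biUnion dvs).filter (IsCoprime · e),
        A * nm e / (B * nm f) * ∫ u : ℝ, (1 + u ^ 2)⁻¹ * ∑' h : Eis, (if isNonCubeE e f h then
        om (nm f * B ^ 2 / ((nm e : ℝ) ^ 2 * A)) h * ‖Qf 𝓑 β e f g h u‖ ^ 2 else 0) := by
    nlinarith [mul_nonneg hC.le h5]
  exact h7

end Crest.Agent.R012.T1d671
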