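import Crest.Agent.R012.DualGcd_671

/-!
# Row 12 (T1x): summed dual identity and Moebius removal of `(k₁, k₂) = 1`

* `dual_sum` : `∑_{a primary} |∑_{b ∈ S} β_b G(b) conj (a/b)|² f(a)` as a sum over `(e, k₁, k₂)`
* `pairs_moebius` : for fixed `e, h, r`, the condition `(k₁, k₂) = 1` removed by Moebius inversion
-/

set_option autoImplicit false
set_option linter.unusedSimpArgs false
set_option linter.unusedVariables false

noncomputable section

open Finset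

namespace Crest.Agent.R012.Tau671

open Eis
open Gauss880 (syG)
open Po581 (fC dl)
open Mob705 (mu pdiv mem_pdiv sum_mu_coprime)

/-- The dual series of a pair: the sum over `d ∣ e` and over all `h`. -/
def dualPair (f : ℂ → ℂ) (e k1 k2 : Eis) : ℂ :=
  ((2 / (9 * Real.sqrt 3 * Real.sqrt (nm k1 * nm k2)) : ℝ) : ℂ) *
    ∑ d ∈ pdiv e, (mu d : ℂ) * (nm d : ℂ)⁻¹ *
      ∑' h : Eis, ph h * (psi h (d * e) k1 * (starRingEnd ℂ) (psi h (d * e) k2)) *
        fC f (toC h / (3 * toC sq3 * (toC k1 * toC k2) * toC d))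

/-- The dual series converges absolutely. -/
lemma summable_dualPair {f : ℂ → ℂ} (hf : PF f) {r k1 k2 d : Eis} (h1 : IsPrim k1)
    (h2 : IsPrim k2) (hd : d ≠ 0) :
    Summable (fun h : Eis => ph h * (psi h r k1 * (starRingEnd ℂ) (psi h r k2)) *
        fC f (toC h / (3 * toC sq3 * (toC k1 * toC k2) * toC d))) := by
  have hs := hf.sumd (3 * (toC k1 * toC k2) * toC d) (mul_ne_zero (mul_ne_zero (by norm_num)
    (mul_ne_zero (toC_ne_zero h1.ne_zero) (toC_ne_zero h2.ne_zero))) (toC_ne_zero hd))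
  refine summable_mul_bdd (B := 1) (fun h => ?_) ?_
  · rw [norm_mul, norm_ph, one_mul, norm_mul, RCLike.norm_conj]
    exact mul_le_one₀ (norm_psi_le h1) (norm_nonneg _) (norm_psi_le h2)
  · convert! hs using 1
    funext k
    congr 1
    rw [dl_eq, div_div]
    congr 1; ring

open Classical in
/-- **The summed dual identity.** -/
theorem dual_sum {f : ℂ → ℂ} (hf : PF f) {S D : Finset Eis}
    (hS : ∀ b ∈ S, IsPrim b ∧ Squarefree b) (hD : ∀ d ∈ D, IsPrim d)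
    (hSD : ∀ b ∈ S, ∀ d : Eis, IsPrim d → d ∣ b → d ∈ D) (β : Eis → ℂ) :
    ∑' a : Eis, (if IsPrim a then (∑ b ∈ S, β b * (G b * (starRingEnd ℂ) (sy a b))) *
        (starRingEnd ℂ) (∑ b ∈ S, β b * (G b * (starRingEnd ℂ) (sy a b))) else 0) * f (toC a) =
      ∑ e ∈ D, ∑ k1 ∈ D, ∑ k2 ∈ D, if e * k1 ∈ S ∧ e * k2 ∈ S ∧ IsCoprime k1 k2 then
        β (e * k1) * (starRingEnd ℂ) (β (e * k2)) * dualPair f e k1 k2 else 0 := by
  -- expand the square
  have e1 : ∀ a : Eis, (if IsPrim a then (∑ b ∈ S, β b * (G b * (starRingEnd ℂ) (sy a b))) *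
        (starRingEnd ℂ) (∑ b ∈ S, β b * (G b * (starRingEnd ℂ) (sy a b))) else 0) * f (toC a) =
      ∑ b1 ∈ S, ∑ b2 ∈ S, β b1 * (starRingEnd ℂ) (β b2) *
        ((if IsPrim a then (G b1 * (starRingEnd ℂ) (sy a b1)) *
          (starRingEnd ℂ) (G b2 * (starRingEnd ℂ) (sy a b2)) else 0) * f (toC a)) := by
    intro a
    by_cases ha : IsPrim a
    · simp only [if_pos ha]
      rw [map_sum, Finset.sum_mul_sum, Finset.sum_mul]
      refine Finset.sum_congr rfl fun b1 _ => ?_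
      rw [Finset.sum_mul]
      refine Finset.sum_congr rfl fun b2 _ => ?_
      rw [map_mul]; ring
    · simp only [if_neg ha, zero_mul, mul_zero, Finset.sum_const_zero]
  simp_rw [e1]
  have hsum : ∀ b1 ∈ S, ∀ b2 ∈ S, Summable (fun a : Eis => β b1 * (starRingEnd ℂ) (β b2) *
        ((if IsPrim a then (G b1 * (starRingEnd ℂ) (sy a b1)) *
          (starRingEnd ℂ) (G b2 * (starRingEnd ℂ) (sy a b2)) else 0) * f (toC a))) := by
    intro b1 hb1 b2 hb2
    refine Summable.mul_left _ ?_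
    refine summable_mul_bdd (B := 1) (fun a => ?_) (summable_pf_one hf)
    have hg : ∀ b : Eis, IsPrim b → ‖G b * (starRingEnd ℂ) (sy a b)‖ ≤ 1 := fun b hb => by
      rw [norm_mul, RCLike.norm_conj]
      exact mul_le_one₀ (Gauss880.norm_G_le syG hb) (norm_nonneg _) (norm_sy_le hb)
    split_ifs
    · rw [norm_mul, RCLike.norm_conj]
      exact mul_le_one₀ (hg _ (hS _ hb1).1) (norm_nonneg _) (hg _ (hS _ hb2).1)
    · rw [norm_zero]; exact zero_le_one
  rw [Summable.tsum_finsetSum (fun b1 hb1 => summable_sum fun b2 hb2 => hsum b1 hb1 b2 hb2)]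
  have e2 : ∀ b1 ∈ S, ∑' a : Eis, ∑ b2 ∈ S, β b1 * (starRingEnd ℂ) (β b2) *
        ((if IsPrim a then (G b1 * (starRingEnd ℂ) (sy a b1)) *
          (starRingEnd ℂ) (G b2 * (starRingEnd ℂ) (sy a b2)) else 0) * f (toC a)) =
      ∑ b2 ∈ S, β b1 * (starRingEnd ℂ) (β b2) * ∑' a : Eis,
        ((if IsPrim a then (G b1 * (starRingEnd ℂ) (sy a b1)) *
          (starRingEnd ℂ) (G b2 * (starRingEnd ℂ) (sy a b2)) else 0) * f (toC a)) := by
    intro b1 hb1
    rw [Summable.tsum_finsetSum (fun b2 hb2 => hsum b1 hb1 b2 hb2)]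
    exact Finset.sum_congr rfl fun b2 _ => tsum_mul_left
  rw [Finset.sum_congr rfl e2, sum_pairs_gcd hS hD hSD]
  refine Finset.sum_congr rfl fun e he => Finset.sum_congr rfl fun k1 hk1 =>
    Finset.sum_congr rfl fun k2 hk2 => ?_
  by_cases hc : e * k1 ∈ S ∧ e * k2 ∈ S ∧ IsCoprime k1 k2
  · rw [if_pos hc, if_pos hc]
    obtain ⟨r1, se, sk1⟩ := squarefree_mul_iff.mp (hS _ hc.1).2
    obtain ⟨r2, _, sk2⟩ := squarefree_mul_iff.mp (hS _ hc.2.1).2
    rw [pairG hf (hD _ he) (hD _ hk1) (hD _ hk2) se sk1 sk2 r1.isCoprime r2.isCoprime hc.2.2]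
    rfl
  · rw [if_neg hc, if_neg hc]

open Classical in
/-- Substituting `k = g m`. -/
lemma sum_dvd_subst {S D : Finset Eis} (hD : ∀ d ∈ D, IsPrim d)
    (hSD : ∀ b ∈ S, ∀ d : Eis, IsPrim d → d ∣ b → d ∈ D) {e g : Eis} (hg : IsPrim g)
    (F : Eis → ℂ) :
    ∑ k ∈ D, (if g ∣ k ∧ e * k ∈ S then F k else 0) =
      ∑ m ∈ D, if e * (g * m) ∈ S then F (g * m) else 0 := by
  rw [← Finset.sum_filter, ← Finset.sum_filter]
  symm
  refine Finset.sum_nbij (fun m => g * m) ?_ ?_ ?_ ?_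
  · intro m hm
    rw [Finset.mem_filter] at hm ⊢
    exact ⟨hSD _ hm.2 _ (hg.mul (hD _ hm.1)) (dvd_mul_left _ _), dvd_mul_right _ _, hm.2⟩
  · intro m _ m' _ h
    exact mul_left_cancel₀ hg.ne_zero h
  · intro k hk
    rw [Finset.mem_coe, Finset.mem_filter] at hk
    obtain ⟨m, rfl⟩ := hk.2.1
    refine ⟨m, ?_, rfl⟩
    rw [Finset.mem_coe, Finset.mem_filter]
    have hm : IsPrim m := IsPrim.of_mul_left (hD _ hk.1) hg
    refine ⟨hSD _ hk.2.2 _ hm ?_, hk.2.2⟩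
    exact (dvd_mul_left m g).trans (dvd_mul_left _ _)
  · intro m _
    rfl

open Classical in
/-- **Removal of the condition `(k₁, k₂) = 1`** by Moebius inversion (general form). -/
lemma sum_coprime_moebius {S D : Finset Eis} (hD : ∀ d ∈ D, IsPrim d)
    (hSD : ∀ b ∈ S, ∀ d : Eis, IsPrim d → d ∣ b → d ∈ D) (e : Eis) (F : Eis → Eis → ℂ) :
    ∑ k1 ∈ D, ∑ k2 ∈ D, (if e * k1 ∈ S ∧ e * k2 ∈ S ∧ IsCoprime k1 k2 then F k1 k2 else 0) =
      ∑ g ∈ D, (mu g : ℂ) * ∑ m1 ∈ D, ∑ m2 ∈ D,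
        if e * (g * m1) ∈ S ∧ e * (g * m2) ∈ S then F (g * m1) (g * m2) else 0 := by
  have e1 : ∀ k1 ∈ D, ∀ k2 ∈ D,
      (if e * k1 ∈ S ∧ e * k2 ∈ S ∧ IsCoprime k1 k2 then F k1 k2 else 0) =
      ∑ g ∈ D, (mu g : ℂ) * (if (g ∣ k1 ∧ e * k1 ∈ S) ∧ (g ∣ k2 ∧ e * k2 ∈ S) then F k1 k2
        else 0) := by
    intro k1 hk1 k2 hk2
    by_cases hm : e * k1 ∈ S ∧ e * k2 ∈ S
    · have h := sum_mu_coprime (hD _ hk1) (hD _ hk2).ne_zero
      have h3 := congrArg (fun z : ℤ => (z : ℂ)) h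
      beta_reduce at h3
      push_cast at h3
      have h4 : ∑ g ∈ D, (mu g : ℂ) * (if g ∣ k1 ∧ g ∣ k2 then (1 : ℂ) else 0) =
          if IsCoprime k1 k2 then (1 : ℂ) else 0 := by
        rw [← h3]
        have h5 : pdiv k2 ⊆ D := fun x hx => by
          rw [mem_pdiv (hD _ hk2).ne_zero] at hx
          exact hSD _ hm.2 _ hx.1 (hx.2.trans (dvd_mul_left _ _))
        rw [← Finset.sum_subset h5]
        · refine Finset.sum_congr rfl fun x hx => ?_
          rw [mem_pdiv (hD _ hk2).ne_zero] at hx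
          by_cases h6 : x ∣ k1
          · rw [if_pos ⟨h6, hx.2⟩, if_pos h6, mul_one]
          · rw [if_neg (fun h => h6 h.1), if_neg h6, mul_zero]
        · intro x hxD hx
          rw [mem_pdiv (hD _ hk2).ne_zero] at hx
          rw [if_neg (fun h => hx ⟨hD _ hxD, h.2⟩), mul_zero]
      have h7 : ∀ g ∈ D, (mu g : ℂ) * (if (g ∣ k1 ∧ e * k1 ∈ S) ∧ (g ∣ k2 ∧ e * k2 ∈ S)
          then F k1 k2 else 0) =
          ((mu g : ℂ) * (if g ∣ k1 ∧ g ∣ k2 then (1 : ℂ) else 0)) * F k1 k2 := by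
        intro g _
        by_cases h8 : g ∣ k1 ∧ g ∣ k2
        · rw [if_pos ⟨⟨h8.1, hm.1⟩, ⟨h8.2, hm.2⟩⟩, if_pos h8]; ring
        · rw [if_neg (fun h => h8 ⟨h.1.1, h.2.1⟩), if_neg h8]; ring
      rw [Finset.sum_congr rfl h7, ← Finset.sum_mul, h4]
      by_cases hc : IsCoprime k1 k2
      · rw [if_pos ⟨hm.1, hm.2, hc⟩, if_pos hc, one_mul]
      · rw [if_neg (fun h => hc h.2.2), if_neg hc, zero_mul]
    · rw [if_neg (fun h => hm ⟨h.1, h.2.1⟩)]
      symm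
      apply Finset.sum_eq_zero
      intro g _
      rw [if_neg (fun h => hm ⟨h.1.2, h.2.2⟩), mul_zero]
  rw [Finset.sum_congr rfl fun k1 hk1 => Finset.sum_congr rfl fun k2 hk2 => e1 k1 hk1 k2 hk2]
  have e2 : ∀ k1 ∈ D, ∑ k2 ∈ D, ∑ g ∈ D, (mu g : ℂ) *
      (if (g ∣ k1 ∧ e * k1 ∈ S) ∧ (g ∣ k2 ∧ e * k2 ∈ S) then F k1 k2 else 0) =
      ∑ g ∈ D, ∑ k2 ∈ D, (mu g : ℂ) *
      (if (g ∣ k1 ∧ e * k1 ∈ S) ∧ (g ∣ k2 ∧ e * k2 ∈ S) then F k1 k2 else 0) :=
    fun k1 _ => Finset.sum_comm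
  rw [Finset.sum_congr rfl e2, Finset.sum_comm]
  refine Finset.sum_congr rfl fun g hg => ?_
  have hgp := hD _ hg
  have e3 : ∀ k1 : Eis, ∑ k2 ∈ D, (mu g : ℂ) *
      (if (g ∣ k1 ∧ e * k1 ∈ S) ∧ (g ∣ k2 ∧ e * k2 ∈ S) then F k1 k2 else 0) =
      (mu g : ℂ) * (if g ∣ k1 ∧ e * k1 ∈ S then
        ∑ m2 ∈ D, (if e * (g * m2) ∈ S then F k1 (g * m2) else 0) else 0) := by
    intro k1
    rw [← Finset.mul_sum]
    congr 1
    by_cases h : g ∣ k1 ∧ e * k1 ∈ S
    · rw [if_pos h, ← sum_dvd_subst hD hSD hgp]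
      refine Finset.sum_congr rfl fun k2 _ => ?_
      by_cases h' : g ∣ k2 ∧ e * k2 ∈ S
      · rw [if_pos ⟨h, h'⟩, if_pos h']
      · rw [if_neg (fun h'' => h' h''.2), if_neg h']
    · rw [if_neg h]
      apply Finset.sum_eq_zero
      intro k2 _
      rw [if_neg (fun h'' => h h''.1)]
  simp_rw [e3]
  rw [← Finset.mul_sum, sum_dvd_subst hD hSD hgp]
  congr 1
  refine Finset.sum_congr rfl fun m1 _ => ?_
  by_cases h : e * (g * m1) ∈ S
  · rw [if_pos h]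
    refine Finset.sum_congr rfl fun m2 _ => ?_
    by_cases h' : e * (g * m2) ∈ S <;> simp [h, h']
  · rw [if_neg h]
    symm
    apply Finset.sum_eq_zero
    intro m2 _
    simp [h]

open Classical in
/-- Moebius removal for the bilinear form of a single frequency `h`: `r` is any element with
`(r, b) = 1` up to the factor `e` (for instance `r = d e`, `d ∣ e`).  `W` is a function of the
product `k₁ k₂`. -/
theorem pairs_moebius {S D : Finset Eis} (hS : ∀ b ∈ S, IsPrim b ∧ Squarefree b)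
    (hD : ∀ d ∈ D, IsPrim d) (hSD : ∀ b ∈ S, ∀ d : Eis, IsPrim d → d ∣ b → d ∈ D)
    {e d : Eis} (he : IsPrim e) (hde : d ∣ e) (h : Eis) (β : Eis → ℂ) (W : Eis → ℂ) :
    ∑ k1 ∈ D, ∑ k2 ∈ D, (if e * k1 ∈ S ∧ e * k2 ∈ S ∧ IsCoprime k1 k2 then
        β (e * k1) * (starRingEnd ℂ) (β (e * k2)) *
          (((Real.sqrt (nm k1 * nm k2))⁻¹ : ℝ) : ℂ) *
          (psi h (d * e) k1 * (starRingEnd ℂ) (psi h (d * e) k2)) * W (k1 * k2) else 0) =
      ∑ g ∈ D, (if IsCoprime h g then (mu g : ℂ) * (nm g : ℂ)⁻¹ *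
        ∑ m1 ∈ D, ∑ m2 ∈ D, (if e * (g * m1) ∈ S ∧ e * (g * m2) ∈ S then
          β (e * (g * m1)) * (starRingEnd ℂ) (β (e * (g * m2))) *
            (((Real.sqrt (nm m1 * nm m2))⁻¹ : ℝ) : ℂ) *
            (psi h (d * e) m1 * (starRingEnd ℂ) (psi h (d * e) m2)) *
            W (g * g * (m1 * m2)) else 0) else 0) := by
  rw [sum_coprime_moebius hD hSD e (fun k1 k2 => β (e * k1) * (starRingEnd ℂ) (β (e * k2)) *
          (((Real.sqrt (nm k1 * nm k2))⁻¹ : ℝ) : ℂ) *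
          (psi h (d * e) k1 * (starRingEnd ℂ) (psi h (d * e) k2)) * W (k1 * k2))]
  refine Finset.sum_congr rfl fun g hg => ?_
  have hgp := hD _ hg
  have hg0 : (0 : ℝ) < nm g := by exact_mod_cast nm_pos.mpr hgp.ne_zero
  have key : ∀ m1 ∈ D, ∀ m2 ∈ D, (if e * (g * m1) ∈ S ∧ e * (g * m2) ∈ S then
      β (e * (g * m1)) * (starRingEnd ℂ) (β (e * (g * m2))) *
          (((Real.sqrt (nm (g * m1) * nm (g * m2)))⁻¹ : ℝ) : ℂ) *
          (psi h (d * e) (g * m1) * (starRingEnd ℂ) (psi h (d * e) (g * m2))) *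
          W (g * m1 * (g * m2)) else 0) =
      (if IsCoprime h g then (nm g : ℂ)⁻¹ else 0) *
      (if e * (g * m1) ∈ S ∧ e * (g * m2) ∈ S then
          β (e * (g * m1)) * (starRingEnd ℂ) (β (e * (g * m2))) *
            (((Real.sqrt (nm m1 * nm m2))⁻¹ : ℝ) : ℂ) *
            (psi h (d * e) m1 * (starRingEnd ℂ) (psi h (d * e) m2)) *
            W (g * g * (m1 * m2)) else 0) := by
    intro m1 hm1 m2 hm2
    by_cases hc : e * (g * m1) ∈ S ∧ e * (g * m2) ∈ S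
    · rw [if_pos hc, if_pos hc, psi_mul hgp (hD _ hm1), psi_mul hgp (hD _ hm2)]
      have ew : g * m1 * (g * m2) = g * g * (m1 * m2) := by ring
      have er : (Real.sqrt (nm (g * m1) * nm (g * m2)))⁻¹ =
          (nm g : ℝ)⁻¹ * (Real.sqrt (nm m1 * nm m2))⁻¹ := by
        rw [nm_mul, nm_mul]
        push_cast
        have : (nm g : ℝ) * nm m1 * (nm g * nm m2) = (nm g : ℝ) ^ 2 * (nm m1 * nm m2) := by ring
        rw [this, Real.sqrt_mul (by positivity), Real.sqrt_sq hg0.le, mul_inv]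
      rw [ew, er]
      by_cases hhg : IsCoprime h g
      · rw [if_pos hhg]
        have hgr : IsCoprime (d * e) g := by
          obtain ⟨r1, -, -⟩ := squarefree_mul_iff.mp (hS _ hc.1).2
          have hge : IsCoprime e g := IsCoprime.of_isCoprime_of_dvd_right r1.isCoprime
            (dvd_mul_right _ _)
          exact (hge.of_isCoprime_of_dvd_left hde).mul_left hge
        have e3 := psi_mul_star (h := h) (r := d * e) hgp hhg hgr
        simp only [map_mul]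
        push_cast
        linear_combination (β (e * (g * m1)) * (starRingEnd ℂ) (β (e * (g * m2))) *
          ((nm g : ℂ)⁻¹ * ((Real.sqrt (nm m1 * nm m2) : ℝ) : ℂ)⁻¹) *
          (psi h (d * e) m1 * (starRingEnd ℂ) (psi h (d * e) m2)) *
          W (g * g * (m1 * m2))) * e3
      · rw [if_neg hhg, psi_eq_zero hgp hhg]; ring
    · rw [if_neg hc, if_neg hc, mul_zero]
  rw [Finset.sum_congr rfl fun m1 hm1 => Finset.sum_congr rfl fun m2 hm2 => key m1 hm1 m2 hm2]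
  simp_rw [← Finset.mul_sum]
  by_cases hhg : IsCoprime h g
  · rw [if_pos hhg, if_pos hhg, mul_assoc]
  · rw [if_neg hhg, if_neg hhg]; ring

end Crest.Agent.R012.Tau671
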