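import Crest.Agent.R012.Dual_671

/-!
# Row 12 (T8): the pair formula with a complex Gaussian weight

`cg s z = exp(-s |z|²)`, `Re s > 0`, is a Poisson function (`PF`), with transform
`(π/s) exp(-4π²|ξ|²/s)`.  `pair_cg` is the evaluation of
`∑_{a ∈ Eis} (a/k₁) conj (a/k₂) exp(-s N(a))` for coprime squarefree primary `k₁, k₂`.
-/

set_option autoImplicit false

noncomputable section

open Complex MeasureTheory
open scoped FourierTransform

namespace Crest.Agent.R012.T8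

open Eis
open Gauss880 (syG)
open Po581 (fC dl iS3)
open Tau671

/-- the complex Gaussian. -/
def cg (s : ℂ) (z : ℂ) : ℂ := cexp (-s * (‖z‖ : ℂ) ^ 2)

lemma norm_cg (s z : ℂ) : ‖cg s z‖ = Real.exp (-(s.re * ‖z‖ ^ 2)) := by
  unfold cg
  rw [Complex.norm_exp]
  congr 1
  rw [← Complex.ofReal_pow, neg_mul, neg_re, re_mul_ofReal]

lemma continuous_cg (s : ℂ) : Continuous (cg s) := by
  unfold cg; fun_prop

lemma fC_cg {s : ℂ} (hs : 0 < s.re) (ξ : ℂ) :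
    fC (cg s) ξ = (Real.pi / s) * cexp (-(4 * Real.pi ^ 2 * (‖ξ‖ : ℂ) ^ 2 / s)) := by
  rw [Po581.fC_eq_fourier]
  have h := fourier_gaussian_innerProductSpace (V := ℂ) hs (2 * (starRingEnd ℂ) ξ)
  have h1 : cg s = fun v : ℂ => cexp (-s * (‖v‖ : ℂ) ^ 2) := rfl
  rw [h1, h]
  have h2 : ‖(2 : ℂ) * (starRingEnd ℂ) ξ‖ = 2 * ‖ξ‖ := by
    rw [norm_mul, Complex.norm_conj]; norm_num
  rw [h2, Complex.finrank_real_complex]
  have h4 : ((2 : ℕ) / 2 : ℂ) = 1 := by norm_num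
  rw [h4, Complex.cpow_one]
  congr 2
  push_cast
  ring

/-- a Gaussian decays faster than `(1+r)^{-3}`. -/
lemma exp_neg_le_pow {c : ℝ} (hc : 0 < c) {r : ℝ} (hr : 0 ≤ r) :
    Real.exp (-(c * r ^ 2)) ≤ (8 + 16 / c ^ 2) / (1 + r) ^ 3 := by
  rw [le_div_iff₀ (by positivity), Real.exp_neg, inv_mul_le_iff₀ (Real.exp_pos _)]
  have h1 : 1 + c * r ^ 2 + (c * r ^ 2) ^ 2 / 2 ≤ Real.exp (c * r ^ 2) :=
    Real.quadratic_le_exp_of_nonneg (by positivity)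
  have h2 : (1 + (c * r ^ 2) ^ 2 / 2) * (8 + 16 / c ^ 2) ≤
      Real.exp (c * r ^ 2) * (8 + 16 / c ^ 2) := by
    apply mul_le_mul_of_nonneg_right _ (by positivity)
    have : 0 ≤ c * r ^ 2 := by positivity
    linarith
  refine le_trans ?_ h2
  have h3 : (1 + (c * r ^ 2) ^ 2 / 2) * (8 + 16 / c ^ 2) =
      8 + 16 / c ^ 2 + 4 * c ^ 2 * r ^ 4 + 8 * r ^ 4 := by
    field_simp; ring
  rw [h3]
  have h4 : 0 ≤ 16 / c ^ 2 := by positivity
  have h5 : 0 ≤ c ^ 2 * r ^ 4 := by positivity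
  have h6 : (1 + r) ^ 3 ≤ 8 + 8 * r ^ 4 := by
    rcases le_total r 1 with h | h
    · have : (1 + r) ^ 3 ≤ 2 ^ 3 := by gcongr; linarith
      nlinarith [pow_nonneg hr 4]
    · have : (1 + r) ^ 3 ≤ (2 * r) ^ 3 := by gcongr; linarith
      have h7 : r ^ 3 ≤ r ^ 4 := pow_le_pow_right₀ h (by norm_num)
      nlinarith [pow_nonneg hr 4]
  linarith

lemma re_inv_pos {s : ℂ} (hs : 0 < s.re) : 0 < (1 / s).re := by
  rw [one_div, Complex.inv_re]
  have : s ≠ 0 := by rintro rfl; simp at hs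
  exact div_pos hs (Complex.normSq_pos.mpr this)

lemma norm_cexp_div {s : ℂ} (c : ℝ) : ‖cexp (-((c : ℂ) / s))‖ = Real.exp (-(c * (1 / s).re)) := by
  rw [Complex.norm_exp]
  congr 1
  rw [div_eq_mul_one_div, neg_re, re_ofReal_mul]

lemma pf_cg {s : ℂ} (hs : 0 < s.re) : PF (cg s) := by
  have h0 := re_inv_pos hs
  refine PF.of_decay (continuous_cg s) (C := 8 + 16 / s.re ^ 2)
    (C' := ‖(Real.pi / s : ℂ)‖ * (8 + 16 / (4 * Real.pi ^ 2 * (1 / s).re) ^ 2)) (fun z => ?_)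
    (fun ξ => ?_)
  · rw [norm_cg]
    exact exp_neg_le_pow hs (norm_nonneg z)
  · rw [fC_cg hs, norm_mul]
    refine (mul_le_mul_of_nonneg_left ?_ (norm_nonneg _)).trans
      (le_of_eq (mul_div_assoc _ _ _).symm)
    have e : (4 * Real.pi ^ 2 * (‖ξ‖ : ℂ) ^ 2 / s) = ((4 * Real.pi ^ 2 * ‖ξ‖ ^ 2 : ℝ) : ℂ) / s := by
      push_cast; ring
    rw [e, norm_cexp_div]
    have h1 := exp_neg_le_pow (c := 4 * Real.pi ^ 2 * (1 / s).re) (by positivity) (norm_nonneg ξ)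
    refine le_trans (le_of_eq ?_) h1
    congr 1; ring

lemma cg_toC (s : ℂ) (a : Eis) : cg s (toC a) = cexp (-s * (nm a : ℂ)) := by
  unfold cg
  congr 2
  rw [← Complex.ofReal_pow, norm_toC_sq]; simp

lemma summable_cg {s : ℂ} (hs : 0 < s.re) : Summable (fun a : Eis => cexp (-s * (nm a : ℂ))) := by
  have := summable_pf_one (pf_cg hs)
  simpa only [cg_toC] using this

/-- the unimodular factor in the dual sum. -/
def uu (f h k : Eis) : ℂ := sy (f * sq3) k * (starRingEnd ℂ) (sy h k) * G k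

lemma norm_uu_le {f h k : Eis} (hk : IsPrim k) : ‖uu f h k‖ ≤ 1 := by
  unfold uu
  rw [norm_mul, norm_mul, RCLike.norm_conj]
  have h1 := norm_sy_le (x := f * sq3) hk
  have h2 := norm_sy_le (x := h) hk
  have h3 := Gauss880.norm_G_le syG hk
  have h4 := norm_nonneg (sy (f * sq3) k)
  have h5 := norm_nonneg (sy h k)
  have h6 := norm_nonneg (G k)
  have : ‖sy (f * sq3) k‖ * ‖sy h k‖ ≤ 1 := by nlinarith
  nlinarith [mul_nonneg h4 h5]

/-- **Pair formula**, coprime `k₁, k₂`, and the sum over multiples of `f`. -/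
theorem pair_cg {s : ℂ} (hs : 0 < s.re) {f k1 k2 : Eis} (hf : f ≠ 0) (h1 : IsPrim k1)
    (h2 : IsPrim k2) (hs1 : Squarefree k1) (hs2 : Squarefree k2) (hcop : IsCoprime k1 k2) :
    ∑' a : Eis, sy (f * a) k1 * (starRingEnd ℂ) (sy (f * a) k2) * cexp (-s * (nm (f * a) : ℂ)) =
      (2 * Real.pi / (Real.sqrt 3 * s * nm f)) *
        ∑' h : Eis, uu f h k1 * (starRingEnd ℂ) (uu f h k2) *
          ((1 / (Real.sqrt (nm k1) * Real.sqrt (nm k2)) : ℝ) : ℂ) *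
          cexp (-(4 * Real.pi ^ 2 / (3 * s * nm f) * (nm h / (nm k1 * nm k2)))) := by
  have hnf : (0 : ℝ) < nm f := by exact_mod_cast nm_pos.mpr hf
  have hn1 : (0 : ℝ) < nm k1 := by exact_mod_cast nm_pos.mpr h1.ne_zero
  have hn2 : (0 : ℝ) < nm k2 := by exact_mod_cast nm_pos.mpr h2.ne_zero
  have hs' : 0 < (s * nm f).re := by
    rw [show (s * (nm f : ℂ)) = s * ((nm f : ℝ) : ℂ) by push_cast; rfl, re_mul_ofReal]
    positivity
  have hd := dual2_all (pf_cg hs') h1 h2 hcop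
  have e1 : ∀ a : Eis, sy (f * a) k1 * (starRingEnd ℂ) (sy (f * a) k2) *
      cexp (-s * (nm (f * a) : ℂ)) = (sy f k1 * (starRingEnd ℂ) (sy f k2)) *
        (sy a k1 * (starRingEnd ℂ) (sy a k2) * cg (s * nm f) (toC a)) := by
    intro a
    rw [syG.mul_left _ _ _ h1, syG.mul_left _ _ _ h2, map_mul, cg_toC, nm_mul]
    push_cast
    rw [show -s * ((nm f : ℂ) * (nm a : ℂ)) = -(s * nm f) * nm a by ring]
    ring
  rw [tsum_congr e1, tsum_mul_left, hd, ← mul_assoc, ← tsum_mul_left, ← tsum_mul_left]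
  refine tsum_congr fun h => ?_
  rw [Gauss880.gs_eq_G syG h1 hs1, Gauss880.gs_eq_G syG h2 hs2, fC_cg hs']
  have hnorm : (‖toC h / (toC sq3 * (toC k1 * toC k2))‖ : ℂ) ^ 2 =
      (nm h : ℂ) / (3 * (nm k1 * nm k2)) := by
    rw [← Complex.ofReal_pow, norm_div, norm_mul, norm_mul, div_pow, mul_pow, mul_pow,
      norm_toC_sq, norm_toC_sq, norm_toC_sq, norm_toC_sq]
    have : nm sq3 = 3 := by decide
    rw [this]; push_cast; ring
  rw [hnorm]
  unfold uu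
  rw [syG.mul_left _ _ _ h1, syG.mul_left _ _ _ h2]
  simp only [map_mul, Complex.conj_conj, Complex.conj_ofReal]
  have hs0 : s ≠ 0 := by rintro rfl; simp at hs
  have hnfC : (nm f : ℂ) ≠ 0 := by exact_mod_cast hnf.ne'
  have hn1C : (nm k1 : ℂ) ≠ 0 := by exact_mod_cast hn1.ne'
  have hn2C : (nm k2 : ℂ) ≠ 0 := by exact_mod_cast hn2.ne'
  have hq1 : ((Real.sqrt (nm k1) : ℝ) : ℂ) ^ 2 = nm k1 := by
    rw [← Complex.ofReal_pow, Real.sq_sqrt hn1.le]; simp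
  have hq2 : ((Real.sqrt (nm k2) : ℝ) : ℂ) ^ 2 = nm k2 := by
    rw [← Complex.ofReal_pow, Real.sq_sqrt hn2.le]; simp
  have hr1 : ((Real.sqrt (nm k1) : ℝ) : ℂ) ≠ 0 := by
    rw [Ne, Complex.ofReal_eq_zero]; positivity
  have hr2 : ((Real.sqrt (nm k2) : ℝ) : ℂ) ≠ 0 := by
    rw [Ne, Complex.ofReal_eq_zero]; positivity
  have hr3 : ((Real.sqrt 3 : ℝ) : ℂ) ≠ 0 := by
    rw [Ne, Complex.ofReal_eq_zero]; positivity
  have ex : -(4 * (Real.pi : ℂ) ^ 2 * ((nm h : ℂ) / (3 * ((nm k1 : ℂ) * nm k2))) / (s * nm f)) =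
      -(4 * (Real.pi : ℂ) ^ 2 / (3 * s * nm f) * (nm h / (nm k1 * nm k2))) := by
    field_simp
  rw [ex]
  have ec : ((2 / (Real.sqrt 3 * (nm k1 * nm k2)) : ℝ) : ℂ) =
      2 / (Real.sqrt 3 * (((Real.sqrt (nm k1) : ℝ) : ℂ) ^ 2 * ((Real.sqrt (nm k2) : ℝ) : ℂ) ^ 2)) := by
    rw [hq1, hq2]; push_cast; ring
  rw [ec]
  push_cast
  field_simp

end Crest.Agent.R012.T8
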