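import Crest.Agent.R012.Spec_T_411
import Crest.Agent.R012.DualSum_671
import Crest.Agent.R012.T8G_810

/-!
# Row 12: `T411.T1x` (exact dual identity of a pair, Gaussian weight)
-/

set_option autoImplicit false

noncomputable section

open Finset

namespace Crest.Agent.R012.T1x671

open Eis Div277 Mob705 Tau671 T411
open Gauss880 (syG)
open T8 (cg pf_cg fC_cg cg_toC)
open Po581 (fC dl)

/-! ### gcd and cofactors of squarefree primary elements -/

lemma isPrim_gE (b1 b2 : Eis) : IsPrim (gE b1 b2) :=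
  ((ppSet_pp b1).subset inter_subset_left).isPrim_prod

lemma isPrim_kE (b1 b2 : Eis) : IsPrim (kE b1 b2) :=
  ((ppSet_pp b1).subset sdiff_subset).isPrim_prod

lemma sq_gE (b1 b2 : Eis) : Squarefree (gE b1 b2) :=
  ((ppSet_pp b1).subset inter_subset_left).squarefree_prod

lemma sq_kE (b1 b2 : Eis) : Squarefree (kE b1 b2) :=
  ((ppSet_pp b1).subset sdiff_subset).squarefree_prod

lemma gE_comm (b1 b2 : Eis) : gE b1 b2 = gE b2 b1 := by
  unfold gE; rw [inter_comm]

lemma gE_mul_kE {b1 : Eis} (b2 : Eis) (h1 : SqP b1) : gE b1 b2 * kE b1 b2 = b1 := by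
  unfold gE kE
  rw [← Finset.prod_union (disjoint_left.mpr fun x hx hx' => by
    rw [mem_inter] at hx; rw [mem_sdiff] at hx'; exact hx'.2 hx.2)]
  have : pp b1 ∩ pp b2 ∪ pp b1 \ pp b2 = pp b1 := by
    ext x; simp only [mem_union, mem_inter, mem_sdiff]; tauto
  rw [this, prod_pp h1.1 h1.2]

lemma gE_mul_kE' (b1 : Eis) {b2 : Eis} (h2 : SqP b2) : gE b1 b2 * kE b2 b1 = b2 := by
  rw [gE_comm, gE_mul_kE b1 h2]

lemma coprime_kE (b1 b2 : Eis) : IsCoprime (kE b1 b2) (kE b2 b1) := by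
  rw [isCoprime_iff_pp (isPrim_kE _ _)]
  intro p hp h1 h2
  have s1 := ((ppSet_pp b1).subset (sdiff_subset (t := pp b2)))
  have s2 := ((ppSet_pp b2).subset (sdiff_subset (t := pp b1)))
  have m1 := (s1.dvd_prod hp).mp h1
  have m2 := (s2.dvd_prod hp).mp h2
  rw [mem_sdiff] at m1 m2
  exact m1.2 m2.1

lemma coprime_gE_kE (b1 b2 : Eis) : IsCoprime (gE b1 b2) (kE b1 b2) := by
  rw [isCoprime_iff_pp (isPrim_gE _ _)]
  intro p hp h1 h2
  have s1 := ((ppSet_pp b1).subset (inter_subset_left (s₂ := pp b2)))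
  have s2 := ((ppSet_pp b1).subset (sdiff_subset (t := pp b2)))
  have m1 := (s1.dvd_prod hp).mp h1
  have m2 := (s2.dvd_prod hp).mp h2
  rw [mem_inter] at m1
  rw [mem_sdiff] at m2
  exact m2.2 m1.2

lemma coprime_gE_kE' (b1 b2 : Eis) : IsCoprime (gE b1 b2) (kE b2 b1) := by
  rw [gE_comm]; exact coprime_gE_kE b2 b1

/-- The gcd structure of `(e k₁, e k₂)`. -/
lemma gE_kE_mul {e k1 k2 : Eis} (he : IsPrim e) (h1 : IsPrim k1) (h2 : IsPrim k2)
    (hs1 : Squarefree (e * k1)) (hs2 : Squarefree (e * k2)) (hc : IsCoprime k1 k2) :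
    gE (e * k1) (e * k2) = e ∧ kE (e * k1) (e * k2) = k1 ∧ kE (e * k2) (e * k1) = k2 := by
  have p1 : SqP (e * k1) := ⟨he.mul h1, hs1⟩
  have p2 : SqP (e * k2) := ⟨he.mul h2, hs2⟩
  exact gcd_split_unique (isPrim_gE _ _) he (gE_mul_kE _ p1) (gE_mul_kE' _ p2)
    (coprime_kE _ _) hc

lemma kE_self (b : Eis) : kE b b = 1 := by
  unfold kE; rw [sdiff_self]; simp

lemma gE_self {b : Eis} (h : SqP b) : gE b b = b := by
  unfold gE; rw [inter_self, prod_pp h.1 h.2]

/-! ### The terms of the dual sum -/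

/-- a term of the dual sum -/
def dT (A : ℝ) (e k1 k2 f h : Eis) : ℂ :=
  eC (toC h / (3 * toC sq3)) *
    (Real.exp (-(4 * Real.pi ^ 2 * A * nm h / (27 * nm f * nm k1 * nm k2))) : ℂ) *
    (sy h k1 * (starRingEnd ℂ) (sy (f * e) k1)) *
    (starRingEnd ℂ) (sy h k2 * (starRingEnd ℂ) (sy (f * e) k2))

open Classical in
lemma dualP_eq (A : ℝ) (e k1 k2 : Eis) (H : Eis → Eis → Prop) :
    dualP A e k1 k2 H =
      ((2 * Real.pi * A / (9 * Real.sqrt 3) / Real.sqrt ((nm k1 : ℝ) * nm k2) : ℝ) : ℂ) *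
      ∑ f ∈ dvs e, ((muE f : ℝ) / nm f : ℝ) * ∑' h : Eis, if H f h then dT A e k1 k2 f h else 0 :=
  rfl

lemma nm_sq3_eq : nm sq3 = 3 := by decide

/-- the transform of the Gaussian at the dual points -/
lemma fC_cg_dual {A : ℝ} (hA : 0 < A) (h k1 k2 d : Eis) :
    fC (cg ((1 / A : ℝ) : ℂ)) (toC h / (3 * toC sq3 * (toC k1 * toC k2) * toC d)) =
      ((Real.pi * A : ℝ) : ℂ) *
        (Real.exp (-(4 * Real.pi ^ 2 * A * nm h / (27 * nm d * nm k1 * nm k2))) : ℂ) := by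
  have hre : 0 < (((1 / A : ℝ) : ℂ)).re := by rw [Complex.ofReal_re]; positivity
  rw [fC_cg hre]
  have hn : (‖toC h / (3 * toC sq3 * (toC k1 * toC k2) * toC d)‖ : ℂ) ^ 2 =
      ((nm h / (27 * nm d * nm k1 * nm k2) : ℝ) : ℂ) := by
    rw [← Complex.ofReal_pow, norm_div, norm_mul, norm_mul, norm_mul, norm_mul, div_pow, mul_pow,
      mul_pow, mul_pow, mul_pow, norm_toC_sq, norm_toC_sq, norm_toC_sq, norm_toC_sq, norm_toC_sq,
      nm_sq3_eq, Complex.norm_ofNat]
    congr 1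
    push_cast
    ring
  rw [hn, Complex.ofReal_exp]
  have hA' : (A : ℂ) ≠ 0 := by exact_mod_cast hA.ne'
  congr 1
  · push_cast; field_simp
  · congr 1
    push_cast
    by_cases hd : ((27 : ℂ) * (nm d : ℂ) * nm k1 * nm k2) = 0
    · rw [hd]; simp
    · field_simp

lemma dT_eq (A : ℝ) (e k1 k2 f h : Eis) :
    dT A e k1 k2 f h = ph h * (psi h (f * e) k1 * (starRingEnd ℂ) (psi h (f * e) k2)) *
      (Real.exp (-(4 * Real.pi ^ 2 * A * nm h / (27 * nm f * nm k1 * nm k2))) : ℂ) := by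
  unfold dT ph psi
  ring

lemma norm_dT_le {A : ℝ} (e f h : Eis) {k1 k2 : Eis} (h1 : IsPrim k1) (h2 : IsPrim k2) :
    ‖dT A e k1 k2 f h‖ ≤
      Real.exp (-(4 * Real.pi ^ 2 * A * nm h / (27 * nm f * nm k1 * nm k2))) := by
  rw [dT_eq, norm_mul, norm_mul, norm_ph, one_mul, norm_mul, RCLike.norm_conj, Complex.norm_real,
    Real.norm_of_nonneg (Real.exp_pos _).le]
  exact mul_le_of_le_one_left (Real.exp_pos _).le
    (mul_le_one₀ (norm_psi_le h1) (norm_nonneg _) (norm_psi_le h2))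

lemma summable_exp {c : ℝ} (hc : 0 < c) : Summable (fun h : Eis => Real.exp (-(c * nm h))) := by
  have h := (T8.summable_cg (s := (c : ℂ)) (by simpa using hc)).norm
  refine h.congr fun x => ?_
  rw [Complex.norm_exp]
  congr 1
  rw [← Complex.ofReal_neg, ← Complex.ofReal_natCast, ← Complex.ofReal_mul, Complex.ofReal_re]
  ring

lemma summable_dT {A : ℝ} (hA : 0 < A) (e : Eis) {f k1 k2 : Eis} (h1 : IsPrim k1) (h2 : IsPrim k2)
    (hf : f ≠ 0) : Summable (fun h : Eis => dT A e k1 k2 f h) := by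
  have p1 : (0 : ℝ) < nm k1 := by exact_mod_cast nm_pos.mpr h1.ne_zero
  have p2 : (0 : ℝ) < nm k2 := by exact_mod_cast nm_pos.mpr h2.ne_zero
  have p3 : (0 : ℝ) < nm f := by exact_mod_cast nm_pos.mpr hf
  have hc : 0 < 4 * Real.pi ^ 2 * A / (27 * nm f * nm k1 * nm k2) := by positivity
  refine Summable.of_norm_bounded (summable_exp hc) fun h => ?_
  refine (norm_dT_le e f h h1 h2).trans (le_of_eq ?_)
  congr 2
  ring

lemma summable_dT_if {A : ℝ} (hA : 0 < A) (e : Eis) {f k1 k2 : Eis} (h1 : IsPrim k1)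
    (h2 : IsPrim k2) (hf : f ≠ 0) (P : Eis → Prop) [DecidablePred P] :
    Summable (fun h : Eis => if P h then dT A e k1 k2 f h else 0) := by
  refine Summable.of_norm_bounded (summable_dT hA e h1 h2 hf).norm fun h => ?_
  split_ifs
  · exact le_rfl
  · rw [norm_zero]; exact norm_nonneg _

open Classical in
/-- Splitting of the set of frequencies. -/
lemma dualP_or {A : ℝ} (hA : 0 < A) {e k1 k2 : Eis} (h1 : IsPrim k1) (h2 : IsPrim k2)
    (H H1 H2 : Eis → Eis → Prop) (hH : ∀ f ∈ dvs e, ∀ h, dT A e k1 k2 f h ≠ 0 →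
      (H f h ↔ H1 f h ∨ H2 f h)) (hd : ∀ f h, H1 f h → H2 f h → False) :
    dualP A e k1 k2 H = dualP A e k1 k2 H1 + dualP A e k1 k2 H2 := by
  rw [dualP_eq, dualP_eq, dualP_eq, ← mul_add, ← Finset.sum_add_distrib]
  congr 1
  refine Finset.sum_congr rfl fun f hf => ?_
  have hf0 := (isPrim_of_mem_dvs hf).ne_zero
  rw [← mul_add, ← (summable_dT_if hA e h1 h2 hf0 _).tsum_add (summable_dT_if hA e h1 h2 hf0 _)]
  congr 1
  refine tsum_congr fun h => ?_
  by_cases h0 : dT A e k1 k2 f h = 0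
  · simp only [h0, ite_self, add_zero]
  · have := hH f hf h h0
    by_cases a1 : H1 f h
    · have a2 : ¬ H2 f h := fun a2 => hd f h a1 a2
      rw [if_pos (this.mpr (Or.inl a1)), if_pos a1, if_neg a2, add_zero]
    · by_cases a2 : H2 f h
      · rw [if_pos (this.mpr (Or.inr a2)), if_neg a1, if_pos a2, zero_add]
      · rw [if_neg (fun a => (this.mp a).elim a1 a2), if_neg a1, if_neg a2, add_zero]

open Classical in
/-- The pair sum as the full dual sum. -/
theorem P1_eq {A : ℝ} (hA : 0 < A) {e k1 k2 : Eis} (he : IsPrim e) (h1 : IsPrim k1)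
    (h2 : IsPrim k2) (hs1 : Squarefree (e * k1)) (hs2 : Squarefree (e * k2))
    (hc : IsCoprime k1 k2) :
    P1 A (e * k1) (e * k2) = dualP A e k1 k2 (fun _ _ => True) := by
  obtain ⟨r1, se, sk1⟩ := squarefree_mul_iff.mp hs1
  obtain ⟨r2, _, sk2⟩ := squarefree_mul_iff.mp hs2
  have hre : 0 < (((1 / A : ℝ) : ℂ)).re := by rw [Complex.ofReal_re]; positivity
  have h := pairG (pf_cg hre) he h1 h2 se sk1 sk2 r1.isCoprime r2.isCoprime hc
  have e1 : P1 A (e * k1) (e * k2) = ∑' a : Eis, (if IsPrim a then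
      (G (e * k1) * (starRingEnd ℂ) (sy a (e * k1))) *
        (starRingEnd ℂ) (G (e * k2) * (starRingEnd ℂ) (sy a (e * k2))) else 0) *
          cg ((1 / A : ℝ) : ℂ) (toC a) := by
    unfold P1
    refine tsum_congr fun a => ?_
    split_ifs
    · rw [cg_toC, Complex.ofReal_exp]
      have : ((-(nm a : ℝ) / A : ℝ) : ℂ) = -((1 / A : ℝ) : ℂ) * (nm a : ℂ) := by
        push_cast; ring
      rw [this]
      ring
    · rw [zero_mul]
  rw [e1, h, dualP_eq]
  have e2 : ∀ d : Eis, ∑' h : Eis, ph h * (psi h (d * e) k1 * (starRingEnd ℂ) (psi h (d * e) k2)) *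
        fC (cg ((1 / A : ℝ) : ℂ)) (toC h / (3 * toC sq3 * (toC k1 * toC k2) * toC d)) =
      ((Real.pi * A : ℝ) : ℂ) * ∑' h : Eis, dT A e k1 k2 d h := by
    intro d
    rw [← tsum_mul_left]
    refine tsum_congr fun h => ?_
    rw [fC_cg_dual hA, dT_eq]
    ring
  simp only [if_true, e2]
  rw [Finset.mul_sum, Finset.mul_sum]
  refine Finset.sum_congr rfl fun d _ => ?_
  push_cast
  ring

lemma sy_zero_left {k : Eis} (hk : IsPrim k) (h1 : k ≠ 1) : sy 0 k = 0 := by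
  apply sy_eq_zero hk
  intro h
  rw [isCoprime_zero_left] at h
  exact h1 (isPrim_eq_one_of_isUnit hk h)

/-- **T1x.** -/
theorem t1x : T411.T1x := by
  intro A b1 b2 hA h1 h2 hne
  set e := gE b1 b2 with he
  set k1 := kE b1 b2 with hk1
  set k2 := kE b2 b1 with hk2
  have p0 : IsPrim e := isPrim_gE _ _
  have p1 : IsPrim k1 := isPrim_kE _ _
  have p2 : IsPrim k2 := isPrim_kE _ _
  have q1 : e * k1 = b1 := gE_mul_kE _ h1
  have q2 : e * k2 = b2 := gE_mul_kE' _ h2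
  have hc : IsCoprime k1 k2 := coprime_kE _ _
  have hP : P1 A b1 b2 = dualP A e k1 k2 (fun _ _ => True) := by
    have := P1_eq hA p0 p1 p2 (by rw [q1]; exact h1.2) (by rw [q2]; exact h2.2) hc
    rwa [q1, q2] at this
  rw [hP]
  unfold CP NP
  rw [← he, ← hk1, ← hk2]
  refine dualP_or hA p1 p2 _ _ _ (fun f hf h h0 => ?_) (fun f h a b => b.2 a)
  have hh0 : h ≠ 0 := by
    rintro rfl
    apply h0
    rw [dT_eq]
    have : k1 ≠ 1 ∨ k2 ≠ 1 := by
      by_contra hcon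
      push Not at hcon
      apply hne
      rw [← q1, ← q2, hcon.1, hcon.2]
    unfold psi
    rcases this with hk | hk
    · rw [sy_zero_left p1 hk]; ring
    · rw [sy_zero_left p2 hk]; simp
  simp only [true_iff]
  by_cases hcb : isCubeE e f h
  · exact Or.inl hcb
  · exact Or.inr ⟨hh0, hcb⟩

end Crest.Agent.R012.T1x671
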