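import Crest.Agent.R012.Lat_277

/-!
# Row 12, T8b: the Fejér–Gauss majorant of a short norm interval (helper968)

`PS q s = ∑'_a q a exp(-s N(a))`.  For `S ⊆ {A ≤ N(a) ≤ A (1+κ)}`, `κ J ≤ 1`:
`∑_{a ∈ S} q a ≤ (4 e²/J²) ∑_{j,k<J} ‖PS q ((1 - i(j-k))/A)‖`.
-/

set_option autoImplicit false

noncomputable section

open Complex Finset

namespace Crest.Agent.R012.FejGauss968

open Eis Lat277

/-- `∑'_a q a exp(-s N(a))`. -/
def PS (q : Eis → ℝ) (s : ℂ) : ℂ := ∑' a : Eis, (q a : ℂ) * cexp (-s * (nm a : ℂ))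

/-- the parameters. -/
def sp (A : ℝ) (τ : ℤ) : ℂ := (1 - (τ : ℂ) * I) / (A : ℂ)

lemma sp_re {A : ℝ} (τ : ℤ) : (sp A τ).re = 1 / A := by
  unfold sp
  rw [Complex.div_ofReal_re]
  simp

lemma norm_cexp_sp {A : ℝ} (τ : ℤ) (x : ℝ) :
    ‖cexp (-sp A τ * (x : ℂ))‖ = Real.exp (-(x / A)) := by
  rw [Complex.norm_exp]
  congr 1
  rw [neg_mul, neg_re, re_mul_ofReal, sp_re]
  ring

/-- Fejér–Gauss weight. -/
def FW (A : ℝ) (J : ℕ) (x : ℝ) : ℝ :=
  Complex.normSq (∑ j ∈ range J, cexp ((j : ℂ) * ((x - A) / A : ℝ) * I)) * Real.exp (-(x / A))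

lemma FW_nonneg (A : ℝ) (J : ℕ) (x : ℝ) : 0 ≤ FW A J x :=
  mul_nonneg (Complex.normSq_nonneg _) (Real.exp_pos _).le

/-- Lower bound on the short interval. -/
lemma FW_ge {A κ x : ℝ} {J : ℕ} (hA : 0 < A) (hκ1 : κ ≤ 1) (hJ : κ * J ≤ 1)
    (h1 : A ≤ x) (h2 : x ≤ A * (1 + κ)) :
    (J : ℝ) ^ 2 / 4 * Real.exp (-2) ≤ FW A J x := by
  have hφ0 : 0 ≤ (x - A) / A := div_nonneg (by linarith) hA.le
  have hφ : (x - A) / A ≤ κ := by rw [div_le_iff₀ hA]; linarith
  have hJ0 : (0 : ℝ) ≤ J := Nat.cast_nonneg J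
  have hre : (J : ℝ) / 2 ≤ (∑ j ∈ range J, cexp ((j : ℂ) * ((x - A) / A : ℝ) * I)).re := by
    rw [Complex.re_sum]
    have : ∀ j ∈ range J, (1 / 2 : ℝ) ≤ (cexp ((j : ℂ) * ((x - A) / A : ℝ) * I)).re := by
      intro j hj
      have hj' : (j : ℝ) ≤ J := by exact_mod_cast (mem_range.mp hj).le
      have e : ((j : ℂ) * ((x - A) / A : ℝ) * I) = (((j : ℝ) * ((x - A) / A) : ℝ) : ℂ) * I := by
        push_cast; ring
      rw [e, Complex.exp_ofReal_mul_I_re]
      have hj0 : (0 : ℝ) ≤ j := Nat.cast_nonneg j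
      have hb : (j : ℝ) * ((x - A) / A) ≤ 1 := by
        calc (j : ℝ) * ((x - A) / A) ≤ J * κ := by gcongr
          _ = κ * J := mul_comm _ _
          _ ≤ 1 := hJ
      have hb0 : 0 ≤ (j : ℝ) * ((x - A) / A) := by positivity
      have hc := Real.one_sub_sq_div_two_le_cos (x := (j : ℝ) * ((x - A) / A))
      have : ((j : ℝ) * ((x - A) / A)) ^ 2 ≤ 1 := by
        apply pow_le_one₀ hb0 hb
      linarith
    calc (J : ℝ) / 2 = ∑ j ∈ range J, (1 / 2 : ℝ) := by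
          rw [sum_const, card_range, nsmul_eq_mul]; ring
      _ ≤ _ := sum_le_sum this
  have hsq : (J : ℝ) ^ 2 / 4 ≤
      Complex.normSq (∑ j ∈ range J, cexp ((j : ℂ) * ((x - A) / A : ℝ) * I)) := by
    rw [Complex.normSq_apply]
    have h0 : 0 ≤ (J : ℝ) / 2 := by positivity
    nlinarith [mul_self_nonneg
      (∑ j ∈ range J, cexp ((j : ℂ) * ((x - A) / A : ℝ) * I)).im,
      mul_self_le_mul_self h0 hre]
  have hexp : Real.exp (-2) ≤ Real.exp (-(x / A)) := by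
    apply Real.exp_le_exp.mpr
    have : x / A ≤ 2 := by
      rw [div_le_iff₀ hA]
      nlinarith
    linarith
  unfold FW
  exact mul_le_mul hsq hexp (Real.exp_pos _).le (Complex.normSq_nonneg _)

/-- Expansion of the weight. -/
lemma FW_eq {A : ℝ} (hA : 0 < A) (J : ℕ) (x : ℝ) :
    (FW A J x : ℂ) = ∑ j ∈ range J, ∑ k ∈ range J,
      cexp (-(((j : ℤ) - (k : ℤ) : ℤ) : ℂ) * I) * cexp (-sp A ((j : ℤ) - k) * (x : ℂ)) := by
  have hA' : (A : ℂ) ≠ 0 := by exact_mod_cast hA.ne'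
  unfold FW
  push_cast
  rw [Complex.normSq_eq_conj_mul_self, map_sum, sum_mul_sum]
  rw [sum_comm]
  rw [sum_mul]
  refine sum_congr rfl fun j _ => ?_
  rw [sum_mul]
  refine sum_congr rfl fun k _ => ?_
  rw [← Complex.exp_conj, ← Complex.exp_add, ← Complex.exp_add, ← Complex.exp_add]
  congr 1
  unfold sp
  simp only [map_mul, map_div₀, map_sub, Complex.conj_I, Complex.conj_ofReal, Complex.conj_natCast]
  push_cast
  field_simp
  ring

lemma summable_term {q : Eis → ℝ} {A : ℝ} (h0 : ∀ a, 0 ≤ q a)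
    (hq : Summable fun a : Eis => q a * Real.exp (-((nm a : ℝ) / A))) (τ : ℤ) :
    Summable fun a : Eis => (q a : ℂ) * cexp (-sp A τ * (nm a : ℂ)) := by
  refine Summable.of_norm ?_
  refine hq.congr fun a => ?_
  rw [norm_mul, Complex.norm_real, Real.norm_of_nonneg (h0 a)]
  congr 1
  have := norm_cexp_sp (A := A) τ (nm a : ℝ)
  push_cast at this
  exact this.symm

/-- **The majorant inequality.** -/
theorem sum_le_PS {q : Eis → ℝ} {A κ : ℝ} {J : ℕ} (hA : 0 < A) (hκ1 : κ ≤ 1)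
    (hJ1 : 1 ≤ J) (hJ : κ * J ≤ 1) (h0 : ∀ a, 0 ≤ q a)
    (hq : Summable fun a : Eis => q a * Real.exp (-((nm a : ℝ) / A)))
    (S : Finset Eis) (hS : ∀ a ∈ S, A ≤ nm a ∧ (nm a : ℝ) ≤ A * (1 + κ)) :
    ∑ a ∈ S, q a ≤ 4 * Real.exp 2 / (J : ℝ) ^ 2 *
      ∑ j ∈ range J, ∑ k ∈ range J, ‖PS q (sp A ((j : ℤ) - k))‖ := by
  have hJ0 : (0 : ℝ) < J := by exact_mod_cast hJ1
  have hterm := fun τ => summable_term h0 hq τ
  -- total sum
  have hsumC : HasSum (fun a : Eis => (q a : ℂ) * (FW A J (nm a) : ℂ))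
      (∑ j ∈ range J, ∑ k ∈ range J,
        cexp (-(((j : ℤ) - (k : ℤ) : ℤ) : ℂ) * I) * PS q (sp A ((j : ℤ) - k))) := by
    have h1 : HasSum (fun a : Eis => ∑ j ∈ range J, ∑ k ∈ range J,
        cexp (-(((j : ℤ) - (k : ℤ) : ℤ) : ℂ) * I) *
          ((q a : ℂ) * cexp (-sp A ((j : ℤ) - k) * (nm a : ℂ))))
        (∑ j ∈ range J, ∑ k ∈ range J,
        cexp (-(((j : ℤ) - (k : ℤ) : ℤ) : ℂ) * I) * PS q (sp A ((j : ℤ) - k))) := by
      refine hasSum_sum fun j _ => hasSum_sum fun k _ => ?_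
      exact (hterm _).hasSum.mul_left _
    convert h1 using 2 with a
    have := FW_eq hA J (nm a : ℝ)
    rw [this, mul_sum]
    refine sum_congr rfl fun j _ => ?_
    rw [mul_sum]
    refine sum_congr rfl fun k _ => ?_
    push_cast
    ring
  have hsumR : HasSum (fun a : Eis => q a * FW A J (nm a))
      (∑ j ∈ range J, ∑ k ∈ range J,
        cexp (-(((j : ℤ) - (k : ℤ) : ℤ) : ℂ) * I) * PS q (sp A ((j : ℤ) - k))).re := by
    have := Complex.hasSum_re hsumC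
    convert this using 2 with a
    rw [← Complex.ofReal_mul, Complex.ofReal_re]
  have hle1 : ∑ a ∈ S, q a * ((J : ℝ) ^ 2 / 4 * Real.exp (-2)) ≤
      ∑' a : Eis, q a * FW A J (nm a) := by
    calc ∑ a ∈ S, q a * ((J : ℝ) ^ 2 / 4 * Real.exp (-2))
        ≤ ∑ a ∈ S, q a * FW A J (nm a) := by
          refine sum_le_sum fun a ha => ?_
          exact mul_le_mul_of_nonneg_left
            (FW_ge hA hκ1 hJ (hS a ha).1 (hS a ha).2) (h0 a)
      _ ≤ _ := hsumR.summable.sum_le_tsum S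
          (fun a _ => mul_nonneg (h0 a) (FW_nonneg _ _ _))
  rw [hsumR.tsum_eq] at hle1
  have hle2 : (∑ j ∈ range J, ∑ k ∈ range J,
        cexp (-(((j : ℤ) - (k : ℤ) : ℤ) : ℂ) * I) * PS q (sp A ((j : ℤ) - k))).re ≤
      ∑ j ∈ range J, ∑ k ∈ range J, ‖PS q (sp A ((j : ℤ) - k))‖ := by
    refine (Complex.re_le_norm _).trans ?_
    refine (norm_sum_le _ _).trans (sum_le_sum fun j _ => ?_)
    refine (norm_sum_le _ _).trans (sum_le_sum fun k _ => le_of_eq ?_)
    rw [norm_mul]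
    have : ‖cexp (-(((j : ℤ) - (k : ℤ) : ℤ) : ℂ) * I)‖ = 1 := by
      have e : (-(((j : ℤ) - (k : ℤ) : ℤ) : ℂ) * I) =
          ((-(((j : ℤ) - (k : ℤ) : ℤ) : ℝ) : ℝ) : ℂ) * I := by push_cast; ring
      rw [e, Complex.norm_exp_ofReal_mul_I]
    rw [this, one_mul]
  have h3 := hle1.trans hle2
  rw [← sum_mul] at h3
  have e2 : Real.exp (-2) = (Real.exp 2)⁻¹ := Real.exp_neg 2
  rw [e2] at h3
  have hE : 0 < Real.exp 2 := Real.exp_pos 2
  set M := ∑ j ∈ range J, ∑ k ∈ range J, ‖PS q (sp A ((j : ℤ) - k))‖ with hM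
  calc ∑ a ∈ S, q a = (∑ a ∈ S, q a * ((J : ℝ) ^ 2 / 4 * (Real.exp 2)⁻¹)) *
        (4 * Real.exp 2 / (J : ℝ) ^ 2) := by
        rw [← sum_mul]
        field_simp
    _ ≤ M * (4 * Real.exp 2 / (J : ℝ) ^ 2) := by
        rw [← sum_mul]
        gcongr
    _ = _ := mul_comm _ _

/-- reduction of the double sum over `j, k` to the difference. -/
lemma sum_diff_le {f : ℕ → ℝ} (hf : ∀ n, 0 ≤ f n) (J : ℕ) :
    ∑ j ∈ range J, ∑ k ∈ range J, f ((j : ℤ) - k).natAbs ≤ 2 * J * ∑ m ∈ range J, f m := by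
  have hj : ∀ j ∈ range J, ∑ k ∈ range J, f ((j : ℤ) - k).natAbs ≤ 2 * ∑ m ∈ range J, f m := by
    intro j hj
    have hjJ := mem_range.mp hj
    rw [← sum_filter_add_sum_filter_not (range J) (fun k => k ≤ j)]
    have h1 : ∑ k ∈ (range J).filter (fun k => k ≤ j), f ((j : ℤ) - k).natAbs ≤
        ∑ m ∈ range J, f m := by
      have : ∑ k ∈ (range J).filter (fun k => k ≤ j), f ((j : ℤ) - k).natAbs =
          ∑ m ∈ ((range J).filter (fun k => k ≤ j)).image (fun k : ℕ => ((j : ℤ) - (k : ℤ)).natAbs), f m := by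
        rw [sum_image]
        intro k hk k' hk' h
        simp only [coe_filter, mem_range, Set.mem_ofPred_eq] at hk hk'
        dsimp only at h
        omega
      rw [this]
      apply sum_le_sum_of_subset_of_nonneg _ (fun i _ _ => hf i)
      intro m hm
      rw [mem_image] at hm
      obtain ⟨k, hk, rfl⟩ := hm
      rw [mem_filter, mem_range] at hk
      rw [mem_range]
      omega
    have h2 : ∑ k ∈ (range J).filter (fun k => ¬ k ≤ j), f ((j : ℤ) - k).natAbs ≤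
        ∑ m ∈ range J, f m := by
      have : ∑ k ∈ (range J).filter (fun k => ¬ k ≤ j), f ((j : ℤ) - k).natAbs =
          ∑ m ∈ ((range J).filter (fun k => ¬ k ≤ j)).image (fun k : ℕ => ((j : ℤ) - (k : ℤ)).natAbs),
            f m := by
        rw [sum_image]
        intro k hk k' hk' h
        simp only [coe_filter, mem_range, Set.mem_ofPred_eq] at hk hk'
        dsimp only at h
        omega
      rw [this]
      apply sum_le_sum_of_subset_of_nonneg _ (fun i _ _ => hf i)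
      intro m hm
      rw [mem_image] at hm
      obtain ⟨k, hk, rfl⟩ := hm
      rw [mem_filter, mem_range] at hk
      rw [mem_range]
      omega
    linarith
  calc _ ≤ ∑ _j ∈ range J, 2 * ∑ m ∈ range J, f m := sum_le_sum hj
    _ = _ := by rw [sum_const, card_range, nsmul_eq_mul]; ring

/-- `∑_{m<J} 1/√(1+m²) ≤ 2 + log J`. -/
lemma sum_inv_sqrt_le (J : ℕ) : ∑ m ∈ range J, 1 / Real.sqrt (1 + (m : ℝ) ^ 2) ≤
    2 + Real.log J := by
  rcases Nat.eq_zero_or_pos J with rfl | hJ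
  · simp
  obtain ⟨n, rfl⟩ : ∃ n, J = n + 1 := ⟨J - 1, by omega⟩
  rw [sum_range_succ']
  have h1 : ∑ m ∈ range n, 1 / Real.sqrt (1 + ((m + 1 : ℕ) : ℝ) ^ 2) ≤
      ∑ m ∈ range n, 1 / ((m + 1 : ℕ) : ℝ) := by
    refine sum_le_sum fun m _ => ?_
    have hm : (0 : ℝ) < ((m + 1 : ℕ) : ℝ) := by positivity
    apply one_div_le_one_div_of_le hm
    apply Real.le_sqrt_of_sq_le
    linarith
  have h2 : ∑ m ∈ range n, 1 / ((m + 1 : ℕ) : ℝ) ≤ 1 + Real.log n := by
    have h := harmonic_le_one_add_log n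
    unfold harmonic at h
    push_cast at h
    simpa [one_div] using h
  have h3 : Real.log n ≤ Real.log ((n + 1 : ℕ) : ℝ) := by
    rcases Nat.eq_zero_or_pos n with rfl | hn
    · simp
    · apply Real.log_le_log (by exact_mod_cast hn)
      push_cast; linarith
  have h4 : (1 : ℝ) / Real.sqrt (1 + ((0 : ℕ) : ℝ) ^ 2) = 1 := by simp
  rw [h4]
  linarith

/-! ### Counting -/

/-- number of lattice points in a thin annulus. -/
theorem card_annulus_le {lo hi : ℝ} (h0 : 0 ≤ lo) (h1 : lo ≤ hi) (S : Finset Eis)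
    (hS : ∀ a ∈ S, lo ≤ nm a ∧ (nm a : ℝ) ≤ hi) :
    (S.card : ℝ) ≤ 4 * (hi - lo) + 60 * (Real.sqrt hi + 1) + 4 := by
  classical
  set Y : ℕ := ⌊hi⌋₊ with hY
  set Z : ℕ := ⌈lo⌉₊ - 1 with hZ
  have hhi : 0 ≤ hi := h0.trans h1
  have hYle : (Y : ℝ) ≤ hi := Nat.floor_le hhi
  have hπ : 2 * Real.pi / Real.sqrt 3 ≤ 4 := by
    rw [div_le_iff₀ (Real.sqrt_pos.mpr (by norm_num))]
    have h3 : (1.7 : ℝ) ≤ Real.sqrt 3 := Real.le_sqrt_of_sq_le (by norm_num)
    have := Real.pi_lt_d2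
    nlinarith
  have hπ0 : 0 ≤ 2 * Real.pi / Real.sqrt 3 := by positivity
  have hcY := (abs_le.mp (card_ball Y)).2
  have hsY : Real.sqrt Y ≤ Real.sqrt hi := Real.sqrt_le_sqrt hYle
  rcases Nat.eq_zero_or_pos ⌈lo⌉₊ with hc | hc
  · -- lo ≤ 0
    have hlo : lo = 0 := by
      have := Nat.ceil_eq_zero.mp hc
      linarith
    have hsub : S ⊆ ball Y := by
      intro a ha
      rw [mem_ball]
      exact Nat.le_floor (hS a ha).2
    have : (S.card : ℝ) ≤ (ball Y).card := by exact_mod_cast card_le_card hsub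
    rw [hlo]
    have h5 : 2 * Real.pi / Real.sqrt 3 * (Y : ℝ) ≤ 4 * hi :=
      mul_le_mul hπ hYle (Nat.cast_nonneg Y) (by norm_num)
    have hs0 : 0 ≤ Real.sqrt hi := Real.sqrt_nonneg _
    linarith
  · have hZ1 : Z + 1 = ⌈lo⌉₊ := by omega
    have hZlt : (Z : ℝ) < lo := by
      have : Z < ⌈lo⌉₊ := by omega
      exact Nat.lt_ceil.mp this
    have hZge : lo - 1 ≤ Z := by
      have := Nat.le_ceil lo
      rw [← hZ1] at this
      push_cast at this
      linarith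
    have hZY : Z ≤ Y := by
      apply Nat.le_floor
      linarith
    have hsub : S ⊆ ball Y \ ball Z := by
      intro a ha
      rw [mem_sdiff, mem_ball, mem_ball]
      refine ⟨Nat.le_floor (hS a ha).2, ?_⟩
      intro hle
      have : (nm a : ℝ) ≤ Z := by exact_mod_cast hle
      linarith [(hS a ha).1]
    have hsubset : ball Z ⊆ ball Y := by
      intro a ha
      rw [mem_ball] at ha ⊢
      omega
    have hcard : (S.card : ℝ) ≤ (ball Y).card - (ball Z).card := by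
      have h1 := card_le_card hsub
      rw [card_sdiff_of_subset hsubset] at h1
      have h2 := card_le_card hsubset
      have h3 : (((ball Y).card - (ball Z).card : ℕ) : ℝ) = (ball Y).card - (ball Z).card := by
        rw [Nat.cast_sub h2]
      rw [← h3]
      exact_mod_cast h1
    have hcZ := (abs_le.mp (card_ball Z)).1
    have hsZ : Real.sqrt Z ≤ Real.sqrt hi := Real.sqrt_le_sqrt (by linarith)
    have hdiff : 2 * Real.pi / Real.sqrt 3 * (Y - Z : ℝ) ≤ 4 * (hi - lo + 1) := by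
      have h1 : (Y : ℝ) - Z ≤ hi - lo + 1 := by linarith
      have h2 : (0 : ℝ) ≤ hi - lo + 1 := by linarith
      calc 2 * Real.pi / Real.sqrt 3 * (Y - Z : ℝ)
          ≤ 2 * Real.pi / Real.sqrt 3 * (hi - lo + 1) := by gcongr
        _ ≤ 4 * (hi - lo + 1) := by gcongr
    have hs0 : 0 ≤ Real.sqrt hi := Real.sqrt_nonneg _
    rw [mul_sub] at hdiff
    linarith

end Crest.Agent.R012.FejGauss968
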