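import Crest.Agent.R012.T8Master_810
import Crest.Agent.R012.FejGauss_968

/-!
# Row 12 (T8b): the sum `Sig` for a short cell `B ≤ N(b) ≤ B(1+κ)`
-/

set_option autoImplicit false

noncomputable section

open Finset Complex

namespace Crest.Agent.R012.T8

open Eis Tau671
open Mob705 (mu pdiv mem_pdiv)
open Div277 (dvs tau nz mem_nz)

/-! ### elementary inequalities -/

lemma rpow_third_cube {x : ℝ} (hx : 0 ≤ x) : (x ^ 3) ^ ((1 : ℝ) / 3) = x := by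
  rw [← Real.rpow_natCast, ← Real.rpow_mul hx]; norm_num

/-- `N^(2/3) ν^(1/3) ≤ 9 y r^(1/3)` -/
lemma NnuBound {N ν y r : ℝ} (hN0 : 0 ≤ N) (hν0 : 0 ≤ ν) (hy : 0 ≤ y) (hr : 0 ≤ r)
    (hN : N ≤ 2 * y) (hν : ν ≤ 178 * (y * r)) :
    N ^ ((2 : ℝ) / 3) * ν ^ ((1 : ℝ) / 3) ≤ 9 * y * r ^ ((1 : ℝ) / 3) := by
  have e1 : N ^ ((2 : ℝ) / 3) = (N ^ 2) ^ ((1 : ℝ) / 3) := by
    rw [← Real.rpow_natCast, ← Real.rpow_mul hN0]; norm_num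
  rw [e1, ← Real.mul_rpow (by positivity) hν0]
  have e2 : 9 * y * r ^ ((1 : ℝ) / 3) = ((9 * y) ^ 3 * r) ^ ((1 : ℝ) / 3) := by
    rw [Real.mul_rpow (by positivity) hr, rpow_third_cube (by positivity)]
  rw [e2]
  apply Real.rpow_le_rpow (by positivity) _ (by norm_num)
  calc N ^ 2 * ν ≤ (2 * y) ^ 2 * (178 * (y * r)) := by gcongr
    _ ≤ (9 * y) ^ 3 * r := by
      have : 0 ≤ y ^ 3 * r := by positivity
      nlinarith

/-- `(κ + y^(-1/2))^(4/3) ≤ 3 (κ^(4/3) + y^(-2/3))` -/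
lemma r43 {κ y : ℝ} (hκ : 0 ≤ κ) (hy : 0 < y) :
    (κ + y ^ (-(1 : ℝ) / 2)) ^ ((4 : ℝ) / 3) ≤ 3 * (κ ^ ((4 : ℝ) / 3) + y ^ (-(2 : ℝ) / 3)) := by
  set t := y ^ (-(1 : ℝ) / 2) with ht
  have ht0 : 0 ≤ t := by positivity
  have e1 : y ^ (-(2 : ℝ) / 3) = t ^ ((4 : ℝ) / 3) := by
    rw [ht, ← Real.rpow_mul hy.le]; norm_num
  rw [e1]
  have h2 : (2 : ℝ) ^ ((4 : ℝ) / 3) ≤ 3 := by
    have e2 : (3 : ℝ) = (3 ^ 3) ^ ((1 : ℝ) / 3) := (rpow_third_cube (by norm_num)).symm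
    have e3 : (2 : ℝ) ^ ((4 : ℝ) / 3) = (2 ^ 4) ^ ((1 : ℝ) / 3) := by
      rw [← Real.rpow_natCast, ← Real.rpow_mul (by norm_num)]; norm_num
    rw [e3]
    nth_rw 2 [e2]
    apply Real.rpow_le_rpow (by norm_num) (by norm_num) (by norm_num)
  have hmax : κ + t ≤ 2 * max κ t := by
    have := le_max_left κ t
    have := le_max_right κ t
    linarith
  calc (κ + t) ^ ((4 : ℝ) / 3) ≤ (2 * max κ t) ^ ((4 : ℝ) / 3) := by
        apply Real.rpow_le_rpow (by positivity) hmax (by norm_num)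
    _ = 2 ^ ((4 : ℝ) / 3) * (max κ t) ^ ((4 : ℝ) / 3) :=
        Real.mul_rpow (by norm_num) (le_max_of_le_left hκ)
    _ ≤ 3 * (κ ^ ((4 : ℝ) / 3) + t ^ ((4 : ℝ) / 3)) := by
        have h3 : (max κ t) ^ ((4 : ℝ) / 3) ≤ κ ^ ((4 : ℝ) / 3) + t ^ ((4 : ℝ) / 3) := by
          have a1 : 0 ≤ κ ^ ((4 : ℝ) / 3) := by positivity
          have a2 : 0 ≤ t ^ ((4 : ℝ) / 3) := by positivity
          rcases max_cases κ t with ⟨h, _⟩ | ⟨h, _⟩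
          · rw [h]; linarith
          · rw [h]; linarith
        gcongr

/-- the main real inequality; `a = N(d)`, `b = a u = N(e)`, `g = N(g)`, `P = (1+τ²)B²/A` -/
lemma term_real {B κ P a u g : ℝ} (hB : 2 ≤ B) (hκ : 0 ≤ κ) (hκ1 : κ ≤ 1)
    (hP : 0 ≤ P) (ha : 1 ≤ a) (hu : 1 ≤ u) (hg : 1 ≤ g) (hy : 1 / 2 ≤ B / (a * u * g))
    {K : ℝ} (hK0 : 0 ≤ K) (hK : K ≤ P / (a * u ^ 2)) :
    a⁻¹ * g⁻¹ * ((K ^ ((1 : ℝ) / 3) * (9 * (B / (a * u * g)) *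
        (κ + (B / (a * u * g)) ^ (-(1 : ℝ) / 2)) ^ ((1 : ℝ) / 3)) + K + K ^ 2) *
        (176 * (κ + (B / (a * u * g)) ^ (-(1 : ℝ) / 2)))) ≤
      4752 * (P ^ ((1 : ℝ) / 3) * (κ ^ ((4 : ℝ) / 3) * B + B ^ ((1 : ℝ) / 3)) *
        (a ^ (-(4 : ℝ) / 3) * u⁻¹ * g ^ (-(4 : ℝ) / 3)) +
        (P + P ^ 2) * (a ^ (-(4 : ℝ) / 3) * u ^ (-(4 : ℝ) / 3) * g⁻¹)) := by
  have hB0 : 0 < B := by linarith
  have ha0 : 0 < a := by linarith
  have hu0 : 0 < u := by linarith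
  have hg0 : 0 < g := by linarith
  set y := B / (a * u * g) with hydef
  have hy0 : 0 < y := by positivity
  set r := κ + y ^ (-(1 : ℝ) / 2) with hr
  have hr0 : 0 ≤ r := by positivity
  have hr3 : r ≤ 3 := by
    have : y ^ (-(1 : ℝ) / 2) ≤ (1 / 2 : ℝ) ^ (-(1 : ℝ) / 2) :=
      Real.rpow_le_rpow_of_nonpos (by norm_num) hy (by norm_num)
    have h2 : (1 / 2 : ℝ) ^ (-(1 : ℝ) / 2) ≤ 2 := by
      have : (1 / 2 : ℝ) ^ (-(1 : ℝ) / 2) = (2 : ℝ) ^ ((1 : ℝ) / 2) := by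
        rw [one_div, Real.inv_rpow (by norm_num), ← Real.rpow_neg (by norm_num)]; norm_num
      rw [this]
      calc (2 : ℝ) ^ ((1 : ℝ) / 2) ≤ 2 ^ (1 : ℝ) :=
            Real.rpow_le_rpow_of_exponent_le (by norm_num) (by norm_num)
        _ = 2 := Real.rpow_one 2
    linarith
  -- cube roots
  obtain ⟨α, hα1, hα⟩ : ∃ α : ℝ, 1 ≤ α ∧ α ^ 3 = a := by
    refine ⟨a ^ ((1 : ℝ) / 3), Real.one_le_rpow ha (by norm_num), ?_⟩
    rw [← Real.rpow_natCast, ← Real.rpow_mul ha0.le]; norm_num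
  obtain ⟨μ, hμ1, hμ⟩ : ∃ μ : ℝ, 1 ≤ μ ∧ μ ^ 3 = u := by
    refine ⟨u ^ ((1 : ℝ) / 3), Real.one_le_rpow hu (by norm_num), ?_⟩
    rw [← Real.rpow_natCast, ← Real.rpow_mul hu0.le]; norm_num
  obtain ⟨γ, hγ1, hγ⟩ : ∃ γ : ℝ, 1 ≤ γ ∧ γ ^ 3 = g := by
    refine ⟨g ^ ((1 : ℝ) / 3), Real.one_le_rpow hg (by norm_num), ?_⟩
    rw [← Real.rpow_natCast, ← Real.rpow_mul hg0.le]; norm_num
  have hα0 : 0 < α := by linarith
  have hμ0 : 0 < μ := by linarith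
  have hγ0 : 0 < γ := by linarith
  have h43 : ∀ x t : ℝ, 0 < t → t ^ 3 = x → x ^ (-(4 : ℝ) / 3) = (t⁻¹) ^ 4 := by
    intro x t ht hx
    rw [← hx, ← Real.rpow_natCast, ← Real.rpow_mul ht.le, inv_pow, ← Real.rpow_natCast,
      ← Real.rpow_neg ht.le]
    norm_num
  rw [h43 a α hα0 hα, h43 u μ hμ0 hμ, h43 g γ hγ0 hγ]
  set p := P ^ ((1 : ℝ) / 3) with hp
  have hp0 : 0 ≤ p := by positivity
  set β := B ^ ((1 : ℝ) / 3) with hβ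
  have hβ0 : 0 < β := by positivity
  have hβ3 : β ^ 3 = B := by
    rw [hβ, ← Real.rpow_natCast, ← Real.rpow_mul hB0.le]; norm_num
  set k4 := κ ^ ((4 : ℝ) / 3) with hk4
  have hk40 : 0 ≤ k4 := by positivity
  have iα : α⁻¹ ≤ 1 := inv_le_one_of_one_le₀ hα1
  have iμ : μ⁻¹ ≤ 1 := inv_le_one_of_one_le₀ hμ1
  have iγ : γ⁻¹ ≤ 1 := inv_le_one_of_one_le₀ hγ1
  have jα : 0 < α⁻¹ := by positivity
  have jμ : 0 < μ⁻¹ := by positivity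
  have jγ : 0 < γ⁻¹ := by positivity
  -- `K^(1/3)`
  have hK3 : K ^ ((1 : ℝ) / 3) ≤ p * (α⁻¹ * (μ⁻¹) ^ 2) := by
    have e1 : p * (α⁻¹ * (μ⁻¹) ^ 2) = (P * (α⁻¹ * (μ⁻¹) ^ 2) ^ 3) ^ ((1 : ℝ) / 3) := by
      rw [Real.mul_rpow hP (by positivity), rpow_third_cube (by positivity)]
    rw [e1]
    apply Real.rpow_le_rpow hK0 _ (by norm_num)
    refine hK.trans (le_of_eq ?_)
    rw [← hα, ← hμ]
    field_simp
  have hy1 : y = β ^ 3 * ((α⁻¹) ^ 3 * (μ⁻¹) ^ 3 * (γ⁻¹) ^ 3) := by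
    rw [hydef, ← hα, ← hμ, ← hγ, hβ3]; field_simp
  have hy13 : y * y ^ (-(2 : ℝ) / 3) = β * (α⁻¹ * μ⁻¹ * γ⁻¹) := by
    have e1 : y * y ^ (-(2 : ℝ) / 3) = y ^ ((1 : ℝ) / 3) := by
      have : (1 : ℝ) / 3 = 1 + -(2 : ℝ) / 3 := by norm_num
      rw [this, Real.rpow_add hy0, Real.rpow_one]
    rw [e1]
    have e2 : y = (β * (α⁻¹ * μ⁻¹ * γ⁻¹)) ^ 3 := by rw [hy1]; ring
    rw [e2, rpow_third_cube (by positivity)]
  have hr43 := r43 hκ hy0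
  rw [← hr, ← hk4] at hr43
  have hrr : r ^ ((1 : ℝ) / 3) * r = r ^ ((4 : ℝ) / 3) := by
    rcases eq_or_lt_of_le hr0 with h | h
    · rw [← h, Real.zero_rpow (by norm_num), Real.zero_rpow (by norm_num), zero_mul]
    · have : (4 : ℝ) / 3 = 1 / 3 + 1 := by norm_num
      rw [this, Real.rpow_add h, Real.rpow_one]
  -- first part
  have p1 : a⁻¹ * g⁻¹ * (K ^ ((1 : ℝ) / 3) * (9 * y * r ^ ((1 : ℝ) / 3)) * (176 * r)) ≤
      4752 * (p * (k4 * B + β) * ((α⁻¹) ^ 4 * u⁻¹ * (γ⁻¹) ^ 4)) := by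
    calc a⁻¹ * g⁻¹ * (K ^ ((1 : ℝ) / 3) * (9 * y * r ^ ((1 : ℝ) / 3)) * (176 * r))
        = 1584 * (a⁻¹ * g⁻¹) * K ^ ((1 : ℝ) / 3) * y * (r ^ ((1 : ℝ) / 3) * r) := by ring
      _ ≤ 1584 * (a⁻¹ * g⁻¹) * (p * (α⁻¹ * (μ⁻¹) ^ 2)) * y *
            (3 * (k4 + y ^ (-(2 : ℝ) / 3))) := by
          rw [hrr]; gcongr
      _ = 4752 * (a⁻¹ * g⁻¹) * (p * (α⁻¹ * (μ⁻¹) ^ 2)) *
            (k4 * y + y * y ^ (-(2 : ℝ) / 3)) := by ring
      _ = 4752 * ((α⁻¹) ^ 3 * (γ⁻¹) ^ 3) * (p * (α⁻¹ * (μ⁻¹) ^ 2)) *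
            (k4 * (β ^ 3 * ((α⁻¹) ^ 3 * (μ⁻¹) ^ 3 * (γ⁻¹) ^ 3)) + β * (α⁻¹ * μ⁻¹ * γ⁻¹)) := by
          rw [hy13, hy1, ← hα, ← hγ]; simp only [inv_pow]
      _ = 4752 * (p * ((α⁻¹) ^ 4 * (μ⁻¹) ^ 3 * (γ⁻¹) ^ 4) *
            (k4 * β ^ 3 * ((α⁻¹) ^ 3 * (μ⁻¹) ^ 2 * (γ⁻¹) ^ 2) + β * α⁻¹)) := by ring
      _ ≤ 4752 * (p * ((α⁻¹) ^ 4 * (μ⁻¹) ^ 3 * (γ⁻¹) ^ 4) *
            (k4 * β ^ 3 * 1 + β * 1)) := by
          have h1 : (α⁻¹) ^ 3 * (μ⁻¹) ^ 2 * (γ⁻¹) ^ 2 ≤ 1 := by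
            have a1 : (α⁻¹) ^ 3 ≤ 1 := pow_le_one₀ jα.le iα
            have a2 : (μ⁻¹) ^ 2 ≤ 1 := pow_le_one₀ jμ.le iμ
            have a3 : (γ⁻¹) ^ 2 ≤ 1 := pow_le_one₀ jγ.le iγ
            calc (α⁻¹) ^ 3 * (μ⁻¹) ^ 2 * (γ⁻¹) ^ 2 ≤ 1 * 1 * 1 := by gcongr
              _ = 1 := by norm_num
          gcongr
      _ = _ := by rw [hβ3, ← hμ, ← inv_pow]; ring
  -- second part
  have hKle : K ≤ P * ((α⁻¹) ^ 3 * (μ⁻¹) ^ 6) := by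
    refine hK.trans (le_of_eq ?_)
    rw [← hα, ← hμ]; field_simp
  have p2 : a⁻¹ * g⁻¹ * (K * (176 * r)) ≤ 528 * (P * ((α⁻¹) ^ 4 * (μ⁻¹) ^ 4 * g⁻¹)) := by
    calc a⁻¹ * g⁻¹ * (K * (176 * r)) ≤
          a⁻¹ * g⁻¹ * (P * ((α⁻¹) ^ 3 * (μ⁻¹) ^ 6) * (176 * 3)) := by gcongr
      _ = 528 * (P * ((α⁻¹) ^ 4 * (μ⁻¹) ^ 4 * g⁻¹ * ((α⁻¹) ^ 2 * (μ⁻¹) ^ 2))) := by
          rw [← hα, ← inv_pow]; ring
      _ ≤ 528 * (P * ((α⁻¹) ^ 4 * (μ⁻¹) ^ 4 * g⁻¹ * 1)) := by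
          have h1 : (α⁻¹) ^ 2 * (μ⁻¹) ^ 2 ≤ 1 := by
            have a1 : (α⁻¹) ^ 2 ≤ 1 := pow_le_one₀ jα.le iα
            have a2 : (μ⁻¹) ^ 2 ≤ 1 := pow_le_one₀ jμ.le iμ
            calc (α⁻¹) ^ 2 * (μ⁻¹) ^ 2 ≤ 1 * 1 := by gcongr
              _ = 1 := by norm_num
          gcongr
      _ = _ := by ring
  have p3 : a⁻¹ * g⁻¹ * (K ^ 2 * (176 * r)) ≤ 528 * (P ^ 2 * ((α⁻¹) ^ 4 * (μ⁻¹) ^ 4 * g⁻¹)) := by
    calc a⁻¹ * g⁻¹ * (K ^ 2 * (176 * r)) ≤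
          a⁻¹ * g⁻¹ * ((P * ((α⁻¹) ^ 3 * (μ⁻¹) ^ 6)) ^ 2 * (176 * 3)) := by gcongr
      _ = 528 * (P ^ 2 * ((α⁻¹) ^ 4 * (μ⁻¹) ^ 4 * g⁻¹ * ((α⁻¹) ^ 5 * (μ⁻¹) ^ 8))) := by
          rw [← hα, ← inv_pow]; ring
      _ ≤ 528 * (P ^ 2 * ((α⁻¹) ^ 4 * (μ⁻¹) ^ 4 * g⁻¹ * 1)) := by
          have h1 : (α⁻¹) ^ 5 * (μ⁻¹) ^ 8 ≤ 1 := by
            have a1 : (α⁻¹) ^ 5 ≤ 1 := pow_le_one₀ jα.le iα
            have a2 : (μ⁻¹) ^ 8 ≤ 1 := pow_le_one₀ jμ.le iμ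
            calc (α⁻¹) ^ 5 * (μ⁻¹) ^ 8 ≤ 1 * 1 := by gcongr
              _ = 1 := by norm_num
          gcongr
      _ = _ := by ring
  have q1 : 0 ≤ P * ((α⁻¹) ^ 4 * (μ⁻¹) ^ 4 * g⁻¹) := by positivity
  have q2 : 0 ≤ P ^ 2 * ((α⁻¹) ^ 4 * (μ⁻¹) ^ 4 * g⁻¹) := by positivity
  calc a⁻¹ * g⁻¹ * ((K ^ ((1 : ℝ) / 3) * (9 * y * r ^ ((1 : ℝ) / 3)) + K + K ^ 2) * (176 * r))
      = a⁻¹ * g⁻¹ * (K ^ ((1 : ℝ) / 3) * (9 * y * r ^ ((1 : ℝ) / 3)) * (176 * r)) +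
        a⁻¹ * g⁻¹ * (K * (176 * r)) + a⁻¹ * g⁻¹ * (K ^ 2 * (176 * r)) := by ring
    _ ≤ 4752 * (p * (k4 * B + β) * ((α⁻¹) ^ 4 * u⁻¹ * (γ⁻¹) ^ 4)) +
        528 * (P * ((α⁻¹) ^ 4 * (μ⁻¹) ^ 4 * g⁻¹)) +
        528 * (P ^ 2 * ((α⁻¹) ^ 4 * (μ⁻¹) ^ 4 * g⁻¹)) := add_le_add (add_le_add p1 p2) p3
    _ ≤ _ := by nlinarith

/-! ### The sum `Sig` -/

/-- `P = (1+τ²) B² / A` -/
def PP (A B τ : ℝ) : ℝ := (1 + τ ^ 2) * B ^ 2 / A

lemma Keff_le {A B τ : ℝ} (hA : 0 < A) {e d : Eis} {u : ℝ} (hd : IsPrim d)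
    (hu : 0 < u) (heu : (nm e : ℝ) = nm d * u) :
    Keff A B τ e d ≤ PP A B τ / (nm d * u ^ 2) := by
  have nd : (0 : ℝ) < nm d := by exact_mod_cast nm_pos.mpr hd.ne_zero
  unfold Keff PP
  have h1 : 27 / (4 * Real.pi ^ 2) ≤ 1 := by
    rw [div_le_one (by positivity)]
    nlinarith [Real.pi_gt_three]
  rw [heu]
  have e1 : 27 * (1 + τ ^ 2) * nm d * B ^ 2 / (4 * Real.pi ^ 2 * A * (nm d * u) ^ 2) =
      27 / (4 * Real.pi ^ 2) * ((1 + τ ^ 2) * B ^ 2 / A / (nm d * u ^ 2)) := by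
    field_simp
  rw [e1]
  exact mul_le_of_le_one_left (by positivity) h1

lemma Keff_nonneg {A B τ : ℝ} (hA : 0 < A) (e d : Eis) : 0 ≤ Keff A B τ e d := by
  unfold Keff; positivity

/-- the bound for the card of `Kg` -/
lemma card_real {κ y c : ℝ} (hκ : 0 ≤ κ) (hκ1 : κ ≤ 1) (hy : 1 / 2 ≤ y)
    (hc : c ≤ 4 * (y * (1 + κ) - y) + 60 * (Real.sqrt (y * (1 + κ)) + 1) + 4) :
    c ≤ 176 * (y * (κ + y ^ (-(1 : ℝ) / 2))) ∧ 1 + c ≤ 178 * (y * (κ + y ^ (-(1 : ℝ) / 2))) := by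
  have hy0 : 0 < y := by linarith
  set t := Real.sqrt y with ht
  have ht0 : 0 < t := Real.sqrt_pos.mpr hy0
  have htt : t * t = y := Real.mul_self_sqrt hy0.le
  have e1 : y * y ^ (-(1 : ℝ) / 2) = t := by
    rw [ht, Real.sqrt_eq_rpow]
    have : (1 : ℝ) / 2 = 1 + -(1 : ℝ) / 2 := by norm_num
    rw [this, Real.rpow_add hy0, Real.rpow_one]
  have e2 : y * (κ + y ^ (-(1 : ℝ) / 2)) = κ * y + t := by rw [mul_add, e1]; ring
  rw [e2]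
  have h2 : Real.sqrt 2 ≤ 1.4143 := by
    rw [Real.sqrt_le_left (by norm_num)]; norm_num
  have h20 : 0 < Real.sqrt 2 := Real.sqrt_pos.mpr (by norm_num)
  have h22 : Real.sqrt 2 * Real.sqrt 2 = 2 := Real.mul_self_sqrt (by norm_num)
  have h3 : Real.sqrt (y * (1 + κ)) ≤ t * Real.sqrt 2 := by
    rw [Real.sqrt_mul hy0.le]
    gcongr
    linarith
  have h4 : 1 ≤ Real.sqrt 2 * t := by
    rw [ht, ← Real.sqrt_mul (by norm_num)]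
    rw [Real.one_le_sqrt]; linarith
  have h5 : 1 ≤ 1.4143 * t := h4.trans (by gcongr)
  have h6 : Real.sqrt (y * (1 + κ)) ≤ t * 1.4143 := h3.trans (by gcongr)
  have h7 : 0 ≤ κ * y := by positivity
  constructor
  · nlinarith
  · nlinarith

/-- the bound for a single triple. -/
lemma term_cell {A B κ τ : ℝ} {S D : Finset Eis} {β : Eis → ℂ} (hA : 0 < A) (hB : 2 ≤ B)
    (hκ : 0 ≤ κ) (hκ1 : κ ≤ 1)
    (hS : ∀ b ∈ S, IsPrim b ∧ Squarefree b ∧ B ≤ nm b ∧ (nm b : ℝ) ≤ B * (1 + κ))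
    (hβ : ∀ b ∈ S, ‖β b‖ ≤ 1) (hD : ∀ d ∈ D, IsPrim d) {e d g : Eis} (he : IsPrim e)
    (hg : IsPrim g) (hd : d ∈ pdiv e) (hne : (Kg S D e g).Nonempty) :
    (nm e : ℝ) ≤ 2 * B ∧ (nm g : ℝ) ≤ 2 * B ∧
    (nm d : ℝ)⁻¹ * (nm g : ℝ)⁻¹ *
    (Phi (Keff A B τ e d) (max 1 (B / (nm e * nm g))) (1 + (Kg S D e g).card) *
      ∑ m ∈ Kg S D e g, ‖β (e * (g * m))‖ ^ 2 / nm m) ≤
    (1 + Real.log (1 + PP A B τ)) * (4752 *
      (PP A B τ ^ ((1 : ℝ) / 3) * (κ ^ ((4 : ℝ) / 3) * B + B ^ ((1 : ℝ) / 3)) *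
        ((nm d : ℝ) ^ (-(4 : ℝ) / 3) * ((nm e : ℝ) / nm d)⁻¹ * (nm g : ℝ) ^ (-(4 : ℝ) / 3)) +
        (PP A B τ + PP A B τ ^ 2) *
        ((nm d : ℝ) ^ (-(4 : ℝ) / 3) * ((nm e : ℝ) / nm d) ^ (-(4 : ℝ) / 3) * (nm g : ℝ)⁻¹))) := by
  have hB0 : 0 < B := by linarith
  obtain ⟨hdp, hde⟩ := (mem_pdiv he.ne_zero).mp hd
  obtain ⟨f, hf⟩ := hde
  have hf0 : f ≠ 0 := by
    intro h; apply he.ne_zero; rw [hf, h, mul_zero]
  have ne1 : (1 : ℝ) ≤ nm e := by exact_mod_cast nm_pos.mpr he.ne_zero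
  have ng1 : (1 : ℝ) ≤ nm g := by exact_mod_cast nm_pos.mpr hg.ne_zero
  have nd1 : (1 : ℝ) ≤ nm d := by exact_mod_cast nm_pos.mpr hdp.ne_zero
  have nf1 : (1 : ℝ) ≤ nm f := by exact_mod_cast nm_pos.mpr hf0
  have ne0 : (0 : ℝ) < nm e := by linarith
  have ng0 : (0 : ℝ) < nm g := by linarith
  have nd0 : (0 : ℝ) < nm d := by linarith
  have nf0 : (0 : ℝ) < nm f := by linarith
  have hnef : (nm e : ℝ) = nm d * nm f := by rw [hf, nm_mul]; push_cast; ring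
  have hu : (nm e : ℝ) / nm d = nm f := by rw [hnef]; field_simp
  set y := B / (nm e * nm g) with hy
  have hy0 : 0 < y := by positivity
  -- norms in `Kg`
  have hK : ∀ m ∈ Kg S D e g, (1 : ℝ) ≤ nm m ∧ y ≤ nm m ∧ (nm m : ℝ) ≤ y * (1 + κ) ∧
      e * (g * m) ∈ S := by
    intro m hm
    unfold Kg at hm
    rw [Finset.mem_filter] at hm
    have h1 := hS _ hm.2
    have e1 : (nm (e * (g * m)) : ℝ) = nm e * nm g * nm m := by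
      rw [nm_mul, nm_mul]; push_cast; ring
    rw [e1] at h1
    refine ⟨by exact_mod_cast nm_pos.mpr (hD _ hm.1).ne_zero, ?_, ?_, hm.2⟩
    · rw [hy, div_le_iff₀ (by positivity)]; linarith [h1.2.2.1]
    · rw [hy, div_mul_eq_mul_div, le_div_iff₀ (by positivity)]; linarith [h1.2.2.2]
  obtain ⟨m0, hm0⟩ := hne
  obtain ⟨k1, k2, k3, k4⟩ := hK m0 hm0
  have hyh : 1 / 2 ≤ y := by
    have : y * (1 + κ) ≤ y * 2 := by gcongr; linarith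
    linarith
  have hprod : (nm e : ℝ) * nm g ≤ 2 * B := by
    rw [hy, le_div_iff₀ (by positivity)] at hyh
    linarith
  refine ⟨?_, ?_, ?_⟩
  · nlinarith
  · nlinarith
  rw [hu]
  set K := Keff A B τ e d with hKdef
  have hK0 : 0 ≤ K := Keff_nonneg hA e d
  have hKle : K ≤ PP A B τ / (nm d * (nm f : ℝ) ^ 2) := Keff_le hA hdp nf0 hnef
  have hP0 : 0 ≤ PP A B τ := by unfold PP; positivity
  have hKP : K ≤ PP A B τ := by
    refine hKle.trans (div_le_self hP0 ?_)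
    have : (1 : ℝ) ≤ (nm f : ℝ) ^ 2 := one_le_pow₀ nf1
    nlinarith
  set r := κ + y ^ (-(1 : ℝ) / 2) with hr
  have hr0 : 0 ≤ r := by positivity
  have hcard := FejGauss968.card_annulus_le hy0.le (show y ≤ y * (1 + κ) by nlinarith)
    (Kg S D e g) (fun m hm => ⟨(hK m hm).2.1, (hK m hm).2.2.1⟩)
  obtain ⟨c1, c2⟩ := card_real hκ hκ1 hyh hcard
  have hsum : ∑ m ∈ Kg S D e g, ‖β (e * (g * m))‖ ^ 2 / nm m ≤ 176 * r := by
    calc ∑ m ∈ Kg S D e g, ‖β (e * (g * m))‖ ^ 2 / nm m ≤ ∑ m ∈ Kg S D e g, 1 / y := by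
          refine Finset.sum_le_sum fun m hm => ?_
          obtain ⟨a1, a2, a3, a4⟩ := hK m hm
          have : ‖β (e * (g * m))‖ ^ 2 ≤ 1 := pow_le_one₀ (norm_nonneg _) (hβ _ a4)
          gcongr
      _ = (Kg S D e g).card * (1 / y) := by rw [Finset.sum_const, nsmul_eq_mul]
      _ ≤ (176 * (y * r)) * (1 / y) := by gcongr
      _ = 176 * r := by field_simp
  have hPhi : Phi K (max 1 y) (1 + (Kg S D e g).card) ≤ (1 + Real.log (1 + PP A B τ)) *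
      (K ^ ((1 : ℝ) / 3) * (9 * y * r ^ ((1 : ℝ) / 3)) + K + K ^ 2) := by
    unfold Phi
    have hN := NnuBound (N := max 1 y) (ν := 1 + (Kg S D e g).card) (y := y) (r := r)
      (by positivity) (by positivity) hy0.le hr0 (max_le (by linarith) (by linarith)) c2
    have hlog : Real.log (1 + K) ≤ Real.log (1 + PP A B τ) :=
      Real.log_le_log (by linarith) (by linarith)
    have hlog0 : 0 ≤ Real.log (1 + K) := Real.log_nonneg (by linarith)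
    have hlog1 : 0 ≤ Real.log (1 + PP A B τ) := Real.log_nonneg (by linarith)
    rw [mul_assoc (K ^ ((1 : ℝ) / 3))]
    gcongr
  have hlog1 : 0 ≤ Real.log (1 + PP A B τ) := Real.log_nonneg (by linarith)
  have hyy : B / (nm d * nm f * nm g) = y := by rw [hy, hnef]
  have hmain := term_real (B := B) (κ := κ) (P := PP A B τ) (a := nm d) (u := nm f) (g := nm g)
    hB hκ hκ1 hP0 nd1 nf1 ng1 (by rw [hyy]; exact hyh) hK0 hKle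
  rw [hyy, ← hr] at hmain
  have hsum0 : 0 ≤ ∑ m ∈ Kg S D e g, ‖β (e * (g * m))‖ ^ 2 / nm m :=
    Finset.sum_nonneg fun m _ => by positivity
  calc (nm d : ℝ)⁻¹ * (nm g : ℝ)⁻¹ * (Phi K (max 1 y) (1 + (Kg S D e g).card) *
        ∑ m ∈ Kg S D e g, ‖β (e * (g * m))‖ ^ 2 / nm m)
      ≤ (nm d : ℝ)⁻¹ * (nm g : ℝ)⁻¹ * (((1 + Real.log (1 + PP A B τ)) *
      (K ^ ((1 : ℝ) / 3) * (9 * y * r ^ ((1 : ℝ) / 3)) + K + K ^ 2)) * (176 * r)) := by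
        gcongr
    _ = (1 + Real.log (1 + PP A B τ)) * ((nm d : ℝ)⁻¹ * (nm g : ℝ)⁻¹ *
      ((K ^ ((1 : ℝ) / 3) * (9 * y * r ^ ((1 : ℝ) / 3)) + K + K ^ 2) * (176 * r))) := by ring
    _ ≤ _ := by gcongr

/-- the constant `100 Σ m^(-4/3)` -/
def c43 : ℝ := 100 * ∑' m : ℕ, (m : ℝ) ^ (-(4 : ℝ) / 3)

lemma summable_43 : Summable fun m : ℕ => (m : ℝ) ^ (-(4 : ℝ) / 3) :=
  Real.summable_nat_rpow.mpr (by norm_num)

lemma sum_43_le (X : ℕ) : ∑ x ∈ primBall X, (nm x : ℝ) ^ (-(4 : ℝ) / 3) ≤ c43 := by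
  refine (Finset.sum_le_sum_of_subset_of_nonneg (Div277.primBall_subset_nz X)
    (fun _ _ _ => by positivity)).trans ?_
  refine (Div277.sum_antitone_le (fun m => (m : ℝ) ^ (-(4 : ℝ) / 3)) ?_ ?_ X).trans ?_
  · intro m hm
    have : (0 : ℝ) < m := by exact_mod_cast hm
    exact Real.rpow_le_rpow_of_nonpos this (by push_cast; linarith) (by norm_num)
  · intro m; positivity
  · unfold c43
    refine mul_le_mul_of_nonneg_left ?_ (by norm_num)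
    exact summable_43.sum_le_tsum _ (fun m _ => by positivity)

lemma one_le_c43 : 1 ≤ c43 := by
  have h := summable_43.sum_le_tsum {1} (fun m _ => by positivity)
  simp only [Finset.sum_singleton, Nat.cast_one, Real.one_rpow] at h
  unfold c43
  linarith

lemma sum_inv_le (X : ℕ) : ∑ x ∈ primBall X, (nm x : ℝ)⁻¹ ≤ 100 * (1 + Real.log X) := by
  have := Div277.sum_inv_primBall_le X
  simpa [one_div] using this

/-- sum over `e` and `d ∣ e`. -/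
lemma sum_ed_le (X : ℕ) (G : ℝ → ℝ) (hG : ∀ x, 0 ≤ x → 0 ≤ G x) :
    ∑ e ∈ primBall X, ∑ d ∈ pdiv e, (nm d : ℝ) ^ (-(4 : ℝ) / 3) * G ((nm e : ℝ) / nm d) ≤
      c43 * ∑ x ∈ primBall X, G (nm x) := by
  have h := Div277.sum_primBall_dvs X
    (fun d n => (nm d : ℝ) ^ (-(4 : ℝ) / 3) * G ((nm n : ℝ) / nm d))
  have e0 : ∑ e ∈ primBall X, ∑ d ∈ pdiv e, (nm d : ℝ) ^ (-(4 : ℝ) / 3) *
      G ((nm e : ℝ) / nm d) = _ := h
  rw [e0]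
  have hs0 : 0 ≤ ∑ x ∈ primBall X, G (nm x) :=
    Finset.sum_nonneg fun x _ => hG _ (by positivity)
  calc ∑ d ∈ primBall X, ∑ m ∈ primBall (X / nm d), (nm d : ℝ) ^ (-(4 : ℝ) / 3) *
        G ((nm (d * m) : ℝ) / nm d)
      ≤ ∑ d ∈ primBall X, (nm d : ℝ) ^ (-(4 : ℝ) / 3) * ∑ x ∈ primBall X, G (nm x) := by
        refine Finset.sum_le_sum fun d hd => ?_
        have hd0 : (0 : ℝ) < nm d := by
          exact_mod_cast nm_pos.mpr (mem_primBall.mp hd).2.ne_zero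
        rw [Finset.mul_sum]
        calc ∑ m ∈ primBall (X / nm d), (nm d : ℝ) ^ (-(4 : ℝ) / 3) *
              G ((nm (d * m) : ℝ) / nm d)
            = ∑ m ∈ primBall (X / nm d), (nm d : ℝ) ^ (-(4 : ℝ) / 3) * G (nm m) := by
              refine Finset.sum_congr rfl fun m _ => ?_
              rw [nm_mul]; push_cast
              rw [mul_div_cancel_left₀ _ hd0.ne']
          _ ≤ _ := Finset.sum_le_sum_of_subset_of_nonneg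
              (Div277.primBall_mono (Nat.div_le_self _ _))
              (fun m _ _ => mul_nonneg (by positivity) (hG _ (by positivity)))
    _ = (∑ d ∈ primBall X, (nm d : ℝ) ^ (-(4 : ℝ) / 3)) * ∑ x ∈ primBall X, G (nm x) := by
        rw [Finset.sum_mul]
    _ ≤ _ := mul_le_mul_of_nonneg_right (sum_43_le X) hs0

open Classical in
/-- **The sum `Sig` for a short cell**, strong form (`B ^ (1/3)`). -/
theorem sig_cell_strong : ∃ C : ℝ, 0 < C ∧ ∀ (A B κ τ : ℝ) (S D : Finset Eis) (β : Eis → ℂ), 0 < A →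
    2 ≤ B → 0 ≤ κ → κ ≤ 1 →
    (∀ b ∈ S, IsPrim b ∧ Squarefree b ∧ B ≤ nm b ∧ (nm b : ℝ) ≤ B * (1 + κ)) →
    (∀ b ∈ S, ‖β b‖ ≤ 1) → (∀ d ∈ D, IsPrim d) →
    T8.Sig S D β A B τ ≤ C * (1 + Real.log (1 + (1 + τ ^ 2) * B ^ 2 / A)) * (1 + Real.log B) *
      (((1 + τ ^ 2) * B ^ 2 / A) ^ ((1:ℝ)/3) * (κ ^ ((4:ℝ)/3) * B + B ^ ((1:ℝ)/3)) +
        (1 + τ ^ 2) * B ^ 2 / A + ((1 + τ ^ 2) * B ^ 2 / A) ^ 2) := by
  have hc1 := one_le_c43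
  refine ⟨4752 * (c43 * c43 * 200), by positivity, ?_⟩
  intro A B κ τ S D β hA hB hκ hκ1 hS hβ hD
  have hB0 : 0 < B := by linarith
  rw [show (1 + τ ^ 2) * B ^ 2 / A = PP A B τ from rfl]
  have hP0 : 0 ≤ PP A B τ := by unfold PP; positivity
  set P := PP A B τ with hP
  have hlog1 : 0 ≤ Real.log (1 + P) := Real.log_nonneg (by linarith)
  set X := ⌊2 * B⌋₊ with hX
  set M1 := P ^ ((1 : ℝ) / 3) * (κ ^ ((4 : ℝ) / 3) * B + B ^ ((1 : ℝ) / 3)) with hM1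
  set M2 := P + P ^ 2 with hM2
  have hM10 : 0 ≤ M1 := by positivity
  have hM20 : 0 ≤ M2 := by positivity
  set L := 1 + Real.log (1 + P) with hL
  have hL0 : 0 < L := by positivity
  -- the bounding function
  set Ft : Eis → Eis → Eis → ℝ := fun e d g => L * (4752 *
      (M1 * ((nm d : ℝ) ^ (-(4 : ℝ) / 3) * ((nm e : ℝ) / nm d)⁻¹ * (nm g : ℝ) ^ (-(4 : ℝ) / 3)) +
        M2 * ((nm d : ℝ) ^ (-(4 : ℝ) / 3) * ((nm e : ℝ) / nm d) ^ (-(4 : ℝ) / 3) *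
          (nm g : ℝ)⁻¹))) with hFt
  have hFt0 : ∀ e d g, 0 ≤ Ft e d g := by
    intro e d g; simp only [hFt]; positivity
  set tm : Eis → Eis → Eis → ℝ := fun e d g => (nm d : ℝ)⁻¹ * (nm g : ℝ)⁻¹ *
    (Phi (Keff A B τ e d) (max 1 (B / (nm e * nm g))) (1 + (Kg S D e g).card) *
      ∑ m ∈ Kg S D e g, ‖β (e * (g * m))‖ ^ 2 / nm m) with htm
  have hkey : ∀ e ∈ D, ∀ d ∈ pdiv e, ∀ g ∈ D, tm e d g ≠ 0 →
      e ∈ primBall X ∧ g ∈ primBall X ∧ tm e d g ≤ Ft e d g := by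
    intro e he d hd g hg hne
    have hKne : (Kg S D e g).Nonempty := by
      rw [Finset.nonempty_iff_ne_empty]
      intro h0
      apply hne
      simp [htm, h0]
    obtain ⟨h1, h2, h3⟩ := term_cell (τ := τ) hA hB hκ hκ1 hS hβ hD (hD e he) (hD g hg) hd hKne
    refine ⟨mem_primBall.mpr ⟨Nat.le_floor h1, hD e he⟩,
      mem_primBall.mpr ⟨Nat.le_floor h2, hD g hg⟩, h3⟩
  have hnonneg : ∀ e d g, d ∈ pdiv e → 0 ≤ tm e d g := by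
    intro e d g _
    simp only [htm]
    have hKn := Keff_nonneg (B := B) (τ := τ) hA e d
    exact mul_nonneg (by positivity) (mul_nonneg (Phi_nonneg hKn (by positivity) (by positivity))
      (Finset.sum_nonneg fun m _ => by positivity))
  have step1 : Sig S D β A B τ ≤
      ∑ e ∈ primBall X, ∑ d ∈ pdiv e, ∑ g ∈ primBall X, Ft e d g := by
    have e1 : Sig S D β A B τ = ∑ e ∈ D, ∑ d ∈ pdiv e, ∑ g ∈ D, tm e d g := rfl
    rw [e1]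
    have inner : ∀ e ∈ D, ∀ d ∈ pdiv e, ∑ g ∈ D, tm e d g ≤ ∑ g ∈ primBall X, Ft e d g := by
      intro e he d hd
      calc ∑ g ∈ D, tm e d g = ∑ g ∈ D.filter (fun g => g ∈ primBall X), tm e d g := by
            symm
            apply Finset.sum_filter_of_ne
            intro g hg hne
            exact (hkey e he d hd g hg hne).2.1
        _ ≤ ∑ g ∈ D.filter (fun g => g ∈ primBall X), Ft e d g := by
            refine Finset.sum_le_sum fun g hg => ?_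
            rw [Finset.mem_filter] at hg
            by_cases h0 : tm e d g = 0
            · rw [h0]; exact hFt0 _ _ _
            · exact (hkey e he d hd g hg.1 h0).2.2
        _ ≤ _ := by
            apply Finset.sum_le_sum_of_subset_of_nonneg
            · intro g hg; exact (Finset.mem_filter.mp hg).2
            · intro g _ _; exact hFt0 _ _ _
    calc ∑ e ∈ D, ∑ d ∈ pdiv e, ∑ g ∈ D, tm e d g
        = ∑ e ∈ D.filter (fun e => e ∈ primBall X), ∑ d ∈ pdiv e, ∑ g ∈ D, tm e d g := by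
          symm
          apply Finset.sum_filter_of_ne
          intro e he hne
          obtain ⟨d, hd, hne1⟩ := Finset.exists_ne_zero_of_sum_ne_zero hne
          obtain ⟨g, hg, hne2⟩ := Finset.exists_ne_zero_of_sum_ne_zero hne1
          exact (hkey e he d hd g hg hne2).1
      _ ≤ ∑ e ∈ D.filter (fun e => e ∈ primBall X), ∑ d ∈ pdiv e,
            ∑ g ∈ primBall X, Ft e d g := by
          refine Finset.sum_le_sum fun e he => Finset.sum_le_sum fun d hd => ?_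
          exact inner e (Finset.mem_filter.mp he).1 d hd
      _ ≤ _ := by
          apply Finset.sum_le_sum_of_subset_of_nonneg
          · intro e he; exact (Finset.mem_filter.mp he).2
          · intro e _ _
            exact Finset.sum_nonneg fun d _ => Finset.sum_nonneg fun g _ => hFt0 _ _ _
  -- evaluation
  have z1 := sum_ed_le X (fun x => x⁻¹) (fun x hx => by positivity)
  have z2 := sum_ed_le X (fun x => x ^ (-(4 : ℝ) / 3)) (fun x hx => by positivity)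
  have i1 := sum_inv_le X
  have i2 := sum_43_le X
  have i10 : 0 ≤ ∑ x ∈ primBall X, (nm x : ℝ)⁻¹ := Finset.sum_nonneg fun x _ => by positivity
  have i20 : 0 ≤ ∑ x ∈ primBall X, (nm x : ℝ) ^ (-(4 : ℝ) / 3) :=
    Finset.sum_nonneg fun x _ => by positivity
  have hX1 : 1 + Real.log X ≤ 2 * (1 + Real.log B) := by
    have hXle : (X : ℝ) ≤ 2 * B := Nat.floor_le (by linarith)
    have hX1' : 1 ≤ X := Nat.le_floor (by push_cast; linarith)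
    have hXpos : (0 : ℝ) < X := by exact_mod_cast hX1'
    have h1 : Real.log X ≤ Real.log (2 * B) := Real.log_le_log hXpos hXle
    rw [Real.log_mul (by norm_num) hB0.ne'] at h1
    have h2 : Real.log 2 ≤ 1 := by linarith [Real.log_two_lt_d9]
    have h3 : 0 ≤ Real.log B := Real.log_nonneg (by linarith)
    linarith
  have hlB : 0 ≤ Real.log B := Real.log_nonneg (by linarith)
  set U := 200 * (1 + Real.log B) with hU
  have hU0 : 0 ≤ U := by positivity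
  have i1' : ∑ x ∈ primBall X, (nm x : ℝ)⁻¹ ≤ U := by
    rw [hU]; linarith
  have hc0 : 0 ≤ c43 := by linarith
  have step2 : ∑ e ∈ primBall X, ∑ d ∈ pdiv e, ∑ g ∈ primBall X, Ft e d g =
      L * (4752 * (M1 * ((∑ e ∈ primBall X, ∑ d ∈ pdiv e,
        (nm d : ℝ) ^ (-(4 : ℝ) / 3) * ((nm e : ℝ) / nm d)⁻¹) *
          ∑ g ∈ primBall X, (nm g : ℝ) ^ (-(4 : ℝ) / 3)) +
        M2 * ((∑ e ∈ primBall X, ∑ d ∈ pdiv e,
        (nm d : ℝ) ^ (-(4 : ℝ) / 3) * ((nm e : ℝ) / nm d) ^ (-(4 : ℝ) / 3)) *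
          ∑ g ∈ primBall X, (nm g : ℝ)⁻¹))) := by
    have s0 : ∀ e d : Eis, ∑ g ∈ primBall X, Ft e d g =
        L * (4752 * (M1 * (((nm d : ℝ) ^ (-(4 : ℝ) / 3) * ((nm e : ℝ) / nm d)⁻¹) *
          ∑ g ∈ primBall X, (nm g : ℝ) ^ (-(4 : ℝ) / 3)) +
        M2 * (((nm d : ℝ) ^ (-(4 : ℝ) / 3) * ((nm e : ℝ) / nm d) ^ (-(4 : ℝ) / 3)) *
          ∑ g ∈ primBall X, (nm g : ℝ)⁻¹))) := by
      intro e d
      rw [Finset.mul_sum, Finset.mul_sum, Finset.mul_sum, Finset.mul_sum,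
        ← Finset.sum_add_distrib, Finset.mul_sum, Finset.mul_sum]
    simp only [s0, ← Finset.mul_sum, Finset.sum_add_distrib, ← Finset.sum_mul]
  have w1 : (∑ e ∈ primBall X, ∑ d ∈ pdiv e,
        (nm d : ℝ) ^ (-(4 : ℝ) / 3) * ((nm e : ℝ) / nm d)⁻¹) *
          ∑ g ∈ primBall X, (nm g : ℝ) ^ (-(4 : ℝ) / 3) ≤ (c43 * U) * c43 := by
    apply mul_le_mul (z1.trans (by gcongr)) i2 i20 (by positivity)
  have w2 : (∑ e ∈ primBall X, ∑ d ∈ pdiv e,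
        (nm d : ℝ) ^ (-(4 : ℝ) / 3) * ((nm e : ℝ) / nm d) ^ (-(4 : ℝ) / 3)) *
          ∑ g ∈ primBall X, (nm g : ℝ)⁻¹ ≤ (c43 * c43) * U := by
    apply mul_le_mul (z2.trans (by gcongr)) i1' i10 (by positivity)
  calc Sig S D β A B τ ≤ _ := step1
    _ = _ := step2
    _ ≤ L * (4752 * (M1 * ((c43 * U) * c43) + M2 * ((c43 * c43) * U))) := by gcongr
    _ = 4752 * (c43 * c43 * 200) * L * (1 + Real.log B) * (M1 + M2) := by rw [hU]; ring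
    _ = _ := by rw [hM1, hM2]; ring

open Classical in
/-- **The sum `Sig` for a short cell.** -/
theorem sig_cell : ∃ C : ℝ, 0 < C ∧ ∀ (A B κ τ : ℝ) (S D : Finset Eis) (β : Eis → ℂ), 0 < A →
    2 ≤ B → 0 ≤ κ → κ ≤ 1 →
    (∀ b ∈ S, IsPrim b ∧ Squarefree b ∧ B ≤ nm b ∧ (nm b : ℝ) ≤ B * (1 + κ)) →
    (∀ b ∈ S, ‖β b‖ ≤ 1) → (∀ d ∈ D, IsPrim d) →
    T8.Sig S D β A B τ ≤ C * (1 + Real.log (1 + (1 + τ ^ 2) * B ^ 2 / A)) * (1 + Real.log B) *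
      (((1 + τ ^ 2) * B ^ 2 / A) ^ ((1:ℝ)/3) * (κ ^ ((4:ℝ)/3) * B + B ^ ((1:ℝ)/2)) +
        (1 + τ ^ 2) * B ^ 2 / A + ((1 + τ ^ 2) * B ^ 2 / A) ^ 2) := by
  obtain ⟨C, hC, h⟩ := sig_cell_strong
  refine ⟨C, hC, fun A B κ τ S D β hA hB hκ hκ1 hS hβ hD =>
    (h A B κ τ S D β hA hB hκ hκ1 hS hβ hD).trans ?_⟩
  have hBB : B ^ ((1 : ℝ) / 3) ≤ B ^ ((1 : ℝ) / 2) :=
    Real.rpow_le_rpow_of_exponent_le (by linarith) (by norm_num)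
  have hlB : 0 ≤ Real.log B := Real.log_nonneg (by linarith)
  have hP0 : 0 ≤ (1 + τ ^ 2) * B ^ 2 / A := by positivity
  have hlog1 : 0 ≤ Real.log (1 + (1 + τ ^ 2) * B ^ 2 / A) := Real.log_nonneg (by linarith)
  gcongr

end Crest.Agent.R012.T8
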