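import Crest.Agent.R012.T8bA_968
import Crest.Agent.R012.T8Sig_671

/-!
# Row 12, T8b: the bilinear bound on `κ`-cells (helper968)

`t8b_of : SigCell Cs c → EdgeSharp968.T8b` : Cauchy-Schwarz and exponents
(`J = κ^(-1/36)`, saving `κ^(1/72)`).
-/

set_option autoImplicit false

noncomputable section

open Complex Finset

namespace Crest.Agent.R012.T8b968

open Eis
open Gauss880 (syG)
open Mob705 (pdiv mem_pdiv)

/-- Number of elements of a cell. -/
lemma card_cell {B κ : ℝ} (hB : 1 ≤ B) (hκ0 : 0 ≤ κ) (hκ1 : κ ≤ 1)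
    (h1 : Real.sqrt B ≤ κ * B) {S : Finset Eis}
    (hS : ∀ b ∈ S, B ≤ nm b ∧ (nm b : ℝ) ≤ B * (1 + κ)) : (S.card : ℝ) ≤ 158 * (κ * B) := by
  have h := FejGauss968.card_annulus_le (lo := B) (hi := B * (1 + κ)) (by linarith)
    (by nlinarith) S hS
  have h2 : Real.sqrt (B * (1 + κ)) ≤ 1.5 * Real.sqrt B := by
    rw [Real.sqrt_mul (by linarith)]
    have : Real.sqrt (1 + κ) ≤ 1.5 := by
      rw [Real.sqrt_le_left (by norm_num)]
      nlinarith
    have h0 := Real.sqrt_nonneg B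
    nlinarith
  have h3 : 1 ≤ Real.sqrt B := Real.one_le_sqrt.mpr hB
  nlinarith

/-- `G(ab)` sums are bounded by `Fs`. -/
lemma norm_sum_G_le {SB : Finset Eis} {β : Eis → ℂ} (hSB : ∀ b ∈ SB, IsPrim b) {a : Eis}
    (ha : IsPrim a) : ‖∑ b ∈ SB, β b * G (a * b)‖ ≤ ‖Fs SB β a‖ := by
  have e : ∑ b ∈ SB, β b * G (a * b) = G a * Fs SB β a := by
    unfold Fs
    rw [mul_sum]
    refine sum_congr rfl fun b hb => ?_
    rw [Gauss880.G_mul_all syG ha (hSB b hb)]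
    ring
  rw [e, norm_mul]
  have := Gauss880.norm_G_le syG ha
  have h0 := norm_nonneg (Fs SB β a)
  nlinarith

/-- Cauchy-Schwarz over `a`. -/
lemma cauchy {SA SB : Finset Eis} {α β : Eis → ℂ} (hSA : ∀ a ∈ SA, IsPrim a)
    (hSB : ∀ b ∈ SB, IsPrim b) (hα : ∀ a ∈ SA, ‖α a‖ ≤ 1) :
    ‖∑ a ∈ SA, ∑ b ∈ SB, α a * β b * G (a * b)‖ ^ 2 ≤
      SA.card * ∑ a ∈ SA, ‖Fs SB β a‖ ^ 2 := by
  have h1 : ‖∑ a ∈ SA, ∑ b ∈ SB, α a * β b * G (a * b)‖ ≤ ∑ a ∈ SA, ‖Fs SB β a‖ := by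
    refine (norm_sum_le _ _).trans (sum_le_sum fun a ha => ?_)
    have e : ∑ b ∈ SB, α a * β b * G (a * b) = α a * ∑ b ∈ SB, β b * G (a * b) := by
      rw [mul_sum]
      exact sum_congr rfl fun b _ => by ring
    rw [e, norm_mul]
    have h2 := norm_sum_G_le (β := β) hSB (hSA a ha)
    have h3 := hα a ha
    have h4 := norm_nonneg (∑ b ∈ SB, β b * G (a * b))
    nlinarith
  calc ‖∑ a ∈ SA, ∑ b ∈ SB, α a * β b * G (a * b)‖ ^ 2 ≤ (∑ a ∈ SA, ‖Fs SB β a‖) ^ 2 :=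
        pow_le_pow_left₀ (norm_nonneg _) h1 2
    _ ≤ SA.card * ∑ a ∈ SA, ‖Fs SB β a‖ ^ 2 := sq_sum_le_card_mul_sum_sq

/-- the numerical core: the four error terms. -/
lemma four_terms {a b k : ℝ} (hb0 : 0 < b) (hk0 : 0 ≤ k)
    (hk1 : k ≤ (a + b) / 1000) (hb1 : (a + b) / 10 ≤ b) (hb2 : b ≤ 7 / 10 * a) :
    Real.exp (-k) * Real.exp a * (Real.exp a * Real.exp (k / 4) *
      Mb (Real.exp a) (Real.exp b) (Real.exp (-k))) ≤
      4 * Real.exp (5 * (a + b) / 3 - (2 + 1 / 36) * k) := by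
  set T1 : ℝ := Real.exp (5 * (a + b) / 3 - (2 + 1 / 36) * k) with hT1
  have e : Mb (Real.exp a) (Real.exp b) (Real.exp (-k)) =
      Real.exp (-k * (4 / 3) + b * (5 / 3) + a * (-(1 / 3))) +
      Real.exp (b * (7 / 6) + a * (-(1 / 3))) + Real.exp (2 * b - a) +
        Real.exp (4 * b - 2 * a) := by
    unfold Mb
    rw [← Real.exp_mul, ← Real.exp_mul, ← Real.exp_mul, ← Real.exp_mul, ← Real.exp_nat_mul,
      ← Real.exp_nat_mul, ← Real.exp_nat_mul, ← Real.exp_add, ← Real.exp_add, ← Real.exp_add,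
      ← Real.exp_sub, ← Real.exp_sub]
    push_cast
    rfl
  rw [e]
  have m1 : Real.exp (-k) * Real.exp a * (Real.exp a * Real.exp (k / 4) *
      Real.exp (-k * (4 / 3) + b * (5 / 3) + a * (-(1 / 3)))) ≤ T1 := by
    rw [hT1]
    simp only [← Real.exp_add]
    apply Real.exp_le_exp.mpr; linarith
  have m2 : Real.exp (-k) * Real.exp a * (Real.exp a * Real.exp (k / 4) *
      Real.exp (b * (7 / 6) + a * (-(1 / 3)))) ≤ T1 := by
    rw [hT1]
    simp only [← Real.exp_add]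
    apply Real.exp_le_exp.mpr; linarith
  have m3 : Real.exp (-k) * Real.exp a * (Real.exp a * Real.exp (k / 4) *
      Real.exp (2 * b - a)) ≤ T1 := by
    rw [hT1]
    simp only [← Real.exp_add]
    apply Real.exp_le_exp.mpr; linarith
  have m4 : Real.exp (-k) * Real.exp a * (Real.exp a * Real.exp (k / 4) *
      Real.exp (4 * b - 2 * a)) ≤ T1 := by
    rw [hT1]
    simp only [← Real.exp_add]
    apply Real.exp_le_exp.mpr; linarith
  rw [mul_add, mul_add, mul_add, mul_add, mul_add, mul_add]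
  linarith [m1, m2, m3, m4]

/-- the square of the target. -/
lemma target_sq (a b k : ℝ) :
    Real.exp (5 * (a + b) / 3 - (2 + 1 / 36) * k) + Real.exp (2 * a + b - (2 + 1 / 36) * k) ≤
      (Real.exp (-k) ^ (1 + 1 / 72 : ℝ) * ((Real.exp a * Real.exp b) ^ (5 / 6 : ℝ) +
        Real.exp a * Real.exp b ^ (1 / 2 : ℝ))) ^ 2 := by
  have hkap : Real.exp (-k) ^ (1 + 1 / 72 : ℝ) = Real.exp (-(k * (1 + 1 / 72))) := by
    rw [← Real.exp_mul]; congr 1; ring
  rw [hkap]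
  have e1 : (Real.exp a * Real.exp b) ^ (5 / 6 : ℝ) = Real.exp ((a + b) * (5 / 6)) := by
    rw [← Real.exp_add, ← Real.exp_mul]
  have e2 : Real.exp a * Real.exp b ^ (1 / 2 : ℝ) = Real.exp (a + b * (1 / 2)) := by
    rw [← Real.exp_mul, ← Real.exp_add]
  rw [e1, e2]
  have e3 : Real.exp (5 * (a + b) / 3 - (2 + 1 / 36) * k) =
      (Real.exp (-(k * (1 + 1 / 72))) * Real.exp ((a + b) * (5 / 6))) ^ 2 := by
    rw [← Real.exp_add, ← Real.exp_nat_mul]
    congr 1; push_cast; ring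
  have e4 : Real.exp (2 * a + b - (2 + 1 / 36) * k) =
      (Real.exp (-(k * (1 + 1 / 72))) * Real.exp (a + b * (1 / 2))) ^ 2 := by
    rw [← Real.exp_add, ← Real.exp_nat_mul]
    congr 1; push_cast; ring
  rw [e3, e4]
  have p1 : 0 < Real.exp (-(k * (1 + 1 / 72))) * Real.exp ((a + b) * (5 / 6)) := by positivity
  have p2 : 0 < Real.exp (-(k * (1 + 1 / 72))) * Real.exp (a + b * (1 / 2)) := by positivity
  rw [mul_add]
  nlinarith [mul_pos p1 p2]

/-- combination of the two parts. -/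
lemma combine {cA S K1 LL X Y Z T1 T2 E : ℝ} (hcA : cA ≤ 158 * X) (hX : 0 ≤ X) (hS0 : 0 ≤ S)
    (hE : 0 < E) (hLL : 0 ≤ LL) (hK1 : 0 ≤ K1)
    (hS : S ≤ 8 * E * (LL * (632 * Y + K1 * Z)))
    (h1 : X * Y = T2) (h2 : X * Z ≤ 4 * T1) (hT1 : 0 ≤ T1) (hT2 : 0 ≤ T2) :
    cA * S ≤ 158 * (8 * E) * (632 + 4 * K1) * LL * (T1 + T2) := by
  calc cA * S ≤ (158 * X) * (8 * E * (LL * (632 * Y + K1 * Z))) := by gcongr
    _ = 158 * (8 * E) * LL * (632 * (X * Y) + K1 * (X * Z)) := by ring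
    _ ≤ 158 * (8 * E) * LL * (632 * T2 + K1 * (4 * T1)) := by
        rw [h1]; gcongr
    _ ≤ 158 * (8 * E) * LL * ((632 + 4 * K1) * (T1 + T2)) := by
        have : 632 * T2 + K1 * (4 * T1) ≤ (632 + 4 * K1) * (T1 + T2) := by
          have := mul_nonneg hK1 hT2
          nlinarith
        gcongr
    _ = _ := by ring

set_option maxHeartbeats 2000000 in
/-- **T8b from the bound of `Sig` on cells.** -/
theorem t8b_of {Cs c : ℝ} (hCs : 0 < Cs) (hc : 0 ≤ c) (hSig : SigCell Cs c) :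
    EdgeSharp968.T8b := by
  classical
  obtain ⟨C, hC, hL⟩ := LS879.LSH
  have hL' : T8.LSH C := fun K N ν T H c hK hN hν hT hcard hH =>
    hL K N ν T H c hK hN hν hT hcard hH
  set K1 : ℝ := 4 * 24 ^ 6 * C * Cs with hK1
  have hK1' : 0 < K1 := by positivity
  have he2 : 0 < Real.exp 2 := Real.exp_pos 2
  set K2 : ℝ := 158 * (8 * Real.exp 2) * (632 + 4 * K1) with hK2
  have hK2' : 0 < K2 := by positivity
  refine ⟨1 + c, 1 / 72, 1 + K2, by linarith, by norm_num, by positivity, ?_⟩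
  intro A B κ hA hB hκlow hκ1 hBA h10 SA SB α β hSA hSB hα hβ
  have hA0 : 0 < A := by linarith
  have hB0 : 0 < B := by linarith
  have hAB0 : 0 < A * B := by positivity
  have hκ0 : 0 < κ := lt_of_lt_of_le (Real.rpow_pos_of_pos hAB0 _) hκlow
  -- logarithmic coordinates
  obtain ⟨a, rfl⟩ : ∃ a, A = Real.exp a := ⟨Real.log A, (Real.exp_log hA0).symm⟩
  obtain ⟨b, rfl⟩ : ∃ b, B = Real.exp b := ⟨Real.log B, (Real.exp_log hB0).symm⟩
  obtain ⟨k, rfl⟩ : ∃ k, κ = Real.exp (-k) := ⟨-Real.log κ, by rw [neg_neg, Real.exp_log hκ0]⟩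
  have ha0 : 0 < a := by
    by_contra h
    have : Real.exp a ≤ 1 := by rw [Real.exp_le_one_iff]; linarith
    linarith
  have hb0 : 0 < b := by
    by_contra h
    have : Real.exp b ≤ 1 := by rw [Real.exp_le_one_iff]; linarith
    linarith
  have hk0 : 0 ≤ k := by
    rw [Real.exp_le_one_iff] at hκ1; linarith
  rw [← Real.exp_add, ← Real.exp_mul, Real.exp_le_exp] at hκlow
  rw [← Real.exp_mul, Real.exp_le_exp] at hBA
  rw [← Real.exp_add, ← Real.exp_mul, Real.exp_le_exp] at h10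
  have hk1 : k ≤ (a + b) / 1000 := by linarith
  have hb1 : (a + b) / 10 ≤ b := by linarith
  have hb2 : b ≤ 7 / 10 * a := by linarith
  -- the parameter `J`
  set J : ℕ := ⌊Real.exp (k / 36)⌋₊ with hJdef
  have hJ1e : (1 : ℝ) ≤ Real.exp (k / 36) := Real.one_le_exp (by linarith)
  have hJ1 : 1 ≤ J := Nat.le_floor (by exact_mod_cast hJ1e)
  have hJle : (J : ℝ) ≤ Real.exp (k / 36) := Nat.floor_le (Real.exp_pos _).le
  have hJ0 : (0 : ℝ) < J := by exact_mod_cast hJ1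
  have hJ1' : (1 : ℝ) ≤ J := by exact_mod_cast hJ1
  have hJge : Real.exp (k / 36) ≤ 2 * J := by
    have := (Nat.lt_floor_add_one (Real.exp (k / 36))).le
    rw [← hJdef] at this
    linarith
  have hJκ : Real.exp (-k) * J ≤ 1 := by
    calc Real.exp (-k) * J ≤ Real.exp (-k) * Real.exp (k / 36) := by gcongr
      _ = Real.exp (-k + k / 36) := (Real.exp_add _ _).symm
      _ ≤ 1 := by rw [Real.exp_le_one_iff]; linarith
  set L : ℝ := 1 + Real.log (Real.exp a * Real.exp b) with hLdef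
  have hLeq : L = 1 + (a + b) := by
    rw [hLdef, ← Real.exp_add, Real.log_exp]
  have hL1 : 1 ≤ L := by rw [hLeq]; linarith
  have hL0 : 0 < L := by linarith
  -- cardinalities
  have hcA : (SA.card : ℝ) ≤ 158 * (Real.exp (-k) * Real.exp a) := by
    refine card_cell (by linarith) (Real.exp_pos _).le hκ1 ?_ (fun x hx => ⟨(hSA x hx).2.1,
      (hSA x hx).2.2⟩)
    rw [Real.sqrt_le_left (by positivity), ← Real.exp_add, ← Real.exp_nat_mul, Real.exp_le_exp]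
    push_cast; linarith
  have hcB : (SB.card : ℝ) ≤ 158 * (Real.exp (-k) * Real.exp b) := by
    refine card_cell (by linarith) (Real.exp_pos _).le hκ1 ?_ (fun x hx => ⟨(hSB x hx).2.1,
      (hSB x hx).2.2⟩)
    rw [Real.sqrt_le_left (by positivity), ← Real.exp_add, ← Real.exp_nat_mul, Real.exp_le_exp]
    push_cast; linarith
  -- cut `β`
  set β' : Eis → ℂ := fun x => if x ∈ SB then β x else 0 with hβ'
  have hβ'1 : ∀ x, ‖β' x‖ ≤ 1 := by
    intro x
    simp only [hβ']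
    split_ifs with h
    · exact hβ x h
    · simp
  have hsum : ∑ x ∈ SA, ∑ y ∈ SB, α x * β y * G (x * y) =
      ∑ x ∈ SA, ∑ y ∈ SB, α x * β' y * G (x * y) := by
    refine sum_congr rfl fun x _ => sum_congr rfl fun y hy => ?_
    simp only [hβ', if_pos hy]
  have hSAp : ∀ x ∈ SA, IsPrim x := fun x hx => (hSA x hx).1.1
  have hSBp : ∀ x ∈ SB, IsPrim x := fun x hx => (hSB x hx).1.1
  have hcs := cauchy (β := β') hSAp hSBp hα
  have hS := S_bound hC hL' hCs hSig hA hB (Real.exp_pos (-k)).le hκ1 hJ1 hJκ (SA := SA)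
    (SB := SB) (β := β') (fun x hx => ⟨hSAp x hx, (hSA x hx).2.1, (hSA x hx).2.2⟩)
    (fun x hx => ⟨hSBp x hx, (hSB x hx).1.2, (hSB x hx).2.1, (hSB x hx).2.2⟩) hβ'1
  rw [← hLdef] at hS
  -- logarithms
  have hlogJ : 2 + Real.log J ≤ 2 * L := by
    have h1 : Real.log J ≤ k / 36 := by
      rw [Real.log_le_iff_le_exp hJ0]; exact hJle
    rw [hLeq]; linarith
  have hLc1 : 1 ≤ L ^ c := Real.one_le_rpow hL1 hc
  have hLc : L * L ^ c = L ^ (1 + c) := by
    rw [Real.rpow_add hL0, Real.rpow_one]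
  have hL1c : L ≤ L ^ (1 + c) := by rw [← hLc]; exact le_mul_of_one_le_right hL0.le hLc1
  have hLcc : L ^ c ≤ L ^ (1 + c) := by
    rw [← hLc]; exact le_mul_of_one_le_left (by linarith) hL1
  set LL : ℝ := L ^ (1 + c) with hLL
  have hLL1 : 1 ≤ LL := by linarith
  have hinvJ : (1 : ℝ) / J ≤ 2 * Real.exp (-(k / 36)) := by
    rw [Real.exp_neg, div_le_iff₀ hJ0, mul_assoc, ← div_eq_inv_mul]
    rw [← mul_div_assoc, le_div_iff₀ (Real.exp_pos _)]
    linarith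
  have hJ9 : (J : ℝ) ^ 9 ≤ Real.exp (k / 4) := by
    calc (J : ℝ) ^ 9 ≤ (Real.exp (k / 36)) ^ 9 := by gcongr
      _ = Real.exp (k / 4) := by rw [← Real.exp_nat_mul]; congr 1; push_cast; ring
  -- the four terms of `Mb`
  set M := Mb (Real.exp a) (Real.exp b) (Real.exp (-k)) with hM
  have hM0 : 0 ≤ M := Mb_nonneg (Real.exp_pos _) (Real.exp_pos _) (Real.exp_pos _).le
  set T1 : ℝ := Real.exp (5 * (a + b) / 3 - (2 + 1 / 36) * k) with hT1
  set T2 : ℝ := Real.exp (2 * a + b - (2 + 1 / 36) * k) with hT2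
  have hMle : Real.exp (-k) * Real.exp a * (Real.exp a * Real.exp (k / 4) * M) ≤ 4 * T1 :=
    four_terms hb0 hk0 hk1 hb1 hb2
  have hT1' : 0 < T1 := Real.exp_pos _
  have hT2' : 0 < T2 := Real.exp_pos _
  -- total
  have hS0 : 0 ≤ ∑ x ∈ SA, ‖Fs SB β' x‖ ^ 2 := sum_nonneg fun _ _ => by positivity
  have hbig : (SA.card : ℝ) * ∑ x ∈ SA, ‖Fs SB β' x‖ ^ 2 ≤ K2 * LL * (T1 + T2) := by
    have hS1 : ∑ x ∈ SA, ‖Fs SB β' x‖ ^ 2 ≤ 8 * Real.exp 2 * (LL * (632 *
        (Real.exp (-(k / 36)) * Real.exp a * (Real.exp (-k) * Real.exp b)) +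
        K1 * (Real.exp a * Real.exp (k / 4) * M))) := by
      refine hS.trans ?_
      apply mul_le_mul_of_nonneg_left _ (by positivity)
      rw [mul_add LL]
      apply add_le_add
      · calc (2 + Real.log J) / J * Real.exp a * (SB.card : ℝ)
            = (2 + Real.log J) * (1 / J) * Real.exp a * (SB.card : ℝ) := by ring
          _ ≤ (2 * L) * (2 * Real.exp (-(k / 36))) * Real.exp a *
              (158 * (Real.exp (-k) * Real.exp b)) := by
              have : 0 ≤ Real.log J := Real.log_nonneg hJ1'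
              gcongr
          _ = L * (632 * (Real.exp (-(k / 36)) * Real.exp a * (Real.exp (-k) * Real.exp b))) := by
              ring
          _ ≤ _ := by gcongr
      · calc Real.exp a * (J : ℝ) ^ 9 * (4 * 24 ^ 6 * C * (Cs * L ^ c * M))
            = L ^ c * (K1 * (Real.exp a * (J : ℝ) ^ 9 * M)) := by rw [hK1]; ring
          _ ≤ LL * (K1 * (Real.exp a * Real.exp (k / 4) * M)) := by gcongr
    have e0 : Real.exp (-k) * Real.exp a *
        (Real.exp (-(k / 36)) * Real.exp a * (Real.exp (-k) * Real.exp b)) = T2 := by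
      rw [hT2]
      simp only [← Real.exp_add]
      congr 1; ring
    exact combine hcA (by positivity) hS0 he2 (by linarith) hK1'.le hS1 e0 hMle hT1'.le hT2'.le
  -- square root
  set Q : ℝ := (Real.exp a * Real.exp b) ^ (5 / 6 : ℝ) + Real.exp a * Real.exp b ^ (1 / 2 : ℝ)
    with hQ
  have hQ0 : 0 ≤ Q := by positivity
  have hfin : T1 + T2 ≤ (Real.exp (-k) ^ (1 + 1 / 72 : ℝ) * Q) ^ 2 := target_sq a b k
  rw [hsum]
  have hR0 : 0 ≤ (1 + K2) * LL * Real.exp (-k) ^ (1 + 1 / 72 : ℝ) * Q := by positivity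
  refine abs_le_of_sq_le_sq' ?_ hR0 |>.2
  calc ‖∑ x ∈ SA, ∑ y ∈ SB, α x * β' y * G (x * y)‖ ^ 2
      ≤ SA.card * ∑ x ∈ SA, ‖Fs SB β' x‖ ^ 2 := hcs
    _ ≤ K2 * LL * (T1 + T2) := hbig
    _ ≤ K2 * LL * (Real.exp (-k) ^ (1 + 1 / 72 : ℝ) * Q) ^ 2 := by gcongr
    _ ≤ ((1 + K2) ^ 2 * LL ^ 2) * (Real.exp (-k) ^ (1 + 1 / 72 : ℝ) * Q) ^ 2 := by
        apply mul_le_mul_of_nonneg_right _ (by positivity)
        have h1 : K2 ≤ (1 + K2) ^ 2 := by
          have e : (1 + K2) ^ 2 = 1 + 2 * K2 + K2 ^ 2 := by ring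
          rw [e]; linarith [sq_nonneg K2]
        have h2 : LL ≤ LL ^ 2 := le_self_pow₀ hLL1 two_ne_zero
        exact mul_le_mul h1 h2 (by linarith) (by positivity)
    _ = ((1 + K2) * LL * Real.exp (-k) ^ (1 + 1 / 72 : ℝ) * Q) ^ 2 := by ring

/-- helper671's bound in the form of `SigCell`. -/
theorem sigCell : ∃ Cs c : ℝ, 0 < Cs ∧ 0 ≤ c ∧ SigCell Cs c := by
  obtain ⟨C, hC, h⟩ := T8.sig_cell
  refine ⟨3 * C, 2, by positivity, by norm_num, ?_⟩
  intro A B κ τ S β hA hB hκ0 hκ1 hS hβ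
  have hA0 : 0 < A := by linarith
  have hB0 : 0 < B := by linarith
  refine (h A B κ τ S (S.biUnion pdiv) β hA0 hB hκ0 hκ1 hS (fun b _ => hβ b) ?_).trans ?_
  · intro d hd
    rw [mem_biUnion] at hd
    obtain ⟨b, hb, hd⟩ := hd
    exact ((mem_pdiv (hS b hb).1.ne_zero).mp hd).1
  set t : ℝ := 1 + τ ^ 2 with ht
  have ht1 : 1 ≤ t := by rw [ht]; nlinarith [sq_nonneg τ]
  set L : ℝ := 1 + Real.log (A * B) with hL
  have hAB : 4 ≤ A * B := by nlinarith
  have hlog0 : 0 ≤ Real.log (A * B) := Real.log_nonneg (by linarith)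
  have hL1 : 1 ≤ L := by linarith
  set X : ℝ := B ^ 2 / A with hX
  have hX0 : 0 ≤ X := by positivity
  have htX : t * B ^ 2 / A = t * X := by rw [hX]; ring
  have hXle : 1 + X ≤ 2 * (A * B) ^ 2 := by
    have h1 : X ≤ B ^ 2 := by
      rw [hX]; exact div_le_self (by positivity) (by linarith)
    have h2 : B ^ 2 ≤ (A * B) ^ 2 := by
      apply pow_le_pow_left₀ hB0.le
      nlinarith
    have h3 : 1 ≤ (A * B) ^ 2 := one_le_pow₀ (by linarith)
    linarith
  have hlogX : Real.log (1 + X) ≤ 1 + 2 * Real.log (A * B) := by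
    have h1 : Real.log (1 + X) ≤ Real.log (2 * (A * B) ^ 2) :=
      Real.log_le_log (by linarith) hXle
    rw [Real.log_mul (by norm_num) (by positivity), Real.log_pow] at h1
    have h2 := Real.log_two_lt_d9
    push_cast at h1
    linarith
  have hlogX0 : 0 ≤ Real.log (1 + X) := Real.log_nonneg (by linarith)
  have hlog1 : 1 + Real.log (1 + t * X) ≤ t * (3 * L) := by
    have h1 : Real.log (1 + t * X) ≤ Real.log (t * (1 + X)) := by
      apply Real.log_le_log (by positivity)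
      nlinarith
    rw [Real.log_mul (by positivity) (by positivity)] at h1
    have h2 : Real.log t ≤ t - 1 := Real.log_le_sub_one_of_pos (by linarith)
    have h3 : 1 + Real.log (1 + X) ≤ 3 * L := by rw [hL]; linarith
    nlinarith
  have hlog2 : 1 + Real.log B ≤ L := by
    rw [hL]
    have : Real.log B ≤ Real.log (A * B) := by
      apply Real.log_le_log hB0
      nlinarith
    linarith
  have hlogB0 : 0 ≤ Real.log B := Real.log_nonneg (by linarith)
  have hlogtX0 : 0 ≤ Real.log (1 + t * X) := Real.log_nonneg (by nlinarith)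
  have hM : (t * X) ^ ((1:ℝ) / 3) * (κ ^ ((4:ℝ) / 3) * B + B ^ ((1:ℝ) / 2)) + t * X +
      (t * X) ^ 2 ≤ t ^ 2 * Mb A B κ := by
    have h1 : (t * X) ^ ((1:ℝ) / 3) ≤ t ^ 2 * (B ^ ((2:ℝ) / 3) * A ^ (-(1 / 3) : ℝ)) := by
      rw [Real.mul_rpow (by linarith) hX0]
      have e1 : t ^ ((1:ℝ) / 3) ≤ t ^ 2 := by
        rw [← Real.rpow_natCast]
        apply Real.rpow_le_rpow_of_exponent_le ht1
        norm_num
      have e2 : X ^ ((1:ℝ) / 3) = B ^ ((2:ℝ) / 3) * A ^ (-(1 / 3) : ℝ) := by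
        rw [hX, Real.div_rpow (by positivity) hA0.le, ← Real.rpow_natCast, ← Real.rpow_mul hB0.le,
          Real.rpow_neg hA0.le, div_eq_mul_inv]
        norm_num
      rw [e2]
      gcongr
    have h2 : B ^ ((2:ℝ) / 3) * A ^ (-(1 / 3) : ℝ) * (κ ^ ((4:ℝ) / 3) * B + B ^ ((1:ℝ) / 2)) =
        κ ^ (4 / 3 : ℝ) * B ^ (5 / 3 : ℝ) * A ^ (-(1 / 3) : ℝ) +
          B ^ (7 / 6 : ℝ) * A ^ (-(1 / 3) : ℝ) := by
      have e1 : B ^ (5 / 3 : ℝ) = B ^ ((2:ℝ) / 3) * B := by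
        rw [show (5 / 3 : ℝ) = 2 / 3 + 1 by norm_num, Real.rpow_add hB0, Real.rpow_one]
      have e2 : B ^ (7 / 6 : ℝ) = B ^ ((2:ℝ) / 3) * B ^ ((1:ℝ) / 2) := by
        rw [← Real.rpow_add hB0]; norm_num
      rw [e1, e2]; ring
    have h3 : t * X ≤ t ^ 2 * X := by nlinarith [mul_nonneg (by linarith : 0 ≤ t) hX0]
    have h4 : (t * X) ^ 2 = t ^ 2 * (B ^ 4 / A ^ 2) := by
      rw [hX]; field_simp
    calc _ ≤ t ^ 2 * (B ^ ((2:ℝ) / 3) * A ^ (-(1 / 3) : ℝ)) *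
          (κ ^ ((4:ℝ) / 3) * B + B ^ ((1:ℝ) / 2)) + t ^ 2 * X + t ^ 2 * (B ^ 4 / A ^ 2) := by
          rw [h4]
          gcongr
      _ = t ^ 2 * Mb A B κ := by
          unfold Mb
          rw [mul_assoc (t ^ 2), h2]
          ring
  have hMb0 : 0 ≤ Mb A B κ := Mb_nonneg hA0 hB0 hκ0
  rw [htX]
  calc C * (1 + Real.log (1 + t * X)) * (1 + Real.log B) *
        ((t * X) ^ ((1:ℝ) / 3) * (κ ^ ((4:ℝ) / 3) * B + B ^ ((1:ℝ) / 2)) + t * X +
      (t * X) ^ 2) ≤ C * (t * (3 * L)) * L * (t ^ 2 * Mb A B κ) := by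
        gcongr
    _ = 3 * C * L ^ (2 : ℝ) * t ^ 3 * Mb A B κ := by
        rw [Real.rpow_two]; ring

/-- **T8b** (the bilinear bound on `κ`-cells), unconditional. -/
theorem t8b : EdgeSharp968.T8b := by
  obtain ⟨Cs, c, hCs, hc, h⟩ := sigCell
  exact t8b_of hCs hc h

end Crest.Agent.R012.T8b968
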