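import Crest.Agent.R012.Dens_705
import Crest.Agent.R012.TauDef_85

/-!
# Row 12, item T3 (part a): `(∑ μ(d)/N(d)²) (∑ 1/N(m)²) = 1` over primary elements coprime to `b`.
-/

set_option autoImplicit false
set_option linter.unusedSimpArgs false
set_option linter.unusedVariables false

noncomputable section

open Finset

namespace Crest.Agent.R012.T3_85

open Eis Crest.Agent.R012 Crest.Agent.R012.Mob705 Crest.Agent.R012.Div277

open Classical in
/-- `1 / N(m)²` on primary `m` coprime to `b`. -/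
def z2 (b m : Eis) : ℝ := if IsPrim m ∧ IsCoprime m b then 1 / (nm m : ℝ) ^ 2 else 0

/-- `∑ 1 / N(m)²` over primary `m` coprime to `b`. -/
def Z2 (b : Eis) : ℝ := ∑' m, z2 b m

lemma z2_nonneg (b m : Eis) : 0 ≤ z2 b m := by
  unfold z2; split_ifs <;> positivity

lemma sum_z2_le (b : Eis) (T : Finset Eis) (D : ℕ)
    (hD : ∀ d ∈ T, IsPrim d → IsCoprime d b → D < nm d) :
    ∑ d ∈ T, z2 b d ≤ 300 / (D + 1) := by
  classical
  have h1 : ∑ d ∈ T, z2 b d =
      ∑ d ∈ T.filter (fun d => IsPrim d ∧ IsCoprime d b), (1 : ℝ) / (nm d : ℝ) ^ 2 := by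
    rw [Finset.sum_filter]
    refine Finset.sum_congr rfl fun d _ => ?_
    unfold z2
    split_ifs <;> rfl
  rw [h1]
  refine sum_inv_nm_sq_le _ D (fun d hd => (mem_filter.mp hd).2.1) fun d hd => ?_
  rw [mem_filter] at hd
  exact hD d hd.1 hd.2.1 hd.2.2

lemma summable_z2 (b : Eis) : Summable (z2 b) := by
  refine summable_of_sum_le (c := 300) (fun d => z2_nonneg b d) fun T => ?_
  have h := sum_z2_le b T 0 (fun d _ hd _ => nm_pos.mpr hd.ne_zero)
  simpa using h

lemma abs_Z2_sub_le (b : Eis) (s : Finset Eis) (D : ℕ)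
    (hD : ∀ d, d ∉ s → IsPrim d → IsCoprime d b → D < nm d) :
    |Z2 b - ∑ d ∈ s, z2 b d| ≤ 300 / (D + 1) := by
  classical
  have h0 := summable_z2 b
  have h1 := h0.sum_add_tsum_compl (s := s)
  have h2 : Z2 b - ∑ d ∈ s, z2 b d = ∑' x : ↑((s : Set Eis)ᶜ), z2 b x := by
    unfold Z2; rw [← h1]; ring
  rw [h2, abs_of_nonneg (tsum_nonneg fun _ => z2_nonneg b _)]
  refine (h0.subtype _).tsum_le_of_sum_le fun T => ?_
  have h3 := sum_z2_le b (T.map (Function.Embedding.subtype _)) D (fun d hd => by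
    rw [mem_map] at hd
    obtain ⟨x, _, rfl⟩ := hd
    have := x.2
    simp only [Set.mem_compl_iff, mem_coe] at this
    exact hD _ this)
  rw [Finset.sum_map] at h3
  exact h3

lemma Z2_nonneg (b : Eis) : 0 ≤ Z2 b := tsum_nonneg fun _ => z2_nonneg b _

lemma Z2_le (b : Eis) : Z2 b ≤ 300 := by
  have := abs_Z2_sub_le b ∅ 0 (fun d _ hd _ => nm_pos.mpr hd.ne_zero)
  simp at this
  exact (le_abs_self _).trans this

lemma mul_div_cancel_dvd {d n : Eis} (hd : d ≠ 0) (h : d ∣ n) : d * (n / d) = n :=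
  EuclideanDomain.mul_div_cancel' hd h

open Classical in
lemma fiber_sum (b n : Eis) :
    ∑' c : {z : Eis × Eis // z.1 * z.2 = n}, zt b c.1.1 * z2 b c.1.2 = if n = 1 then 1 else 0 := by
  by_cases hn : IsPrim n ∧ IsCoprime n b
  · obtain ⟨hn1, hn2⟩ := hn
    let φ : ↥(dvs n) → {z : Eis × Eis // z.1 * z.2 = n} := fun d =>
      ⟨(d.1, n / d.1), mul_div_cancel_dvd (isPrim_of_mem_dvs d.2).ne_zero (dvd_of_mem_dvs d.2)⟩
    have hφ : Function.Injective φ := by
      intro d e h
      have := congrArg (fun z => z.1.1) h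
      exact Subtype.ext this
    have hsupp : Function.support (fun c : {z : Eis × Eis // z.1 * z.2 = n} =>
        zt b c.1.1 * z2 b c.1.2) ⊆ Set.range φ := by
      rintro ⟨⟨d, m⟩, hc⟩ h
      simp only [Function.mem_support] at h hc
      have hd : IsPrim d ∧ IsCoprime d b := by
        by_contra hd
        apply h
        unfold zt
        rw [if_neg hd, zero_mul]
      have hdn : d ∣ n := ⟨m, hc.symm⟩
      refine ⟨⟨d, (mem_dvs hn1.ne_zero).mpr ⟨hd.1, hdn⟩⟩, ?_⟩
      apply Subtype.ext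
      apply Prod.ext
      · rfl
      · show n / d = m
        have h1 := mul_div_cancel_dvd hd.1.ne_zero hdn
        rw [← hc] at h1 ⊢
        exact mul_left_cancel₀ hd.1.ne_zero h1
    rw [← hφ.tsum_eq hsupp]
    rw [tsum_fintype]
    have h1 : ∀ d : ↥(dvs n), zt b (φ d).1.1 * z2 b (φ d).1.2 =
        (muE d.1 : ℝ) * (1 / (nm n : ℝ) ^ 2) := by
      intro d
      have hd1 := isPrim_of_mem_dvs d.2
      have hd2 := dvd_of_mem_dvs d.2
      have hm := mul_div_cancel_dvd hd1.ne_zero hd2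
      have hm1 : IsPrim (n / d.1) := by
        rw [← hm] at hn1
        exact hn1.of_mul_left hd1
      have hc : IsCoprime (d.1 * (n / d.1)) b := by rw [hm]; exact hn2
      have hc1 : IsCoprime d.1 b := hc.of_mul_left_left
      have hc2 : IsCoprime (n / d.1) b := hc.of_mul_left_right
      show zt b d.1 * z2 b (n / d.1) = _
      unfold zt z2
      rw [if_pos ⟨hd1, hc1⟩, if_pos ⟨hm1, hc2⟩]
      have h2 : (nm n : ℝ) = nm d.1 * nm (n / d.1) := by
        rw [← Nat.cast_mul, ← nm_mul, hm]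
      rw [h2]
      have h3 : (nm d.1 : ℝ) ≠ 0 := by exact_mod_cast (nm_pos.mpr hd1.ne_zero).ne'
      have h4 : (nm (n / d.1) : ℝ) ≠ 0 := by exact_mod_cast (nm_pos.mpr hm1.ne_zero).ne'
      field_simp
    rw [Finset.sum_congr rfl fun d _ => h1 d, ← Finset.sum_mul]
    have h2 : ∑ d : ↥(dvs n), (muE d.1 : ℝ) = ((∑ d ∈ dvs n, muE d : ℤ) : ℝ) := by
      rw [Finset.sum_coe_sort (dvs n) (fun d => (muE d : ℝ))]
      push_cast; rfl
    rw [h2, sum_dvs_muE_one hn1]
    by_cases h3 : n = 1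
    · subst h3; simp
    · simp [h3]
  · have h0 : ∀ c : {z : Eis × Eis // z.1 * z.2 = n}, zt b c.1.1 * z2 b c.1.2 = 0 := by
      rintro ⟨⟨d, m⟩, hc⟩
      simp only at hc ⊢
      unfold zt z2
      by_cases h1 : IsPrim d ∧ IsCoprime d b
      · by_cases h2 : IsPrim m ∧ IsCoprime m b
        · exfalso
          apply hn
          rw [← hc]
          exact ⟨h1.1.mul h2.1, h1.2.mul_left h2.2⟩
        · rw [if_neg h2, mul_zero]
      · rw [if_neg h1, zero_mul]
    rw [tsum_congr h0, tsum_zero, if_neg]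
    rintro rfl
    exact hn ⟨isPrim_one, isCoprime_one_left⟩

/-- `(∑ μ(d)/N(d)²) (∑ 1/N(m)²) = 1` (primary elements coprime to `b`). -/
theorem Z_mul_Z2 (b : Eis) : Z b * Z2 b = 1 := by
  have hs1 := summable_zt b
  have hs2 := summable_z2 b
  have h := tsum_mul_tsum_of_summable_norm hs1.norm hs2.norm
  have hF : Summable (fun z : Eis × Eis => zt b z.1 * z2 b z.2) :=
    summable_mul_of_summable_norm hs1.norm hs2.norm
  unfold Z Z2
  rw [h]
  let e := Equiv.sigmaFiberEquiv (fun z : Eis × Eis => z.1 * z.2)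
  rw [← e.tsum_eq (fun z : Eis × Eis => zt b z.1 * z2 b z.2)]
  have hF2 : Summable (fun c => (fun z : Eis × Eis => zt b z.1 * z2 b z.2) (e c)) :=
    (e.summable_iff (f := fun z : Eis × Eis => zt b z.1 * z2 b z.2)).mpr hF
  rw [hF2.tsum_sigma]
  have h2 : ∀ n : Eis, ∑' c : {z : Eis × Eis // z.1 * z.2 = n},
      (fun z : Eis × Eis => zt b z.1 * z2 b z.2) (e ⟨n, c⟩) = if n = 1 then 1 else 0 := by
    classical
    intro n
    exact fiber_sum b n
  rw [tsum_congr h2, tsum_ite_eq]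

lemma kap_mul_Z2 (b : Eis) : kap b * Z2 b = kap0 * PE b := by
  unfold kap
  rw [mul_assoc, Z_mul_Z2, mul_one]

lemma Z2_pos (b : Eis) : 0 < Z2 b := by
  rcases (Z2_nonneg b).lt_or_eq with h | h
  · exact h
  · have := Z_mul_Z2 b
    rw [← h, mul_zero] at this
    exact absurd this (by norm_num)

end Crest.Agent.R012.T3_85
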