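import Crest.Agent.R012.ModelAng_705
import Crest.Agent.R012.Zeta2_85

/-!
# Row 12: the model side of the sharp Type I sums, in the normalisation of `SpecM_49`

* `kap_one_eq_Dsf : kap 1 = M49.Dsf`
* `ga_eq_LF : M49.ga a = LF a` for `a` primary squarefree
* `model_typeI` : sharp Type I sum of the model, all `l`.
-/

set_option autoImplicit false

noncomputable section

open MeasureTheory Set Filter Topology

namespace Crest.Agent.R012.Model705

open Crest.Agent.R012 Crest.Agent.R012.Eis Crest.Agent.R012.Mob705 Crest.Agent.R012.Abel705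
open Crest.Agent.R012.Lat277 Crest.Agent.R012.Div277

lemma Z2_one_eq : T3_85.Z2 1 = M49.zeta2 := by
  unfold T3_85.Z2 M49.zeta2
  refine tsum_congr fun m => ?_
  unfold T3_85.z2
  by_cases hm : IsPrim m
  · rw [if_pos ⟨hm, isCoprime_one_right⟩]
    rw [if_pos hm]
  · rw [if_neg (fun h => hm h.1)]
    rw [if_neg hm]

/-- The density of squarefree primary elements is `M49.Dsf`. -/
theorem kap_one_eq_Dsf : kap 1 = M49.Dsf := by
  have h1 := T3_85.kap_mul_Z2 1
  have h2 := T3_85.Z2_pos 1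
  rw [PE_one, mul_one] at h1
  unfold M49.Dsf
  rw [← Z2_one_eq, eq_div_iff h2.ne', h1]
  rfl

theorem Dsf_pos : 0 < M49.Dsf := by
  rw [← kap_one_eq_Dsf]; exact kap_one_pos

/-- `M49.ga = LF` on squarefree primary elements. -/
theorem ga_eq_LF {a : Eis} (ha : IsPrim a) (hs : Squarefree a) : M49.ga a = LF a := by
  have h1 : Multiset.Rel Associated (UniqueFactorizationMonoid.factors a) (pp a).val := by
    refine UniqueFactorizationMonoid.factors_unique
      (fun x hx => UniqueFactorizationMonoid.irreducible_of_factor x hx)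
      (fun x hx => (isPP_of_mem_pp (Finset.mem_def.mpr hx)).prime.irreducible) ?_
    have h2 : (pp a).val.prod = a := by
      have := prod_pp ha hs
      rwa [Finset.prod_eq_multiset_prod, Multiset.map_id'] at this
    rw [h2]
    exact UniqueFactorizationMonoid.factors_prod ha.ne_zero
  unfold M49.ga LF
  rw [Finset.prod_eq_multiset_prod]
  congr 1
  have h3 : Multiset.Rel Eq
      ((UniqueFactorizationMonoid.factors a).map (fun p => (1 + 1 / (nm p : ℝ))⁻¹))
      ((pp a).val.map (fun p => (1 + 1 / (nm p : ℝ))⁻¹)) := by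
    rw [Multiset.rel_map]
    refine h1.mono fun x _ y _ hxy => ?_
    rw [nm_eq_of_associated hxy]
  exact Multiset.rel_eq.mp h3

/-- Reindexing the sum over multiples of `d`. -/
lemma model_reindex (l : ℤ) {d : Eis} (hd : IsPrim d) (hds : Squarefree d) {X Y : ℕ} (hXY : Y ≤ X) :
    open Classical in
    ∑ m ∈ (primBall X).filter (fun m => nm (d * m) ≤ Y), (if Squarefree (d * m) then
        ang l (d * m) * ((pC * (nm (d * m) : ℝ) ^ (-(1 : ℝ) / 6) : ℝ) : ℂ) else 0) =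
      ang l d * ((pC * (nm d : ℝ) ^ (-(1 : ℝ) / 6) : ℝ) : ℂ) *
        ∑ m ∈ sfc d ((Y : ℝ) / nm d), ang l m * (((nm m : ℝ) ^ (-(1 : ℝ) / 6) : ℝ) : ℂ) := by
  classical
  have hdp : (0 : ℝ) < nm d := by exact_mod_cast nm_pos.mpr hd.ne_zero
  rw [← Finset.sum_filter, Finset.mul_sum]
  refine Finset.sum_congr ?_ fun m _ => ?_
  · ext m
    rw [Finset.mem_filter, Finset.mem_filter, mem_primBall, mem_sfc]
    constructor
    · rintro ⟨⟨⟨_, h2⟩, h3⟩, h4⟩
      have h5 := squarefree_mul_iff.mp h4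
      refine ⟨⟨?_, h2⟩, h5.1.isCoprime.symm, h5.2.2⟩
      rw [le_div_iff₀ hdp, mul_comm]
      rw [nm_mul] at h3
      exact_mod_cast h3
    · rintro ⟨⟨h1, h2⟩, h3, h4⟩
      rw [le_div_iff₀ hdp, mul_comm] at h1
      have h5 : nm (d * m) ≤ Y := by rw [nm_mul]; exact_mod_cast h1
      refine ⟨⟨⟨?_, h2⟩, h5⟩, squarefree_mul_iff.mpr ⟨h3.symm.isRelPrime, hds, h4⟩⟩
      refine le_trans ?_ (h5.trans hXY)
      rw [nm_mul]
      exact Nat.le_mul_of_pos_left _ (nm_pos.mpr hd.ne_zero)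
  · rw [P355.ang_mul, nm_mul]
    push_cast
    rw [Real.mul_rpow (by positivity) (by positivity)]
    push_cast
    ring

lemma pC_pos : 0 < pC := by
  unfold pC
  have : 0 < Real.Gamma (2 / 3) := Real.Gamma_pos_of_pos (by norm_num)
  positivity

open Classical in
/-- **Model side of the sharp Type I sums.** -/
theorem model_typeI (l : ℤ) : ∃ C : ℝ, 0 ≤ C ∧ ∀ (d : Eis) (X Y : ℕ), IsPrim d → Squarefree d →
    Y ≤ X →
    ‖(∑ m ∈ (primBall X).filter (fun m => nm (d * m) ≤ Y), (if Squarefree (d * m) then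
        ang l (d * m) * ((pC * (nm (d * m) : ℝ) ^ (-(1 : ℝ) / 6) : ℝ) : ℂ) else 0)) -
      (if l = 0 then ((pC * M49.Dsf * M49.ga d * (nm d : ℝ) ^ (-(1 : ℝ) / 6) *
        ((6 / 5) * ((Y : ℝ) / nm d) ^ ((5 : ℝ) / 6)) : ℝ) : ℂ) else 0)‖ ≤
      C * sig d * (nm d : ℝ) ^ (-(1 : ℝ) / 6) *
        (((Y : ℝ) / nm d) ^ ((1 : ℝ) / 3) * (1 + Real.log (1 + Y))) := by
  have hlogY : ∀ (d : Eis) (Y : ℕ), IsPrim d →
      Real.log (1 + (Y : ℝ) / nm d) ≤ Real.log (1 + Y) := by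
    intro d Y hd
    have h1 := one_le_nm_of_isPrim hd
    refine Real.log_le_log (by positivity) ?_
    have : (Y : ℝ) / nm d ≤ Y := div_le_self (by positivity) h1
    linarith
  have hpC := pC_pos
  by_cases hl : l = 0
  · subst hl
    refine ⟨pC * 19200, by positivity, fun d X Y hd hds hXY => ?_⟩
    rw [model_reindex 0 hd hds hXY, if_pos rfl, ga_eq_LF hd hds, ← kap_one_eq_Dsf]
    have h1 := sum_sfc_sixth hd.ne_zero (Y := (Y : ℝ) / nm d) (by positivity)
    have e1 : ang 0 d * ((pC * (nm d : ℝ) ^ (-(1 : ℝ) / 6) : ℝ) : ℂ) *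
        ∑ m ∈ sfc d ((Y : ℝ) / nm d), ang 0 m * (((nm m : ℝ) ^ (-(1 : ℝ) / 6) : ℝ) : ℂ) -
        ((pC * kap 1 * LF d * (nm d : ℝ) ^ (-(1 : ℝ) / 6) *
        ((6 / 5) * ((Y : ℝ) / nm d) ^ ((5 : ℝ) / 6)) : ℝ) : ℂ) =
        ((pC * (nm d : ℝ) ^ (-(1 : ℝ) / 6) * (∑ b ∈ sfc d ((Y : ℝ) / nm d),
          (nm b : ℝ) ^ (-(1 : ℝ) / 6) - kap 1 * LF d * ((6 / 5) * ((Y : ℝ) / nm d) ^ ((5 : ℝ) / 6))) : ℝ) : ℂ) := by
      simp only [P355.ang_zero, one_mul]
      push_cast
      ring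
    rw [e1, Complex.norm_real, Real.norm_eq_abs, abs_mul, abs_of_nonneg (by positivity)]
    have h2 := hlogY d Y hd
    have hsig := sig_pos d
    calc pC * (nm d : ℝ) ^ (-(1 : ℝ) / 6) * _ ≤ pC * (nm d : ℝ) ^ (-(1 : ℝ) / 6) *
          (19200 * sig d * (((Y : ℝ) / nm d) ^ ((1 : ℝ) / 3) * (1 + Real.log (1 + (Y : ℝ) / nm d)))) :=
          mul_le_mul_of_nonneg_left h1 (by positivity)
      _ ≤ pC * (nm d : ℝ) ^ (-(1 : ℝ) / 6) *
          (19200 * sig d * (((Y : ℝ) / nm d) ^ ((1 : ℝ) / 3) * (1 + Real.log (1 + Y)))) := by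
          gcongr
      _ = _ := by ring
  · obtain ⟨C, hC, h⟩ := sum_sfc_ang_sixth hl
    refine ⟨pC * C, by positivity, fun d X Y hd hds hXY => ?_⟩
    rw [model_reindex l hd hds hXY, if_neg hl, sub_zero, norm_mul, norm_mul, Complex.norm_real,
      Real.norm_of_nonneg (by positivity)]
    have h1 := h hd.ne_zero (Y := (Y : ℝ) / nm d) (by positivity)
    have h2 := hlogY d Y hd
    have h3 := P355.norm_ang_le l d
    have hsig := sig_pos d
    calc ‖ang l d‖ * (pC * (nm d : ℝ) ^ (-(1 : ℝ) / 6)) * _ ≤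
          1 * (pC * (nm d : ℝ) ^ (-(1 : ℝ) / 6)) *
          (C * sig d * (((Y : ℝ) / nm d) ^ ((1 : ℝ) / 3) * (1 + Real.log (1 + (Y : ℝ) / nm d)))) := by
            refine mul_le_mul (mul_le_mul_of_nonneg_right h3 (by positivity)) h1
              (norm_nonneg _) (by positivity)
      _ ≤ 1 * (pC * (nm d : ℝ) ^ (-(1 : ℝ) / 6)) *
          (C * sig d * (((Y : ℝ) / nm d) ^ ((1 : ℝ) / 3) * (1 + Real.log (1 + Y)))) := by
          gcongr
      _ = _ := by ring

end Crest.Agent.R012.Model705
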