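import Crest.Agent.R012.TI2_581
import Crest.Agent.R012.ModelFin_705
import Crest.Agent.R012.GaussInst_880
import Crest.Agent.R012.SpecMain_48

/-!
# Row 12: `M49.TypeI → Main48.TI_Prop` (sharp Type I sums)

From helper581's `TI2.sharp_of_ms` (smooth → sharp), helper705's `model_typeI` and
`M49.TypeI`.
-/

set_option autoImplicit false

noncomputable section

open MeasureTheory Real Complex Set Filter Topology

namespace Crest.Agent.R012.TI3

open Crest.Agent.R012 Crest.Agent.R012.Eis Crest.Agent.R012.TI2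

/-- the coefficients -/
def FF (l : ℤ) (a b : Eis) : ℂ := by
  classical
  exact if IsPrim a ∧ IsPrim b then G (a * b) * ang l b else 0

/-- the main term -/
def mm (l : ℤ) (a : Eis) : ℂ :=
  if l = 0 then ((pC * M49.Dsf * M49.ga a * (nm a : ℝ) ^ (-(1 : ℝ) / 6) : ℝ) : ℂ) else 0

lemma norm_FF_le (l : ℤ) (a b : Eis) : ‖FF l a b‖ ≤ 1 := by
  classical
  unfold FF
  split_ifs with h
  · rw [norm_mul]
    exact mul_le_one₀ (Gauss880.norm_G_le Gauss880.syG (h.1.mul h.2)) (norm_nonneg _)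
      (P355.norm_ang_le l b)
  · simp

lemma FF_zero (l : ℤ) (a : Eis) : FF l a 0 = 0 := by
  classical
  unfold FF
  rw [if_neg]
  rintro ⟨_, h⟩
  exact h.ne_zero rfl

lemma norm_mm_le (l : ℤ) {a : Eis} (ha : IsPrim a) (hs : Squarefree a) :
    ‖mm l a‖ ≤ (pC * M49.Dsf) * (nm a : ℝ) ^ (-(1 : ℝ) / 6) := by
  have h1 := Model705.pC_pos
  have h2 := Model705.Dsf_pos
  unfold mm
  split_ifs with hl
  · rw [Complex.norm_real, Real.norm_eq_abs, Model705.ga_eq_LF ha hs]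
    have h3 := Mob705.LF_pos a
    have h4 := Mob705.LF_le_one a
    rw [abs_of_nonneg (by positivity)]
    have h5 : 0 ≤ (nm a : ℝ) ^ (-(1 : ℝ) / 6) := by positivity
    have h6 : pC * M49.Dsf * Mob705.LF a ≤ pC * M49.Dsf * 1 := by gcongr
    calc _ ≤ pC * M49.Dsf * 1 * (nm a : ℝ) ^ (-(1 : ℝ) / 6) := by gcongr
      _ = _ := by ring
  · rw [norm_zero]; positivity

/-- the mean-square hypothesis of `sharp_of_ms` from `M49.TypeI`. -/
theorem hyp_of_typeI (H : M49.TypeI) (l : ℤ) {δ : ℝ} (hδ : 0 < δ) :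
    ∃ K : ℝ, 0 ≤ K ∧ Hyp Squarefree (FF l) (mm l) K δ := by
  classical
  obtain ⟨C, hC⟩ := H l v0 v0_wt δ hδ
  refine ⟨|C|, abs_nonneg _, ?_⟩
  intro N X τ hN hX
  have h := hC N X τ hN hX
  refine le_trans (le_of_eq ?_) (h.trans ?_)
  · refine Finset.sum_congr (by congr) fun a ha => ?_
    have hap : IsPrim a := (mem_primBall.mp (Finset.mem_filter.mp ha).1).2
    congr 2
    have e1 : (∑' b : Eis, FF l a b * v0 (nm b / X) * (nm b : ℂ) ^ ((τ : ℂ) * I)) =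
        M49.TT l τ v0 a X := by
      unfold M49.TT
      refine tsum_congr fun b => ?_
      unfold FF
      by_cases hb : IsPrim b
      · rw [if_pos ⟨hap, hb⟩, if_pos hb]
      · rw [if_neg (fun h => hb h.2), if_neg hb]; simp
    rw [e1]
    congr 1
    unfold mm
    split_ifs
    · ring
    · simp
  · have : 0 ≤ ((1 + |τ|) * (1 + X) * (N : ℝ)) ^ δ * ((N + τ ^ 2) * X) := by positivity
    gcongr
    exact le_abs_self C

/-- the model term. -/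
def MMt (l : ℤ) (n : Eis) : ℂ := by
  classical
  exact if Squarefree n then ang l n * ((pC * (nm n : ℝ) ^ (-(1 : ℝ) / 6) : ℝ) : ℂ) else 0

lemma Fl_eq (l : ℤ) {n : Eis} (hn : IsPrim n) : Main48.Fl l n = ang l n * G n - MMt l n := by
  classical
  unfold Main48.Fl MMt
  by_cases h : Squarefree n
  · rw [if_pos h, if_pos h, mul_sub]
  · rw [if_neg h, if_neg h, Gauss880.G_eq_zero Gauss880.syG hn h]; simp

open Classical in
/-- the sum over `b` as the sum of `FF`. -/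
lemma sum_G_eq (l : ℤ) {d : Eis} (hd : IsPrim d) {X Y : ℕ} (hXY : Y ≤ X) :
    ∑ m ∈ (primBall X).filter (fun m => nm (d * m) ≤ Y), ang l (d * m) * G (d * m) =
      ang l d * ∑ b ∈ Div277.nz ⌊(Y : ℝ) / nm d⌋₊, FF l d b := by
  have hdp : 0 < nm d := nm_pos.mpr hd.ne_zero
  have hdp' : (0 : ℝ) < nm d := by exact_mod_cast hdp
  have hset : (primBall X).filter (fun m => nm (d * m) ≤ Y) =
      (Div277.nz ⌊(Y : ℝ) / nm d⌋₊).filter IsPrim := by
    ext m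
    rw [Finset.mem_filter, Finset.mem_filter, mem_primBall, Div277.mem_nz]
    constructor
    · rintro ⟨⟨h1, h2⟩, h3⟩
      refine ⟨⟨h2.ne_zero, Nat.le_floor ?_⟩, h2⟩
      rw [le_div_iff₀ hdp', mul_comm]
      rw [nm_mul] at h3
      exact_mod_cast h3
    · rintro ⟨⟨_, h1⟩, h2⟩
      have h3 : (nm m : ℝ) ≤ (Y : ℝ) / nm d := by
        have h4 := Nat.floor_le (a := (Y : ℝ) / nm d) (by positivity)
        have h5 : (nm m : ℝ) ≤ (⌊(Y : ℝ) / nm d⌋₊ : ℝ) := by exact_mod_cast h1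
        linarith
      rw [le_div_iff₀ hdp', mul_comm] at h3
      have h5 : nm (d * m) ≤ Y := by rw [nm_mul]; exact_mod_cast h3
      refine ⟨⟨?_, h2⟩, h5⟩
      refine le_trans ?_ (h5.trans hXY)
      rw [nm_mul]
      exact Nat.le_mul_of_pos_left _ hdp
  rw [hset, Finset.sum_filter, Finset.mul_sum]
  refine Finset.sum_congr rfl fun m _ => ?_
  unfold FF
  by_cases hm : IsPrim m
  · rw [if_pos hm, if_pos ⟨hd, hm⟩, P355.ang_mul]; ring
  · rw [if_neg hm, if_neg (fun h => hm h.2), mul_zero]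

open Classical in
/-- pointwise bound. -/
lemma pointwise (l : ℤ) : ∃ C : ℝ, 0 ≤ C ∧ ∀ (d : Eis) (X Y : ℕ), IsPrim d → Squarefree d →
    Y ≤ X →
    ‖∑ m ∈ (primBall X).filter (fun m => nm (d * m) ≤ Y), Main48.Fl l (d * m)‖ ≤
      ‖Fu (FF l) (mm l) Y d‖ + C * Mob705.sig d * (nm d : ℝ) ^ (-(1 : ℝ) / 6) *
        (((Y : ℝ) / nm d) ^ ((1 : ℝ) / 3) * (1 + Real.log (1 + Y))) := by
  obtain ⟨C, hC, h⟩ := Model705.model_typeI l
  refine ⟨C, hC, fun d X Y hd hds hXY => ?_⟩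
  have h1 := h d X Y hd hds hXY
  have e1 : ∑ m ∈ (primBall X).filter (fun m => nm (d * m) ≤ Y), Main48.Fl l (d * m) =
      ang l d * (∑ b ∈ Div277.nz ⌊(Y : ℝ) / nm d⌋₊, FF l d b) -
      ∑ m ∈ (primBall X).filter (fun m => nm (d * m) ≤ Y), MMt l (d * m) := by
    rw [← sum_G_eq l hd hXY, ← Finset.sum_sub_distrib]
    refine Finset.sum_congr rfl fun m hm => ?_
    have hmp : IsPrim m := (mem_primBall.mp (Finset.mem_filter.mp hm).1).2
    exact Fl_eq l (hd.mul hmp)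
  have e2 : ∑ m ∈ (primBall X).filter (fun m => nm (d * m) ≤ Y), Main48.Fl l (d * m) =
      ang l d * Fu (FF l) (mm l) Y d -
      ((∑ m ∈ (primBall X).filter (fun m => nm (d * m) ≤ Y), (if Squarefree (d * m) then
        ang l (d * m) * ((pC * (nm (d * m) : ℝ) ^ (-(1 : ℝ) / 6) : ℝ) : ℂ) else 0)) -
      (if l = 0 then ((pC * M49.Dsf * M49.ga d * (nm d : ℝ) ^ (-(1 : ℝ) / 6) *
        ((6 / 5) * ((Y : ℝ) / nm d) ^ ((5 : ℝ) / 6)) : ℝ) : ℂ) else 0)) := by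
    rw [e1]
    have e3 : ∀ m, MMt l (d * m) = (if Squarefree (d * m) then
        ang l (d * m) * ((pC * (nm (d * m) : ℝ) ^ (-(1 : ℝ) / 6) : ℝ) : ℂ) else 0) := fun m => rfl
    simp_rw [e3]
    unfold Fu mm
    by_cases hl : l = 0
    · subst hl
      rw [if_pos rfl, if_pos rfl, P355.ang_zero]
      push_cast
      ring
    · rw [if_neg hl, if_neg hl]
      ring
  rw [e2]
  refine (norm_sub_le _ _).trans ?_
  refine add_le_add ?_ h1
  rw [norm_mul]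
  exact mul_le_of_le_one_left (norm_nonneg _) (P355.norm_ang_le l d)

/-- the sum of the model errors. -/
lemma sum_model_le : ∃ C : ℝ, 0 ≤ C ∧ ∀ (X : ℕ) (D : ℝ) (S : Finset Eis) (Y : Eis → ℕ), 2 ≤ X →
    0 ≤ D → D ≤ (X : ℝ) ^ ((2 : ℝ) / 3) →
    (∀ d ∈ S, d ∈ primBall X ∧ (nm d : ℝ) ≤ D) → (∀ d, Y d ≤ X) →
    ∑ d ∈ S, Mob705.sig d * (nm d : ℝ) ^ (-(1 : ℝ) / 6) *
        (((Y d : ℝ) / nm d) ^ ((1 : ℝ) / 3) * (1 + Real.log (1 + Y d))) ≤
      C * (X : ℝ) ^ ((3 : ℝ) / 4) := by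
  obtain ⟨Ct, hCt1, hCt⟩ := Div277.tau_le_rpow (ε := 1 / 24) (by norm_num)
  set P : ℝ := (100 * (1 + (2 : ℕ) / ((1 : ℝ) / 24))) ^ 2 with hP
  refine ⟨2 * Ct * P, by positivity, ?_⟩
  intro X D S Y hX hD0 hD hS hY
  have hX1 : (1 : ℝ) ≤ X := by exact_mod_cast (by omega : 1 ≤ X)
  have hX0 : (0 : ℝ) < X := by linarith
  have hlog : 0 ≤ Real.log X := Real.log_nonneg hX1
  have key : ∀ d ∈ S, Mob705.sig d * (nm d : ℝ) ^ (-(1 : ℝ) / 6) *
        (((Y d : ℝ) / nm d) ^ ((1 : ℝ) / 3) * (1 + Real.log (1 + Y d))) ≤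
      2 * Ct * (X : ℝ) ^ ((1 : ℝ) / 24 + 1 / 3 + 1 / 3) * (1 + Real.log X) * (1 / nm d) := by
    intro d hd
    obtain ⟨hd1, hd2⟩ := hS d hd
    have hdp := (mem_primBall.mp hd1).2
    have hdX : (nm d : ℝ) ≤ X := by exact_mod_cast (mem_primBall.mp hd1).1
    have hd0 : (0 : ℝ) < nm d := by exact_mod_cast nm_pos.mpr hdp.ne_zero
    have h1 : Mob705.sig d ≤ Ct * (X : ℝ) ^ ((1 : ℝ) / 24) := by
      refine (Mob705.sig_le_tau hdp.ne_zero).trans ((hCt d hdp.ne_zero).trans ?_)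
      gcongr
    have h2 : ((Y d : ℝ) / nm d) ^ ((1 : ℝ) / 3) ≤ (X : ℝ) ^ ((1 : ℝ) / 3) * (nm d : ℝ) ^ (-(1 : ℝ) / 3) := by
      have : (Y d : ℝ) ≤ X := by exact_mod_cast hY d
      calc ((Y d : ℝ) / nm d) ^ ((1 : ℝ) / 3) ≤ ((X : ℝ) / nm d) ^ ((1 : ℝ) / 3) := by gcongr
        _ = _ := by
          rw [Real.div_rpow hX0.le hd0.le, div_eq_mul_inv, ← Real.rpow_neg hd0.le]
          norm_num
    have h3 : 1 + Real.log (1 + Y d) ≤ 2 * (1 + Real.log X) := by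
      have hYX : (Y d : ℝ) ≤ X := by exact_mod_cast hY d
      have h4 : Real.log (1 + Y d) ≤ Real.log (2 * X) :=
        Real.log_le_log (by positivity) (by linarith)
      rw [Real.log_mul (by norm_num) hX0.ne'] at h4
      have h5 : Real.log 2 ≤ 1 := by
        have := Real.log_two_lt_d9; linarith
      linarith
    have h4 : 0 ≤ 1 + Real.log (1 + Y d) := by
      have : 0 ≤ Real.log (1 + Y d) := Real.log_nonneg (by
        have : (0 : ℝ) ≤ Y d := by positivity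
        linarith)
      linarith
    have h5 : (nm d : ℝ) ^ (-(1 : ℝ) / 6) * (nm d : ℝ) ^ (-(1 : ℝ) / 3) ≤
        (X : ℝ) ^ ((1 : ℝ) / 3) * (1 / nm d) := by
      rw [← Real.rpow_add hd0]
      have e1 : (-(1 : ℝ) / 6) + (-(1 : ℝ) / 3) = 1 / 2 + -1 := by norm_num
      rw [e1, Real.rpow_add hd0, Real.rpow_neg_one, one_div (nm d : ℝ)]
      have h6 : (nm d : ℝ) ^ ((1 : ℝ) / 2) ≤ (X : ℝ) ^ ((1 : ℝ) / 3) := by
        calc (nm d : ℝ) ^ ((1 : ℝ) / 2) ≤ ((X : ℝ) ^ ((2 : ℝ) / 3)) ^ ((1 : ℝ) / 2) := by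
              gcongr
              exact hd2.trans hD
          _ = _ := by
            rw [← Real.rpow_mul hX0.le]; norm_num
      exact mul_le_mul_of_nonneg_right h6 (by positivity)
    have hsig0 := (Mob705.sig_pos d).le
    calc _ = Mob705.sig d * ((nm d : ℝ) ^ (-(1 : ℝ) / 6) *
        ((Y d : ℝ) / nm d) ^ ((1 : ℝ) / 3)) * (1 + Real.log (1 + Y d)) := by ring
      _ ≤ (Ct * (X : ℝ) ^ ((1 : ℝ) / 24)) * ((nm d : ℝ) ^ (-(1 : ℝ) / 6) *
        ((X : ℝ) ^ ((1 : ℝ) / 3) * (nm d : ℝ) ^ (-(1 : ℝ) / 3))) * (2 * (1 + Real.log X)) := by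
          gcongr
      _ = (Ct * (X : ℝ) ^ ((1 : ℝ) / 24)) * (X : ℝ) ^ ((1 : ℝ) / 3) *
          ((nm d : ℝ) ^ (-(1 : ℝ) / 6) * (nm d : ℝ) ^ (-(1 : ℝ) / 3)) *
          (2 * (1 + Real.log X)) := by ring
      _ ≤ (Ct * (X : ℝ) ^ ((1 : ℝ) / 24)) * (X : ℝ) ^ ((1 : ℝ) / 3) *
          ((X : ℝ) ^ ((1 : ℝ) / 3) * (1 / nm d)) * (2 * (1 + Real.log X)) := by
          gcongr
      _ = _ := by
          rw [Real.rpow_add hX0, Real.rpow_add hX0]; ring
  have hsum : ∑ d ∈ S, (1 / (nm d : ℝ)) ≤ 100 * (1 + Real.log X) := by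
    refine (Finset.sum_le_sum_of_subset_of_nonneg (fun d hd => (hS d hd).1)
      (fun _ _ _ => by positivity)).trans (Div277.sum_inv_primBall_le X)
  have hpoly := Div277.poly_log_le 2 hX1 (δ := 1 / 24) (by norm_num)
  rw [← hP] at hpoly
  calc _ ≤ ∑ d ∈ S, 2 * Ct * (X : ℝ) ^ ((1 : ℝ) / 24 + 1 / 3 + 1 / 3) * (1 + Real.log X) *
        (1 / nm d) := Finset.sum_le_sum key
    _ = 2 * Ct * (X : ℝ) ^ ((1 : ℝ) / 24 + 1 / 3 + 1 / 3) * (1 + Real.log X) *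
        ∑ d ∈ S, (1 / (nm d : ℝ)) := by rw [Finset.mul_sum]
    _ ≤ 2 * Ct * (X : ℝ) ^ ((1 : ℝ) / 24 + 1 / 3 + 1 / 3) * (100 * (1 + Real.log X)) *
        (100 * (1 + Real.log X)) := by
        gcongr
        linarith
    _ = 2 * Ct * (X : ℝ) ^ ((1 : ℝ) / 24 + 1 / 3 + 1 / 3) * (100 * (1 + Real.log X)) ^ 2 := by
        ring
    _ ≤ 2 * Ct * (X : ℝ) ^ ((1 : ℝ) / 24 + 1 / 3 + 1 / 3) * (P * (X : ℝ) ^ ((1 : ℝ) / 24)) := by
        gcongr
    _ = 2 * Ct * P * ((X : ℝ) ^ ((1 : ℝ) / 24 + 1 / 3 + 1 / 3) * (X : ℝ) ^ ((1 : ℝ) / 24)) := by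
        ring
    _ = _ := by
        rw [← Real.rpow_add hX0]; norm_num

/-- **Type I sums with sharp cut-offs.** -/
theorem TI_of_typeI (H : M49.TypeI) : Main48.TI_Prop := by
  classical
  intro l ε0 hε0
  -- reduce to `ε ≤ 2/3`
  set ε : ℝ := min ε0 (2 / 3) with hε
  have hεpos : 0 < ε := by positivity
  have hε1 : ε ≤ ε0 := min_le_left _ _
  have hε2 : ε ≤ 2 / 3 := min_le_right _ _
  set ε' : ℝ := min (ε / 8) (1 / 40) with hε'
  have hε'pos : 0 < ε' := by positivity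
  have hε'1 : ε' ≤ ε / 8 := min_le_left _ _
  have hε'2 : ε' ≤ 1 / 40 := min_le_right _ _
  set δ : ℝ := min (ε / 8) (1 / 40) with hδ
  obtain ⟨δ1, C1, hδ1, hC1, hsh⟩ := sharp_of_ms hε'pos
  obtain ⟨K, hK, hHyp⟩ := hyp_of_typeI H l hδ1
  obtain ⟨C2, hC2, hpt⟩ := pointwise l
  obtain ⟨C3, hC3, hmod⟩ := sum_model_le
  have hpC := Model705.pC_pos
  have hDsf := Model705.Dsf_pos
  set R : ℝ := Real.sqrt K + 1 + pC * M49.Dsf with hR
  have hR0 : 0 < R := by have := Real.sqrt_nonneg K; positivity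
  refine ⟨δ, 2 * (C1 * R) + C2 * C3, hε'pos, by positivity, ?_⟩
  intro X hX Y hY
  have hX1 : (1 : ℝ) ≤ X := by exact_mod_cast (by omega : 1 ≤ X)
  have hX0 : (0 : ℝ) < X := by linarith
  set D : ℝ := (X : ℝ) ^ (2 / 3 - ε) with hD
  have hD1 : 1 ≤ D := Real.one_le_rpow hX1 (by linarith)
  have hD2 : D ≤ (X : ℝ) ^ ((2 : ℝ) / 3) := Real.rpow_le_rpow_of_exponent_le hX1 (by linarith)
  set S := (primBall X).filter (fun d => Squarefree d ∧ (nm d : ℝ) ≤ (X : ℝ) ^ (2 / 3 - ε0))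
    with hS
  have hSD : ∀ d ∈ S, d ∈ primBall X ∧ Squarefree d ∧ (nm d : ℝ) ≤ D := by
    intro d hd
    rw [hS, Finset.mem_filter] at hd
    exact ⟨hd.1, hd.2.1, hd.2.2.trans (Real.rpow_le_rpow_of_exponent_le hX1 (by linarith))⟩
  have h1 := hsh Squarefree (FF l) (mm l) K 1 (pC * M49.Dsf) hK (by positivity)
    (norm_FF_le l) (FF_zero l) (fun a ha hs => norm_mm_le l ha hs) hHyp D X hD1 hX1 S
    (fun d => (Y d : ℝ))
    (fun d hd => ⟨(mem_primBall.mp (hSD d hd).1).2, (hSD d hd).2.1, (hSD d hd).2.2⟩)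
    (fun d _ => ⟨by positivity, by exact_mod_cast hY d⟩)
  have h2 := hmod X D S Y hX (by linarith) hD2 (fun d hd => ⟨(hSD d hd).1, (hSD d hd).2.2⟩) hY
  have hGG : GG ε' D X ≤ 2 * (X : ℝ) ^ (5 / 6 - δ) := by
    unfold GG
    have e1 : (X : ℝ) * D = (X : ℝ) ^ (5 / 3 - ε) := by
      rw [hD]
      nth_rewrite 1 [← Real.rpow_one (X : ℝ)]
      rw [← Real.rpow_add hX0]
      congr 1; ring
    rw [e1, ← Real.rpow_mul hX0.le, ← Real.rpow_mul hX0.le, mul_add, ← Real.rpow_add hX0,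
      ← Real.rpow_add hX0, two_mul]
    apply add_le_add
    · apply Real.rpow_le_rpow_of_exponent_le hX1
      have : ε * ε' ≥ 0 := by positivity
      have h3 : δ ≤ ε / 8 := min_le_left _ _
      nlinarith
    · apply Real.rpow_le_rpow_of_exponent_le hX1
      have : ε * ε' ≥ 0 := by positivity
      have h3 : δ ≤ 1 / 40 := min_le_right _ _
      nlinarith
  have h34 : (X : ℝ) ^ ((3 : ℝ) / 4) ≤ (X : ℝ) ^ (5 / 6 - δ) := by
    apply Real.rpow_le_rpow_of_exponent_le hX1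
    have h3 : δ ≤ 1 / 40 := min_le_right _ _
    linarith
  calc ∑ d ∈ S, ‖∑ m ∈ (primBall X).filter (fun m => nm (d * m) ≤ Y d), Main48.Fl l (d * m)‖
      ≤ ∑ d ∈ S, (‖Fu (FF l) (mm l) (Y d) d‖ + C2 * (Mob705.sig d * (nm d : ℝ) ^ (-(1 : ℝ) / 6) *
        (((Y d : ℝ) / nm d) ^ ((1 : ℝ) / 3) * (1 + Real.log (1 + Y d))))) := by
        refine Finset.sum_le_sum fun d hd => ?_
        refine (hpt d X (Y d) (mem_primBall.mp (hSD d hd).1).2 (hSD d hd).2.1 (hY d)).trans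
          (le_of_eq ?_)
        ring
    _ = ∑ d ∈ S, ‖Fu (FF l) (mm l) (Y d) d‖ + C2 * ∑ d ∈ S,
        Mob705.sig d * (nm d : ℝ) ^ (-(1 : ℝ) / 6) *
        (((Y d : ℝ) / nm d) ^ ((1 : ℝ) / 3) * (1 + Real.log (1 + Y d))) := by
        rw [Finset.sum_add_distrib, Finset.mul_sum]
    _ ≤ C1 * R * GG ε' D X + C2 * (C3 * (X : ℝ) ^ ((3 : ℝ) / 4)) := by
        gcongr
    _ ≤ C1 * R * (2 * (X : ℝ) ^ (5 / 6 - δ)) + C2 * (C3 * (X : ℝ) ^ (5 / 6 - δ)) := by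
        gcongr
    _ = _ := by ring

end Crest.Agent.R012.TI3
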