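import Crest.Agent.R012.TIIend_54
import Crest.Agent.R012.SWx_355
import Crest.Agent.R012.CRx_852

/-!
# Row 12, item TIIS: the final theorems (helper54)

* `tiix`  : `TMainN → TIIx_Prop`
* `tiicx` : `TMainC → CRProd → TIIcx_Prop`
-/

set_option autoImplicit false

namespace Crest.Agent.R012.TII54

theorem tiix (hN : T411.TMainN) : Main48.TIIx_Prop := tiix_of hN SWx355.SWx

theorem tiicx_of_crx (hC : T411.TMainC) (hCR : CRx_Prop) : Main48.TIIcx_Prop :=
  tiicx_of hC SWx355.SWx hCR

theorem tiicx (hC : T411.TMainC) (hCR : CR290.CRProd) : Main48.TIIcx_Prop :=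
  tiicx_of hC SWx355.SWx (CRbeta852.crx_of hCR)

end Crest.Agent.R012.TII54
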