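import Crest.Agent.R012.MSgenD_49

/-!
# Row 12, part (M): constructors of `LogW`; `MS1 → MS` (helper49)
-/

set_option autoImplicit false

noncomputable section

open MeasureTheory Complex Set Filter Topology
open Crest.Agent.R012.Weight600 Crest.Agent.R012.Eis

namespace Crest.Agent.R012.MSgen49

/-! ### constructors of `LogW` -/

lemma LogW.mono {w : ℝ → ℂ} {M M' : ℝ} (h : LogW w M) (hM : M ≤ M') : LogW w M' := by
  obtain ⟨D, h0, h1, h2, h3⟩ := h
  refine ⟨D, h0, h1, h2, fun j hj u => (h3 j hj u).trans ?_⟩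
  exact mul_le_mul_of_nonneg_right hM (env_pos u).le

lemma LogW.add {w w' : ℝ → ℂ} {M M' : ℝ} (h : LogW w M) (h' : LogW w' M') :
    LogW (fun u => w u + w' u) (M + M') := by
  obtain ⟨D, h0, h1, h2, h3⟩ := h
  obtain ⟨D', h0', h1', h2', h3'⟩ := h'
  refine ⟨fun j u => D j u + D' j u, ?_, ?_, h2.add h2', ?_⟩
  · ext u; simp only [h0, h0']
  · intro j hj u
    exact (h1 j hj u).fun_add (h1' j hj u)
  · intro j hj u
    rw [add_mul]
    exact (norm_add_le _ _).trans (add_le_add (h3 j hj u) (h3' j hj u))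

lemma LogW.const_mul {w : ℝ → ℂ} {M : ℝ} (h : LogW w M) (a : ℂ) :
    LogW (fun u => a * w u) (‖a‖ * M) := by
  obtain ⟨D, h0, h1, h2, h3⟩ := h
  refine ⟨fun j u => a * D j u, ?_, ?_, continuous_const.mul h2, ?_⟩
  · ext u; simp only [h0]
  · intro j hj u
    exact (h1 j hj u).const_mul a
  · intro j hj u
    rw [norm_mul, mul_assoc]
    exact mul_le_mul_of_nonneg_left (h3 j hj u) (norm_nonneg a)

/-- three bounded derivatives. -/
def BddW (w : ℝ → ℂ) (B : ℝ) : Prop :=
  ∃ D : ℕ → ℝ → ℂ, D 0 = w ∧ (∀ j < 3, ∀ u, HasDerivAt (D j) (D (j + 1) u) u) ∧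
    Continuous (D 3) ∧ ∀ j ≤ 3, ∀ u, ‖D j u‖ ≤ B

lemma LogW.mul_bdd {w b : ℝ → ℂ} {M B : ℝ} (h : LogW w M) (hb : BddW b B) :
    LogW (fun u => b u * w u) (8 * B * M) := by
  have hM := h.M_nonneg
  obtain ⟨P, p0, p1, p2, p3⟩ := h
  obtain ⟨X, x0, x1, x2, x3⟩ := hb
  have hBnn : 0 ≤ B := (norm_nonneg _).trans (x3 0 (by norm_num) 0)
  let Gc : ℕ → ℝ → ℂ := fun i => match i with
    | 0 => fun u => X 0 u * P 0 u
    | 1 => fun u => X 1 u * P 0 u + X 0 u * P 1 u
    | 2 => fun u => X 2 u * P 0 u + 2 * (X 1 u * P 1 u) + X 0 u * P 2 u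
    | 3 => fun u => X 3 u * P 0 u + 3 * (X 2 u * P 1 u) + 3 * (X 1 u * P 2 u) +
        X 0 u * P 3 u
    | _ => fun _ => 0
  have hprod : ∀ a ≤ 3, ∀ b ≤ 3, ∀ u, ‖X a u * P b u‖ ≤ B * (M * env u) := by
    intro a ha b hb u
    rw [norm_mul]
    exact mul_le_mul (x3 a ha u) (p3 b hb u) (norm_nonneg _) hBnn
  have hPc : ∀ i ≤ 3, Continuous (P i) := by
    intro i hi
    rcases Nat.lt_or_ge i 3 with h | h
    · exact continuous_iff_continuousAt.mpr fun u => (p1 i h u).continuousAt
    · have : i = 3 := by omega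
      rw [this]; exact p2
  have hXc : ∀ i ≤ 3, Continuous (X i) := by
    intro i hi
    rcases Nat.lt_or_ge i 3 with h | h
    · exact continuous_iff_continuousAt.mpr fun u => (x1 i h u).continuousAt
    · have : i = 3 := by omega
      rw [this]; exact x2
  refine ⟨Gc, ?_, ?_, ?_, ?_⟩
  · ext u; simp only [Gc, x0, p0]
  · intro i hi u
    interval_cases i
    · exact (x1 0 (by norm_num) u).fun_mul (p1 0 (by norm_num) u)
    · have := ((x1 1 (by norm_num) u).fun_mul (p1 0 (by norm_num) u)).fun_add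
        ((x1 0 (by norm_num) u).fun_mul (p1 1 (by norm_num) u))
      refine this.congr_deriv ?_
      show _ = X 2 u * P 0 u + 2 * (X 1 u * P 1 u) + X 0 u * P 2 u
      ring
    · have := (((x1 2 (by norm_num) u).fun_mul (p1 0 (by norm_num) u)).fun_add
        (((x1 1 (by norm_num) u).fun_mul (p1 1 (by norm_num) u)).const_mul 2)).fun_add
        ((x1 0 (by norm_num) u).fun_mul (p1 2 (by norm_num) u))
      refine this.congr_deriv ?_
      show _ = X 3 u * P 0 u + 3 * (X 2 u * P 1 u) + 3 * (X 1 u * P 2 u) + X 0 u * P 3 u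
      ring
  · simp only [Gc]
    have := hPc 0 (by norm_num)
    have := hPc 1 (by norm_num)
    have := hPc 2 (by norm_num)
    have := hPc 3 (by norm_num)
    have := hXc 0 (by norm_num)
    have := hXc 1 (by norm_num)
    have := hXc 2 (by norm_num)
    have := hXc 3 (by norm_num)
    fun_prop
  · intro i hi u
    have q := fun a (ha : a ≤ 3) b (hb : b ≤ 3) => hprod a ha b hb u
    have henv := env_pos u
    have hnn : 0 ≤ B * (M * env u) := by positivity
    have hgoal : 8 * B * M * env u = 8 * (B * (M * env u)) := by ring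
    rw [hgoal]
    interval_cases i
    · simp only [Gc]
      linarith [q 0 (by norm_num) 0 (by norm_num)]
    · simp only [Gc]
      refine (norm_add_le _ _).trans ?_
      linarith [q 1 (by norm_num) 0 (by norm_num), q 0 (by norm_num) 1 (by norm_num)]
    · simp only [Gc]
      refine (norm_add₃_le).trans ?_
      rw [norm_mul (2 : ℂ)]
      simp only [Complex.norm_ofNat]
      linarith [q 2 (by norm_num) 0 (by norm_num), q 1 (by norm_num) 1 (by norm_num),
        q 0 (by norm_num) 2 (by norm_num)]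
    · simp only [Gc]
      refine (norm_add_le _ _).trans ?_
      refine (add_le_add_left norm_add₃_le _).trans ?_
      rw [norm_mul (3 : ℂ), norm_mul (3 : ℂ)]
      simp only [Complex.norm_ofNat]
      linarith [q 3 (by norm_num) 0 (by norm_num), q 2 (by norm_num) 1 (by norm_num),
        q 1 (by norm_num) 2 (by norm_num), q 0 (by norm_num) 3 (by norm_num)]

/-- `x^{-a} e^{-x}` in the variable `u = log x`. -/
def pe (a u : ℝ) : ℝ := Real.exp (-(a * u) - Real.exp u)

lemma hasDerivAt_pe (a u : ℝ) : HasDerivAt (pe a) (-(a + Real.exp u) * pe a u) u := by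
  unfold pe
  have h1 : HasDerivAt (fun u : ℝ => -(a * u) - Real.exp u) (-a - Real.exp u) u := by
    have := (((hasDerivAt_id u).const_mul a).neg).sub (Real.hasDerivAt_exp u)
    refine this.congr_deriv ?_
    ring
  refine h1.exp.congr_deriv ?_
  ring

lemma pow5_le (x : ℝ) (hx : 0 ≤ x) : (1 + x) ^ 5 ≤ 360 * Real.exp x := by
  have h1 := Real.pow_div_factorial_le_exp (1 + x) (by linarith) 5
  rw [div_le_iff₀ (by positivity), Real.exp_add] at h1
  have h2 : Real.exp 1 ≤ 3 := by linarith [Real.exp_one_lt_d9]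
  have h3 : ((5 : ℕ).factorial : ℝ) = 120 := by norm_num [Nat.factorial]
  rw [h3] at h1
  have h4 := Real.exp_pos x
  nlinarith

/-- **`x^{-a} e^{-x}`**, `0 ≤ a ≤ 1/4`, is admissible (`a = 0` : `e^{-x}`). -/
lemma logW_pe {a : ℝ} (ha : 0 ≤ a) (ha1 : a ≤ 1 / 4) :
    LogW (fun u => ((pe a u : ℝ) : ℂ)) 2000 := by
  let P : ℕ → ℝ → ℝ := fun i => match i with
    | 0 => fun _ => 1
    | 1 => fun x => -(a + x)
    | 2 => fun x => (a + x) ^ 2 - x
    | 3 => fun x => -(a + x) ^ 3 + 3 * x * (a + x) - x
    | _ => fun _ => 0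
  have hder : ∀ j < 3, ∀ u, HasDerivAt (fun u => P j (Real.exp u) * pe a u)
      (P (j + 1) (Real.exp u) * pe a u) u := by
    intro j hj u
    have hE := Real.hasDerivAt_exp u
    have hF := hasDerivAt_pe a u
    interval_cases j
    · simp only [P, one_mul]
      exact hF
    · have h1 : HasDerivAt (fun u => -(a + Real.exp u)) (-(Real.exp u)) u := (hE.const_add a).neg
      refine (h1.fun_mul hF).congr_deriv ?_
      simp only [P]; ring
    · have h1 : HasDerivAt (fun u => (a + Real.exp u) ^ 2 - Real.exp u)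
          (2 * (a + Real.exp u) * Real.exp u - Real.exp u) u := by
        have := ((hE.const_add a).fun_pow 2).fun_sub hE
        refine this.congr_deriv ?_
        simp
      refine (h1.fun_mul hF).congr_deriv ?_
      simp only [P]; ring
  refine ⟨fun j u => ((P j (Real.exp u) * pe a u : ℝ) : ℂ), ?_, ?_, ?_, ?_⟩
  · ext u; simp [P]
  · intro j hj u
    exact (hder j hj u).ofReal_comp
  · have : Continuous (fun u => P 3 (Real.exp u) * pe a u) := by
      simp only [P, pe]; fun_prop
    exact Complex.continuous_ofReal.comp this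
  · intro j hj u
    rw [Complex.norm_real, norm_mul, Real.norm_eq_abs, Real.norm_eq_abs]
    have hx := Real.exp_pos u
    have hPb : |P j (Real.exp u)| ≤ 5 * (1 + Real.exp u) ^ 3 := by
      set x := Real.exp u with hxdef
      have hb : a + x ≤ 1 + x := by linarith
      have hb0 : 0 ≤ a + x := by linarith
      have hb2 : (a + x) ^ 2 ≤ (1 + x) ^ 2 := pow_le_pow_left₀ hb0 hb 2
      have hb3 : (a + x) ^ 3 ≤ (1 + x) ^ 3 := pow_le_pow_left₀ hb0 hb 3
      have hb20 : 0 ≤ (a + x) ^ 2 := by positivity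
      have hb30 : 0 ≤ (a + x) ^ 3 := by positivity
      have hq : (1 : ℝ) ≤ (1 + x) := by linarith
      have hq2 : (1 + x) ^ 2 ≤ (1 + x) ^ 3 := pow_le_pow_right₀ hq (by norm_num)
      have hq1 : (1 + x) ≤ (1 + x) ^ 3 := by
        calc (1 + x) = (1 + x) ^ 1 := (pow_one _).symm
          _ ≤ _ := pow_le_pow_right₀ hq (by norm_num)
      have hq0 : (1 : ℝ) ≤ (1 + x) ^ 3 := one_le_pow₀ hq
      have hxx : x * (a + x) ≤ (1 + x) ^ 2 := by nlinarith
      have hxx0 : 0 ≤ x * (a + x) := by positivity
      interval_cases j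
      · simp only [P]; rw [abs_one]; linarith
      · simp only [P]; rw [abs_neg, abs_of_nonneg hb0]; linarith
      · simp only [P]; rw [abs_le]; constructor <;> nlinarith
      · simp only [P]; rw [abs_le]; constructor <;> nlinarith
    have hpe : |pe a u| = Real.exp (-(a * u)) * Real.exp (-Real.exp u) := by
      unfold pe; rw [abs_of_pos (Real.exp_pos _), ← Real.exp_add]; congr 1
    have hpa : Real.exp (-(a * u)) ≤ (1 + Real.exp (-u)) ^ ((1 : ℝ) / 4) := by
      rcases le_total 0 u with h | h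
      · have h1 : Real.exp (-(a * u)) ≤ 1 := Real.exp_le_one_iff.mpr (by nlinarith)
        exact h1.trans (Real.one_le_rpow (by linarith [Real.exp_pos (-u)]) (by norm_num))
      · calc Real.exp (-(a * u)) ≤ Real.exp (-u * (1 / 4)) :=
              Real.exp_le_exp.mpr (by nlinarith)
          _ = (Real.exp (-u)) ^ ((1 : ℝ) / 4) := by rw [Real.exp_mul]
          _ ≤ _ := Real.rpow_le_rpow (Real.exp_pos _).le (by linarith) (by norm_num)
    have h5 := pow5_le (Real.exp u) hx.le
    have h6 : (1 + Real.exp u) ^ 3 * Real.exp (-Real.exp u) ≤ 360 / (1 + Real.exp u) ^ 2 := by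
      rw [le_div_iff₀ (by positivity), Real.exp_neg]
      have h7 := Real.exp_pos (Real.exp u)
      calc (1 + Real.exp u) ^ 3 * (Real.exp (Real.exp u))⁻¹ * (1 + Real.exp u) ^ 2
          = (1 + Real.exp u) ^ 5 / Real.exp (Real.exp u) := by
            rw [div_eq_mul_inv]; ring
        _ ≤ 360 := by rw [div_le_iff₀ h7]; exact h5
    rw [hpe]
    calc |P j (Real.exp u)| * (Real.exp (-(a * u)) * Real.exp (-Real.exp u))
        ≤ (5 * (1 + Real.exp u) ^ 3) * ((1 + Real.exp (-u)) ^ ((1 : ℝ) / 4) *
          Real.exp (-Real.exp u)) := by gcongr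
      _ = 5 * (1 + Real.exp (-u)) ^ ((1 : ℝ) / 4) *
          ((1 + Real.exp u) ^ 3 * Real.exp (-Real.exp u)) := by ring
      _ ≤ 5 * (1 + Real.exp (-u)) ^ ((1 : ℝ) / 4) * (360 / (1 + Real.exp u) ^ 2) := by gcongr
      _ = 1800 * env u := by unfold env; ring
      _ ≤ 2000 * env u := by have := env_pos u; nlinarith

/-- `y^a e^{-y}` with `y = c/x = c e^{-u}`. -/
def qe (a c u : ℝ) : ℝ := (c * Real.exp (-u)) ^ a * Real.exp (-(c * Real.exp (-u)))

lemma hasDerivAt_qe (a : ℝ) {c : ℝ} (hc : 0 < c) (u : ℝ) :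
    HasDerivAt (qe a c) ((c * Real.exp (-u) - a) * qe a c u) u := by
  have e : ∀ u, qe a c u = Real.exp (a * (Real.log c - u) - c * Real.exp (-u)) := by
    intro u
    unfold qe
    rw [Real.rpow_def_of_pos (by positivity), ← Real.exp_add,
      Real.log_mul hc.ne' (Real.exp_pos _).ne', Real.log_exp]
    congr 1; ring
  have e' : qe a c = fun u => Real.exp (a * (Real.log c - u) - c * Real.exp (-u)) := funext e
  rw [e']
  have h1 : HasDerivAt (fun u : ℝ => a * (Real.log c - u) - c * Real.exp (-u))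
      (c * Real.exp (-u) - a) u := by
    have h2 : HasDerivAt (fun u : ℝ => Real.exp (-u)) (-Real.exp (-u)) u := by
      have := (hasDerivAt_neg u).exp
      simpa using this
    have h3 := (((hasDerivAt_id u).const_sub (Real.log c)).const_mul a).fun_sub (h2.const_mul c)
    refine h3.congr_deriv ?_
    ring
  refine h1.exp.congr_deriv ?_
  ring

/-- **`(c/x)^a e^{-c/x}`**, `0 ≤ a ≤ 1`, has three bounded log-derivatives, uniformly in `c`. -/
lemma bddW_qe {a c : ℝ} (ha : 0 ≤ a) (ha1 : a ≤ 1) (hc : 0 < c) :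
    BddW (fun u => ((qe a c u : ℝ) : ℂ)) 1800 := by
  let P : ℕ → ℝ → ℝ := fun i => match i with
    | 0 => fun _ => 1
    | 1 => fun y => y - a
    | 2 => fun y => (y - a) ^ 2 - y
    | 3 => fun y => (y - a) ^ 3 - 3 * y * (y - a) + y
    | _ => fun _ => 0
  have hY : ∀ u : ℝ, HasDerivAt (fun u : ℝ => c * Real.exp (-u)) (-(c * Real.exp (-u))) u := by
    intro u
    have h2 : HasDerivAt (fun u : ℝ => Real.exp (-u)) (-Real.exp (-u)) u := by
      have := (hasDerivAt_neg u).exp
      simpa using this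
    refine (h2.const_mul c).congr_deriv ?_
    ring
  have hder : ∀ j < 3, ∀ u, HasDerivAt (fun u => P j (c * Real.exp (-u)) * qe a c u)
      (P (j + 1) (c * Real.exp (-u)) * qe a c u) u := by
    intro j hj u
    have hE := hY u
    have hF := hasDerivAt_qe a hc u
    interval_cases j
    · simp only [P, one_mul]
      exact hF
    · have h1 := hE.sub_const a
      refine (h1.fun_mul hF).congr_deriv ?_
      simp only [P]; ring
    · have h1 := ((hE.sub_const a).fun_pow 2).fun_sub hE
      refine (h1.fun_mul hF).congr_deriv ?_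
      simp only [P]; ring
  refine ⟨fun j u => ((P j (c * Real.exp (-u)) * qe a c u : ℝ) : ℂ), ?_, ?_, ?_, ?_⟩
  · ext u; simp [P]
  · intro j hj u
    exact (hder j hj u).ofReal_comp
  · have hcq : Continuous (qe a c) :=
      continuous_iff_continuousAt.mpr fun u => (hasDerivAt_qe a hc u).continuousAt
    have : Continuous (fun u => P 3 (c * Real.exp (-u)) * qe a c u) := by
      simp only [P]; fun_prop
    exact Complex.continuous_ofReal.comp this
  · intro j hj u
    rw [Complex.norm_real, norm_mul, Real.norm_eq_abs, Real.norm_eq_abs]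
    have hy : 0 < c * Real.exp (-u) := by positivity
    unfold qe
    set y := c * Real.exp (-u) with hydef
    have hPb : |P j y| ≤ 5 * (1 + y) ^ 3 := by
      have hb : |y - a| ≤ 1 + y := by rw [abs_le]; constructor <;> linarith
      have hb2 : |y - a| ^ 2 ≤ (1 + y) ^ 2 := pow_le_pow_left₀ (abs_nonneg _) hb 2
      have hb3 : |y - a| ^ 3 ≤ (1 + y) ^ 3 := pow_le_pow_left₀ (abs_nonneg _) hb 3
      have hq : (1 : ℝ) ≤ (1 + y) := by linarith
      have hq2 : (1 + y) ^ 2 ≤ (1 + y) ^ 3 := pow_le_pow_right₀ hq (by norm_num)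
      have hq1 : (1 + y) ≤ (1 + y) ^ 3 := by
        calc (1 + y) = (1 + y) ^ 1 := (pow_one _).symm
          _ ≤ _ := pow_le_pow_right₀ hq (by norm_num)
      have hq0 : (1 : ℝ) ≤ (1 + y) ^ 3 := one_le_pow₀ hq
      interval_cases j
      · simp only [P]; rw [abs_one]; linarith
      · simp only [P]; linarith
      · simp only [P]
        refine (abs_sub _ _).trans ?_
        rw [abs_pow, abs_of_pos hy]; linarith
      · simp only [P]
        have h1 : |(y - a) ^ 3 - 3 * y * (y - a) + y| ≤ |y - a| ^ 3 + 3 * y * |y - a| + y := by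
          refine (abs_add_le _ _).trans ?_
          rw [abs_of_pos hy]
          gcongr
          refine (abs_sub _ _).trans ?_
          rw [abs_pow, abs_mul, abs_of_pos (by positivity : 0 < 3 * y)]
        have h2 : y * |y - a| ≤ (1 + y) ^ 2 := by nlinarith [abs_nonneg (y - a)]
        have h3 : y ≤ (1 + y) := by linarith
        have h4 : (3 * y) * |y - a| = 3 * (y * |y - a|) := by ring
        nlinarith
    have hya : y ^ a ≤ (1 + y) ^ 2 := by
      calc y ^ a ≤ (1 + y) ^ a := Real.rpow_le_rpow hy.le (by linarith) ha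
        _ ≤ (1 + y) ^ (2 : ℝ) := Real.rpow_le_rpow_of_exponent_le (by linarith) (by linarith)
        _ = _ := Real.rpow_two _
    rw [abs_mul, abs_of_nonneg (by positivity : 0 ≤ y ^ a), abs_of_pos (Real.exp_pos _)]
    have h5 := pow5_le y hy.le
    calc |P j y| * (y ^ a * Real.exp (-y))
        ≤ (5 * (1 + y) ^ 3) * ((1 + y) ^ 2 * Real.exp (-y)) := by gcongr
      _ = 5 * ((1 + y) ^ 5 / Real.exp y) := by rw [Real.exp_neg, div_eq_mul_inv]; ring
      _ ≤ 5 * 360 := by
          gcongr
          rw [div_le_iff₀ (Real.exp_pos _)]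
          exact h5
      _ = 1800 := by norm_num

/-- compactly supported smooth weights. -/
lemma LogW.of_wt {v : ℝ → ℂ} (hv : M49.Wt v) : ∃ M : ℝ, LogW (fun u => v (Real.exp u)) M := by
  obtain ⟨a, b, ha, hab, hs⟩ := hv.supp
  set g : ℝ → ℂ := fun u => v (Real.exp u) with hg
  have hgs : ContDiff ℝ ((⊤ : ℕ∞) : WithTop ℕ∞) g := hv.smooth.comp Real.contDiff_exp
  have hzero : ∀ u, u < Real.log a ∨ Real.log b < u → g u = 0 := by
    intro u hu
    apply hs
    rcases hu with hu | hu
    · left
      rwa [← Real.lt_log_iff_exp_lt ha]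
    · right
      rwa [← Real.log_lt_iff_lt_exp (ha.trans hab)]
  have hD : ∀ i u, HasDerivAt (iteratedDeriv i g) (iteratedDeriv (i + 1) g u) u := by
    intro i u
    rw [iteratedDeriv_succ]
    have : ContDiff ℝ 1 (iteratedDeriv i g) := by
      exact (contDiff_infty.mp hgs (1 + i)).iterate_deriv' 1 i |> fun h => by
        rwa [iteratedDeriv_eq_iterate]
    exact (this.differentiable (by norm_num) u).hasDerivAt
  have hDc : ∀ i, Continuous (iteratedDeriv i g) := fun i =>
    continuous_iff_continuousAt.mpr fun u => (hD i u).continuousAt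
  have hDz : ∀ i u, u < Real.log a ∨ Real.log b < u → iteratedDeriv i g u = 0 := by
    intro i u hu
    have hev : g =ᶠ[𝓝 u] fun _ => (0 : ℂ) := by
      rcases hu with h | h
      · filter_upwards [isOpen_Iio.mem_nhds h] with x hx using hzero x (Or.inl hx)
      · filter_upwards [isOpen_Ioi.mem_nhds h] with x hx using hzero x (Or.inr hx)
    rw [hev.iteratedDeriv_eq i]
    simp
  have henvc : Continuous env := by
    unfold env
    refine Continuous.div ?_ (by fun_prop) (fun u => by positivity)
    exact Continuous.rpow_const (by fun_prop) (fun u => Or.inl (by positivity))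
  have hex : ∀ i, ∃ B : ℝ, ∀ u, ‖iteratedDeriv i g u‖ ≤ B * env u := by
    intro i
    have hq : Continuous (fun u => ‖iteratedDeriv i g u‖ / env u) :=
      (hDc i).norm.div henvc (fun u => (env_pos u).ne')
    obtain ⟨B, hB⟩ := (isCompact_Icc (a := Real.log a) (b := Real.log b)).exists_bound_of_continuousOn
      hq.continuousOn
    refine ⟨max B 0, fun u => ?_⟩
    have henv := env_pos u
    by_cases hu : u ∈ Icc (Real.log a) (Real.log b)
    · have := hB u hu
      rw [Real.norm_eq_abs, abs_of_nonneg (by positivity), div_le_iff₀ henv] at this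
      exact this.trans (mul_le_mul_of_nonneg_right (le_max_left _ _) henv.le)
    · rw [hDz i u (by
        by_contra hc
        push Not at hc
        exact hu ⟨hc.1, hc.2⟩), norm_zero]
      positivity
  choose B hB using hex
  refine ⟨|B 0| + |B 1| + |B 2| + |B 3|, fun i => iteratedDeriv i g, ?_, fun j _ u => hD j u,
    hDc 3, fun j hj u => ?_⟩
  · simp
  · have henv := env_pos u
    refine (hB j u).trans (mul_le_mul_of_nonneg_right ?_ henv.le)
    have hnn := fun i => abs_nonneg (B i)
    have h0 := hnn 0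
    have h1 := hnn 1
    have h2 := hnn 2
    have h3 := hnn 3
    refine (le_abs_self _).trans ?_
    interval_cases j <;> linarith

end Crest.Agent.R012.MSgen49
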