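import Crest.Agent.R012.Model_705

/-!
# Row 12: Abel summation with the weight `t^z exp(-t/Y)`
-/

set_option autoImplicit false

noncomputable section

open MeasureTheory Set Filter Topology

namespace Crest.Agent.R012.Model705

open Crest.Agent.R012 Crest.Agent.R012.Eis Crest.Agent.R012.Mob705 Crest.Agent.R012.Abel705
open Crest.Agent.R012.Lat277 Crest.Agent.R012.Div277

/-- The integrals `∫ t^(s-1) exp(-t/Y) = Y^s Γ(s)`. -/
lemma integral_exp {s Y : ℝ} (hs : 0 < s) (hY : 0 < Y) :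
    IntegrableOn (fun t : ℝ => t ^ (s - 1) * Real.exp (-(t / Y))) (Ioi 0) ∧
    ∫ t in Ioi (0 : ℝ), t ^ (s - 1) * Real.exp (-(t / Y)) = Y ^ s * Real.Gamma s := by
  constructor
  · have h := integrableOn_rpow_mul_exp_neg_mul_rpow (p := 1) (s := s - 1) (b := 1 / Y)
      (by linarith) one_pos (by positivity)
    refine h.congr_fun (fun t _ => ?_) measurableSet_Ioi
    simp only [Real.rpow_one]
    congr 2; ring
  · have h := Real.integral_rpow_mul_exp_neg_mul_Ioi (a := s) (r := 1 / Y) hs (by positivity)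
    have e : ∀ t ∈ Ioi (0 : ℝ), t ^ (s - 1) * Real.exp (-(t / Y)) =
        t ^ (s - 1) * Real.exp (-(1 / Y * t)) := by
      intro t _; congr 2; ring
    rw [setIntegral_congr_fun measurableSet_Ioi e, h, one_div_one_div]

/-- The constant in `abel_exp`. -/
def cExp (r : ℝ) : ℝ := Real.Gamma (r + 1 / 2) + Real.Gamma (r + 3 / 2) + Real.Gamma (r + 5 / 2)

/-- Abel summation with the weight `t^z exp(-t/Y)`, `Re z > -1/2`. -/
theorem abel_exp {ι : Type*} [Countable ι] {a : ι → ℂ} {ν : ι → ℝ} {s : ℝ → Finset ι} {K : ℝ}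
    {κ : ℂ} {E : ℝ} (h : Data a ν s K) (hE : 0 ≤ E)
    (hEr : ∀ Y, 0 < Y → ‖∑ i ∈ s Y, a i - κ * Y‖ ≤ E * er Y) {z : ℂ} (hz : -(1 / 2) < z.re)
    {Y : ℝ} (hY : 0 < Y) :
    Summable (fun i => ‖a i * ((ν i : ℂ) ^ z * (Real.exp (-(ν i / Y)) : ℂ))‖) ∧
    ‖∑' i, a i * ((ν i : ℂ) ^ z * (Real.exp (-(ν i / Y)) : ℂ)) -
      κ * ((Y : ℂ) ^ (z + 1) * Complex.Gamma (z + 1))‖ ≤
      E * (cExp z.re * (1 + ‖z‖)) * (Y ^ z.re * er Y) := by
  set r := z.re with hr
  have hlY : 0 ≤ Real.log (1 + Y) := Real.log_nonneg (by linarith)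
  set f : ℝ → ℂ := fun t => (t : ℂ) ^ z * (Real.exp (-(t / Y)) : ℂ) with hf
  set f' : ℝ → ℂ := fun t => z * (t : ℂ) ^ (z - 1) * (Real.exp (-(t / Y)) : ℂ) +
    (t : ℂ) ^ z * ((Real.exp (-(t / Y)) * (-(1 / Y)) : ℝ) : ℂ) with hf'
  have hderiv : ∀ t : ℝ, 0 < t → HasDerivAt f (f' t) t := by
    intro t ht
    have h1 : HasDerivAt (fun t : ℝ => (t : ℂ) ^ z) (z * (t : ℂ) ^ (z - 1)) t := by
      have h := ((hasDerivAt_id (t : ℂ)).cpow_const (c := z) (Or.inl (by simpa using ht))).comp_ofReal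
      simpa using h
    have h2 : HasDerivAt (fun t : ℝ => Real.exp (-(t / Y))) (Real.exp (-(t / Y)) * (-(1 / Y))) t :=
      (((hasDerivAt_id t).div_const Y).neg).exp
    exact h1.mul h2.ofReal_comp
  have hcont : ∀ w : ℂ, ContinuousOn (fun t : ℝ => (t : ℂ) ^ w) (Ioi 0) := by
    intro w t ht
    have ht' : (0 : ℝ) < t := ht
    exact (Complex.continuousAt_ofReal_cpow_const t w (Or.inr ht'.ne')).continuousWithinAt
  have hcexp : Continuous (fun t : ℝ => ((Real.exp (-(t / Y)) : ℝ) : ℂ)) := by fun_prop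
  have hcexp2 : Continuous (fun t : ℝ => ((Real.exp (-(t / Y)) * (-(1 / Y)) : ℝ) : ℂ)) := by fun_prop
  have hc1 : ContinuousOn f' (Ioi 0) :=
    ((continuousOn_const.mul (hcont _)).mul hcexp.continuousOn).add
      ((hcont _).mul hcexp2.continuousOn)
  have hnorm : ∀ t : ℝ, 0 < t → ‖f' t‖ ≤
      (‖z‖ * t ^ (r - 1) + t ^ r / Y) * Real.exp (-(t / Y)) := by
    intro t ht
    simp only [hf']
    refine (norm_add_le _ _).trans (le_of_eq ?_)
    rw [norm_mul, norm_mul, norm_mul, Complex.norm_cpow_eq_rpow_re_of_pos ht,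
      Complex.norm_cpow_eq_rpow_re_of_pos ht, Complex.norm_real, Complex.norm_real, norm_mul,
      norm_neg, Real.norm_of_nonneg (Real.exp_pos _).le, Real.norm_of_nonneg (by positivity)]
    simp only [Complex.sub_re, Complex.one_re, ← hr]
    ring
  -- the majorant
  set L : ℝ := 1 + Real.log (1 + Y) with hL
  have hI1 := integral_exp (s := r + 1 / 2) (by linarith) hY
  have hI2 := integral_exp (s := r + 3 / 2) (by linarith) hY
  have hI3 := integral_exp (s := r + 5 / 2) (by linarith) hY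
  set B : ℝ → ℝ := fun t => (E * L * ‖z‖) * (t ^ (r + 1 / 2 - 1) * Real.exp (-(t / Y))) +
    (E * L * (‖z‖ + 1) / Y) * (t ^ (r + 3 / 2 - 1) * Real.exp (-(t / Y))) +
    (E * L / Y ^ 2) * (t ^ (r + 5 / 2 - 1) * Real.exp (-(t / Y))) with hB
  have hBi : IntegrableOn B (Ioi 0) :=
    ((hI1.1.const_mul _).add (hI2.1.const_mul _)).add (hI3.1.const_mul _)
  have hBv : ∫ t in Ioi (0 : ℝ), B t ≤ E * (cExp r * (1 + ‖z‖)) * (Y ^ r * er Y) := by
    have i12 : IntegrableOn (fun t : ℝ => (E * L * ‖z‖) * (t ^ (r + 1 / 2 - 1) * Real.exp (-(t / Y))) +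
      (E * L * (‖z‖ + 1) / Y) * (t ^ (r + 3 / 2 - 1) * Real.exp (-(t / Y)))) (Ioi 0) :=
      (hI1.1.const_mul _).add (hI2.1.const_mul _)
    simp only [hB]
    rw [integral_add i12 (hI3.1.const_mul _), integral_add (hI1.1.const_mul _) (hI2.1.const_mul _),
      integral_const_mul, integral_const_mul, integral_const_mul, hI1.2, hI2.2, hI3.2]
    have p1 : Y ^ (r + 3 / 2) = Y ^ (r + 1 / 2) * Y := by
      rw [← Real.rpow_add_one hY.ne']; congr 1; ring
    have p2 : Y ^ (r + 5 / 2) = Y ^ (r + 1 / 2) * Y ^ 2 := by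
      rw [← Real.rpow_natCast, ← Real.rpow_add hY]; congr 1; push_cast; ring
    have p3 : Y ^ r * er Y = Y ^ (r + 1 / 2) * L := by
      unfold er
      rw [Real.rpow_add hY, Real.sqrt_eq_rpow]; ring
    rw [p1, p2, p3]
    have g1 : 0 ≤ Real.Gamma (r + 1 / 2) := (Real.Gamma_pos_of_pos (by linarith)).le
    have g2 : 0 ≤ Real.Gamma (r + 3 / 2) := (Real.Gamma_pos_of_pos (by linarith)).le
    have g3 : 0 ≤ Real.Gamma (r + 5 / 2) := (Real.Gamma_pos_of_pos (by linarith)).le
    have e1 : E * L * ‖z‖ * (Y ^ (r + 1 / 2) * Real.Gamma (r + 1 / 2)) +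
        E * L * (‖z‖ + 1) / Y * (Y ^ (r + 1 / 2) * Y * Real.Gamma (r + 3 / 2)) +
        E * L / Y ^ 2 * (Y ^ (r + 1 / 2) * Y ^ 2 * Real.Gamma (r + 5 / 2)) =
        E * (Y ^ (r + 1 / 2) * L) * (‖z‖ * Real.Gamma (r + 1 / 2) +
          (‖z‖ + 1) * Real.Gamma (r + 3 / 2) + Real.Gamma (r + 5 / 2)) := by
      field_simp
    rw [e1]
    have e2 : ‖z‖ * Real.Gamma (r + 1 / 2) +
          (‖z‖ + 1) * Real.Gamma (r + 3 / 2) + Real.Gamma (r + 5 / 2) ≤ cExp r * (1 + ‖z‖) := by
      unfold cExp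
      have := norm_nonneg z
      nlinarith [mul_nonneg this g3]
    have e3 : 0 ≤ E * (Y ^ (r + 1 / 2) * L) := by positivity
    calc _ ≤ E * (Y ^ (r + 1 / 2) * L) * (cExp r * (1 + ‖z‖)) :=
          mul_le_mul_of_nonneg_left e2 e3
      _ = _ := by ring
  have hle : ∀ t ∈ Ioi (0 : ℝ), (E * er t) * ‖f' t‖ ≤ B t := by
    intro t ht
    have ht0 : (0 : ℝ) < t := ht
    have h1 : er t ≤ t ^ ((1 : ℝ) / 2) * (L * (1 + t / Y)) := by
      unfold er
      rw [Real.sqrt_eq_rpow]
      have h2 := log_aux (c := t / Y) (X := Y) (by positivity) hY.le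
      have h3 : t / Y * Y = t := by field_simp
      rw [h3] at h2
      have h4 := Real.log_le_sub_one_of_pos (x := 1 + t / Y) (by positivity)
      have h5 : (1 + Real.log (1 + t / Y)) * (1 + Real.log (1 + Y)) ≤ L * (1 + t / Y) := by
        rw [mul_comm]
        exact mul_le_mul_of_nonneg_left (by linarith) (by positivity)
      exact mul_le_mul_of_nonneg_left (h2.trans h5) (by positivity)
    have h6 := hnorm t ht0
    have h7 : (E * er t) * ‖f' t‖ ≤ (E * (t ^ ((1 : ℝ) / 2) * (L * (1 + t / Y)))) *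
        ((‖z‖ * t ^ (r - 1) + t ^ r / Y) * Real.exp (-(t / Y))) := by
      have := er_nonneg ht0.le
      gcongr
    refine h7.trans (le_of_eq ?_)
    simp only [hB]
    have q1 : t ^ (r + 1 / 2 - 1) = t ^ ((1 : ℝ) / 2) * t ^ (r - 1) := by
      rw [← Real.rpow_add ht0]; congr 1; ring
    have q2 : t ^ (r + 3 / 2 - 1) = t ^ ((1 : ℝ) / 2) * t ^ (r - 1) * t := by
      rw [← q1, ← Real.rpow_add_one ht0.ne']; congr 1; ring
    have q3 : t ^ (r + 5 / 2 - 1) = t ^ ((1 : ℝ) / 2) * t ^ (r - 1) * t * t := by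
      rw [← q2, ← Real.rpow_add_one ht0.ne']; congr 1; ring
    have q4 : t ^ r = t ^ (r - 1) * t := by
      rw [← Real.rpow_add_one ht0.ne']; congr 1; ring
    rw [q1, q2, q3, q4]
    field_simp
    ring
  have hercont : ContinuousOn er (Ioi 0) := by
    unfold er
    refine ContinuousOn.mul Real.continuous_sqrt.continuousOn ?_
    refine continuousOn_const.add ?_
    refine ContinuousOn.log (by fun_prop) ?_
    intro t ht
    have : (0 : ℝ) < t := ht
    positivity
  have hg2 : IntegrableOn (fun t => (E * er t) * ‖f' t‖) (Ioi 0) := by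
    refine hBi.mono' ?_ ?_
    · refine ContinuousOn.aestronglyMeasurable ?_ measurableSet_Ioi
      exact (continuousOn_const.mul hercont).mul hc1.norm
    · filter_upwards [ae_restrict_mem measurableSet_Ioi] with t ht
      have ht0 : (0 : ℝ) < t := ht
      have := er_nonneg ht0.le
      rw [Real.norm_of_nonneg (by positivity)]
      exact hle t ht
  have hg : IntegrableOn (fun t : ℝ => (t : ℂ) * f' t) (Ioi 0) := by
    have hJ1 := integral_exp (s := r + 1) (by linarith) hY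
    have hJ2 := integral_exp (s := r + 2) (by linarith) hY
    refine ((hJ1.1.const_mul ‖z‖).add (hJ2.1.const_mul (1 / Y))).mono' ?_ ?_
    · refine ContinuousOn.aestronglyMeasurable ?_ measurableSet_Ioi
      exact (Complex.continuous_ofReal.continuousOn).mul hc1
    · filter_upwards [ae_restrict_mem measurableSet_Ioi] with t ht
      have ht0 : (0 : ℝ) < t := ht
      rw [norm_mul, Complex.norm_real, Real.norm_of_nonneg ht0.le]
      have h6 := hnorm t ht0
      refine (mul_le_mul_of_nonneg_left h6 ht0.le).trans (le_of_eq ?_)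
      have q4 : t ^ (r + 1 - 1) = t ^ (r - 1) * t := by
        rw [← Real.rpow_add_one ht0.ne']; congr 1; ring
      have q5 : t ^ (r + 2 - 1) = t ^ (r - 1) * t * t := by
        rw [← Real.rpow_add_one ht0.ne', ← Real.rpow_add_one ht0.ne']; congr 1; ring
      have q6 : t ^ r = t ^ (r - 1) * t := by
        rw [← Real.rpow_add_one ht0.ne']; congr 1; ring
      simp only [Pi.add_apply]
      rw [q4, q5, q6]
      ring
  have hlim : Tendsto f atTop (𝓝 0) := by
    rw [tendsto_zero_iff_norm_tendsto_zero]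
    have h1 : Tendsto (fun t : ℝ => t ^ r * Real.exp (-(1 / Y) * t)) atTop (𝓝 0) :=
      tendsto_rpow_mul_exp_neg_mul_atTop_nhds_zero r (1 / Y) (by positivity)
    refine h1.congr' ?_
    filter_upwards [eventually_gt_atTop 0] with t ht
    simp only [hf]
    rw [norm_mul, Complex.norm_cpow_eq_rpow_re_of_pos ht, Complex.norm_real,
      Real.norm_of_nonneg (Real.exp_pos _).le]
    congr 2; ring
  obtain ⟨r1, r2, r3⟩ := abel_deriv h (Er := fun t => E * er t) hEr hderiv hlim hg hg2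
  refine ⟨r1, ?_⟩
  have hint : ∫ y in Ioi (0 : ℝ), f y = (Y : ℂ) ^ (z + 1) * Complex.Gamma (z + 1) := by
    have h1 := Complex.integral_cpow_mul_exp_neg_mul_Ioi (a := z + 1) (r := 1 / Y)
      (by simp; linarith) (by positivity)
    have e1 : ∀ t ∈ Ioi (0 : ℝ), f t =
        (t : ℂ) ^ (z + 1 - 1) * Complex.exp (-(((1 / Y : ℝ) : ℂ) * t)) := by
      intro t _
      simp only [hf, add_sub_cancel_right, Complex.ofReal_exp]
      congr 2
      push_cast
      ring
    rw [setIntegral_congr_fun measurableSet_Ioi e1, h1]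
    congr 1
    push_cast
    rw [one_div_one_div]
  rw [hint] at r3
  refine r3.trans (le_trans ?_ hBv)
  exact setIntegral_mono_on hg2 hBi measurableSet_Ioi hle

end Crest.Agent.R012.Model705
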