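import Crest.Agent.R012.Spec_T_411
import Crest.Agent.R012.MSgenE_49
import Crest.Agent.R012.ModelExp_705
import Crest.Agent.R012.ModelFin_705

/-!
# Row 12, `tif_of_typeI : M49.TypeI → T411.TIf` (helper645)

`F = G - model`.  The `G` part is `MSgen49.TypeI_gen` (helper49) with the weight
`x^(-1/6) e^(-x)`, the model part is Abel summation (`Model705.abel_exp`, helper705); the two
main terms agree.
-/

set_option autoImplicit false

noncomputable section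

open MeasureTheory Set Filter Topology Complex

namespace Crest.Agent.R012.TIf645

open Crest.Agent.R012 Crest.Agent.R012.Eis

/-- the weight `x^(-1/6) e^(-x)`. -/
def WE (x : ℝ) : ℂ := ((x ^ (-(1 : ℝ) / 6) * Real.exp (-x) : ℝ) : ℂ)

lemma WE_exp (u : ℝ) : WE (Real.exp u) = ((MSgen49.pe (1 / 6) u : ℝ) : ℂ) := by
  unfold WE MSgen49.pe
  congr 1
  rw [← Real.exp_mul, ← Real.exp_add]
  congr 1
  ring

lemma logW_WE : MSgen49.LogW (fun u => WE (Real.exp u)) 2000 := by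
  have h := MSgen49.logW_pe (a := 1 / 6) (by norm_num) (by norm_num)
  have e : (fun u => WE (Real.exp u)) = fun u => ((MSgen49.pe (1 / 6) u : ℝ) : ℂ) := by
    ext u; exact WE_exp u
  rw [e]; exact h

lemma mellin_WE : mellin WE ((5 : ℂ) / 6 + ((0 : ℝ) : ℂ) * Complex.I) = Complex.Gamma (2 / 3) := by
  rw [Complex.Gamma_eq_integral (by norm_num), Complex.GammaIntegral]
  unfold mellin WE
  refine setIntegral_congr_fun measurableSet_Ioi fun x hx => ?_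
  have hx0 : (0 : ℝ) < x := hx
  have hxc : (x : ℂ) ≠ 0 := by exact_mod_cast hx0.ne'
  simp only [smul_eq_mul]
  push_cast
  rw [Complex.ofReal_cpow hx0.le]
  have e : (x : ℂ) ^ ((5 : ℂ) / 6 + 0 * Complex.I - 1) * (x : ℂ) ^ (((-1 / 6 : ℝ)) : ℂ) =
      (x : ℂ) ^ ((2 : ℂ) / 3 - 1) := by
    rw [← Complex.cpow_add _ _ hxc]
    congr 1
    push_cast
    ring
  calc (x : ℂ) ^ ((5 : ℂ) / 6 + 0 * Complex.I - 1) *
        ((x : ℂ) ^ (((-1 / 6 : ℝ)) : ℂ) * Complex.exp (-x)) =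
        ((x : ℂ) ^ ((5 : ℂ) / 6 + 0 * Complex.I - 1) * (x : ℂ) ^ (((-1 / 6 : ℝ)) : ℂ)) *
        Complex.exp (-x) := by ring
    _ = _ := by rw [e]; ring

open Classical in
lemma summable_WE {Y : ℝ} (hY : 0 < Y) :
    Summable (fun c : Eis => if IsPrim c then ‖WE (nm c / Y)‖ else 0) := by
  obtain ⟨h, -⟩ := Model705.abel_exp (Model705.dataCop 1) (E := 61 * Mob705.sig 1)
    (by have := Mob705.sig_pos (1 : Eis); positivity)
    (fun Y hY => Model705.errCop one_ne_zero Y hY) (z := ((-(1 / 6) : ℝ) : ℂ))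
    (by rw [Complex.ofReal_re]; norm_num) hY
  refine (h.mul_left (Y ^ ((1 : ℝ) / 6))).congr fun c => ?_
  by_cases hc : IsPrim c
  · have hn : (0 : ℝ) < nm c := by exact_mod_cast nm_pos.mpr hc.ne_zero
    rw [if_pos hc]
    unfold Model705.iCop WE
    rw [if_pos ⟨hc, isCoprime_one_right⟩, one_mul, norm_mul, Complex.norm_real, Complex.norm_real,
      Real.norm_of_nonneg (Real.exp_pos _).le, Real.norm_of_nonneg (by positivity),
      Complex.norm_cpow_eq_rpow_re_of_pos hn, Complex.ofReal_re,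
      Real.div_rpow hn.le hY.le]
    have e : Y ^ ((1 : ℝ) / 6) = (Y ^ (-(1 : ℝ) / 6))⁻¹ := by
      rw [← Real.rpow_neg hY.le]; congr 1; ring
    rw [e]
    have e2 : (-(1 : ℝ) / 6) = -(1 / 6) := by ring
    rw [e2]
    field_simp
  · rw [if_neg hc]
    unfold Model705.iCop
    rw [if_neg (fun h => hc h.1)]
    simp

open Classical in
/-- the model sum with the weight `WE`. -/
def MOe (r : Eis) (Y : ℝ) : ℂ :=
  ∑' c : Eis, if IsPrim c then ((T411.mdl (r * c) : ℝ) : ℂ) * WE (nm c / Y) else 0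

open Classical in
lemma tif_split {Y : ℝ} (hY : 0 < Y) {r : Eis} (hr : IsPrim r) :
    (∑' c : Eis, if IsPrim c then
    ((((nm c : ℝ) / Y) ^ (-(1 : ℝ) / 6) * Real.exp (-(nm c : ℝ) / Y) : ℝ) : ℂ) * T411.F (r * c)
      else 0) = M49.TT 0 0 WE r Y - MOe r Y := by
  have hs := summable_WE hY
  unfold M49.TT MOe
  rw [← Summable.tsum_sub]
  · refine tsum_congr fun c => ?_
    by_cases hc : IsPrim c
    · simp only [hc, if_true]
      unfold T411.F ang WE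
      simp only [zpow_zero, Complex.ofReal_zero, zero_mul, Complex.cpow_zero, neg_div]
      ring
    · simp [hc]
  · refine Summable.of_norm_bounded hs fun c => ?_
    by_cases hc : IsPrim c
    · simp only [hc, if_true]
      unfold ang
      simp only [zpow_zero, Complex.ofReal_zero, zero_mul, Complex.cpow_zero, mul_one]
      rw [norm_mul]
      have := Gauss880.norm_G_le Gauss880.syG (hr.mul hc)
      exact mul_le_of_le_one_left (norm_nonneg _) this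
    · simp [hc]
  · refine Summable.of_norm_bounded (hs.mul_left pC) fun c => ?_
    by_cases hc : IsPrim c
    · simp only [hc, if_true]
      rw [norm_mul, Complex.norm_real]
      have h1 : ‖T411.mdl (r * c)‖ ≤ pC := by
        unfold T411.mdl
        split_ifs
        · have h2 : (1 : ℝ) ≤ nm (r * c) := Mob705.one_le_nm_of_isPrim (hr.mul hc)
          have h3 : (nm (r * c) : ℝ) ^ (-(1 / 6) : ℝ) ≤ 1 :=
            Real.rpow_le_one_of_one_le_of_nonpos h2 (by norm_num)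
          have h4 := Model705.pC_pos
          rw [Real.norm_of_nonneg (by positivity)]
          exact mul_le_of_le_one_right h4.le h3
        · simpa using Model705.pC_pos.le
      gcongr
    · simp [hc]

/-- the main term -/
def MTe (r : Eis) (Y : ℝ) : ℂ :=
  ((pC * M49.Dsf * M49.ga r * (nm r : ℝ) ^ (-(1 : ℝ) / 6) : ℝ) : ℂ) *
    Complex.Gamma (2 / 3) * (Y : ℂ) ^ ((5 : ℂ) / 6)

lemma MOe_eq {r : Eis} (hr : IsPrim r) (hrs : Squarefree r) {Y : ℝ} (hY : 0 < Y) :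
    MOe r Y = ((pC * (nm r : ℝ) ^ (-(1 : ℝ) / 6) * Y ^ ((1 : ℝ) / 6) : ℝ) : ℂ) *
      ∑' b : Eis, Model705.iSf r b * (((nm b : ℝ) : ℂ) ^ (((-(1 / 3) : ℝ)) : ℂ) *
        (Real.exp (-((nm b : ℝ) / Y)) : ℂ)) := by
  classical
  unfold MOe
  rw [← tsum_mul_left]
  refine tsum_congr fun b => ?_
  by_cases hb : IsPrim b
  · rw [if_pos hb]
    unfold Model705.iSf T411.mdl
    by_cases hs : Squarefree (r * b)
    · have h5 := squarefree_mul_iff.mp hs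
      have hbr : IsCoprime b r := h5.1.isCoprime.symm
      rw [if_pos hs, if_pos ⟨hb, hbr, h5.2.2⟩]
      have hb0 : (0 : ℝ) < nm b := by exact_mod_cast nm_pos.mpr hb.ne_zero
      rw [← Complex.ofReal_cpow hb0.le]
      unfold WE
      rw [one_mul, ← Complex.ofReal_mul, ← Complex.ofReal_mul, ← Complex.ofReal_mul]
      congr 1
      have e1 : ((nm (r * b) : ℝ)) ^ (-(1 / 6) : ℝ) =
          (nm r : ℝ) ^ (-(1 : ℝ) / 6) * (nm b : ℝ) ^ (-(1 / 6) : ℝ) := by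
        rw [nm_mul]
        push_cast
        rw [Real.mul_rpow (by positivity) (by positivity)]
        congr 2; norm_num
      have e2 : ((nm b : ℝ) / Y) ^ (-(1 : ℝ) / 6) = (nm b : ℝ) ^ (-(1 / 6) : ℝ) * Y ^ ((1 : ℝ) / 6) := by
        rw [Real.div_rpow hb0.le hY.le, div_eq_mul_inv, ← Real.rpow_neg hY.le]
        congr 2 <;> ring
      have e3 : (nm b : ℝ) ^ (-(1 / 3) : ℝ) = (nm b : ℝ) ^ (-(1 / 6) : ℝ) * (nm b : ℝ) ^ (-(1 / 6) : ℝ) := by
        rw [← Real.rpow_add hb0]; congr 1; norm_num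
      rw [e1, e2, e3]
      ring
    · rw [if_neg hs, if_neg]
      · simp
      · rintro ⟨_, h2, h3⟩
        exact hs (squarefree_mul_iff.mpr ⟨h2.symm.isRelPrime, hrs, h3⟩)
  · rw [if_neg hb]
    unfold Model705.iSf
    rw [if_neg (fun h => hb h.1)]
    simp

lemma MOe_bound : ∃ C : ℝ, 0 ≤ C ∧ ∀ (r : Eis) (Y : ℝ), IsPrim r → Squarefree r → 1 ≤ Y →
    ‖MOe r Y - MTe r Y‖ ≤ C * Mob705.sig r * (Y ^ ((1 : ℝ) / 3) * (1 + Real.log (1 + Y))) := by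
  have hpC := Model705.pC_pos
  set K : ℝ := Model705.cExp (-(1 / 3)) * (1 + 1 / 3) with hK
  have hK0 : 0 ≤ K := by
    rw [hK]
    unfold Model705.cExp
    have h1 : 0 < Real.Gamma (-(1 / 3) + 1 / 2) := Real.Gamma_pos_of_pos (by norm_num)
    have h2 : 0 < Real.Gamma (-(1 / 3) + 3 / 2) := Real.Gamma_pos_of_pos (by norm_num)
    have h3 : 0 < Real.Gamma (-(1 / 3) + 5 / 2) := Real.Gamma_pos_of_pos (by norm_num)
    positivity
  refine ⟨pC * (12800 * K), by positivity, fun r Y hr hrs hY => ?_⟩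
  have hY0 : 0 < Y := by linarith
  have hsig := Mob705.sig_pos r
  obtain ⟨-, h⟩ := Model705.abel_exp (Model705.dataSf r) (E := 12800 * Mob705.sig r)
    (by positivity) (fun Y hY => Model705.errSf hr.ne_zero Y hY) (z := ((-(1 / 3) : ℝ) : ℂ))
    (by rw [Complex.ofReal_re]; norm_num) hY0
  rw [MOe_eq hr hrs hY0]
  unfold MTe
  rw [Model705.ga_eq_LF hr hrs, ← Model705.kap_one_eq_Dsf]
  have hYc : (Y : ℂ) ≠ 0 := by exact_mod_cast hY0.ne'
  have e1 : ((-(1 / 3) : ℝ) : ℂ) + 1 = (2 : ℂ) / 3 := by push_cast; ring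
  rw [e1] at h
  have e3 : (Y : ℂ) ^ ((5 : ℂ) / 6) = ((Y ^ ((1 : ℝ) / 6) : ℝ) : ℂ) * (Y : ℂ) ^ ((2 : ℂ) / 3) := by
    rw [Complex.ofReal_cpow hY0.le, ← Complex.cpow_add _ _ hYc]
    congr 1; push_cast; ring
  have e2 : ((pC * (nm r : ℝ) ^ (-(1 : ℝ) / 6) * Y ^ ((1 : ℝ) / 6) : ℝ) : ℂ) *
      (∑' b : Eis, Model705.iSf r b * (((nm b : ℝ) : ℂ) ^ (((-(1 / 3) : ℝ)) : ℂ) *
        (Real.exp (-((nm b : ℝ) / Y)) : ℂ))) -
      ((pC * Mob705.kap 1 * Mob705.LF r * (nm r : ℝ) ^ (-(1 : ℝ) / 6) : ℝ) : ℂ) *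
        Complex.Gamma (2 / 3) * (Y : ℂ) ^ ((5 : ℂ) / 6) =
      ((pC * (nm r : ℝ) ^ (-(1 : ℝ) / 6) * Y ^ ((1 : ℝ) / 6) : ℝ) : ℂ) *
      ((∑' b : Eis, Model705.iSf r b * (((nm b : ℝ) : ℂ) ^ (((-(1 / 3) : ℝ)) : ℂ) *
        (Real.exp (-((nm b : ℝ) / Y)) : ℂ))) - ((Mob705.kap 1 * Mob705.LF r : ℝ) : ℂ) *
        ((Y : ℂ) ^ ((2 : ℂ) / 3) * Complex.Gamma (2 / 3))) := by
    rw [e3]; push_cast; ring
  rw [e2, norm_mul, Complex.norm_real, Real.norm_of_nonneg (by positivity)]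
  have hr1 : (nm r : ℝ) ^ (-(1 : ℝ) / 6) ≤ 1 := by
    have h1 : (1 : ℝ) ≤ nm r := Mob705.one_le_nm_of_isPrim hr
    exact Real.rpow_le_one_of_one_le_of_nonpos h1 (by norm_num)
  have hre : (((-(1 / 3) : ℝ) : ℂ)).re = -(1 / 3) := Complex.ofReal_re _
  have hnz : ‖(((-(1 / 3) : ℝ) : ℂ))‖ = 1 / 3 := by
    rw [Complex.norm_real]; norm_num
  rw [hre, hnz, ← hK] at h
  have hlog : 0 ≤ 1 + Real.log (1 + Y) := by
    have := Real.log_nonneg (x := 1 + Y) (by linarith)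
    linarith
  have hpow : Y ^ ((1 : ℝ) / 6) * (Y ^ (-(1 / 3) : ℝ) * Real.sqrt Y) = Y ^ ((1 : ℝ) / 3) := by
    rw [Real.sqrt_eq_rpow, ← Real.rpow_add hY0, ← Real.rpow_add hY0]; congr 1; norm_num
  calc pC * (nm r : ℝ) ^ (-(1 : ℝ) / 6) * Y ^ ((1 : ℝ) / 6) * _ ≤ pC * 1 * Y ^ ((1 : ℝ) / 6) *
        (12800 * Mob705.sig r * K * (Y ^ (-(1 / 3) : ℝ) * Model705.er Y)) := by
        gcongr
    _ = pC * (12800 * K) * Mob705.sig r *
        ((Y ^ ((1 : ℝ) / 6) * (Y ^ (-(1 / 3) : ℝ) * Real.sqrt Y)) * (1 + Real.log (1 + Y))) := by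
        unfold Model705.er; ring
    _ = _ := by rw [hpow]

/-- **TIf** -/
theorem tif_of_typeI (hT : M49.TypeI) : T411.TIf := by
  classical
  intro ε hε
  obtain ⟨C1, hC1, h1⟩ := MSgen49.TypeI_gen hT 0 hε
  obtain ⟨C2, hC2, h2⟩ := MOe_bound
  obtain ⟨Ct, hCt, ht⟩ := Div277.tau_le_rpow (ε := ε / 2) (by positivity)
  set C3 : ℝ := (1 + 2 / ε * 2 ^ (ε / 2)) ^ 2 with hC3
  refine ⟨2 * (C1 * 2000 ^ 2 * 2 ^ ε) + 200 * (C2 ^ 2 * Ct ^ 2 * C3) + 1, by positivity,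
    fun R Y hR hY => ?_⟩
  have hR0 : 0 < R := by linarith
  have hY0 : 0 < Y := by linarith
  set N : ℕ := ⌊R⌋₊ with hN
  have hN1 : 1 ≤ N := Nat.le_floor (by simpa using hR)
  have hNR : (N : ℝ) ≤ R := Nat.floor_le hR0.le
  -- G part
  have g1 : ∑ r ∈ LS2.S R, ‖M49.TT 0 0 WE r Y - MTe r Y‖ ^ 2 ≤
      C1 * 2000 ^ 2 * 2 ^ ε * (R * Y) ^ (1 + ε) := by
    have h := h1 WE 2000 logW_WE N Y 0 hN1 hY0
    have e : ∑ r ∈ LS2.S R, ‖M49.TT 0 0 WE r Y - MTe r Y‖ ^ 2 =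
        ∑ a ∈ (by classical exact (primBall N).filter (fun a => Squarefree a)),
        ‖M49.TT 0 0 WE a Y - (if (0 : ℤ) = 0 then
        ((pC * M49.Dsf * M49.ga a * (nm a : ℝ) ^ (-(1 : ℝ) / 6) : ℝ) : ℂ) *
        mellin WE ((5 : ℂ) / 6 + ((0 : ℝ) : ℂ) * Complex.I) *
          (Y : ℂ) ^ ((5 : ℂ) / 6 + ((0 : ℝ) : ℂ) * Complex.I)
        else 0)‖ ^ 2 := by
      refine Finset.sum_congr ?_ fun r _ => ?_
      · ext r; simp [LS2.S, hN]
      · rw [if_pos rfl, mellin_WE]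
        unfold MTe
        simp
    rw [e]
    refine h.trans ?_
    have k1 : (1 + |(0 : ℝ)|) * (1 + Y) * N ≤ 2 * (R * Y) := by
      rw [abs_zero, add_zero, one_mul]
      calc (1 + Y) * N ≤ (2 * Y) * R := by gcongr; linarith
        _ = _ := by ring
    have k2 : ((N : ℝ) + 0 ^ 2) * Y ≤ R * Y := by
      rw [zero_pow two_ne_zero, add_zero]; gcongr
    calc C1 * 2000 ^ 2 * ((1 + |(0 : ℝ)|) * (1 + Y) * N) ^ ε * (((N : ℝ) + 0 ^ 2) * Y) ≤
          C1 * 2000 ^ 2 * (2 * (R * Y)) ^ ε * (R * Y) := by gcongr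
      _ = C1 * 2000 ^ 2 * 2 ^ ε * ((R * Y) * (R * Y) ^ ε) := by
          rw [Real.mul_rpow (by norm_num) (by positivity)]; ring
      _ = _ := by rw [Real.rpow_add (by positivity), Real.rpow_one]
  -- the model part
  have hcard : ((LS2.S R).card : ℝ) ≤ 100 * R := by
    have h := Mob705.card_pb_le R hR0.le
    refine le_trans ?_ h
    exact_mod_cast Finset.card_le_card (Finset.filter_subset _ _)
  have hlog : 1 + Real.log (1 + Y) ≤ (1 + 2 / ε * 2 ^ (ε / 2)) * Y ^ (ε / 2) := by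
    have a1 : Real.log (1 + Y) ≤ (1 + Y) ^ (ε / 2) / (ε / 2) :=
      Real.log_le_rpow_div (by linarith) (by positivity)
    have a2 : (1 + Y) ^ (ε / 2) ≤ 2 ^ (ε / 2) * Y ^ (ε / 2) := by
      rw [← Real.mul_rpow (by norm_num) hY0.le]
      exact Real.rpow_le_rpow (by linarith) (by linarith) (by positivity)
    have a3 : 1 ≤ Y ^ (ε / 2) := Real.one_le_rpow hY (by positivity)
    have a4 : (1 + Y) ^ (ε / 2) / (ε / 2) = (2 / ε) * (1 + Y) ^ (ε / 2) := by field_simp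
    rw [a4] at a1
    have a5 : (2 / ε) * (1 + Y) ^ (ε / 2) ≤ (2 / ε) * (2 ^ (ε / 2) * Y ^ (ε / 2)) := by gcongr
    linarith
  have hlog0 : 0 ≤ 1 + Real.log (1 + Y) := by
    have := Real.log_nonneg (x := 1 + Y) (by linarith)
    linarith
  have g2 : ∑ r ∈ LS2.S R, ‖MOe r Y - MTe r Y‖ ^ 2 ≤
      100 * (C2 ^ 2 * Ct ^ 2 * C3) * (R * Y) ^ (1 + ε) := by
    have k1 : ∀ r ∈ LS2.S R, ‖MOe r Y - MTe r Y‖ ^ 2 ≤
        (C2 ^ 2 * Ct ^ 2 * C3) * (R ^ ε * (Y * Y ^ ε)) := by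
      intro r hr
      rw [LS2.mem_S hR0.le] at hr
      obtain ⟨hrR, hrp, hrs⟩ := hr
      have h4 := h2 r Y hrp hrs hY
      have h5 := Mob705.sig_le_tau hrp.ne_zero
      have h6 := ht r hrp.ne_zero
      have hsq : ∀ Z : ℝ, 0 ≤ Z → (Z ^ (ε / 2)) ^ 2 = Z ^ ε := by
        intro Z hZ
        rw [← Real.rpow_natCast, ← Real.rpow_mul hZ]; congr 1; push_cast; ring
      have h8 : Mob705.sig r ≤ Ct * R ^ (ε / 2) := by
        refine (h5.trans h6).trans ?_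
        gcongr
      have hsig := Mob705.sig_pos r
      have h10 : Y ^ ((1 : ℝ) / 3) * (1 + Real.log (1 + Y)) ≤
          Y ^ ((1 : ℝ) / 3) * ((1 + 2 / ε * 2 ^ (ε / 2)) * Y ^ (ε / 2)) := by gcongr
      have h11 : (Y ^ ((1 : ℝ) / 3)) ^ 2 ≤ Y := by
        rw [← Real.rpow_natCast, ← Real.rpow_mul hY0.le]
        calc Y ^ (1 / 3 * ((2 : ℕ) : ℝ)) ≤ Y ^ (1 : ℝ) :=
              Real.rpow_le_rpow_of_exponent_le hY (by norm_num)
          _ = Y := Real.rpow_one _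
      calc ‖MOe r Y - MTe r Y‖ ^ 2 ≤
            (C2 * Mob705.sig r * (Y ^ ((1 : ℝ) / 3) * (1 + Real.log (1 + Y)))) ^ 2 := by
            gcongr
        _ ≤ (C2 * (Ct * R ^ (ε / 2)) *
              (Y ^ ((1 : ℝ) / 3) * ((1 + 2 / ε * 2 ^ (ε / 2)) * Y ^ (ε / 2)))) ^ 2 := by
            gcongr
        _ = C2 ^ 2 * Ct ^ 2 * (1 + 2 / ε * 2 ^ (ε / 2)) ^ 2 *
              ((R ^ (ε / 2)) ^ 2 * ((Y ^ ((1 : ℝ) / 3)) ^ 2 * (Y ^ (ε / 2)) ^ 2)) := by ring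
        _ = C2 ^ 2 * Ct ^ 2 * C3 * (R ^ ε * ((Y ^ ((1 : ℝ) / 3)) ^ 2 * Y ^ ε)) := by
            rw [hsq R hR0.le, hsq Y hY0.le]
        _ ≤ _ := by gcongr
    calc ∑ r ∈ LS2.S R, ‖MOe r Y - MTe r Y‖ ^ 2 ≤
          ∑ r ∈ LS2.S R, (C2 ^ 2 * Ct ^ 2 * C3) * (R ^ ε * (Y * Y ^ ε)) :=
          Finset.sum_le_sum k1
      _ = (LS2.S R).card * ((C2 ^ 2 * Ct ^ 2 * C3) * (R ^ ε * (Y * Y ^ ε))) := by
          rw [Finset.sum_const, nsmul_eq_mul]
      _ ≤ (100 * R) * ((C2 ^ 2 * Ct ^ 2 * C3) * (R ^ ε * (Y * Y ^ ε))) := by gcongr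
      _ = 100 * (C2 ^ 2 * Ct ^ 2 * C3) * ((R * Y) * (R ^ ε * Y ^ ε)) := by ring
      _ = _ := by
          rw [← Real.mul_rpow hR0.le hY0.le, Real.rpow_add (by positivity), Real.rpow_one]
  -- combine
  have g3 : ∀ r ∈ LS2.S R, ‖∑' c : Eis, if IsPrim c then
      ((((nm c : ℝ) / Y) ^ (-(1 : ℝ) / 6) * Real.exp (-(nm c : ℝ) / Y) : ℝ) : ℂ) * T411.F (r * c)
      else 0‖ ^ 2 ≤
      2 * ‖M49.TT 0 0 WE r Y - MTe r Y‖ ^ 2 + 2 * ‖MOe r Y - MTe r Y‖ ^ 2 := by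
    intro r hr
    rw [LS2.mem_S hR0.le] at hr
    rw [tif_split hY0 hr.2.1]
    have e : M49.TT 0 0 WE r Y - MOe r Y =
        (M49.TT 0 0 WE r Y - MTe r Y) - (MOe r Y - MTe r Y) := by ring
    rw [e]
    have h1 := norm_sub_le (M49.TT 0 0 WE r Y - MTe r Y) (MOe r Y - MTe r Y)
    have h0 := norm_nonneg ((M49.TT 0 0 WE r Y - MTe r Y) - (MOe r Y - MTe r Y))
    nlinarith [sq_nonneg (‖M49.TT 0 0 WE r Y - MTe r Y‖ - ‖MOe r Y - MTe r Y‖),
      mul_self_le_mul_self h0 h1]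
  calc _ ≤ ∑ r ∈ LS2.S R,
        (2 * ‖M49.TT 0 0 WE r Y - MTe r Y‖ ^ 2 + 2 * ‖MOe r Y - MTe r Y‖ ^ 2) :=
        Finset.sum_le_sum g3
    _ = 2 * ∑ r ∈ LS2.S R, ‖M49.TT 0 0 WE r Y - MTe r Y‖ ^ 2 +
        2 * ∑ r ∈ LS2.S R, ‖MOe r Y - MTe r Y‖ ^ 2 := by
        rw [Finset.sum_add_distrib, Finset.mul_sum, Finset.mul_sum]
    _ ≤ 2 * (C1 * 2000 ^ 2 * 2 ^ ε * (R * Y) ^ (1 + ε)) +
        2 * (100 * (C2 ^ 2 * Ct ^ 2 * C3) * (R * Y) ^ (1 + ε)) := by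
        gcongr
    _ ≤ _ := by
        have : 0 ≤ (R * Y) ^ (1 + ε) := by positivity
        nlinarith

end Crest.Agent.R012.TIf645
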