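import Crest.Agent.R012.TypeI6_941

/-!
# Row 12, item TI (part 7): `M49.TypeI`

* `typeI_of_MS : MS ρ → RhoRel ρ → RhoOne ρ → M49.TypeI`
-/

set_option autoImplicit false

noncomputable section

open Complex
open scoped ENNReal

namespace Crest.Agent.R012.TypeI941

open Crest.Agent.R012 Eis LS2 Mob705 GaussLoc283

variable {ρ : Eis → ℂ}

lemma G_eq_gt (c : Eis) : G c = gt 1 c := rfl

lemma norm_gt_one {a : Eis} (ha : IsPrim a) (hs : Squarefree a) : ‖gt 1 a‖ = 1 :=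
  Gauss880.norm_G Gauss880.syG ha hs

lemma map_eq_of_rel {β : Type*} {f : Eis → β} (hf : ∀ a b, Associated a b → f a = f b)
    {s t : Multiset Eis} (h : Multiset.Rel Associated s t) : s.map f = t.map f := by
  induction h with
  | zero => rfl
  | cons hab _ ih => rw [Multiset.map_cons, Multiset.map_cons, ih, hf _ _ hab]

lemma nm_eq_of_associated {a b : Eis} (h : Associated a b) : nm a = nm b := by
  obtain ⟨u, rfl⟩ := h
  rw [nm_mul]
  have h1 : nm (u : Eis) * nm ((u⁻¹ : Eisˣ) : Eis) = 1 := by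
    rw [← nm_mul, Units.mul_inv, nm_one]
  have h2 : nm (u : Eis) = 1 := Nat.eq_one_of_mul_eq_one_right h1
  rw [h2, mul_one]

lemma dens_pp_eq_ga {a : Eis} (ha : IsPrim a) (hs : Squarefree a) :
    dens (pp a) = ((M49.ga a : ℝ) : ℂ) := by
  have h1 : Multiset.Rel Associated (UniqueFactorizationMonoid.factors a) (pp a).val := by
    refine UniqueFactorizationMonoid.factors_unique
      (fun x hx => UniqueFactorizationMonoid.irreducible_of_factor x hx)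
      (fun x hx => (isPP_of_mem_pp (Finset.mem_def.mpr hx)).prime.irreducible) ?_
    have h2 : (pp a).val.prod = a := by
      have := prod_pp ha hs
      rwa [Finset.prod_eq_multiset_prod, Multiset.map_id'] at this
    rw [h2]
    exact UniqueFactorizationMonoid.factors_prod ha.ne_zero
  unfold M49.ga
  rw [map_eq_of_rel (f := fun p => (1 + 1 / (nm p : ℝ))⁻¹)
    (fun a b hab => by simp only [nm_eq_of_associated hab]) h1]
  have h3 : (Multiset.map (fun p => (1 + 1 / (nm p : ℝ))⁻¹) (pp a).val).prod =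
      ∏ p ∈ pp a, (1 + 1 / (nm p : ℝ))⁻¹ := rfl
  rw [h3]
  unfold dens
  push_cast
  rfl

lemma cop_pp_iff {a b : Eis} (ha : IsPrim a) : cop (pp a) b ↔ IsCoprime a b := by
  rw [isCoprime_iff_pp ha]
  unfold cop
  constructor
  · intro h p hp hpa
    exact h p ((mem_pp ha.ne_zero).mpr ⟨hp, hpa⟩)
  · intro h p hp
    exact h p (isPP_of_mem_pp hp) (dvd_of_mem_pp hp)

lemma G_mul_zero {a b : Eis} (ha : IsPrim a) (hb : IsPrim b) (h : ¬ cop (pp a) b) :
    G (a * b) = 0 := by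
  unfold cop at h
  push Not at h
  obtain ⟨p, hp, hpb⟩ := h
  have hpp := isPP_of_mem_pp hp
  rw [G_eq_gt]
  refine localGauss.vanish0 hpp ?_ (ha.mul hb) ?_
  · intro h1
    exact hpp.prime.not_isUnit (isUnit_of_dvd_one h1)
  · rw [pow_two]
    exact mul_dvd_mul (dvd_of_mem_pp hp) hpb

lemma TT_eq (l : ℤ) (τ : ℝ) (v : ℝ → ℂ) {a : Eis} (ha : IsPrim a) (X : ℝ) :
    M49.TT l τ v a X = gt 1 a * U gt (ch l τ) v a (pp a) X := by
  unfold M49.TT U
  rw [← tsum_mul_left]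
  refine tsum_congr fun b => ?_
  by_cases hb : IsPrim b
  swap
  · simp [hb]
  by_cases hc : cop (pp a) b
  · simp only [hb, hc, and_self, if_true]
    rw [G_eq_gt, gt_mul ha hb ((cop_pp_iff ha).mp hc), one_mul]
    unfold ch; ring
  · simp [hb, hc, G_mul_zero ha hb hc]

lemma main_eq (hR : M49.RhoRel ρ) (h1 : M49.RhoOne ρ) (l : ℤ) (τ : ℝ) (v : ℝ → ℂ) {a : Eis}
    (ha : IsPrim a) (hs : Squarefree a) (X : ℝ) :
    (if l = 0 then
        ((pC * M49.Dsf * M49.ga a * (nm a : ℝ) ^ (-(1 : ℝ) / 6) : ℝ) : ℂ) *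
        mellin v ((5 : ℂ) / 6 + τ * Complex.I) * (X : ℂ) ^ ((5 : ℂ) / 6 + τ * Complex.I)
        else 0) = gt 1 a * Mt l τ v ρ a (pp a) X := by
  unfold Mt
  by_cases hl : l = 0
  swap
  · simp [hl]
  simp only [hl, if_true]
  have h2 := hR.sqfree (h := 1) ha hs isCoprime_one_left
  rw [one_mul] at h2
  have h3 : gt 1 a * (starRingEnd ℂ) (gt 1 a) = 1 := by
    rw [Complex.mul_conj, Complex.normSq_eq_norm_sq, norm_gt_one ha hs]; simp
  have h4 : (starRingEnd ℂ) (gs 1 a / ((Real.sqrt (nm a) : ℝ) : ℂ)) = (starRingEnd ℂ) (gt 1 a) := rfl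
  rw [h2, h4, dens_pp_eq_ga ha hs, h1]
  have h5 : gt 1 a * ((starRingEnd ℂ) (gt 1 a) * (((nm a : ℝ) ^ (-(1 : ℝ) / 6) : ℝ) : ℂ) *
      ((pC * M49.Dsf : ℝ) : ℂ) * ((M49.ga a : ℝ) : ℂ) * mellin v (se τ) * (X : ℂ) ^ se τ) =
      (gt 1 a * (starRingEnd ℂ) (gt 1 a)) * ((((nm a : ℝ) ^ (-(1 : ℝ) / 6) : ℝ) : ℂ) *
      ((pC * M49.Dsf : ℝ) : ℂ) * ((M49.ga a : ℝ) : ℂ) * mellin v (se τ) * (X : ℂ) ^ se τ) := by ring
  rw [h5, h3, one_mul]
  unfold se
  push_cast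
  ring

/-- **Type I in mean square.** -/
theorem typeI_of_MS (hMS : M49.MS ρ) (hR : M49.RhoRel ρ) (h1 : M49.RhoOne ρ) : M49.TypeI := by
  classical
  intro l v hv δ hδ
  set δ0 : ℝ := min (δ / 2) (2 / 3) with hδ0
  have hδ0p : 0 < δ0 := lt_min (by positivity) (by norm_num)
  have hδ0a : δ0 ≤ δ / 2 := min_le_left _ _
  have hδ0b : δ0 ≤ 2 / 3 := min_le_right _ _
  obtain ⟨C0, hC0, hB⟩ := base_meanSq hMS l hv hδ0p hδ0b
  obtain ⟨Ct, hCt, hT⟩ := Div277.tau_le_rpow (ε := δ / 2) (by positivity)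
  refine ⟨(Z δ0 ^ 7).toReal * (Ct * C0), fun N X τ hN hX => ?_⟩
  have hN' : (1 : ℝ) ≤ N := by exact_mod_cast hN
  have hNp : (0 : ℝ) < N := by linarith
  have hZ : Z δ0 ^ 7 ≠ ⊤ := ENNReal.pow_ne_top (Z_lt_top hδ0p).ne
  have hT1 : 1 ≤ 1 + |τ| := by linarith [abs_nonneg τ]
  have key := Rec.meanSq (rec_Ef hR hv l τ) (P1 := ∅) (P2 := ∅) (P3 := ∅)
    (fun p hp => absurd hp (Finset.notMem_empty p)) (fun p hp => absurd hp (Finset.notMem_empty p))
    (fun p hp => absurd hp (Finset.notMem_empty p)) (Finset.disjoint_empty_left _)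
    (Finset.disjoint_empty_left _) (Finset.disjoint_empty_left _) (r0 := 1)
    (fun p hp h => hp.prime.not_isUnit (isUnit_of_dvd_one h)) (ε := δ0)
    (K := C0 * (1 + |τ|) ^ δ0) (τ := τ ^ 2) (Λ := Ct * (N : ℝ) ^ (δ / 2)) (D := (N : ℝ)) hδ0p
    (by positivity) (sq_nonneg τ) hN' ?_ ?_ hX
  · simp only [Finset.union_empty, Finset.prod_empty, one_pow, mul_one,
      one_mul, Finset.card_empty, pow_zero, nm_one, Nat.cast_one] at key
    have hS : (S (N : ℝ)) = (primBall N).filter Squarefree := by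
      unfold S
      rw [Nat.floor_natCast]
    have h2 : ∑ a ∈ (primBall N).filter (fun a => Squarefree a),
        ‖M49.TT l τ v a X - (if l = 0 then
          ((pC * M49.Dsf * M49.ga a * (nm a : ℝ) ^ (-(1 : ℝ) / 6) : ℝ) : ℂ) *
          mellin v ((5 : ℂ) / 6 + τ * Complex.I) * (X : ℂ) ^ ((5 : ℂ) / 6 + τ * Complex.I)
          else 0)‖ ^ 2 = ∑ a ∈ S (N : ℝ), ‖Ef l τ v ρ a (pp a) X‖ ^ 2 := by
      have h3 : ∀ a ∈ S (N : ℝ), ‖M49.TT l τ v a X - (if l = 0 then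
          ((pC * M49.Dsf * M49.ga a * (nm a : ℝ) ^ (-(1 : ℝ) / 6) : ℝ) : ℂ) *
          mellin v ((5 : ℂ) / 6 + τ * Complex.I) * (X : ℂ) ^ ((5 : ℂ) / 6 + τ * Complex.I)
          else 0)‖ ^ 2 = ‖Ef l τ v ρ a (pp a) X‖ ^ 2 := by
        intro a ha
        rw [mem_S hNp.le] at ha
        rw [TT_eq l τ v ha.2.1, main_eq hR h1 l τ v ha.2.1 ha.2.2, ← mul_sub, norm_mul,
          norm_gt_one ha.2.1 ha.2.2, one_mul]
        rfl
      rw [← Finset.sum_congr rfl h3, hS]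
    rw [h2]
    have h4 : ENNReal.ofReal (∑ a ∈ S (N : ℝ), ‖Ef l τ v ρ a (pp a) X‖ ^ 2) =
        ∑ a ∈ S (N : ℝ), ‖Ef l τ v ρ a (pp a) X‖ₑ ^ 2 := by
      rw [ENNReal.ofReal_sum_of_nonneg (fun _ _ => by positivity)]
      refine Finset.sum_congr rfl fun h _ => ?_
      rw [ENNReal.ofReal_pow (norm_nonneg _), ofReal_norm]
    have h5 : ∑ a ∈ S (N : ℝ), ‖Ef l τ v ρ a (pp a) X‖ₑ ^ 2 ≤ Z δ0 ^ 7 * ENNReal.ofReal
        (Ct * (N : ℝ) ^ (δ / 2) * (C0 * (1 + |τ|) ^ δ0 * (N : ℝ) ^ δ0 * (N + τ ^ 2) *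
          X ^ (1 + δ0))) := by
      refine le_trans (le_of_eq ?_) key
      have hf : (S (N : ℝ)).filter (fun d => ∀ p ∈ (∅ : Finset Eis), ¬ p ∣ d) = S (N : ℝ) := by
        apply Finset.filter_true_of_mem
        intro d _ p hp
        exact absurd hp (Finset.notMem_empty p)
      refine (Finset.sum_congr (by convert hf) fun d hd => ?_).symm
      rw [mem_S hNp.le] at hd
      rw [prod_pp hd.2.1 hd.2.2]
    rw [← ENNReal.ofReal_toReal hZ, ← ENNReal.ofReal_mul ENNReal.toReal_nonneg, ← h4] at h5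
    have h6 := (ENNReal.ofReal_le_ofReal_iff (by positivity)).mp h5
    refine h6.trans ?_
    have e1 : (N : ℝ) ^ (δ / 2) * (N : ℝ) ^ δ0 ≤ (N : ℝ) ^ δ := by
      rw [← Real.rpow_add hNp]
      apply Real.rpow_le_rpow_of_exponent_le hN'
      linarith
    have e2 : (1 + |τ|) ^ δ0 ≤ (1 + |τ|) ^ δ :=
      Real.rpow_le_rpow_of_exponent_le hT1 (by linarith)
    have e3 : X ^ (1 + δ0) ≤ X * (1 + X) ^ δ := by
      rw [Real.rpow_add hX, Real.rpow_one]
      gcongr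
      calc X ^ δ0 ≤ (1 + X) ^ δ0 := by gcongr; linarith
        _ ≤ (1 + X) ^ δ := Real.rpow_le_rpow_of_exponent_le (by linarith) (by linarith)
    have e4 : ((1 + |τ|) * (1 + X) * N) ^ δ = (1 + |τ|) ^ δ * (1 + X) ^ δ * (N : ℝ) ^ δ := by
      rw [Real.mul_rpow (by positivity) (by positivity), Real.mul_rpow (by positivity)
        (by positivity)]
    rw [e4]
    calc (Z δ0 ^ 7).toReal * (Ct * (N : ℝ) ^ (δ / 2) * (C0 * (1 + |τ|) ^ δ0 * (N : ℝ) ^ δ0 *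
          (N + τ ^ 2) * X ^ (1 + δ0)))
        = (Z δ0 ^ 7).toReal * (Ct * C0) * (((N : ℝ) ^ (δ / 2) * (N : ℝ) ^ δ0) * (1 + |τ|) ^ δ0 *
          (N + τ ^ 2) * X ^ (1 + δ0)) := by ring
      _ ≤ (Z δ0 ^ 7).toReal * (Ct * C0) * ((N : ℝ) ^ δ * (1 + |τ|) ^ δ *
          (N + τ ^ 2) * (X * (1 + X) ^ δ)) := by
          gcongr
      _ = _ := by ring
  · intro d hd
    rw [mem_S hNp.le] at hd
    refine (two_pow_card_pp_le hd.2.1.ne_zero).trans ((hT d hd.2.1.ne_zero).trans ?_)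
    gcongr
    exact_mod_cast hd.1
  · intro H hH Y hY
    have hf : (S H).filter (fun h => ∀ p ∈ (∅ : Finset Eis), ¬ p ∣ h) ⊆ S H :=
      Finset.filter_subset _ _
    refine (Finset.sum_le_sum_of_subset (by convert hf)).trans ?_
    have := hB 1 τ one_ne_zero H hH Y hY
    simp only [Finset.prod_empty, one_pow, mul_one]
    simpa using this

end Crest.Agent.R012.TypeI941
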