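import Crest.Agent.R012.MFinal_49
import Crest.Agent.R012.TypeI8_941
import Crest.Agent.R012.TIf_645
import Crest.Agent.R012.CrossD_869

/-!
# Row 12, part (M): the outputs `M49.TypeI`, `T411.TIf`, `T411.T6`, unconditionally
-/

set_option autoImplicit false

noncomputable section

namespace Crest.Agent.R012.MFinal777

/-- **Type I in mean square**, unconditional. -/
theorem typeI : M49.TypeI := by
  obtain ⟨ρ, h1, h2, h3⟩ := MFinal49.m_final
  exact TypeI941.typeI_of_MS h1 h2 h3

/-- the type I input of (T6), unconditional. -/
theorem tif : T411.TIf := TIf645.tif_of_typeI typeI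

/-- **(T6)**, unconditional. -/
theorem t6 : T411.T6 := Cross869.t6_of_tif tif

end Crest.Agent.R012.MFinal777
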