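import Crest.Agent.R012.TNXC_411
import Crest.Agent.R012.Glue1_372
import Crest.Agent.R012.LS2Main_448
import Crest.Agent.R012.MFinal_777
import Crest.Agent.R012.T13Fin_541

/-!
# Row 12: (T-MAIN), critical range, unconditional (helper411)
-/

set_option autoImplicit false

namespace Crest.Agent.R012.TNX411

/-- (TNX), critical range, unconditional -/
theorem tnxC : T411.TNXC :=
  tnxC_of Sym645.syFacts NonCube52.L1Prop_holds (Glue372.HBProp_of_final LS448.hb_final)

/-- **(T-MAIN)**, critical range, unconditional -/
theorem tmainC : T411.TMainC := T411.tmainC_of T13x541.t13 tnxC MFinal777.t6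

end Crest.Agent.R012.TNX411
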