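import Crest.Agent.R012.TDec_411

/-!
# Row 12, part (T): assembly of the dispersion bound
`T13 → TNXN → T6 → TMainN`, `T13 → TNXC → T6 → TMainC`.
-/

set_option autoImplicit false

noncomputable section

namespace Crest.Agent.R012.T411

open Eis Mob705 Div277 Gauss880

local notation "cj" => starRingEnd ℂ

lemma Cls.mono {w w' B : ℝ} {𝓑 : Finset Eis} {β : Eis → ℂ} (h : Cls w B 𝓑 β) (hw : w' ≤ w) :
    Cls w' B 𝓑 β :=
  ⟨h.sq, h.lo, h.hi, fun b hb p hp hd => hw.trans (h.rough b hb p hp hd), h.le⟩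

/-- basic inequality from (T0) -/
lemma SS_le {A B : ℝ} {𝓑 : Finset Eis} {β : Eis → ℂ} (hA : 1 ≤ A) (hB : 1 ≤ B)
    (h : Cls 1 B 𝓑 β) : SS A 𝓑 β ≤
      ‖∑ b₁ ∈ 𝓑, ∑ b₂ ∈ 𝓑, β b₁ * cj (β b₂) * (P1 A b₁ b₂ -
      ((pC ^ 2 * ((nm b₁ : ℝ) * nm b₂) ^ (-(1 : ℝ) / 6) * P3 A (b₁ * b₂) : ℝ) : ℂ))‖ +
    2 * |pC| * ‖∑ b₁ ∈ 𝓑, ∑ b₂ ∈ 𝓑, β b₁ * cj (β b₂) *
      ((nm b₂ : ℝ) ^ (-(1 : ℝ) / 6) : ℝ) * P23 A b₁ b₂‖ := by
  refine (t0 A B 𝓑 β hA hB h).trans ?_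
  have h1 := Complex.re_le_norm (∑ b₁ ∈ 𝓑, ∑ b₂ ∈ 𝓑, β b₁ * cj (β b₂) * (P1 A b₁ b₂ -
      ((pC ^ 2 * ((nm b₁ : ℝ) * nm b₂) ^ (-(1 : ℝ) / 6) * P3 A (b₁ * b₂) : ℝ) : ℂ)))
  have h2 := Complex.abs_re_le_norm ((pC : ℂ) * ∑ b₁ ∈ 𝓑, ∑ b₂ ∈ 𝓑, β b₁ * cj (β b₂) *
      ((nm b₂ : ℝ) ^ (-(1 : ℝ) / 6) : ℝ) * P23 A b₁ b₂)
  rw [norm_mul, Complex.norm_real, Real.norm_eq_abs] at h2
  have h3 := neg_abs_le ((pC : ℂ) * ∑ b₁ ∈ 𝓑, ∑ b₂ ∈ 𝓑, β b₁ * cj (β b₂) *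
      ((nm b₂ : ℝ) ^ (-(1 : ℝ) / 6) : ℝ) * P23 A b₁ b₂).re
  linarith

/-- trivial bound for bounded parameters -/
lemma SS_small : ∃ C0 : ℝ, 0 ≤ C0 ∧ ∀ (A B : ℝ) (𝓑 : Finset Eis) (β : Eis → ℂ), 0 < A → A ≤ 3 →
    B ≤ 4 → Cls 1 B 𝓑 β → SS A 𝓑 β ≤ C0 := by
  classical
  refine ⟨(∑' a : Eis, Real.exp (-(nm a : ℝ) / 3)) * (((ball 8).card : ℝ) * (1 + |pC|)) ^ 2, ?_, ?_⟩
  · exact mul_nonneg (tsum_nonneg fun a => (Real.exp_pos _).le) (sq_nonneg _)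
  intro A B 𝓑 β hA hA3 hB h
  have h3 := summable_exp (show (0 : ℝ) < 3 by norm_num)
  unfold SS
  rw [← tsum_mul_right]
  have hcard : (𝓑.card : ℝ) ≤ (ball 8).card := by
    have : 𝓑 ⊆ ball 8 := by
      intro b hb
      rw [mem_ball]
      have := h.hi b hb
      have h8 : (nm b : ℝ) ≤ 8 := by linarith
      exact_mod_cast h8
    exact_mod_cast Finset.card_le_card this
  have hterm : ∀ a : Eis, (if SqP a then Real.exp (-(nm a : ℝ) / A) *
      ‖∑ b ∈ 𝓑, β b * F (a * b)‖ ^ 2 else 0) ≤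
      Real.exp (-(nm a : ℝ) / 3) * (((ball 8).card : ℝ) * (1 + |pC|)) ^ 2 := by
    intro a
    split_ifs with ha
    · have h1 : Real.exp (-(nm a : ℝ) / A) ≤ Real.exp (-(nm a : ℝ) / 3) := by
        apply Real.exp_le_exp.mpr
        rw [neg_div, neg_div, neg_le_neg_iff]
        exact div_le_div_of_nonneg_left (Nat.cast_nonneg _) hA hA3
      have h2 : ‖∑ b ∈ 𝓑, β b * F (a * b)‖ ≤ ((ball 8).card : ℝ) * (1 + |pC|) := by
        refine (norm_sum_le _ _).trans ?_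
        have : ∀ b ∈ 𝓑, ‖β b * F (a * b)‖ ≤ 1 + |pC| := by
          intro b hb
          rw [norm_mul]
          refine (mul_le_of_le_one_left (norm_nonneg _) (h.le b)).trans ?_
          exact norm_F_le (ha.1.mul (h.sq b hb).1)
        refine (Finset.sum_le_card_nsmul _ _ _ this).trans ?_
        rw [nsmul_eq_mul]
        exact mul_le_mul_of_nonneg_right hcard (by positivity)
      exact mul_le_mul h1 (pow_le_pow_left₀ (norm_nonneg _) h2 2) (by positivity)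
        (Real.exp_pos _).le
    · exact mul_nonneg (Real.exp_pos _).le (sq_nonneg _)
  refine Summable.tsum_le_tsum hterm ?_ (h3.mul_right _)
  refine Summable.of_nonneg_of_le (fun a => ?_) hterm (h3.mul_right _)
  split_ifs
  · positivity
  · exact le_rfl

/-- `(log X)^K ≤ C X^s` -/
lemma log_pow_le (K s : ℝ) (hs : 0 < s) : ∃ C : ℝ, 0 < C ∧ ∀ X : ℝ, 1 ≤ X →
    1 ≤ Real.log X → Real.log X ^ K ≤ C * X ^ s := by
  refine ⟨((max K 1) / s) ^ (max K 1), by positivity, fun X hX hL => ?_⟩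
  have hm : 0 < max K 1 := lt_max_of_lt_right one_pos
  have h1 : Real.log X ≤ X ^ (s / max K 1) / (s / max K 1) :=
    Real.log_le_rpow_div (by linarith) (by positivity)
  have h2 : Real.log X ^ K ≤ Real.log X ^ (max K 1) :=
    Real.rpow_le_rpow_of_exponent_le hL (le_max_left _ _)
  refine h2.trans ?_
  refine (Real.rpow_le_rpow (by linarith) h1 hm.le).trans ?_
  rw [div_eq_mul_inv, Real.mul_rpow (by positivity) (by positivity), ← Real.rpow_mul (by linarith),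
    div_mul_cancel₀ _ hm.ne', inv_div, mul_comm]


/-- range of parameters common to the two cases -/
structure Rg (X A B : ℝ) : Prop where
  X1 : 1 ≤ X
  L1 : 1 ≤ Real.log X
  A0 : X ^ ((1 : ℝ) / 5) ≤ A
  A1 : A ≤ X
  B0 : 1 ≤ B
  B1 : B ≤ A ^ ((53 : ℝ) / 50)

/-- numerical bounds of the error terms -/
lemma err_bounds (k K : ℝ) (hk : 0 ≤ k) : ∃ C : ℝ, 0 < C ∧ ∀ X A B : ℝ, Rg X A B →
    (1 + Real.log (A * B)) ^ k *
      (A * B + A ^ ((2 : ℝ) / 3) * B ^ ((2 : ℝ) / 3) + A ^ ((1 : ℝ) / 3) * B ^ ((5 : ℝ) / 3)) ≤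
      C * (A * B * Real.log X ^ C + A ^ ((2 : ℝ) / 3) * B ^ ((5 : ℝ) / 3) * Real.log X ^ (-K)) ∧
    (A * B) ^ ((1 : ℝ) / 200) * A ^ ((1 : ℝ) / 3) * B ^ ((11 : ℝ) / 6) ≤
      C * (A ^ ((2 : ℝ) / 3) * B ^ ((5 : ℝ) / 3) * Real.log X ^ (-K)) := by
  obtain ⟨C1, hC1, h1⟩ := log_pow_le (k + K) (1 / 15) (by norm_num)
  obtain ⟨C2, hC2, h2⟩ := log_pow_le K (1 / 100) (by norm_num)
  set c := (4 : ℝ) ^ k with hc
  have hcpos : 0 < c := by positivity
  refine ⟨2 * c + c * C1 + C2 + k, by positivity, fun X A B h => ?_⟩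
  obtain ⟨hX, hL, hA0, hA1, hB0, hB1⟩ := h
  have hXpos : 0 < X := by linarith
  have hA : 1 ≤ A := le_trans (Real.one_le_rpow hX (by norm_num)) hA0
  have hApos : 0 < A := by linarith
  have hBpos : 0 < B := by linarith
  set L := Real.log X with hLdef
  have hLpos : 0 < L := by linarith
  set C := 2 * c + c * C1 + C2 + k with hC
  have hlog : 1 + Real.log (A * B) ≤ 4 * L := by
    rw [Real.log_mul hApos.ne' hBpos.ne']
    have e1 : Real.log A ≤ L := Real.log_le_log hApos hA1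
    have e2 : Real.log B ≤ (53 / 50) * Real.log A := by
      have := Real.log_le_log hBpos hB1
      rwa [Real.log_rpow hApos] at this
    have e3 : 0 ≤ Real.log A := Real.log_nonneg hA
    nlinarith
  have hlog0 : 0 ≤ 1 + Real.log (A * B) := by
    have : 0 ≤ Real.log (A * B) := Real.log_nonneg (by nlinarith)
    linarith
  have hlogk : (1 + Real.log (A * B)) ^ k ≤ c * L ^ k := by
    refine (Real.rpow_le_rpow hlog0 hlog hk).trans ?_
    rw [Real.mul_rpow (by norm_num) hLpos.le]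
  constructor
  · -- first bound
    have t1 : A ^ ((2 : ℝ) / 3) * B ^ ((2 : ℝ) / 3) ≤ A * B := by
      rw [← Real.mul_rpow hApos.le hBpos.le]
      exact Real.rpow_le_self_of_one_le (by nlinarith) (by norm_num)
    have t2 : L ^ k * A ^ ((1 : ℝ) / 3) * B ^ ((5 : ℝ) / 3) ≤
        C1 * (A ^ ((2 : ℝ) / 3) * B ^ ((5 : ℝ) / 3) * L ^ (-K)) := by
      have e1 : L ^ k = L ^ (k + K) * L ^ (-K) := by
        rw [← Real.rpow_add hLpos]; congr 1; ring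
      have e2 : L ^ (k + K) ≤ C1 * A ^ ((1 : ℝ) / 3) := by
        refine (h1 X hX hL).trans (mul_le_mul_of_nonneg_left ?_ hC1.le)
        calc X ^ ((1 : ℝ) / 15) = (X ^ ((1 : ℝ) / 5)) ^ ((1 : ℝ) / 3) := by
              rw [← Real.rpow_mul hXpos.le]; norm_num
          _ ≤ A ^ ((1 : ℝ) / 3) := Real.rpow_le_rpow (by positivity) hA0 (by norm_num)
      have e3 : A ^ ((2 : ℝ) / 3) = A ^ ((1 : ℝ) / 3) * A ^ ((1 : ℝ) / 3) := by
        rw [← Real.rpow_add hApos]; norm_num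
      rw [e1, e3]
      have := mul_le_mul_of_nonneg_right e2 (show 0 ≤ L ^ (-K) * A ^ ((1 : ℝ) / 3) *
        B ^ ((5 : ℝ) / 3) by positivity)
      nlinarith [this]
    have t3 : L ^ k ≤ L ^ C := Real.rpow_le_rpow_of_exponent_le hL (by
      rw [hC]; nlinarith [mul_pos hcpos hC1])
    have hM0 : 0 ≤ A ^ ((2 : ℝ) / 3) * B ^ ((5 : ℝ) / 3) * L ^ (-K) := by positivity
    have hAB : 0 < A * B := mul_pos hApos hBpos
    calc (1 + Real.log (A * B)) ^ k *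
        (A * B + A ^ ((2 : ℝ) / 3) * B ^ ((2 : ℝ) / 3) + A ^ ((1 : ℝ) / 3) * B ^ ((5 : ℝ) / 3))
        ≤ (c * L ^ k) * (A * B + A * B + A ^ ((1 : ℝ) / 3) * B ^ ((5 : ℝ) / 3)) := by
          refine mul_le_mul hlogk ?_ (by positivity) (by positivity)
          linarith
      _ = 2 * c * (A * B * L ^ k) + c * (L ^ k * A ^ ((1 : ℝ) / 3) * B ^ ((5 : ℝ) / 3)) := by ring
      _ ≤ 2 * c * (A * B * L ^ C) +
          c * (C1 * (A ^ ((2 : ℝ) / 3) * B ^ ((5 : ℝ) / 3) * L ^ (-K))) := by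
          refine add_le_add ?_ (mul_le_mul_of_nonneg_left t2 hcpos.le)
          exact mul_le_mul_of_nonneg_left (mul_le_mul_of_nonneg_left t3 hAB.le) (by positivity)
      _ ≤ C * (A * B * L ^ C + A ^ ((2 : ℝ) / 3) * B ^ ((5 : ℝ) / 3) * L ^ (-K)) := by
          have p1 : 0 ≤ A * B * L ^ C := by positivity
          have q1 : 2 * c ≤ C := by rw [hC]; nlinarith [mul_pos hcpos hC1]
          have q2 : c * C1 ≤ C := by rw [hC]; nlinarith [mul_pos hcpos hC1]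
          nlinarith [mul_le_mul_of_nonneg_right q1 p1, mul_le_mul_of_nonneg_right q2 hM0]
  · have e1 : L ^ K ≤ C2 * X ^ ((1 : ℝ) / 100) := h2 X hX hL
    -- (AB)^(1/200) B^(1/6) L^K ≤ C2 A^(1/3)
    have e2 : (A * B) ^ ((1 : ℝ) / 200) * B ^ ((1 : ℝ) / 6) * X ^ ((1 : ℝ) / 100) ≤
        A ^ ((1 : ℝ) / 3) := by
      have f1 : (A * B) ^ ((1 : ℝ) / 200) ≤ A ^ ((103 : ℝ) / 10000) := by
        calc (A * B) ^ ((1 : ℝ) / 200) ≤ (A * A ^ ((53 : ℝ) / 50)) ^ ((1 : ℝ) / 200) :=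
              Real.rpow_le_rpow (by positivity) (mul_le_mul_of_nonneg_left hB1 hApos.le)
                (by norm_num)
          _ = A ^ ((103 : ℝ) / 10000) := by
              rw [← Real.rpow_one_add' hApos.le (by norm_num), ← Real.rpow_mul hApos.le]
              norm_num
      have f2 : B ^ ((1 : ℝ) / 6) ≤ A ^ ((53 : ℝ) / 300) := by
        calc B ^ ((1 : ℝ) / 6) ≤ (A ^ ((53 : ℝ) / 50)) ^ ((1 : ℝ) / 6) :=
              Real.rpow_le_rpow hBpos.le hB1 (by norm_num)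
          _ = A ^ ((53 : ℝ) / 300) := by rw [← Real.rpow_mul hApos.le]; norm_num
      have f3 : X ^ ((1 : ℝ) / 100) ≤ A ^ ((1 : ℝ) / 20) := by
        calc X ^ ((1 : ℝ) / 100) = (X ^ ((1 : ℝ) / 5)) ^ ((1 : ℝ) / 20) := by
              rw [← Real.rpow_mul hXpos.le]; norm_num
          _ ≤ A ^ ((1 : ℝ) / 20) := Real.rpow_le_rpow (by positivity) hA0 (by norm_num)
      calc (A * B) ^ ((1 : ℝ) / 200) * B ^ ((1 : ℝ) / 6) * X ^ ((1 : ℝ) / 100)
          ≤ A ^ ((103 : ℝ) / 10000) * A ^ ((53 : ℝ) / 300) * A ^ ((1 : ℝ) / 20) := by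
            gcongr
        _ = A ^ ((103 : ℝ) / 10000 + 53 / 300 + 1 / 20) := by
            rw [Real.rpow_add hApos, Real.rpow_add hApos]
        _ ≤ A ^ ((1 : ℝ) / 3) := Real.rpow_le_rpow_of_exponent_le hA (by norm_num)
    have e3 : A ^ ((2 : ℝ) / 3) = A ^ ((1 : ℝ) / 3) * A ^ ((1 : ℝ) / 3) := by
      rw [← Real.rpow_add hApos]; norm_num
    have e4 : B ^ ((11 : ℝ) / 6) = B ^ ((1 : ℝ) / 6) * B ^ ((5 : ℝ) / 3) := by
      rw [← Real.rpow_add hBpos]; norm_num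
    have e5 : (1 : ℝ) = L ^ K * L ^ (-K) := by
      rw [← Real.rpow_add hLpos]; simp
    have e6 : (A * B) ^ ((1 : ℝ) / 200) * B ^ ((1 : ℝ) / 6) * L ^ K ≤ C2 * A ^ ((1 : ℝ) / 3) := by
      calc (A * B) ^ ((1 : ℝ) / 200) * B ^ ((1 : ℝ) / 6) * L ^ K
          ≤ (A * B) ^ ((1 : ℝ) / 200) * B ^ ((1 : ℝ) / 6) * (C2 * X ^ ((1 : ℝ) / 100)) :=
            mul_le_mul_of_nonneg_left e1 (by positivity)
        _ = C2 * ((A * B) ^ ((1 : ℝ) / 200) * B ^ ((1 : ℝ) / 6) * X ^ ((1 : ℝ) / 100)) := by ring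
        _ ≤ C2 * A ^ ((1 : ℝ) / 3) := mul_le_mul_of_nonneg_left e2 hC2.le
    have hM0 : 0 ≤ A ^ ((2 : ℝ) / 3) * B ^ ((5 : ℝ) / 3) * L ^ (-K) := by positivity
    calc (A * B) ^ ((1 : ℝ) / 200) * A ^ ((1 : ℝ) / 3) * B ^ ((11 : ℝ) / 6)
        = ((A * B) ^ ((1 : ℝ) / 200) * B ^ ((1 : ℝ) / 6) * L ^ K) *
          (A ^ ((1 : ℝ) / 3) * B ^ ((5 : ℝ) / 3) * L ^ (-K)) := by
          rw [e4]
          calc (A * B) ^ ((1 : ℝ) / 200) * A ^ ((1 : ℝ) / 3) *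
              (B ^ ((1 : ℝ) / 6) * B ^ ((5 : ℝ) / 3))
              = (A * B) ^ ((1 : ℝ) / 200) * A ^ ((1 : ℝ) / 3) *
              (B ^ ((1 : ℝ) / 6) * B ^ ((5 : ℝ) / 3)) * 1 := by ring
            _ = _ := by rw [e5]; ring
      _ ≤ (C2 * A ^ ((1 : ℝ) / 3)) * (A ^ ((1 : ℝ) / 3) * B ^ ((5 : ℝ) / 3) * L ^ (-K)) :=
          mul_le_mul_of_nonneg_right e6 (by positivity)
      _ = C2 * (A ^ ((2 : ℝ) / 3) * B ^ ((5 : ℝ) / 3) * L ^ (-K)) := by rw [e3]; ring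
      _ ≤ C * (A ^ ((2 : ℝ) / 3) * B ^ ((5 : ℝ) / 3) * L ^ (-K)) := by
          refine mul_le_mul_of_nonneg_right ?_ hM0
          rw [hC]; nlinarith [mul_pos hcpos hC1]


lemma core (h13 : T13) (h6 : T6) (K C3 : ℝ) (hC3 : 0 < C3) : ∃ C : ℝ, 0 < C ∧ C3 ≤ C ∧
    ∀ (X A B : ℝ) (𝓑 : Finset Eis) (β : Eis → ℂ) (Q3 Q : ℝ), Rg X A B → Cls 1 B 𝓑 β →
    0 ≤ Q3 → Q3 ≤ Q →
    RHSd A B 𝓑 β ≤ C3 * (A * B * Real.log X ^ C3 +
      A ^ ((2 : ℝ) / 3) * B ^ ((5 : ℝ) / 3) * Real.log X ^ (-K) + Q3) →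
    SS A 𝓑 β ≤ C * (A * B * Real.log X ^ C +
      A ^ ((2 : ℝ) / 3) * B ^ ((5 : ℝ) / 3) * Real.log X ^ (-K) + Q) := by
  obtain ⟨C1, k, hC1, hk, h13⟩ := h13
  obtain ⟨C2, hC2, h6⟩ := h6 (1 / 200) (by norm_num)
  obtain ⟨C4, hC4, h4⟩ := err_bounds k K hk
  set C := C1 * C4 + C1 * C3 + 2 * |pC| * C2 * C4 + C3 + C4 with hC
  have q0 : 0 ≤ 2 * |pC| * C2 * C4 := by positivity
  have q1 : 0 < C1 * C4 := mul_pos hC1 hC4
  have q2 : 0 < C1 * C3 := mul_pos hC1 hC3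
  refine ⟨C, by rw [hC]; linarith, by rw [hC]; linarith, ?_⟩
  intro X A B 𝓑 β Q3 Q hR hcls hQ0 hQ hd
  obtain ⟨e1, e2⟩ := h4 X A B hR
  have hX := hR.X1
  have hL := hR.L1
  have hA : 1 ≤ A := le_trans (Real.one_le_rpow hX (by norm_num)) hR.A0
  have hB := hR.B0
  set L := Real.log X with hLdef
  set M := A ^ ((2 : ℝ) / 3) * B ^ ((5 : ℝ) / 3) * L ^ (-K) with hM
  have hLpos : 0 < L := by linarith
  have hM0 : 0 ≤ M := by rw [hM]; positivity
  have hAB : 0 ≤ A * B := by positivity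
  have m1 : L ^ C3 ≤ L ^ C := Real.rpow_le_rpow_of_exponent_le hL (by rw [hC]; linarith)
  have m2 : L ^ C4 ≤ L ^ C := Real.rpow_le_rpow_of_exponent_le hL (by rw [hC]; linarith)
  have n1 : A * B * L ^ C3 ≤ A * B * L ^ C := mul_le_mul_of_nonneg_left m1 hAB
  have n2 : A * B * L ^ C4 ≤ A * B * L ^ C := mul_le_mul_of_nonneg_left m2 hAB
  have n0 : 0 ≤ A * B * L ^ C := by positivity
  have s0 := SS_le hA hB hcls
  have s1 := h13 A B 𝓑 β hA hB hcls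
  have s2 := h6 A B 𝓑 β hA hB hcls
  have s3 := mul_le_mul_of_nonneg_left s2 (show 0 ≤ 2 * |pC| by positivity)
  have s4 := mul_le_mul_of_nonneg_left hd hC1.le
  have s5 := mul_le_mul_of_nonneg_left e1 hC1.le
  have s6 := mul_le_mul_of_nonneg_left e2 (show 0 ≤ 2 * |pC| * C2 by positivity)
  have t1 : C1 * ((1 + Real.log (A * B)) ^ k * (A * B + A ^ ((2 : ℝ) / 3) * B ^ ((2 : ℝ) / 3) +
      A ^ ((1 : ℝ) / 3) * B ^ ((5 : ℝ) / 3))) ≤ C1 * C4 * (A * B * L ^ C + M) := by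
    refine s5.trans ?_
    rw [← mul_assoc]
    exact mul_le_mul_of_nonneg_left (by linarith) q1.le
  have t2 : C1 * RHSd A B 𝓑 β ≤ C1 * C3 * (A * B * L ^ C + M + Q) := by
    refine s4.trans ?_
    rw [← mul_assoc]
    exact mul_le_mul_of_nonneg_left (by linarith) q2.le
  have t3 : 2 * |pC| * ‖∑ b₁ ∈ 𝓑, ∑ b₂ ∈ 𝓑, β b₁ * cj (β b₂) *
      ((nm b₂ : ℝ) ^ (-(1 : ℝ) / 6) : ℝ) * P23 A b₁ b₂‖ ≤ 2 * |pC| * C2 * C4 * M := by
    refine s3.trans ?_
    calc 2 * |pC| * (C2 * (A * B) ^ ((1 : ℝ) / 200) * A ^ ((1 : ℝ) / 3) * B ^ ((11 : ℝ) / 6))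
        = 2 * |pC| * C2 * ((A * B) ^ ((1 : ℝ) / 200) * A ^ ((1 : ℝ) / 3) *
          B ^ ((11 : ℝ) / 6)) := by ring
      _ ≤ 2 * |pC| * C2 * (C4 * M) := s6
      _ = 2 * |pC| * C2 * C4 * M := by ring
  have hQ' : 0 ≤ Q := hQ0.trans hQ
  calc SS A 𝓑 β ≤ C1 * C4 * (A * B * L ^ C + M) + C1 * C3 * (A * B * L ^ C + M + Q) +
        2 * |pC| * C2 * C4 * M := by
        refine s0.trans ?_
        refine add_le_add ?_ t3
        refine s1.trans ?_
        rw [mul_assoc]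
        exact add_le_add t1 t2
    _ ≤ C * (A * B * L ^ C + M + Q) := by
        rw [hC]
        nlinarith [mul_nonneg q1.le hQ', mul_nonneg q0 n0, mul_nonneg q0 hQ',
          mul_nonneg hC3.le (add_nonneg (add_nonneg n0 hM0) hQ'),
          mul_nonneg hC4.le (add_nonneg (add_nonneg n0 hM0) hQ')]

lemma NC_mono {H H' : ℝ} (h : H ≤ H') : NC H ⊆ NC H' := by
  classical
  unfold NC LS2.bl
  refine Finset.filter_subset_filter _ (Finset.erase_subset_erase _ ?_)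
  intro x hx
  rw [mem_ball] at hx ⊢
  exact hx.trans (Nat.floor_le_floor h)

lemma one_le_M {X A B K : ℝ} (hX : 2 ≤ X) (hL : Real.log X ≤ 1) (hA : 1 ≤ A) (hB : 1 ≤ B)
    (hK : 0 ≤ K) : 1 ≤ A ^ ((2 : ℝ) / 3) * B ^ ((5 : ℝ) / 3) * Real.log X ^ (-K) := by
  have h1 : 1 ≤ A ^ ((2 : ℝ) / 3) := Real.one_le_rpow hA (by norm_num)
  have h2 : 1 ≤ B ^ ((5 : ℝ) / 3) := Real.one_le_rpow hB (by norm_num)
  have h3 : 1 ≤ Real.log X ^ (-K) :=
    Real.one_le_rpow_of_pos_of_le_one_of_nonpos (Real.log_pos (by linarith)) hL (by linarith)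
  have h4 : 1 ≤ A ^ ((2 : ℝ) / 3) * B ^ ((5 : ℝ) / 3) := one_le_mul_of_one_le_of_one_le h1 h2
  exact one_le_mul_of_one_le_of_one_le h4 h3

lemma integral_nonneg' (𝓑 : Finset Eis) (β : Eis → ℂ) (h : Eis) :
    0 ≤ ∫ u : ℝ, (1 + u ^ 2)⁻¹ * ‖tws 𝓑 β h u‖ ^ 2 :=
  MeasureTheory.integral_nonneg fun u => by positivity

lemma lt_three_of_log {X : ℝ} (hX : 0 < X) (h : Real.log X < 1) : X < 3 := by
  have := (Real.log_lt_iff_lt_exp hX).mp h
  have h3 := Real.exp_one_lt_d9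
  linarith

/-- **(T-MAIN)**, non-critical range -/
theorem tmainN_of (h13 : T13) (hX : TNXN) (h6 : T6) : TMainN := by
  intro e0 K he0 hK
  obtain ⟨C3, hC3, h3⟩ := hX e0 K he0 hK
  obtain ⟨C, hC, hC3C, hcore⟩ := core h13 h6 K C3 hC3
  obtain ⟨C0, hC0, hsmall⟩ := SS_small
  refine ⟨C + C0, by linarith, ?_⟩
  intro X A B hX2 hXB hBA hAX 𝓑 β hcls
  have hXpos : 0 < X := by linarith
  have hB : 1 ≤ B := le_trans (Real.one_le_rpow (by linarith) (by norm_num)) hXB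
  have hBpos : 0 < B := by linarith
  have hBA' : B ≤ A := by
    refine le_trans ?_ hBA
    calc B = B ^ (1 : ℝ) := (Real.rpow_one B).symm
      _ ≤ B ^ (1 + e0) := Real.rpow_le_rpow_of_exponent_le hB (by linarith)
  have hA : 1 ≤ A := hB.trans hBA'
  have hApos : 0 < A := by linarith
  have hcls1 : Cls 1 B 𝓑 β := by
    refine hcls.mono ?_
    unfold ww
    exact Real.one_le_exp (by
      have : 0 ≤ Real.log X := Real.log_nonneg (by linarith)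
      positivity)
  rcases lt_or_ge (Real.log X) 1 with hL | hL
  · -- small X
    have hX3 := lt_three_of_log hXpos hL
    have hs := hsmall A B 𝓑 β hApos (by linarith) (by linarith) hcls1
    have hM := one_le_M (A := A) (B := B) hX2 hL.le hA hB hK.le
    have hLp : 0 < Real.log X := Real.log_pos (by linarith)
    have p1 : 0 ≤ A * B * Real.log X ^ (C + C0) := by positivity
    have p2 : 0 ≤ A ^ ((2 : ℝ) / 3) * B ^ (-(1 : ℝ) / 3) * Real.log X ^ (C + C0) *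
      ∑ h ∈ NC (Real.log X ^ (C + C0)), ∫ u : ℝ, (1 + u ^ 2)⁻¹ * ‖tws 𝓑 β h u‖ ^ 2 := by
      refine mul_nonneg (by positivity) (Finset.sum_nonneg fun h _ => integral_nonneg' _ _ _)
    nlinarith
  · have hR : Rg X A B := by
      refine ⟨by linarith, hL, ?_, hAX, hB, ?_⟩
      · refine le_trans ?_ (hXB.trans hBA')
        exact Real.rpow_le_rpow_of_exponent_le (by linarith) (by norm_num)
      · refine hBA'.trans ?_
        calc A = A ^ (1 : ℝ) := (Real.rpow_one A).symm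
          _ ≤ A ^ ((53 : ℝ) / 50) := Real.rpow_le_rpow_of_exponent_le hA (by norm_num)
    have hLp : 0 < Real.log X := by linarith
    set Q : ℝ → ℝ := fun c => A ^ ((2 : ℝ) / 3) * B ^ (-(1 : ℝ) / 3) * Real.log X ^ c *
      ∑ h ∈ NC (Real.log X ^ c), ∫ u : ℝ, (1 + u ^ 2)⁻¹ * ‖tws 𝓑 β h u‖ ^ 2 with hQ
    have hQ0 : ∀ c, 0 ≤ Q c := fun c =>
      mul_nonneg (by positivity) (Finset.sum_nonneg fun h _ => integral_nonneg' _ _ _)
    have hQm : ∀ c c', c ≤ c' → Q c ≤ Q c' := by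
      intro c c' hcc
      have hl : Real.log X ^ c ≤ Real.log X ^ c' := Real.rpow_le_rpow_of_exponent_le hL hcc
      simp only [hQ]
      refine mul_le_mul (mul_le_mul_of_nonneg_left hl (by positivity)) ?_
        (Finset.sum_nonneg fun h _ => integral_nonneg' _ _ _) (by positivity)
      exact Finset.sum_le_sum_of_subset_of_nonneg (NC_mono hl)
        (fun h _ _ => integral_nonneg' _ _ _)
    have hmain := hcore X A B 𝓑 β (Q C3) (Q C) hR hcls1 (hQ0 _) (hQm _ _ hC3C)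
      (h3 X A B hX2 hXB hBA hAX 𝓑 β hcls)
    refine hmain.trans ?_
    have hl : Real.log X ^ C ≤ Real.log X ^ (C + C0) :=
      Real.rpow_le_rpow_of_exponent_le hL (by linarith)
    have hM0 : 0 ≤ A ^ ((2 : ℝ) / 3) * B ^ ((5 : ℝ) / 3) * Real.log X ^ (-K) := by positivity
    have hAB : 0 ≤ A * B := by positivity
    have k1 := mul_le_mul_of_nonneg_left hl hAB
    have k2 := hQm C (C + C0) (by linarith)
    refine mul_le_mul (by linarith) ?_ ?_ (by linarith)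
    · change _ ≤ _ + _ + Q (C + C0)
      linarith
    · have := hQ0 C
      positivity

/-- **(T-MAIN)**, critical range -/
theorem tmainC_of (h13 : T13) (hX : TNXC) (h6 : T6) : TMainC := by
  intro e0 d1 K he0 he1 hd1 hed hK
  obtain ⟨C3, hC3, h3⟩ := hX e0 d1 K he0 he1 hd1 hed hK
  obtain ⟨C, hC, hC3C, hcore⟩ := core h13 h6 K C3 hC3
  obtain ⟨C0, hC0, hsmall⟩ := SS_small
  refine ⟨C + C0, by linarith, ?_⟩
  intro X A B hX2 hXB hAB1 hBA hAX 𝓑 β hcls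
  have hXpos : 0 < X := by linarith
  have hB : 1 ≤ B := le_trans (Real.one_le_rpow (by linarith) (by norm_num)) hXB
  have hBpos : 0 < B := by linarith
  have hB95 : B ^ ((19 : ℝ) / 20) ≤ A :=
    (Real.rpow_le_rpow_of_exponent_le hB (by linarith)).trans hBA
  have hA : 1 ≤ A := le_trans (Real.one_le_rpow hB (by norm_num)) hB95
  have hApos : 0 < A := by linarith
  have hBA' : B ≤ A ^ ((20 : ℝ) / 19) := by
    calc B = (B ^ ((19 : ℝ) / 20)) ^ ((20 : ℝ) / 19) := by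
          rw [← Real.rpow_mul hBpos.le]; norm_num
      _ ≤ A ^ ((20 : ℝ) / 19) := Real.rpow_le_rpow (by positivity) hB95 (by norm_num)
  have hcls1 : Cls 1 B 𝓑 β := hcls.mono (Real.one_le_rpow (by linarith) hd1.le)
  rcases lt_or_ge (Real.log X) 1 with hL | hL
  · -- small X
    have hX3 := lt_three_of_log hXpos hL
    have hB4 : B ≤ 4 := by
      have h1 : A ^ ((20 : ℝ) / 19) ≤ 3 ^ ((20 : ℝ) / 19) :=
        Real.rpow_le_rpow hApos.le (by linarith) (by norm_num)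
      have h2 : (3 : ℝ) ^ ((20 : ℝ) / 19) ≤ 4 := by
        have h4 : (4 : ℝ) = (4 ^ (19 : ℝ)) ^ ((1 : ℝ) / 19) := by
          rw [← Real.rpow_mul (by norm_num)]; norm_num
        have h5 : (3 : ℝ) ^ ((20 : ℝ) / 19) = (3 ^ (20 : ℝ)) ^ ((1 : ℝ) / 19) := by
          rw [← Real.rpow_mul (by norm_num)]; norm_num
        rw [h4, h5]
        refine Real.rpow_le_rpow (by positivity) ?_ (by norm_num)
        norm_num
      exact hBA'.trans (h1.trans h2)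
    have hs := hsmall A B 𝓑 β hApos (by linarith) hB4 hcls1
    have hM := one_le_M (A := A) (B := B) hX2 hL.le hA hB hK.le
    have hLp : 0 < Real.log X := Real.log_pos (by linarith)
    have p1 : 0 ≤ A * B * Real.log X ^ (C + C0) := by positivity
    have p2 : 0 ≤ A ^ ((2 : ℝ) / 3) * B ^ (-(1 : ℝ) / 3) * Real.log X ^ (C + C0) *
      ∑ h ∈ NC (Real.log X ^ (C + C0)), ∫ u : ℝ, (1 + u ^ 2)⁻¹ * ‖tws 𝓑 β h u‖ ^ 2 := by
      refine mul_nonneg (by positivity) (Finset.sum_nonneg fun h _ => integral_nonneg' _ _ _)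
    have p3 : 0 ≤ A ^ ((2 : ℝ) / 3) * B ^ (-(1 : ℝ) / 3) * B ^ (-(1 - 2 * e0) / 3) *
      Real.log X ^ (C + C0) *
      ∑ q ∈ Ker (B ^ (1 + e0)), ∫ u : ℝ, (1 + u ^ 2)⁻¹ * ‖tws 𝓑 β (kv q) u‖ ^ 2 := by
      refine mul_nonneg (by positivity) (Finset.sum_nonneg fun h _ => integral_nonneg' _ _ _)
    nlinarith
  · have hR : Rg X A B := by
      refine ⟨by linarith, hL, ?_, hAX, hB, ?_⟩
      · refine le_trans ?_ hB95
        calc X ^ ((1 : ℝ) / 5) ≤ X ^ ((1 : ℝ) / 4 * (19 / 20)) :=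
              Real.rpow_le_rpow_of_exponent_le (by linarith) (by norm_num)
          _ = (X ^ ((1 : ℝ) / 4)) ^ ((19 : ℝ) / 20) := by rw [← Real.rpow_mul hXpos.le]
          _ ≤ B ^ ((19 : ℝ) / 20) := Real.rpow_le_rpow (by positivity) hXB (by norm_num)
      · exact hBA'.trans (Real.rpow_le_rpow_of_exponent_le hA (by norm_num))
    have hLp : 0 < Real.log X := by linarith
    set Q : ℝ → ℝ := fun c => A ^ ((2 : ℝ) / 3) * B ^ (-(1 : ℝ) / 3) * Real.log X ^ c *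
      ∑ h ∈ NC (Real.log X ^ c), ∫ u : ℝ, (1 + u ^ 2)⁻¹ * ‖tws 𝓑 β h u‖ ^ 2 with hQ
    set R : ℝ → ℝ := fun c => A ^ ((2 : ℝ) / 3) * B ^ (-(1 : ℝ) / 3) * B ^ (-(1 - 2 * e0) / 3) *
      Real.log X ^ c *
      ∑ q ∈ Ker (B ^ (1 + e0)), ∫ u : ℝ, (1 + u ^ 2)⁻¹ * ‖tws 𝓑 β (kv q) u‖ ^ 2 with hRdef
    have hQ0 : ∀ c, 0 ≤ Q c := fun c =>
      mul_nonneg (by positivity) (Finset.sum_nonneg fun h _ => integral_nonneg' _ _ _)
    have hR0 : ∀ c, 0 ≤ R c := fun c =>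
      mul_nonneg (by positivity) (Finset.sum_nonneg fun h _ => integral_nonneg' _ _ _)
    have hQm : ∀ c c', c ≤ c' → Q c ≤ Q c' := by
      intro c c' hcc
      have hl : Real.log X ^ c ≤ Real.log X ^ c' := Real.rpow_le_rpow_of_exponent_le hL hcc
      simp only [hQ]
      refine mul_le_mul (mul_le_mul_of_nonneg_left hl (by positivity)) ?_
        (Finset.sum_nonneg fun h _ => integral_nonneg' _ _ _) (by positivity)
      exact Finset.sum_le_sum_of_subset_of_nonneg (NC_mono hl)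
        (fun h _ _ => integral_nonneg' _ _ _)
    have hRm : ∀ c c', c ≤ c' → R c ≤ R c' := by
      intro c c' hcc
      have hl : Real.log X ^ c ≤ Real.log X ^ c' := Real.rpow_le_rpow_of_exponent_le hL hcc
      simp only [hRdef]
      exact mul_le_mul_of_nonneg_right (mul_le_mul_of_nonneg_left hl (by positivity))
        (Finset.sum_nonneg fun h _ => integral_nonneg' _ _ _)
    have hd := h3 X A B hX2 hXB hAB1 hBA hAX 𝓑 β hcls
    have hmain := hcore X A B 𝓑 β (Q C3 + R C3) (Q C + R C) hR hcls1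
      (add_nonneg (hQ0 _) (hR0 _)) (add_le_add (hQm _ _ hC3C) (hRm _ _ hC3C))
      (by
        refine hd.trans (le_of_eq ?_)
        simp only [hQ, hRdef]; ring)
    refine hmain.trans ?_
    have hl : Real.log X ^ C ≤ Real.log X ^ (C + C0) :=
      Real.rpow_le_rpow_of_exponent_le hL (by linarith)
    have hM0 : 0 ≤ A ^ ((2 : ℝ) / 3) * B ^ ((5 : ℝ) / 3) * Real.log X ^ (-K) := by positivity
    have hAB : 0 ≤ A * B := by positivity
    have k1 := mul_le_mul_of_nonneg_left hl hAB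
    have k2 := hQm C (C + C0) (by linarith)
    have k3 := hRm C (C + C0) (by linarith)
    refine mul_le_mul (by linarith) ?_ ?_ (by linarith)
    · change _ ≤ _ + _ + Q (C + C0) + R (C + C0)
      linarith
    · have := hQ0 C
      have := hR0 C
      positivity

end Crest.Agent.R012.T411
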