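import Crest.Agent.R012.TNXa_52

/-!
# Row 12, item TNX, region 2: the terms of `RHSd` with `Z ≤ nm e * nm g` (helper470)

* `region2` : `∑_{e,f,g, Z ≤ nm e nm g} trm ≤ C X^ε (A^(2/3) B^(5/3) Z^(-1/2) + A^(1/3) B^2 Z^(-1/2) + B^2)`
-/

set_option autoImplicit false
set_option linter.unusedVariables false
set_option linter.unusedSectionVars false

noncomputable section

namespace Crest.Agent.R012.TNXb470

open Finset Eis LS448 CharSum852 Char766 NonCube52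

/-! ### weight sums -/

lemma sum_prim_rpow {s : ℝ} (hs : 1 < s) : ∃ C : ℝ, 0 < C ∧ ∀ D : Finset Eis, (∀ e ∈ D, e ≠ 0) →
    ∑ e ∈ D, (nm e : ℝ) ^ (-s) ≤ C := by
  classical
  have hs1 : 0 < s - 1 := by linarith
  refine ⟨100 * (s / (s - 1)) + 16, by positivity, fun D hD => ?_⟩
  set Y : ℕ := ∑ m ∈ D, nm m with hY
  have hsub : D ⊆ (Div277.nz Y \ Div277.nz 1) ∪ Div277.nz 1 := by
    intro m hm
    have h1 : m ∈ Div277.nz Y := by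
      rw [Div277.mem_nz]
      exact ⟨hD m hm, single_le_sum (f := fun m => nm m) (fun _ _ => Nat.zero_le _) hm⟩
    rw [mem_union, mem_sdiff]
    by_cases h2 : m ∈ Div277.nz 1
    · exact Or.inr h2
    · exact Or.inl ⟨h1, h2⟩
  have h2 := Per277.sum_nz_tail_le hs (le_refl 1) Y
  have h3 : ∑ e ∈ Div277.nz 1, (nm e : ℝ) ^ (-s) ≤ 16 := by
    have h4 : ∑ e ∈ Div277.nz 1, (nm e : ℝ) ^ (-s) ≤ ∑ e ∈ Div277.nz 1, (1 : ℝ) := by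
      refine sum_le_sum fun e he => ?_
      have h5 : (1 : ℝ) ≤ nm e := one_le_nm' (Div277.mem_nz.mp he).1
      exact Real.rpow_le_one_of_one_le_of_nonpos h5 (by linarith)
    have h5 : (#(Div277.nz 1) : ℝ) ≤ 16 := by
      have h6 : Div277.nz 1 ⊆ LS448.nz 1 := fun z hz => by
        rw [Div277.mem_nz] at hz
        rw [LS448.mem_nz]
        exact ⟨hz.1, by exact_mod_cast hz.2⟩
      have h7 := card_nz_le16 (X := 1) (by norm_num)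
      have h8 : (#(Div277.nz 1) : ℝ) ≤ #(LS448.nz 1) := by exact_mod_cast card_le_card h6
      linarith
    rw [sum_const, nsmul_eq_mul, mul_one] at h4
    linarith
  calc ∑ e ∈ D, (nm e : ℝ) ^ (-s)
      ≤ ∑ e ∈ (Div277.nz Y \ Div277.nz 1) ∪ Div277.nz 1, (nm e : ℝ) ^ (-s) :=
        sum_le_sum_of_subset_of_nonneg hsub fun _ _ _ => by positivity
    _ ≤ ∑ e ∈ (Div277.nz Y \ Div277.nz 1), (nm e : ℝ) ^ (-s) +
        ∑ e ∈ Div277.nz 1, (nm e : ℝ) ^ (-s) := by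
        rw [sum_union (by
          rw [disjoint_left]
          intro a ha hb
          exact (mem_sdiff.mp ha).2 hb)]
    _ ≤ 100 * (s / (s - 1) * ((1 : ℕ) : ℝ) ^ (1 - s)) + 16 := add_le_add h2 h3
    _ = _ := by rw [Nat.cast_one, Real.one_rpow, mul_one]

/-- weight of the second and third term. -/
lemma wsum2 : ∃ C : ℝ, 0 < C ∧ ∀ (D : Finset Eis), (∀ e ∈ D, e ≠ 0) → ∀ Z : ℝ, 1 ≤ Z →
    ∀ G : Eis → Finset Eis, (∀ e ∈ D, ∀ g ∈ G e, g ∈ D ∧ Z ≤ nm e * nm g) →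
    ∑ e ∈ D, ∑ f ∈ Div277.dvs e, ∑ g ∈ G e, ((nm e : ℝ) ^ (-(5 / 3) : ℝ) *
      (nm g : ℝ) ^ (-(5 / 3) : ℝ)) ≤ C * Z ^ (-(1 / 2) : ℝ) := by
  classical
  obtain ⟨C1, hC1, h1⟩ := sum_prim_rpow (s := 13 / 12) (by norm_num)
  obtain ⟨C2, hC2, h2⟩ := sum_prim_rpow (s := 7 / 6) (by norm_num)
  obtain ⟨C3, hC3, h3⟩ := Div277.tau_le_rpow (ε := 1 / 12) (by norm_num)
  refine ⟨C3 * C1 * C2, by positivity, fun D hD Z hZ G hG => ?_⟩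
  have hZ0 : 0 < Z := by linarith
  have step : ∀ e ∈ D, ∑ f ∈ Div277.dvs e, ∑ g ∈ G e, ((nm e : ℝ) ^ (-(5 / 3) : ℝ) *
      (nm g : ℝ) ^ (-(5 / 3) : ℝ)) ≤ (C3 * C2 * Z ^ (-(1 / 2) : ℝ)) * (nm e : ℝ) ^ (-(13 / 12) : ℝ) := by
    intro e he
    have ha : (1 : ℝ) ≤ nm e := one_le_nm' (hD e he)
    have ha0 : (0 : ℝ) < nm e := by linarith
    have hg : ∑ g ∈ G e, ((nm e : ℝ) ^ (-(5 / 3) : ℝ) * (nm g : ℝ) ^ (-(5 / 3) : ℝ))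
        ≤ Z ^ (-(1 / 2) : ℝ) * (nm e : ℝ) ^ (-(7 / 6) : ℝ) * C2 := by
      calc ∑ g ∈ G e, ((nm e : ℝ) ^ (-(5 / 3) : ℝ) * (nm g : ℝ) ^ (-(5 / 3) : ℝ))
          ≤ ∑ g ∈ G e, Z ^ (-(1 / 2) : ℝ) * (nm e : ℝ) ^ (-(7 / 6) : ℝ) *
              (nm g : ℝ) ^ (-(7 / 6) : ℝ) := by
            refine sum_le_sum fun g hgg => ?_
            obtain ⟨hgD, hgZ⟩ := hG e he g hgg
            have hc : (1 : ℝ) ≤ nm g := one_le_nm' (hD g hgD)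
            have hc0 : (0 : ℝ) < nm g := by linarith
            have e1 : (nm e : ℝ) ^ (-(5 / 3) : ℝ) * (nm g : ℝ) ^ (-(5 / 3) : ℝ)
                = ((nm e : ℝ) * nm g) ^ (-(1 / 2) : ℝ) *
                  ((nm e : ℝ) ^ (-(7 / 6) : ℝ) * (nm g : ℝ) ^ (-(7 / 6) : ℝ)) := by
              rw [Real.mul_rpow ha0.le hc0.le]
              have ea : (nm e : ℝ) ^ (-(5 / 3) : ℝ) =
                  (nm e : ℝ) ^ (-(1 / 2) : ℝ) * (nm e : ℝ) ^ (-(7 / 6) : ℝ) := by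
                rw [← Real.rpow_add ha0]; norm_num
              have ec : (nm g : ℝ) ^ (-(5 / 3) : ℝ) =
                  (nm g : ℝ) ^ (-(1 / 2) : ℝ) * (nm g : ℝ) ^ (-(7 / 6) : ℝ) := by
                rw [← Real.rpow_add hc0]; norm_num
              rw [ea, ec]; ring
            rw [e1, mul_assoc (Z ^ (-(1 / 2) : ℝ))]
            have e2 : ((nm e : ℝ) * nm g) ^ (-(1 / 2) : ℝ) ≤ Z ^ (-(1 / 2) : ℝ) :=
              Real.rpow_le_rpow_of_nonpos hZ0 hgZ (by norm_num)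
            gcongr
        _ = Z ^ (-(1 / 2) : ℝ) * (nm e : ℝ) ^ (-(7 / 6) : ℝ) *
              ∑ g ∈ G e, (nm g : ℝ) ^ (-(7 / 6) : ℝ) := by rw [mul_sum]
        _ ≤ _ := by
            have := h2 (G e) (fun g hgg => hD g (hG e he g hgg).1)
            gcongr
    calc ∑ f ∈ Div277.dvs e, ∑ g ∈ G e, ((nm e : ℝ) ^ (-(5 / 3) : ℝ) *
        (nm g : ℝ) ^ (-(5 / 3) : ℝ))
        ≤ ∑ f ∈ Div277.dvs e, Z ^ (-(1 / 2) : ℝ) * (nm e : ℝ) ^ (-(7 / 6) : ℝ) * C2 :=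
          sum_le_sum fun f _ => hg
      _ = (Div277.tau e : ℝ) * (Z ^ (-(1 / 2) : ℝ) * (nm e : ℝ) ^ (-(7 / 6) : ℝ) * C2) := by
          rw [sum_const, nsmul_eq_mul]; rfl
      _ ≤ (C3 * (nm e : ℝ) ^ ((1 : ℝ) / 12)) *
            (Z ^ (-(1 / 2) : ℝ) * (nm e : ℝ) ^ (-(7 / 6) : ℝ) * C2) := by
          have := h3 e (hD e he)
          gcongr
      _ = (C3 * C2 * Z ^ (-(1 / 2) : ℝ)) *
            ((nm e : ℝ) ^ ((1 : ℝ) / 12) * (nm e : ℝ) ^ (-(7 / 6) : ℝ)) := by ring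
      _ = _ := by
          rw [← Real.rpow_add ha0]; norm_num
  calc ∑ e ∈ D, ∑ f ∈ Div277.dvs e, ∑ g ∈ G e, ((nm e : ℝ) ^ (-(5 / 3) : ℝ) *
      (nm g : ℝ) ^ (-(5 / 3) : ℝ))
      ≤ ∑ e ∈ D, (C3 * C2 * Z ^ (-(1 / 2) : ℝ)) * (nm e : ℝ) ^ (-(13 / 12) : ℝ) :=
        sum_le_sum step
    _ = (C3 * C2 * Z ^ (-(1 / 2) : ℝ)) * ∑ e ∈ D, (nm e : ℝ) ^ (-(13 / 12) : ℝ) := by
        rw [mul_sum]
    _ ≤ (C3 * C2 * Z ^ (-(1 / 2) : ℝ)) * C1 := by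
        have := h1 D hD
        gcongr
    _ = _ := by ring

/-- weight of the first term. -/
lemma wsum1 {ε : ℝ} (hε : 0 < ε) : ∃ C : ℝ, 0 < C ∧ ∀ (D : Finset Eis), (∀ e ∈ D, e ≠ 0) →
    ∀ N : ℝ, 1 ≤ N → (∀ e ∈ D, (nm e : ℝ) ≤ N) →
    ∀ G : Eis → Finset Eis, (∀ e ∈ D, ∀ g ∈ G e, g ∈ D) →
    ∑ e ∈ D, ∑ f ∈ Div277.dvs e, ∑ g ∈ G e, ((nm e : ℝ) ^ (-2 : ℝ) *
      (nm g : ℝ) ^ (-1 : ℝ)) ≤ C * N ^ ε := by
  classical
  obtain ⟨C1, hC1, h1⟩ := sum_prim_rpow (s := 3 / 2) (by norm_num)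
  obtain ⟨C2, hC2, h2⟩ := sum_prim_rpow (s := 1 + ε) (by linarith)
  obtain ⟨C3, hC3, h3⟩ := Div277.tau_le_rpow (ε := 1 / 2) (by norm_num)
  refine ⟨C3 * C1 * C2, by positivity, fun D hD N hN hDN G hG => ?_⟩
  have hN0 : 0 < N := by linarith
  have step : ∀ e ∈ D, ∑ f ∈ Div277.dvs e, ∑ g ∈ G e, ((nm e : ℝ) ^ (-2 : ℝ) *
      (nm g : ℝ) ^ (-1 : ℝ)) ≤ (C3 * C2 * N ^ ε) * (nm e : ℝ) ^ (-(3 / 2) : ℝ) := by
    intro e he
    have ha : (1 : ℝ) ≤ nm e := one_le_nm' (hD e he)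
    have ha0 : (0 : ℝ) < nm e := by linarith
    have hg : ∑ g ∈ G e, ((nm e : ℝ) ^ (-2 : ℝ) * (nm g : ℝ) ^ (-1 : ℝ))
        ≤ N ^ ε * (nm e : ℝ) ^ (-2 : ℝ) * C2 := by
      calc ∑ g ∈ G e, ((nm e : ℝ) ^ (-2 : ℝ) * (nm g : ℝ) ^ (-1 : ℝ))
          ≤ ∑ g ∈ G e, N ^ ε * (nm e : ℝ) ^ (-2 : ℝ) * (nm g : ℝ) ^ (-(1 + ε)) := by
            refine sum_le_sum fun g hgg => ?_
            have hgD := hG e he g hgg
            have hc : (1 : ℝ) ≤ nm g := one_le_nm' (hD g hgD)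
            have hc0 : (0 : ℝ) < nm g := by linarith
            have e1 : (nm g : ℝ) ^ (-1 : ℝ) = (nm g : ℝ) ^ ε * (nm g : ℝ) ^ (-(1 + ε)) := by
              rw [← Real.rpow_add hc0]; congr 1; ring
            have e2 : (nm g : ℝ) ^ ε ≤ N ^ ε := Real.rpow_le_rpow hc0.le (hDN g hgD) hε.le
            rw [e1]
            calc (nm e : ℝ) ^ (-2 : ℝ) * ((nm g : ℝ) ^ ε * (nm g : ℝ) ^ (-(1 + ε)))
                = (nm g : ℝ) ^ ε * (nm e : ℝ) ^ (-2 : ℝ) * (nm g : ℝ) ^ (-(1 + ε)) := by ring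
              _ ≤ _ := by gcongr
        _ = N ^ ε * (nm e : ℝ) ^ (-2 : ℝ) * ∑ g ∈ G e, (nm g : ℝ) ^ (-(1 + ε)) := by
            rw [mul_sum]
        _ ≤ _ := by
            have := h2 (G e) (fun g hgg => hD g (hG e he g hgg))
            gcongr
    calc ∑ f ∈ Div277.dvs e, ∑ g ∈ G e, ((nm e : ℝ) ^ (-2 : ℝ) * (nm g : ℝ) ^ (-1 : ℝ))
        ≤ ∑ f ∈ Div277.dvs e, N ^ ε * (nm e : ℝ) ^ (-2 : ℝ) * C2 := sum_le_sum fun f _ => hg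
      _ = (Div277.tau e : ℝ) * (N ^ ε * (nm e : ℝ) ^ (-2 : ℝ) * C2) := by
          rw [sum_const, nsmul_eq_mul]; rfl
      _ ≤ (C3 * (nm e : ℝ) ^ ((1 : ℝ) / 2)) * (N ^ ε * (nm e : ℝ) ^ (-2 : ℝ) * C2) := by
          have := h3 e (hD e he)
          gcongr
      _ = (C3 * C2 * N ^ ε) * ((nm e : ℝ) ^ ((1 : ℝ) / 2) * (nm e : ℝ) ^ (-2 : ℝ)) := by ring
      _ = _ := by
          rw [← Real.rpow_add ha0]; norm_num
  calc ∑ e ∈ D, ∑ f ∈ Div277.dvs e, ∑ g ∈ G e, ((nm e : ℝ) ^ (-2 : ℝ) * (nm g : ℝ) ^ (-1 : ℝ))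
      ≤ ∑ e ∈ D, (C3 * C2 * N ^ ε) * (nm e : ℝ) ^ (-(3 / 2) : ℝ) := sum_le_sum step
    _ = (C3 * C2 * N ^ ε) * ∑ e ∈ D, (nm e : ℝ) ^ (-(3 / 2) : ℝ) := by
        rw [mul_sum]
    _ ≤ (C3 * C2 * N ^ ε) * C1 := by
        have := h1 D hD
        gcongr
    _ = _ := by ring

/-! ### arithmetic of one term -/

lemma arith3 {A B a b c : ℝ} (hA : 0 < A) (hB : 0 < B) (ha : 1 ≤ a) (hb : 1 ≤ b) (hc : 1 ≤ c) :
    A * a / (B * b) * ((b * B ^ 2 / (a ^ 2 * A) + B / (a * c) * (b * B ^ 2 / (a ^ 2 * A)) ^ ((1 : ℝ) / 3)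
      + (b * B ^ 2 / (a ^ 2 * A) * (B / (a * c))) ^ ((2 : ℝ) / 3)) * (B / (a * c)))
      ≤ B ^ (2 : ℝ) * (a ^ (-2 : ℝ) * c ^ (-1 : ℝ)) +
        A ^ ((2 : ℝ) / 3) * B ^ ((5 : ℝ) / 3) * (a ^ (-(5 / 3) : ℝ) * c ^ (-(5 / 3) : ℝ)) +
        A ^ ((1 : ℝ) / 3) * B ^ (2 : ℝ) * (a ^ (-(5 / 3) : ℝ) * c ^ (-(5 / 3) : ℝ)) := by
  obtain ⟨A, rfl⟩ : ∃ x, A = Real.exp x := ⟨Real.log A, (Real.exp_log hA).symm⟩
  obtain ⟨B, rfl⟩ : ∃ x, B = Real.exp x := ⟨Real.log B, (Real.exp_log hB).symm⟩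
  obtain ⟨a, rfl⟩ : ∃ x, a = Real.exp x := ⟨Real.log a, (Real.exp_log (by linarith)).symm⟩
  obtain ⟨b, rfl⟩ : ∃ x, b = Real.exp x := ⟨Real.log b, (Real.exp_log (by linarith)).symm⟩
  obtain ⟨c, rfl⟩ : ∃ x, c = Real.exp x := ⟨Real.log c, (Real.exp_log (by linarith)).symm⟩
  rw [← Real.exp_zero, Real.exp_le_exp] at ha hb hc
  rw [mul_comm (_ + _ + _) (_ / _), mul_add, mul_add, mul_add, mul_add]
  simp only [← Real.rpow_natCast, Nat.cast_ofNat]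
  simp only [← Real.exp_add, ← Real.exp_mul, ← Real.exp_sub]
  refine add_le_add (add_le_add ?_ ?_) ?_ <;> rw [Real.exp_le_exp] <;> linarith

/-! ### one term -/

lemma term_le (H : SyFacts) (hL1 : L1Prop) (hHB : HBProp) {ε : ℝ} (hε : 0 < ε) (hε2 : ε ≤ 1 / 12) :
    ∃ C : ℝ, 0 < C ∧ ∀ w X A B : ℝ, 2 ≤ X → 1 ≤ A → 1 ≤ B → B ≤ X ^ 2 →
      ∀ (𝓑 : Finset Eis) (β : Eis → ℂ), T411.Cls w B 𝓑 β → ∀ e f g : Eis, IsPrim e → IsPrim g →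
      IsPrim f → nm f ≤ nm e →
      trm A B 𝓑 β e f g ≤ C * X ^ (16 * ε) * (B ^ (2 : ℝ) * ((nm e : ℝ) ^ (-2 : ℝ) *
        (nm g : ℝ) ^ (-1 : ℝ)) + (A ^ ((2 : ℝ) / 3) * B ^ ((5 : ℝ) / 3) +
        A ^ ((1 : ℝ) / 3) * B ^ (2 : ℝ)) * ((nm e : ℝ) ^ (-(5 / 3) : ℝ) *
        (nm g : ℝ) ^ (-(5 / 3) : ℝ))) := by
  classical
  obtain ⟨C, hC, hom⟩ := all_om_eps H hL1 hHB hε hε2
  refine ⟨Real.pi * C * 64, by positivity, ?_⟩
  intro w X A B hX hA hB hBX 𝓑 β hcls e f g he hg hf hfe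
  have hA0 : 0 < A := by linarith
  have hB0 : 0 < B := by linarith
  have ha : (1 : ℝ) ≤ nm e := one_le_nm' he.ne_zero
  have hb : (1 : ℝ) ≤ nm f := one_le_nm' hf.ne_zero
  have hc : (1 : ℝ) ≤ nm g := one_le_nm' hg.ne_zero
  have hfe' : (nm f : ℝ) ≤ nm e := by exact_mod_cast hfe
  set a : ℝ := (nm e : ℝ) with ha_def
  set b : ℝ := (nm f : ℝ) with hb_def
  set c : ℝ := (nm g : ℝ) with hc_def
  have ha0 : 0 < a := by linarith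
  have hb0 : 0 < b := by linarith
  have hc0 : 0 < c := by linarith
  set K : ℝ := b * B ^ 2 / (a ^ 2 * A) with hK
  set B' : ℝ := 2 * B / (a * c) with hB'
  have hK0 : 0 < K := by positivity
  have hB'0 : 0 < B' := by positivity
  set M : ℝ := X ^ (16 * ε) * (K + B' * K ^ ((1 : ℝ) / 3) + (K * B') ^ ((2 : ℝ) / 3)) with hM
  have hX0 : 0 < X := by linarith
  have hX1 : 1 ≤ X := by linarith
  have hM0 : 0 ≤ M := by positivity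
  -- size of `(1+K) B'`
  have hsize : (1 + K) * B' ≤ X ^ (8 : ℝ) := by
    have h1 : K ≤ B ^ 2 := by
      rw [hK, div_le_iff₀ (by positivity)]
      have h2 : b ≤ a ^ 2 := by nlinarith
      have h3 : (0 : ℝ) ≤ B ^ 2 := by positivity
      have h4 : b ≤ a ^ 2 * A := by nlinarith [mul_le_mul_of_nonneg_left hA (by positivity : (0:ℝ) ≤ a ^ 2)]
      nlinarith
    have h2 : B' ≤ 2 * B := by
      rw [hB']
      exact div_le_self (by positivity) (by nlinarith)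
    have h3 : (1 : ℝ) ≤ B ^ 2 := one_le_pow₀ hB
    have h4 : (1 + K) * B' ≤ (2 * B ^ 2) * (2 * B) :=
      mul_le_mul (by linarith) h2 hB'0.le (by positivity)
    have h5 : B ^ 3 ≤ (X ^ 2) ^ 3 := pow_le_pow_left₀ hB0.le hBX 3
    have h6 : (4 : ℝ) ≤ X ^ 2 := by nlinarith
    have h7 : (0 : ℝ) ≤ (X ^ 2) ^ 3 := by positivity
    calc (1 + K) * B' ≤ 4 * B ^ 3 := by linarith [h4]
      _ ≤ X ^ 2 * (X ^ 2) ^ 3 := by nlinarith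
      _ = X ^ (8 : ℝ) := by
          rw [show (8 : ℝ) = ((8 : ℕ) : ℝ) by norm_num, Real.rpow_natCast]; ring
  have hbound : ∀ u : ℝ, ∀ S : Finset Eis, (∀ h ∈ S, T411.isNonCubeE e f h) →
      ∑ h ∈ S, omx (nm f * B ^ 2 / ((nm e : ℝ) ^ 2 * A) / nm h) *
        ‖∑ n ∈ Tn 𝓑 e g, bet β e f g u n * sy h n‖ ^ 2 ≤ C * M * (16 * B') := by
    intro u S hS
    by_cases hB1 : 1 ≤ B'
    · have h1 := hom B' K hB1 hK0 (Tn 𝓑 e g) (fun n hn => Tn_spec hcls he.ne_zero hg.ne_zero hn)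
        (bet β e f g u) S (fun h hh => (hS h hh).1)
      refine h1.trans ?_
      have h2 := sum_bet_le H hcls (f := f) he.ne_zero hg.ne_zero hB0.le u
      have h3 : ((1 + K) * B') ^ (2 * ε) ≤ X ^ (16 * ε) := by
        calc ((1 + K) * B') ^ (2 * ε) ≤ (X ^ (8 : ℝ)) ^ (2 * ε) :=
              Real.rpow_le_rpow (by positivity) hsize (by positivity)
          _ = X ^ (16 * ε) := by rw [← Real.rpow_mul hX0.le]; congr 1; ring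
      have h4 : 0 ≤ K + B' * K ^ ((1 : ℝ) / 3) + (K * B') ^ ((2 : ℝ) / 3) := by positivity
      have h5 : 0 ≤ ∑ n ∈ Tn 𝓑 e g, ‖bet β e f g u n‖ ^ 2 := sum_nonneg fun _ _ => by positivity
      rw [hM]
      gcongr
    · have hem : Tn 𝓑 e g = ∅ := by
        rw [eq_empty_iff_forall_notMem]
        intro n hn
        obtain ⟨h1, _, h3⟩ := Tn_spec hcls he.ne_zero hg.ne_zero hn
        have h4 : (1 : ℝ) ≤ nm n := one_le_nm' h1.ne_zero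
        exact hB1 (h4.trans h3)
      rw [hem]
      simp only [sum_empty, norm_zero]
      have : ∀ h ∈ S, omx (nm f * B ^ 2 / ((nm e : ℝ) ^ 2 * A) / nm h) * (0 : ℝ) ^ 2 = 0 := by
        intro h _; norm_num
      rw [sum_congr rfl this, sum_const_zero]
      positivity
  have htrm := trm_le hA0 hB0 𝓑 β e f g _ hbound
  refine htrm.trans ?_
  have har := arith3 hA0 hB0 ha hb hc
  set B2 : ℝ := B / (a * c) with hB2
  have hB20 : 0 < B2 := by positivity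
  have hBB : B' = 2 * B2 := by rw [hB', hB2]; ring
  have hpow : (K * B') ^ ((2 : ℝ) / 3) ≤ 2 * (K * B2) ^ ((2 : ℝ) / 3) := by
    rw [hBB, show K * (2 * B2) = 2 * (K * B2) by ring, Real.mul_rpow (by norm_num) (by positivity)]
    have : (2 : ℝ) ^ ((2 : ℝ) / 3) ≤ 2 := by
      calc (2 : ℝ) ^ ((2 : ℝ) / 3) ≤ 2 ^ (1 : ℝ) :=
            Real.rpow_le_rpow_of_exponent_le (by norm_num) (by norm_num)
        _ = 2 := by norm_num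
    gcongr
  have hX16 : 0 ≤ X ^ (16 * ε) := by positivity
  have hcoef : 0 ≤ A * a / (B * b) := by positivity
  calc A * a / (B * b) * (Real.pi * (C * M * (16 * B')))
      = Real.pi * C * 16 * X ^ (16 * ε) * (A * a / (B * b) *
          ((K + B' * K ^ ((1 : ℝ) / 3) + (K * B') ^ ((2 : ℝ) / 3)) * B')) := by
        rw [hM]; ring
    _ ≤ Real.pi * C * 16 * X ^ (16 * ε) * (A * a / (B * b) *
          ((2 * K + 2 * B2 * K ^ ((1 : ℝ) / 3) + 2 * (K * B2) ^ ((2 : ℝ) / 3)) * (2 * B2))) := by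
        have h9 : K + B' * K ^ ((1 : ℝ) / 3) + (K * B') ^ ((2 : ℝ) / 3)
            ≤ 2 * K + 2 * B2 * K ^ ((1 : ℝ) / 3) + 2 * (K * B2) ^ ((2 : ℝ) / 3) := by
          have : B' * K ^ ((1 : ℝ) / 3) = 2 * B2 * K ^ ((1 : ℝ) / 3) := by rw [hBB]
          linarith
        have h10 : (K + B' * K ^ ((1 : ℝ) / 3) + (K * B') ^ ((2 : ℝ) / 3)) * B' ≤
            (2 * K + 2 * B2 * K ^ ((1 : ℝ) / 3) + 2 * (K * B2) ^ ((2 : ℝ) / 3)) * (2 * B2) := by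
          refine (mul_le_mul_of_nonneg_right h9 hB'0.le).trans (le_of_eq ?_)
          rw [hBB]
        gcongr
    _ = Real.pi * C * 64 * X ^ (16 * ε) * (A * a / (B * b) *
          ((K + B2 * K ^ ((1 : ℝ) / 3) + (K * B2) ^ ((2 : ℝ) / 3)) * B2)) := by ring
    _ ≤ Real.pi * C * 64 * X ^ (16 * ε) * (B ^ (2 : ℝ) * (a ^ (-2 : ℝ) * c ^ (-1 : ℝ)) +
        A ^ ((2 : ℝ) / 3) * B ^ ((5 : ℝ) / 3) * (a ^ (-(5 / 3) : ℝ) * c ^ (-(5 / 3) : ℝ)) +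
        A ^ ((1 : ℝ) / 3) * B ^ (2 : ℝ) * (a ^ (-(5 / 3) : ℝ) * c ^ (-(5 / 3) : ℝ))) := by
        gcongr
    _ = _ := by ring

/-! ### region 2 -/

open Classical in
/-- **region 2**: all terms with `Z ≤ nm e * nm g`. -/
theorem region2 (H : SyFacts) (hL1 : L1Prop) (hHB : HBProp) {ε : ℝ} (hε : 0 < ε) :
    ∃ C : ℝ, 0 < C ∧ ∀ w X A B Z : ℝ, 2 ≤ X → 1 ≤ A → 1 ≤ B → B ≤ X ^ 2 → 1 ≤ Z →
      ∀ (𝓑 : Finset Eis) (β : Eis → ℂ), T411.Cls w B 𝓑 β →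
      ∑ e ∈ 𝓑.biUnion Div277.dvs, ∑ f ∈ Div277.dvs e,
        ∑ g ∈ ((𝓑.biUnion Div277.dvs).filter (IsCoprime · e)).filter
          (fun g => Z ≤ (nm e : ℝ) * nm g), trm A B 𝓑 β e f g
      ≤ C * X ^ ε * (A ^ ((2 : ℝ) / 3) * B ^ ((5 : ℝ) / 3) * Z ^ (-(1 / 2) : ℝ) +
          A ^ ((1 : ℝ) / 3) * B ^ (2 : ℝ) * Z ^ (-(1 / 2) : ℝ) + B ^ (2 : ℝ)) := by
  set ε₁ : ℝ := min (1 / 12) (ε / 32) with hε₁
  have hε₁0 : 0 < ε₁ := lt_min (by norm_num) (by positivity)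
  have hε₁1 : ε₁ ≤ 1 / 12 := min_le_left _ _
  have hε₁2 : ε₁ ≤ ε / 32 := min_le_right _ _
  obtain ⟨C1, hC1, h1⟩ := term_le H hL1 hHB hε₁0 hε₁1
  obtain ⟨C2, hC2, h2⟩ := wsum2
  obtain ⟨C3, hC3, h3⟩ := wsum1 (ε := ε / 6) (by positivity)
  refine ⟨C1 * (C2 + C3), by positivity, ?_⟩
  intro w X A B Z hX hA hB hBX hZ 𝓑 β hcls
  have hA0 : 0 < A := by linarith
  have hB0 : 0 < B := by linarith
  have hX0 : 0 < X := by linarith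
  have hX1 : 1 ≤ X := by linarith
  set D := 𝓑.biUnion Div277.dvs with hD
  have hDv : D = Dv 𝓑 := rfl
  have hprim : ∀ x ∈ D, IsPrim x := fun x hx => Dv_prim hcls (by rw [← hDv]; exact hx)
  have hne : ∀ x ∈ D, x ≠ 0 := fun x hx => (hprim x hx).ne_zero
  have hnm : ∀ x ∈ D, (nm x : ℝ) ≤ 2 * B := fun x hx => Dv_nm_le hcls (by rw [← hDv]; exact hx)
  set G : Eis → Finset Eis := fun e => (D.filter (IsCoprime · e)).filter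
          (fun g => Z ≤ (nm e : ℝ) * nm g) with hG
  have hGD : ∀ e ∈ D, ∀ g ∈ G e, g ∈ D ∧ Z ≤ nm e * nm g := by
    intro e he g hg
    simp only [hG, mem_filter] at hg
    exact ⟨hg.1.1, hg.2⟩
  set T2 : ℝ := A ^ ((2 : ℝ) / 3) * B ^ ((5 : ℝ) / 3) + A ^ ((1 : ℝ) / 3) * B ^ (2 : ℝ) with hT2
  have hT20 : 0 ≤ T2 := by positivity
  have hXe : X ^ (16 * ε₁) ≤ X ^ (ε / 2) :=
    Real.rpow_le_rpow_of_exponent_le hX1 (by linarith)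
  have hstep : ∑ e ∈ D, ∑ f ∈ Div277.dvs e, ∑ g ∈ G e, trm A B 𝓑 β e f g
      ≤ C1 * X ^ (16 * ε₁) * (B ^ (2 : ℝ) * ∑ e ∈ D, ∑ f ∈ Div277.dvs e, ∑ g ∈ G e,
          ((nm e : ℝ) ^ (-2 : ℝ) * (nm g : ℝ) ^ (-1 : ℝ)) +
        T2 * ∑ e ∈ D, ∑ f ∈ Div277.dvs e, ∑ g ∈ G e,
          ((nm e : ℝ) ^ (-(5 / 3) : ℝ) * (nm g : ℝ) ^ (-(5 / 3) : ℝ))) := by
    have hR : C1 * X ^ (16 * ε₁) * (B ^ (2 : ℝ) * ∑ e ∈ D, ∑ f ∈ Div277.dvs e, ∑ g ∈ G e,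
          ((nm e : ℝ) ^ (-2 : ℝ) * (nm g : ℝ) ^ (-1 : ℝ)) +
        T2 * ∑ e ∈ D, ∑ f ∈ Div277.dvs e, ∑ g ∈ G e,
          ((nm e : ℝ) ^ (-(5 / 3) : ℝ) * (nm g : ℝ) ^ (-(5 / 3) : ℝ)))
        = ∑ e ∈ D, ∑ f ∈ Div277.dvs e, ∑ g ∈ G e, (C1 * X ^ (16 * ε₁) * (B ^ (2 : ℝ) *
          ((nm e : ℝ) ^ (-2 : ℝ) * (nm g : ℝ) ^ (-1 : ℝ)) +
        T2 * ((nm e : ℝ) ^ (-(5 / 3) : ℝ) * (nm g : ℝ) ^ (-(5 / 3) : ℝ)))) := by
      simp only [mul_add, mul_sum, sum_add_distrib]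
    rw [hR]
    refine sum_le_sum fun e he => sum_le_sum fun f hf => sum_le_sum fun g hg => ?_
    have hf1 : IsPrim f := Div277.isPrim_of_mem_dvs hf
    have hf2 : f ∣ e := Div277.dvd_of_mem_dvs hf
    have hf3 : nm f ≤ nm e := Div277.nm_le_of_dvd (hne e he) hf2
    have := h1 w X A B hX hA hB hBX 𝓑 β hcls e f g (hprim e he) (hprim g (hGD e he g hg).1) hf1 hf3
    exact this
  have hw2 := h2 D hne Z hZ G hGD
  have hw1 := h3 D hne (2 * B) (by linarith) hnm G (fun e he g hg => (hGD e he g hg).1)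
  have hNe : (2 * B) ^ (ε / 6) ≤ X ^ (ε / 2) := by
    calc (2 * B) ^ (ε / 6) ≤ (X ^ (3 : ℝ)) ^ (ε / 6) := by
          refine Real.rpow_le_rpow (by positivity) ?_ (by positivity)
          calc 2 * B ≤ X * X ^ 2 := by nlinarith
            _ = X ^ (3 : ℝ) := by
                rw [show (3 : ℝ) = ((3 : ℕ) : ℝ) by norm_num, Real.rpow_natCast]; ring
      _ = X ^ (ε / 2) := by rw [← Real.rpow_mul hX0.le]; congr 1; ring
  have hXh : 1 ≤ X ^ (ε / 2) := Real.one_le_rpow hX1 (by positivity)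
  have hXX : X ^ (ε / 2) * X ^ (ε / 2) = X ^ ε := by
    rw [← Real.rpow_add hX0]; congr 1; ring
  refine hstep.trans ?_
  have hZp : 0 ≤ Z ^ (-(1 / 2) : ℝ) := by positivity
  calc C1 * X ^ (16 * ε₁) * (B ^ (2 : ℝ) * ∑ e ∈ D, ∑ f ∈ Div277.dvs e, ∑ g ∈ G e,
          ((nm e : ℝ) ^ (-2 : ℝ) * (nm g : ℝ) ^ (-1 : ℝ)) +
        T2 * ∑ e ∈ D, ∑ f ∈ Div277.dvs e, ∑ g ∈ G e,
          ((nm e : ℝ) ^ (-(5 / 3) : ℝ) * (nm g : ℝ) ^ (-(5 / 3) : ℝ)))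
      ≤ C1 * X ^ (ε / 2) * (B ^ (2 : ℝ) * (C3 * X ^ (ε / 2)) +
          T2 * (C2 * Z ^ (-(1 / 2) : ℝ))) := by
        have hw1' := hw1.trans (mul_le_mul_of_nonneg_left hNe hC3.le)
        gcongr
    _ ≤ C1 * X ^ (ε / 2) * (B ^ (2 : ℝ) * ((C2 + C3) * X ^ (ε / 2)) +
          T2 * ((C2 + C3) * X ^ (ε / 2) * Z ^ (-(1 / 2) : ℝ))) := by
        have h10 : C3 * X ^ (ε / 2) ≤ (C2 + C3) * X ^ (ε / 2) := by
          gcongr; linarith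
        have h11 : C2 ≤ (C2 + C3) * X ^ (ε / 2) := by nlinarith
        gcongr
    _ = C1 * (C2 + C3) * (X ^ (ε / 2) * X ^ (ε / 2)) *
          (T2 * Z ^ (-(1 / 2) : ℝ) + B ^ (2 : ℝ)) := by ring
    _ = _ := by rw [hXX, hT2]; ring

end Crest.Agent.R012.TNXb470
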