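import Crest.Agent.R012.OmB_52
import Crest.Agent.R012.Spec_T_411
import Crest.Agent.R012.Glue1_372
import Crest.Agent.R012.LS2Main_448

/-!
# Row 12, item TNX: conversions between `NonCube_52` / `OmB_52` and `Spec_T_411`
-/

set_option autoImplicit false

noncomputable section

namespace Crest.Agent.R012.TNXk766

open Finset Eis Crest.Agent.R012.NonCube52 LS448

/-! ### the large sieves, unconditional -/

theorem l1Prop : L1Prop := Glue372.L1Prop_holds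

theorem hbProp : HBProp := Glue372.HBProp_of_final LS448.hb_final

theorem syH : CharSum852.SyFacts := Sym645.syFacts

/-! ### small noncubes -/

lemma ncube_iff {h : Eis} : T411.NCube h ↔ h ≠ 0 ∧ ¬ ∃ t, h = t ^ 3 := by
  unfold T411.NCube
  constructor
  · rintro ⟨h1, h2⟩; exact ⟨h1, fun ⟨t, ht⟩ => h2 t ht⟩
  · rintro ⟨h1, h2⟩; exact ⟨h1, fun t ht => h2 ⟨t, ht⟩⟩

lemma bl_eq_nz (L : ℝ) : LS2.bl L = nz L := by
  classical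
  ext h
  unfold LS2.bl
  rw [Finset.mem_erase, mem_ball, mem_nz]
  constructor
  · rintro ⟨h0, h1⟩
    exact ⟨h0, (Nat.le_floor_iff' (nm_pos.mpr h0).ne').mp h1⟩
  · rintro ⟨h0, h1⟩
    exact ⟨h0, Nat.le_floor h1⟩

lemma ncs_eq (L : ℝ) : ncs L = T411.NC L := by
  classical
  ext h
  unfold ncs T411.NC
  rw [Finset.mem_filter, Finset.mem_filter, bl_eq_nz, ncube_iff, mem_nz]
  tauto

lemma mem_NC {L : ℝ} {h : Eis} : h ∈ T411.NC L ↔ (nm h : ℝ) ≤ L ∧ T411.NCube h := by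
  classical
  rw [← ncs_eq]
  unfold ncs
  rw [Finset.mem_filter, mem_nz, ncube_iff]
  tauto

/-! ### kernels -/

/-- tuples of `Spec_T_411` to kernels of `NonCube_52` -/
def ofT (q : ℕ × ℕ × Eis × Eis) : Ker := ((q.1, q.2.1), (q.2.2.1, q.2.2.2))

lemma ofT_injective : Function.Injective ofT := by
  rintro ⟨a, b, c, d⟩ ⟨a', b', c', d'⟩ h
  simp only [ofT, Prod.mk.injEq] at h
  obtain ⟨⟨h1, h2⟩, h3, h4⟩ := h
  subst h1; subst h2; subst h3; subst h4; rfl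

@[simp] lemma kv_ofT (q : ℕ × ℕ × Eis × Eis) : kv (ofT q) = T411.kv q := rfl

open Classical in
/-- the kernels of `T411.Ker H` as kernels of `NonCube_52` -/
def ker52 (H : ℝ) : Finset Ker := (T411.Ker H).image ofT

lemma mem_KerT {H : ℝ} (hH : 0 ≤ H) {q : ℕ × ℕ × Eis × Eis} :
    q ∈ T411.Ker H ↔ Good (ofT q) ∧ (nm (T411.kv q) : ℝ) ≤ H := by
  classical
  unfold T411.Ker
  rw [Finset.mem_filter, Finset.mem_product, Finset.mem_product, Finset.mem_product,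
    Finset.mem_range, Finset.mem_range, LS2.mem_S hH, LS2.mem_S hH]
  constructor
  · rintro ⟨⟨h1, h2, ⟨h3, h4, h5⟩, h6, h7, h8⟩, h9, h10⟩
    exact ⟨⟨h1, h2, h4, h7, h5, h8, h9⟩, h10⟩
  · rintro ⟨g, h10⟩
    have e := nm_kv_ge (ofT q)
    have a1 := one_le_nm1 g
    have a2 := one_le_nm2 g
    have e' : (nm q.2.2.1 : ℝ) * (nm q.2.2.2 : ℝ) ^ 2 ≤ nm (T411.kv q) := e
    have b1 : (1 : ℝ) ≤ nm q.2.2.1 := a1
    have b2 : (1 : ℝ) ≤ nm q.2.2.2 := a2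
    have b3 : (1 : ℝ) ≤ (nm q.2.2.2 : ℝ) ^ 2 := one_le_pow₀ b2
    have b4 : (nm q.2.2.2 : ℝ) ≤ (nm q.2.2.2 : ℝ) ^ 2 := by nlinarith
    refine ⟨⟨g.hi, g.hj, ⟨?_, g.prim1, g.sqf1⟩, ?_, g.prim2, g.sqf2⟩, g.cop, h10⟩
    · nlinarith
    · nlinarith

lemma mem_ker52 {H : ℝ} (hH : 0 ≤ H) {κ : Ker} : κ ∈ ker52 H ↔ Good κ ∧ (nm (kv κ) : ℝ) ≤ H := by
  classical
  unfold ker52
  rw [Finset.mem_image]
  constructor
  · rintro ⟨q, hq, rfl⟩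
    exact (mem_KerT hH).mp hq
  · intro h
    refine ⟨(κ.1.1, κ.1.2, κ.2.1, κ.2.2), (mem_KerT hH).mpr h, rfl⟩

lemma sum_ker52 (H : ℝ) (Φ : Eis → ℝ) :
    ∑ κ ∈ ker52 H, Φ (kv κ) = ∑ q ∈ T411.Ker H, Φ (T411.kv q) := by
  classical
  unfold ker52
  rw [Finset.sum_image (fun x _ y _ hxy => ofT_injective hxy)]
  exact Finset.sum_congr rfl fun q _ => rfl

/-- for `H' ≤ H` all good kernels of norm `≤ H'` are in `ker52 H`. -/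
lemma mem_ker52_of_le {H' H : ℝ} (hH : 0 ≤ H) (h : H' ≤ H) (κ : Ker) (g : Good κ)
    (hn : (nm (kv κ) : ℝ) ≤ H') : κ ∈ ker52 H := (mem_ker52 hH).mpr ⟨g, hn.trans h⟩

/-! ### weights and twisted sums -/

lemma om_eq (K : ℝ) (h : Eis) : T411.om K h = omx (K / nm h) := rfl

/-- twisted coefficients -/
def tb (β : Eis → ℂ) (u : ℝ) (b : Eis) : ℂ := β b * (nm b : ℂ) ^ ((u : ℂ) * Complex.I)

lemma tws_eq (BB : Finset Eis) (β : Eis → ℂ) (h : Eis) (u : ℝ) :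
    T411.tws BB β h u = ∑ b ∈ BB, tb β u b * sy h b := rfl

lemma norm_twist {b : Eis} (hb : b ≠ 0) (u : ℝ) :
    ‖((nm b : ℂ) ^ ((u : ℂ) * Complex.I))‖ = 1 := by
  have h1 : (0 : ℝ) < nm b := by exact_mod_cast nm_pos.mpr hb
  have h2 : ((nm b : ℕ) : ℂ) = (((nm b : ℕ) : ℝ) : ℂ) := by push_cast; rfl
  rw [h2, Complex.norm_cpow_eq_rpow_re_of_pos h1]
  simp

lemma norm_tb (β : Eis → ℂ) (u : ℝ) {b : Eis} (hb : b ≠ 0) : ‖tb β u b‖ = ‖β b‖ := by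
  unfold tb
  rw [norm_mul, norm_twist hb, mul_one]

lemma norm_tb_mask (β : Eis → ℂ) (u : ℝ) {b : Eis} (hb : b ≠ 0) (m : Eis) :
    ‖tb β u b * (1 - cop m b)‖ = ‖β b * (1 - cop m b)‖ := by
  rw [norm_mul, norm_mul, norm_tb β u hb]

lemma sum_norm_tb (BB : Finset Eis) (hBB : ∀ b ∈ BB, T411.SqP b) (β : Eis → ℂ) (u : ℝ) :
    ∑ b ∈ BB, ‖tb β u b‖ ^ 2 = ∑ b ∈ BB, ‖β b‖ ^ 2 :=
  Finset.sum_congr rfl fun b hb => by rw [norm_tb β u (hBB b hb).1.ne_zero]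

lemma continuous_tws (BB : Finset Eis) (hBB : ∀ b ∈ BB, b ≠ 0) (β : Eis → ℂ) (h : Eis) :
    Continuous (fun u : ℝ => T411.tws BB β h u) := by
  unfold T411.tws
  refine continuous_finsetSum _ fun b hb => ?_
  have h1 : ((nm b : ℕ) : ℂ) ≠ 0 := by
    exact_mod_cast (nm_pos.mpr (hBB b hb)).ne'
  have h2 : Continuous (fun u : ℝ => ((nm b : ℂ)) ^ ((u : ℂ) * Complex.I)) := by
    have : (fun u : ℝ => ((nm b : ℂ)) ^ ((u : ℂ) * Complex.I)) =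
        fun u : ℝ => Complex.exp (Complex.log (nm b : ℂ) * ((u : ℂ) * Complex.I)) := by
      funext u
      rw [Complex.cpow_def_of_ne_zero h1]
    rw [this]
    fun_prop
  exact (continuous_const.mul h2).mul continuous_const

/-! ### wrappers in the language of `Spec_T_411` -/

/-- (52's `all_om_eps`) all `h ≠ 0`, `ε`-loss. -/
theorem all_om_eps_tws {ε : ℝ} (hε : 0 < ε) (hε2 : ε ≤ 1 / 12) :
    ∃ C : ℝ, 0 < C ∧ ∀ B K : ℝ, 1 ≤ B → 0 < K →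
      ∀ BB : Finset Eis, (∀ b ∈ BB, T411.SqP b ∧ (nm b : ℝ) ≤ B) → ∀ (β : Eis → ℂ) (u : ℝ),
      ∀ S : Finset Eis, (∀ h ∈ S, h ≠ 0) →
      ∑ h ∈ S, T411.om K h * ‖T411.tws BB β h u‖ ^ 2
        ≤ C * (((1 + K) * B) ^ (2 * ε) *
          (K + B * K ^ ((1 : ℝ) / 3) + (K * B) ^ ((2 : ℝ) / 3))) * ∑ b ∈ BB, ‖β b‖ ^ 2 := by
  obtain ⟨C, hC, h⟩ := all_om_eps syH l1Prop hbProp hε hε2
  refine ⟨C, hC, fun B K hB hK BB hBB β u S hS => ?_⟩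
  have := h B K hB hK BB (fun b hb => ⟨(hBB b hb).1.1, (hBB b hb).1.2, (hBB b hb).2⟩) (tb β u) S hS
  rw [sum_norm_tb BB (fun b hb => (hBB b hb).1)] at this
  exact this

/-- (52's `all_om`) all `h ≠ 0`, `K ≤ B^(1-2δ)`, no loss. -/
theorem all_om_tws {δ : ℝ} (hδ : 0 < δ) (hδ2 : δ ≤ 1 / 2) :
    ∃ C : ℝ, 0 < C ∧ ∀ B K : ℝ, 1 ≤ B → 0 < K → K ≤ B ^ (1 - 2 * δ) →
      ∀ BB : Finset Eis, (∀ b ∈ BB, T411.SqP b ∧ (nm b : ℝ) ≤ B) → ∀ (β : Eis → ℂ) (u : ℝ),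
      ∀ S : Finset Eis, (∀ h ∈ S, h ≠ 0) →
      ∑ h ∈ S, T411.om K h * ‖T411.tws BB β h u‖ ^ 2
        ≤ C * K ^ ((1 : ℝ) / 3) * B * ∑ b ∈ BB, ‖β b‖ ^ 2 := by
  obtain ⟨C, hC, h⟩ := all_om syH l1Prop hbProp hδ hδ2
  refine ⟨C, hC, fun B K hB hK hKB BB hBB β u S hS => ?_⟩
  have := h B K hB hK hKB BB (fun b hb => ⟨(hBB b hb).1.1, (hBB b hb).1.2, (hBB b hb).2⟩)
    (tb β u) S hS
  rw [sum_norm_tb BB (fun b hb => (hBB b hb).1)] at this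
  exact this

/-- (52's `noncube_omN`) non-cubes, non-critical range. -/
theorem noncube_omN_tws {δ : ℝ} (hδ : 0 < δ) (hδ2 : δ ≤ 1 / 2) :
    ∃ C : ℝ, 0 < C ∧ ∀ B K L R : ℝ, 1 ≤ B → 0 < K → K ≤ B ^ (1 - 2 * δ) → 1 ≤ L → 0 ≤ R →
      ∀ BB : Finset Eis, (∀ b ∈ BB, T411.SqP b ∧ (nm b : ℝ) ≤ B) → ∀ (β : Eis → ℂ) (u : ℝ),
      (∀ m : Eis, m ≠ 0 → (nm m : ℝ) ≤ B ^ 4 → ∑ b ∈ BB, ‖β b * (1 - cop m b)‖ ≤ R) →
      ∀ S : Finset Eis, (∀ h ∈ S, T411.NCube h) →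
      ∑ h ∈ S, T411.om K h * ‖T411.tws BB β h u‖ ^ 2
        ≤ C * K ^ ((1 : ℝ) / 3) * (∑ v ∈ T411.NC L, ‖T411.tws BB β v u‖ ^ 2 + L * R ^ 2 +
          (L ^ (-(1 : ℝ) / 3) + B ^ (-(δ / 12))) * B * ∑ b ∈ BB, ‖β b‖ ^ 2) := by
  obtain ⟨C, hC, h⟩ := noncube_omN syH l1Prop hbProp hδ hδ2
  refine ⟨C, hC, fun B K L R hB hK hKB hL hR BB hBB β u hRm S hS => ?_⟩
  have := h B K L R hB hK hKB hL hR BB
    (fun b hb => ⟨(hBB b hb).1.1, (hBB b hb).1.2, (hBB b hb).2⟩) (tb β u)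
    (fun m hm hm' => by
      rw [Finset.sum_congr rfl fun b hb => norm_tb_mask β u (hBB b hb).1.1.ne_zero m]
      exact hRm m hm hm') S (fun h hh => ncube_iff.mp (hS h hh))
  rw [sum_norm_tb BB (fun b hb => (hBB b hb).1), ncs_eq] at this
  exact this

/-- conversion of 52's critical bound: abstract form, to be applied to `noncube_omC`.  `Φ` is the
right side as a function of (`∑_{NC}`, `∑_{Ker}`). -/
theorem noncube_crit_tws {B K L R R2 H : ℝ} (hH : 0 ≤ H) (BB : Finset Eis)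
    (hBB : ∀ b ∈ BB, T411.SqP b ∧ (nm b : ℝ) ≤ B) (β : Eis → ℂ) (u : ℝ)
    (S : Finset Eis) {H' : ℝ} (hH' : H' ≤ H)
    (Ψ : ℝ → ℝ → ℝ → ℝ)
    (hmain : ∀ β' : Eis → ℂ,
      (∀ m : Eis, m ≠ 0 → (nm m : ℝ) ≤ B ^ 4 → ∑ b ∈ BB, ‖β' b * (1 - cop m b)‖ ≤ R) →
      (∀ m : Eis, m ≠ 0 → (nm m : ℝ) ≤ B ^ 4 → ∑ b ∈ BB, ‖β' b * (1 - cop m b)‖ ^ 2 ≤ R2) →
      ∀ 𝒞 : Finset Ker, (∀ κ : Ker, Good κ → (nm (kv κ) : ℝ) ≤ H' → κ ∈ 𝒞) →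
      ∑ h ∈ S, omx (K / nm h) * ‖∑ b ∈ BB, β' b * sy h b‖ ^ 2
        ≤ Ψ (∑ v ∈ ncs L, ‖∑ b ∈ BB, β' b * sy v b‖ ^ 2) (∑ b ∈ BB, ‖β' b‖ ^ 2)
          (∑ κ ∈ 𝒞, ‖∑ b ∈ BB, β' b * sy (kv κ) b‖ ^ 2))
    (hRm : ∀ m : Eis, m ≠ 0 → (nm m : ℝ) ≤ B ^ 4 → ∑ b ∈ BB, ‖β b * (1 - cop m b)‖ ≤ R)
    (hR2m : ∀ m : Eis, m ≠ 0 → (nm m : ℝ) ≤ B ^ 4 → ∑ b ∈ BB, ‖β b * (1 - cop m b)‖ ^ 2 ≤ R2) :
    ∑ h ∈ S, T411.om K h * ‖T411.tws BB β h u‖ ^ 2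
        ≤ Ψ (∑ v ∈ T411.NC L, ‖T411.tws BB β v u‖ ^ 2) (∑ b ∈ BB, ‖β b‖ ^ 2)
          (∑ q ∈ T411.Ker H, ‖T411.tws BB β (T411.kv q) u‖ ^ 2) := by
  have h1 := hmain (tb β u)
    (fun m hm hm' => by
      rw [Finset.sum_congr rfl fun b hb => norm_tb_mask β u (hBB b hb).1.1.ne_zero m]
      exact hRm m hm hm')
    (fun m hm hm' => by
      rw [Finset.sum_congr rfl fun b hb => by rw [norm_tb_mask β u (hBB b hb).1.1.ne_zero m]]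
      exact hR2m m hm hm') (ker52 H) (mem_ker52_of_le hH hH')
  rw [sum_norm_tb BB (fun b hb => (hBB b hb).1), ncs_eq,
    sum_ker52 H (fun z => ‖∑ b ∈ BB, tb β u b * sy z b‖ ^ 2)] at h1
  exact h1

end Crest.Agent.R012.TNXk766
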