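import Crest.Agent.R012.TNX_52
import Crest.Agent.R012.TNXb_470
import Crest.Agent.R012.TNXk_766

/-!
# Row 12: `T411.TNXN` unconditionally
-/

set_option autoImplicit false

noncomputable section

namespace Crest.Agent.R012.NonCube52

open Finset Eis

theorem wSum_holds : WSum := by
  classical
  obtain ⟨C, hC, h⟩ := TNXb470.wsum2
  refine ⟨C, hC, fun D hD Z hZ => ?_⟩
  have h1 := h D (fun e he => (hD e he).ne_zero) Z hZ
    (fun e => D.filter (fun g => Z ≤ (nm e : ℝ) * nm g))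
    (fun e _ g hg => (mem_filter.mp hg))
  refine le_trans (sum_le_sum fun e he => sum_le_sum fun f hf => sum_le_sum fun g hg => ?_) h1
  have h2 : (nm f : ℝ) ^ (-(1 / 3) : ℝ) ≤ 1 :=
    Real.rpow_le_one_of_one_le_of_nonpos
      (LS448.one_le_nm' (Div277.isPrim_of_mem_dvs hf).ne_zero) (by norm_num)
  have h3 : 0 ≤ (nm e : ℝ) ^ (-(5 / 3) : ℝ) := by positivity
  have h4 : 0 ≤ (nm g : ℝ) ^ (-(5 / 3) : ℝ) := by positivity
  calc (nm e : ℝ) ^ (-(5 / 3) : ℝ) * (nm f : ℝ) ^ (-(1 / 3) : ℝ) * (nm g : ℝ) ^ (-(5 / 3) : ℝ)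
      ≤ (nm e : ℝ) ^ (-(5 / 3) : ℝ) * 1 * (nm g : ℝ) ^ (-(5 / 3) : ℝ) := by gcongr
    _ = _ := by ring

theorem reg2_holds : Reg2 := by
  classical
  intro ε hε
  obtain ⟨C, hC, h⟩ := TNXb470.region2 TNXk766.syH TNXk766.l1Prop TNXk766.hbProp hε
  refine ⟨C, hC, fun X A B Z hX hB4 hBX hBA hA hAX hZ 𝓑 β hc => ?_⟩
  have hB : 1 ≤ B := (Real.one_le_rpow (by linarith) (by norm_num)).trans hB4
  have h1 := h 1 X A B Z hX hA hB hBX hZ 𝓑 β hc
  rw [Real.rpow_two] at h1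
  refine le_trans (le_of_eq ?_) h1
  refine sum_congr rfl fun e _ => sum_congr rfl fun f _ => ?_
  conv_rhs => rw [sum_filter]

/-- **(TNX), non-critical case.** -/
theorem tnxN : T411.TNXN :=
  tnxN_of TNXk766.syH TNXk766.l1Prop TNXk766.hbProp wSum_holds reg2_holds

end Crest.Agent.R012.NonCube52
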