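import Crest.Agent.R012.MTypeI_49
import Crest.Agent.R012.TI3_355
import Crest.Agent.R012.TMain_411
import Crest.Agent.R012.T3_85
import Crest.Agent.R012.T1c_413
import Crest.Agent.R012.T1dMain_671
import Crest.Agent.R012.CRProd_290
import Crest.Agent.R012.T1x_671
import Crest.Agent.R012.SWx_355
import Crest.Agent.R012.CRx_852
import Crest.Agent.R012.CR3_436
import Crest.Agent.R012.Core_569
import Crest.Agent.R012.CR2F_811
import Crest.Agent.R012.GLS_687
import Crest.Agent.R012.Glue1_372
import Crest.Agent.R012.LS2Main_448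
import Crest.Agent.R012.IxOf_106
import Crest.Agent.R012.SieveOf_420
import Crest.Agent.R012.SNH_Comp_47
import Crest.Agent.R012.SNH_TI_766
import Crest.Agent.R012.Edge_79
import Crest.Agent.R012.T13Fin_541
import Crest.Agent.R012.SNH_L_50
import Crest.Agent.R012.Final_277
import Crest.Agent.R012.TIImain_54
import Crest.Agent.R012.SNH_Cr_828
import Crest.Agent.R012.TNXfin_52
import Crest.Agent.R012.CR2l_180
import Crest.Agent.R012.SNHof_828
import Crest.Agent.R012.T8b_968
import Crest.Agent.R012.T0x_810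
import Crest.Agent.R012.TMainC_411

/-!
# Row 12: S0013 and S0014

Every component is instantiated with the theorem which proves it; `s14`, `s13` are the exact
milestone statements (used by `Crest/Agent/S0014.lean`, `Crest/Agent/S0013.lean`).
-/

set_option autoImplicit false

noncomputable section

open Complex Filter Topology

namespace Crest.Agent.R012.Dash61

open Crest.Agent.R012 Eis

/-! ### Closed -/

theorem hb : LS2.Final := LS448.hb_final
theorem typeI : M49.TypeI := MFinal49.typeI
theorem tI : Main48.TI_Prop := TI3.TI_of_typeI typeI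
theorem t6 : T411.T6 := MFinal49.t6
theorem t3 : T411.T3 := T3_85.T3_proof
theorem t1c : T411.T1c := T1c413.t1c
theorem t1d : T411.T1d := T1d671.t1d
theorem t1x : T411.T1x := T1x671.t1x
theorem swx : TII54.SWx_Prop := SWx355.SWx
theorem gls : CR290.GLS := GLS687.gls_of_final hb
theorem ordLS : CR290.OrdLS := Glue372.OrdLS_holds
theorem mom : CR290.Mom := GLS687.mom_of_final hb
theorem ixOf : Main48.Ix_of := IxOf106.ix_of
theorem sieveOf : Main48.Sieve_of := SieveOf420.sieve_of
theorem finalOf : Main48.Final_of := Final277.final_of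
theorem tiPart : NearHalf828.TIPart := SNH766.tiPart tI
theorem compOf : NearHalf828.CompPart_of := NearHalf828.compPart_of
theorem t13 : T411.T13 := T13x541.t13
theorem lpartOf : NearHalf828.LPart_of := SNHL50.lPart_of
theorem snhOf : Main48.SNH_of := NearHalf828.snh_of
theorem t0x : Main48.T0x_Prop := T0x810.t0x
theorem tnxN : T411.TNXN := NonCube52.tnxN
theorem tnxC : T411.TNXC := TNX411.tnxC
theorem t8b : EdgeSharp968.T8b := T8b968.t8b
theorem coreB : CR2.CoreB := CR2K180.coreB_final

/-! ### Glue -/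

theorem core : CR290.Core := Core569.core_of_final hb (CR2F811.savedMom_of_coreB coreB)
theorem crprod : CR290.CRProd :=
  CR290.crprod_of_corecub (CR3436.coreCub core gls ordLS)
theorem tmainN : T411.TMainN := T411.tmainN_of t13 tnxN t6
theorem tIIx : Main48.TIIx_Prop := TII54.tiix tmainN
theorem tmainC : T411.TMainC := T411.tmainC_of t13 tnxC t6
theorem tIIcx : Main48.TIIcx_Prop := TII54.tiicx tmainC crprod

theorem snh : Main48.SNH_Prop := snhOf tI tIIx tIIcx t0x

theorem edgeP : Main48.Edge_Prop := Edge79.edge_prop t8b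

theorem dyadic : Main48.Dyadic_Prop :=
  sieveOf tI (ixOf.1 tIIx) (ixOf.2.1 tIIcx) (ixOf.2.2 t0x) snh edgeP

/-- **exact S0014** -/
theorem s14
    (σ : Crest.NumberTheoryR.CubicGauss.EisK →+* ℂ) (ℓ : ℤ) :
    Tendsto (fun X : ℕ => Crest.NumberTheoryR.CubicGauss.twistedFirstMomentDefect σ ℓ X /
        (((X : ℝ) ^ ((5 : ℝ) / 6) / Real.log (X : ℝ) : ℝ) : ℂ)) atTop (𝓝 0) :=
  Final277.s0014_of_dyadic dyadic σ ℓ

/-- **exact S0013** -/
theorem s13 :
    Tendsto (fun X : ℕ =>
      (∑ p ∈ (Nat.primesBelow (X + 1)).filter (fun p => p % 3 = 1),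
          (∑ x ∈ Finset.range p, Complex.exp (2 * Real.pi * Complex.I * ((x : ℂ) ^ 3 / (p : ℂ)))) /
            (2 * (Real.sqrt (p : ℝ) : ℂ))) /
        (((X : ℝ) ^ ((5 : ℝ) / 6) / Real.log (X : ℝ) : ℝ) : ℂ))
      atTop (𝓝 ((((2 * Real.pi) ^ ((2 : ℝ) / 3) / (5 * Real.Gamma (2 / 3)) : ℝ) : ℂ))) :=
  Final277.s0013_of_dyadic dyadic

end Crest.Agent.R012.Dash61
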