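import Crest.Agent.R012.Mob_705


/-!
# Row 12: density of squarefree primary elements coprime to a modulus

`Nsf a Y` : number of squarefree primary `b`, coprime to `a`, of norm at most `Y`.
Main result `card_sfc`: `|Nsf a Y - kap a * Y| ≤ C * sig a * √Y * (1 + log (1 + Y))`, and
`kap a = kap 1 * ∏_{p ∣ a} (1 + 1 / N p)⁻¹`, `kap 1 > 0`.
-/

set_option autoImplicit false

noncomputable section

open Finset

namespace Crest.Agent.R012.Mob705

open Crest.Agent.R012 Crest.Agent.R012.Eis Crest.Agent.R012.Lat277 Crest.Agent.R012.Div277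

/-- Primary elements of norm at most the real number `Y`. -/
def pb (Y : ℝ) : Finset Eis := primBall ⌊Y⌋₊

lemma mem_pb {Y : ℝ} {z : Eis} : z ∈ pb Y ↔ (nm z : ℝ) ≤ Y ∧ IsPrim z := by
  unfold pb
  rw [mem_primBall]
  constructor
  · rintro ⟨h1, h2⟩
    refine ⟨?_, h2⟩
    have h3 : nm z ≠ 0 := fun h => h2.ne_zero (nm_eq_zero.mp h)
    exact (Nat.le_floor_iff' h3).mp h1
  · rintro ⟨h1, h2⟩
    have h3 : nm z ≠ 0 := fun h => h2.ne_zero (nm_eq_zero.mp h)
    exact ⟨(Nat.le_floor_iff' h3).mpr h1, h2⟩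

lemma one_le_nm_of_isPrim {z : Eis} (h : IsPrim z) : (1 : ℝ) ≤ nm z := by
  have : 0 < nm z := nm_pos.mpr h.ne_zero
  exact_mod_cast this

lemma pb_eq_empty {Y : ℝ} (h : Y < 1) : pb Y = ∅ := by
  ext z
  simp only [mem_pb, notMem_empty, iff_false, not_and]
  intro h1 h2
  have := one_le_nm_of_isPrim h2
  linarith

lemma pb_mono {Y Z : ℝ} (h : Y ≤ Z) : pb Y ⊆ pb Z := by
  intro z hz
  rw [mem_pb] at hz ⊢
  exact ⟨hz.1.trans h, hz.2⟩

/-- The density of the primary elements. -/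
def kap0 : ℝ := 2 * Real.pi / (9 * Real.sqrt 3)

lemma kap0_pos : 0 < kap0 := by unfold kap0; positivity

lemma kap0_le_one : kap0 ≤ 1 := by
  unfold kap0
  have hs3 : (1 : ℝ) ≤ Real.sqrt 3 := by
    rw [show (1 : ℝ) = Real.sqrt 1 by simp]
    exact Real.sqrt_le_sqrt (by norm_num)
  rw [div_le_one (by positivity)]
  have := Real.pi_lt_d2
  nlinarith

/-- Number of primary elements up to a real bound, with error `O(√Y)` for all `Y ≥ 0`. -/
theorem card_pb {Y : ℝ} (hY : 0 ≤ Y) : |((pb Y).card : ℝ) - kap0 * Y| ≤ 61 * Real.sqrt Y := by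
  have h0 := kap0_pos
  have h1 := kap0_le_one
  rcases lt_or_ge Y 1 with h | h
  · rw [pb_eq_empty h]
    simp only [card_empty, Nat.cast_zero, zero_sub, abs_neg]
    rw [abs_of_nonneg (by positivity)]
    have h2 : Y ≤ Real.sqrt Y := by
      rw [Real.le_sqrt hY hY]
      nlinarith
    nlinarith [Real.sqrt_nonneg Y]
  · have h2 := card_primBall ⌊Y⌋₊
    have h3 : (⌊Y⌋₊ : ℝ) ≤ Y := Nat.floor_le hY
    have h4 : Y < ⌊Y⌋₊ + 1 := Nat.lt_floor_add_one Y
    have h5 : Real.sqrt ⌊Y⌋₊ ≤ Real.sqrt Y := Real.sqrt_le_sqrt h3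
    have h6 : 1 ≤ Real.sqrt Y := by
      rw [show (1 : ℝ) = Real.sqrt 1 by simp]
      exact Real.sqrt_le_sqrt h
    have h7 : |kap0 * (⌊Y⌋₊ : ℝ) - kap0 * Y| ≤ 1 := by
      rw [← mul_sub, abs_mul, abs_of_pos h0, abs_sub_comm, abs_of_nonneg (by linarith)]
      nlinarith
    have h8 : ((pb Y).card : ℝ) - kap0 * Y =
        (((primBall ⌊Y⌋₊).card : ℝ) - kap0 * ⌊Y⌋₊) + (kap0 * (⌊Y⌋₊ : ℝ) - kap0 * Y) := by
      unfold pb; ring
    rw [h8]
    refine (abs_add_le _ _).trans ?_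
    have h9 : |((primBall ⌊Y⌋₊).card : ℝ) - kap0 * ⌊Y⌋₊| ≤ 30 * (Real.sqrt ⌊Y⌋₊ + 1) := h2
    linarith

lemma card_pb_le (Y : ℝ) (hY : 0 ≤ Y) : ((pb Y).card : ℝ) ≤ 100 * Y := by
  have h := card_primBall_le ⌊Y⌋₊
  have h3 : (⌊Y⌋₊ : ℝ) ≤ Y := Nat.floor_le hY
  unfold pb
  linarith

/-! ### Sums over primary elements -/

/-- Layer cake: sum of a decreasing function of the norm over a set of primary elements. -/
lemma sum_le_layer (T : Finset Eis) (hT : ∀ d ∈ T, IsPrim d) (K D : ℕ) (hK : ∀ d ∈ T, nm d ≤ K)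
    (hD : ∀ d ∈ T, D < nm d) (g : ℕ → ℝ) (hg : ∀ k, g (k + 1) ≤ g k) (hg0 : ∀ k, 0 ≤ g k) :
    ∑ d ∈ T, g (nm d) ≤ 100 * K * g (K + 1) +
      ∑ k ∈ Finset.Ioc D K, 100 * k * (g k - g (k + 1)) := by
  classical
  have key : ∀ n : ℕ, n ≤ K → g n = g (K + 1) + ∑ k ∈ Finset.Icc n K, (g k - g (k + 1)) := by
    intro n hn
    have h1 : ∑ k ∈ Finset.Icc n K, (g k - g (k + 1)) = g n - g (K + 1) := by
      have h2 : Finset.Icc n K = Finset.Ico n (K + 1) := by
        ext x; simp only [mem_Icc, mem_Ico]; omega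
      rw [h2, Finset.sum_Ico_eq_sum_range]
      have h3 := Finset.sum_range_sub' (fun k => g (n + k)) (K + 1 - n)
      have h4 : n + (K + 1 - n) = K + 1 := by omega
      rw [h4] at h3
      simpa [add_assoc] using h3
    rw [h1]; ring
  have hsub : ∀ m : ℕ, (((T.filter (fun d => nm d ≤ m)).card : ℕ) : ℝ) ≤ 100 * m := by
    intro m
    refine le_trans ?_ (card_primBall_le m)
    have : T.filter (fun d => nm d ≤ m) ⊆ primBall m := by
      intro d hd
      rw [mem_filter] at hd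
      exact mem_primBall.mpr ⟨hd.2, hT d hd.1⟩
    exact_mod_cast Finset.card_le_card this
  have e1 : ∑ d ∈ T, g (nm d) = (T.card : ℝ) * g (K + 1) +
      ∑ k ∈ Finset.Ioc D K, ((T.filter (fun d => nm d ≤ k)).card : ℝ) * (g k - g (k + 1)) := by
    have e2 : ∑ d ∈ T, g (nm d) = ∑ d ∈ T, (g (K + 1) +
        ∑ k ∈ Finset.Ioc D K, if nm d ≤ k then (g k - g (k + 1)) else 0) := by
      refine Finset.sum_congr rfl fun d hd => ?_
      rw [key (nm d) (hK d hd)]
      congr 1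
      rw [← Finset.sum_filter]
      refine Finset.sum_congr ?_ fun _ _ => rfl
      ext k
      have := hD d hd
      simp only [mem_Icc, mem_filter, mem_Ioc]
      omega
    rw [e2, Finset.sum_add_distrib, Finset.sum_const, nsmul_eq_mul, Finset.sum_comm]
    congr 1
    refine Finset.sum_congr rfl fun k _ => ?_
    rw [← Finset.sum_filter, Finset.sum_const, nsmul_eq_mul]
  rw [e1]
  have h1 : (T.card : ℝ) ≤ 100 * K := by
    have := hsub K
    rwa [Finset.filter_true_of_mem hK] at this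
  refine add_le_add (mul_le_mul_of_nonneg_right h1 (hg0 _)) ?_
  refine Finset.sum_le_sum fun k _ => ?_
  exact mul_le_mul_of_nonneg_right (hsub k) (by linarith [hg k])

/-- `∑_{N d ≤ D} 1 / N d ≤ 100 (1 + log (1 + D))`. -/
theorem sum_inv_nm_le {D : ℝ} (hD : 0 ≤ D) :
    ∑ d ∈ pb D, (1 : ℝ) / nm d ≤ 100 * (1 + Real.log (1 + D)) := by
  classical
  set K := ⌊D⌋₊ with hK
  have h1 := sum_le_layer (pb D) (fun d hd => (mem_pb.mp hd).2) K 0
    (fun d hd => Nat.le_floor (mem_pb.mp hd).1)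
    (fun d hd => nm_pos.mpr (mem_pb.mp hd).2.ne_zero)
    (fun k => if k = 0 then 2 else (1 : ℝ) / k) ?_ ?_
  · have e1 : ∑ d ∈ pb D, (1 : ℝ) / nm d =
        ∑ d ∈ pb D, (fun k : ℕ => if k = 0 then (2 : ℝ) else (1 : ℝ) / k) (nm d) := by
      refine Finset.sum_congr rfl fun d hd => ?_
      have : nm d ≠ 0 := fun h => (mem_pb.mp hd).2.ne_zero (nm_eq_zero.mp h)
      simp [this]
    rw [e1]
    refine h1.trans ?_
    have e2 : ∑ k ∈ Finset.Ioc 0 K, 100 * (k : ℝ) *
        ((if k = 0 then (2 : ℝ) else (1 : ℝ) / k) - (if k + 1 = 0 then (2 : ℝ) else (1 : ℝ) / ((k + 1 : ℕ) : ℝ)))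
        ≤ 100 * Real.log (1 + D) := by
      have e3 : ∀ k ∈ Finset.Ioc 0 K, 100 * (k : ℝ) *
        ((if k = 0 then (2 : ℝ) else (1 : ℝ) / k) - (if k + 1 = 0 then (2 : ℝ) else (1 : ℝ) / ((k + 1 : ℕ) : ℝ)))
          ≤ 100 * (Real.log ((k : ℝ) + 1) - Real.log k) := by
        intro k hk
        rw [mem_Ioc] at hk
        have hk0 : k ≠ 0 := by omega
        have hk1 : (0 : ℝ) < k := by exact_mod_cast hk.1
        simp only [hk0, if_false, Nat.add_eq_zero_iff, one_ne_zero, and_false]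
        push_cast
        have h2 : 100 * (k : ℝ) * (1 / (k : ℝ) - 1 / ((k : ℝ) + 1)) = 100 * (1 / ((k : ℝ) + 1)) := by
          field_simp; ring
        rw [h2]
        refine mul_le_mul_of_nonneg_left ?_ (by norm_num)
        rw [← Real.log_div (by positivity) (by positivity)]
        have h3 := Real.one_sub_inv_le_log_of_pos (x := ((k : ℝ) + 1) / k) (by positivity)
        refine le_trans (le_of_eq ?_) h3
        field_simp
        ring
      refine (Finset.sum_le_sum e3).trans ?_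
      rw [← Finset.mul_sum]
      have e4 : ∀ n : ℕ, ∑ k ∈ Finset.Ioc 0 n, (Real.log ((k : ℝ) + 1) - Real.log k)
          = Real.log ((n : ℝ) + 1) := by
        intro n
        induction n with
        | zero => simp
        | succ n ih =>
          rw [Finset.sum_Ioc_succ_top (by omega), ih]
          push_cast
          ring
      rw [e4]
      refine mul_le_mul_of_nonneg_left ?_ (by norm_num)
      refine Real.log_le_log (by positivity) ?_
      have := Nat.floor_le hD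
      rw [← hK] at this
      linarith
    have e5 : 100 * (K : ℝ) * (if K + 1 = 0 then (2 : ℝ) else (1 : ℝ) / ((K + 1 : ℕ) : ℝ)) ≤ 100 := by
      simp only [Nat.add_eq_zero_iff, one_ne_zero, and_false, if_false]
      rw [mul_assoc, mul_one_div]
      push_cast
      have : (K : ℝ) / ((K : ℝ) + 1) ≤ 1 := by
        rw [div_le_one (by positivity)]; linarith
      linarith
    linarith
  · intro k
    by_cases hk : k = 0
    · subst hk; simp
    · have hk1 : (0 : ℝ) < k := by exact_mod_cast Nat.pos_of_ne_zero hk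
      simp only [hk, if_false, Nat.add_eq_zero_iff, one_ne_zero, and_false]
      push_cast
      exact one_div_le_one_div_of_le hk1 (by linarith)
  · intro k
    split_ifs <;> positivity

/-- Tails of `∑ 1 / (N d)²`. -/
theorem sum_inv_nm_sq_le (T : Finset Eis) (D : ℕ) (hT : ∀ d ∈ T, IsPrim d)
    (hD : ∀ d ∈ T, D < nm d) : ∑ d ∈ T, (1 : ℝ) / (nm d : ℝ) ^ 2 ≤ 300 / (D + 1) := by
  classical
  rcases T.eq_empty_or_nonempty with rfl | hne
  · simp; positivity
  set K := T.sup nm with hK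
  have hKD : D < K := by
    obtain ⟨d, hd⟩ := hne
    exact lt_of_lt_of_le (hD d hd) (Finset.le_sup (f := nm) hd)
  have h1 := sum_le_layer T hT K D (fun d hd => Finset.le_sup (f := nm) hd) hD
    (fun k => if k = 0 then 2 else (1 : ℝ) / (k : ℝ) ^ 2) ?_ ?_
  · have e1 : ∑ d ∈ T, (1 : ℝ) / (nm d : ℝ) ^ 2 =
        ∑ d ∈ T, (fun k : ℕ => if k = 0 then (2 : ℝ) else (1 : ℝ) / (k : ℝ) ^ 2) (nm d) := by
      refine Finset.sum_congr rfl fun d hd => ?_
      have : nm d ≠ 0 := fun h => (hT d hd).ne_zero (nm_eq_zero.mp h)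
      simp [this]
    rw [e1]
    refine h1.trans ?_
    have e2 : ∑ k ∈ Finset.Ioc D K, 100 * (k : ℝ) *
        ((if k = 0 then (2 : ℝ) else (1 : ℝ) / (k : ℝ) ^ 2) -
          (if k + 1 = 0 then (2 : ℝ) else (1 : ℝ) / ((k + 1 : ℕ) : ℝ) ^ 2))
        ≤ 200 * (1 / ((D : ℝ) + 1) - 1 / ((K : ℝ) + 1)) := by
      have e3 : ∀ k ∈ Finset.Ioc D K, 100 * (k : ℝ) *
        ((if k = 0 then (2 : ℝ) else (1 : ℝ) / (k : ℝ) ^ 2) -
          (if k + 1 = 0 then (2 : ℝ) else (1 : ℝ) / ((k + 1 : ℕ) : ℝ) ^ 2))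
          ≤ 200 * (1 / (k : ℝ) - 1 / ((k : ℝ) + 1)) := by
        intro k hk
        rw [mem_Ioc] at hk
        have hk0 : k ≠ 0 := by omega
        have hk1 : (0 : ℝ) < k := by exact_mod_cast Nat.pos_of_ne_zero hk0
        simp only [hk0, if_false, Nat.add_eq_zero_iff, one_ne_zero, and_false]
        push_cast
        have h2 : 200 * (1 / (k : ℝ) - 1 / ((k : ℝ) + 1)) -
            100 * (k : ℝ) * (1 / (k : ℝ) ^ 2 - 1 / ((k : ℝ) + 1) ^ 2)
            = 100 * (1 / ((k : ℝ) * (k + 1) ^ 2)) := by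
          field_simp; ring
        have h3 : 0 ≤ 100 * (1 / ((k : ℝ) * (k + 1) ^ 2)) := by positivity
        linarith
      refine (Finset.sum_le_sum e3).trans ?_
      rw [← Finset.mul_sum]
      refine mul_le_mul_of_nonneg_left (le_of_eq ?_) (by norm_num)
      have e4 : ∀ n, D ≤ n → ∑ k ∈ Finset.Ioc D n, (1 / (k : ℝ) - 1 / ((k : ℝ) + 1))
          = 1 / ((D : ℝ) + 1) - 1 / ((n : ℝ) + 1) := by
        intro n hn
        induction n, hn using Nat.le_induction with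
        | base => simp
        | succ n hn ih =>
          rw [Finset.sum_Ioc_succ_top (by omega), ih]
          push_cast
          ring
      exact e4 K hKD.le
    have e5 : 100 * (K : ℝ) * (if K + 1 = 0 then (2 : ℝ) else (1 : ℝ) / ((K + 1 : ℕ) : ℝ) ^ 2)
        ≤ 100 * (1 / ((K : ℝ) + 1)) := by
      simp only [Nat.add_eq_zero_iff, one_ne_zero, and_false, if_false]
      push_cast
      have : 100 * (1 / ((K : ℝ) + 1)) - 100 * (K : ℝ) * (1 / ((K : ℝ) + 1) ^ 2)
          = 100 * (1 / ((K : ℝ) + 1) ^ 2) := by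
        field_simp; ring
      have h3 : 0 ≤ 100 * (1 / ((K : ℝ) + 1) ^ 2) := by positivity
      linarith
    have e6 : 300 / ((D : ℝ) + 1) = 300 * (1 / ((D : ℝ) + 1)) := by ring
    have e7 : 0 ≤ 1 / ((K : ℝ) + 1) := by positivity
    have e8 : 0 ≤ 1 / ((D : ℝ) + 1) := by positivity
    rw [e6]
    linarith
  · intro k
    by_cases hk : k = 0
    · subst hk; simp
    · have hk1 : (0 : ℝ) < k := by exact_mod_cast Nat.pos_of_ne_zero hk
      simp only [hk, if_false, Nat.add_eq_zero_iff, one_ne_zero, and_false]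
      push_cast
      exact one_div_le_one_div_of_le (by positivity) (pow_le_pow_left₀ hk1.le (by linarith) 2)
  · intro k
    split_ifs <;> positivity

/-! ### Primary elements coprime to `a` -/

open Classical in
/-- Primary elements of norm at most `Y`, coprime to `a`. -/
def cop (a : Eis) (Y : ℝ) : Finset Eis := (pb Y).filter fun b => IsCoprime b a

open Classical in
lemma mem_cop {a b : Eis} {Y : ℝ} :
    b ∈ cop a Y ↔ ((nm b : ℝ) ≤ Y ∧ IsPrim b) ∧ IsCoprime b a := by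
  unfold cop
  rw [mem_filter, mem_pb]

open Classical in
/-- Squarefree primary elements of norm at most `Y`, coprime to `a`. -/
def sfc (a : Eis) (Y : ℝ) : Finset Eis := (cop a Y).filter fun b => Squarefree b

open Classical in
lemma mem_sfc {a b : Eis} {Y : ℝ} :
    b ∈ sfc a Y ↔ ((nm b : ℝ) ≤ Y ∧ IsPrim b) ∧ IsCoprime b a ∧ Squarefree b := by
  unfold sfc
  rw [mem_filter, mem_cop, and_assoc]

open Classical in
lemma cop_subset (a : Eis) (Y : ℝ) : cop a Y ⊆ pb Y := Finset.filter_subset _ _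

open Classical in
lemma sfc_subset (a : Eis) (Y : ℝ) : sfc a Y ⊆ cop a Y := Finset.filter_subset _ _

open Classical in
lemma pb_filter_dvd (Y : ℝ) {d : Eis} (hd : IsPrim d) :
    (pb Y).filter (fun n => d ∣ n) = (pb (Y / nm d)).map (mulEmb d hd.ne_zero) := by
  have hdp : (0 : ℝ) < nm d := by exact_mod_cast nm_pos.mpr hd.ne_zero
  ext n
  simp only [mem_filter, mem_map, mulEmb_apply, mem_pb]
  constructor
  · rintro ⟨⟨h1, h2⟩, m, rfl⟩
    refine ⟨m, ⟨?_, h2.of_mul_left hd⟩, rfl⟩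
    rw [le_div_iff₀ hdp, mul_comm]
    rw [nm_mul] at h1
    exact_mod_cast h1
  · rintro ⟨m, ⟨h1, h2⟩, rfl⟩
    refine ⟨⟨?_, hd.mul h2⟩, dvd_mul_right _ _⟩
    rw [nm_mul]
    rw [le_div_iff₀ hdp, mul_comm] at h1
    exact_mod_cast h1

open Classical in
lemma cop_filter_dvd (a : Eis) (Y : ℝ) {d : Eis} (hd : IsPrim d) (hda : IsCoprime d a) :
    (cop a Y).filter (fun n => d ∣ n) = (cop a (Y / nm d)).map (mulEmb d hd.ne_zero) := by
  have hdp : (0 : ℝ) < nm d := by exact_mod_cast nm_pos.mpr hd.ne_zero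
  ext n
  simp only [mem_filter, mem_map, mulEmb_apply, mem_cop]
  constructor
  · rintro ⟨⟨⟨h1, h2⟩, h3⟩, m, rfl⟩
    refine ⟨m, ⟨⟨?_, h2.of_mul_left hd⟩, h3.of_mul_left_right⟩, rfl⟩
    rw [le_div_iff₀ hdp, mul_comm]
    rw [nm_mul] at h1
    exact_mod_cast h1
  · rintro ⟨m, ⟨⟨h1, h2⟩, h3⟩, rfl⟩
    refine ⟨⟨⟨?_, hd.mul h2⟩, hda.mul_left h3⟩, dvd_mul_right _ _⟩
    rw [nm_mul]
    rw [le_div_iff₀ hdp, mul_comm] at h1
    exact_mod_cast h1

lemma card_cop_eq {a : Eis} (ha : a ≠ 0) (Y : ℝ) :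
    ((cop a Y).card : ℝ) = ∑ d ∈ dvs a, (muE d : ℝ) * ((pb (Y / nm d)).card : ℝ) := by
  classical
  have h1 : ((cop a Y).card : ℝ) = ∑ b ∈ pb Y, (if IsCoprime b a then (1 : ℝ) else 0) := by
    unfold cop
    rw [Finset.card_filter]; push_cast; rfl
  rw [h1]
  have h2 : ∀ b ∈ pb Y, (if IsCoprime b a then (1 : ℝ) else 0) =
      ∑ d ∈ dvs a, (if d ∣ b then (muE d : ℝ) else 0) := by
    intro b hb
    have h := sum_muE_coprime (mem_pb.mp hb).2 ha
    have h' := congrArg (Int.cast : ℤ → ℝ) h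
    push_cast at h'
    rw [← h']
  rw [Finset.sum_congr rfl h2, Finset.sum_comm]
  refine Finset.sum_congr rfl fun d hd => ?_
  rw [← Finset.sum_filter, Finset.sum_const, pb_filter_dvd Y (isPrim_of_mem_dvs hd),
    Finset.card_map, nsmul_eq_mul, mul_comm]

/-- Primary elements coprime to `a`: density `kap0 * ∏_{p ∣ a} (1 - 1 / N p)`. -/
theorem card_cop {a : Eis} (ha : a ≠ 0) {Y : ℝ} (hY : 0 ≤ Y) :
    |((cop a Y).card : ℝ) - kap0 * PE a * Y| ≤ 61 * sig a * Real.sqrt Y := by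
  rw [card_cop_eq ha, PE_eq_sum ha, sig_eq_sum ha, Finset.mul_sum, Finset.sum_mul,
    ← Finset.sum_sub_distrib, Finset.mul_sum, Finset.sum_mul]
  refine (Finset.abs_sum_le_sum_abs _ _).trans (Finset.sum_le_sum fun d _ => ?_)
  have h1 := card_pb (Y := Y / nm d) (by positivity)
  have e1 : (muE d : ℝ) * ((pb (Y / nm d)).card : ℝ) - kap0 * ((muE d : ℝ) * (1 / (nm d : ℝ))) * Y
      = (muE d : ℝ) * (((pb (Y / nm d)).card : ℝ) - kap0 * (Y / nm d)) := by ring
  rw [e1, abs_mul]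
  calc |(muE d : ℝ)| * |((pb (Y / nm d)).card : ℝ) - kap0 * (Y / nm d)|
      ≤ |(muE d : ℝ)| * (61 * Real.sqrt (Y / nm d)) :=
        mul_le_mul_of_nonneg_left h1 (abs_nonneg _)
    _ = 61 * (|(muE d : ℝ)| * (1 / Real.sqrt (nm d))) * Real.sqrt Y := by
        rw [Real.sqrt_div hY]; ring

lemma card_sfc_eq (a : Eis) (Y : ℝ) :
    ((sfc a Y).card : ℝ) =
      ∑ d ∈ cop a (Real.sqrt Y), (muE d : ℝ) * ((cop a (Y / (nm d : ℝ) ^ 2)).card : ℝ) := by
  classical
  have h1 : ((sfc a Y).card : ℝ) = ∑ b ∈ cop a Y, (if Squarefree b then (1 : ℝ) else 0) := by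
    unfold sfc
    rw [Finset.card_filter]; push_cast; rfl
  rw [h1]
  have h2 : ∀ b ∈ cop a Y, (if Squarefree b then (1 : ℝ) else 0) =
      ∑ d ∈ cop a (Real.sqrt Y), (if d ^ 2 ∣ b then (muE d : ℝ) else 0) := by
    intro b hb
    rw [mem_cop] at hb
    have h := sum_muE_sq hb.1.2
    have h' := congrArg (Int.cast : ℤ → ℝ) h
    push_cast at h'
    rw [← h', ← Finset.sum_filter, ← Finset.sum_filter]
    refine Finset.sum_congr ?_ fun _ _ => rfl
    ext d
    rw [mem_filter, mem_filter, mem_dvs hb.1.2.ne_zero, mem_cop]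
    constructor
    · rintro ⟨⟨h3, h4⟩, h5⟩
      refine ⟨⟨⟨?_, h3⟩, IsCoprime.of_isCoprime_of_dvd_left hb.2 h4⟩, h5⟩
      have h6 := nm_le_of_dvd hb.1.2.ne_zero h5
      rw [nm_pow] at h6
      have h7 : (nm d : ℝ) ^ 2 ≤ nm b := by exact_mod_cast h6
      exact Real.le_sqrt_of_sq_le (h7.trans hb.1.1)
    · rintro ⟨⟨⟨_, h3⟩, _⟩, h5⟩
      exact ⟨⟨h3, (dvd_pow_self d two_ne_zero).trans h5⟩, h5⟩
  rw [Finset.sum_congr rfl h2, Finset.sum_comm]
  refine Finset.sum_congr rfl fun d hd => ?_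
  rw [mem_cop] at hd
  rw [← Finset.sum_filter, Finset.sum_const, cop_filter_dvd a Y (hd.1.2.pow 2) hd.2.pow_left,
    Finset.card_map, nsmul_eq_mul, mul_comm, nm_pow]
  push_cast
  rfl

/-! ### The constant -/

open Classical in
/-- The terms of the series `∑ μ(d) / (N d)²` over primary `d` coprime to `a`. -/
def zt (a d : Eis) : ℝ := if IsPrim d ∧ IsCoprime d a then (muE d : ℝ) / (nm d : ℝ) ^ 2 else 0

/-- `Z a = ∑ μ(d) / (N d)²` over primary `d` coprime to `a`. -/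
def Z (a : Eis) : ℝ := ∑' d, zt a d

lemma sum_abs_zt_le (a : Eis) (T : Finset Eis) (D : ℕ)
    (hD : ∀ d ∈ T, IsPrim d → IsCoprime d a → D < nm d) :
    ∑ d ∈ T, |zt a d| ≤ 300 / (D + 1) := by
  classical
  have h1 : ∑ d ∈ T, |zt a d| ≤
      ∑ d ∈ T.filter (fun d => IsPrim d ∧ IsCoprime d a), (1 : ℝ) / (nm d : ℝ) ^ 2 := by
    rw [Finset.sum_filter]
    refine Finset.sum_le_sum fun d _ => ?_
    unfold zt
    split_ifs with h
    · rw [abs_div, abs_of_nonneg (by positivity : (0 : ℝ) ≤ (nm d : ℝ) ^ 2)]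
      exact div_le_div_of_nonneg_right (abs_muE_le_real d) (by positivity)
    · simp
  refine h1.trans (sum_inv_nm_sq_le _ D ?_ ?_)
  · intro d hd
    exact (mem_filter.mp hd).2.1
  · intro d hd
    rw [mem_filter] at hd
    exact hD d hd.1 hd.2.1 hd.2.2

lemma summable_zt (a : Eis) : Summable (zt a) := by
  have : Summable (fun d => |zt a d|) := by
    refine summable_of_sum_le (c := 300) (fun d => abs_nonneg _) fun T => ?_
    have h := sum_abs_zt_le a T 0 (fun d _ hd _ => nm_pos.mpr hd.ne_zero)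
    simpa using h
  exact this.of_abs

lemma abs_Z_sub_le (a : Eis) (s : Finset Eis) (D : ℕ)
    (hD : ∀ d, d ∉ s → IsPrim d → IsCoprime d a → D < nm d) :
    |Z a - ∑ d ∈ s, zt a d| ≤ 300 / (D + 1) := by
  classical
  have h0 := summable_zt a
  have h1 := h0.sum_add_tsum_compl (s := s)
  have h2 : Z a - ∑ d ∈ s, zt a d = ∑' x : ↑((s : Set Eis)ᶜ), zt a x := by
    unfold Z; rw [← h1]; ring
  rw [h2]
  have h3 : Summable fun x : ↑((s : Set Eis)ᶜ) => |zt a x| := (h0.abs).subtype _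
  have h4 : |∑' x : ↑((s : Set Eis)ᶜ), zt a x| ≤ ∑' x : ↑((s : Set Eis)ᶜ), |zt a x| := by
    have := norm_tsum_le_tsum_norm (f := fun x : ↑((s : Set Eis)ᶜ) => zt a x) (by simpa using h3)
    simpa using this
  refine h4.trans (h3.tsum_le_of_sum_le fun T => ?_)
  have h5 := sum_abs_zt_le a (T.map (Function.Embedding.subtype _)) D ?_
  · rwa [Finset.sum_map] at h5
  · intro d hd
    rw [Finset.mem_map] at hd
    obtain ⟨x, _, rfl⟩ := hd
    have hx : (x : Eis) ∉ s := x.2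
    exact hD x hx

/-- The density of squarefree primary elements coprime to `a`. -/
def kap (a : Eis) : ℝ := kap0 * PE a * Z a

lemma abs_Z_le (a : Eis) : |Z a| ≤ 300 := by
  have := abs_Z_sub_le a ∅ 0 (fun d _ hd _ => nm_pos.mpr hd.ne_zero)
  simpa using this

/-- **Density of squarefree primary elements coprime to `a`**, uniformly in `a`. -/
theorem card_sfc {a : Eis} (ha : a ≠ 0) {Y : ℝ} (hY : 0 ≤ Y) :
    |((sfc a Y).card : ℝ) - kap a * Y| ≤
      6400 * sig a * Real.sqrt Y * (1 + Real.log (1 + Real.sqrt Y)) := by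
  classical
  have hs := Real.sqrt_nonneg Y
  have hk0 := kap0_pos
  have hk1 := kap0_le_one
  have hP0 := PE_pos a
  have hP1 := PE_le_one a
  have hsig := one_le_sig a
  set s := cop a (Real.sqrt Y) with hs_def
  have e1 : ((sfc a Y).card : ℝ) - kap a * Y =
      (∑ d ∈ s, (muE d : ℝ) *
        (((cop a (Y / (nm d : ℝ) ^ 2)).card : ℝ) - kap0 * PE a * (Y / (nm d : ℝ) ^ 2)))
      - kap0 * PE a * Y * (Z a - ∑ d ∈ s, zt a d) := by
    rw [card_sfc_eq a Y, ← hs_def]
    have e2 : ∑ d ∈ s, zt a d = ∑ d ∈ s, (muE d : ℝ) / (nm d : ℝ) ^ 2 := by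
      refine Finset.sum_congr rfl fun d hd => ?_
      rw [hs_def, mem_cop] at hd
      unfold zt
      rw [if_pos ⟨hd.1.2, hd.2⟩]
    have e3 : ∑ d ∈ s, (muE d : ℝ) *
        (((cop a (Y / (nm d : ℝ) ^ 2)).card : ℝ) - kap0 * PE a * (Y / (nm d : ℝ) ^ 2))
        = ∑ d ∈ s, (muE d : ℝ) * ((cop a (Y / (nm d : ℝ) ^ 2)).card : ℝ)
          - kap0 * PE a * Y * ∑ d ∈ s, (muE d : ℝ) / (nm d : ℝ) ^ 2 := by
      rw [Finset.mul_sum, ← Finset.sum_sub_distrib]
      refine Finset.sum_congr rfl fun d _ => ?_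
      ring
    rw [e2, e3]
    unfold kap
    ring
  have h1 : |∑ d ∈ s, (muE d : ℝ) *
        (((cop a (Y / (nm d : ℝ) ^ 2)).card : ℝ) - kap0 * PE a * (Y / (nm d : ℝ) ^ 2))|
      ≤ 6100 * sig a * Real.sqrt Y * (1 + Real.log (1 + Real.sqrt Y)) := by
    refine (Finset.abs_sum_le_sum_abs _ _).trans ?_
    have h2 : ∀ d ∈ s, |(muE d : ℝ) *
        (((cop a (Y / (nm d : ℝ) ^ 2)).card : ℝ) - kap0 * PE a * (Y / (nm d : ℝ) ^ 2))|
        ≤ 61 * sig a * Real.sqrt Y * (1 / (nm d : ℝ)) := by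
      intro d _
      rw [abs_mul]
      have h3 := card_cop ha (Y := Y / (nm d : ℝ) ^ 2) (by positivity)
      have h4 : Real.sqrt (Y / (nm d : ℝ) ^ 2) = Real.sqrt Y * (1 / (nm d : ℝ)) := by
        rw [Real.sqrt_div hY, Real.sqrt_sq (by positivity)]; ring
      rw [h4] at h3
      calc _ ≤ 1 * (61 * sig a * (Real.sqrt Y * (1 / (nm d : ℝ)))) :=
            mul_le_mul (abs_muE_le_real d) h3 (abs_nonneg _) (by norm_num)
        _ = _ := by ring
    refine (Finset.sum_le_sum h2).trans ?_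
    rw [← Finset.mul_sum]
    have h5 : ∑ d ∈ s, (1 : ℝ) / nm d ≤ 100 * (1 + Real.log (1 + Real.sqrt Y)) := by
      refine le_trans ?_ (sum_inv_nm_le hs)
      refine Finset.sum_le_sum_of_subset_of_nonneg (cop_subset _ _) fun _ _ _ => by positivity
    calc 61 * sig a * Real.sqrt Y * ∑ d ∈ s, (1 : ℝ) / nm d
        ≤ 61 * sig a * Real.sqrt Y * (100 * (1 + Real.log (1 + Real.sqrt Y))) :=
          mul_le_mul_of_nonneg_left h5 (by positivity)
      _ = _ := by ring
  have h6 : |kap0 * PE a * Y * (Z a - ∑ d ∈ s, zt a d)| ≤ 300 * Real.sqrt Y := by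
    have h7 := abs_Z_sub_le a s ⌊Real.sqrt Y⌋₊ ?_
    · rw [abs_mul, abs_of_nonneg (by positivity)]
      rcases hs.eq_or_lt with h0 | h0
      · have hY0 : Y = 0 := by
          rw [eq_comm, Real.sqrt_eq_zero hY] at h0; exact h0
        rw [hY0]; simp
      · have h8 : Real.sqrt Y < ⌊Real.sqrt Y⌋₊ + 1 := Nat.lt_floor_add_one _
        have h9 : |Z a - ∑ d ∈ s, zt a d| ≤ 300 / Real.sqrt Y :=
          h7.trans (div_le_div_of_nonneg_left (by norm_num) h0 h8.le)
        have h10 : kap0 * PE a * Y ≤ Y := by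
          have : kap0 * PE a ≤ 1 := by nlinarith
          nlinarith
        calc kap0 * PE a * Y * |Z a - ∑ d ∈ s, zt a d| ≤ Y * (300 / Real.sqrt Y) :=
              mul_le_mul h10 h9 (abs_nonneg _) hY
          _ = 300 * (Y / Real.sqrt Y) := by ring
          _ = 300 * Real.sqrt Y := by rw [Real.div_sqrt]
    · intro d hd hdp hda
      rw [hs_def, mem_cop] at hd
      by_contra hle
      push Not at hle
      exact hd ⟨⟨(Nat.cast_le.mpr hle).trans (Nat.floor_le hs), hdp⟩, hda⟩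
  rw [e1]
  have hlog : 0 ≤ Real.log (1 + Real.sqrt Y) := Real.log_nonneg (by linarith)
  have h11 : 300 * Real.sqrt Y ≤ 300 * sig a * Real.sqrt Y * (1 + Real.log (1 + Real.sqrt Y)) := by
    have : 1 ≤ sig a * (1 + Real.log (1 + Real.sqrt Y)) := by nlinarith
    nlinarith
  have h12 := abs_sub (∑ d ∈ s, (muE d : ℝ) *
        (((cop a (Y / (nm d : ℝ) ^ 2)).card : ℝ) - kap0 * PE a * (Y / (nm d : ℝ) ^ 2)))
      (kap0 * PE a * Y * (Z a - ∑ d ∈ s, zt a d))
  linarith

/-! ### Multiplicativity and positivity of the density -/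

lemma lim_unique {N : ℝ → ℝ} {k1 k2 C1 C2 : ℝ}
    (h1 : ∀ Y, 0 ≤ Y → |N Y - k1 * Y| ≤ C1 * Real.sqrt Y * (1 + Real.log (1 + Real.sqrt Y)))
    (h2 : ∀ Y, 0 ≤ Y → |N Y - k2 * Y| ≤ C2 * Real.sqrt Y * (1 + Real.log (1 + Real.sqrt Y))) :
    k1 = k2 := by
  by_contra hne
  have hpos : 0 < |k1 - k2| := abs_pos.mpr (sub_ne_zero.mpr hne)
  have h3 : ∀ x : ℝ, 1 ≤ x → |k1 - k2| * x ≤ 3 * (|C1| + |C2|) := by
    intro x hx
    have hx0 : 0 < x := by linarith
    have hY : (0 : ℝ) ≤ x ^ 4 := by positivity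
    have e1 : Real.sqrt (x ^ 4) = x ^ 2 := by
      rw [show x ^ 4 = (x ^ 2) ^ 2 by ring, Real.sqrt_sq (by positivity)]
    have a1 := h1 _ hY
    have a2 := h2 _ hY
    rw [e1] at a1 a2
    have hlog : Real.log (1 + x ^ 2) ≤ 2 * x := by
      have b1 : Real.log (1 + x ^ 2) ≤ Real.log ((1 + x) ^ 2) :=
        Real.log_le_log (by positivity) (by nlinarith)
      rw [Real.log_pow] at b1
      have b2 := Real.log_le_sub_one_of_pos (x := 1 + x) (by linarith)
      push_cast at b1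
      linarith
    have hlog0 : 0 ≤ Real.log (1 + x ^ 2) := Real.log_nonneg (by nlinarith [sq_nonneg x])
    have a3 : |k1 - k2| * x ^ 4 ≤ (|C1| + |C2|) * x ^ 2 * (1 + Real.log (1 + x ^ 2)) := by
      have e2 : |k1 - k2| * x ^ 4 = |(N (x ^ 4) - k2 * x ^ 4) - (N (x ^ 4) - k1 * x ^ 4)| := by
        rw [← abs_of_nonneg hY, ← abs_mul, abs_of_nonneg hY]; congr 1; ring
      rw [e2]
      refine (abs_sub _ _).trans ?_
      have c1 : C1 * x ^ 2 * (1 + Real.log (1 + x ^ 2)) ≤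
          |C1| * x ^ 2 * (1 + Real.log (1 + x ^ 2)) := by
        have := le_abs_self C1
        gcongr
      have c2 : C2 * x ^ 2 * (1 + Real.log (1 + x ^ 2)) ≤
          |C2| * x ^ 2 * (1 + Real.log (1 + x ^ 2)) := by
        have := le_abs_self C2
        gcongr
      nlinarith
    have a4 : (|C1| + |C2|) * x ^ 2 * (1 + Real.log (1 + x ^ 2)) ≤
        (|C1| + |C2|) * x ^ 2 * (3 * x) := by
      have : 1 + Real.log (1 + x ^ 2) ≤ 3 * x := by linarith
      exact mul_le_mul_of_nonneg_left this (by positivity)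
    have a5 : |k1 - k2| * x * x ^ 3 ≤ 3 * (|C1| + |C2|) * x ^ 3 := by nlinarith
    exact le_of_mul_le_mul_right a5 (by positivity)
  have h4 := h3 (3 * (|C1| + |C2|) / |k1 - k2| + 1)
    (by have := abs_nonneg C1; have := abs_nonneg C2; have : 0 ≤ 3 * (|C1| + |C2|) / |k1 - k2| := by positivity
        linarith)
  have h5 : |k1 - k2| * (3 * (|C1| + |C2|) / |k1 - k2| + 1) = 3 * (|C1| + |C2|) + |k1 - k2| := by
    field_simp
  linarith

lemma sqrt_log_mono {Y Z : ℝ} (h : Y ≤ Z) :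
    Real.sqrt Y * (1 + Real.log (1 + Real.sqrt Y)) ≤
      Real.sqrt Z * (1 + Real.log (1 + Real.sqrt Z)) := by
  have h1 : Real.sqrt Y ≤ Real.sqrt Z := Real.sqrt_le_sqrt h
  have h0 := Real.sqrt_nonneg Y
  have h2 : Real.log (1 + Real.sqrt Y) ≤ Real.log (1 + Real.sqrt Z) :=
    Real.log_le_log (by linarith) (by linarith)
  have h3 : 0 ≤ Real.log (1 + Real.sqrt Y) := Real.log_nonneg (by linarith)
  exact mul_le_mul h1 (by linarith) (by linarith) (Real.sqrt_nonneg _)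

/-- Splitting the squarefree elements according to divisibility by the prime `p`. -/
lemma card_sfc_split {a p : Eis} (hp : IsPP p) (hpa : IsCoprime p a) (Y : ℝ) :
    ((sfc a Y).card : ℝ) = ((sfc (a * p) Y).card : ℝ) + ((sfc (a * p) (Y / nm p)).card : ℝ) := by
  classical
  have hdp : (0 : ℝ) < nm p := by exact_mod_cast nm_pos.mpr hp.ne_zero
  have h1 : (sfc a Y).filter (fun b => ¬ p ∣ b) = sfc (a * p) Y := by
    ext b
    rw [mem_filter, mem_sfc, mem_sfc]
    constructor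
    · rintro ⟨⟨h1, h2, h3⟩, h4⟩
      exact ⟨h1, h2.mul_right ((hp.isCoprime_iff.mpr h4).symm), h3⟩
    · rintro ⟨h1, h2, h3⟩
      exact ⟨⟨h1, h2.of_mul_right_left, h3⟩, hp.isCoprime_iff.mp h2.of_mul_right_right.symm⟩
  have h2 : (sfc a Y).filter (fun b => p ∣ b) =
      (sfc (a * p) (Y / nm p)).map (mulEmb p hp.ne_zero) := by
    ext b
    simp only [mem_filter, mem_map, mulEmb_apply, mem_sfc]
    constructor
    · rintro ⟨⟨⟨h1, h2⟩, h3, h4⟩, m, rfl⟩
      have h5 := squarefree_mul_iff.mp h4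
      refine ⟨m, ⟨⟨?_, h2.of_mul_left hp.isPrim⟩, ?_, h5.2.2⟩, rfl⟩
      · rw [le_div_iff₀ hdp, mul_comm]
        rw [nm_mul] at h1
        exact_mod_cast h1
      · exact h3.of_mul_left_right.mul_right h5.1.isCoprime.symm
    · rintro ⟨m, ⟨⟨h1, h2⟩, h3, h4⟩, rfl⟩
      refine ⟨⟨⟨?_, hp.isPrim.mul h2⟩, hpa.mul_left h3.of_mul_right_left, ?_⟩, dvd_mul_right _ _⟩
      · rw [nm_mul]
        rw [le_div_iff₀ hdp, mul_comm] at h1
        exact_mod_cast h1
      · exact squarefree_mul_iff.mpr ⟨h3.of_mul_right_right.symm.isRelPrime, hp.prime.squarefree, h4⟩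
  have h3 := Finset.card_filter_add_card_filter_not (s := sfc a Y) (fun b => p ∣ b)
  rw [h1, h2, Finset.card_map] at h3
  rw [← h3]; push_cast; ring

/-- `kap a = (1 + 1 / N p) * kap (a * p)`. -/
theorem kap_mul {a p : Eis} (ha : a ≠ 0) (hp : IsPP p) (hpa : IsCoprime p a) :
    kap a = (1 + 1 / (nm p : ℝ)) * kap (a * p) := by
  have hnp : (1 : ℝ) < nm p := by exact_mod_cast hp.one_lt_nm
  refine lim_unique (N := fun Y => ((sfc a Y).card : ℝ)) (C1 := 6400 * sig a)
    (C2 := 2 * (6400 * sig (a * p)))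
    (fun Y hY => card_sfc ha hY) (fun Y hY => ?_)
  have h1 := card_sfc (mul_ne_zero ha hp.ne_zero) hY
  have h2 := card_sfc (mul_ne_zero ha hp.ne_zero) (Y := Y / nm p) (by positivity)
  have h3 := sqrt_log_mono (Y := Y / nm p) (Z := Y) (div_le_self hY hnp.le)
  have hsig := sig_pos (a * p)
  rw [card_sfc_split hp hpa Y]
  have e : ((sfc (a * p) Y).card : ℝ) + ((sfc (a * p) (Y / nm p)).card : ℝ) -
      (1 + 1 / (nm p : ℝ)) * kap (a * p) * Y =
      (((sfc (a * p) Y).card : ℝ) - kap (a * p) * Y) +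
      (((sfc (a * p) (Y / nm p)).card : ℝ) - kap (a * p) * (Y / nm p)) := by ring
  rw [e]
  refine (abs_add_le _ _).trans ?_
  have h4 : 6400 * sig (a * p) * (Real.sqrt (Y / nm p) * (1 + Real.log (1 + Real.sqrt (Y / nm p))))
      ≤ 6400 * sig (a * p) * (Real.sqrt Y * (1 + Real.log (1 + Real.sqrt Y))) :=
    mul_le_mul_of_nonneg_left h3 (by positivity)
  nlinarith

/-- `LF a = ∏_{p ∣ a} (1 + 1 / N p)⁻¹`. -/
def LF (a : Eis) : ℝ := ∏ p ∈ pp a, (1 + 1 / (nm p : ℝ))⁻¹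

lemma LF_pos (a : Eis) : 0 < LF a := Finset.prod_pos fun _ _ => by positivity

lemma LF_le_one (a : Eis) : LF a ≤ 1 := by
  refine Finset.prod_le_one (fun p _ => by positivity) (fun p _ => ?_)
  apply inv_le_one_of_one_le₀
  have : (0 : ℝ) ≤ 1 / nm p := by positivity
  linarith

lemma kap_prod {S : Finset Eis} (hS : PPSet S) :
    kap (∏ p ∈ S, p) = kap 1 * ∏ p ∈ S, (1 + 1 / (nm p : ℝ))⁻¹ := by
  classical
  induction S using Finset.induction_on with
  | empty => simp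
  | insert q s hq ih =>
    have hs : PPSet s := hS.subset (subset_insert _ _)
    have hq' : IsPP q := hS q (mem_insert_self _ _)
    have h1 : IsCoprime q (∏ p ∈ s, p) :=
      hq'.isCoprime_iff.mpr fun h => hq ((hs.dvd_prod hq').mp h)
    have h2 := kap_mul hs.prod_ne_zero hq' h1
    rw [ih hs] at h2
    rw [Finset.prod_insert hq, Finset.prod_insert hq, mul_comm q]
    have h3 : (1 + 1 / (nm q : ℝ)) ≠ 0 := by positivity
    calc kap ((∏ p ∈ s, p) * q) = (1 + 1 / (nm q : ℝ))⁻¹ *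
          ((1 + 1 / (nm q : ℝ)) * kap ((∏ p ∈ s, p) * q)) := by field_simp
      _ = _ := by rw [← h2]; ring

lemma isCoprime_prod_pp {a b : Eis} (ha : a ≠ 0) (hb : IsPrim b) :
    IsCoprime b (∏ p ∈ pp a, p) ↔ IsCoprime b a := by
  rw [isCoprime_iff_pp hb, isCoprime_iff_pp hb]
  constructor
  · intro h p hp hpb hpa
    exact h p hp hpb (((ppSet_pp a).dvd_prod hp).mpr ((mem_pp ha).mpr ⟨hp, hpa⟩))
  · intro h p hp hpb hpa
    exact h p hp hpb (dvd_of_mem_pp (((ppSet_pp a).dvd_prod hp).mp hpa))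

lemma kap_prod_pp {a : Eis} (ha : a ≠ 0) : kap (∏ p ∈ pp a, p) = kap a := by
  unfold kap Z
  have h1 : PE (∏ p ∈ pp a, p) = PE a := by
    unfold PE
    rw [(ppSet_pp a).pp_prod]
  rw [h1]
  congr 1
  refine tsum_congr fun d => ?_
  unfold zt
  have h2 : (IsPrim d ∧ IsCoprime d (∏ p ∈ pp a, p)) ↔ (IsPrim d ∧ IsCoprime d a) :=
    and_congr_right fun hd => isCoprime_prod_pp ha hd
  by_cases h3 : IsPrim d ∧ IsCoprime d a
  · rw [if_pos h3, if_pos (h2.mpr h3)]
  · rw [if_neg h3, if_neg (fun h => h3 (h2.mp h))]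

/-- `kap a = kap 1 * ∏_{p ∣ a} (1 + 1 / N p)⁻¹`. -/
theorem kap_eq {a : Eis} (ha : a ≠ 0) : kap a = kap 1 * LF a := by
  rw [← kap_prod_pp ha, kap_prod (ppSet_pp a)]
  rfl

lemma PE_one : PE 1 = 1 := by unfold PE; rw [pp_one]; simp
lemma LF_one : LF 1 = 1 := by unfold LF; rw [pp_one]; simp
lemma sig_one : sig 1 = 1 := by unfold sig; rw [pp_one]; simp

/-- `kap 1 = 2π / (9√3) * ∑ μ(d) / (N d)²`. -/
lemma kap_one : kap 1 = kap0 * Z 1 := by unfold kap; rw [PE_one, mul_one]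

theorem kap_one_pos : 0 < kap 1 := by
  classical
  set S := (pb 300).filter Prime with hS
  have hPS : PPSet S := fun p hp => by
    rw [hS, mem_filter, mem_pb] at hp
    exact ⟨hp.1.2, hp.2⟩
  set a := ∏ p ∈ S, p with ha
  have h1 : |Z a - ∑ d ∈ {1}, zt a d| ≤ 300 / ((300 : ℕ) + 1) := by
    refine abs_Z_sub_le a {1} 300 fun d hd hdp hda => ?_
    rw [mem_singleton] at hd
    obtain ⟨p, hp, hpd⟩ := exists_pp_dvd_of_isPrim hdp hd
    have h2 : nm p ≤ nm d := nm_le_of_dvd hdp.ne_zero hpd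
    by_contra hle
    push Not at hle
    have h3 : p ∈ S := by
      rw [hS, mem_filter, mem_pb]
      refine ⟨⟨?_, hp.isPrim⟩, hp.prime⟩
      exact_mod_cast h2.trans hle
    have h4 : p ∣ a := by rw [ha]; exact (hPS.dvd_prod hp).mpr h3
    exact hp.prime.not_isUnit (hda.isUnit_of_dvd' hpd h4)
  have h2 : ∑ d ∈ {1}, zt a d = 1 := by
    rw [Finset.sum_singleton]
    unfold zt
    rw [if_pos ⟨isPrim_one, isCoprime_one_left⟩, muE_one]
    simp
  rw [h2] at h1
  have h3 : 0 < Z a := by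
    have := (abs_le.mp h1).1
    norm_num at this
    linarith
  have h4 : 0 < kap a := by
    unfold kap
    have := kap0_pos
    have := PE_pos a
    positivity
  rw [kap_eq hPS.prod_ne_zero] at h4
  exact pos_of_mul_pos_left h4 (LF_pos a).le

theorem kap_pos {a : Eis} (ha : a ≠ 0) : 0 < kap a := by
  rw [kap_eq ha]
  exact mul_pos kap_one_pos (LF_pos a)

/-- The density with a cruder error term. -/
theorem card_sfc' {a : Eis} (ha : a ≠ 0) {Y : ℝ} (hY : 0 ≤ Y) :
    |((sfc a Y).card : ℝ) - kap 1 * LF a * Y| ≤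
      12800 * sig a * Real.sqrt Y * (1 + Real.log (1 + Y)) := by
  have h := card_sfc ha hY
  rw [kap_eq ha] at h
  refine h.trans ?_
  have h1 : Real.log (1 + Real.sqrt Y) ≤ 1 + Real.log (1 + Y) := by
    rcases le_or_gt Y 1 with h2 | h2
    · have h3 : Real.sqrt Y ≤ 1 := by
        rw [show (1 : ℝ) = Real.sqrt 1 by simp]; exact Real.sqrt_le_sqrt h2
      have h4 := Real.log_le_sub_one_of_pos (x := 1 + Real.sqrt Y) (by
        have := Real.sqrt_nonneg Y; linarith)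
      have h5 : 0 ≤ Real.log (1 + Y) := Real.log_nonneg (by linarith)
      linarith
    · have h3 : Real.sqrt Y ≤ Y := by
        rw [Real.sqrt_le_left hY]; nlinarith
      have h4 : Real.log (1 + Real.sqrt Y) ≤ Real.log (1 + Y) :=
        Real.log_le_log (by have := Real.sqrt_nonneg Y; linarith) (by linarith)
      linarith
  have h5 : 0 ≤ Real.log (1 + Y) := Real.log_nonneg (by linarith)
  have h6 : 0 ≤ 6400 * sig a * Real.sqrt Y := by have := sig_pos a; positivity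
  nlinarith

end Crest.Agent.R012.Mob705
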