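import Crest.Agent.R012.Dual_671
import Crest.Agent.R012.Mob_705

/-!
# Row 12 (T1x): the exact dual identity with gcd structure

* `dual3` : `∑_{a primary, (a,e)=1} (a/k₁) conj (a/k₂) f(a)` as a dual sum (Moebius over `d ∣ e`)
* `pairG` : the same for `G(b₁) conj (a/b₁) · conj (G(b₂) conj (a/b₂))`, `b_i = e k_i`:
  all Gauss sums cancel
* `exists_gcd_split`, `sum_pairs_gcd` : pairs `(b₁, b₂)` of squarefree primary elements as triples
  `(e, k₁, k₂)`
* `dual_sum` : the summed form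
-/

set_option autoImplicit false
set_option linter.unusedSimpArgs false
set_option linter.unusedVariables false

noncomputable section

open Finset

namespace Crest.Agent.R012.Tau671

open Eis
open Gauss880 (syG)
open Po581 (fC dl)
open Mob705 (mu pdiv mem_pdiv sum_mu_coprime)

lemma isPrim_mul_iff {d a : Eis} (hd : IsPrim d) : IsPrim (d * a) ↔ IsPrim a :=
  ⟨fun h => IsPrim.of_mul_left h hd, fun h => hd.mul h⟩

open Classical in
/-- Sums over the primary multiples of a primary `d`. -/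
lemma tsum_prim_dvd {d : Eis} (hd : IsPrim d) (F : Eis → ℂ) :
    ∑' a : Eis, (if IsPrim a ∧ d ∣ a then F a else 0) =
      ∑' a : Eis, (if IsPrim a then F (d * a) else 0) := by
  have hinj : Function.Injective (fun a : Eis => d * a) := fun x y h =>
    mul_left_cancel₀ hd.ne_zero h
  rw [← hinj.tsum_eq (f := fun a : Eis => if IsPrim a ∧ d ∣ a then F a else 0)]
  · refine tsum_congr fun a => ?_
    have : (IsPrim (d * a) ∧ d ∣ d * a) ↔ IsPrim a :=
      ⟨fun h => (isPrim_mul_iff hd).mp h.1, fun h => ⟨(isPrim_mul_iff hd).mpr h, dvd_mul_right _ _⟩⟩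
    simp only [this]
  · intro a ha
    rw [Function.mem_support] at ha
    have h1 : IsPrim a ∧ d ∣ a := by
      by_contra h
      exact ha (if_neg h)
    obtain ⟨t, ht⟩ := h1.2
    exact ⟨t, ht.symm⟩

open Classical in
/-- **Two characters with a coprimality condition.** -/
theorem dual3 {f : ℂ → ℂ} (hf : PF f) {e k1 k2 : Eis} (he : e ≠ 0) (h1 : IsPrim k1)
    (h2 : IsPrim k2) (hcop : IsCoprime k1 k2) :
    ∑' a : Eis, (if IsPrim a ∧ IsCoprime a e then sy a k1 * (starRingEnd ℂ) (sy a k2) else 0) *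
        f (toC a) =
      ((2 / (9 * Real.sqrt 3 * (nm k1 * nm k2)) : ℝ) : ℂ) *
        ∑ d ∈ pdiv e, (mu d : ℂ) * (nm d : ℂ)⁻¹ * (sy d k1 * (starRingEnd ℂ) (sy d k2)) *
          ∑' h : Eis, ph h * (gs h k1 * (starRingEnd ℂ) (gs h k2)) *
            fC f (toC h / (3 * toC sq3 * (toC k1 * toC k2) * toC d)) := by
  have hbd : ∀ a : Eis, ‖sy a k1 * (starRingEnd ℂ) (sy a k2)‖ ≤ 1 := fun a => by
    rw [norm_mul, RCLike.norm_conj]
    exact mul_le_one₀ (norm_sy_le h1) (norm_nonneg _) (norm_sy_le h2)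
  have e1 : ∀ a : Eis, (if IsPrim a ∧ IsCoprime a e then sy a k1 * (starRingEnd ℂ) (sy a k2)
      else 0) * f (toC a) = ∑ d ∈ pdiv e, (mu d : ℂ) *
        (if IsPrim a ∧ d ∣ a then sy a k1 * (starRingEnd ℂ) (sy a k2) * f (toC a) else 0) := by
    intro a
    by_cases ha : IsPrim a
    · have h := sum_mu_coprime ha he
      have h' : ∑ d ∈ pdiv e, ((mu d : ℤ) : ℂ) * (if d ∣ a then (1 : ℂ) else 0) =
          if IsCoprime a e then (1 : ℂ) else 0 := by
        have h3 := congrArg (fun z : ℤ => (z : ℂ)) h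
        beta_reduce at h3
        push_cast at h3
        rw [← h3]
        exact Finset.sum_congr rfl fun d _ => by split_ifs <;> simp
      have h4 : ∀ d : Eis, (if IsPrim a ∧ d ∣ a then
          sy a k1 * (starRingEnd ℂ) (sy a k2) * f (toC a) else 0) =
          (if d ∣ a then (1 : ℂ) else 0) * (sy a k1 * (starRingEnd ℂ) (sy a k2) * f (toC a)) := by
        intro d
        by_cases hda : d ∣ a
        · rw [if_pos ⟨ha, hda⟩, if_pos hda, one_mul]
        · rw [if_neg (fun h => hda h.2), if_neg hda, zero_mul]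
      simp_rw [h4, ← mul_assoc]
      rw [← Finset.sum_mul, ← Finset.sum_mul, ← Finset.sum_mul, h']
      by_cases hc : IsCoprime a e
      · rw [if_pos ⟨ha, hc⟩, if_pos hc, one_mul]
      · rw [if_neg (fun h => hc h.2), if_neg hc]; ring
    · rw [if_neg (fun h => ha h.1), zero_mul]
      symm
      apply Finset.sum_eq_zero
      intro d _
      rw [if_neg (fun h => ha h.1), mul_zero]
  simp_rw [e1]
  rw [Summable.tsum_finsetSum, Finset.mul_sum]
  · refine Finset.sum_congr rfl fun d hd => ?_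
    have hdp : IsPrim d := ((mem_pdiv he).mp hd).1
    have hd0 := toC_ne_zero hdp.ne_zero
    rw [tsum_mul_left, tsum_prim_dvd hdp]
    have e2 : ∀ a : Eis, (if IsPrim a then sy (d * a) k1 * (starRingEnd ℂ) (sy (d * a) k2) *
        f (toC (d * a)) else 0) = (sy d k1 * (starRingEnd ℂ) (sy d k2)) *
          ((if IsPrim a then sy a k1 * (starRingEnd ℂ) (sy a k2) else 0) *
            (fun z => f (toC d * z)) (toC a)) := by
      intro a
      split_ifs
      · rw [syG.mul_left _ _ _ h1, syG.mul_left _ _ _ h2, map_mul, map_mul]; ring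
      · ring
    simp_rw [e2]
    rw [tsum_mul_left, dual2_prim (hf.dilate hd0) h1 h2 hcop]
    have e3 : ∀ h : Eis, ph h * (gs h k1 * (starRingEnd ℂ) (gs h k2)) *
        fC (fun z => f (toC d * z)) (toC h / (3 * toC sq3 * (toC k1 * toC k2))) =
        (nm d : ℂ)⁻¹ * (ph h * (gs h k1 * (starRingEnd ℂ) (gs h k2)) *
          fC f (toC h / (3 * toC sq3 * (toC k1 * toC k2) * toC d))) := by
      intro h
      rw [fC_dilate f hd0, div_div, norm_toC_sq]
      push_cast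
      ring
    simp_rw [e3]
    rw [tsum_mul_left]
    ring
  · intro d hd
    refine Summable.mul_left _ ?_
    refine Summable.of_norm_bounded (summable_pf_one hf).norm (fun a => ?_)
    split_ifs
    · rw [norm_mul]
      exact mul_le_of_le_one_left (norm_nonneg _) (hbd a)
    · rw [norm_zero]; exact norm_nonneg _

/-- The character `n ↦ (h/n) conj (r/n)`. -/
def psi (h r n : Eis) : ℂ := sy h n * (starRingEnd ℂ) (sy r n)

lemma norm_psi_le {h r n : Eis} (hn : IsPrim n) : ‖psi h r n‖ ≤ 1 := by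
  unfold psi
  rw [norm_mul, RCLike.norm_conj]
  exact mul_le_one₀ (norm_sy_le hn) (norm_nonneg _) (norm_sy_le hn)

lemma psi_mul {h r m n : Eis} (hm : IsPrim m) (hn : IsPrim n) :
    psi h r (m * n) = psi h r m * psi h r n := by
  unfold psi
  rw [syG.mul_right _ _ _ hm hn, syG.mul_right _ _ _ hm hn, map_mul]; ring

lemma psi_mul_star {h r n : Eis} (hn : IsPrim n) (h1 : IsCoprime h n) (h2 : IsCoprime r n) :
    psi h r n * (starRingEnd ℂ) (psi h r n) = 1 := by
  unfold psi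
  rw [map_mul, Complex.conj_conj]
  have e1 := sy_mul_star hn h1
  have e2 := sy_mul_star hn h2
  calc sy h n * (starRingEnd ℂ) (sy r n) * ((starRingEnd ℂ) (sy h n) * sy r n)
      = (sy h n * (starRingEnd ℂ) (sy h n)) * (sy r n * (starRingEnd ℂ) (sy r n)) := by ring
    _ = 1 := by rw [e1, e2, one_mul]

lemma psi_eq_zero {h r n : Eis} (hn : IsPrim n) (h1 : ¬ IsCoprime h n) : psi h r n = 0 := by
  unfold psi; rw [sy_eq_zero hn h1, zero_mul]

open Classical in
/-- **The pair identity**: all Gauss sums cancel. -/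
theorem pairG {f : ℂ → ℂ} (hf : PF f) {e k1 k2 : Eis} (he : IsPrim e) (h1 : IsPrim k1)
    (h2 : IsPrim k2) (hes : Squarefree e) (hs1 : Squarefree k1) (hs2 : Squarefree k2)
    (he1 : IsCoprime e k1) (he2 : IsCoprime e k2) (hcop : IsCoprime k1 k2) :
    ∑' a : Eis, (if IsPrim a then (G (e * k1) * (starRingEnd ℂ) (sy a (e * k1))) *
        (starRingEnd ℂ) (G (e * k2) * (starRingEnd ℂ) (sy a (e * k2))) else 0) * f (toC a) =
      ((2 / (9 * Real.sqrt 3 * Real.sqrt (nm k1 * nm k2)) : ℝ) : ℂ) *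
        ∑ d ∈ pdiv e, (mu d : ℂ) * (nm d : ℂ)⁻¹ *
          ∑' h : Eis, ph h * (psi h (d * e) k1 * (starRingEnd ℂ) (psi h (d * e) k2)) *
            fC f (toC h / (3 * toC sq3 * (toC k1 * toC k2) * toC d)) := by
  have q1 : (Real.sqrt (nm k1) : ℝ) ≠ 0 := by
    have : (0 : ℝ) < nm k1 := by exact_mod_cast nm_pos.mpr h1.ne_zero
    exact (Real.sqrt_pos.mpr this).ne'
  have q2 : (Real.sqrt (nm k2) : ℝ) ≠ 0 := by
    have : (0 : ℝ) < nm k2 := by exact_mod_cast nm_pos.mpr h2.ne_zero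
    exact (Real.sqrt_pos.mpr this).ne'
  have sq1 : (Real.sqrt (nm k1) : ℂ) * (Real.sqrt (nm k1) : ℂ) = (nm k1 : ℂ) := by
    rw [← Complex.ofReal_mul, Real.mul_self_sqrt (Nat.cast_nonneg _)]; norm_cast
  have sq2 : (Real.sqrt (nm k2) : ℂ) * (Real.sqrt (nm k2) : ℂ) = (nm k2 : ℂ) := by
    rw [← Complex.ofReal_mul, Real.mul_self_sqrt (Nat.cast_nonneg _)]; norm_cast
  have g0 : G e * (starRingEnd ℂ) (G e) = 1 := Gauss880.G_mul_conj syG he hes
  have g1 : G k1 * (starRingEnd ℂ) (G k1) = 1 := Gauss880.G_mul_conj syG h1 hs1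
  have g2 : G k2 * (starRingEnd ℂ) (G k2) = 1 := Gauss880.G_mul_conj syG h2 hs2
  have m1 := Gauss880.G_mul syG he h1 he1
  have m2 := Gauss880.G_mul syG he h2 he2
  -- the summand in terms of the pair `(k2, k1)`
  have e1 : ∀ a : Eis, (if IsPrim a then (G (e * k1) * (starRingEnd ℂ) (sy a (e * k1))) *
        (starRingEnd ℂ) (G (e * k2) * (starRingEnd ℂ) (sy a (e * k2))) else 0) * f (toC a) =
      (G k1 * (starRingEnd ℂ) (sy e k1) * ((starRingEnd ℂ) (G k2) * sy e k2)) *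
        ((if IsPrim a ∧ IsCoprime a e then sy a k2 * (starRingEnd ℂ) (sy a k1) else 0) *
          f (toC a)) := by
    intro a
    by_cases ha : IsPrim a
    · rw [if_pos ha, m1, m2, syG.mul_right _ _ _ he h1, syG.mul_right _ _ _ he h2]
      simp only [map_mul, Complex.conj_conj]
      by_cases hc : IsCoprime a e
      · rw [if_pos ⟨ha, hc⟩]
        have s0 := sy_mul_star he hc
        linear_combination (G k1 * (starRingEnd ℂ) (sy e k1) * ((starRingEnd ℂ) (G k2) * sy e k2)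
          * (sy a k2 * (starRingEnd ℂ) (sy a k1)) * f (toC a)) *
          (G e * (starRingEnd ℂ) (G e) * s0 + g0)
      · rw [if_neg (fun h => hc h.2), sy_eq_zero he hc, map_zero]; ring
    · rw [if_neg ha, if_neg (fun h => ha h.1)]; ring
  simp_rw [e1]
  rw [tsum_mul_left, dual3 hf he.ne_zero h2 h1 hcop.symm]
  have key : ∀ d ∈ pdiv e,
      (mu d : ℂ) * (nm d : ℂ)⁻¹ * (sy d k2 * (starRingEnd ℂ) (sy d k1)) *
          ∑' h : Eis, ph h * (gs h k2 * (starRingEnd ℂ) (gs h k1)) *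
            fC f (toC h / (3 * toC sq3 * (toC k2 * toC k1) * toC d)) =
      ((starRingEnd ℂ) (G k1) * G k2 * ((Real.sqrt (nm k1) : ℂ) * (Real.sqrt (nm k2) : ℂ))) *
      ((mu d : ℂ) * (nm d : ℂ)⁻¹ * (sy d k2 * (starRingEnd ℂ) (sy d k1)) *
          ∑' h : Eis, ph h * (sy h k1 * (starRingEnd ℂ) (sy h k2)) *
            fC f (toC h / (3 * toC sq3 * (toC k1 * toC k2) * toC d))) := by
    intro d _
    have e2 : ∀ h : Eis, ph h * (gs h k2 * (starRingEnd ℂ) (gs h k1)) *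
            fC f (toC h / (3 * toC sq3 * (toC k2 * toC k1) * toC d)) =
        ((starRingEnd ℂ) (G k1) * G k2 * ((Real.sqrt (nm k1) : ℂ) * (Real.sqrt (nm k2) : ℂ))) *
        (ph h * (sy h k1 * (starRingEnd ℂ) (sy h k2)) *
            fC f (toC h / (3 * toC sq3 * (toC k1 * toC k2) * toC d))) := by
      intro h
      rw [Gauss880.gs_eq_G syG h1 hs1, Gauss880.gs_eq_G syG h2 hs2, mul_comm (toC k2) (toC k1)]
      simp only [map_mul, Complex.conj_conj, Complex.conj_ofReal]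
      ring
    simp_rw [e2]
    rw [tsum_mul_left]
    ring
  rw [Finset.sum_congr rfl key, ← Finset.mul_sum]
  have key2 : ∀ d ∈ pdiv e, (mu d : ℂ) * (nm d : ℂ)⁻¹ *
          ∑' h : Eis, ph h * (psi h (d * e) k1 * (starRingEnd ℂ) (psi h (d * e) k2)) *
            fC f (toC h / (3 * toC sq3 * (toC k1 * toC k2) * toC d)) =
      ((starRingEnd ℂ) (sy e k1) * sy e k2) *
      ((mu d : ℂ) * (nm d : ℂ)⁻¹ * (sy d k2 * (starRingEnd ℂ) (sy d k1)) *
          ∑' h : Eis, ph h * (sy h k1 * (starRingEnd ℂ) (sy h k2)) *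
            fC f (toC h / (3 * toC sq3 * (toC k1 * toC k2) * toC d))) := by
    intro d _
    have e2 : ∀ h : Eis, ph h * (psi h (d * e) k1 * (starRingEnd ℂ) (psi h (d * e) k2)) *
            fC f (toC h / (3 * toC sq3 * (toC k1 * toC k2) * toC d)) =
        ((starRingEnd ℂ) (sy e k1) * sy e k2 * (sy d k2 * (starRingEnd ℂ) (sy d k1))) *
        (ph h * (sy h k1 * (starRingEnd ℂ) (sy h k2)) *
            fC f (toC h / (3 * toC sq3 * (toC k1 * toC k2) * toC d))) := by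
      intro h
      unfold psi
      rw [syG.mul_left _ _ _ h1, syG.mul_left _ _ _ h2]
      simp only [map_mul, Complex.conj_conj]
      ring
    simp_rw [e2]
    rw [tsum_mul_left]
    ring
  rw [Finset.sum_congr rfl key2, ← Finset.mul_sum]
  have hconst : ((2 / (9 * Real.sqrt 3 * (nm k2 * nm k1)) : ℝ) : ℂ) *
      ((Real.sqrt (nm k1) : ℂ) * (Real.sqrt (nm k2) : ℂ)) =
      ((2 / (9 * Real.sqrt 3 * Real.sqrt (nm k1 * nm k2)) : ℝ) : ℂ) := by
    rw [← Complex.ofReal_mul, ← Complex.ofReal_mul]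
    congr 1
    rw [Real.sqrt_mul (Nat.cast_nonneg _)]
    have n1 : (nm k1 : ℝ) = Real.sqrt (nm k1) * Real.sqrt (nm k1) :=
      (Real.mul_self_sqrt (Nat.cast_nonneg _)).symm
    have n2 : (nm k2 : ℝ) = Real.sqrt (nm k2) * Real.sqrt (nm k2) :=
      (Real.mul_self_sqrt (Nat.cast_nonneg _)).symm
    have h3 : Real.sqrt 3 ≠ 0 := by positivity
    have e4 : (nm k2 : ℝ) * (nm k1 : ℝ) = (Real.sqrt (nm k1) * Real.sqrt (nm k2)) *
        (Real.sqrt (nm k1) * Real.sqrt (nm k2)) := by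
      rw [n1, n2] ; simp only [Real.sqrt_mul_self (Real.sqrt_nonneg _)]; ring
    rw [e4]
    field_simp
  rw [← hconst]
  linear_combination (((2 / (9 * Real.sqrt 3 * (nm k2 * nm k1)) : ℝ) : ℂ) *
      ((Real.sqrt (nm k1) : ℂ) * (Real.sqrt (nm k2) : ℂ)) *
      ((starRingEnd ℂ) (sy e k1) * sy e k2) *
      (∑ d ∈ pdiv e, (mu d : ℂ) * (nm d : ℂ)⁻¹ * (sy d k2 * (starRingEnd ℂ) (sy d k1)) *
          ∑' h : Eis, ph h * (sy h k1 * (starRingEnd ℂ) (sy h k2)) *
            fC f (toC h / (3 * toC sq3 * (toC k1 * toC k2) * toC d)))) *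
      (G k2 * (starRingEnd ℂ) (G k2) * g1 + g2)

/-! ### Pairs and their greatest common divisors -/

/-- Two squarefree primary elements split over their primary gcd. -/
lemma exists_gcd_split {b1 b2 : Eis} (h1 : IsPrim b1) (h2 : IsPrim b2) (hs1 : Squarefree b1)
    (hs2 : Squarefree b2) :
    ∃ e k1 k2 : Eis, IsPrim e ∧ IsPrim k1 ∧ IsPrim k2 ∧ b1 = e * k1 ∧ b2 = e * k2 ∧
      IsCoprime k1 k2 ∧ IsCoprime e k1 ∧ IsCoprime e k2 ∧ Squarefree e ∧ Squarefree k1 ∧
      Squarefree k2 := by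
  set g := EuclideanDomain.gcd b1 b2 with hg
  have hg1 : g ∣ b1 := EuclideanDomain.gcd_dvd_left _ _
  have hg2 : g ∣ b2 := EuclideanDomain.gcd_dvd_right _ _
  have hgl : ¬ lam ∣ g := fun h => h1.not_lam_dvd (h.trans hg1)
  set e := prim g with he
  have hep : IsPrim e := prim_isPrim hgl
  have hass : Associated g e := prim_associated g
  obtain ⟨k1, hk1⟩ : e ∣ b1 := hass.symm.dvd.trans hg1
  obtain ⟨k2, hk2⟩ : e ∣ b2 := hass.symm.dvd.trans hg2
  have hp1 : IsPrim k1 := IsPrim.of_mul_left (hk1 ▸ h1) hep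
  have hp2 : IsPrim k2 := IsPrim.of_mul_left (hk2 ▸ h2) hep
  have hcop : IsCoprime k1 k2 := by
    have hbez := EuclideanDomain.gcd_eq_gcd_ab b1 b2
    rw [← hg] at hbez
    obtain ⟨u, hu⟩ := hass
    refine ⟨u * EuclideanDomain.gcdA b1 b2, u * EuclideanDomain.gcdB b1 b2, ?_⟩
    apply mul_left_cancel₀ hep.ne_zero
    calc e * (u * EuclideanDomain.gcdA b1 b2 * k1 + u * EuclideanDomain.gcdB b1 b2 * k2)
        = u * (e * k1 * EuclideanDomain.gcdA b1 b2 + e * k2 * EuclideanDomain.gcdB b1 b2) := by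
          ring
      _ = u * (b1 * EuclideanDomain.gcdA b1 b2 + b2 * EuclideanDomain.gcdB b1 b2) := by
          rw [← hk1, ← hk2]
      _ = e * 1 := by rw [← hbez, mul_comm, hu, mul_one]
  rw [hk1] at hs1
  rw [hk2] at hs2
  obtain ⟨r1, se, sk1⟩ := squarefree_mul_iff.mp hs1
  obtain ⟨r2, _, sk2⟩ := squarefree_mul_iff.mp hs2
  exact ⟨e, k1, k2, hep, hp1, hp2, hk1, hk2, hcop, r1.isCoprime, r2.isCoprime, se, sk1, sk2⟩

/-- Uniqueness of the splitting. -/
lemma gcd_split_unique {e k1 k2 e' k1' k2' : Eis} (he : IsPrim e) (he' : IsPrim e')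
    (h1 : e * k1 = e' * k1') (h2 : e * k2 = e' * k2') (hc : IsCoprime k1 k2)
    (hc' : IsCoprime k1' k2') : e = e' ∧ k1 = k1' ∧ k2 = k2' := by
  have d1 : e ∣ e' := by
    obtain ⟨a, b, hab⟩ := hc'
    refine ⟨a * k1 + b * k2, ?_⟩
    linear_combination (-a) * h1 - b * h2 - e' * hab
  have d2 : e' ∣ e := by
    obtain ⟨a, b, hab⟩ := hc
    refine ⟨a * k1' + b * k2', ?_⟩
    linear_combination a * h1 + b * h2 - e * hab
  have hee : e = e' := he.eq_of_associated he' (associated_of_dvd_dvd d1 d2)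
  subst hee
  exact ⟨rfl, mul_left_cancel₀ he.ne_zero h1, mul_left_cancel₀ he.ne_zero h2⟩

open Classical in
/-- Sums over pairs as sums over triples `(e, k₁, k₂)`.  `D` is any finite set of primary elements
containing all primary divisors of the elements of `S`. -/
lemma sum_pairs_gcd {S D : Finset Eis} (hS : ∀ b ∈ S, IsPrim b ∧ Squarefree b)
    (hD : ∀ d ∈ D, IsPrim d) (hSD : ∀ b ∈ S, ∀ d : Eis, IsPrim d → d ∣ b → d ∈ D)
    (F : Eis → Eis → ℂ) :
    ∑ b1 ∈ S, ∑ b2 ∈ S, F b1 b2 =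
      ∑ e ∈ D, ∑ k1 ∈ D, ∑ k2 ∈ D,
        if e * k1 ∈ S ∧ e * k2 ∈ S ∧ IsCoprime k1 k2 then F (e * k1) (e * k2) else 0 := by
  have e1 : ∑ b1 ∈ S, ∑ b2 ∈ S, F b1 b2 = ∑ p ∈ S ×ˢ S, F p.1 p.2 := by
    rw [Finset.sum_product]
  have e2 : ∑ e ∈ D, ∑ k1 ∈ D, ∑ k2 ∈ D,
        (if e * k1 ∈ S ∧ e * k2 ∈ S ∧ IsCoprime k1 k2 then F (e * k1) (e * k2) else 0) =
      ∑ t ∈ (D ×ˢ D ×ˢ D).filter (fun t => t.1 * t.2.1 ∈ S ∧ t.1 * t.2.2 ∈ S ∧
        IsCoprime t.2.1 t.2.2), F (t.1 * t.2.1) (t.1 * t.2.2) := by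
    rw [Finset.sum_filter, Finset.sum_product]
    refine Finset.sum_congr rfl fun e _ => ?_
    rw [Finset.sum_product]
  rw [e1, e2]
  symm
  refine Finset.sum_nbij (fun t => (t.1 * t.2.1, t.1 * t.2.2)) ?_ ?_ ?_ ?_
  · intro t ht
    rw [Finset.mem_filter] at ht
    exact Finset.mem_product.mpr ⟨ht.2.1, ht.2.2.1⟩
  · intro t ht t' ht' h
    rw [Finset.mem_coe, Finset.mem_filter, Finset.mem_product, Finset.mem_product] at ht ht'
    obtain ⟨h1, h2⟩ := Prod.ext_iff.mp h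
    obtain ⟨a1, a2, a3⟩ := gcd_split_unique (hD _ ht.1.1) (hD _ ht'.1.1) h1 h2 ht.2.2.2 ht'.2.2.2
    exact Prod.ext a1 (Prod.ext a2 a3)
  · rintro ⟨b1, b2⟩ hb
    rw [Finset.mem_coe, Finset.mem_product] at hb
    obtain ⟨p1, s1⟩ := hS _ hb.1
    obtain ⟨p2, s2⟩ := hS _ hb.2
    obtain ⟨e, k1, k2, he, hk1, hk2, hb1, hb2, hc, -⟩ := exists_gcd_split p1 p2 s1 s2
    refine ⟨(e, k1, k2), ?_, ?_⟩
    · rw [Finset.mem_coe, Finset.mem_filter, Finset.mem_product, Finset.mem_product]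
      refine ⟨⟨hSD _ hb.1 _ he ⟨k1, hb1⟩, hSD _ hb.1 _ hk1 ⟨e, by rw [hb1, mul_comm]⟩,
        hSD _ hb.2 _ hk2 ⟨e, by rw [hb2, mul_comm]⟩⟩, ?_, ?_, hc⟩
      · rw [← hb1]; exact hb.1
      · rw [← hb2]; exact hb.2
    · exact Prod.ext hb1.symm hb2.symm
  · intro t _
    rfl

end Crest.Agent.R012.Tau671
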