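import Crest.Agent.R012.Lat_277
import Crest.Agent.R012.PoissonS_581

/-!
# Row 12 (TIII): elementary lemmas for the edge triples

* `sum_ball_le_of_antitone` : `∑_{0<N(h)≤X} g(N h) ≤ 100 ∑_{1≤n≤X} g(n)` for antitone `g ≥ 0`
* `sum_exp_le`, `tsum_exp_le` : `∑_{h≠0} exp(-c N(h)) ≤ 100/c`
* `sum_cube_exp_le` : `∑_{m≠0} exp(-c N(m)^3) ≤ 200 c^{-1/3}`
* `abel_antitone`, `abel_monotone` : partial summation along the norm
-/

set_option autoImplicit false

noncomputable section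

namespace Crest.Agent.R012.Edge79

open Eis

/-- `∑_{0<N(h)≤X} g(N h) ≤ 100 ∑_{1≤n≤X} g(n)`. -/
lemma sum_ball_le_of_antitone {g : ℕ → ℝ} (hg : Antitone g) (h0 : ∀ n, 0 ≤ g n) (X : ℕ) :
    ∑ h ∈ (ball X).erase 0, g (nm h) ≤ 100 * ∑ n ∈ Finset.Icc 1 X, g n := by
  have key : ∀ X : ℕ, ∑ h ∈ (ball X).erase 0, g (nm h) - 100 * ∑ n ∈ Finset.Icc 1 X, g n ≤
      g X * ((((ball X).erase 0).card : ℝ) - 100 * X) := by
    intro X
    induction X with
    | zero =>
      have : (ball 0).erase 0 = ∅ := by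
        ext x
        simp only [Finset.mem_erase, mem_ball, Finset.notMem_empty, iff_false, not_and]
        intro h1 h2
        exact h1 (nm_eq_zero.mp (by omega))
      rw [this]; simp
    | succ N ih =>
      classical
      set T := (((ball (N + 1)).erase 0).filter (fun h => nm h = N + 1)) with hT
      have hU : (ball (N + 1)).erase 0 = (ball N).erase 0 ∪ T := by
        ext x
        simp only [hT, Finset.mem_erase, mem_ball, Finset.mem_union, Finset.mem_filter]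
        constructor
        · rintro ⟨h1, h2⟩
          by_cases h : nm x ≤ N
          · exact Or.inl ⟨h1, h⟩
          · exact Or.inr ⟨⟨h1, h2⟩, by omega⟩
        · rintro (⟨h1, h2⟩ | ⟨⟨h1, h2⟩, -⟩)
          · exact ⟨h1, by omega⟩
          · exact ⟨h1, h2⟩
      have hD : Disjoint ((ball N).erase 0) T := by
        rw [Finset.disjoint_left]
        intro x hx hx'
        simp only [hT, Finset.mem_erase, mem_ball, Finset.mem_filter] at hx hx'
        omega
      have hc : (((ball (N + 1)).erase 0).card : ℝ) = ((ball N).erase 0).card + T.card := by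
        rw [hU, Finset.card_union_of_disjoint hD]; push_cast; ring
      have hs : ∑ h ∈ T, g (nm h) = T.card * g (N + 1) := by
        rw [Finset.sum_congr rfl (g := fun _ => g (N + 1))]
        · rw [Finset.sum_const, nsmul_eq_mul]
        · intro x hx
          simp only [hT, Finset.mem_filter] at hx
          rw [hx.2]
      rw [hc, hU, Finset.sum_union hD, hs, Finset.sum_Icc_succ_top (by omega)]
      have h1 := Lat277.card_ball_erase_le N
      have h2 : g (N + 1) ≤ g N := hg (by omega)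
      have h3 : (g N - g (N + 1)) * ((((ball N).erase 0).card : ℝ) - 100 * N) ≤ 0 :=
        mul_nonpos_of_nonneg_of_nonpos (by linarith) (by linarith)
      push_cast
      nlinarith
  have h1 := key X
  have h2 := Lat277.card_ball_erase_le X
  have h3 : g X * ((((ball X).erase 0).card : ℝ) - 100 * X) ≤ 0 :=
    mul_nonpos_of_nonneg_of_nonpos (h0 X) (by linarith)
  linarith

lemma exists_nm_le (s : Finset Eis) : ∃ X : ℕ, ∀ h ∈ s, nm h ≤ X :=
  ⟨s.sup nm, fun _ hh => Finset.le_sup hh⟩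

lemma sum_le_of_antitone {g : ℕ → ℝ} (hg : Antitone g) (h0 : ∀ n, 0 ≤ g n) {K : ℝ}
    (hK : ∀ X : ℕ, ∑ n ∈ Finset.Icc 1 X, g n ≤ K) (s : Finset Eis) (hs : ∀ h ∈ s, h ≠ 0) :
    ∑ h ∈ s, g (nm h) ≤ 100 * K := by
  obtain ⟨X, hX⟩ := exists_nm_le s
  calc ∑ h ∈ s, g (nm h) ≤ ∑ h ∈ (ball X).erase 0, g (nm h) := by
        apply Finset.sum_le_sum_of_subset_of_nonneg
        · intro h hh
          exact Finset.mem_erase.mpr ⟨hs h hh, mem_ball.mpr (hX h hh)⟩
        · intro h _ _; exact h0 _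
    _ ≤ 100 * ∑ n ∈ Finset.Icc 1 X, g n := sum_ball_le_of_antitone hg h0 X
    _ ≤ _ := by have := hK X; linarith

/-- `∑_{1≤n≤X} exp(-cn) ≤ 1/c`. -/
lemma sum_exp_nat_le {c : ℝ} (hc : 0 < c) (X : ℕ) :
    ∑ n ∈ Finset.Icc 1 X, Real.exp (-(c * n)) ≤ 1 / c := by
  have key : ∀ X : ℕ, ∑ n ∈ Finset.Icc 1 X, Real.exp (-(c * n)) ≤
      1 / c * (1 - Real.exp (-(c * X))) := by
    intro X
    induction X with
    | zero => simp
    | succ N ih =>
      rw [Finset.sum_Icc_succ_top (by omega)]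
      have h1 : Real.exp (-(c * N)) = Real.exp (-(c * (N + 1 : ℕ))) * Real.exp c := by
        rw [← Real.exp_add]; congr 1; push_cast; ring
      have h2 : c + 1 ≤ Real.exp c := Real.add_one_le_exp c
      have h3 := Real.exp_pos (-(c * (N + 1 : ℕ)))
      have h4 : Real.exp (-(c * (N + 1 : ℕ))) ≤
          1 / c * (Real.exp (-(c * N)) - Real.exp (-(c * (N + 1 : ℕ)))) := by
        rw [h1, one_div, ← div_eq_inv_mul, le_div_iff₀ hc]
        nlinarith
      calc _ ≤ 1 / c * (1 - Real.exp (-(c * N))) +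
            1 / c * (Real.exp (-(c * N)) - Real.exp (-(c * (N + 1 : ℕ)))) := add_le_add ih h4
        _ = _ := by ring
  refine (key X).trans ?_
  have := Real.exp_pos (-(c * X))
  have h : 0 < 1 / c := by positivity
  nlinarith

lemma antitone_exp {c : ℝ} (hc : 0 < c) : Antitone (fun n : ℕ => Real.exp (-(c * n))) := by
  intro m n hmn
  have : (m : ℝ) ≤ n := by exact_mod_cast hmn
  apply Real.exp_le_exp.mpr
  nlinarith

/-- `∑_{h ∈ s} exp(-c N(h)) ≤ 100/c` for `0 ∉ s`. -/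
lemma sum_exp_le {c : ℝ} (hc : 0 < c) (s : Finset Eis) (hs : ∀ h ∈ s, h ≠ 0) :
    ∑ h ∈ s, Real.exp (-(c * nm h)) ≤ 100 / c := by
  have := sum_le_of_antitone (antitone_exp hc) (fun n => (Real.exp_pos _).le)
    (sum_exp_nat_le hc) s hs
  rw [mul_one_div] at this
  exact this

lemma summable_exp {c : ℝ} (hc : 0 < c) : Summable fun h : Eis => Real.exp (-(c * nm h)) := by
  classical
  apply summable_of_sum_le (c := 1 + 100 / c) (fun _ => (Real.exp_pos _).le)
  intro s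
  have h1 : ∑ h ∈ s, Real.exp (-(c * nm h)) ≤
      ∑ h ∈ insert 0 (s.erase 0), Real.exp (-(c * nm h)) := by
    apply Finset.sum_le_sum_of_subset_of_nonneg
    · intro x hx
      by_cases h : x = 0
      · simp [h]
      · simp [h, hx]
    · intro x _ _; exact (Real.exp_pos _).le
  refine h1.trans ?_
  rw [Finset.sum_insert (by simp)]
  have h2 := sum_exp_le hc (s.erase 0) (fun h hh => (Finset.mem_erase.mp hh).1)
  simp only [nm_zero, Nat.cast_zero, mul_zero, neg_zero, Real.exp_zero]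
  linarith

lemma tsum_exp_le {c : ℝ} (hc : 0 < c) :
    ∑' h : Eis, Real.exp (-(c * nm h)) ≤ 1 + 100 / c := by
  classical
  apply Summable.tsum_le_of_sum_le (summable_exp hc)
  intro s
  have h1 : ∑ h ∈ s, Real.exp (-(c * nm h)) ≤
      ∑ h ∈ insert 0 (s.erase 0), Real.exp (-(c * nm h)) := by
    apply Finset.sum_le_sum_of_subset_of_nonneg
    · intro x hx
      by_cases h : x = 0
      · simp [h]
      · simp [h, hx]
    · intro x _ _; exact (Real.exp_pos _).le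
  refine h1.trans ?_
  rw [Finset.sum_insert (by simp)]
  have h2 := sum_exp_le hc (s.erase 0) (fun h hh => (Finset.mem_erase.mp hh).1)
  simp only [nm_zero, Nat.cast_zero, mul_zero, neg_zero, Real.exp_zero]
  linarith

/-- `∑_{1≤n≤X} (1+sn)^{-2} ≤ 1/s`. -/
lemma sum_inv_sq_nat_le {s : ℝ} (hs : 0 < s) (X : ℕ) :
    ∑ n ∈ Finset.Icc 1 X, ((1 + s * n) ^ 2)⁻¹ ≤ 1 / s := by
  have key : ∀ X : ℕ, ∑ n ∈ Finset.Icc 1 X, ((1 + s * n) ^ 2)⁻¹ ≤
      1 / s * (1 - (1 + s * X)⁻¹) := by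
    intro X
    induction X with
    | zero => simp
    | succ N ih =>
      rw [Finset.sum_Icc_succ_top (by omega)]
      have hN : (0 : ℝ) ≤ N := Nat.cast_nonneg N
      have p1 : 0 < 1 + s * N := by positivity
      have p2 : 0 < 1 + s * (N + 1 : ℕ) := by positivity
      have h4 : ((1 + s * (N + 1 : ℕ)) ^ 2)⁻¹ ≤
          1 / s * ((1 + s * N)⁻¹ - (1 + s * (N + 1 : ℕ))⁻¹) := by
        have e : (1 / s * ((1 + s * N)⁻¹ - (1 + s * (N + 1 : ℕ))⁻¹)) =
            ((1 + s * N) * (1 + s * (N + 1 : ℕ)))⁻¹ := by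
          have p1' := p1.ne'
          have p2' := p2.ne'
          have hs' := hs.ne'
          push_cast at p2' ⊢
          field_simp
          ring
        rw [e]
        apply inv_anti₀ (by positivity)
        rw [pow_two]
        apply mul_le_mul_of_nonneg_right _ p2.le
        push_cast; nlinarith
      calc _ ≤ 1 / s * (1 - (1 + s * N)⁻¹) +
            1 / s * ((1 + s * N)⁻¹ - (1 + s * (N + 1 : ℕ))⁻¹) := add_le_add ih h4
        _ = _ := by ring
  refine (key X).trans ?_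
  have h1 : 0 < (1 + s * X)⁻¹ := by positivity
  have h : 0 < 1 / s := by positivity
  nlinarith

lemma antitone_inv_sq {s : ℝ} (hs : 0 < s) : Antitone (fun n : ℕ => ((1 + s * n) ^ 2)⁻¹) := by
  intro m n hmn
  have : (m : ℝ) ≤ n := by exact_mod_cast hmn
  apply inv_anti₀ (by positivity)
  gcongr

lemma sum_inv_sq_le {s : ℝ} (hs : 0 < s) (S : Finset Eis) (hS : ∀ h ∈ S, h ≠ 0) :
    ∑ h ∈ S, ((1 + s * nm h) ^ 2)⁻¹ ≤ 100 / s := by
  have := sum_le_of_antitone (antitone_inv_sq hs) (fun n => by positivity)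
    (sum_inv_sq_nat_le hs) S hS
  rw [mul_one_div] at this
  exact this

/-- `exp(-x^3) ≤ 3 (1+x)^{-2}` for `x ≥ 0`. -/
lemma exp_neg_cube_le {x : ℝ} (hx : 0 ≤ x) : Real.exp (-(x ^ 3)) ≤ 4 * ((1 + x) ^ 2)⁻¹ := by
  rw [Real.exp_neg, ← div_eq_mul_inv, le_div_iff₀ (by positivity), inv_mul_le_iff₀ (Real.exp_pos _)]
  have h1 : x ^ 3 + 1 ≤ Real.exp (x ^ 3) := Real.add_one_le_exp _
  have h2 : (1 + x) ^ 2 ≤ 4 * (x ^ 3 + 1) := by
    nlinarith [mul_nonneg hx (sq_nonneg (x - 1)), sq_nonneg (x - 1)]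
  linarith

/-- `∑_{m≠0} exp(-c N(m)^3) ≤ 400 c^{-1/3}`. -/
lemma sum_cube_exp_le {c : ℝ} (hc : 0 < c) (S : Finset Eis) (hS : ∀ h ∈ S, h ≠ 0) :
    ∑ m ∈ S, Real.exp (-(c * (nm m : ℝ) ^ 3)) ≤ 400 / c ^ ((1 : ℝ) / 3) := by
  set s := c ^ ((1 : ℝ) / 3) with hs
  have hs0 : 0 < s := Real.rpow_pos_of_pos hc _
  have hs3 : s ^ 3 = c := by
    rw [hs, ← Real.rpow_natCast, ← Real.rpow_mul hc.le]; norm_num
  calc ∑ m ∈ S, Real.exp (-(c * (nm m : ℝ) ^ 3))
      ≤ ∑ m ∈ S, 4 * ((1 + s * nm m) ^ 2)⁻¹ := by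
        apply Finset.sum_le_sum
        intro m _
        have := exp_neg_cube_le (x := s * nm m) (by positivity)
        rwa [mul_pow, hs3] at this
    _ = 4 * ∑ m ∈ S, ((1 + s * nm m) ^ 2)⁻¹ := by rw [Finset.mul_sum]
    _ ≤ 4 * (100 / s) := by gcongr; exact sum_inv_sq_le hs0 S hS
    _ = _ := by ring

/-! ### Partial summation -/

section abel

variable {ι : Type*} (s : Finset ι) (N : ι → ℕ) (x : ι → ℂ)

/-- layer cake for a function of the key -/
lemma sum_layer (φ : ℕ → ℝ) (H : ℕ) (hN : ∀ i ∈ s, N i ≤ H) (lo : ℕ) (hlo : ∀ i ∈ s, lo ≤ N i) :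
    ∑ i ∈ s, (φ (N i) : ℂ) * x i = (φ H : ℂ) * ∑ i ∈ s, x i +
      ∑ k ∈ Finset.Ico lo H, ((φ k - φ (k + 1) : ℝ) : ℂ) * ∑ i ∈ s.filter (fun i => N i ≤ k), x i := by
  classical
  have h1 : ∀ i ∈ s, (φ (N i) : ℂ) * x i = (φ H : ℂ) * x i +
      ∑ k ∈ Finset.Ico lo H, ((φ k - φ (k + 1) : ℝ) : ℂ) * (if N i ≤ k then x i else 0) := by
    intro i hi
    have hk : ∑ k ∈ Finset.Ico lo H, ((φ k - φ (k + 1) : ℝ) : ℂ) * (if N i ≤ k then x i else 0) =
        ∑ k ∈ Finset.Ico (N i) H, ((φ k - φ (k + 1) : ℝ) : ℂ) * x i := by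
      rw [← Finset.sum_subset (s₁ := Finset.Ico (N i) H) (s₂ := Finset.Ico lo H)]
      · apply Finset.sum_congr rfl
        intro k hk
        rw [if_pos (Finset.mem_Ico.mp hk).1]
      · intro k hk
        rw [Finset.mem_Ico] at hk ⊢
        exact ⟨(hlo i hi).trans hk.1, hk.2⟩
      · intro k hk hk'
        rw [Finset.mem_Ico] at hk hk'
        rw [if_neg (fun h => hk' ⟨h, hk.2⟩), mul_zero]
    rw [hk, ← Finset.sum_mul, ← add_mul]
    congr 1
    have ht := Finset.sum_Ico_sub (fun k => φ k) (hN i hi)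
    have : ∑ k ∈ Finset.Ico (N i) H, (φ k - φ (k + 1)) = φ (N i) - φ H := by
      rw [← neg_inj, ← Finset.sum_neg_distrib]
      simp only [neg_sub]
      exact ht
    rw [← Complex.ofReal_sum, this]
    push_cast; ring
  rw [Finset.sum_congr rfl h1, Finset.sum_add_distrib, ← Finset.mul_sum]
  congr 1
  rw [Finset.sum_comm]
  apply Finset.sum_congr rfl
  intro k _
  rw [← Finset.mul_sum, Finset.sum_filter]

/-- Partial summation with an antitone nonnegative weight. -/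
lemma abel_antitone (φ : ℕ → ℝ) (lo : ℕ) (hlo : ∀ i ∈ s, lo ≤ N i)
    (hφ : ∀ k, lo ≤ k → φ (k + 1) ≤ φ k) (h0 : ∀ k, lo ≤ k → 0 ≤ φ k) {M : ℝ}
    (hM : ∀ y : ℕ, ‖∑ i ∈ s.filter (fun i => N i ≤ y), x i‖ ≤ M) :
    ‖∑ i ∈ s, (φ (N i) : ℂ) * x i‖ ≤ φ lo * M := by
  classical
  set H := max lo (s.sup N) with hH
  have hN : ∀ i ∈ s, N i ≤ H := fun i hi => (Finset.le_sup hi).trans (le_max_right _ _)
  have hM0 : 0 ≤ M := (norm_nonneg _).trans (hM 0)
  rw [sum_layer s N x φ H hN lo hlo]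
  have hall : s.filter (fun i => N i ≤ H) = s := Finset.filter_true_of_mem hN
  have h1 : ‖(φ H : ℂ) * ∑ i ∈ s, x i‖ ≤ φ H * M := by
    rw [norm_mul, Complex.norm_real, Real.norm_eq_abs, abs_of_nonneg (h0 H (le_max_left _ _))]
    have := hM H
    rw [hall] at this
    exact mul_le_mul_of_nonneg_left this (h0 H (le_max_left _ _))
  have h2 : ‖∑ k ∈ Finset.Ico lo H, ((φ k - φ (k + 1) : ℝ) : ℂ) *
      ∑ i ∈ s.filter (fun i => N i ≤ k), x i‖ ≤ ∑ k ∈ Finset.Ico lo H, (φ k - φ (k + 1)) * M := by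
    refine (norm_sum_le _ _).trans (Finset.sum_le_sum fun k hk => ?_)
    have hk' := (Finset.mem_Ico.mp hk).1
    rw [norm_mul, Complex.norm_real, Real.norm_eq_abs, abs_of_nonneg (by linarith [hφ k hk'])]
    exact mul_le_mul_of_nonneg_left (hM k) (by linarith [hφ k hk'])
  have h3 : ∑ k ∈ Finset.Ico lo H, (φ k - φ (k + 1)) * M = (φ lo - φ H) * M := by
    rw [← Finset.sum_mul]
    congr 1
    have ht := Finset.sum_Ico_sub (fun k => φ k) (le_max_left lo (s.sup N))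
    rw [← neg_inj, ← Finset.sum_neg_distrib]
    simp only [neg_sub]
    exact ht
  calc _ ≤ _ := norm_add_le _ _
    _ ≤ φ H * M + (φ lo - φ H) * M := by rw [← h3]; exact add_le_add h1 h2
    _ = _ := by ring

/-- Partial summation with a monotone nonnegative weight bounded by `Φ`. -/
lemma abel_monotone (φ : ℕ → ℝ) (hφ : ∀ k, φ k ≤ φ (k + 1)) (h0 : ∀ k, 0 ≤ φ k) {Φ : ℝ}
    (hΦ : ∀ k, φ k ≤ Φ) {M : ℝ}
    (hM : ∀ y : ℕ, ‖∑ i ∈ s.filter (fun i => N i ≤ y), x i‖ ≤ M) :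
    ‖∑ i ∈ s, (φ (N i) : ℂ) * x i‖ ≤ 2 * Φ * M := by
  classical
  set H := s.sup N with hH
  have hN : ∀ i ∈ s, N i ≤ H := fun i hi => Finset.le_sup hi
  have hM0 : 0 ≤ M := (norm_nonneg _).trans (hM 0)
  rw [sum_layer s N x φ H hN 0 (fun i _ => Nat.zero_le _)]
  have hall : s.filter (fun i => N i ≤ H) = s := Finset.filter_true_of_mem hN
  have h1 : ‖(φ H : ℂ) * ∑ i ∈ s, x i‖ ≤ φ H * M := by
    rw [norm_mul, Complex.norm_real, Real.norm_eq_abs, abs_of_nonneg (h0 H)]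
    have := hM H
    rw [hall] at this
    exact mul_le_mul_of_nonneg_left this (h0 H)
  have h2 : ‖∑ k ∈ Finset.Ico 0 H, ((φ k - φ (k + 1) : ℝ) : ℂ) *
      ∑ i ∈ s.filter (fun i => N i ≤ k), x i‖ ≤ ∑ k ∈ Finset.Ico 0 H, (φ (k + 1) - φ k) * M := by
    refine (norm_sum_le _ _).trans (Finset.sum_le_sum fun k hk => ?_)
    rw [norm_mul, Complex.norm_real, Real.norm_eq_abs, abs_of_nonpos (by linarith [hφ k]), neg_sub]
    exact mul_le_mul_of_nonneg_left (hM k) (by linarith [hφ k])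
  have h3 : ∑ k ∈ Finset.Ico 0 H, (φ (k + 1) - φ k) * M = (φ H - φ 0) * M := by
    rw [← Finset.sum_mul]
    congr 1
    exact Finset.sum_Ico_sub (fun k => φ k) (Nat.zero_le H)
  have h4 : φ H * M ≤ Φ * M := mul_le_mul_of_nonneg_right (hΦ H) hM0
  have h5 : 0 ≤ φ 0 * M := mul_nonneg (h0 0) hM0
  calc _ ≤ _ := norm_add_le _ _
    _ ≤ φ H * M + (φ H - φ 0) * M := by rw [← h3]; exact add_le_add h1 h2
    _ ≤ _ := by linarith

end abel

end Crest.Agent.R012.Edge79
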