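import Crest.Agent.R012.DualIneq_811
import Crest.Agent.R012.EdgeA_79
import Crest.Agent.R012.GLS_106
import Crest.Agent.R012.Sym6_645

/-!
# Row 12 (CR2-PD): the tail of the dual sum, and `CR2.DualIneq` without hypotheses
-/

set_option autoImplicit false

noncomputable section

open MeasureTheory Finset
open scoped ComplexConjugate

namespace Crest.Agent.R012.DualIneq811

open Eis LS2 Mob705 CR2 MelSep811
open Gauss880 (syG)

/-- the exponent -/
lemma expo_le {X Z ε : ℝ} (hX : 1 ≤ X) (hZ : 1 ≤ Z) (hε : 0 < ε) {nd ne n1 n2 nl L P : ℝ}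
    (hP : P = (X * Z) ^ ε) (hL : L = P * (1 + ne * X ^ 2 / (nd ^ 2 * Z)))
    (hnd : 1 ≤ nd) (hne : 1 ≤ ne) (h1 : 1 ≤ n1) (h2 : 1 ≤ n2) (h3 : nd * n1 ≤ X)
    (h4 : nd * n2 ≤ X) (hl : L ≤ nl) :
    -(4 * Real.pi ^ 2 * Z * nl) / (3 * ne * n1 * n2) ≤ -P + -(1 / L * nl) := by
  have hXZ : 1 ≤ X * Z := one_le_mul_of_one_le_of_one_le hX hZ
  have hP1 : 1 ≤ P := by rw [hP]; exact Real.one_le_rpow hXZ hε.le
  have hq : 0 ≤ ne * X ^ 2 / (nd ^ 2 * Z) := by positivity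
  have hL1 : 1 ≤ L := by
    rw [hL]; exact one_le_mul_of_one_le_of_one_le hP1 (by linarith)
  have hL0 : 0 < L := by linarith
  have hnl : 1 ≤ nl := by linarith
  have hπ := Real.pi_gt_three
  have hπ2 : 9 ≤ Real.pi ^ 2 := by nlinarith
  -- `n1 n2 ≤ X² / nd²`
  have h5 : n1 * n2 * nd ^ 2 ≤ X ^ 2 := by
    have := mul_le_mul h3 h4 (by positivity) (by linarith)
    nlinarith
  -- `P ne X² ≤ L nd² Z`
  have h6 : P * (ne * X ^ 2) ≤ L * (nd ^ 2 * Z) := by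
    have hz : 0 < nd ^ 2 * Z := by positivity
    have e1 : L * (nd ^ 2 * Z) = P * (nd ^ 2 * Z) + P * (ne * X ^ 2) := by
      rw [hL]; field_simp
    rw [e1]
    have : 0 ≤ P * (nd ^ 2 * Z) := by positivity
    linarith
  have h7 : 12 * (P * nl) / L ≤ 4 * Real.pi ^ 2 * Z * nl / (3 * ne * n1 * n2) := by
    rw [div_le_div_iff₀ hL0 (by positivity)]
    have a1 : P * (ne * (n1 * n2 * nd ^ 2)) ≤ L * (nd ^ 2 * Z) := by
      refine le_trans ?_ h6
      gcongr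
    have hnd2 : 0 < nd ^ 2 := by positivity
    have a2 : P * (ne * (n1 * n2)) ≤ L * Z := by
      have : P * (ne * (n1 * n2)) * nd ^ 2 ≤ L * Z * nd ^ 2 := by nlinarith
      exact le_of_mul_le_mul_right this hnd2
    have a3 : 36 * nl * (P * (ne * (n1 * n2))) ≤ 4 * Real.pi ^ 2 * nl * (L * Z) := by
      have : 36 * nl ≤ 4 * Real.pi ^ 2 * nl := by nlinarith
      exact mul_le_mul this a2 (by positivity) (by positivity)
    nlinarith
  have h8 : P + 1 / L * nl ≤ 12 * (P * nl) / L := by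
    rw [le_div_iff₀ hL0]
    have e2 : (P + 1 / L * nl) * L = P * L + nl := by field_simp
    rw [e2]
    have b1 : P * L ≤ P * nl := by gcongr
    have b2 : 1 * nl ≤ P * nl := by gcongr
    nlinarith [mul_nonneg (by linarith : (0 : ℝ) ≤ P) (by linarith : (0 : ℝ) ≤ nl)]
  rw [neg_div]
  linarith

lemma sum_ws_sq_le {X : ℝ} (w : Eis → ℂ) {d f : Eis} (hd : d ≠ 0) (hf : f ≠ 0) :
    ∑ k ∈ S X, ‖ws w X (d * f * k)‖ ^ 2 ≤ ∑ h ∈ S X, ‖w h‖ ^ 2 := by
  classical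
  have hdf : d * f ≠ 0 := mul_ne_zero hd hf
  calc ∑ k ∈ S X, ‖ws w X (d * f * k)‖ ^ 2
      = ∑ k ∈ (S X).filter (fun k => d * f * k ∈ S X), ‖w (d * f * k)‖ ^ 2 := by
        rw [Finset.sum_filter]
        refine Finset.sum_congr rfl fun k _ => ?_
        unfold ws
        split_ifs <;> simp
    _ = ∑ h ∈ ((S X).filter (fun k => d * f * k ∈ S X)).image (fun k => d * f * k), ‖w h‖ ^ 2 := by
        rw [Finset.sum_image]
        intro a _ b _ hab
        exact mul_left_cancel₀ hdf hab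
    _ ≤ _ := by
        refine Finset.sum_le_sum_of_subset_of_nonneg ?_ (fun _ _ _ => by positivity)
        intro h hh
        rw [Finset.mem_image] at hh
        obtain ⟨k, hk, rfl⟩ := hh
        exact (Finset.mem_filter.1 hk).2

lemma sum_ws_le {X : ℝ} (hX : 1 ≤ X) (w : Eis → ℂ) {d f : Eis} (hd : d ≠ 0) (hf : f ≠ 0) :
    (∑ k ∈ S X, ‖ws w X (d * f * k)‖) ^ 2 ≤ 16 * X * ∑ h ∈ S X, ‖w h‖ ^ 2 := by
  have h1 := sq_sum_le_card_mul_sum_sq (s := S X) (f := fun k => ‖ws w X (d * f * k)‖)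
  have h2 := GLS106.card_S_le hX
  have h3 := sum_ws_sq_le (X := X) w hd hf
  have h4 : 0 ≤ ∑ k ∈ S X, ‖ws w X (d * f * k)‖ ^ 2 := Finset.sum_nonneg fun _ _ => by positivity
  calc _ ≤ ((S X).card : ℝ) * ∑ k ∈ S X, ‖ws w X (d * f * k)‖ ^ 2 := h1
    _ ≤ (16 * X) * ∑ h ∈ S X, ‖w h‖ ^ 2 := by gcongr

/-- pointwise tail bound -/
lemma norm_qf_tail {X Z ε : ℝ} (hX : 1 ≤ X) (hZ : 1 ≤ Z) (hε : 0 < ε) (w : Eis → ℂ)
    {d e f l : Eis} (hd : IsPrim d) (he : e ≠ 0) (hf : f ∈ S X)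
    (hl : Lde X Z ε d e ≤ nm l) :
    ‖qf w X Z d e f l‖ ≤ (16 * X * ∑ h ∈ S X, ‖w h‖ ^ 2) * Real.exp (-(X * Z) ^ ε) *
      Real.exp (-(1 / Lde X Z ε d e * nm l)) := by
  have hX0 : (0 : ℝ) ≤ X := by linarith
  have hf' := (mem_S hX0).1 hf
  have h1 : ‖qf w X Z d e f l‖ ≤ ∑ k1 ∈ S X, ∑ k2 ∈ S X, ‖ws w X (d * f * k1)‖ *
      ‖ws w X (d * f * k2)‖ * (Real.exp (-(X * Z) ^ ε) *
      Real.exp (-(1 / Lde X Z ε d e * nm l))) := by
    unfold qf
    refine (norm_sum_le _ _).trans (Finset.sum_le_sum fun k1 h1 => ?_)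
    refine (norm_sum_le _ _).trans (Finset.sum_le_sum fun k2 h2 => ?_)
    have hk1 := (mem_S hX0).1 h1
    have hk2 := (mem_S hX0).1 h2
    by_cases m1 : d * f * k1 ∈ S X
    swap
    · rw [ws_of_not_mem m1]; simp
    by_cases m2 : d * f * k2 ∈ S X
    swap
    · rw [ws_of_not_mem m2]; simp
    have p1 := hf'.2.1.mul hk1.2.1
    have p2 := hf'.2.1.mul hk2.2.1
    have c1 : (nm d : ℝ) * nm (f * k1) ≤ X := by
      have := ((mem_S hX0).1 m1).1
      rw [mul_assoc, nm_mul] at this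
      push_cast at this
      exact this
    have c2 : (nm d : ℝ) * nm (f * k2) ≤ X := by
      have := ((mem_S hX0).1 m2).1
      rw [mul_assoc, nm_mul] at this
      push_cast at this
      exact this
    have n0 : 1 ≤ (nm d : ℝ) := by exact_mod_cast nm_pos.2 hd.ne_zero
    have n1 : 1 ≤ (nm (f * k1) : ℝ) := by exact_mod_cast nm_pos.2 p1.ne_zero
    have n2 : 1 ≤ (nm (f * k2) : ℝ) := by exact_mod_cast nm_pos.2 p2.ne_zero
    have n3 : 1 ≤ (nm e : ℝ) := by exact_mod_cast nm_pos.2 he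
    rw [norm_mul, norm_mul, norm_mul, norm_mul, RCLike.norm_conj, RCLike.norm_conj,
      Complex.norm_real, Real.norm_of_nonneg (Real.exp_pos _).le]
    have b1 : ‖Ue e l (f * k1)‖ * ‖Ue e l (f * k2)‖ ≤ 1 :=
      mul_le_one₀ (norm_Ue_le_one syG p1 e l) (norm_nonneg _) (norm_Ue_le_one syG p2 e l)
    have b2 : Real.exp (-(4 * Real.pi ^ 2 * Z * nm l) / (3 * nm e * nm (f * k1) * nm (f * k2))) ≤
        Real.exp (-(X * Z) ^ ε) * Real.exp (-(1 / Lde X Z ε d e * nm l)) := by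
      rw [← Real.exp_add]
      exact Real.exp_le_exp.2 (expo_le hX hZ hε rfl rfl n0 n3 n1 n2 c1 c2 hl)
    calc ‖ws w X (d * f * k1)‖ * ‖ws w X (d * f * k2)‖ *
          (‖Ue e l (f * k1)‖ * ‖Ue e l (f * k2)‖) *
          Real.exp (-(4 * Real.pi ^ 2 * Z * nm l) / (3 * nm e * nm (f * k1) * nm (f * k2)))
        ≤ ‖ws w X (d * f * k1)‖ * ‖ws w X (d * f * k2)‖ * 1 *
          (Real.exp (-(X * Z) ^ ε) * Real.exp (-(1 / Lde X Z ε d e * nm l))) := by gcongr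
      _ = _ := by ring
  refine h1.trans ?_
  have h2 : ∑ k1 ∈ S X, ∑ k2 ∈ S X, ‖ws w X (d * f * k1)‖ *
      ‖ws w X (d * f * k2)‖ * (Real.exp (-(X * Z) ^ ε) *
      Real.exp (-(1 / Lde X Z ε d e * nm l))) = (∑ k ∈ S X, ‖ws w X (d * f * k)‖) ^ 2 *
      (Real.exp (-(X * Z) ^ ε) * Real.exp (-(1 / Lde X Z ε d e * nm l))) := by
    rw [sq, Finset.sum_mul_sum, Finset.sum_mul]
    refine Finset.sum_congr rfl fun k1 _ => ?_
    rw [Finset.sum_mul]
  rw [h2, mul_assoc (16 * X * ∑ h ∈ S X, ‖w h‖ ^ 2)]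
  exact mul_le_mul_of_nonneg_right (sum_ws_le hX w hd.ne_zero hf'.2.1.ne_zero) (by positivity)

/-- `P^m e^{-P}` is bounded -/
lemma pow_mul_exp_le {P : ℝ} (hP : 0 ≤ P) (m : ℕ) : P ^ m * Real.exp (-P) ≤ (m.factorial : ℝ) := by
  have h := Real.pow_div_factorial_le_exp P hP m
  rw [div_le_iff₀ (by positivity)] at h
  rw [Real.exp_neg, ← div_eq_mul_inv, div_le_iff₀ (Real.exp_pos _)]
  linarith

open Classical in
lemma one_tail {X Z ε : ℝ} (hX : 1 ≤ X) (hZ : 1 ≤ Z) (hε : 0 < ε) (w : Eis → ℂ)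
    {d e f : Eis} (hd : IsPrim d) (he : e ≠ 0) (hf : f ∈ S X) :
    ‖∑' l : Eis, (if l = 0 ∨ (nm l : ℝ) ≤ Lde X Z ε d e then 0 else qf w X Z d e f l)‖ ≤
      (16 * X * ∑ h ∈ S X, ‖w h‖ ^ 2) * Real.exp (-(X * Z) ^ ε) * (101 * Lde X Z ε d e) := by
  have hXZ : 1 ≤ X * Z := one_le_mul_of_one_le_of_one_le hX hZ
  have hP1 : 1 ≤ (X * Z) ^ ε := Real.one_le_rpow hXZ hε.le
  have hq : 0 ≤ nm e * X ^ 2 / ((nm d : ℝ) ^ 2 * Z) := by positivity
  have hL1 : 1 ≤ Lde X Z ε d e := by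
    unfold Lde; exact one_le_mul_of_one_le_of_one_le hP1 (by linarith)
  have hc : 0 < 1 / Lde X Z ε d e := by positivity
  have hs := Edge79.summable_exp hc
  set A := (16 * X * ∑ h ∈ S X, ‖w h‖ ^ 2) * Real.exp (-(X * Z) ^ ε) with hA
  have hA0 : 0 ≤ A := by
    have : 0 ≤ ∑ h ∈ S X, ‖w h‖ ^ 2 := Finset.sum_nonneg fun _ _ => by positivity
    positivity
  have h1 : ∀ l : Eis, ‖(if l = 0 ∨ (nm l : ℝ) ≤ Lde X Z ε d e then 0 else qf w X Z d e f l)‖ ≤
      A * Real.exp (-(1 / Lde X Z ε d e * nm l)) := by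
    intro l
    split_ifs with h
    · rw [norm_zero]; positivity
    · push Not at h
      exact norm_qf_tail hX hZ hε w hd he hf h.2.le
  have h2 := tsum_of_norm_bounded (hs.mul_left A).hasSum h1
  refine h2.trans ?_
  rw [tsum_mul_left]
  refine mul_le_mul_of_nonneg_left ?_ hA0
  refine (Edge79.tsum_exp_le hc).trans ?_
  have : 100 / (1 / Lde X Z ε d e) = 100 * Lde X Z ε d e := by
    field_simp
  rw [this]; linarith

open Classical in
theorem tailLe : TailLe := by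
  intro ε hε
  set m : ℕ := ⌈6 / ε⌉₊ with hm
  have h3 : 0 < Real.sqrt 3 := by positivity
  have hπ := Real.pi_pos
  refine ⟨2 * Real.pi / Real.sqrt 3 * 16 ^ 4 * 202 * ((m + 1).factorial : ℝ), by positivity, ?_⟩
  intro X Z hX hZ w
  have hX0 : (0 : ℝ) ≤ X := by linarith
  have hZ0 : (0 : ℝ) < Z := by linarith
  have hXZ : 1 ≤ X * Z := one_le_mul_of_one_le_of_one_le hX hZ
  set P := (X * Z) ^ ε with hP
  have hP1 : 1 ≤ P := Real.one_le_rpow hXZ hε.le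
  set W := ∑ h ∈ S X, ‖w h‖ ^ 2 with hW
  have hW0 : 0 ≤ W := Finset.sum_nonneg fun _ _ => by positivity
  have hcard := GLS106.card_S_le hX
  -- `X^6 P exp (-P) ≤ (m+1)!`
  have key : X ^ 6 * P * Real.exp (-P) ≤ ((m + 1).factorial : ℝ) := by
    have h1 : X ^ 6 ≤ P ^ m := by
      have e1 : X ≤ X * Z := by nlinarith
      calc X ^ 6 ≤ (X * Z) ^ 6 := by gcongr
        _ = (X * Z) ^ (6 : ℝ) := by norm_cast
        _ ≤ (X * Z) ^ (ε * m) := by
          apply Real.rpow_le_rpow_of_exponent_le hXZ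
          have : 6 / ε ≤ m := Nat.le_ceil _
          rw [div_le_iff₀ hε] at this
          linarith
        _ = P ^ m := by rw [hP, Real.rpow_mul (by linarith), Real.rpow_natCast]
    calc X ^ 6 * P * Real.exp (-P) ≤ P ^ m * P * Real.exp (-P) := by gcongr
      _ = P ^ (m + 1) * Real.exp (-P) := by ring
      _ ≤ _ := pow_mul_exp_le (by linarith) _
  have h1 : ∀ d ∈ S X, ∀ e ∈ pdiv d, ∀ f ∈ S X, (2 * Real.pi * Z / (Real.sqrt 3 * nm e)) *
      ‖∑' l : Eis, (if l = 0 ∨ (nm l : ℝ) ≤ Lde X Z ε d e then 0 else qf w X Z d e f l)‖ ≤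
      (2 * Real.pi / Real.sqrt 3 * Z) * (16 * X * W * Real.exp (-P) * (101 * (2 * P * X ^ 2))) := by
    intro d hd e he f hf
    have hd' := (mem_S hX0).1 hd
    have he' := (mem_pdiv hd'.2.1.ne_zero).1 he
    have ne : (1 : ℝ) ≤ nm e := by exact_mod_cast nm_pos.2 he'.1.ne_zero
    have nd : (1 : ℝ) ≤ nm d := by exact_mod_cast nm_pos.2 hd'.2.1.ne_zero
    have hed : (nm e : ℝ) ≤ nm d := by exact_mod_cast Div277.nm_le_of_dvd hd'.2.1.ne_zero he'.2
    have hL : Lde X Z ε d e ≤ 2 * P * X ^ 2 := by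
      unfold Lde
      rw [← hP]
      have : nm e * X ^ 2 / ((nm d : ℝ) ^ 2 * Z) ≤ X ^ 2 := by
        rw [div_le_iff₀ (by positivity)]
        have : (nm e : ℝ) ≤ (nm d : ℝ) ^ 2 * Z := by nlinarith [mul_le_mul nd hZ (by norm_num) (by linarith : (0:ℝ) ≤ nm d), mul_le_mul hed hZ (by norm_num) (by linarith : (0:ℝ) ≤ nm d)]
        nlinarith [sq_nonneg X]
      have hX2 : 1 ≤ X ^ 2 := by nlinarith
      nlinarith
    have h2 := one_tail hX hZ hε w hd'.2.1 he'.1.ne_zero hf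
    rw [← hW, ← hP] at h2
    have h4 : 2 * Real.pi * Z / (Real.sqrt 3 * nm e) ≤ 2 * Real.pi / Real.sqrt 3 * Z := by
      have : 2 * Real.pi * Z / (Real.sqrt 3 * nm e) = 2 * Real.pi / Real.sqrt 3 * Z / nm e := by
        field_simp
      rw [this]
      exact div_le_self (by positivity) ne
    have hL0 : 0 ≤ Lde X Z ε d e := by unfold Lde; positivity
    refine mul_le_mul h4 (h2.trans ?_) (norm_nonneg _) (by positivity)
    gcongr
  have h2 : ∑ d ∈ S X, ∑ e ∈ pdiv d, ∑ f ∈ S X, (2 * Real.pi * Z / (Real.sqrt 3 * nm e)) *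
      ‖∑' l : Eis, (if l = 0 ∨ (nm l : ℝ) ≤ Lde X Z ε d e then 0 else qf w X Z d e f l)‖ ≤
      (16 * X) * ((16 * X) * ((16 * X) * ((2 * Real.pi / Real.sqrt 3 * Z) *
        (16 * X * W * Real.exp (-P) * (101 * (2 * P * X ^ 2)))))) := by
    have hQ : 0 ≤ (2 * Real.pi / Real.sqrt 3 * Z) *
        (16 * X * W * Real.exp (-P) * (101 * (2 * P * X ^ 2))) := by positivity
    set Q := (2 * Real.pi / Real.sqrt 3 * Z) *
        (16 * X * W * Real.exp (-P) * (101 * (2 * P * X ^ 2))) with hQd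
    have s1 : ∀ d ∈ S X, ∀ e ∈ pdiv d, ∑ f ∈ S X, (2 * Real.pi * Z / (Real.sqrt 3 * nm e)) *
      ‖∑' l : Eis, (if l = 0 ∨ (nm l : ℝ) ≤ Lde X Z ε d e then 0 else qf w X Z d e f l)‖ ≤
        16 * X * Q := by
      intro d hd e he
      refine (Finset.sum_le_sum fun f hf => h1 d hd e he f hf).trans ?_
      rw [Finset.sum_const, nsmul_eq_mul]
      exact mul_le_mul_of_nonneg_right hcard hQ
    have s2 : ∀ d ∈ S X, ∑ e ∈ pdiv d, ∑ f ∈ S X, (2 * Real.pi * Z / (Real.sqrt 3 * nm e)) *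
      ‖∑' l : Eis, (if l = 0 ∨ (nm l : ℝ) ≤ Lde X Z ε d e then 0 else qf w X Z d e f l)‖ ≤
        16 * X * (16 * X * Q) := by
      intro d hd
      refine (Finset.sum_le_sum fun e he => s1 d hd e he).trans ?_
      rw [Finset.sum_const, nsmul_eq_mul]
      refine mul_le_mul_of_nonneg_right (le_trans ?_ hcard) (by positivity)
      exact_mod_cast Finset.card_le_card ((pdiv_subset hX0 hd).trans (Finset.filter_subset _ _))
    refine (Finset.sum_le_sum fun d hd => s2 d hd).trans ?_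
    rw [Finset.sum_const, nsmul_eq_mul]
    exact mul_le_mul_of_nonneg_right hcard (by positivity)
  refine h2.trans ?_
  have e1 : (16 * X) * ((16 * X) * ((16 * X) * ((2 * Real.pi / Real.sqrt 3 * Z) *
        (16 * X * W * Real.exp (-P) * (101 * (2 * P * X ^ 2)))))) =
      2 * Real.pi / Real.sqrt 3 * 16 ^ 4 * 202 * (X ^ 6 * P * Real.exp (-P)) * Z * W := by ring
  rw [e1]
  gcongr

/-- **(CR2-PD)** the dual inequality. -/
theorem dualIneq : DualIneq := dualIneq_of Sym645.syFacts tailLe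

end Crest.Agent.R012.DualIneq811
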