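import Crest.Agent.R012.EdgeA_79
import Crest.Agent.R012.Dual_671
import Crest.Agent.R012.GaussInst_880
import Crest.Agent.R012.CharSum_852

/-!
# Row 12 (TIII): the dispersion sum `S1` for prime-supported coefficients, upper bound

For a finite set `B` of primary primes with `B0 < N(b) ≤ 2 B0`, `|c_b| ≤ 1`:

`∑_{a primary} exp(-π t N(a)) |∑_{b ∈ B} c_b G(b) conj (a/b)|^2` is bounded by
the diagonal, the cubes and the non-cubes (for which a bound `M` for the character sums is given).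
-/

set_option autoImplicit false

noncomputable section

namespace Crest.Agent.R012.Edge79

open Eis CharSum852 Tau671
open Po581 (fC)

/-- the Gaussian -/
def gau (t : ℝ) (z : ℂ) : ℂ := (Real.exp (-(Real.pi * t * ‖z‖ ^ 2)) : ℂ)

lemma norm_gau (t : ℝ) (z : ℂ) : ‖gau t z‖ = Real.exp (-(Real.pi * t * ‖z‖ ^ 2)) := by
  unfold gau
  rw [Complex.norm_real, Real.norm_eq_abs, abs_of_pos (Real.exp_pos _)]

lemma exp_decay {a x : ℝ} (ha : 0 < a) (hx : 0 ≤ x) :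
    Real.exp (-(a * x ^ 2)) ≤ (8 * (1 + (a⁻¹) ^ 2)) / (1 + x) ^ 3 := by
  rw [Real.exp_neg, le_div_iff₀ (by positivity), inv_mul_le_iff₀ (Real.exp_pos _)]
  have h1 : (a * x ^ 2) ^ 2 / 2 + a * x ^ 2 + 1 ≤ Real.exp (a * x ^ 2) := by
    have := Real.quadratic_le_exp_of_nonneg (x := a * x ^ 2) (by positivity)
    linarith
  have h2 : (1 + x) ^ 3 ≤ 4 * (1 + x ^ 3) := by
    nlinarith [mul_nonneg hx (sq_nonneg (x - 1)), sq_nonneg (x - 1)]
  have h3 : x ^ 3 ≤ 1 + x ^ 4 := by nlinarith [sq_nonneg (x ^ 2 - x), sq_nonneg (x ^ 2 - 1), sq_nonneg (x - 1), sq_nonneg x]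
  have h4 : x ^ 4 ≤ (a⁻¹) ^ 2 * (a * x ^ 2) ^ 2 := by
    have : (a⁻¹) ^ 2 * (a * x ^ 2) ^ 2 = x ^ 4 := by field_simp
    rw [this]
  have h5 : 0 ≤ a * x ^ 2 := by positivity
  have h6 : (1 : ℝ) ≤ Real.exp (a * x ^ 2) := Real.one_le_exp h5
  have h7 : (a * x ^ 2) ^ 2 ≤ 2 * Real.exp (a * x ^ 2) := by nlinarith
  have h8 : 0 ≤ (a⁻¹) ^ 2 := by positivity
  calc (1 + x) ^ 3 ≤ 4 * (1 + (1 + (a⁻¹) ^ 2 * (2 * Real.exp (a * x ^ 2)))) := by
        refine h2.trans ?_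
        gcongr
        refine h3.trans ?_
        gcongr
        refine h4.trans ?_
        gcongr
    _ ≤ _ := by nlinarith

lemma pf_gau {t : ℝ} (ht : 0 < t) : PF (gau t) := by
  have hpt : 0 < Real.pi * t := mul_pos Real.pi_pos ht
  refine PF.of_decay (C := 8 * (1 + ((Real.pi * t)⁻¹) ^ 2))
    (C' := t⁻¹ * (8 * (1 + ((4 * Real.pi / t)⁻¹) ^ 2))) ?_ ?_ ?_
  · unfold gau
    exact Complex.continuous_ofReal.comp (by fun_prop)
  · intro z
    rw [norm_gau]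
    exact exp_decay hpt (norm_nonneg z)
  · intro z
    have e := Po581.fC_gauss ht z
    have e' : fC (gau t) z = ((t⁻¹ * Real.exp (-(4 * Real.pi * ‖z‖ ^ 2 / t)) : ℝ) : ℂ) := e
    rw [e', Complex.norm_real, Real.norm_eq_abs, abs_of_pos (by positivity)]
    have h4 : 0 < 4 * Real.pi / t := by positivity
    have h5 := exp_decay h4 (norm_nonneg z)
    have h6 : 4 * Real.pi * ‖z‖ ^ 2 / t = 4 * Real.pi / t * ‖z‖ ^ 2 := by ring
    rw [h6]
    calc _ ≤ t⁻¹ * ((8 * (1 + ((4 * Real.pi / t)⁻¹) ^ 2)) / (1 + ‖z‖) ^ 3) :=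
          mul_le_mul_of_nonneg_left h5 (by positivity)
      _ = _ := by ring

/-- the Gaussian transform at the dual points -/
lemma fC_gau_dual {t : ℝ} (ht : 0 < t) {k1 k2 : Eis} (h1 : k1 ≠ 0) (h2 : k2 ≠ 0) (h : Eis) :
    fC (gau t) (toC h / (3 * toC sq3 * (toC k1 * toC k2))) =
      ((t⁻¹ * Real.exp (-(4 * Real.pi / (27 * t) * (nm h / (nm k1 * nm k2)))) : ℝ) : ℂ) := by
  have e := Po581.fC_gauss ht (toC h / (3 * toC sq3 * (toC k1 * toC k2)))
  have e' : fC (gau t) (toC h / (3 * toC sq3 * (toC k1 * toC k2))) = _ := e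
  rw [e']
  congr 3
  rw [norm_div, div_pow, norm_mul, norm_mul, norm_mul, mul_pow, mul_pow, mul_pow, norm_toC_sq,
    norm_toC_sq, norm_toC_sq, norm_toC_sq]
  have h3 : nm sq3 = 3 := by decide
  rw [h3]
  have n1 : (0 : ℝ) < nm k1 := by exact_mod_cast nm_pos.mpr h1
  have n2 : (0 : ℝ) < nm k2 := by exact_mod_cast nm_pos.mpr h2
  have : ‖(3 : ℂ)‖ = 3 := by simp
  rw [this]
  congr 1
  push_cast
  field_simp
  ring



/-- the exponential factor in the dual sum -/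
def EE (t : ℝ) (h k1 k2 : Eis) : ℝ :=
  Real.exp (-(4 * Real.pi / (27 * t) * (nm h / (nm k1 * nm k2))))

lemma EE_pos (t : ℝ) (h k1 k2 : Eis) : 0 < EE t h k1 k2 := Real.exp_pos _

open Classical in
/-- the dual form of a pair of distinct primes -/
theorem pair_dual {t : ℝ} (ht : 0 < t) {k1 k2 : Eis} (h1 : IsPrim k1)
    (h2 : IsPrim k2) (hs1 : Squarefree k1) (hs2 : Squarefree k2)
    (hcop : IsCoprime k1 k2) :
    G k1 * (starRingEnd ℂ) (G k2) *
      ∑' a : Eis, (if IsPrim a then (starRingEnd ℂ) (sy a k1) * sy a k2 else 0) * gau t (toC a) =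
      ((2 / (9 * Real.sqrt 3 * t) : ℝ) : ℂ) *
        ∑' h : Eis, ph h * (((Real.sqrt (nm k1) * Real.sqrt (nm k2))⁻¹ * EE t h k1 k2 : ℝ) : ℂ) *
          (sy h k1 * (starRingEnd ℂ) (sy h k2)) := by
  have hG1 := Gauss880.G_mul_conj Gauss880.syG h1 hs1
  have hG2 := Gauss880.G_mul_conj Gauss880.syG h2 hs2
  have hd := dual2_prim (pf_gau ht) h2 h1 hcop.symm
  have e1 : ∑' a : Eis, (if IsPrim a then (starRingEnd ℂ) (sy a k1) * sy a k2 else 0) *
      gau t (toC a) = ∑' a : Eis, (if IsPrim a then sy a k2 * (starRingEnd ℂ) (sy a k1) else 0) *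
      gau t (toC a) := tsum_congr fun a => by rw [mul_comm (sy a k2)]
  rw [e1, hd, ← tsum_mul_left, ← tsum_mul_left, ← tsum_mul_left]
  refine tsum_congr fun h => ?_
  rw [fC_gau_dual ht h2.ne_zero h1.ne_zero, Gauss880.gs_eq_G Gauss880.syG h2 hs2,
    Gauss880.gs_eq_G Gauss880.syG h1 hs1]
  simp only [map_mul, Complex.conj_conj, Complex.conj_ofReal]
  have n1 : (0 : ℝ) < nm k1 := by exact_mod_cast nm_pos.mpr h1.ne_zero
  have n2 : (0 : ℝ) < nm k2 := by exact_mod_cast nm_pos.mpr h2.ne_zero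
  have s1 : (Real.sqrt (nm k1) : ℂ) * Real.sqrt (nm k1) = nm k1 := by
    rw [← Complex.ofReal_mul, Real.mul_self_sqrt n1.le]; simp
  have s2 : (Real.sqrt (nm k2) : ℂ) * Real.sqrt (nm k2) = nm k2 := by
    rw [← Complex.ofReal_mul, Real.mul_self_sqrt n2.le]; simp
  have r1 : (Real.sqrt (nm k1) : ℂ) ≠ 0 := by
    rw [Ne, Complex.ofReal_eq_zero]; positivity
  have r2 : (Real.sqrt (nm k2) : ℂ) ≠ 0 := by
    rw [Ne, Complex.ofReal_eq_zero]; positivity
  have r3 : (Real.sqrt 3 : ℂ) ≠ 0 := by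
    rw [Ne, Complex.ofReal_eq_zero]; positivity
  have rt : (t : ℂ) ≠ 0 := by exact_mod_cast ht.ne'
  have hE : EE t h k1 k2 = Real.exp (-(4 * Real.pi / (27 * t) * (nm h / (nm k2 * nm k1)))) := by
    unfold EE; rw [mul_comm ((nm k1 : ℕ) : ℝ)]
  rw [hE]
  set X := Real.exp (-(4 * Real.pi / (27 * t) * (nm h / (nm k2 * nm k1))))
  have c1 : ((nm k1 : ℕ) : ℂ) ≠ 0 := by exact_mod_cast n1.ne'
  have c2 : ((nm k2 : ℕ) : ℂ) ≠ 0 := by exact_mod_cast n2.ne'
  push_cast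
  rw [← s1, ← s2]
  field_simp
  linear_combination (ph h * (starRingEnd ℂ) (sy h k2) * sy h k1 * X *
    (G k2 * (starRingEnd ℂ) (G k2))) * hG1 + (ph h * (starRingEnd ℂ) (sy h k2) * sy h k1 * X) * hG2

end Crest.Agent.R012.Edge79
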