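import Crest.Agent.R012.SpecMain_48
import Crest.Agent.R012.Dens_420

/-!
# Row 12: reduction of `Main48.Edge_Prop` to one dyadic box

`edge_of_box : (∀ l C0, BoxB l C0) → Edge_Prop`.
-/

set_option autoImplicit false

noncomputable section

namespace Crest.Agent.R012.EdgeBox420

open Finset Eis Buch420 Main48

/-- underlying element -/
def vl (p : PrP) : Eis := p.1

lemma vl_inj : Function.Injective vl := fun _ _ h => Subtype.ext h

/-- triple sums over primes -/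
def T3 (f : Eis → ℂ) (U V W : Finset PrP) : ℂ :=
  ∑ p ∈ U, ∑ q ∈ V, ∑ r ∈ W, f (p.1 * q.1 * r.1)

lemma T3_swap12 (f : Eis → ℂ) (U V W : Finset PrP) : T3 f U V W = T3 f V U W := by
  unfold T3
  refine Finset.sum_comm.trans ?_
  refine Finset.sum_congr rfl fun p _ => Finset.sum_congr rfl fun q _ =>
    Finset.sum_congr rfl fun r _ => ?_
  rw [mul_comm q.1 p.1]

lemma T3_swap23 (f : Eis → ℂ) (U V W : Finset PrP) : T3 f U V W = T3 f U W V := by
  unfold T3
  refine Finset.sum_congr rfl fun p _ => ?_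
  refine Finset.sum_comm.trans ?_
  refine Finset.sum_congr rfl fun q _ => Finset.sum_congr rfl fun r _ => ?_
  rw [mul_right_comm]

open Classical in
lemma T3_split1 (f : Eis → ℂ) (s : PrP → Prop) (U V W : Finset PrP) :
    T3 f U V W = T3 f (U.filter s) V W + T3 f (U.filter (fun p => ¬ s p)) V W := by
  unfold T3
  rw [Finset.sum_filter_add_sum_filter_not]

open Classical in
lemma T3_split3 (f : Eis → ℂ) (s : PrP → Prop) (U V W : Finset PrP) :
    T3 f U V W = T3 f U V (W.filter s) + T3 f U V (W.filter (fun p => ¬ s p)) := by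
  rw [T3_swap23, T3_swap12, T3_split1 f s, T3_swap12 f (W.filter s), T3_swap23 f U (W.filter s),
    T3_swap12 f (W.filter fun p => ¬ s p), T3_swap23 f U (W.filter fun p => ¬ s p)]

open Classical in
/-- Split of the sum over `P³` according to small/big. -/
lemma T3_cube (f : Eis → ℂ) (s : PrP → Prop) (P : Finset PrP) {E : ℝ}
    (h0 : ‖T3 f (P.filter s) (P.filter s) (P.filter s)‖ ≤ E)
    (h1 : ‖T3 f (P.filter s) (P.filter s) (P.filter (fun p => ¬ s p))‖ ≤ E)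
    (h2 : ‖T3 f (P.filter s) (P.filter (fun p => ¬ s p)) (P.filter (fun p => ¬ s p))‖ ≤ E)
    (h3 : ‖T3 f (P.filter (fun p => ¬ s p)) (P.filter (fun p => ¬ s p))
      (P.filter (fun p => ¬ s p))‖ ≤ E) :
    ‖T3 f P P P‖ ≤ 8 * E := by
  set S := P.filter s with hS
  set B := P.filter (fun p => ¬ s p) with hB
  have e : T3 f P P P = T3 f S S S + 3 * T3 f S S B + 3 * T3 f S B B + T3 f B B B := by
    have a1 : ∀ V W, T3 f P V W = T3 f S V W + T3 f B V W := fun V W => T3_split1 f s P V W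
    have a3 : ∀ U V, T3 f U V P = T3 f U V S + T3 f U V B := fun U V => T3_split3 f s U V P
    have a2 : ∀ U W, T3 f U P W = T3 f U S W + T3 f U B W := fun U W => by
      rw [T3_swap23 f U P W, a3 U W, T3_swap23 f U W S, T3_swap23 f U W B]
    rw [a1, a2, a2, a3, a3, a3, a3]
    rw [T3_swap23 f S B S, T3_swap12 f B S S, T3_swap23 f S B S, T3_swap12 f B S B,
      T3_swap23 f B B S, T3_swap12 f B S B]
    ring
  rw [e]
  have n3 : ‖(3 : ℂ)‖ = 3 := by simp
  calc ‖T3 f S S S + 3 * T3 f S S B + 3 * T3 f S B B + T3 f B B B‖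
      ≤ ‖T3 f S S S‖ + ‖3 * T3 f S S B‖ + ‖3 * T3 f S B B‖ + ‖T3 f B B B‖ := by
        refine (norm_add_le _ _).trans ?_
        gcongr
        refine (norm_add_le _ _).trans ?_
        gcongr
        exact norm_add_le _ _
    _ = ‖T3 f S S S‖ + 3 * ‖T3 f S S B‖ + 3 * ‖T3 f S B B‖ + ‖T3 f B B B‖ := by
        rw [norm_mul, norm_mul, n3]
    _ ≤ 8 * E := by linarith

/-! ### The variable `a = p q` -/

open Classical in
/-- pairs of distinct primes -/
def prs (U V : Finset PrP) : Finset (PrP × PrP) := (U ×ˢ V).filter (fun x => x.1 ≠ x.2)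

open Classical in
/-- products of two distinct primes -/
def SA (U V : Finset PrP) : Finset Eis := (prs U V).image (fun x => x.1.1 * x.2.1)

open Classical in
/-- multiplicity -/
def al (U V : Finset PrP) (a : Eis) : ℕ := ((prs U V).filter (fun x => x.1.1 * x.2.1 = a)).card

lemma prd_pair {p q : PrP} (h : p ≠ q) : prd {p, q} = p.1 * q.1 := by
  rw [prd_insert (by simpa using h), prd_singleton]

open Classical in
lemma al_le (U V : Finset PrP) (a : Eis) : al U V a ≤ 2 := by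
  unfold al
  rcases Finset.eq_empty_or_nonempty ((prs U V).filter (fun x => x.1.1 * x.2.1 = a)) with h | h
  · rw [h]; simp
  · obtain ⟨⟨p, q⟩, hx⟩ := h
    unfold prs at hx
    rw [Finset.mem_filter, Finset.mem_filter] at hx
    obtain ⟨⟨-, hpq⟩, ha⟩ := hx
    simp only at hpq ha
    refine le_trans (Finset.card_le_card (t := {(p, q), (q, p)}) ?_) Finset.card_le_two
    rintro ⟨p', q'⟩ hy
    unfold prs at hy
    rw [Finset.mem_filter, Finset.mem_filter] at hy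
    obtain ⟨⟨-, hpq'⟩, ha'⟩ := hy
    simp only at hpq' ha'
    have h1 : ({p', q'} : Finset PrP) = {p, q} := by
      apply prd_injective
      rw [prd_pair hpq', prd_pair hpq, ha', ha]
    have hp' : p' ∈ ({p, q} : Finset PrP) := by rw [← h1]; simp
    have hq' : q' ∈ ({p, q} : Finset PrP) := by rw [← h1]; simp
    simp only [Finset.mem_insert, Finset.mem_singleton] at hp' hq' ⊢
    rcases hp' with rfl | rfl <;> rcases hq' with rfl | rfl
    · exact absurd rfl hpq'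
    · exact Or.inl rfl
    · exact Or.inr rfl
    · exact absurd rfl hpq'

open Classical in
lemma sum_pairs (U V : Finset PrP) (g : Eis → ℂ) (hg : ∀ p : PrP, g (p.1 * p.1) = 0) :
    ∑ p ∈ U, ∑ q ∈ V, g (p.1 * q.1) = ∑ a ∈ SA U V, (al U V a : ℂ) * g a := by
  have h1 : ∑ p ∈ U, ∑ q ∈ V, g (p.1 * q.1) = ∑ x ∈ prs U V, g (x.1.1 * x.2.1) := by
    rw [← Finset.sum_product']
    unfold prs
    rw [Finset.sum_filter]
    refine Finset.sum_congr rfl fun x _ => ?_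
    by_cases h : x.1 = x.2
    · rw [if_neg (not_not.mpr h), h, hg]
    · rw [if_pos h]
  rw [h1, Finset.sum_comp g (fun x : PrP × PrP => x.1.1 * x.2.1)]
  unfold SA al
  refine Finset.sum_congr rfl fun a _ => ?_
  rw [nsmul_eq_mul]

/-! ### Dyadic decomposition -/

open Classical in
/-- The bilinear bound for one dyadic box. -/
def BoxB (l : ℤ) (C0 : ℝ) : Prop := ∃ (K : ℝ) (X0 : ℕ), 0 ≤ K ∧ ∀ X : ℕ, X0 ≤ X →
  ∀ (A B : ℝ) (SA SB : Finset Eis) (α : Eis → ℂ) (Y : ℕ), (Y = X ∨ Y = X / 2) →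
    (X : ℝ) ^ ((1 : ℝ) / 3) / 4 ≤ B → B ≤ (X : ℝ) ^ ((1 : ℝ) / 3) * LX X ^ C0 →
    (X : ℝ) ≤ 8 * (A * B) → A * B ≤ X →
    (∀ a ∈ SA, A ≤ nm a ∧ (nm a : ℝ) ≤ 2 * A ∧ ∃ p q : PrP, p ≠ q ∧ p.1 * q.1 = a ∧
      (nm p.1 : ℝ) < (X : ℝ) ^ ((1 : ℝ) / 3) * LX X ^ C0 ∧
      (nm q.1 : ℝ) < (X : ℝ) ^ ((1 : ℝ) / 3) * LX X ^ C0) →
    (∀ b ∈ SB, IsPrim b ∧ Prime b ∧ B ≤ nm b ∧ (nm b : ℝ) ≤ 2 * B) → (∀ a, ‖α a‖ ≤ 1) →
    ‖∑ a ∈ SA, ∑ b ∈ SB, (if nm (a * b) ≤ Y then α a * Fl l (a * b) else 0)‖ ≤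
      K * (X : ℝ) ^ ((5 : ℝ) / 6) / LX X ^ (4 / 3 : ℝ)

lemma FX_cut (l : ℤ) (X : ℕ) (n : Eis) : FX l X n =
    (if nm n ≤ X then Fl l n else 0) - (if nm n ≤ X / 2 then Fl l n else 0) := by
  unfold FX
  by_cases h1 : nm n ≤ X / 2
  · rw [if_neg (by omega), if_pos (by omega), if_pos h1, sub_self]
  · by_cases h2 : nm n ≤ X
    · rw [if_pos ⟨by omega, h2⟩, if_pos h2, if_neg h1, sub_zero]
    · rw [if_neg (fun h => h2 h.2), if_neg h2, if_neg h1, sub_self]

lemma FX_ne {l : ℤ} {X : ℕ} {n : Eis} (h : FX l X n ≠ 0) :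
    X < 2 * nm n ∧ nm n ≤ X ∧ Squarefree n := by
  unfold FX at h
  by_cases h1 : X < 2 * nm n ∧ nm n ≤ X
  · rw [if_pos h1] at h
    refine ⟨h1.1, h1.2, ?_⟩
    unfold Fl at h
    by_contra hc
    rw [if_neg hc] at h
    exact h rfl
  · rw [if_neg h1] at h; exact absurd rfl h

open Classical in
lemma sum_log_split (s : Finset Eis) (J : ℕ) (hJ : ∀ a ∈ s, Nat.log 2 (nm a) < J) (g : Eis → ℂ) :
    ∑ a ∈ s, g a = ∑ j ∈ Finset.range J, ∑ a ∈ s.filter (fun a => Nat.log 2 (nm a) = j), g a := by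
  rw [Finset.sum_fiberwise_of_maps_to (fun a ha => Finset.mem_range.mpr (hJ a ha))]

/-- admissible exponents of `b` -/
def KK (J : ℕ) (z D : ℝ) : Finset ℕ := by
  classical exact (Finset.range J).filter (fun k => z / 4 < 2 ^ k ∧ (2 : ℝ) ^ k ≤ D)

lemma mem_KK {J : ℕ} {z D : ℝ} {k : ℕ} :
    k ∈ KK J z D ↔ k < J ∧ z / 4 < 2 ^ k ∧ (2 : ℝ) ^ k ≤ D := by
  unfold KK; rw [Finset.mem_filter, Finset.mem_range]

lemma card_KK_le (J : ℕ) {z D R : ℝ} (hz : 0 < z) (hR : 4 * D ≤ z * R) (hR1 : 1 ≤ R) :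
    ((KK J z D).card : ℝ) ≤ 1 + Real.log R / Real.log 2 := by
  have hl2 : 0 < Real.log 2 := Real.log_pos (by norm_num)
  rcases Finset.eq_empty_or_nonempty (KK J z D) with h | h
  · rw [h, Finset.card_empty, Nat.cast_zero]
    have := Real.log_nonneg hR1
    positivity
  · set k0 := (KK J z D).min' h with hk0
    have hk0m := mem_KK.mp ((KK J z D).min'_mem h)
    have hb : ∀ k ∈ KK J z D, k0 ≤ k ∧ ((k - k0 : ℕ) : ℝ) ≤ Real.log R / Real.log 2 := by
      intro k hk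
      have h1 : k0 ≤ k := Finset.min'_le _ _ hk
      refine ⟨h1, ?_⟩
      have hkm := mem_KK.mp hk
      have h2 : (2 : ℝ) ^ (k - k0) * 2 ^ k0 = 2 ^ k := by
        rw [← pow_add]; congr 1; omega
      have h3 : (2 : ℝ) ^ (k - k0) ≤ R := by
        have h4 : z / 4 < 2 ^ k0 := hk0m.2.1
        have h5 : (2 : ℝ) ^ k ≤ D := hkm.2.2
        have h6 : (0 : ℝ) < 2 ^ (k - k0) := by positivity
        by_contra hc
        push Not at hc
        have h7 : R * (z / 4) < 2 ^ (k - k0) * 2 ^ k0 := by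
          have : R * (z / 4) ≤ 2 ^ (k - k0) * (z / 4) :=
            mul_le_mul_of_nonneg_right hc.le (by positivity)
          exact this.trans_lt (mul_lt_mul_of_pos_left h4 h6)
        rw [h2] at h7
        nlinarith
      rw [le_div_iff₀ hl2, ← Real.log_pow]
      exact Real.log_le_log (by positivity) h3
    obtain ⟨n, hn⟩ : ∃ n : ℕ, n = ⌊Real.log R / Real.log 2⌋₊ := ⟨_, rfl⟩
    have hsub : KK J z D ⊆ (Finset.range (n + 1)).image (fun i => i + k0) := by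
      intro k hk
      obtain ⟨h1, h2⟩ := hb k hk
      rw [Finset.mem_image]
      refine ⟨k - k0, ?_, by omega⟩
      rw [Finset.mem_range, Nat.lt_succ_iff, hn]
      exact Nat.le_floor h2
    have hc := (Finset.card_le_card hsub).trans Finset.card_image_le
    rw [Finset.card_range] at hc
    have h8 : (n : ℝ) ≤ Real.log R / Real.log 2 := by
      rw [hn]
      exact Nat.floor_le (div_nonneg (Real.log_nonneg hR1) hl2.le)
    calc ((KK J z D).card : ℝ) ≤ ((n + 1 : ℕ) : ℝ) := by exact_mod_cast hc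
      _ = 1 + n := by push_cast; ring
      _ ≤ _ := by linarith

/-- at most three exponents of `a` for each `b` -/
def J3 (J m k : ℕ) : Finset ℕ := (Finset.range J).filter (fun j => j + k ≤ m ∧ m ≤ j + k + 2)

lemma card_J3_le (J m k : ℕ) : (J3 J m k).card ≤ 3 := by
  have hsub : J3 J m k ⊆ Finset.Icc (m - k - 2) (m - k) := by
    intro j hj
    unfold J3 at hj
    rw [Finset.mem_filter] at hj
    rw [Finset.mem_Icc]
    omega
  refine (Finset.card_le_card hsub).trans ?_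
  rw [Nat.card_Icc]
  omega

open Classical in
/-- the sum over one pair of dyadic ranges -/
def bx (l : ℤ) (X : ℕ) (s t : Finset Eis) (α : Eis → ℂ) (j k : ℕ) : ℂ :=
  ∑ a ∈ s.filter (fun a => Nat.log 2 (nm a) = j),
    ∑ b ∈ t.filter (fun b => Nat.log 2 (nm b) = k), α a * FX l X (a * b)

lemma log_bounds {n k : ℕ} (hn : n ≠ 0) (h : Nat.log 2 n = k) : 2 ^ k ≤ n ∧ n < 2 ^ (k + 1) := by
  subst h
  exact ⟨Nat.pow_log_le_self 2 hn, Nat.lt_pow_succ_log_self (by norm_num) n⟩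

open Classical in
lemma bx_zero_of_range (l : ℤ) (X : ℕ) (s t : Finset Eis) (hs : ∀ a ∈ s, a ≠ 0)
    (ht : ∀ b ∈ t, b ≠ 0) (α : Eis → ℂ) (j k : ℕ)
    (h : bx l X s t α j k ≠ 0) : j + k ≤ Nat.log 2 X ∧ Nat.log 2 X ≤ j + k + 2 ∧
      2 ^ (j + k) ≤ X ∧ X < 2 ^ (j + k + 3) := by
  unfold bx at h
  obtain ⟨a, ha, h1⟩ := Finset.exists_ne_zero_of_sum_ne_zero h
  obtain ⟨b, hb, h2⟩ := Finset.exists_ne_zero_of_sum_ne_zero h1
  have h3 := FX_ne (right_ne_zero_of_mul h2)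
  rw [Finset.mem_filter] at ha hb
  have ha' := log_bounds (nm_pos.mpr (hs a ha.1)).ne' ha.2
  have hb' := log_bounds (nm_pos.mpr (ht b hb.1)).ne' hb.2
  have h4 : 2 ^ (j + k) ≤ nm (a * b) := by
    rw [nm_mul, pow_add]; exact Nat.mul_le_mul ha'.1 hb'.1
  have h5 : nm (a * b) < 2 ^ (j + k + 2) := by
    rw [nm_mul, show j + k + 2 = (j + 1) + (k + 1) by ring, pow_add]
    exact Nat.mul_lt_mul'' ha'.2 hb'.2
  have hX0 : X ≠ 0 := by
    have := h4.trans h3.2.1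
    have h6 : 0 < 2 ^ (j + k) := by positivity
    omega
  have h7 : X < 2 ^ (j + k + 3) := by
    have : 2 ^ (j + k + 3) = 2 * 2 ^ (j + k + 2) := by rw [pow_succ]; ring
    omega
  have h8 : 2 ^ (j + k) ≤ X := h4.trans h3.2.1
  refine ⟨?_, ?_, h8, h7⟩
  · exact (Nat.le_log_iff_pow_le (by norm_num) hX0).mpr h8
  · have := (Nat.log_lt_iff_lt_pow (by norm_num) hX0).mpr h7
    omega

open Classical in
/-- the triple sum with the third variable in `[z/2, D)` -/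
lemma triple_bound {l : ℤ} {X : ℕ} {D z E R : ℝ} (hz : 0 < z) (hR : 4 * D ≤ z * R) (hR1 : 1 ≤ R)
    (hE : 0 ≤ E) {U V W : Finset PrP}
    (hW : ∀ r ∈ W, z / 2 ≤ (nm r.1 : ℝ) ∧ (nm r.1 : ℝ) < D)
    (hbox : ∀ j k : ℕ, z / 4 < 2 ^ k → (2 : ℝ) ^ k ≤ D → 2 ^ (j + k) ≤ X → X < 2 ^ (j + k + 3) →
      ‖bx l X (SA U V) (W.image vl) (fun a => (al U V a : ℂ)) j k‖ ≤ E) :
    ‖T3 (FX l X) U V W‖ ≤ (1 + Real.log R / Real.log 2) * (3 * E) := by
  have hs : ∀ a ∈ SA U V, a ≠ 0 := by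
    intro a ha
    unfold SA at ha
    rw [Finset.mem_image] at ha
    obtain ⟨x, -, rfl⟩ := ha
    exact mul_ne_zero x.1.ne_zero x.2.ne_zero
  have ht : ∀ b ∈ W.image vl, b ≠ 0 := by
    intro b hb
    rw [Finset.mem_image] at hb
    obtain ⟨r, -, rfl⟩ := hb
    exact r.ne_zero
  set s := SA U V with hsdef
  set t := W.image vl with htdef
  obtain ⟨J, hJ⟩ : ∃ J : ℕ, (∀ a ∈ s, Nat.log 2 (nm a) < J) ∧ ∀ b ∈ t, Nat.log 2 (nm b) < J := by
    refine ⟨(s ∪ t).sup (fun a => Nat.log 2 (nm a)) + 1, fun a ha => ?_, fun b hb => ?_⟩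
    · exact Nat.lt_succ_of_le (Finset.le_sup (f := fun a => Nat.log 2 (nm a))
        (Finset.mem_union_left _ ha))
    · exact Nat.lt_succ_of_le (Finset.le_sup (f := fun a => Nat.log 2 (nm a))
        (Finset.mem_union_right _ hb))
  have e1 : T3 (FX l X) U V W = ∑ a ∈ s, (al U V a : ℂ) * ∑ b ∈ t, FX l X (a * b) := by
    have h1 : T3 (FX l X) U V W =
        ∑ p ∈ U, ∑ q ∈ V, (fun a => ∑ b ∈ t, FX l X (a * b)) (p.1 * q.1) := by
      unfold T3
      refine Finset.sum_congr rfl fun p _ => Finset.sum_congr rfl fun q _ => ?_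
      exact (Finset.sum_image (s := W) (g := vl) (f := fun b => FX l X (p.1 * q.1 * b))
        (fun a _ b _ hab => vl_inj hab)).symm
    refine h1.trans (sum_pairs U V (fun a => ∑ b ∈ t, FX l X (a * b)) ?_)
    intro p
    refine Finset.sum_eq_zero fun b _ => ?_
    by_contra hc
    have h2 := (FX_ne hc).2.2
    exact p.prime.not_isUnit (h2 _ (Dvd.intro _ rfl))
  have e2 : T3 (FX l X) U V W = ∑ k ∈ Finset.range J, ∑ j ∈ Finset.range J,
      bx l X s t (fun a => (al U V a : ℂ)) j k := by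
    rw [e1, sum_log_split s J hJ.1]
    refine (Finset.sum_congr rfl fun j _ => ?_).trans Finset.sum_comm
    unfold bx
    rw [Finset.sum_comm]
    refine Finset.sum_congr rfl fun a _ => ?_
    rw [Finset.mul_sum, sum_log_split t J hJ.2 (fun b => (al U V a : ℂ) * FX l X (a * b))]
  rw [e2]
  have hk : ∀ k ∈ Finset.range J, ‖∑ j ∈ Finset.range J,
      bx l X s t (fun a => (al U V a : ℂ)) j k‖ ≤ if k ∈ KK J z D then 3 * E else 0 := by
    intro k hk
    by_cases hkk : k ∈ KK J z D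
    · rw [if_pos hkk]
      have hkm := mem_KK.mp hkk
      calc ‖∑ j ∈ Finset.range J, bx l X s t (fun a => (al U V a : ℂ)) j k‖
          ≤ ∑ j ∈ Finset.range J, ‖bx l X s t (fun a => (al U V a : ℂ)) j k‖ := norm_sum_le _ _
        _ ≤ ∑ j ∈ Finset.range J,
              if j + k ≤ Nat.log 2 X ∧ Nat.log 2 X ≤ j + k + 2 then E else 0 := by
            refine Finset.sum_le_sum fun j _ => ?_
            by_cases h0 : bx l X s t (fun a => (al U V a : ℂ)) j k = 0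
            · rw [h0, norm_zero]
              split_ifs
              · exact hE
              · exact le_rfl
            · obtain ⟨r1, r2, r3, r4⟩ := bx_zero_of_range l X s t hs ht _ j k h0
              rw [if_pos ⟨r1, r2⟩]
              exact hbox j k hkm.2.1 hkm.2.2 r3 r4
        _ = ((J3 J (Nat.log 2 X) k).card : ℝ) * E := by
            rw [← Finset.sum_filter, Finset.sum_const, nsmul_eq_mul]
            rfl
        _ ≤ 3 * E := by
            refine mul_le_mul_of_nonneg_right ?_ hE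
            exact_mod_cast card_J3_le J _ k
    · rw [if_neg hkk]
      have h0 : t.filter (fun b => Nat.log 2 (nm b) = k) = ∅ := by
        rw [Finset.filter_eq_empty_iff]
        intro b hb hbk
        apply hkk
        rw [mem_KK]
        have hb0 := ht b hb
        rw [htdef, Finset.mem_image] at hb
        obtain ⟨r, hr, rfl⟩ := hb
        have h1 := hW r hr
        have h2 := log_bounds (nm_pos.mpr hb0).ne' hbk
        have h3 : (2 : ℝ) ^ k ≤ nm r.1 := by exact_mod_cast h2.1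
        have h4 : (nm r.1 : ℝ) < 2 ^ (k + 1) := by exact_mod_cast h2.2
        rw [pow_succ] at h4
        exact ⟨Finset.mem_range.mp hk, by linarith, by linarith⟩
      have h1 : ∑ j ∈ Finset.range J, bx l X s t (fun a => (al U V a : ℂ)) j k = 0 := by
        refine Finset.sum_eq_zero fun j _ => ?_
        unfold bx
        rw [h0]
        simp
      rw [h1, norm_zero]
  calc ‖∑ k ∈ Finset.range J, ∑ j ∈ Finset.range J,
        bx l X s t (fun a => (al U V a : ℂ)) j k‖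
      ≤ ∑ k ∈ Finset.range J, ‖∑ j ∈ Finset.range J,
        bx l X s t (fun a => (al U V a : ℂ)) j k‖ := norm_sum_le _ _
    _ ≤ ∑ k ∈ Finset.range J, if k ∈ KK J z D then 3 * E else 0 := Finset.sum_le_sum hk
    _ = ((KK J z D).card : ℝ) * (3 * E) := by
        rw [← Finset.sum_filter, Finset.sum_const, nsmul_eq_mul]
        congr 3
        ext k
        rw [Finset.mem_filter, Finset.mem_range]
        exact ⟨fun h => h.2, fun h => ⟨(mem_KK.mp h).1, h⟩⟩
    _ ≤ _ := mul_le_mul_of_nonneg_right (card_KK_le J hz hR hR1) (by positivity)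

open Classical in
/-- bound of one pair of dyadic ranges -/
lemma bx_bound {l : ℤ} {C0 K : ℝ} {X0 : ℕ} (HB : ∀ X : ℕ, X0 ≤ X →
  ∀ (A B : ℝ) (SA SB : Finset Eis) (α : Eis → ℂ) (Y : ℕ), (Y = X ∨ Y = X / 2) →
    (X : ℝ) ^ ((1 : ℝ) / 3) / 4 ≤ B → B ≤ (X : ℝ) ^ ((1 : ℝ) / 3) * LX X ^ C0 →
    (X : ℝ) ≤ 8 * (A * B) → A * B ≤ X →
    (∀ a ∈ SA, A ≤ nm a ∧ (nm a : ℝ) ≤ 2 * A ∧ ∃ p q : PrP, p ≠ q ∧ p.1 * q.1 = a ∧
      (nm p.1 : ℝ) < (X : ℝ) ^ ((1 : ℝ) / 3) * LX X ^ C0 ∧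
      (nm q.1 : ℝ) < (X : ℝ) ^ ((1 : ℝ) / 3) * LX X ^ C0) →
    (∀ b ∈ SB, IsPrim b ∧ Prime b ∧ B ≤ nm b ∧ (nm b : ℝ) ≤ 2 * B) → (∀ a, ‖α a‖ ≤ 1) →
    ‖∑ a ∈ SA, ∑ b ∈ SB, (if nm (a * b) ≤ Y then α a * Fl l (a * b) else 0)‖ ≤
      K * (X : ℝ) ^ ((5 : ℝ) / 6) / LX X ^ (4 / 3 : ℝ))
    {X : ℕ} (hX : X0 ≤ X) {U V W : Finset PrP}
    (hU : ∀ p ∈ U, (nm p.1 : ℝ) < (X : ℝ) ^ ((1 : ℝ) / 3) * LX X ^ C0)
    (hV : ∀ p ∈ V, (nm p.1 : ℝ) < (X : ℝ) ^ ((1 : ℝ) / 3) * LX X ^ C0)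
    (j k : ℕ) (hk1 : (X : ℝ) ^ ((1 : ℝ) / 3) / 4 < 2 ^ k)
    (hk2 : (2 : ℝ) ^ k ≤ (X : ℝ) ^ ((1 : ℝ) / 3) * LX X ^ C0)
    (h1 : 2 ^ (j + k) ≤ X) (h2 : X < 2 ^ (j + k + 3)) :
    ‖bx l X (SA U V) (W.image vl) (fun a => (al U V a : ℂ)) j k‖ ≤
      4 * (K * (X : ℝ) ^ ((5 : ℝ) / 6) / LX X ^ (4 / 3 : ℝ)) := by
  set s := (SA U V).filter (fun a => Nat.log 2 (nm a) = j) with hs
  set t := (W.image vl).filter (fun b => Nat.log 2 (nm b) = k) with ht
  have hbxeq : bx l X (SA U V) (W.image vl) (fun a => (al U V a : ℂ)) j k =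
      2 * ∑ a ∈ s, ∑ b ∈ t, (if nm (a * b) ≤ X then ((al U V a : ℂ) / 2) * Fl l (a * b) else 0) -
      2 * ∑ a ∈ s, ∑ b ∈ t,
        (if nm (a * b) ≤ X / 2 then ((al U V a : ℂ) / 2) * Fl l (a * b) else 0) := by
    unfold bx
    rw [Finset.mul_sum, Finset.mul_sum, ← Finset.sum_sub_distrib]
    refine Finset.sum_congr rfl fun a _ => ?_
    rw [Finset.mul_sum, Finset.mul_sum, ← Finset.sum_sub_distrib]
    refine Finset.sum_congr rfl fun b _ => ?_
    rw [FX_cut]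
    split_ifs <;> ring
  have hsm : ∀ a ∈ s, (2 : ℝ) ^ j ≤ nm a ∧ (nm a : ℝ) ≤ 2 * 2 ^ j ∧
      ∃ p q : PrP, p ≠ q ∧ p.1 * q.1 = a ∧
      (nm p.1 : ℝ) < (X : ℝ) ^ ((1 : ℝ) / 3) * LX X ^ C0 ∧
      (nm q.1 : ℝ) < (X : ℝ) ^ ((1 : ℝ) / 3) * LX X ^ C0 := by
    intro a ha
    rw [hs, Finset.mem_filter] at ha
    obtain ⟨ha1, ha2⟩ := ha
    unfold SA prs at ha1
    rw [Finset.mem_image] at ha1
    obtain ⟨⟨p, q⟩, hpq, rfl⟩ := ha1
    rw [Finset.mem_filter, Finset.mem_product] at hpq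
    have h3 := log_bounds (nm_pos.mpr (mul_ne_zero p.ne_zero q.ne_zero)).ne' ha2
    rw [show 2 ^ (j + 1) = 2 * 2 ^ j by ring] at h3
    refine ⟨by exact_mod_cast h3.1, by exact_mod_cast h3.2.le, p, q, hpq.2, rfl,
      hU _ hpq.1.1, hV _ hpq.1.2⟩
  have htm : ∀ b ∈ t, IsPrim b ∧ Prime b ∧ (2 : ℝ) ^ k ≤ nm b ∧ (nm b : ℝ) ≤ 2 * 2 ^ k := by
    intro b hb
    rw [ht, Finset.mem_filter, Finset.mem_image] at hb
    obtain ⟨⟨r, hr, rfl⟩, hb2⟩ := hb
    have h3 := log_bounds (nm_pos.mpr r.ne_zero).ne' hb2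
    rw [show 2 ^ (k + 1) = 2 * 2 ^ k by ring] at h3
    exact ⟨r.isPrim, r.prime, by exact_mod_cast h3.1, by exact_mod_cast h3.2.le⟩
  have hα : ∀ a, ‖((al U V a : ℂ) / 2)‖ ≤ 1 := by
    intro a
    rw [norm_div, Complex.norm_natCast]
    have : ((al U V a : ℕ) : ℝ) ≤ 2 := by exact_mod_cast al_le U V a
    have h2 : ‖(2 : ℂ)‖ = 2 := by simp
    rw [h2, div_le_one (by norm_num)]
    exact this
  have hAB1 : (X : ℝ) ≤ 8 * ((2 : ℝ) ^ j * 2 ^ k) := by
    have : (X : ℝ) < 2 ^ (j + k + 3) := by exact_mod_cast h2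
    rw [pow_add, pow_add] at this
    linarith
  have hAB2 : (2 : ℝ) ^ j * 2 ^ k ≤ X := by
    rw [← pow_add]; exact_mod_cast h1
  have b1 := HB X hX (2 ^ j) (2 ^ k) s t (fun a => (al U V a : ℂ) / 2) X (Or.inl rfl) hk1.le hk2
    hAB1 hAB2 hsm htm hα
  have b2 := HB X hX (2 ^ j) (2 ^ k) s t (fun a => (al U V a : ℂ) / 2) (X / 2) (Or.inr rfl) hk1.le
    hk2 hAB1 hAB2 hsm htm hα
  rw [hbxeq]
  refine (norm_sub_le _ _).trans ?_
  rw [norm_mul, norm_mul]
  have h2 : ‖(2 : ℂ)‖ = 2 := by simp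
  rw [h2]
  linarith

open Classical in
/-- **Reduction of `Edge_Prop` to dyadic boxes.** -/
theorem edge_of_box (H : ∀ (l : ℤ) (C0 : ℝ), BoxB l C0) : Edge_Prop := by
  intro l C0
  obtain ⟨K, X0, hK, HB⟩ := H l C0
  have hl2 : 0 < Real.log 2 := Real.log_pos (by norm_num)
  refine ⟨96 * (3 + 12 * |C0| / Real.log 2) * K, max X0 3, ?_⟩
  intro X hX P
  have hX0 : X0 ≤ X := (le_max_left _ _).trans hX
  have hX3 : 3 ≤ X := (le_max_right _ _).trans hX
  have hX3' : (3 : ℝ) ≤ X := by exact_mod_cast hX3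
  have hXpos : (0 : ℝ) < X := by linarith
  have hL1 : 1 ≤ LX X := by
    unfold LX
    rw [Real.le_log_iff_exp_le hXpos]
    linarith [Real.exp_one_lt_d9]
  have hL0 : 0 < LX X := by linarith
  set z : ℝ := (X : ℝ) ^ ((1 : ℝ) / 3) with hz
  have hz0 : 0 < z := Real.rpow_pos_of_pos hXpos _
  have hz3 : z ^ 3 = X := by
    rw [hz, ← Real.rpow_natCast, ← Real.rpow_mul hXpos.le]; norm_num
  set D : ℝ := z * LX X ^ C0 with hD
  set E0 : ℝ := K * (X : ℝ) ^ ((5 : ℝ) / 6) / LX X ^ (4 / 3 : ℝ) with hE0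
  have hE00 : 0 ≤ E0 := by positivity
  set R : ℝ := 4 * LX X ^ |C0| with hR
  have hLC : LX X ^ C0 ≤ LX X ^ |C0| := Real.rpow_le_rpow_of_exponent_le hL1 (le_abs_self _)
  have hLC1 : 1 ≤ LX X ^ |C0| := Real.one_le_rpow hL1 (abs_nonneg _)
  have hR1 : 1 ≤ R := by rw [hR]; linarith
  have hRD : 4 * D ≤ z * R := by
    rw [hD, hR]
    nlinarith
  have hP : ∀ p ∈ P, (nm p.1 : ℝ) < D := fun p hp => (Finset.mem_filter.mp hp).2
  have tri : ∀ U V W : Finset PrP, U ⊆ P → V ⊆ P → W ⊆ P → (∀ r ∈ W, z / 2 ≤ (nm r.1 : ℝ)) →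
      ‖T3 (FX l X) U V W‖ ≤ (1 + Real.log R / Real.log 2) * (3 * (4 * E0)) := by
    intro U V W hU hV hW hWz
    refine triple_bound hz0 hRD hR1 (by positivity)
      (fun r hr => ⟨hWz r hr, hP r (hW hr)⟩) ?_
    intro j k hk1 hk2 h1 h2
    exact bx_bound HB hX0 (fun p hp => hP p (hU hp)) (fun p hp => hP p (hV hp)) j k hk1 hk2 h1 h2
  have hcube := T3_cube (FX l X) (fun p => (nm p.1 : ℝ) < z) P
    (E := (1 + Real.log R / Real.log 2) * (3 * (4 * E0))) ?_ ?_ ?_ ?_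
  · have hgoal : ∑ p ∈ P, ∑ q ∈ P, ∑ r ∈ P, FX l X (p.1 * q.1 * r.1) = T3 (FX l X) P P P := rfl
    rw [hgoal]
    refine hcube.trans ?_
    have hlogR : Real.log R ≤ 2 * Real.log 2 + 12 * |C0| * LX X ^ (1 / 12 : ℝ) := by
      rw [hR, Real.log_mul (by norm_num) (by positivity), Real.log_rpow hL0,
        show (4 : ℝ) = 2 ^ 2 by norm_num, Real.log_pow]
      have h1 := Real.log_le_rpow_div hL0.le (by norm_num : (0 : ℝ) < 1 / 12)
      have h2 : |C0| * Real.log (LX X) ≤ |C0| * (LX X ^ (1 / 12 : ℝ) / (1 / 12)) :=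
        mul_le_mul_of_nonneg_left h1 (abs_nonneg _)
      push_cast
      linarith
    have hL12 : 1 ≤ LX X ^ (1 / 12 : ℝ) := Real.one_le_rpow hL1 (by norm_num)
    have h3 : 1 + Real.log R / Real.log 2 ≤
        (3 + 12 * |C0| / Real.log 2) * LX X ^ (1 / 12 : ℝ) := by
      have h4 : Real.log R / Real.log 2 ≤ 2 + 12 * |C0| / Real.log 2 * LX X ^ (1 / 12 : ℝ) := by
        rw [div_le_iff₀ hl2]
        calc Real.log R ≤ 2 * Real.log 2 + 12 * |C0| * LX X ^ (1 / 12 : ℝ) := hlogR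
          _ = _ := by field_simp
      linarith
    calc 8 * ((1 + Real.log R / Real.log 2) * (3 * (4 * E0)))
        ≤ 8 * (((3 + 12 * |C0| / Real.log 2) * LX X ^ (1 / 12 : ℝ)) * (3 * (4 * E0))) := by
          gcongr
      _ = 96 * (3 + 12 * |C0| / Real.log 2) * K * (X : ℝ) ^ ((5 : ℝ) / 6) *
          (LX X ^ (1 / 12 : ℝ) / LX X ^ (4 / 3 : ℝ)) := by
          rw [hE0]; ring
      _ = 96 * (3 + 12 * |C0| / Real.log 2) * K * (X : ℝ) ^ ((5 : ℝ) / 6) *
          (1 / LX X ^ (5 / 4 : ℝ)) := by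
          congr 1
          rw [← Real.rpow_sub hL0, show (1 / 12 : ℝ) - 4 / 3 = -(5 / 4) by norm_num,
            Real.rpow_neg hL0.le, one_div]
      _ = _ := by ring
  · -- all small
    rw [T3_split3 (FX l X) (fun r => z / 2 ≤ (nm r.1 : ℝ))]
    have h0 : T3 (FX l X) (P.filter (fun p => (nm p.1 : ℝ) < z)) (P.filter fun p => (nm p.1 : ℝ) < z)
        ((P.filter fun p => (nm p.1 : ℝ) < z).filter (fun r => ¬ z / 2 ≤ (nm r.1 : ℝ))) = 0 := by
      unfold T3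
      refine Finset.sum_eq_zero fun p hp => Finset.sum_eq_zero fun q hq =>
        Finset.sum_eq_zero fun r hr => ?_
      by_contra hc
      have h1 := (FX_ne hc).1
      rw [nm_mul, nm_mul] at h1
      have h2 : (X : ℝ) < 2 * ((nm p.1 : ℝ) * nm q.1 * nm r.1) := by exact_mod_cast h1
      have hp' := (Finset.mem_filter.mp hp).2
      have hq' := (Finset.mem_filter.mp hq).2
      have hr' := (Finset.mem_filter.mp hr).2
      simp only [not_le] at hp' hq' hr'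
      have h3 : (nm p.1 : ℝ) * nm q.1 ≤ z * z :=
        mul_le_mul hp'.le hq'.le (Nat.cast_nonneg _) hz0.le
      have h4 : (nm p.1 : ℝ) * nm q.1 * nm r.1 ≤ z * z * (z / 2) :=
        mul_le_mul h3 hr'.le (Nat.cast_nonneg _) (by positivity)
      have h5 : z * z * (z / 2) = X / 2 := by rw [← hz3]; ring
      linarith
    rw [h0, add_zero]
    refine tri _ _ _ (Finset.filter_subset _ _) (Finset.filter_subset _ _)
      ((Finset.filter_subset _ _).trans (Finset.filter_subset _ _)) ?_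
    intro r hr
    exact (Finset.mem_filter.mp hr).2
  · refine tri _ _ _ (Finset.filter_subset _ _) (Finset.filter_subset _ _)
      (Finset.filter_subset _ _) ?_
    intro r hr
    have := (Finset.mem_filter.mp hr).2
    simp only [not_lt] at this
    linarith
  · refine tri _ _ _ (Finset.filter_subset _ _) (Finset.filter_subset _ _)
      (Finset.filter_subset _ _) ?_
    intro r hr
    have := (Finset.mem_filter.mp hr).2
    simp only [not_lt] at this
    linarith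
  · refine tri _ _ _ (Finset.filter_subset _ _) (Finset.filter_subset _ _)
      (Finset.filter_subset _ _) ?_
    intro r hr
    have := (Finset.mem_filter.mp hr).2
    simp only [not_lt] at this
    linarith

end Crest.Agent.R012.EdgeBox420
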