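import Crest.Agent.R012.EdgeB_79

/-!
# Row 12 (TIII): upper bound for the dispersion sum `S1`, prime-supported coefficients
-/

set_option autoImplicit false

noncomputable section

namespace Crest.Agent.R012.Edge79

open Eis CharSum852 Tau671
open Po581 (fC)

/-- the inner sum -/
def Sb (B : Finset Eis) (c : Eis → ℂ) (a : Eis) : ℂ :=
  ∑ b ∈ B, c b * G b * (starRingEnd ℂ) (sy a b)

open Classical in
/-- the dispersion sum -/
def S1 (t : ℝ) (B : Finset Eis) (c : Eis → ℂ) : ℝ :=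
  ∑' a : Eis, if IsPrim a then Real.exp (-(Real.pi * t * nm a)) * ‖Sb B c a‖ ^ 2 else 0

open Classical in
/-- the contribution of a pair -/
def Pr (t : ℝ) (b1 b2 : Eis) : ℂ :=
  G b1 * (starRingEnd ℂ) (G b2) *
    ∑' a : Eis, (if IsPrim a then (starRingEnd ℂ) (sy a b1) * sy a b2 else 0) * gau t (toC a)

lemma gau_toC (t : ℝ) (a : Eis) : gau t (toC a) = (Real.exp (-(Real.pi * t * nm a)) : ℂ) := by
  unfold gau; rw [norm_toC_sq]

lemma summable_gau {t : ℝ} (ht : 0 < t) : Summable fun a : Eis => ‖gau t (toC a)‖ := by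
  have h := summable_exp (c := Real.pi * t) (by positivity)
  refine h.congr fun a => ?_
  rw [norm_gau, norm_toC_sq]

lemma tsum_gau_le {t : ℝ} (ht : 0 < t) :
    ∑' a : Eis, ‖gau t (toC a)‖ ≤ 1 + 100 / (Real.pi * t) := by
  have h := tsum_exp_le (c := Real.pi * t) (by positivity)
  refine le_trans (le_of_eq ?_) h
  refine tsum_congr fun a => ?_
  rw [norm_gau, norm_toC_sq]

section


lemma norm_pairch_le {b1 b2 : Eis} (h1 : IsPrim b1) (h2 : IsPrim b2) (a : Eis) :
    ‖(starRingEnd ℂ) (sy a b1) * sy a b2‖ ≤ 1 := by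
  rw [norm_mul, RCLike.norm_conj]
  exact mul_le_one₀ (norm_sy_le h1) (norm_nonneg _) (norm_sy_le h2)

open Classical in
lemma summable_pairch {t : ℝ} (ht : 0 < t) {b1 b2 : Eis} (h1 : IsPrim b1) (h2 : IsPrim b2) :
    Summable fun a : Eis =>
      (if IsPrim a then (starRingEnd ℂ) (sy a b1) * sy a b2 else 0) * gau t (toC a) := by
  apply Summable.of_norm_bounded (summable_gau ht)
  intro a
  rw [norm_mul]
  split_ifs
  · have := norm_pairch_le h1 h2 a
    have h0 := norm_nonneg (gau t (toC a))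
    nlinarith
  · simp

lemma norm_Pr_diag_le {t : ℝ} (ht : 0 < t) {b : Eis} (hb : IsPrim b) :
    ‖Pr t b b‖ ≤ 1 + 100 / (Real.pi * t) := by
  classical
  unfold Pr
  have hG := Gauss880.norm_G_le Gauss880.syG hb
  have h1 : ‖G b * (starRingEnd ℂ) (G b)‖ ≤ 1 := by
    rw [norm_mul, RCLike.norm_conj]
    exact mul_le_one₀ hG (norm_nonneg _) hG
  have h2 : ‖∑' a : Eis, (if IsPrim a then (starRingEnd ℂ) (sy a b) * sy a b else 0) *
      gau t (toC a)‖ ≤ 1 + 100 / (Real.pi * t) := by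
    refine le_trans ?_ (tsum_gau_le ht)
    apply (tsum_of_norm_bounded (summable_gau ht).hasSum)
    intro a
    rw [norm_mul]
    split_ifs
    · have := norm_pairch_le hb hb a
      have h0 := norm_nonneg (gau t (toC a))
      nlinarith
    · simp
  rw [norm_mul]
  have h3 := norm_nonneg (G b * (starRingEnd ℂ) (G b))
  have h4 : 0 ≤ 1 + 100 / (Real.pi * t) := by positivity
  calc _ ≤ 1 * (1 + 100 / (Real.pi * t)) := mul_le_mul h1 h2 (norm_nonneg _) zero_le_one
    _ = _ := one_mul _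

/-- expansion of the square -/
lemma S1_expand {t : ℝ} (ht : 0 < t) {B : Finset Eis} (hB : ∀ b ∈ B, IsPrim b) (c : Eis → ℂ) :
    ((S1 t B c : ℝ) : ℂ) =
      ∑ p ∈ B ×ˢ B, c p.1 * (starRingEnd ℂ) (c p.2) * Pr t p.1 p.2 := by
  classical
  unfold S1 Pr
  rw [Complex.ofReal_tsum]
  have h1 : ∀ p ∈ B ×ˢ B, c p.1 * (starRingEnd ℂ) (c p.2) * (G p.1 * (starRingEnd ℂ) (G p.2) *
      ∑' a : Eis, (if IsPrim a then (starRingEnd ℂ) (sy a p.1) * sy a p.2 else 0) *
        gau t (toC a)) = ∑' a : Eis, c p.1 * (starRingEnd ℂ) (c p.2) *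
        (G p.1 * (starRingEnd ℂ) (G p.2)) *
        ((if IsPrim a then (starRingEnd ℂ) (sy a p.1) * sy a p.2 else 0) * gau t (toC a)) := by
    intro p _
    rw [← mul_assoc, ← tsum_mul_left]
  rw [Finset.sum_congr rfl h1, ← Summable.tsum_finsetSum]
  · refine tsum_congr fun a => ?_
    split_ifs with ha
    · rw [gau_toC]
      unfold Sb
      push_cast
      rw [← Complex.conj_mul', mul_comm ((starRingEnd ℂ) _), map_sum, Finset.sum_mul_sum,
        Finset.sum_product, Finset.mul_sum]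
      apply Finset.sum_congr rfl
      intro b1 _
      rw [Finset.mul_sum]
      apply Finset.sum_congr rfl
      intro b2 _
      simp only [map_mul, Complex.conj_conj]
      ring
    · simp
  · intro p hp
    rw [Finset.mem_product] at hp
    exact (summable_pairch ht (hB _ hp.1) (hB _ hp.2)).mul_left _

/-- the dual sum for one `h` -/
def Th (t : ℝ) (B : Finset Eis) (c : Eis → ℂ) (h : Eis) : ℂ :=
  ∑ p ∈ B.offDiag, c p.1 * (starRingEnd ℂ) (c p.2) *
    ((((Real.sqrt (nm p.1) * Real.sqrt (nm p.2))⁻¹ * EE t h p.1 p.2 : ℝ) : ℂ) *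
      (sy h p.1 * (starRingEnd ℂ) (sy h p.2)))

end

end Crest.Agent.R012.Edge79
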