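import Crest.Agent.R012.Weight_600

/-!
# Row 12, item TIII/T7b (edge triples), sharp cutoff (helper968)

Abstract passage from `∑_{n i ≤ X} f i` to the sums `∑ f i (n i)^{it}`:

* `|t| ≤ T` : only costs `1 + log((log X + 1)/κ)` (i.e. `log log X` for `κ` = power of `log X`),
* `|t| > T` : the arbitrary-coefficient bound `M`, with the saving `(κT)^{-k}`,
* the error of the smoothing : `κ`-cells, with the bound `M3` for every cell.
-/

set_option autoImplicit false

noncomputable section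

open MeasureTheory Complex Set Filter Real
open Crest.Agent.R012.Weight600

namespace Crest.Agent.R012.EdgeCut968

variable {ι : Type*}

/-- The smooth majorant used below: `1` on `1 ≤ x ≤ X e^{-2κ}`, `0` for `x ≥ X`. -/
def cutX (X : ℕ) (κ : ℝ) (u : ℝ) : ℝ := cutL (-1) (Real.log X - κ) κ u

lemma cutX_eq_one {X : ℕ} {κ u : ℝ} (hκ : 0 < κ) (hκ1 : κ ≤ 1 / 2) (hu : 0 ≤ u)
    (h : u ≤ Real.log X - 2 * κ) : cutX X κ u = 1 := by
  unfold cutX
  exact cutL_eq_one hκ (by linarith) (by linarith)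

lemma cutX_eq_zero {X : ℕ} {κ u : ℝ} (hκ : 0 < κ) (hκ1 : κ ≤ 1 / 2) (hX : 1 ≤ X)
    (h : Real.log X ≤ u) : cutX X κ u = 0 := by
  have : 0 ≤ Real.log X := Real.log_nonneg (by exact_mod_cast hX)
  unfold cutX
  exact cutL_eq_zero_right hκ (by linarith) (by linarith)

/-- The set of indices in the `j`-th cell, close to the boundary. -/
def cellSet (s : Finset ι) (v : ι → ℝ) (n : ι → ℕ) (X : ℕ) (κ z : ℝ) (j : ℕ) : Finset ι := by
  classical
  exact s.filter (fun i => (z + j * κ ≤ v i ∧ v i < z + (j + 1) * κ) ∧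
    (Real.log X - 2 * κ - (z + (j + 1) * κ) ≤ Real.log (n i) - v i ∧
      Real.log (n i) - v i ≤ Real.log X - (z + j * κ)))

lemma mem_cellSet {s : Finset ι} {v : ι → ℝ} {n : ι → ℕ} {X : ℕ} {κ z : ℝ} {j : ℕ} {i : ι} :
    i ∈ cellSet s v n X κ z j ↔ i ∈ s ∧ (z + j * κ ≤ v i ∧ v i < z + (j + 1) * κ) ∧
    (Real.log X - 2 * κ - (z + (j + 1) * κ) ≤ Real.log (n i) - v i ∧
      Real.log (n i) - v i ≤ Real.log X - (z + j * κ)) := by
  simp [cellSet]

/-- Every `v` in `[z, z + Jκ)` lies in exactly one cell. -/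
lemma exists_cell {κ z : ℝ} (hκ : 0 < κ) {J : ℕ} {v : ℝ} (h1 : z ≤ v) (h2 : v < z + J * κ) :
    ∃ j ∈ Finset.range J, z + j * κ ≤ v ∧ v < z + (j + 1) * κ := by
  refine ⟨⌊(v - z) / κ⌋₊, ?_, ?_, ?_⟩
  · rw [Finset.mem_range, Nat.floor_lt (div_nonneg (by linarith) hκ.le), div_lt_iff₀ hκ]
    linarith
  · have := Nat.floor_le (a := (v - z) / κ) (div_nonneg (by linarith) hκ.le)
    rw [le_div_iff₀ hκ] at this
    linarith
  · have := Nat.lt_floor_add_one ((v - z) / κ)
    rw [div_lt_iff₀ hκ] at this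
    linarith

lemma cell_unique {κ z : ℝ} (hκ : 0 < κ) {j j' : ℕ} {v : ℝ} (h1 : z + j * κ ≤ v)
    (h2 : v < z + (j + 1) * κ) (h1' : z + j' * κ ≤ v) (h2' : v < z + (j' + 1) * κ) : j = j' := by
  have a : (j : ℝ) < j' + 1 := by
    by_contra hh; push Not at hh; nlinarith
  have b : (j' : ℝ) < j + 1 := by
    by_contra hh; push Not at hh; nlinarith
  have a' : j < j' + 1 := by exact_mod_cast a
  have b' : j' < j + 1 := by exact_mod_cast b
  omega

/-- Bound for one cell. -/
lemma norm_cell_le (s : Finset ι) (f : ι → ℂ) (n : ι → ℕ) (hn : ∀ i ∈ s, 1 ≤ n i) {X : ℕ}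
    (hX : 1 ≤ X) {κ : ℝ} (hκ : 0 < κ) (hκ1 : κ ≤ 1 / 2) {M3 : ℝ}
    (h3 : ∀ t : ℝ, ‖∑ i ∈ s, f i * pw t (n i)‖ ≤ M3) :
    ‖∑ i ∈ s, f i * ((if n i ≤ X then 1 else 0) - (cutX X κ (Real.log (n i)) : ℂ))‖ ≤
      (4 * Cint * (1 + Real.log (X + 1)) + Cint * (1 + Real.log ((Real.log X + 1) / κ))) * M3 := by
  classical
  have hM : 0 ≤ M3 := (norm_nonneg _).trans (h3 0)
  have hlogX : 0 ≤ Real.log X := Real.log_nonneg (by exact_mod_cast hX)
  have e : ∑ i ∈ s, f i * ((if n i ≤ X then 1 else 0) - (cutX X κ (Real.log (n i)) : ℂ)) =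
      ∑ i ∈ s.filter (fun i => n i ≤ X), f i -
        ∑ i ∈ s, f i * (cutL (-1) (Real.log X - κ) κ (Real.log (n i)) : ℂ) := by
    rw [Finset.sum_filter, ← Finset.sum_sub_distrib]
    apply Finset.sum_congr rfl
    intro i _
    unfold cutX
    split_ifs <;> ring
  rw [e]
  refine (norm_sub_le _ _).trans ?_
  have b1 := norm_sum_filter_le s f n hn X h3
  have hL : κ ≤ (Real.log X - κ) - (-1) := by linarith
  have b2 : ‖∑ i ∈ s, f i * (cutL (-1) (Real.log X - κ) κ (Real.log (n i)) : ℂ)‖ ≤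
      Cint * (1 + Real.log ((Real.log X + 1) / κ)) * M3 := by
    rw [sum_cutL_eq s f (fun i => Real.log (n i)) hκ (by linarith)]
    refine (norm_integral_mul_le' (integrable_kerC hκ (by linarith)) (B := M3) h3).trans ?_
    have h4 := integral_norm_kerC_le (a := -1) (b := Real.log X - κ) hκ hL
    have h5 : Real.log ((Real.log X - κ - -1) / κ) ≤ Real.log ((Real.log X + 1) / κ) := by
      apply Real.log_le_log
      · apply div_pos (by linarith) hκ
      · apply div_le_div_of_nonneg_right _ hκ.le; linarith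
    have hC := Cint_pos
    have h6 : ∫ t, ‖kerC (-1) (Real.log X - κ) κ t‖ ≤
        Cint * (1 + Real.log ((Real.log X + 1) / κ)) := h4.trans (by gcongr)
    gcongr
  rw [add_mul]
  exact add_le_add b1 b2

/-- **Sharp cutoff, abstract form.** -/
theorem sharp_cut (s : Finset ι) (f : ι → ℂ) (v : ι → ℝ) (n : ι → ℕ)
    (hn : ∀ i ∈ s, 1 ≤ n i) {X : ℕ} (hX : 1 ≤ X) {κ : ℝ} (hκ : 0 < κ) (hκ1 : κ ≤ 1 / 2)
    (z : ℝ) (J : ℕ) (hv : ∀ i ∈ s, z ≤ v i ∧ v i < z + J * κ)
    {B M M3 T : ℝ} (hT : 0 < T) {k : ℕ} (hk : 0 < k)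
    (h1 : ∀ t : ℝ, |t| ≤ T → ‖∑ i ∈ s, f i * pw t (n i)‖ ≤ B)
    (h2 : ∀ t : ℝ, ‖∑ i ∈ s, f i * pw t (n i)‖ ≤ M)
    (h3 : ∀ j < J, ∀ t : ℝ, ‖∑ i ∈ cellSet s v n X κ z j, f i * pw t (n i)‖ ≤ M3) :
    ‖∑ i ∈ s.filter (fun i => n i ≤ X), f i‖ ≤
      Cint * (1 + Real.log ((Real.log X + 1) / κ)) * B + 4 * Ck k / (κ * T) ^ k * M +
      J * ((4 * Cint * (1 + Real.log (X + 1)) +
        Cint * (1 + Real.log ((Real.log X + 1) / κ))) * M3) := by
  classical
  have hlogX : 0 ≤ Real.log X := Real.log_nonneg (by exact_mod_cast hX)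
  have hX0 : (0 : ℝ) < X := by exact_mod_cast hX
  have hL : κ ≤ (Real.log X - κ) - (-1) := by linarith
  have hM0 : 0 ≤ M := (norm_nonneg _).trans (h2 0)
  have hB0 : 0 ≤ B := (norm_nonneg _).trans (h1 0 (by simpa using hT.le))
  have hC := Cint_pos
  -- smooth part
  have hsm : ‖∑ i ∈ s, f i * (cutX X κ (Real.log (n i)) : ℂ)‖ ≤
      Cint * (1 + Real.log ((Real.log X + 1) / κ)) * B + 4 * Ck k / (κ * T) ^ k * M := by
    unfold cutX
    rw [sum_cutL_eq s f (fun i => Real.log (n i)) hκ (by linarith)]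
    refine (norm_integral_mul_le (integrable_kerC hκ (by linarith))
      (continuous_sum_osc s f _) hB0 h1 h2).trans ?_
    have h4 := integral_norm_kerC_le (a := -1) (b := Real.log X - κ) hκ hL
    have h5 : Real.log ((Real.log X - κ - -1) / κ) ≤ Real.log ((Real.log X + 1) / κ) := by
      apply Real.log_le_log
      · apply div_pos (by linarith) hκ
      · apply div_le_div_of_nonneg_right _ hκ.le; linarith
    have h6 : ∫ t, ‖kerC (-1) (Real.log X - κ) κ t‖ ≤
        Cint * (1 + Real.log ((Real.log X + 1) / κ)) := h4.trans (by gcongr)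
    have h7 := tail_norm_kerC_le (a := -1) (b := Real.log X - κ) hκ (by linarith) hT hk
    gcongr
  -- error part
  set g : ι → ℂ := fun i => f i * ((if n i ≤ X then 1 else 0) - (cutX X κ (Real.log (n i)) : ℂ))
    with hg
  have e1 : ∑ i ∈ s.filter (fun i => n i ≤ X), f i =
      ∑ i ∈ s, f i * (cutX X κ (Real.log (n i)) : ℂ) + ∑ i ∈ s, g i := by
    rw [Finset.sum_filter, ← Finset.sum_add_distrib]
    apply Finset.sum_congr rfl
    intro i _
    simp only [hg]
    split_ifs <;> ring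
  have hg0 : ∀ i ∈ s, g i ≠ 0 → Real.log X - 2 * κ ≤ Real.log (n i) ∧
      Real.log (n i) ≤ Real.log X := by
    intro i hi hne
    have hn1 : (1 : ℝ) ≤ n i := by exact_mod_cast hn i hi
    have hln : 0 ≤ Real.log (n i) := Real.log_nonneg hn1
    constructor
    · by_contra hh
      push Not at hh
      apply hne
      have hle : n i ≤ X := by
        have : Real.log (n i) ≤ Real.log X := by linarith
        have := (Real.log_le_log_iff (by linarith) hX0).mp this
        exact_mod_cast this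
      simp only [hg]
      rw [if_pos hle, cutX_eq_one hκ hκ1 hln hh.le]
      simp
    · by_contra hh
      push Not at hh
      apply hne
      have hle : ¬ n i ≤ X := by
        intro hle
        have : (n i : ℝ) ≤ X := by exact_mod_cast hle
        have := Real.log_le_log (by linarith) this
        linarith
      simp only [hg]
      rw [if_neg hle, cutX_eq_zero hκ hκ1 hX hh.le]
      simp
  have e2 : ∑ i ∈ s, g i = ∑ j ∈ Finset.range J, ∑ i ∈ cellSet s v n X κ z j, g i := by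
    have step : ∀ j ∈ Finset.range J, ∑ i ∈ cellSet s v n X κ z j, g i =
        ∑ i ∈ s, if (z + j * κ ≤ v i ∧ v i < z + (j + 1) * κ) then g i else 0 := by
      intro j _
      rw [← Finset.sum_filter]
      apply Finset.sum_subset
      · intro i hi
        rw [mem_cellSet] at hi
        rw [Finset.mem_filter]
        exact ⟨hi.1, hi.2.1⟩
      · intro i hi hni
        rw [Finset.mem_filter] at hi
        by_contra hne
        have h := hg0 i hi.1 hne
        apply hni
        rw [mem_cellSet]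
        refine ⟨hi.1, hi.2, ?_, ?_⟩
        · linarith [hi.2.2]
        · linarith [hi.2.1]
    rw [Finset.sum_congr rfl step, Finset.sum_comm]
    apply Finset.sum_congr rfl
    intro i hi
    obtain ⟨j, hj, hj1, hj2⟩ := exists_cell hκ (hv i hi).1 (hv i hi).2
    rw [Finset.sum_eq_single_of_mem j hj]
    · rw [if_pos ⟨hj1, hj2⟩]
    · intro j' _ hne
      rw [if_neg]
      rintro ⟨h1', h2'⟩
      exact hne (cell_unique hκ h1' h2' hj1 hj2)
  have e3 : ‖∑ i ∈ s, g i‖ ≤ J * ((4 * Cint * (1 + Real.log (X + 1)) +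
        Cint * (1 + Real.log ((Real.log X + 1) / κ))) * M3) := by
    rw [e2]
    refine (norm_sum_le _ _).trans ?_
    have : ∀ j ∈ Finset.range J, ‖∑ i ∈ cellSet s v n X κ z j, g i‖ ≤
        (4 * Cint * (1 + Real.log (X + 1)) +
          Cint * (1 + Real.log ((Real.log X + 1) / κ))) * M3 := by
      intro j hj
      exact norm_cell_le _ f n (fun i hi => hn i (mem_cellSet.mp hi).1) hX hκ hκ1
        (h3 j (Finset.mem_range.mp hj))
    refine (Finset.sum_le_sum this).trans (le_of_eq ?_)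
    rw [Finset.sum_const, Finset.card_range, nsmul_eq_mul]
  rw [e1]
  refine (norm_add_le _ _).trans ?_
  exact add_le_add hsm e3

end Crest.Agent.R012.EdgeCut968
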