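import Crest.Agent.R012.EdgeC_79
import Crest.Agent.R012.Cheb_420

/-!
# Row 12 (TIII): bounds for the dual sums `Th`, and the final bound for `S1`
-/

set_option autoImplicit false

noncomputable section

namespace Crest.Agent.R012.Edge79

open Eis CharSum852 Tau671

/-- the set-up: primary primes in `(B0, 2 B0]` -/
structure Box (B0 : ℝ) (B : Finset Eis) : Prop where
  one_le : 1 ≤ B0
  prim : ∀ b ∈ B, IsPrim b
  prime : ∀ b ∈ B, Prime b
  lt : ∀ b ∈ B, B0 < nm b
  le : ∀ b ∈ B, (nm b : ℝ) ≤ 2 * B0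

variable {B0 : ℝ} {B : Finset Eis}

/-- the exponent -/
def kap (t B0 : ℝ) : ℝ := Real.pi / (27 * t * B0 ^ 2)

lemma kap_pos {t : ℝ} (ht : 0 < t) (hB0 : 1 ≤ B0) : 0 < kap t B0 := by
  unfold kap; have := Real.pi_pos; positivity

lemma Box.pos (hB : Box B0 B) : 0 < B0 := lt_of_lt_of_le one_pos hB.one_le

lemma Box.nm_pos (hB : Box B0 B) {b : Eis} (hb : b ∈ B) : (0 : ℝ) < nm b :=
  hB.pos.trans (hB.lt b hb)

lemma Box.isCoprime (hB : Box B0 B) {b1 b2 : Eis} (h1 : b1 ∈ B) (h2 : b2 ∈ B) (hne : b1 ≠ b2) :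
    IsCoprime b1 b2 := by
  rw [(hB.prime _ h1).irreducible.coprime_iff_not_dvd]
  intro hd
  apply hne
  exact Cheb420.isPrim_assoc (hB.prim _ h1) (hB.prim _ h2)
    ((hB.prime _ h1).irreducible.associated_of_dvd (hB.prime _ h2).irreducible hd)

lemma EE_le {t : ℝ} (ht : 0 < t) (hB : Box B0 B) {b1 b2 : Eis} (h1 : b1 ∈ B) (h2 : b2 ∈ B)
    (h : Eis) : EE t h b1 b2 ≤ Real.exp (-(kap t B0 * nm h)) := by
  unfold EE kap
  apply Real.exp_le_exp.mpr
  apply neg_le_neg
  have n1 := hB.nm_pos h1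
  have n2 := hB.nm_pos h2
  have hp : (nm b1 : ℝ) * nm b2 ≤ 4 * B0 ^ 2 := by
    have := hB.le b1 h1; have := hB.le b2 h2; have := hB.pos
    nlinarith
  have hpi := Real.pi_pos
  have h0 : (0 : ℝ) ≤ nm h := Nat.cast_nonneg _
  have hb := hB.pos
  calc Real.pi / (27 * t * B0 ^ 2) * nm h
      = 4 * Real.pi / (27 * t) * (nm h / (4 * B0 ^ 2)) := by field_simp
    _ ≤ 4 * Real.pi / (27 * t) * (nm h / (nm b1 * nm b2)) := by gcongr

lemma inv_sqrt_le (hB : Box B0 B) {b : Eis} (hb : b ∈ B) :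
    (Real.sqrt (nm b))⁻¹ ≤ (Real.sqrt B0)⁻¹ := by
  have := hB.pos
  apply inv_anti₀ (by positivity)
  exact Real.sqrt_le_sqrt (hB.lt b hb).le

section


lemma norm_Th_le {t : ℝ} (ht : 0 < t) (hB : Box B0 B) {c : Eis → ℂ} (hc : ∀ b, ‖c b‖ ≤ 1)
    (h : Eis) : ‖Th t B c h‖ ≤ (B.card : ℝ) ^ 2 / B0 * Real.exp (-(kap t B0 * nm h)) := by
  have hp := hB.pos
  unfold Th
  have hterm : ∀ p ∈ B.offDiag, ‖c p.1 * (starRingEnd ℂ) (c p.2) *
    ((((Real.sqrt (nm p.1) * Real.sqrt (nm p.2))⁻¹ * EE t h p.1 p.2 : ℝ) : ℂ) *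
      (sy h p.1 * (starRingEnd ℂ) (sy h p.2)))‖ ≤ B0⁻¹ * Real.exp (-(kap t B0 * nm h)) := by
    intro p hp'
    rw [Finset.mem_offDiag] at hp'
    obtain ⟨h1, h2, -⟩ := hp'
    rw [norm_mul, norm_mul, norm_mul, norm_mul, RCLike.norm_conj, RCLike.norm_conj,
      Complex.norm_real, Real.norm_eq_abs, abs_of_nonneg (by
        have := (EE_pos t h p.1 p.2).le
        positivity)]
    have e1 : (Real.sqrt (nm p.1) * Real.sqrt (nm p.2))⁻¹ ≤ B0⁻¹ := by
      rw [mul_inv]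
      have h3 := inv_sqrt_le hB h1
      have h4 := inv_sqrt_le hB h2
      have h5 : (Real.sqrt B0)⁻¹ * (Real.sqrt B0)⁻¹ = B0⁻¹ := by
        rw [← mul_inv, Real.mul_self_sqrt hp.le]
      rw [← h5]
      exact mul_le_mul h3 h4 (by positivity) (by positivity)
    have e2 := EE_le ht hB h1 h2 h
    have e3 := norm_sy_le (x := h) (hB.prim _ h1)
    have e4 := norm_sy_le (x := h) (hB.prim _ h2)
    have e5 : ‖sy h p.1‖ * ‖sy h p.2‖ ≤ 1 := mul_le_one₀ e3 (norm_nonneg _) e4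
    have e6 : ‖c p.1‖ * ‖c p.2‖ ≤ 1 := mul_le_one₀ (hc _) (norm_nonneg _) (hc _)
    have e7 : (Real.sqrt (nm p.1) * Real.sqrt (nm p.2))⁻¹ * EE t h p.1 p.2 ≤
        B0⁻¹ * Real.exp (-(kap t B0 * nm h)) :=
      mul_le_mul e1 e2 (EE_pos _ _ _ _).le (by positivity)
    have e8 : 0 ≤ (Real.sqrt (nm p.1) * Real.sqrt (nm p.2))⁻¹ * EE t h p.1 p.2 := by
      have := (EE_pos t h p.1 p.2).le
      positivity
    calc ‖c p.1‖ * ‖c p.2‖ * ((Real.sqrt (nm p.1) * Real.sqrt (nm p.2))⁻¹ * EE t h p.1 p.2 *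
          (‖sy h p.1‖ * ‖sy h p.2‖))
        ≤ 1 * ((B0⁻¹ * Real.exp (-(kap t B0 * nm h))) * 1) := by
          apply mul_le_mul e6 _ (by positivity) zero_le_one
          exact mul_le_mul e7 e5 (by positivity) (by positivity)
      _ = _ := by ring
  calc ‖_‖ ≤ ∑ p ∈ B.offDiag, B0⁻¹ * Real.exp (-(kap t B0 * nm h)) :=
        (norm_sum_le _ _).trans (Finset.sum_le_sum hterm)
    _ = B.offDiag.card * (B0⁻¹ * Real.exp (-(kap t B0 * nm h))) := by
        rw [Finset.sum_const, nsmul_eq_mul]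
    _ ≤ (B.card : ℝ) ^ 2 * (B0⁻¹ * Real.exp (-(kap t B0 * nm h))) := by
        gcongr
        rw [Finset.offDiag_card]
        have : ((B.card * B.card - B.card : ℕ) : ℝ) ≤ ((B.card * B.card : ℕ) : ℝ) := by
          exact_mod_cast Nat.sub_le _ _
        refine this.trans (le_of_eq ?_)
        push_cast; ring
    _ = _ := by ring

lemma Th_zero (t : ℝ) (hB : Box B0 B) (c : Eis → ℂ) : Th t B c 0 = 0 := by
  unfold Th
  apply Finset.sum_eq_zero
  intro p hp
  rw [Finset.mem_offDiag] at hp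
  have : sy 0 p.1 = 0 := by
    apply sy_eq_zero (hB.prim _ hp.1)
    rw [isCoprime_zero_left]
    exact (hB.prime _ hp.1).not_isUnit
  rw [this]; simp

/-- the non-cube case -/
lemma norm_Th_noncube {t : ℝ} (ht : 0 < t) (hB : Box B0 B) {c : Eis → ℂ} (hc : ∀ b, ‖c b‖ ≤ 1)
    (h : Eis) {M : ℝ}
    (hM : ∀ y : ℕ, ‖∑ b ∈ B.filter (fun b => nm b ≤ y), c b * sy h b‖ ≤ M) :
    ‖Th t B c h‖ ≤ B.card * ((2 * M + 1) / B0) := by
  classical
  have hp := hB.pos
  have hM0 : 0 ≤ M := (norm_nonneg _).trans (hM 0)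
  have hinner : ∀ b2 ∈ B, ‖∑ b1 ∈ B, if b1 ≠ b2 then
      (((Real.sqrt (nm b1))⁻¹ * EE t h b1 b2 : ℝ) : ℂ) * (c b1 * sy h b1) else 0‖ ≤
      (2 * M + 1) * (Real.sqrt B0)⁻¹ := by
    intro b2 hb2
    set K : ℝ := 4 * Real.pi / (27 * t) * nm h / nm b2 with hK
    have hn2 := hB.nm_pos hb2
    have hK0 : 0 ≤ K := by rw [hK]; have := Real.pi_pos; positivity
    set φ2 : ℕ → ℝ := fun k => if k = 0 then 0 else Real.exp (-(K / k)) with hφ2
    set φ1 : ℕ → ℝ := fun k => (Real.sqrt k)⁻¹ with hφ1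
    have hE : ∀ b1 ∈ B, EE t h b1 b2 = φ2 (nm b1) := by
      intro b1 hb1
      have hn1 := hB.nm_pos hb1
      have : nm b1 ≠ 0 := by exact_mod_cast hn1.ne'
      rw [hφ2]; simp only [this, if_false]
      unfold EE
      congr 2
      rw [hK]; field_simp
    have hmono : ∀ k, φ2 k ≤ φ2 (k + 1) := by
      intro k
      simp only [hφ2]
      rcases Nat.eq_zero_or_pos k with hk | hk
      · rw [if_pos hk, if_neg (by omega)]; exact (Real.exp_pos _).le
      · rw [if_neg (by omega), if_neg (by omega)]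
        apply Real.exp_le_exp.mpr
        apply neg_le_neg
        have : (0 : ℝ) < k := by exact_mod_cast hk
        push_cast
        gcongr
        linarith
    have hφ20 : ∀ k, 0 ≤ φ2 k := by
      intro k; simp only [hφ2]; split_ifs
      · exact le_rfl
      · exact (Real.exp_pos _).le
    have hφ21 : ∀ k, φ2 k ≤ 1 := by
      intro k; simp only [hφ2]; split_ifs
      · exact zero_le_one
      · rw [Real.exp_le_one_iff]
        have : 0 ≤ K / k := by positivity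
        linarith
    have hfull : ‖∑ b1 ∈ B, (φ1 (nm b1) : ℂ) * ((φ2 (nm b1) : ℂ) * (c b1 * sy h b1))‖ ≤
        (Real.sqrt B0)⁻¹ * (2 * M) := by
      have hlo : ∀ b ∈ B, ⌊B0⌋₊ + 1 ≤ nm b := by
        intro b hb
        have h1 := hB.lt b hb
        have h2 : (⌊B0⌋₊ : ℝ) ≤ B0 := Nat.floor_le hp.le
        have h3 : (⌊B0⌋₊ : ℝ) < nm b := lt_of_le_of_lt h2 h1
        have : ⌊B0⌋₊ < nm b := by exact_mod_cast h3
        omega
      have h1 := abel_antitone B (fun b => nm b) (fun b => (φ2 (nm b) : ℂ) * (c b * sy h b)) φ1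
        (⌊B0⌋₊ + 1) hlo ?_ ?_ (M := 2 * M) ?_
      · refine h1.trans ?_
        apply mul_le_mul_of_nonneg_right _ (by positivity)
        simp only [hφ1]
        apply inv_anti₀ (by positivity)
        apply Real.sqrt_le_sqrt
        push_cast
        exact (Nat.lt_floor_add_one B0).le
      · intro k hk
        simp only [hφ1]
        have : (0 : ℝ) < k := by
          have : 0 < k := by omega
          exact_mod_cast this
        apply inv_anti₀ (by positivity)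
        apply Real.sqrt_le_sqrt
        push_cast; linarith
      · intro k _; simp only [hφ1]; positivity
      · intro y
        have h2 := abel_monotone (B.filter (fun b => nm b ≤ y)) (fun b => nm b)
          (fun b => c b * sy h b) φ2 hmono hφ20 hφ21 (M := M) ?_
        · rw [mul_one] at h2
          exact h2
        · intro y'
          rw [Finset.filter_filter]
          have := hM (min y y')
          simpa only [le_min_iff] using this
    have hsplit : (∑ b1 ∈ B, if b1 ≠ b2 then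
        (((Real.sqrt (nm b1))⁻¹ * EE t h b1 b2 : ℝ) : ℂ) * (c b1 * sy h b1) else 0) =
        ∑ b1 ∈ B, (φ1 (nm b1) : ℂ) * ((φ2 (nm b1) : ℂ) * (c b1 * sy h b1)) -
          (φ1 (nm b2) : ℂ) * ((φ2 (nm b2) : ℂ) * (c b2 * sy h b2)) := by
      rw [eq_sub_iff_add_eq]
      have e1 : ∑ b1 ∈ B, (φ1 (nm b1) : ℂ) * ((φ2 (nm b1) : ℂ) * (c b1 * sy h b1)) =
          ∑ b1 ∈ B, ((if b1 ≠ b2 then
        (((Real.sqrt (nm b1))⁻¹ * EE t h b1 b2 : ℝ) : ℂ) * (c b1 * sy h b1) else 0) +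
          (if b1 = b2 then (φ1 (nm b1) : ℂ) * ((φ2 (nm b1) : ℂ) * (c b1 * sy h b1)) else 0)) := by
        apply Finset.sum_congr rfl
        intro b1 hb1
        by_cases hne : b1 = b2
        · simp [hne]
        · rw [if_pos hne, if_neg hne, add_zero, hE b1 hb1]
          simp only [hφ1]
          push_cast; ring
      rw [e1, Finset.sum_add_distrib, Finset.sum_ite_eq' B b2, if_pos hb2]
    rw [hsplit]
    refine (norm_sub_le _ _).trans ?_
    have hlast : ‖(φ1 (nm b2) : ℂ) * ((φ2 (nm b2) : ℂ) * (c b2 * sy h b2))‖ ≤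
        (Real.sqrt B0)⁻¹ := by
      rw [norm_mul, norm_mul, norm_mul, Complex.norm_real, Complex.norm_real, Real.norm_eq_abs,
        Real.norm_eq_abs, abs_of_nonneg (hφ20 _), abs_of_nonneg (by simp only [hφ1]; positivity)]
      have e1 : φ1 (nm b2) ≤ (Real.sqrt B0)⁻¹ := inv_sqrt_le hB hb2
      have e2 : ‖c b2‖ * ‖sy h b2‖ ≤ 1 :=
        mul_le_one₀ (hc _) (norm_nonneg _) (norm_sy_le (hB.prim _ hb2))
      have e3 : φ2 (nm b2) * (‖c b2‖ * ‖sy h b2‖) ≤ 1 :=
        mul_le_one₀ (hφ21 _) (by positivity) e2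
      calc _ ≤ (Real.sqrt B0)⁻¹ * 1 := by
            apply mul_le_mul e1 e3 _ (by positivity)
            have := hφ20 (nm b2)
            positivity
        _ = _ := mul_one _
    calc _ ≤ (Real.sqrt B0)⁻¹ * (2 * M) + (Real.sqrt B0)⁻¹ := add_le_add hfull hlast
      _ = _ := by ring
  have hTh : Th t B c h = ∑ b2 ∈ B, (((Real.sqrt (nm b2))⁻¹ : ℝ) : ℂ) *
      ((starRingEnd ℂ) (c b2) * (starRingEnd ℂ) (sy h b2)) *
      ∑ b1 ∈ B, if b1 ≠ b2 then
        (((Real.sqrt (nm b1))⁻¹ * EE t h b1 b2 : ℝ) : ℂ) * (c b1 * sy h b1) else 0 := by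
    unfold Th
    have e : B.offDiag = (B ×ˢ B).filter (fun p => p.1 ≠ p.2) := by
      ext p
      simp only [Finset.mem_offDiag, Finset.mem_filter, Finset.mem_product, and_assoc]
    rw [e, Finset.sum_filter, Finset.sum_product_right]
    apply Finset.sum_congr rfl
    intro b2 _
    rw [Finset.mul_sum]
    apply Finset.sum_congr rfl
    intro b1 _
    by_cases hne : b1 = b2
    · simp [hne]
    · rw [if_pos hne, if_pos hne]
      rw [mul_inv]
      push_cast
      ring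
  rw [hTh]
  calc ‖_‖ ≤ ∑ b2 ∈ B, (Real.sqrt B0)⁻¹ * ((2 * M + 1) * (Real.sqrt B0)⁻¹) := by
        refine (norm_sum_le _ _).trans (Finset.sum_le_sum fun b2 hb2 => ?_)
        rw [norm_mul, norm_mul, norm_mul, RCLike.norm_conj, RCLike.norm_conj, Complex.norm_real,
          Real.norm_eq_abs, abs_of_nonneg (by positivity)]
        have e1 := inv_sqrt_le hB hb2
        have e2 : ‖c b2‖ * ‖sy h b2‖ ≤ 1 :=
          mul_le_one₀ (hc _) (norm_nonneg _) (norm_sy_le (hB.prim _ hb2))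
        have e3 := hinner b2 hb2
        calc (Real.sqrt (nm b2))⁻¹ * (‖c b2‖ * ‖sy h b2‖) * _
            ≤ ((Real.sqrt B0)⁻¹ * 1) * ((2 * M + 1) * (Real.sqrt B0)⁻¹) := by
              apply mul_le_mul _ e3 (norm_nonneg _) (by positivity)
              exact mul_le_mul e1 e2 (by positivity) (by positivity)
          _ = _ := by ring
    _ = B.card * ((Real.sqrt B0)⁻¹ * ((2 * M + 1) * (Real.sqrt B0)⁻¹)) := by
        rw [Finset.sum_const, nsmul_eq_mul]
    _ = _ := by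
        have h5 : (Real.sqrt B0)⁻¹ * (Real.sqrt B0)⁻¹ = B0⁻¹ := by
          rw [← mul_inv, Real.mul_self_sqrt hp.le]
        rw [div_eq_mul_inv, ← h5]; ring

end

end Crest.Agent.R012.Edge79
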