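import Crest.Agent.R012.EdgeD_79

/-!
# Row 12 (TIII): `S1_le`, the final upper bound for the dispersion sum over primes
-/

set_option autoImplicit false

noncomputable section

namespace Crest.Agent.R012.Edge79

open Eis CharSum852 Tau671

variable {B0 : ℝ} {B : Finset Eis}

/-- the bound for the dual sum -/
def dualBd (B0 n κ M : ℝ) (Y0 : ℕ) : ℝ :=
  n ^ 2 / B0 * (400 / κ ^ ((1 : ℝ) / 3)) + 100 * Y0 * (n * ((2 * M + 1) / B0)) +
    n ^ 2 / B0 * (Real.exp (-(κ * Y0 / 2)) * (200 / κ))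

section


lemma sum_Th_le {t : ℝ} (ht : 0 < t) (hB : Box B0 B) {c : Eis → ℂ} (hc : ∀ b, ‖c b‖ ≤ 1)
    {M : ℝ} (hM0 : 0 ≤ M) {Y0 : ℕ}
    (hM : ∀ h : Eis, h ≠ 0 → (¬ ∃ m, h = m ^ 3) → nm h ≤ Y0 →
      ∀ y : ℕ, ‖∑ b ∈ B.filter (fun b => nm b ≤ y), c b * sy h b‖ ≤ M) (S : Finset Eis) :
    ∑ h ∈ S, ‖Th t B c h‖ ≤ dualBd B0 B.card (kap t B0) M Y0 := by
  classical
  set κ := kap t B0 with hκ
  have hκ0 : 0 < κ := kap_pos ht hB.one_le
  have hp := hB.pos
  set n : ℝ := (B.card : ℝ) with hn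
  have hn0 : 0 ≤ n := Nat.cast_nonneg _
  have hnB : 0 ≤ n ^ 2 / B0 := by positivity
  -- split
  set S1 := (S.erase 0).filter (fun h => ∃ m, h = m ^ 3) with hS1
  set S2 := (S.erase 0).filter (fun h => ¬ ∃ m, h = m ^ 3) with hS2
  have h0 : ∑ h ∈ S, ‖Th t B c h‖ ≤ ∑ h ∈ S.erase 0, ‖Th t B c h‖ := by
    by_cases hz : (0 : Eis) ∈ S
    · rw [← Finset.add_sum_erase _ _ hz, Th_zero t hB c]; simp
    · rw [Finset.erase_eq_of_notMem hz]
  have h12 : ∑ h ∈ S.erase 0, ‖Th t B c h‖ = ∑ h ∈ S1, ‖Th t B c h‖ + ∑ h ∈ S2, ‖Th t B c h‖ :=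
    (Finset.sum_filter_add_sum_filter_not _ _ _).symm
  -- cubes
  have hcube : ∑ h ∈ S1, ‖Th t B c h‖ ≤ n ^ 2 / B0 * (400 / κ ^ ((1 : ℝ) / 3)) := by
    have hex : ∀ h ∈ S1, ∃ m, h = m ^ 3 := fun h hh => (Finset.mem_filter.mp hh).2
    choose! r hr using hex
    have hinj : Set.InjOn r S1 := by
      intro x hx y hy hxy
      rw [hr x hx, hr y hy, hxy]
    calc ∑ h ∈ S1, ‖Th t B c h‖ ≤ ∑ h ∈ S1, n ^ 2 / B0 * Real.exp (-(κ * (nm (r h) : ℝ) ^ 3)) := by
          apply Finset.sum_le_sum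
          intro h hh
          have e := norm_Th_le ht hB hc h
          have e2 : (nm h : ℝ) = (nm (r h) : ℝ) ^ 3 := by
            conv_lhs => rw [hr h hh]
            rw [nm_pow]; push_cast; rfl
          rw [e2] at e
          exact e
      _ = n ^ 2 / B0 * ∑ m ∈ S1.image r, Real.exp (-(κ * (nm m : ℝ) ^ 3)) := by
          rw [Finset.sum_image hinj, Finset.mul_sum]
      _ ≤ n ^ 2 / B0 * (400 / κ ^ ((1 : ℝ) / 3)) := by
          apply mul_le_mul_of_nonneg_left _ hnB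
          apply sum_cube_exp_le hκ0
          intro m hm
          rw [Finset.mem_image] at hm
          obtain ⟨h, hh, rfl⟩ := hm
          intro hz
          have := hr h hh
          rw [hz] at this
          simp only [hS1, Finset.mem_filter, Finset.mem_erase] at hh
          apply hh.1.1
          rw [this]; ring
  -- noncubes
  set S3 := S2.filter (fun h => nm h ≤ Y0) with hS3
  set S4 := S2.filter (fun h => ¬ nm h ≤ Y0) with hS4
  have h34 : ∑ h ∈ S2, ‖Th t B c h‖ = ∑ h ∈ S3, ‖Th t B c h‖ + ∑ h ∈ S4, ‖Th t B c h‖ :=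
    (Finset.sum_filter_add_sum_filter_not _ _ _).symm
  have hsmall : ∑ h ∈ S3, ‖Th t B c h‖ ≤ 100 * Y0 * (n * ((2 * M + 1) / B0)) := by
    have hcard : (S3.card : ℝ) ≤ 100 * Y0 := by
      refine le_trans ?_ (Lat277.card_ball_erase_le Y0)
      have : S3 ⊆ (ball Y0).erase 0 := by
        intro h hh
        simp only [hS3, hS2, Finset.mem_filter, Finset.mem_erase] at hh
        exact Finset.mem_erase.mpr ⟨hh.1.1.1, mem_ball.mpr hh.2⟩
      exact_mod_cast Finset.card_le_card this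
    calc ∑ h ∈ S3, ‖Th t B c h‖ ≤ ∑ h ∈ S3, n * ((2 * M + 1) / B0) := by
          apply Finset.sum_le_sum
          intro h hh
          simp only [hS3, hS2, Finset.mem_filter, Finset.mem_erase] at hh
          exact norm_Th_noncube ht hB hc h (hM h hh.1.1.1 hh.1.2 hh.2)
      _ = S3.card * (n * ((2 * M + 1) / B0)) := by rw [Finset.sum_const, nsmul_eq_mul]
      _ ≤ _ := by
          apply mul_le_mul_of_nonneg_right hcard
          positivity
  have hlarge : ∑ h ∈ S4, ‖Th t B c h‖ ≤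
      n ^ 2 / B0 * (Real.exp (-(κ * Y0 / 2)) * (200 / κ)) := by
    calc ∑ h ∈ S4, ‖Th t B c h‖
        ≤ ∑ h ∈ S4, n ^ 2 / B0 * (Real.exp (-(κ * Y0 / 2)) * Real.exp (-(κ / 2 * nm h))) := by
          apply Finset.sum_le_sum
          intro h hh
          simp only [hS4, hS2, Finset.mem_filter, Finset.mem_erase, not_le] at hh
          have e := norm_Th_le ht hB hc h
          refine e.trans ?_
          apply mul_le_mul_of_nonneg_left _ hnB
          rw [← Real.exp_add]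
          apply Real.exp_le_exp.mpr
          have h1 : (Y0 : ℝ) ≤ nm h := by exact_mod_cast hh.2.le
          nlinarith
      _ = n ^ 2 / B0 * (Real.exp (-(κ * Y0 / 2)) * ∑ h ∈ S4, Real.exp (-(κ / 2 * nm h))) := by
          rw [Finset.mul_sum, Finset.mul_sum]
      _ ≤ _ := by
          apply mul_le_mul_of_nonneg_left _ hnB
          apply mul_le_mul_of_nonneg_left _ (Real.exp_pos _).le
          have := sum_exp_le (c := κ / 2) (by positivity) S4 (by
            intro h hh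
            simp only [hS4, hS2, Finset.mem_filter, Finset.mem_erase] at hh
            exact hh.1.1.1)
          refine this.trans (le_of_eq ?_)
          field_simp; norm_num
  unfold dualBd
  linarith

lemma summable_Th {t : ℝ} (ht : 0 < t) (hB : Box B0 B) {c : Eis → ℂ} (hc : ∀ b, ‖c b‖ ≤ 1) :
    Summable fun h => ‖Th t B c h‖ := by
  have h := (summable_exp (kap_pos ht hB.one_le)).mul_left ((B.card : ℝ) ^ 2 / B0)
  exact Summable.of_nonneg_of_le (fun _ => norm_nonneg _) (norm_Th_le ht hB hc) h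

open Classical in
lemma summable_dualterm {t : ℝ} (ht : 0 < t) (hB : Box B0 B) {b1 b2 : Eis} (h1 : b1 ∈ B)
    (h2 : b2 ∈ B) :
    Summable fun h : Eis => ph h * (((Real.sqrt (nm b1) * Real.sqrt (nm b2))⁻¹ *
      EE t h b1 b2 : ℝ) : ℂ) * (sy h b1 * (starRingEnd ℂ) (sy h b2)) := by
  have h := (summable_exp (kap_pos ht hB.one_le)).mul_left
    ((Real.sqrt (nm b1) * Real.sqrt (nm b2))⁻¹)
  apply Summable.of_norm_bounded h
  intro x
  rw [norm_mul, norm_mul, norm_ph, one_mul, Complex.norm_real, Real.norm_eq_abs,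
    abs_of_nonneg (by have := (EE_pos t x b1 b2).le; positivity), norm_mul, RCLike.norm_conj]
  have e2 := EE_le ht hB h1 h2 x
  have e3 := norm_sy_le (x := x) (hB.prim _ h1)
  have e4 := norm_sy_le (x := x) (hB.prim _ h2)
  have e5 : ‖sy x b1‖ * ‖sy x b2‖ ≤ 1 := mul_le_one₀ e3 (norm_nonneg _) e4
  have e6 := (EE_pos t x b1 b2).le
  calc _ ≤ ((Real.sqrt (nm b1) * Real.sqrt (nm b2))⁻¹ * Real.exp (-(kap t B0 * nm x))) * 1 := by
        apply mul_le_mul _ e5 (by positivity) (by positivity)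
        gcongr
    _ = _ := mul_one _

lemma offdiag_eq {t : ℝ} (ht : 0 < t) (hB : Box B0 B) (c : Eis → ℂ) :
    ∑ p ∈ B.offDiag, c p.1 * (starRingEnd ℂ) (c p.2) * Pr t p.1 p.2 =
      ((2 / (9 * Real.sqrt 3 * t) : ℝ) : ℂ) * ∑' h : Eis, ph h * Th t B c h := by
  classical
  have h1 : ∀ p ∈ B.offDiag, c p.1 * (starRingEnd ℂ) (c p.2) * Pr t p.1 p.2 =
      ((2 / (9 * Real.sqrt 3 * t) : ℝ) : ℂ) * ∑' h : Eis, c p.1 * (starRingEnd ℂ) (c p.2) *
        (ph h * (((Real.sqrt (nm p.1) * Real.sqrt (nm p.2))⁻¹ *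
      EE t h p.1 p.2 : ℝ) : ℂ) * (sy h p.1 * (starRingEnd ℂ) (sy h p.2))) := by
    intro p hp
    rw [Finset.mem_offDiag] at hp
    obtain ⟨h1, h2, hne⟩ := hp
    unfold Pr
    rw [pair_dual ht (hB.prim _ h1) (hB.prim _ h2) (hB.prime _ h1).irreducible.squarefree
      (hB.prime _ h2).irreducible.squarefree (hB.isCoprime h1 h2 hne), tsum_mul_left]
    ring
  rw [Finset.sum_congr rfl h1, ← Finset.mul_sum]
  congr 1
  rw [← Summable.tsum_finsetSum]
  · refine tsum_congr fun h => ?_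
    unfold Th
    rw [Finset.mul_sum]
    apply Finset.sum_congr rfl
    intro p _
    ring
  · intro p hp
    rw [Finset.mem_offDiag] at hp
    exact (summable_dualterm ht hB hp.1 hp.2.1).mul_left _

/-- **Upper bound for the dispersion sum over primes.** -/
theorem S1_le {t : ℝ} (ht : 0 < t) (hB : Box B0 B) {c : Eis → ℂ} (hc : ∀ b, ‖c b‖ ≤ 1)
    {M : ℝ} (hM0 : 0 ≤ M) {Y0 : ℕ}
    (hM : ∀ h : Eis, h ≠ 0 → (¬ ∃ m, h = m ^ 3) → nm h ≤ Y0 →
      ∀ y : ℕ, ‖∑ b ∈ B.filter (fun b => nm b ≤ y), c b * sy h b‖ ≤ M) :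
    S1 t B c ≤ B.card * (1 + 100 / (Real.pi * t)) +
      2 / (9 * Real.sqrt 3 * t) * dualBd B0 B.card (kap t B0) M Y0 := by
  classical
  have hnn : 0 ≤ S1 t B c := by
    unfold S1
    apply tsum_nonneg
    intro a
    split_ifs
    · positivity
    · exact le_rfl
  have e : S1 t B c = ‖((S1 t B c : ℝ) : ℂ)‖ := by
    rw [Complex.norm_real, Real.norm_eq_abs, abs_of_nonneg hnn]
  rw [e, S1_expand ht hB.prim c]
  have hsplit : ∑ p ∈ B ×ˢ B, c p.1 * (starRingEnd ℂ) (c p.2) * Pr t p.1 p.2 =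
      ∑ p ∈ B.diag, c p.1 * (starRingEnd ℂ) (c p.2) * Pr t p.1 p.2 +
      ∑ p ∈ B.offDiag, c p.1 * (starRingEnd ℂ) (c p.2) * Pr t p.1 p.2 := by
    rw [← Finset.sum_union (Finset.disjoint_diag_offDiag B), Finset.diag_union_offDiag]
  rw [hsplit]
  refine (norm_add_le _ _).trans (add_le_add ?_ ?_)
  · calc ‖∑ p ∈ B.diag, c p.1 * (starRingEnd ℂ) (c p.2) * Pr t p.1 p.2‖
        ≤ ∑ p ∈ B.diag, (1 + 100 / (Real.pi * t)) := by
          refine (norm_sum_le _ _).trans (Finset.sum_le_sum fun p hp => ?_)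
          rw [Finset.mem_diag] at hp
          obtain ⟨h1, h2⟩ := hp
          rw [← h2]
          rw [norm_mul, norm_mul, RCLike.norm_conj]
          have e1 := norm_Pr_diag_le ht (hB.prim _ h1)
          have e2 : ‖c p.1‖ * ‖c p.1‖ ≤ 1 := mul_le_one₀ (hc _) (norm_nonneg _) (hc _)
          have e3 : 0 ≤ 1 + 100 / (Real.pi * t) := by positivity
          calc _ ≤ 1 * (1 + 100 / (Real.pi * t)) := mul_le_mul e2 e1 (norm_nonneg _) zero_le_one
            _ = _ := one_mul _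
      _ = _ := by rw [Finset.sum_const, Finset.diag_card, nsmul_eq_mul]
  · rw [offdiag_eq ht hB c, norm_mul, Complex.norm_real, Real.norm_eq_abs,
      abs_of_nonneg (by positivity)]
    apply mul_le_mul_of_nonneg_left _ (by positivity)
    have h2 : ∑' h : Eis, ‖Th t B c h‖ ≤ dualBd B0 B.card (kap t B0) M Y0 :=
      (summable_Th ht hB hc).tsum_le_of_sum_le (sum_Th_le ht hB hc hM0 hM)
    refine le_trans ?_ h2
    apply tsum_of_norm_bounded (summable_Th ht hB hc).hasSum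
    intro h
    rw [norm_mul, norm_ph, one_mul]

end

end Crest.Agent.R012.Edge79
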