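import Crest.Agent.R012.EdgeE_79

/-!
# Row 12 (TIII): bilinear form bounded by the dispersion sum `S1`
-/

set_option autoImplicit false

noncomputable section

namespace Crest.Agent.R012.Edge79

open Eis CharSum852 Tau671

section


lemma norm_Sb_le {B : Finset Eis} (hB : ∀ b ∈ B, IsPrim b) {c : Eis → ℂ} (hc : ∀ b, ‖c b‖ ≤ 1)
    (a : Eis) : ‖Sb B c a‖ ≤ B.card := by
  unfold Sb
  refine (norm_sum_le _ _).trans ?_
  calc ∑ b ∈ B, ‖c b * G b * (starRingEnd ℂ) (sy a b)‖ ≤ ∑ b ∈ B, (1 : ℝ) := by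
        apply Finset.sum_le_sum
        intro b hb
        rw [norm_mul, norm_mul, RCLike.norm_conj]
        have h1 := hc b
        have h2 := Gauss880.norm_G_le Gauss880.syG (hB b hb)
        have h3 := norm_sy_le (x := a) (hB b hb)
        exact mul_le_one₀ (mul_le_one₀ h1 (norm_nonneg _) h2) (norm_nonneg _) h3
    _ = _ := by simp

open Classical in
lemma summable_S1 {t : ℝ} (ht : 0 < t) {B : Finset Eis} (hB : ∀ b ∈ B, IsPrim b) {c : Eis → ℂ}
    (hc : ∀ b, ‖c b‖ ≤ 1) :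
    Summable fun a : Eis =>
      if IsPrim a then Real.exp (-(Real.pi * t * nm a)) * ‖Sb B c a‖ ^ 2 else 0 := by
  have h := (summable_exp (c := Real.pi * t) (by positivity)).mul_left ((B.card : ℝ) ^ 2)
  refine Summable.of_nonneg_of_le ?_ ?_ h
  · intro a; split_ifs
    · positivity
    · exact le_rfl
  · intro a
    have h1 := norm_Sb_le hB hc a
    have h2 : ‖Sb B c a‖ ^ 2 ≤ (B.card : ℝ) ^ 2 := pow_le_pow_left₀ (norm_nonneg _) h1 2
    split_ifs
    · rw [mul_comm]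
      exact mul_le_mul_of_nonneg_right h2 (Real.exp_pos _).le
    · positivity

/-- Cauchy-Schwarz: a bilinear form in `G (a b)` is bounded by the dispersion sum. -/
theorem bilinear_sq_le {A : ℝ} (hA : 0 < A) {S B : Finset Eis} (hS : ∀ a ∈ S, IsPrim a)
    (hSA : ∀ a ∈ S, (nm a : ℝ) ≤ A) (hB : ∀ b ∈ B, IsPrim b) {α c : Eis → ℂ}
    (hα : ∀ a ∈ S, ‖α a‖ ≤ 1) (hc : ∀ b, ‖c b‖ ≤ 1) :
    ‖∑ a ∈ S, ∑ b ∈ B, α a * c b * G (a * b)‖ ^ 2 ≤
      S.card * (Real.exp 1 * S1 (1 / (Real.pi * A)) B c) := by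
  classical
  have hpi := Real.pi_pos
  have ht : 0 < 1 / (Real.pi * A) := by positivity
  have e : ∑ a ∈ S, ∑ b ∈ B, α a * c b * G (a * b) = ∑ a ∈ S, (α a * G a) * Sb B c a := by
    apply Finset.sum_congr rfl
    intro a ha
    unfold Sb
    rw [Finset.mul_sum]
    apply Finset.sum_congr rfl
    intro b hb
    rw [Gauss880.G_mul_all Gauss880.syG (hS a ha) (hB b hb)]
    ring
  rw [e]
  have h1 : ‖∑ a ∈ S, (α a * G a) * Sb B c a‖ ≤ ∑ a ∈ S, 1 * ‖Sb B c a‖ := by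
    refine (norm_sum_le _ _).trans (Finset.sum_le_sum fun a ha => ?_)
    rw [norm_mul, norm_mul]
    apply mul_le_mul_of_nonneg_right _ (norm_nonneg _)
    exact mul_le_one₀ (hα a ha) (norm_nonneg _) (Gauss880.norm_G_le Gauss880.syG (hS a ha))
  have h2 : (∑ a ∈ S, 1 * ‖Sb B c a‖) ^ 2 ≤ (∑ a ∈ S, (1 : ℝ) ^ 2) * ∑ a ∈ S, ‖Sb B c a‖ ^ 2 :=
    Finset.sum_mul_sq_le_sq_mul_sq _ _ _
  have h3 : ∑ a ∈ S, ‖Sb B c a‖ ^ 2 ≤ Real.exp 1 * S1 (1 / (Real.pi * A)) B c := by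
    have h4 : ∑ a ∈ S, ‖Sb B c a‖ ^ 2 ≤ Real.exp 1 * ∑ a ∈ S,
        (if IsPrim a then Real.exp (-(Real.pi * (1 / (Real.pi * A)) * nm a)) * ‖Sb B c a‖ ^ 2
          else 0) := by
      rw [Finset.mul_sum]
      apply Finset.sum_le_sum
      intro a ha
      rw [if_pos (hS a ha), ← mul_assoc, ← Real.exp_add]
      have h5 : 0 ≤ 1 + -(Real.pi * (1 / (Real.pi * A)) * nm a) := by
        have : Real.pi * (1 / (Real.pi * A)) * nm a = nm a / A := by field_simp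
        rw [this]
        have := (div_le_one hA).mpr (hSA a ha)
        linarith
      have h6 := Real.one_le_exp h5
      have h7 : 0 ≤ ‖Sb B c a‖ ^ 2 := by positivity
      nlinarith
    refine h4.trans ?_
    apply mul_le_mul_of_nonneg_left _ (Real.exp_pos _).le
    unfold S1
    apply (summable_S1 ht hB hc).sum_le_tsum
    intro a _
    split_ifs
    · positivity
    · exact le_rfl
  calc ‖∑ a ∈ S, (α a * G a) * Sb B c a‖ ^ 2 ≤ (∑ a ∈ S, 1 * ‖Sb B c a‖) ^ 2 :=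
        pow_le_pow_left₀ (norm_nonneg _) h1 2
    _ ≤ _ := h2
    _ = S.card * ∑ a ∈ S, ‖Sb B c a‖ ^ 2 := by simp
    _ ≤ _ := mul_le_mul_of_nonneg_left h3 (Nat.cast_nonneg _)

end

end Crest.Agent.R012.Edge79
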