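import Crest.Agent.R012.PSW_355
import Crest.Agent.R012.PT_255

/-!
# Row 12, part (P), final statement: Siegel–Walfisz for `(h/·) (·/|·|)^l N(·)^{it}` (helper355)
-/

set_option autoImplicit false

noncomputable section

open Complex

namespace Crest.Agent.R012.P355

open Crest.Agent.R012 Eis

open Classical in
/-- **Siegel–Walfisz for `(h/·) ang^l N^{it}`** : `h ≠ 0`, and `h` not a cube or `l ≠ 0`. -/
theorem SW_sy (l : ℤ) (A C : ℕ) : ∃ K : ℝ, 0 < K ∧ ∀ (h : Eis),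
    h ≠ 0 → (l = 0 → ¬ ∃ e, h = e ^ 3) →
    ∀ x t : ℝ, 2 ≤ x → ((nm h : ℕ) : ℝ) ≤ Real.log x ^ C → |t| ≤ Real.log x ^ C →
      ‖∑ p ∈ (primBall ⌊x⌋₊).filter (fun p => Prime p),
        sy h p * ang l p * (nm p : ℂ) ^ ((t : ℂ) * I)‖ ≤ K * x / Real.log x ^ A :=
  SW_sy_of_PT PT255.PT l A C

open Classical in
/-- Siegel–Walfisz for `χ * ang l * nm^{it}`, `χ` periodic modulo `q ∈ ℤ[ω]`. -/
theorem SW_q (l : ℤ) (A C : ℕ) : ∃ K : ℝ, 0 < K ∧ ∀ (q : Eis) (χ : Eis → ℂ),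
    q ≠ 0 → (3 : Eis) ∣ q → PSer47.IsChar χ →
    (∀ a b, IsPrim a → IsPrim b → q ∣ a - b → χ a = χ b) →
    (l = 0 → ∃ a, IsPrim a ∧ IsCoprime a q ∧ χ a ≠ 1 ∧ χ a ^ 2 ≠ 1) →
    ∀ x t : ℝ, 2 ≤ x → ((nm q : ℕ) : ℝ) ≤ Real.log x ^ C → |t| ≤ Real.log x ^ C →
      ‖∑ p ∈ (primBall ⌊x⌋₊).filter (fun p => Prime p),
        χ p * ang l p * (nm p : ℂ) ^ ((t : ℂ) * I)‖ ≤ K * x / Real.log x ^ A :=
  SW_of_PT_q PT255.PT l A C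

end Crest.Agent.R012.P355
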