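import Crest.Agent.R012.EdgeF_79
import Crest.Agent.R012.SWsy_355
import Crest.Agent.R012.Weight_600

/-!
# Row 12 (TIII): Siegel–Walfisz on dyadic boxes
-/

set_option autoImplicit false

noncomputable section

namespace Crest.Agent.R012.Edge79

open Eis CharSum852 Tau671

open Classical in
/-- the primary primes `p` with `m < nm p ≤ min N (2m)` -/
def PB (N m : ℕ) : Finset Eis := (primBall (min N (2 * m))).filter (fun p => Prime p ∧ m < nm p)

lemma mem_PB {N m : ℕ} {p : Eis} :
    p ∈ PB N m ↔ IsPrim p ∧ Prime p ∧ m < nm p ∧ nm p ≤ N ∧ nm p ≤ 2 * m := by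
  simp only [PB, Finset.mem_filter, mem_primBall, le_min_iff]
  tauto

lemma box_PB {N m : ℕ} (hm : 1 ≤ m) : Box (m : ℝ) (PB N m) where
  one_le := by exact_mod_cast hm
  prim b hb := (mem_PB.mp hb).1
  prime b hb := (mem_PB.mp hb).2.1
  lt b hb := by exact_mod_cast (mem_PB.mp hb).2.2.1
  le b hb := by exact_mod_cast (mem_PB.mp hb).2.2.2.2

/-- the coefficients of the primes -/
def cf (l : ℤ) (t : ℝ) (b : Eis) : ℂ := ang l b * Weight600.pw t (nm b)

lemma norm_cf_le (l : ℤ) (t : ℝ) (b : Eis) : ‖cf l t b‖ ≤ 1 := by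
  unfold cf
  rw [norm_mul, Weight600.norm_pw, mul_one]
  exact P355.norm_ang_le l b

lemma card_PB_le {N m : ℕ} (hm : 2 ≤ m) : ((PB N m).card : ℝ) ≤ 100 * (m / Real.log m) := by
  have hm' : (2 : ℝ) ≤ m := by exact_mod_cast hm
  have hB := box_PB (N := N) (m := m) (by omega)
  have h := Cheb420.card_le (X := 2 * (m : ℝ)) (by linarith) (PB N m)
    (fun z hz => ⟨hB.prim z hz, hB.prime z hz⟩) hB.le
  refine h.trans ?_
  have h1 : 0 < Real.log m := Real.log_pos (by linarith)
  have h2 : Real.log m ≤ Real.log (2 * m) := Real.log_le_log (by linarith) (by linarith)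
  have h3 : 2 * (m : ℝ) / Real.log (2 * m) ≤ 2 * (m : ℝ) / Real.log m := by gcongr
  calc 50 * (2 * (m : ℝ) / Real.log (2 * m)) ≤ 50 * (2 * (m : ℝ) / Real.log m) := by gcongr
    _ = _ := by ring

open Classical in
/-- Siegel–Walfisz on a box. -/
theorem SW_box (l : ℤ) (A C : ℕ) : ∃ K : ℝ, 0 < K ∧ ∀ (N m : ℕ) (h : Eis)
    (t : ℝ), 2 ≤ m → h ≠ 0 → (¬ ∃ e, h = e ^ 3) → ((nm h : ℕ) : ℝ) ≤ Real.log m ^ C →
    |t| ≤ Real.log m ^ C → ∀ y : ℕ,
      ‖∑ b ∈ (PB N m).filter (fun b => nm b ≤ y), cf l t b * sy h b‖ ≤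
        K * (m / Real.log m ^ A) := by
  obtain ⟨K, hK, hsw⟩ := P355.SW_sy l A C
  refine ⟨3 * K, by positivity, ?_⟩
  intro N m h t hm hh hnc hnh ht y
  have hm' : (2 : ℝ) ≤ m := by exact_mod_cast hm
  have hlm : 0 < Real.log m := Real.log_pos (by linarith)
  set z : ℕ := min (min N (2 * m)) y with hz
  set g : Eis → ℂ := fun p => sy h p * ang l p * (nm p : ℂ) ^ ((t : ℂ) * Complex.I) with hg
  rcases le_or_gt z m with hzm | hzm
  · have : (PB N m).filter (fun b => nm b ≤ y) = ∅ := by
      rw [Finset.eq_empty_iff_forall_notMem]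
      intro b hb
      rw [Finset.mem_filter, mem_PB] at hb
      have : nm b ≤ z := by
        rw [hz]; simp only [le_min_iff]; tauto
      omega
    rw [this]; simp only [Finset.sum_empty, norm_zero]
    positivity
  · have e : ∑ b ∈ (PB N m).filter (fun b => nm b ≤ y), cf l t b * sy h b =
        ∑ p ∈ (primBall z).filter (fun p => Prime p), g p -
        ∑ p ∈ (primBall m).filter (fun p => Prime p), g p := by
      have hsub : (primBall m).filter (fun p => Prime p) ⊆
          (primBall z).filter (fun p => Prime p) := by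
        intro p hp
        simp only [Finset.mem_filter, mem_primBall] at hp ⊢
        exact ⟨⟨by omega, hp.1.2⟩, hp.2⟩
      rw [← Finset.sum_sdiff hsub, add_sub_cancel_right]
      apply Finset.sum_congr_of_eq_on_inter
      · intro b hb hnb
        exfalso
        apply hnb
        rw [Finset.mem_filter, mem_PB] at hb
        simp only [Finset.mem_sdiff, Finset.mem_filter, mem_primBall]
        refine ⟨⟨⟨?_, hb.1.1⟩, hb.1.2.1⟩, ?_⟩
        · rw [hz]; simp only [le_min_iff]; tauto
        · intro hc; omega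
      · intro b hb hnb
        exfalso
        apply hnb
        simp only [Finset.mem_sdiff, Finset.mem_filter, mem_primBall] at hb
        rw [Finset.mem_filter, mem_PB]
        have h1 : nm b ≤ z := hb.1.1.1
        rw [hz] at h1
        simp only [le_min_iff] at h1
        refine ⟨⟨hb.1.1.2, hb.1.2, ?_, h1.1.1, h1.1.2⟩, h1.2⟩
        by_contra hc
        exact hb.2 ⟨⟨by omega, hb.1.1.2⟩, hb.1.2⟩
      · intro b hb _
        rw [Finset.mem_filter] at hb
        have hb0 : (0 : ℝ) < nm b := by
          exact_mod_cast nm_pos.mpr ((mem_PB.mp hb.1).1.ne_zero)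
        simp only [hg, cf]
        rw [Weight600.pw_eq_cpow hb0]
        push_cast
        ring
    rw [e]
    have hpoint : ∀ x : ℕ, m ≤ x → x ≤ 2 * m →
        ‖∑ p ∈ (primBall x).filter (fun p => Prime p), g p‖ ≤ K * x / Real.log m ^ A := by
      intro x hx1 hx2
      have hx1' : (m : ℝ) ≤ x := by exact_mod_cast hx1
      have hll : Real.log m ≤ Real.log x := Real.log_le_log (by linarith) hx1'
      have hpow : Real.log m ^ C ≤ Real.log x ^ C := pow_le_pow_left₀ hlm.le hll C
      have h1 := hsw h hh (fun _ => hnc) x t (by linarith) (hnh.trans hpow) (ht.trans hpow)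
      rw [Nat.floor_natCast] at h1
      refine h1.trans ?_
      have hpow' : Real.log m ^ A ≤ Real.log x ^ A := pow_le_pow_left₀ hlm.le hll A
      have : 0 < Real.log m ^ A := by positivity
      gcongr
    have hz2 : z ≤ 2 * m := by
      rw [hz]; exact (min_le_left _ _).trans (min_le_right _ _)
    have b1 := hpoint z hzm.le hz2
    have b2 := hpoint m le_rfl (by omega)
    have hz2' : (z : ℝ) ≤ 2 * m := by exact_mod_cast hz2
    refine (norm_sub_le _ _).trans ?_
    have hpos : 0 < Real.log m ^ A := by positivity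
    calc _ ≤ K * z / Real.log m ^ A + K * m / Real.log m ^ A := add_le_add b1 b2
      _ ≤ K * (2 * m) / Real.log m ^ A + K * m / Real.log m ^ A := by gcongr
      _ = _ := by ring

end Crest.Agent.R012.Edge79
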