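import Crest.Agent.R012.EdgeG_79

/-!
# Row 12 (TIII): numerical form of the dispersion bound on a box
-/

set_option autoImplicit false

noncomputable section

namespace Crest.Agent.R012.Edge79

open Eis CharSum852 Tau671

lemma exists_log_pow_le (k : ℕ) (c : ℝ) : ∃ X0 : ℕ, ∀ X : ℕ, X0 ≤ X → c * Real.log X ^ k ≤ X := by
  have h := Real.isLittleO_pow_log_id_atTop (n := k)
  have h1 : (0 : ℝ) < 1 / (|c| + 1) := by positivity
  have h2 := (h.def h1)
  have h3 := (tendsto_natCast_atTop_atTop (R := ℝ)).eventually h2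
  obtain ⟨X0, hX0⟩ := Filter.eventually_atTop.mp h3
  refine ⟨max X0 1, fun X hX => ?_⟩
  have h4 := hX0 X ((le_max_left _ _).trans hX)
  have hX1 : (1 : ℝ) ≤ X := by exact_mod_cast (le_max_right _ _).trans hX
  have hlog : 0 ≤ Real.log X := Real.log_nonneg hX1
  simp only [id, Real.norm_eq_abs] at h4
  rw [abs_of_nonneg (show 0 ≤ Real.log X ^ k by positivity),
    abs_of_nonneg (show (0 : ℝ) ≤ X by linarith)] at h4
  have h5 : c * Real.log X ^ k ≤ (|c| + 1) * Real.log X ^ k := by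
    apply mul_le_mul_of_nonneg_right _ (by positivity)
    linarith [le_abs_self c]
  refine h5.trans ?_
  have h6 : (|c| + 1) * Real.log X ^ k ≤ (|c| + 1) * (1 / (|c| + 1) * X) := by
    apply mul_le_mul_of_nonneg_left h4 (by positivity)
  refine h6.trans (le_of_eq ?_)
  field_simp

lemma exists_le_log (c : ℝ) : ∃ X0 : ℕ, ∀ X : ℕ, X0 ≤ X → c ≤ Real.log X := by
  have h := (Real.tendsto_log_atTop.comp (tendsto_natCast_atTop_atTop (R := ℝ))).eventually
    (Filter.eventually_ge_atTop c)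
  obtain ⟨X0, hX0⟩ := Filter.eventually_atTop.mp h
  exact ⟨X0, fun X hX => hX0 X hX⟩

/-- numerics for the dual sum -/
lemma num_dual {X L A m n M κ u P K2 : ℝ} {Y0 : ℕ} (hL : 1 ≤ L) (hA : 0 < A)
    (hm : 0 < m) (hX : 0 < X) (hu : 0 < u) (hu3 : u ^ 3 = X) (hP : 1 ≤ P)
    (hm3 : m ^ 3 ≤ X * P) (hn0 : 0 ≤ n) (hn : n ≤ 400 * (m / L))
    (hκ : X / (48 * m ^ 3) ≤ κ) (hY1 : (2 * L) / κ ≤ Y0) (hY2 : (Y0 : ℝ) ≤ 2 * L / κ + 1)
    (hK2 : 0 ≤ K2) (hM0 : 0 ≤ M) (hM : P * M ≤ K2 * (m / L)) (hPm : P ≤ m / L)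
    (hexp : Real.exp (-L) ≤ 1 / X) (hPX : P ≤ X) :
    dualBd m n κ M Y0 ≤ (4e6 * (2 * K2 + 1) + 1.6e9) * (m / L) + 2.6e8 * (m ^ 2 / (u * L ^ 2)) := by
  have hm3' : 0 < m ^ 3 := by positivity
  have hκ0 : 0 < κ := lt_of_lt_of_le (by positivity) hκ
  have hκinv : 1 / κ ≤ 48 * P := by
    rw [div_le_iff₀ hκ0]
    have h1 : 48 * P * (X / (48 * m ^ 3)) ≤ 48 * P * κ := by gcongr
    refine le_trans ?_ h1
    have : 48 * P * (X / (48 * m ^ 3)) = X * P / m ^ 3 := by field_simp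
    rw [this, le_div_iff₀ hm3', one_mul]
    exact hm3
  have hn2 : n ^ 2 / m ≤ 160000 * (m / L ^ 2) := by
    have : n ^ 2 ≤ (400 * (m / L)) ^ 2 := pow_le_pow_left₀ hn0 hn 2
    calc n ^ 2 / m ≤ (400 * (m / L)) ^ 2 / m := by gcongr
      _ = _ := by field_simp; ring
  have hn2' : 0 ≤ n ^ 2 / m := by positivity
  -- cubes
  have hc : n ^ 2 / m * (400 / κ ^ ((1 : ℝ) / 3)) ≤ 2.6e8 * (m ^ 2 / (u * L ^ 2)) := by
    have h1 : u / (4 * m) ≤ κ ^ ((1 : ℝ) / 3) := by
      have h2 : (u / (4 * m)) ^ 3 ≤ κ := by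
        refine le_trans ?_ hκ
        rw [div_pow, hu3, mul_pow]
        apply div_le_div_of_nonneg_left hX.le (by positivity)
        nlinarith
      have h3 : ((u / (4 * m)) ^ 3) ^ ((1 : ℝ) / 3) ≤ κ ^ ((1 : ℝ) / 3) :=
        Real.rpow_le_rpow (by positivity) h2 (by norm_num)
      rwa [← Real.rpow_natCast, ← Real.rpow_mul (by positivity),
        show ((3 : ℕ) : ℝ) * (1 / 3) = 1 by norm_num, Real.rpow_one] at h3
    have h4 : 400 / κ ^ ((1 : ℝ) / 3) ≤ 400 / (u / (4 * m)) := by gcongr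
    calc n ^ 2 / m * (400 / κ ^ ((1 : ℝ) / 3)) ≤ (160000 * (m / L ^ 2)) * (400 / (u / (4 * m))) := by
          apply mul_le_mul hn2 h4 (by positivity) (by positivity)
      _ = 2.56e8 * (m ^ 2 / (u * L ^ 2)) := by field_simp; norm_num
      _ ≤ _ := by gcongr; norm_num
  -- noncubes
  have hY : (Y0 : ℝ) ≤ 97 * (L * P) := by
    have h1 : 2 * L / κ ≤ 2 * L * (48 * P) := by
      rw [div_eq_mul_one_div]; gcongr
    have h2 : 1 ≤ L * P := by nlinarith
    linarith
  have hnc : 100 * Y0 * (n * ((2 * M + 1) / m)) ≤ 4e6 * (2 * K2 + 1) * (m / L) := by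
    have h1 : n * ((2 * M + 1) / m) ≤ 400 * (m / L) * ((2 * M + 1) / m) := by gcongr
    have h2 : 400 * (m / L) * ((2 * M + 1) / m) = 400 / L * (2 * M + 1) := by field_simp
    rw [h2] at h1
    calc 100 * Y0 * (n * ((2 * M + 1) / m)) ≤ 100 * (97 * (L * P)) * (400 / L * (2 * M + 1)) := by
          apply mul_le_mul _ h1 (by positivity) (by positivity)
          gcongr
      _ = 3.88e6 * (2 * (P * M) + P) := by field_simp; ring
      _ ≤ 3.88e6 * (2 * (K2 * (m / L)) + m / L) := by gcongr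
      _ = 3.88e6 * ((2 * K2 + 1) * (m / L)) := by ring
      _ ≤ 4e6 * ((2 * K2 + 1) * (m / L)) := by
          apply mul_le_mul_of_nonneg_right (by norm_num) (by positivity)
      _ = _ := by ring
  -- tail
  have ht : n ^ 2 / m * (Real.exp (-(κ * Y0 / 2)) * (200 / κ)) ≤ 1.6e9 * (m / L) := by
    have h1 : Real.exp (-(κ * Y0 / 2)) ≤ 1 / X := by
      refine le_trans (Real.exp_le_exp.mpr ?_) hexp
      rw [div_le_iff₀ hκ0] at hY1
      linarith
    have h2 : 200 / κ ≤ 200 * (48 * P) := by rw [div_eq_mul_one_div]; gcongr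
    calc n ^ 2 / m * (Real.exp (-(κ * Y0 / 2)) * (200 / κ))
        ≤ (160000 * (m / L ^ 2)) * (1 / X * (200 * (48 * P))) := by
          apply mul_le_mul hn2 _ (by positivity) (by positivity)
          apply mul_le_mul h1 h2 (by positivity) (by positivity)
      _ = 1.536e9 * (m / L ^ 2) * (P / X) := by field_simp; norm_num
      _ ≤ 1.536e9 * (m / L ^ 2) * 1 := by
          gcongr
          exact (div_le_one hX).mpr hPX
      _ ≤ 1.536e9 * (m / L) * 1 := by
          gcongr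
          nlinarith
      _ ≤ 1.6e9 * (m / L) := by
          rw [mul_one]
          apply mul_le_mul_of_nonneg_right (by norm_num) (by positivity)
  unfold dualBd
  linarith

/-- **The dispersion sum on a box.** -/
theorem S1_box (l : ℤ) (C1 K1 : ℕ) : ∃ K : ℝ, 0 < K ∧ ∃ X0 : ℕ,
    ∀ X : ℕ, X0 ≤ X → ∀ (N m : ℕ) (A t : ℝ), (X : ℝ) ≤ 16 * (m : ℝ) ^ 3 →
    (m : ℝ) ^ 3 ≤ X * Real.log X ^ C1 → (X : ℝ) ≤ 16 * (A * m) → |t| ≤ Real.log X ^ K1 →
    S1 (1 / (Real.pi * A)) (PB N m) (cf l t) ≤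
      K * (A * m / Real.log X + A * m ^ 2 / ((X : ℝ) ^ ((1 : ℝ) / 3) * Real.log X ^ 2)) := by
  obtain ⟨Ks, hKs, hsw⟩ := SW_box l (C1 + 1) (C1 + K1 + 2)
  set K2 : ℝ := Ks * 4 ^ (C1 + 1) with hK2
  have hK2p : 0 < K2 := by positivity
  obtain ⟨X1, hX1⟩ := exists_le_log (97 * 4 ^ (C1 + K1 + 2))
  obtain ⟨X2, hX2⟩ := exists_log_pow_le (3 * (C1 + 1)) 16
  obtain ⟨X3, hX3⟩ := exists_log_pow_le C1 4096
  refine ⟨40400 + 2.6e8 + (4e6 * (2 * K2 + 1) + 1.6e9), by positivity, max (max X1 X2) (max X3 2),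
    ?_⟩
  intro X hX N m A t hm1 hm2 hA ht
  have hX2' : (2 : ℝ) ≤ X := by
    exact_mod_cast (le_max_right X3 2).trans ((le_max_right _ _).trans hX)
  have hXp : (0 : ℝ) < X := by linarith
  set L := Real.log X with hL
  have c1 : 97 * 4 ^ (C1 + K1 + 2) ≤ L :=
    hX1 X ((le_max_left _ _).trans ((le_max_left _ _).trans hX))
  have c2 : 16 * L ^ (3 * (C1 + 1)) ≤ X :=
    hX2 X ((le_max_right _ _).trans ((le_max_left _ _).trans hX))
  have c3 : 4096 * L ^ C1 ≤ X :=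
    hX3 X ((le_max_left _ _).trans ((le_max_right _ _).trans hX))
  have hpow4 : (1 : ℝ) ≤ 4 ^ (C1 + K1 + 2) := one_le_pow₀ (by norm_num)
  have hL97 : 97 ≤ L := by linarith
  have hL1 : 1 ≤ L := by linarith
  have hL0 : 0 < L := by linarith
  set P := L ^ C1 with hP
  have hP1 : 1 ≤ P := one_le_pow₀ hL1
  set u := (X : ℝ) ^ ((1 : ℝ) / 3) with hu
  have hu0 : 0 < u := by positivity
  have hu3 : u ^ 3 = X := by
    rw [hu, ← Real.rpow_natCast, ← Real.rpow_mul hXp.le]; norm_num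
  -- `m` is large
  have hPLm : P * L ≤ m := by
    have h1 : 16 * (P * L) ^ 3 ≤ 16 * (m : ℝ) ^ 3 := by
      refine le_trans (le_of_eq ?_) (c2.trans hm1)
      rw [hP, ← pow_succ, ← pow_mul, mul_comm 3 (C1 + 1)]
    have h2 : (P * L) ^ 3 ≤ (m : ℝ) ^ 3 := by linarith
    exact le_of_pow_le_pow_left₀ (by norm_num) (Nat.cast_nonneg _) h2
  have hm97 : (97 : ℝ) ≤ m := by nlinarith
  have hm0 : (0 : ℝ) < m := by linarith
  have hmn : 2 ≤ m := by
    have : (2 : ℝ) ≤ m := by linarith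
    exact_mod_cast this
  have hlogm : L / 4 ≤ Real.log m := by
    have h1 : Real.log X ≤ Real.log (16 * (m : ℝ) ^ 3) := Real.log_le_log hXp hm1
    rw [Real.log_mul (by norm_num) (by positivity), Real.log_pow] at h1
    have h2 : Real.log 16 ≤ 4 := by
      have : (16 : ℝ) = 2 ^ 4 := by norm_num
      rw [this, Real.log_pow]
      have := Real.log_two_lt_d9
      push_cast; linarith
    push_cast at h1
    rw [← hL] at h1
    linarith
  have hlogm0 : 0 < Real.log m := by linarith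
  -- `A ≥ 1`
  have hA0 : 0 < A := by
    by_contra hc
    push Not at hc
    have : A * m ≤ 0 := mul_nonpos_of_nonpos_of_nonneg hc hm0.le
    linarith
  have hmX : (m : ℝ) ≤ X / 16 := by
    have h1 : (m : ℝ) ^ 3 ≤ (X / 16) ^ 3 := by
      have h2 : (X : ℝ) * P ≤ (X / 16) ^ 3 := by
        have : P ≤ X ^ 2 / 4096 := by
          have h5 : P ≤ X / 4096 := by linarith
          have h6 : (X : ℝ) / 4096 ≤ X ^ 2 / 4096 := by
            gcongr; nlinarith
          linarith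
        calc (X : ℝ) * P ≤ X * (X ^ 2 / 4096) := by gcongr
          _ = _ := by ring
      exact hm2.trans h2
    exact le_of_pow_le_pow_left₀ (by norm_num) (by positivity) h1
  have hA1 : 1 ≤ A := by
    by_contra hc
    push Not at hc
    have : A * m < 1 * m := by gcongr
    linarith
  -- the parameters
  have hpi := Real.pi_pos
  have hpi3 := Real.pi_gt_three
  set t' := 1 / (Real.pi * A) with ht'
  have ht'0 : 0 < t' := by positivity
  set κ := kap t' m with hκ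
  have hκe : κ = Real.pi ^ 2 * A / (27 * (m : ℝ) ^ 2) := by
    rw [hκ, ht']; unfold kap; field_simp
  have hκ1 : (X : ℝ) / (48 * (m : ℝ) ^ 3) ≤ κ := by
    rw [hκe, div_le_div_iff₀ (by positivity) (by positivity)]
    have h1 : (X : ℝ) * (27 * (m : ℝ) ^ 2) ≤ 16 * (A * m) * (27 * (m : ℝ) ^ 2) := by gcongr
    refine h1.trans ?_
    have h2 : (9 : ℝ) ≤ Real.pi ^ 2 := by nlinarith
    have h3 : 0 ≤ A * (m : ℝ) ^ 3 := by positivity
    nlinarith
  have hκ0 : 0 < κ := lt_of_lt_of_le (by positivity) hκ1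
  set Y0 : ℕ := ⌈2 * L / κ⌉₊ with hY0
  have hY1 : 2 * L / κ ≤ Y0 := Nat.le_ceil _
  have hY2 : (Y0 : ℝ) ≤ 2 * L / κ + 1 := (Nat.ceil_lt_add_one (by positivity)).le
  have hY3 : (Y0 : ℝ) ≤ 97 * (L * P) := by
    have hκinv : 1 / κ ≤ 48 * P := by
      rw [div_le_iff₀ hκ0]
      have h1 : 48 * P * (X / (48 * (m : ℝ) ^ 3)) ≤ 48 * P * κ := by gcongr
      refine le_trans ?_ h1
      have : 48 * P * (X / (48 * (m : ℝ) ^ 3)) = X * P / (m : ℝ) ^ 3 := by field_simp
      rw [this, le_div_iff₀ (by positivity), one_mul]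
      exact hm2
    have h1 : 2 * L / κ ≤ 2 * L * (48 * P) := by
      rw [div_eq_mul_one_div]; gcongr
    have h2 : 1 ≤ L * P := by nlinarith
    linarith
  set M : ℝ := Ks * (m / Real.log m ^ (C1 + 1)) with hM
  have hM0 : 0 ≤ M := by positivity
  have hPM : P * M ≤ K2 * (m / L) := by
    have h1 : (L / 4) ^ (C1 + 1) ≤ Real.log m ^ (C1 + 1) :=
      pow_le_pow_left₀ (by positivity) hlogm _
    have h2 : M ≤ Ks * (m / (L / 4) ^ (C1 + 1)) := by rw [hM]; gcongr
    calc P * M ≤ P * (Ks * (m / (L / 4) ^ (C1 + 1))) := by gcongr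
      _ = K2 * (m / L) := by
          rw [hK2, hP, div_pow, pow_succ L C1]
          field_simp
  have hn := card_PB_le (N := N) hmn
  have hn' : ((PB N m).card : ℝ) ≤ 400 * (m / L) := by
    refine hn.trans ?_
    calc 100 * ((m : ℝ) / Real.log m) ≤ 100 * (m / (L / 4)) := by gcongr
      _ = _ := by field_simp; norm_num
  have hexp : Real.exp (-L) ≤ 1 / X := by
    rw [Real.exp_neg, hL, Real.exp_log hXp, one_div]
  have hPX : P ≤ X := by linarith [hP1]
  have hPm : P ≤ m / L := by rw [le_div_iff₀ hL0]; exact hPLm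
  -- Siegel–Walfisz
  have hCpow : 97 * (L * P) ≤ Real.log m ^ (C1 + K1 + 2) := by
    have h1 : (L / 4) ^ (C1 + K1 + 2) ≤ Real.log m ^ (C1 + K1 + 2) :=
      pow_le_pow_left₀ (by positivity) hlogm _
    refine le_trans ?_ h1
    rw [div_pow, le_div_iff₀ (by positivity)]
    have h2 : L ^ (C1 + K1 + 2) = L * P * (L ^ K1 * L) := by rw [hP]; ring
    rw [h2]
    have h3 : (1 : ℝ) ≤ L ^ K1 := one_le_pow₀ hL1
    have h4 : L ≤ L ^ K1 * L := by nlinarith
    have h5 : 0 < L * P := by positivity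
    calc 97 * (L * P) * 4 ^ (C1 + K1 + 2) = L * P * (97 * 4 ^ (C1 + K1 + 2)) := by ring
      _ ≤ L * P * L := by gcongr
      _ ≤ _ := by gcongr
  have htpow : |t| ≤ Real.log m ^ (C1 + K1 + 2) := by
    have h1 : (L / 4) ^ (C1 + K1 + 2) ≤ Real.log m ^ (C1 + K1 + 2) :=
      pow_le_pow_left₀ (by positivity) hlogm _
    refine ht.trans (le_trans ?_ h1)
    rw [div_pow, le_div_iff₀ (by positivity)]
    have h2 : L ^ (C1 + K1 + 2) = L ^ K1 * (L * P * L) := by rw [hP]; ring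
    rw [h2]
    have h5 : 1 ≤ L * P := by nlinarith
    have h6 : L ≤ L * P * L := by nlinarith
    gcongr
    linarith
  have hS1 := S1_le ht'0 (box_PB (N := N) (m := m) (by omega)) (norm_cf_le l t) hM0 (Y0 := Y0)
    (by
      intro h hh0 hnc hnh y
      apply hsw N m h t hmn hh0 hnc _ htpow y
      refine le_trans ?_ (hY3.trans hCpow)
      exact_mod_cast hnh)
  have hd := num_dual (X := X) (L := L) (A := A) (m := m) (n := ((PB N m).card : ℝ)) (M := M)
    (κ := κ) (u := u) (P := P) (K2 := K2) (Y0 := Y0) hL1 hA0 hm0 hXp hu0 hu3 hP1 hm2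
    (Nat.cast_nonneg _) hn' hκ1 hY1 hY2 hK2p.le hM0 hPM hPm hexp hPX
  have hdiag : ((PB N m).card : ℝ) * (1 + 100 / (Real.pi * t')) ≤ 40400 * (A * m / L) := by
    have h1 : 100 / (Real.pi * t') = 100 * A := by rw [ht']; field_simp
    rw [h1]
    calc ((PB N m).card : ℝ) * (1 + 100 * A) ≤ 400 * (m / L) * (101 * A) := by
          gcongr
          linarith
      _ = _ := by ring
  have hcoef : 2 / (9 * Real.sqrt 3 * t') ≤ A := by
    have h3 : (1.7 : ℝ) ≤ Real.sqrt 3 := Real.le_sqrt_of_sq_le (by norm_num)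
    have h4 : 2 / (9 * Real.sqrt 3 * t') = 2 * Real.pi / (9 * Real.sqrt 3) * A := by
      rw [ht']; field_simp
    rw [h4]
    have h5 : 2 * Real.pi / (9 * Real.sqrt 3) ≤ 1 := by
      rw [div_le_one (by positivity)]
      have := Real.pi_lt_four
      linarith
    calc _ ≤ 1 * A := by gcongr
      _ = A := one_mul _
  have hd0 : 0 ≤ dualBd m ((PB N m).card : ℝ) κ M Y0 := by unfold dualBd; positivity
  set R1 : ℝ := A * m / L with hR1
  set R2 : ℝ := A * (m : ℝ) ^ 2 / (u * L ^ 2) with hR2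
  have hR1p : 0 ≤ R1 := by positivity
  have hR2p : 0 ≤ R2 := by positivity
  calc S1 t' (PB N m) (cf l t) ≤ _ := hS1
    _ ≤ 40400 * R1 + A * ((4e6 * (2 * K2 + 1) + 1.6e9) * (m / L) +
        2.6e8 * ((m : ℝ) ^ 2 / (u * L ^ 2))) := by
        apply add_le_add hdiag
        exact mul_le_mul hcoef hd hd0 hA0.le
    _ = 40400 * R1 + ((4e6 * (2 * K2 + 1) + 1.6e9) * R1 + 2.6e8 * R2) := by
        rw [hR1, hR2]; ring
    _ ≤ _ := by
        have : 0 ≤ (4e6 * (2 * K2 + 1) + 1.6e9) * R2 := by positivity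
        nlinarith

end Crest.Agent.R012.Edge79
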