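import Crest.Agent.R012.EdgeH_79

/-!
# Row 12 (TIII): the bilinear form on a box, for every fixed `t`
-/

set_option autoImplicit false

noncomputable section

namespace Crest.Agent.R012.Edge79

open Eis CharSum852 Tau671

/-- **The bilinear form on a box for a fixed `t`.** -/
theorem Q_box (l : ℤ) (C1 K1 : ℕ) {Kc : ℝ} (hKc : 0 ≤ Kc) : ∃ K : ℝ, 0 < K ∧ ∃ X0 : ℕ,
    ∀ X : ℕ, X0 ≤ X → ∀ (N m : ℕ) (A t : ℝ) (S : Finset Eis) (α : Eis → ℂ),
    (X : ℝ) ≤ 16 * (m : ℝ) ^ 3 → (m : ℝ) ^ 3 ≤ X * Real.log X ^ C1 → (X : ℝ) ≤ 16 * (A * m) →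
    A * m ≤ 16 * X → |t| ≤ Real.log X ^ K1 → (∀ a ∈ S, IsPrim a) →
    (∀ a ∈ S, (nm a : ℝ) ≤ A) → (S.card : ℝ) ≤ Kc * (A / Real.log X ^ 2) →
    (∀ a ∈ S, ‖α a‖ ≤ 1) →
    ‖∑ a ∈ S, ∑ b ∈ PB N m, α a * cf l t b * G (a * b)‖ ≤
      K * ((X : ℝ) ^ ((5 : ℝ) / 6) / Real.log X ^ ((3 : ℝ) / 2)) := by
  obtain ⟨K, hK, X0, h0⟩ := S1_box l C1 K1
  obtain ⟨X1, hX1⟩ := exists_le_log 1
  set R : ℝ := Kc * (Real.exp 1 * (K * (256 * 4))) with hR
  have hR0 : 0 ≤ R := by positivity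
  refine ⟨Real.sqrt R + 1, by positivity, max (max X0 X1) 2, ?_⟩
  intro X hX N m A t S α hm1 hm2 hA hA2 ht hS hSA hcard hα
  have hX2' : (2 : ℝ) ≤ X := by exact_mod_cast (le_max_right _ _).trans hX
  have hXp : (0 : ℝ) < X := by linarith
  set L := Real.log X with hL
  have hL1 : 1 ≤ L := hX1 X ((le_max_right _ _).trans ((le_max_left _ _).trans hX))
  have hL0 : 0 < L := by linarith
  have hS1 := h0 X ((le_max_left _ _).trans ((le_max_left _ _).trans hX)) N m A t hm1 hm2 hA ht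
  set u := (X : ℝ) ^ ((1 : ℝ) / 3) with hu
  have hu0 : 0 < u := by positivity
  have hu3 : u ^ 3 = X := by
    rw [hu, ← Real.rpow_natCast, ← Real.rpow_mul hXp.le]; norm_num
  have hm0 : (0 : ℝ) < m := by
    rcases Nat.eq_zero_or_pos m with h | h
    · rw [h] at hm1
      have h16 : (16 : ℝ) * ((0 : ℕ) : ℝ) ^ 3 = 0 := by norm_num
      linarith
    · exact_mod_cast h
  have hA0 : 0 < A := by
    by_contra hc
    push Not at hc
    have : A * m ≤ 0 := mul_nonpos_of_nonpos_of_nonneg hc hm0.le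
    linarith
  have hum : u ≤ 3 * m := by
    have : u ^ 3 ≤ (3 * (m : ℝ)) ^ 3 := by rw [hu3]; nlinarith [pow_pos hm0 3]
    exact le_of_pow_le_pow_left₀ (by norm_num) (by positivity) this
  have hbil := bilinear_sq_le (A := A) hA0 (S := S) (B := PB N m) hS hSA
    (fun b hb => (mem_PB.mp hb).1) hα (norm_cf_le l t)
  have hS1n : 0 ≤ K * (A * m / L + A * (m : ℝ) ^ 2 / (u * L ^ 2)) := by positivity
  have hmain : ‖∑ a ∈ S, ∑ b ∈ PB N m, α a * cf l t b * G (a * b)‖ ^ 2 ≤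
      R * (u ^ 5 / L ^ 3) := by
    refine hbil.trans ?_
    calc (S.card : ℝ) * (Real.exp 1 * S1 (1 / (Real.pi * A)) (PB N m) (cf l t))
        ≤ (Kc * (A / L ^ 2)) * (Real.exp 1 * (K * (A * m / L + A * (m : ℝ) ^ 2 / (u * L ^ 2)))) := by
          apply mul_le_mul hcard _ _ (by positivity)
          · exact mul_le_mul_of_nonneg_left hS1 (Real.exp_pos _).le
          · apply mul_nonneg (Real.exp_pos _).le
            unfold S1
            apply tsum_nonneg
            intro a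
            split_ifs
            · positivity
            · exact le_rfl
      _ = Kc * (Real.exp 1 * (K * ((A * m) ^ 2 * (1 / (m * L ^ 3) + 1 / (u * L ^ 4))))) := by
          field_simp
      _ ≤ Kc * (Real.exp 1 * (K * ((16 * X) ^ 2 * (3 / (u * L ^ 3) + 1 / (u * L ^ 3))))) := by
          have e1 : 1 / ((m : ℝ) * L ^ 3) ≤ 3 / (u * L ^ 3) := by
            rw [div_le_div_iff₀ (by positivity) (by positivity)]
            have : 0 < L ^ 3 := by positivity
            nlinarith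
          have e2 : 1 / (u * L ^ 4) ≤ 1 / (u * L ^ 3) := by
            apply one_div_le_one_div_of_le (by positivity)
            gcongr
            norm_num
          have e3 : (A * m) ^ 2 ≤ (16 * (X : ℝ)) ^ 2 := pow_le_pow_left₀ (by positivity) hA2 2
          gcongr
      _ = R * (u ^ 5 / L ^ 3) := by
          rw [hR, ← hu3]; field_simp; ring
  have hfin : ((X : ℝ) ^ ((5 : ℝ) / 6) / L ^ ((3 : ℝ) / 2)) ^ 2 = u ^ 5 / L ^ 3 := by
    rw [div_pow, ← Real.rpow_natCast, ← Real.rpow_mul hXp.le, ← Real.rpow_natCast,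
      ← Real.rpow_mul hL0.le, hu, ← Real.rpow_natCast, ← Real.rpow_mul hXp.le]
    norm_num
  have hpos : 0 ≤ (X : ℝ) ^ ((5 : ℝ) / 6) / L ^ ((3 : ℝ) / 2) := by positivity
  apply le_of_sq_le_sq _ (by positivity)
  refine hmain.trans ?_
  rw [mul_pow, hfin]
  apply mul_le_mul_of_nonneg_right _ (by positivity)
  have := Real.sq_sqrt hR0
  nlinarith [Real.sqrt_nonneg R]

end Crest.Agent.R012.Edge79
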