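import Crest.Agent.R012.EdgeI_79
import Crest.Agent.R012.EdgeSharp_968

/-!
# Row 12 (TIII): boxes of triples of primes, sharp cutoff
-/

set_option autoImplicit false

noncomputable section

namespace Crest.Agent.R012.Edge79

open Eis CharSum852 Tau671

open Classical in
/-- number of representations `a = q r` -/
def mult (N m1 m2 : ℕ) (a : Eis) : ℕ :=
  ((PB N m1 ×ˢ PB N m2).filter (fun x => x.1 * x.2 = a)).card

lemma mult_le (N m1 m2 : ℕ) (a : Eis) : mult N m1 m2 a ≤ 2 := by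
  classical
  unfold mult
  rcases Finset.eq_empty_or_nonempty ((PB N m1 ×ˢ PB N m2).filter (fun x => x.1 * x.2 = a)) with
    h | ⟨x, hx⟩
  · rw [h]; simp
  · refine (Finset.card_le_card (t := {x, (x.2, x.1)}) ?_).trans Finset.card_le_two
    intro y hy
    simp only [Finset.mem_filter, Finset.mem_product, mem_PB] at hx hy
    obtain ⟨⟨⟨q1, q2, -⟩, ⟨r1, r2, -⟩⟩, hxa⟩ := hx
    obtain ⟨⟨⟨q1', q2', -⟩, ⟨r1', r2', -⟩⟩, hya⟩ := hy
    have hd : y.1 ∣ x.1 * x.2 := by rw [hxa, ← hya]; exact dvd_mul_right _ _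
    rw [Finset.mem_insert, Finset.mem_singleton]
    rcases q2'.dvd_or_dvd hd with h | h
    · left
      have e : y.1 = x.1 := Cheb420.isPrim_assoc q1' q1
        (q2'.irreducible.associated_of_dvd q2.irreducible h)
      have e2 : y.2 = x.2 := by
        have : x.1 * y.2 = x.1 * x.2 := by rw [← e, hya, e, hxa]
        exact mul_left_cancel₀ q2.ne_zero this
      exact Prod.ext e e2
    · right
      have e : y.1 = x.2 := Cheb420.isPrim_assoc q1' r1
        (q2'.irreducible.associated_of_dvd r2.irreducible h)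
      have e2 : y.2 = x.1 := by
        have : x.2 * y.2 = x.2 * x.1 := by rw [← e, hya, e, mul_comm x.2, hxa]
        exact mul_left_cancel₀ r2.ne_zero this
      exact Prod.ext e e2

open Classical in
/-- all products `q r` -/
def PA (N m1 m2 : ℕ) : Finset Eis := (PB N m1 ×ˢ PB N m2).image (fun x => x.1 * x.2)

lemma mem_PA {N m1 m2 : ℕ} {a : Eis} (h : a ∈ PA N m1 m2) :
    IsPrim a ∧ m1 * m2 ≤ nm a ∧ nm a ≤ 4 * (m1 * m2) := by
  classical
  unfold PA at h
  rw [Finset.mem_image] at h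
  obtain ⟨x, hx, rfl⟩ := h
  rw [Finset.mem_product, mem_PB, mem_PB] at hx
  obtain ⟨⟨q1, q2, q3, q4, q5⟩, ⟨r1, r2, r3, r4, r5⟩⟩ := hx
  refine ⟨q1.mul r1, ?_, ?_⟩
  · rw [nm_mul]; exact Nat.mul_le_mul q3.le r3.le
  · rw [nm_mul]
    calc nm x.1 * nm x.2 ≤ (2 * m1) * (2 * m2) := Nat.mul_le_mul q5 r5
      _ = _ := by ring

lemma card_PA_le (N m1 m2 : ℕ) : (PA N m1 m2).card ≤ (PB N m1).card * (PB N m2).card := by
  classical
  unfold PA
  refine Finset.card_image_le.trans ?_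
  rw [Finset.card_product]

lemma sum_box_eq (N m m1 m2 : ℕ) (Φ : Eis → Eis → ℂ) :
    ∑ p ∈ PB N m, ∑ q ∈ PB N m1, ∑ r ∈ PB N m2, Φ (q * r) p =
      ∑ a ∈ PA N m1 m2, ∑ p ∈ PB N m, (mult N m1 m2 a : ℂ) * Φ a p := by
  classical
  rw [Finset.sum_comm' (s := PA N m1 m2) (t := fun _ => PB N m) (s' := fun _ => PA N m1 m2)
    (t' := PB N m) (by simp [and_comm])]
  apply Finset.sum_congr rfl
  intro p _
  rw [← Finset.sum_product']
  have h := Finset.sum_comp (s := PB N m1 ×ˢ PB N m2) (fun a => Φ a p) (fun x => x.1 * x.2)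
  rw [h]
  unfold PA mult
  apply Finset.sum_congr rfl
  intro a _
  rw [nsmul_eq_mul]

/-- the sum over a box of triples, cut at `Y` -/
def Tb (l : ℤ) (Y N m m1 m2 : ℕ) : ℂ :=
  ∑ p ∈ PB N m, ∑ q ∈ PB N m1, ∑ r ∈ PB N m2,
    if nm (p * q * r) ≤ Y then ang l (p * q * r) * G (p * q * r) else 0

open Classical in
lemma Tb_eq (l : ℤ) (Y N m m1 m2 : ℕ) :
    Tb l Y N m m1 m2 = 2 * ∑ a ∈ (PA N m1 m2).filter (fun a => Squarefree a), ∑ p ∈ PB N m,
      (if nm (a * p) ≤ Y then (((mult N m1 m2 a : ℂ) / 2) * ang l a) * ang l p * G (a * p)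
        else 0) := by
  have h1 : Tb l Y N m m1 m2 = ∑ p ∈ PB N m, ∑ q ∈ PB N m1, ∑ r ∈ PB N m2,
      (fun a p => if nm (a * p) ≤ Y then ang l (a * p) * G (a * p) else 0) (q * r) p := by
    unfold Tb
    refine Finset.sum_congr rfl fun p _ => Finset.sum_congr rfl fun q _ =>
      Finset.sum_congr rfl fun r _ => ?_
    have : p * q * r = q * r * p := by ring
    rw [this]
  rw [h1, sum_box_eq N m m1 m2
    (fun a p => if nm (a * p) ≤ Y then ang l (a * p) * G (a * p) else 0), Finset.mul_sum]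
  rw [← Finset.sum_filter_add_sum_filter_not (PA N m1 m2) (fun a => Squarefree a)]
  have h0 : ∑ a ∈ (PA N m1 m2).filter (fun a => ¬ Squarefree a), ∑ p ∈ PB N m,
      (mult N m1 m2 a : ℂ) * (if nm (a * p) ≤ Y then ang l (a * p) * G (a * p) else 0) = 0 := by
    refine Finset.sum_eq_zero fun a ha => Finset.sum_eq_zero fun p hp => ?_
    rw [Finset.mem_filter] at ha
    have : G (a * p) = 0 := by
      rw [Gauss880.G_mul_all Gauss880.syG (mem_PA ha.1).1 (mem_PB.mp hp).1,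
        Gauss880.G_eq_zero Gauss880.syG (mem_PA ha.1).1 ha.2]
      ring
    rw [this]; simp
  rw [h0, add_zero]
  refine Finset.sum_congr rfl fun a ha => ?_
  rw [Finset.mul_sum]
  refine Finset.sum_congr rfl fun p hp => ?_
  split_ifs
  · rw [P355.ang_mul]; ring
  · simp

/-- **Box bound with sharp cutoff** -/
theorem Tb_le (h8 : EdgeSharp968.T8b) (l : ℤ) (C1 : ℕ) : ∃ K : ℝ, 0 < K ∧ ∃ X0 : ℕ,
    ∀ X : ℕ, X0 ≤ X → ∀ (N m m1 m2 Y : ℕ), m1 ≤ m → m2 ≤ m → X ≤ 16 * (m * (m1 * m2)) →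
      m * (m1 * m2) ≤ X → (m : ℝ) ^ 3 ≤ X * Real.log X ^ C1 → Y ≤ X → X ≤ 3 * Y →
      ‖Tb l Y N m m1 m2‖ ≤ K * ((1 + Real.log (1 + Real.log X)) *
        ((X : ℝ) ^ ((5 : ℝ) / 6) / Real.log X ^ ((3 : ℝ) / 2))) := by
  classical
  obtain ⟨c, c0, C8, hc, hc0, hC8, hcell⟩ := h8
  obtain ⟨Cs, K1, hCs, hK1, hsharp⟩ := EdgeSharp968.edge_sharp hc hc0 hC8 hcell (3 / 2) (by norm_num)
  obtain ⟨Kq, hKq, X1, hQ⟩ := Q_box l C1 ⌈K1⌉₊ (Kc := 80000) (by norm_num)
  obtain ⟨X2, hX2⟩ := exists_log_pow_le (17 * C1) (2 ^ 114)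
  obtain ⟨X3, hX3⟩ := exists_log_pow_le (8 * C1) (4096 ^ 4)
  obtain ⟨X4, hX4⟩ := exists_le_log 3
  refine ⟨4 * (Cs * Kq + 24 * Cs), by positivity, max (max X1 X2) (max (max X3 X4) 100), ?_⟩
  intro X hX N m m1 m2 Y hm1 hm2 hlow hup hm3 hYX hXY
  have hXX1 : X1 ≤ X := (le_max_left _ _).trans ((le_max_left _ _).trans hX)
  have hXX2 : X2 ≤ X := (le_max_right _ _).trans ((le_max_left _ _).trans hX)
  have hXX3 : X3 ≤ X :=
    (le_max_left _ _).trans ((le_max_left _ _).trans ((le_max_right _ _).trans hX))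
  have hXX4 : X4 ≤ X :=
    (le_max_right _ _).trans ((le_max_left _ _).trans ((le_max_right _ _).trans hX))
  have hX100 : 100 ≤ X := (le_max_right _ _).trans ((le_max_right _ _).trans hX)
  have hXr : (100 : ℝ) ≤ X := by exact_mod_cast hX100
  have hXp : (0 : ℝ) < X := by linarith
  set L := Real.log X with hL
  have hL3 : 3 ≤ L := hX4 X hXX4
  have hL0 : 0 < L := by linarith
  set P := L ^ C1 with hP
  have hP1 : 1 ≤ P := one_le_pow₀ (by linarith)
  have c2 : 2 ^ 114 * P ^ 17 ≤ (X : ℝ) := by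
    have := hX2 X hXX2
    rwa [mul_comm 17 C1, pow_mul] at this
  have c3 : (4096 * P ^ 2) ^ 4 ≤ (X : ℝ) := by
    have := hX3 X hXX3
    rw [mul_pow, ← pow_mul]
    rwa [mul_comm 8 C1, pow_mul] at this
  -- real versions
  have rlow : (X : ℝ) ≤ 16 * (m * (m1 * m2)) := by exact_mod_cast hlow
  have rup : (m : ℝ) * (m1 * m2) ≤ X := by exact_mod_cast hup
  have rm1 : (m1 : ℝ) ≤ m := by exact_mod_cast hm1
  have rm2 : (m2 : ℝ) ≤ m := by exact_mod_cast hm2
  have hmp : 0 < m := by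
    rcases Nat.eq_zero_or_pos m with h | h
    · rw [h] at hlow; omega
    · exact h
  have hm1p : 0 < m1 := by
    rcases Nat.eq_zero_or_pos m1 with h | h
    · rw [h] at hlow; simp at hlow; omega
    · exact h
  have hm2p : 0 < m2 := by
    rcases Nat.eq_zero_or_pos m2 with h | h
    · rw [h] at hlow; simp at hlow; omega
    · exact h
  have rmp : (0 : ℝ) < m := by exact_mod_cast hmp
  have rm1p : (0 : ℝ) < m1 := by exact_mod_cast hm1p
  have rm2p : (0 : ℝ) < m2 := by exact_mod_cast hm2p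
  have hm16 : (X : ℝ) ≤ 16 * (m : ℝ) ^ 3 := by
    calc (X : ℝ) ≤ 16 * (m * (m1 * m2)) := rlow
      _ ≤ 16 * (m * (m * m)) := by gcongr
      _ = _ := by ring
  -- `m1 ^ 4 ≥ X`
  have key : ∀ a b : ℝ, 0 < a → 0 < b → b ≤ m → (X : ℝ) ≤ 16 * (m * (a * b)) → (X : ℝ) ≤ a ^ 4 := by
    intro a b ha hb hbm hX16
    have e1 : (X : ℝ) ≤ 16 * ((m : ℝ) ^ 2 * a) := by
      calc (X : ℝ) ≤ 16 * (m * (a * b)) := hX16
        _ ≤ 16 * (m * (a * m)) := by gcongr
        _ = _ := by ring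
    have e2 : (X : ℝ) ^ 3 ≤ 4096 * (((m : ℝ) ^ 3) ^ 2 * a ^ 3) := by
      calc (X : ℝ) ^ 3 ≤ (16 * ((m : ℝ) ^ 2 * a)) ^ 3 := pow_le_pow_left₀ hXp.le e1 3
        _ = _ := by ring
    have e3 : ((m : ℝ) ^ 3) ^ 2 ≤ (X * P) ^ 2 := pow_le_pow_left₀ (by positivity) hm3 2
    have e4 : (X : ℝ) ^ 3 ≤ 4096 * ((X * P) ^ 2 * a ^ 3) := by
      refine e2.trans ?_
      gcongr
    have e5 : (X : ℝ) ≤ (4096 * P ^ 2) * a ^ 3 := by
      have : (X : ℝ) ^ 2 * X ≤ X ^ 2 * ((4096 * P ^ 2) * a ^ 3) := by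
        calc (X : ℝ) ^ 2 * X = X ^ 3 := by ring
          _ ≤ 4096 * ((X * P) ^ 2 * a ^ 3) := e4
          _ = _ := by ring
      exact le_of_mul_le_mul_left this (by positivity)
    have e6 : (X : ℝ) ^ 4 ≤ (4096 * P ^ 2) ^ 4 * (a ^ 4) ^ 3 := by
      calc (X : ℝ) ^ 4 ≤ ((4096 * P ^ 2) * a ^ 3) ^ 4 := pow_le_pow_left₀ hXp.le e5 4
        _ = _ := by ring
    have e7 : (X : ℝ) * X ^ 3 ≤ X * (a ^ 4) ^ 3 := by
      calc (X : ℝ) * X ^ 3 = X ^ 4 := by ring
        _ ≤ (4096 * P ^ 2) ^ 4 * (a ^ 4) ^ 3 := e6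
        _ ≤ _ := by gcongr
    have e8 : (X : ℝ) ^ 3 ≤ (a ^ 4) ^ 3 := le_of_mul_le_mul_left e7 hXp
    exact le_of_pow_le_pow_left₀ (by norm_num) (by positivity) e8
  have hm1X : (X : ℝ) ≤ (m1 : ℝ) ^ 4 := key m1 m2 rm1p rm2p rm2 rlow
  have hm2X : (X : ℝ) ≤ (m2 : ℝ) ^ 4 := key m2 m1 rm2p rm1p rm1 (by
    rw [mul_comm (m2 : ℝ)]; exact rlow)
  have hge : ∀ k : ℕ, 0 < k → (X : ℝ) ≤ (k : ℝ) ^ 4 → 2 ≤ k ∧ L / 4 ≤ Real.log k := by
    intro k hk hkX
    have hk0 : (0 : ℝ) < k := by exact_mod_cast hk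
    constructor
    · by_contra hc
      have h1 : k = 1 := by omega
      rw [h1] at hkX; norm_num at hkX
      have : (1 : ℝ) < X := by linarith
      have h2 : X ≤ 1 := by exact_mod_cast hkX
      omega
    · have h1 := Real.log_le_log hXp hkX
      rw [Real.log_pow] at h1
      push_cast at h1
      rw [← hL] at h1; linarith
  obtain ⟨hm1two, hlog1⟩ := hge m1 hm1p hm1X
  obtain ⟨hm2two, hlog2⟩ := hge m2 hm2p hm2X
  have hmtwo : 2 ≤ m := hm1two.trans hm1
  have rmtwo : (2 : ℝ) ≤ m := by exact_mod_cast hmtwo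
  have rm1two : (2 : ℝ) ≤ m1 := by exact_mod_cast hm1two
  have rm2two : (2 : ℝ) ≤ m2 := by exact_mod_cast hm2two
  -- the size of the set of `a`
  set a0 : ℝ := (m1 : ℝ) * m2 with ha0
  have ha0p : 0 < a0 := by positivity
  have ha0two : 2 ≤ a0 := by nlinarith
  have hcardPA : ((PA N m1 m2).card : ℝ) ≤ 40000 * ((4 * a0) / L ^ 2) := by
    have h1 : ((PA N m1 m2).card : ℝ) ≤ (PB N m1).card * (PB N m2).card := by
      exact_mod_cast card_PA_le N m1 m2
    have h2 : ((PB N m1).card : ℝ) ≤ 400 * (m1 / L) := by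
      refine (card_PB_le hm1two).trans ?_
      calc 100 * ((m1 : ℝ) / Real.log m1) ≤ 100 * (m1 / (L / 4)) := by gcongr
        _ = _ := by field_simp; norm_num
    have h3 : ((PB N m2).card : ℝ) ≤ 400 * (m2 / L) := by
      refine (card_PB_le hm2two).trans ?_
      calc 100 * ((m2 : ℝ) / Real.log m2) ≤ 100 * (m2 / (L / 4)) := by gcongr
        _ = _ := by field_simp; norm_num
    calc ((PA N m1 m2).card : ℝ) ≤ (PB N m1).card * (PB N m2).card := h1
      _ ≤ (400 * (m1 / L)) * (400 * (m2 / L)) := by gcongr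
      _ = _ := by rw [ha0]; field_simp; norm_num
  -- the exponent condition
  have hexp : ∀ A : ℝ, a0 ≤ A → 2 * (m : ℝ) ≤ A ^ (7 / 10 : ℝ) := by
    intro A hA
    have hA0 : 0 < A := lt_of_lt_of_le ha0p hA
    have e1 : (X : ℝ) ^ 7 ≤ a0 ^ 7 * (16 * (m : ℝ)) ^ 7 := by
      calc (X : ℝ) ^ 7 ≤ (16 * (m * (m1 * m2))) ^ 7 := pow_le_pow_left₀ hXp.le rlow 7
        _ = _ := by rw [ha0]; ring
    have e2 : (2 : ℝ) ^ 38 * (m : ℝ) ^ 17 ≤ X ^ 7 := by
      have e3 : ((2 : ℝ) ^ 38 * (m : ℝ) ^ 17) ^ 3 ≤ ((X : ℝ) ^ 7) ^ 3 := by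
        calc ((2 : ℝ) ^ 38 * (m : ℝ) ^ 17) ^ 3 = 2 ^ 114 * ((m : ℝ) ^ 3) ^ 17 := by ring
          _ ≤ 2 ^ 114 * (X * P) ^ 17 := by gcongr
          _ = (2 ^ 114 * P ^ 17) * X ^ 17 := by ring
          _ ≤ X * X ^ 17 := by gcongr
          _ = X ^ 18 := by ring
          _ ≤ X ^ 21 := pow_le_pow_right₀ (by linarith) (by norm_num)
          _ = _ := by ring
      exact le_of_pow_le_pow_left₀ (by norm_num) (by positivity) e3
    have e4 : (2 * (m : ℝ)) ^ 10 ≤ a0 ^ 7 := by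
      have h1 : (2 * (m : ℝ)) ^ 10 * (16 * m) ^ 7 ≤ a0 ^ 7 * (16 * m) ^ 7 := by
        refine le_trans (le_of_eq ?_) (e2.trans e1)
        ring
      exact le_of_mul_le_mul_right h1 (by positivity)
    have e5 : (2 * (m : ℝ)) ^ 10 ≤ A ^ 7 := e4.trans (pow_le_pow_left₀ ha0p.le hA 7)
    have e6 : (A ^ (7 / 10 : ℝ)) ^ 10 = A ^ 7 := by
      rw [← Real.rpow_natCast, ← Real.rpow_mul hA0.le, ← Real.rpow_natCast]
      norm_num
    apply le_of_pow_le_pow_left₀ (n := 10) (by norm_num) (by positivity)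
    rw [e6]; exact e5
  -- logs of `Y`
  have hY33 : 33 ≤ Y := by omega
  have rXY : (X : ℝ) ≤ 3 * Y := by exact_mod_cast hXY
  have rYX : (Y : ℝ) ≤ X := by exact_mod_cast hYX
  have rY33 : (33 : ℝ) ≤ Y := by exact_mod_cast hY33
  have rYp : (0 : ℝ) < Y := by linarith
  have hlogYX : Real.log Y ≤ L := Real.log_le_log rYp rYX
  have hlogY : L / 2 ≤ Real.log Y := by
    have h1 : Real.log X ≤ Real.log (3 * Y) := Real.log_le_log hXp rXY
    rw [Real.log_mul (by norm_num) rYp.ne', ← hL] at h1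
    have h2 : Real.log 3 ≤ 1.5 := by
      have h3 : Real.log 3 ≤ Real.log 4 := Real.log_le_log (by norm_num) (by norm_num)
      have h4 : Real.log 4 = 2 * Real.log 2 := by
        rw [show (4 : ℝ) = 2 ^ 2 by norm_num, Real.log_pow]; norm_num
      have := Real.log_two_lt_d9
      linarith
    linarith
  have hlogY1 : 1 ≤ Real.log Y := by linarith
  -- the main quantity
  set Qx : ℝ := (X : ℝ) ^ ((5 : ℝ) / 6) / L ^ ((3 : ℝ) / 2) with hQx
  have hQx0 : 0 ≤ Qx := by positivity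
  have hbox : ∀ (S : Finset Eis) (A : ℝ), S ⊆ (PA N m1 m2).filter (fun a => Squarefree a) →
      a0 ≤ A → A ≤ 2 * a0 → (∀ a ∈ S, A ≤ nm a ∧ (nm a : ℝ) ≤ 2 * A) →
      ‖∑ a ∈ S, ∑ p ∈ PB N m, (if nm (a * p) ≤ Y then
        (((mult N m1 m2 a : ℂ) / 2) * ang l a) * ang l p * G (a * p) else 0)‖ ≤
        (Cs * Kq + 24 * Cs) * ((1 + Real.log (1 + L)) * Qx) := by
    intro S A hSsub hA1 hA2 hSA
    have hA0 : 0 < A := lt_of_lt_of_le ha0p hA1
    have hAm : A * m ≤ 2 * X := by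
      calc A * m ≤ (2 * a0) * m := by gcongr
        _ = 2 * (m * (m1 * m2)) := by rw [ha0]; ring
        _ ≤ _ := by gcongr
    have hAm' : (X : ℝ) ≤ 16 * (A * m) := by
      calc (X : ℝ) ≤ 16 * (m * (m1 * m2)) := rlow
        _ = 16 * (a0 * m) := by rw [ha0]; ring
        _ ≤ _ := by gcongr
    have hprim : ∀ a ∈ S, IsPrim a := fun a ha =>
      (mem_PA (Finset.mem_filter.mp (hSsub ha)).1).1
    have hα : ∀ a : Eis, ‖((mult N m1 m2 a : ℂ) / 2) * ang l a‖ ≤ 1 := by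
      intro a
      rw [norm_mul]
      have h1 : ‖((mult N m1 m2 a : ℂ) / 2)‖ ≤ 1 := by
        rw [norm_div, Complex.norm_natCast]
        have : ((mult N m1 m2 a : ℕ) : ℝ) ≤ 2 := by exact_mod_cast mult_le N m1 m2 a
        rw [Complex.norm_ofNat]
        rw [div_le_one (by norm_num)]
        exact this
      exact mul_le_one₀ h1 (norm_nonneg _) (P355.norm_ang_le l a)
    have hs := hsharp Y A m S (PB N m) (fun a => ((mult N m1 m2 a : ℂ) / 2) * ang l a)
      (fun b => ang l b) (Kq * Qx) (by omega) (ha0two.trans hA1) rmtwo (hexp A hA1)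
      (by
        have h1 : 4 * (A * m) ≤ (m : ℝ) ^ 10 := by
          have h2 : (2 : ℝ) ^ 7 ≤ (m : ℝ) ^ 7 := pow_le_pow_left₀ (by norm_num) rmtwo 7
          calc 4 * (A * m) ≤ 4 * (2 * X) := by gcongr
            _ ≤ 4 * (2 * (16 * (m : ℝ) ^ 3)) := by gcongr
            _ = 2 ^ 7 * (m : ℝ) ^ 3 := by ring
            _ ≤ (m : ℝ) ^ 7 * (m : ℝ) ^ 3 := by gcongr
            _ = _ := by ring
        calc (4 * (A * m)) ^ (1 / 10 : ℝ) ≤ ((m : ℝ) ^ 10) ^ (1 / 10 : ℝ) :=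
              Real.rpow_le_rpow (by positivity) h1 (by norm_num)
          _ = m := by
              rw [← Real.rpow_natCast, ← Real.rpow_mul rmp.le]; norm_num)
      (by
        have h1 : (X : ℝ) / 16 ≤ A * m := by linarith
        have h2 : (X : ℝ) ≤ (X / 16) ^ 2 * 3 := by nlinarith
        have h3 : ((X : ℝ) / 16) ^ 2 ≤ (A * m) ^ 2 := pow_le_pow_left₀ (by positivity) h1 2
        by_cases h256 : (256 : ℝ) ≤ X
        · have : (X : ℝ) ≤ (X / 16) ^ 2 := by nlinarith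
          linarith
        · push Not at h256
          have h4 : (16 : ℝ) ≤ A * m := by
            have : (8 : ℝ) ≤ 8 := le_rfl
            have hm1' : (100 : ℝ) ≤ (m1 : ℝ) ^ 4 := hXr.trans hm1X
            have hm1g : (3 : ℝ) ≤ m1 := by
              by_contra hc
              push Not at hc
              have : (m1 : ℝ) = 2 := by
                have h7 : m1 < 3 := by exact_mod_cast hc
                have : m1 = 2 := by omega
                exact_mod_cast this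
              rw [this] at hm1'; norm_num at hm1'
            have hm2' : (100 : ℝ) ≤ (m2 : ℝ) ^ 4 := hXr.trans hm2X
            have hm2g : (3 : ℝ) ≤ m2 := by
              by_contra hc
              push Not at hc
              have : (m2 : ℝ) = 2 := by
                have h7 : m2 < 3 := by exact_mod_cast hc
                have : m2 = 2 := by omega
                exact_mod_cast this
              rw [this] at hm2'; norm_num at hm2'
            have : (9 : ℝ) ≤ a0 := by rw [ha0]; nlinarith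
            nlinarith
          nlinarith)
      (by
        have : (33 : ℝ) * Y ≤ Y ^ 2 := by nlinarith
        nlinarith)
      (fun a ha => ⟨⟨hprim a ha, (Finset.mem_filter.mp (hSsub ha)).2⟩, hSA a ha⟩)
      (fun b hb => by
        have h := mem_PB.mp hb
        refine ⟨⟨h.1, h.2.1.irreducible.squarefree⟩, ?_, ?_⟩
        · exact_mod_cast h.2.2.1.le
        · exact_mod_cast h.2.2.2.2)
      (fun a _ => hα a) (fun b _ => P355.norm_ang_le l b)
      (by
        intro t ht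
        have ht' : |t| ≤ L ^ ⌈K1⌉₊ := by
          refine ht.trans ?_
          have h1 : Real.log Y ^ K1 ≤ L ^ K1 :=
            Real.rpow_le_rpow (by linarith) hlogYX hK1.le
          refine h1.trans ?_
          rw [← Real.rpow_natCast]
          exact Real.rpow_le_rpow_of_exponent_le (by linarith) (Nat.le_ceil _)
        have hq := hQ X hXX1 N m (2 * A) t S
          (fun a => (((mult N m1 m2 a : ℂ) / 2) * ang l a) * Weight600.pw t (nm a)) hm16 hm3
          (by nlinarith) (by nlinarith) ht' hprim (fun a ha => (hSA a ha).2)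
          (by
            have h1 : (S.card : ℝ) ≤ (PA N m1 m2).card := by
              exact_mod_cast Finset.card_le_card (hSsub.trans (Finset.filter_subset _ _))
            refine h1.trans (hcardPA.trans ?_)
            rw [← mul_div_assoc, ← mul_div_assoc]
            apply div_le_div_of_nonneg_right _ (by positivity)
            linarith)
          (by
            intro a _
            rw [norm_mul, Weight600.norm_pw, mul_one]
            exact hα a)
        refine le_trans (le_of_eq ?_) hq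
        congr 1
        refine Finset.sum_congr rfl fun a ha => Finset.sum_congr rfl fun b hb => ?_
        unfold cf
        have na : (nm a : ℝ) ≠ 0 := by
          exact_mod_cast (nm_pos.mpr (hprim a ha).ne_zero).ne'
        have nb : (nm b : ℝ) ≠ 0 := by
          exact_mod_cast (nm_pos.mpr (mem_PB.mp hb).1.ne_zero).ne'
        rw [nm_mul]
        push_cast
        rw [Weight600.pw_mul na nb]
        ring)
    refine hs.trans ?_
    have hlog0 : 0 ≤ Real.log (1 + Real.log Y) := Real.log_nonneg (by linarith)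
    have hloglog : Real.log (1 + Real.log Y) ≤ Real.log (1 + L) :=
      Real.log_le_log (by linarith) (by linarith)
    have t1 : (Real.log Y) ^ (-(3 / 2) : ℝ) ≤ 4 / L ^ ((3 : ℝ) / 2) := by
      have e1 : (Real.log Y) ^ (-(3 / 2) : ℝ) ≤ (L / 2) ^ (-(3 / 2) : ℝ) :=
        Real.rpow_le_rpow_of_nonpos (by positivity) hlogY (by norm_num)
      refine e1.trans ?_
      rw [Real.rpow_neg (by positivity), Real.div_rpow hL0.le (by norm_num), inv_div]
      apply div_le_div_of_nonneg_right _ (by positivity)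
      calc (2 : ℝ) ^ ((3 : ℝ) / 2) ≤ 2 ^ (2 : ℝ) :=
            Real.rpow_le_rpow_of_exponent_le (by norm_num) (by norm_num)
        _ = 4 := by norm_num
    have t2 : (A * m) ^ (5 / 6 : ℝ) ≤ 2 * (X : ℝ) ^ ((5 : ℝ) / 6) := by
      calc (A * m) ^ (5 / 6 : ℝ) ≤ (2 * X) ^ (5 / 6 : ℝ) :=
            Real.rpow_le_rpow (by positivity) hAm (by norm_num)
        _ = 2 ^ (5 / 6 : ℝ) * (X : ℝ) ^ (5 / 6 : ℝ) := Real.mul_rpow (by norm_num) hXp.le
        _ ≤ 2 ^ (1 : ℝ) * (X : ℝ) ^ (5 / 6 : ℝ) := by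
            apply mul_le_mul_of_nonneg_right _ (by positivity)
            exact Real.rpow_le_rpow_of_exponent_le (by norm_num) (by norm_num)
        _ = _ := by rw [Real.rpow_one]
    have t3 : A * (m : ℝ) ^ (1 / 2 : ℝ) ≤ 3.5 * (X : ℝ) ^ ((5 : ℝ) / 6) := by
      have hmh : 0 < (m : ℝ) ^ (1 / 2 : ℝ) := by positivity
      have hmm : (m : ℝ) ^ (1 / 2 : ℝ) * (m : ℝ) ^ (1 / 2 : ℝ) = m := by
        rw [← Real.rpow_add rmp]; norm_num
      have e1 : (X : ℝ) ^ ((1 : ℝ) / 6) ≤ 1.75 * (m : ℝ) ^ (1 / 2 : ℝ) := by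
        apply le_of_pow_le_pow_left₀ (n := 6) (by norm_num) (by positivity)
        have h1 : ((X : ℝ) ^ ((1 : ℝ) / 6)) ^ 6 = X := by
          rw [← Real.rpow_natCast, ← Real.rpow_mul hXp.le]; norm_num
        have h2 : ((m : ℝ) ^ (1 / 2 : ℝ)) ^ 6 = (m : ℝ) ^ 3 := by
          rw [← Real.rpow_natCast, ← Real.rpow_mul rmp.le, ← Real.rpow_natCast]; norm_num
        rw [mul_pow, h1, h2]
        refine hm16.trans ?_
        apply mul_le_mul_of_nonneg_right (by norm_num) (by positivity)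
      have e2 : (X : ℝ) ^ ((5 : ℝ) / 6) * (X : ℝ) ^ ((1 : ℝ) / 6) = X := by
        rw [← Real.rpow_add hXp]; norm_num
      have e3 : (A * (m : ℝ) ^ (1 / 2 : ℝ)) * (m : ℝ) ^ (1 / 2 : ℝ) ≤
          (3.5 * (X : ℝ) ^ ((5 : ℝ) / 6)) * (m : ℝ) ^ (1 / 2 : ℝ) := by
        calc (A * (m : ℝ) ^ (1 / 2 : ℝ)) * (m : ℝ) ^ (1 / 2 : ℝ) = A * m := by
              rw [mul_assoc, hmm]
          _ ≤ 2 * X := hAm
          _ = 2 * ((X : ℝ) ^ ((5 : ℝ) / 6) * (X : ℝ) ^ ((1 : ℝ) / 6)) := by rw [e2]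
          _ ≤ 2 * ((X : ℝ) ^ ((5 : ℝ) / 6) * (1.75 * (m : ℝ) ^ (1 / 2 : ℝ))) := by gcongr
          _ = _ := by ring
      exact le_of_mul_le_mul_right e3 hmh
    have hXX : 0 < (X : ℝ) ^ ((5 : ℝ) / 6) := by positivity
    have hLL : 0 < L ^ ((3 : ℝ) / 2) := by positivity
    have hlog1 : 0 ≤ Real.log (1 + L) := Real.log_nonneg (by linarith)
    have f1 : Cs * (1 + Real.log (1 + Real.log Y)) * (Kq * Qx) ≤
        Cs * Kq * ((1 + Real.log (1 + L)) * Qx) := by
      calc Cs * (1 + Real.log (1 + Real.log Y)) * (Kq * Qx) =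
            Cs * Kq * ((1 + Real.log (1 + Real.log Y)) * Qx) := by ring
        _ ≤ _ := by gcongr
    have f2 : Cs * (Real.log Y) ^ (-(3 / 2) : ℝ) *
        ((A * m) ^ (5 / 6 : ℝ) + A * (m : ℝ) ^ (1 / 2 : ℝ)) ≤ 24 * Cs * Qx := by
      calc Cs * (Real.log Y) ^ (-(3 / 2) : ℝ) *
            ((A * m) ^ (5 / 6 : ℝ) + A * (m : ℝ) ^ (1 / 2 : ℝ))
          ≤ Cs * (4 / L ^ ((3 : ℝ) / 2)) *
            (2 * (X : ℝ) ^ ((5 : ℝ) / 6) + 3.5 * (X : ℝ) ^ ((5 : ℝ) / 6)) := by gcongr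
        _ = 22 * Cs * Qx := by rw [hQx]; field_simp; norm_num
        _ ≤ 24 * Cs * Qx := by gcongr; norm_num
    have f3 : 24 * Cs * Qx ≤ 24 * Cs * ((1 + Real.log (1 + L)) * Qx) := by
      apply mul_le_mul_of_nonneg_left _ (by positivity)
      nlinarith
    calc _ ≤ Cs * Kq * ((1 + Real.log (1 + L)) * Qx) + 24 * Cs * Qx := add_le_add f1 f2
      _ ≤ Cs * Kq * ((1 + Real.log (1 + L)) * Qx) +
          24 * Cs * ((1 + Real.log (1 + L)) * Qx) := by linarith
      _ = _ := by ring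
  rw [Tb_eq]
  set SF := (PA N m1 m2).filter (fun a => Squarefree a) with hSF
  rw [← Finset.sum_filter_add_sum_filter_not SF (fun a => nm a ≤ 2 * (m1 * m2))]
  have b1 := hbox (SF.filter (fun a => nm a ≤ 2 * (m1 * m2))) a0 (Finset.filter_subset _ _) le_rfl
    (by linarith) (by
      intro a ha
      rw [Finset.mem_filter] at ha
      have h := mem_PA (Finset.mem_filter.mp ha.1).1
      rw [ha0]
      exact ⟨by exact_mod_cast h.2.1, by exact_mod_cast ha.2⟩)
  have b2 := hbox (SF.filter (fun a => ¬ nm a ≤ 2 * (m1 * m2))) (2 * a0)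
    (Finset.filter_subset _ _) (by linarith) le_rfl (by
      intro a ha
      rw [Finset.mem_filter] at ha
      have h := mem_PA (Finset.mem_filter.mp ha.1).1
      rw [ha0]
      have h1 : 2 * (m1 * m2) ≤ nm a := by omega
      have h2 : nm a ≤ 2 * (2 * (m1 * m2)) := by omega
      exact ⟨by exact_mod_cast h1, by exact_mod_cast h2⟩)
  rw [norm_mul, Complex.norm_ofNat]
  calc _ ≤ 2 * ((Cs * Kq + 24 * Cs) * ((1 + Real.log (1 + L)) * Qx) +
        (Cs * Kq + 24 * Cs) * ((1 + Real.log (1 + L)) * Qx)) := by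
        apply mul_le_mul_of_nonneg_left _ (by norm_num)
        exact (norm_add_le _ _).trans (add_le_add b1 b2)
    _ = _ := by ring

end Crest.Agent.R012.Edge79
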