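import Crest.Agent.R012.EdgeJ_79
import Crest.Agent.R012.SpecMain_48

/-!
# Row 12 (TIII): `Main48.Edge_Prop` from `T8b`
-/

set_option autoImplicit false

noncomputable section

namespace Crest.Agent.R012.Edge79

open Eis CharSum852 Tau671 Buch420 Main48

/-! ### dyadic decomposition -/

open Classical in
/-- all primary primes of norm `≤ N` -/
def PN (N : ℕ) : Finset Eis := (primBall N).filter (fun p => Prime p)

lemma mem_PN {N : ℕ} {p : Eis} : p ∈ PN N ↔ nm p ≤ N ∧ IsPrim p ∧ Prime p := by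
  simp only [PN, Finset.mem_filter, mem_primBall]; tauto

lemma sum_dyadic {N I : ℕ} (hI : N ≤ 2 ^ I) (g : Eis → ℂ) :
    ∑ p ∈ PN N, g p = ∑ i ∈ Finset.range I, ∑ p ∈ PB N (2 ^ i), g p := by
  classical
  rw [← Finset.sum_fiberwise_of_maps_to (s := PN N) (t := Finset.range I)
    (g := fun p => Nat.log 2 (nm p - 1))]
  · refine Finset.sum_congr rfl fun i _ => Finset.sum_congr ?_ fun _ _ => rfl
    ext p
    rw [Finset.mem_filter, mem_PN, mem_PB]
    constructor
    · rintro ⟨⟨h1, h2, h3⟩, h4⟩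
      have h5 := Cheb420.nm_two_le h3
      have h6 := (Nat.log_eq_iff (b := 2) (m := i) (n := nm p - 1) (Or.inr ⟨by norm_num, by omega⟩)).mp h4
      refine ⟨h2, h3, by omega, h1, ?_⟩
      have := h6.2
      rw [pow_succ] at this
      omega
    · rintro ⟨h2, h3, h4, h1, h5⟩
      have h6 := Cheb420.nm_two_le h3
      refine ⟨⟨h1, h2, h3⟩, ?_⟩
      rw [Nat.log_eq_iff (Or.inr ⟨by norm_num, by omega⟩)]
      refine ⟨by omega, ?_⟩
      rw [pow_succ]; omega
  · intro p hp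
    rw [mem_PN] at hp
    have h6 := Cheb420.nm_two_le hp.2.2
    rw [Finset.mem_range]
    apply Nat.log_lt_of_lt_pow (by omega)
    omega

/-- transfer from `PrP` to `Eis` -/
lemma sum_transfer (X N : ℕ) (D : ℝ) (hN : N = min X (⌈D⌉₊ - 1)) (g : Eis → ℂ) :
    ∑ p ∈ (UX X).filter (fun p => (nm p.1 : ℝ) < D), g p.1 = ∑ p ∈ PN N, g p := by
  classical
  have hinj : Function.Injective (fun p : PrP => p.1) := Subtype.val_injective
  rw [← Finset.sum_image (f := g) (g := fun p : PrP => p.1) (fun a _ b _ h => hinj h)]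
  refine Finset.sum_congr ?_ fun _ _ => rfl
  ext z
  rw [Finset.mem_image, mem_PN]
  constructor
  · rintro ⟨p, hp, rfl⟩
    rw [Finset.mem_filter, mem_UX] at hp
    refine ⟨?_, p.isPrim, p.prime⟩
    have h1 := Nat.lt_ceil.mpr hp.2
    rw [hN]; omega
  · rintro ⟨h1, h2, h3⟩
    refine ⟨⟨z, h2, h3⟩, ?_, rfl⟩
    rw [Finset.mem_filter, mem_UX]
    have h4 := Cheb420.nm_two_le h3
    have h5 : nm z ≤ X := by rw [hN] at h1; omega
    have h6 : nm z < ⌈D⌉₊ := by rw [hN] at h1; omega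
    exact ⟨h5, Nat.lt_ceil.mp h6⟩

/-! ### symmetry of `Tb` -/

lemma Tb_swap12 (l : ℤ) (Y N m m1 m2 : ℕ) : Tb l Y N m m1 m2 = Tb l Y N m1 m m2 := by
  unfold Tb
  rw [Finset.sum_comm]
  refine Finset.sum_congr rfl fun p _ => Finset.sum_congr rfl fun q _ =>
    Finset.sum_congr rfl fun r _ => ?_
  rw [mul_comm p q]

lemma Tb_swap23 (l : ℤ) (Y N m m1 m2 : ℕ) : Tb l Y N m m1 m2 = Tb l Y N m m2 m1 := by
  unfold Tb
  refine Finset.sum_congr rfl fun p _ => ?_
  rw [Finset.sum_comm]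
  refine Finset.sum_congr rfl fun q _ => Finset.sum_congr rfl fun r _ => ?_
  have : p * q * r = p * r * q := by ring
  rw [this]

/-- the box bound without the assumption that the first box is the largest -/
lemma Tb_le' (h8 : EdgeSharp968.T8b) (l : ℤ) (C1 : ℕ) : ∃ K : ℝ, 0 < K ∧ ∃ X0 : ℕ,
    ∀ X : ℕ, X0 ≤ X → ∀ (N m m1 m2 Y : ℕ), X ≤ 16 * (m * (m1 * m2)) →
      m * (m1 * m2) ≤ X → (m : ℝ) ^ 3 ≤ X * Real.log X ^ C1 →
      (m1 : ℝ) ^ 3 ≤ X * Real.log X ^ C1 → (m2 : ℝ) ^ 3 ≤ X * Real.log X ^ C1 →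
      Y ≤ X → X ≤ 3 * Y →
      ‖Tb l Y N m m1 m2‖ ≤ K * ((1 + Real.log (1 + Real.log X)) *
        ((X : ℝ) ^ ((5 : ℝ) / 6) / Real.log X ^ ((3 : ℝ) / 2))) := by
  obtain ⟨K, hK, X0, h⟩ := Tb_le h8 l C1
  refine ⟨K, hK, X0, ?_⟩
  intro X hX N m m1 m2 Y h1 h2 h3 h4 h5 h6 h7
  by_cases ha : m1 ≤ m ∧ m2 ≤ m
  · exact h X hX N m m1 m2 Y ha.1 ha.2 h1 h2 h3 h6 h7
  · by_cases hb : m ≤ m1 ∧ m2 ≤ m1
    · rw [Tb_swap12]
      have e : m1 * (m * m2) = m * (m1 * m2) := by ring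
      exact h X hX N m1 m m2 Y hb.1 hb.2 (by rw [e]; exact h1) (by rw [e]; exact h2) h4 h6 h7
    · have hc : m ≤ m2 ∧ m1 ≤ m2 := by omega
      rw [Tb_swap23, Tb_swap12]
      have e : m2 * (m * m1) = m * (m1 * m2) := by ring
      exact h X hX N m2 m m1 Y hc.1 hc.2 (by rw [e]; exact h1) (by rw [e]; exact h2) h5 h6 h7

/-- the sum over a box of triples, with the model -/
def T3 (l : ℤ) (X N m m1 m2 : ℕ) : ℂ :=
  ∑ p ∈ PB N m, ∑ q ∈ PB N m1, ∑ r ∈ PB N m2, FX l X (p * q * r)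

lemma T3_le {l : ℤ} {X N m m1 m2 : ℕ} (hX : 1 ≤ X) :
    ‖T3 l X N m m1 m2‖ ≤ ‖Tb l X N m m1 m2‖ + ‖Tb l (X / 2) N m m1 m2‖ +
      |pC| * (2 * (X : ℝ) ^ (-(1 : ℝ) / 6)) *
        ((PB N m).card * ((PB N m1).card * (PB N m2).card)) := by
  classical
  set Mo : ℂ := ∑ p ∈ PB N m, ∑ q ∈ PB N m1, ∑ r ∈ PB N m2,
    (if X < 2 * nm (p * q * r) ∧ nm (p * q * r) ≤ X ∧ Squarefree (p * q * r) then
      ang l (p * q * r) * ((pC * (nm (p * q * r) : ℝ) ^ (-(1 : ℝ) / 6) : ℝ) : ℂ) else 0) with hMo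
  have e : T3 l X N m m1 m2 = Tb l X N m m1 m2 - Tb l (X / 2) N m m1 m2 - Mo := by
    unfold T3 Tb
    rw [hMo, ← Finset.sum_sub_distrib, ← Finset.sum_sub_distrib]
    refine Finset.sum_congr rfl fun p hp => ?_
    rw [← Finset.sum_sub_distrib, ← Finset.sum_sub_distrib]
    refine Finset.sum_congr rfl fun q hq => ?_
    rw [← Finset.sum_sub_distrib, ← Finset.sum_sub_distrib]
    refine Finset.sum_congr rfl fun r hr => ?_
    have hn : IsPrim (p * q * r) := ((mem_PB.mp hp).1.mul (mem_PB.mp hq).1).mul (mem_PB.mp hr).1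
    unfold FX Fl
    by_cases hsf : Squarefree (p * q * r)
    · by_cases h1 : nm (p * q * r) ≤ X
      · by_cases h2 : X < 2 * nm (p * q * r)
        · have h3 : ¬ nm (p * q * r) ≤ X / 2 := by omega
          simp only [h1, h2, h3, hsf, and_self, if_true, if_false]
          ring
        · have h3 : nm (p * q * r) ≤ X / 2 := by omega
          simp only [h1, h2, h3, hsf, and_self, if_true, if_false, false_and]
          ring
      · have h3 : ¬ nm (p * q * r) ≤ X / 2 := by omega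
        simp only [h1, h3, hsf, and_false, if_false, false_and]
        ring
    · have hG : G (p * q * r) = 0 := Gauss880.G_eq_zero Gauss880.syG hn hsf
      simp [hsf, hG]
  rw [e]
  refine (norm_sub_le _ _).trans (add_le_add (norm_sub_le _ _) ?_)
  rw [hMo]
  have hXr : (0 : ℝ) < X := by exact_mod_cast hX
  set W : ℝ := |pC| * (2 * (X : ℝ) ^ (-(1 : ℝ) / 6)) with hW
  have hW0 : 0 ≤ W := by positivity
  calc _ ≤ ∑ p ∈ PB N m, ∑ q ∈ PB N m1, ∑ r ∈ PB N m2, W := by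
        refine (norm_sum_le _ _).trans (Finset.sum_le_sum fun p _ => ?_)
        refine (norm_sum_le _ _).trans (Finset.sum_le_sum fun q _ => ?_)
        refine (norm_sum_le _ _).trans (Finset.sum_le_sum fun r _ => ?_)
        split_ifs with h
        · obtain ⟨h1, h2, h3⟩ := h
          rw [norm_mul, Complex.norm_real, Real.norm_eq_abs, abs_mul]
          have hr1 : (X : ℝ) / 2 ≤ nm (p * q * r) := by
            have : (X : ℝ) < 2 * nm (p * q * r) := by exact_mod_cast h1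
            linarith
          have hr2 : (nm (p * q * r) : ℝ) ^ (-(1 : ℝ) / 6) ≤ 2 * (X : ℝ) ^ (-(1 : ℝ) / 6) := by
            have e1 : (nm (p * q * r) : ℝ) ^ (-(1 : ℝ) / 6) ≤ ((X : ℝ) / 2) ^ (-(1 : ℝ) / 6) :=
              Real.rpow_le_rpow_of_nonpos (by positivity) hr1 (by norm_num)
            refine e1.trans ?_
            rw [Real.div_rpow hXr.le (by norm_num), div_eq_mul_inv, mul_comm]
            apply mul_le_mul_of_nonneg_right _ (by positivity)
            rw [← Real.rpow_neg (by norm_num)]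
            calc (2 : ℝ) ^ (-(-(1 : ℝ) / 6)) ≤ 2 ^ (1 : ℝ) :=
                  Real.rpow_le_rpow_of_exponent_le (by norm_num) (by norm_num)
              _ = 2 := Real.rpow_one _
          have hr3 : 0 ≤ (nm (p * q * r) : ℝ) ^ (-(1 : ℝ) / 6) := by positivity
          rw [abs_of_nonneg hr3]
          have h4 := P355.norm_ang_le l (p * q * r)
          calc ‖ang l (p * q * r)‖ * (|pC| * (nm (p * q * r) : ℝ) ^ (-(1 : ℝ) / 6))
              ≤ 1 * (|pC| * (2 * (X : ℝ) ^ (-(1 : ℝ) / 6))) := by gcongr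
            _ = W := by rw [one_mul]
        · simpa using hW0
    _ = _ := by
        simp only [Finset.sum_const, nsmul_eq_mul]
        ring

end Crest.Agent.R012.Edge79
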