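import Mathlib

/-!
# Row 12: the Eisenstein integers as a concrete ring

`Eis = ℤ[ω]`, `ω² = -1 - ω`, realised as `QuadraticAlgebra ℤ (-1) (-1)`:
an element is `⟨re, im⟩ = re + im·ω`.

* `Eis.w` : `ω`
* `Eis.nm z : ℕ` : the norm `re² - re·im + im²`
* `Eis.emb : Eis →+* ℂ` : the embedding `ω ↦ exp(2πi/3)`
* Euclidean domain instance, classification of units, the prime `lam = 1 - ω`, primary elements.
-/

set_option autoImplicit false
set_option linter.unusedSimpArgs false
set_option linter.unusedVariables false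

noncomputable section

namespace Crest.Agent.R012

/-- The Eisenstein integers `re + im·ω`, `ω² = -1 - ω`. -/
abbrev Eis : Type := QuadraticAlgebra ℤ (-1) (-1)

namespace Eis

/-- `ω`. -/
def w : Eis := ⟨0, 1⟩

@[simp] lemma w_re : w.re = 0 := rfl
@[simp] lemma w_im : w.im = 1 := rfl
@[simp] lemma one_re' : (1 : Eis).re = 1 := rfl
@[simp] lemma one_im' : (1 : Eis).im = 0 := rfl

lemma ext' {x y : Eis} (h1 : x.re = y.re) (h2 : x.im = y.im) : x = y := by
  cases x; cases y; simp_all

lemma re_mul' (x y : Eis) : (x * y).re = x.re * y.re - x.im * y.im := by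
  simp [QuadraticAlgebra.re_mul]; ring

lemma im_mul' (x y : Eis) : (x * y).im = x.re * y.im + x.im * y.re - x.im * y.im := by
  simp [QuadraticAlgebra.im_mul]; ring

lemma w_sq : w ^ 2 = -1 - w := by
  rw [pow_two]
  apply ext' <;> simp [re_mul', im_mul']

lemma w_cube : w ^ 3 = 1 := by
  rw [pow_succ, w_sq]
  apply ext' <;> simp [re_mul', im_mul']

lemma one_add_w_add : 1 + w + w ^ 2 = 0 := by
  rw [w_sq]; ring

lemma eq_re_add (z : Eis) : z = (z.re : Eis) + (z.im : Eis) * w := by
  apply ext' <;> simp [re_mul', im_mul']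

/-! ### Norm -/

/-- The norm, as a natural number. -/
def nm (z : Eis) : ℕ := (z.re ^ 2 - z.re * z.im + z.im ^ 2).natAbs

lemma form_nonneg (a b : ℤ) : 0 ≤ a ^ 2 - a * b + b ^ 2 := by
  nlinarith [sq_nonneg (a - b), sq_nonneg a, sq_nonneg b, sq_nonneg (a + b)]

lemma nm_cast (z : Eis) : (nm z : ℤ) = z.re ^ 2 - z.re * z.im + z.im ^ 2 := by
  unfold nm
  exact Int.natAbs_of_nonneg (form_nonneg _ _)

lemma norm_eq_nm (z : Eis) : QuadraticAlgebra.norm z = (nm z : ℤ) := by
  rw [nm_cast, QuadraticAlgebra.norm_def]; ring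

lemma nm_mul (x y : Eis) : nm (x * y) = nm x * nm y := by
  have : (nm (x * y) : ℤ) = nm x * nm y := by
    simp only [nm_cast, re_mul', im_mul']; ring
  exact_mod_cast this

@[simp] lemma nm_one : nm 1 = 1 := by simp [nm]
@[simp] lemma nm_zero : nm 0 = 0 := by simp [nm]
@[simp] lemma nm_w : nm w = 1 := by simp [nm]
@[simp] lemma nm_neg (x : Eis) : nm (-x) = nm x := by
  have : (nm (-x) : ℤ) = nm x := by
    simp only [nm_cast, QuadraticAlgebra.re_neg, QuadraticAlgebra.im_neg]; ring
  exact_mod_cast this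

lemma nm_pow (x : Eis) (n : ℕ) : nm (x ^ n) = nm x ^ n := by
  induction n with
  | zero => simp
  | succ n ih => rw [pow_succ, nm_mul, ih, pow_succ]

/-- The norm as a monoid homomorphism. -/
def nmHom : Eis →*₀ ℕ where
  toFun := nm
  map_zero' := nm_zero
  map_one' := nm_one
  map_mul' := nm_mul

@[simp] lemma nmHom_apply (x : Eis) : nmHom x = nm x := rfl

lemma nm_eq_zero {z : Eis} : nm z = 0 ↔ z = 0 := by
  constructor
  · intro h
    have h' : (nm z : ℤ) = 0 := by exact_mod_cast h
    rw [nm_cast] at h'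
    have h1 : z.re = 0 := by nlinarith [sq_nonneg (z.re - 2 * z.im), sq_nonneg z.re]
    have h2 : z.im = 0 := by rw [h1] at h'; nlinarith
    exact ext' (by simpa using h1) (by simpa using h2)
  · rintro rfl; simp

lemma nm_pos {z : Eis} : 0 < nm z ↔ z ≠ 0 := by
  rw [Nat.pos_iff_ne_zero, Ne, nm_eq_zero]

lemma nm_natCast (n : ℕ) : nm (n : Eis) = n ^ 2 := by
  have : (nm (n : Eis) : ℤ) = n ^ 2 := by
    rw [nm_cast]; simp
  exact_mod_cast this

lemma nm_intCast (n : ℤ) : (nm (n : Eis) : ℤ) = n ^ 2 := by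
  rw [nm_cast]; simp

/-- Conjugation. -/
def conj (z : Eis) : Eis := ⟨z.re - z.im, -z.im⟩

@[simp] lemma conj_re (z : Eis) : (conj z).re = z.re - z.im := rfl
@[simp] lemma conj_im (z : Eis) : (conj z).im = -z.im := rfl

lemma mul_conj (z : Eis) : z * conj z = (nm z : Eis) := by
  apply ext'
  · rw [re_mul', QuadraticAlgebra.re_natCast, nm_cast]; simp; ring
  · rw [im_mul', QuadraticAlgebra.im_natCast]; simp; ring

/-- Conjugation as a ring automorphism. -/
def conjHom : Eis →+* Eis where
  toFun := conj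
  map_zero' := by apply ext' <;> simp
  map_one' := by apply ext' <;> simp
  map_add' x y := by apply ext' <;> simp <;> ring
  map_mul' x y := by apply ext' <;> simp [re_mul', im_mul'] <;> ring

@[simp] lemma conjHom_apply (z : Eis) : conjHom z = conj z := rfl
@[simp] lemma conj_conj (z : Eis) : conj (conj z) = z := by apply ext' <;> simp
lemma conj_mul (x y : Eis) : conj (x * y) = conj x * conj y := conjHom.map_mul x y
lemma conj_add (x y : Eis) : conj (x + y) = conj x + conj y := conjHom.map_add x y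
lemma conj_sub (x y : Eis) : conj (x - y) = conj x - conj y := conjHom.map_sub x y
@[simp] lemma conj_one : conj 1 = 1 := conjHom.map_one
@[simp] lemma conj_zero : conj 0 = 0 := conjHom.map_zero
@[simp] lemma conj_w : conj w = w ^ 2 := by
  rw [w_sq]; apply ext' <;> simp
@[simp] lemma nm_conj (z : Eis) : nm (conj z) = nm z := by
  have : (nm (conj z) : ℤ) = nm z := by simp only [nm_cast, conj_re, conj_im]; ring
  exact_mod_cast this

lemma conj_dvd_conj {x y : Eis} (h : x ∣ y) : conj x ∣ conj y := by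
  obtain ⟨t, rfl⟩ := h; exact ⟨conj t, conj_mul _ _⟩

instance : IsDomain Eis := by
  have : NoZeroDivisors Eis := ⟨by
    intro a b h
    have h2 : nm a * nm b = 0 := by rw [← nm_mul, h, nm_zero]
    rcases Nat.mul_eq_zero.mp h2 with h | h
    · exact Or.inl (nm_eq_zero.mp h)
    · exact Or.inr (nm_eq_zero.mp h)⟩
  exact NoZeroDivisors.to_isDomain Eis

instance : CharZero Eis := by
  refine ⟨fun a b h => ?_⟩
  have := congrArg QuadraticAlgebra.re h
  simpa using this

/-! ### Units -/

lemma isUnit_iff {z : Eis} : IsUnit z ↔ nm z = 1 := by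
  constructor
  · rintro ⟨u, rfl⟩
    have : nm (u : Eis) * nm ((u⁻¹ : Eisˣ) : Eis) = 1 := by
      rw [← nm_mul]; simp
    exact Nat.eq_one_of_mul_eq_one_right this
  · intro h
    have := mul_conj z
    rw [h, Nat.cast_one] at this
    exact IsUnit.of_mul_eq_one _ this

lemma isUnit_cases {z : Eis} (h : IsUnit z) :
    z = 1 ∨ z = -1 ∨ z = w ∨ z = -w ∨ z = w ^ 2 ∨ z = -w ^ 2 := by
  have h1 : (nm z : ℤ) = 1 := by rw [isUnit_iff.mp h]; rfl
  rw [nm_cast] at h1
  obtain ⟨a, b⟩ := z
  simp only at h1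
  have ha : a ^ 2 ≤ 1 := by nlinarith [sq_nonneg (a - 2 * b)]
  have hb : b ^ 2 ≤ 1 := by nlinarith [sq_nonneg (2 * a - b)]
  have ha1 : -1 ≤ a := by nlinarith
  have ha2 : a ≤ 1 := by nlinarith
  have hb1 : -1 ≤ b := by nlinarith
  have hb2 : b ≤ 1 := by nlinarith
  have e2 : w ^ 2 = (⟨-1, -1⟩ : Eis) := by
    rw [w_sq]; apply ext' <;> simp
  rw [e2]
  interval_cases a <;> interval_cases b <;> simp at h1
  · right; right; right; right; left; rfl
  · right; left; apply ext' <;> simp
  · right; right; right; left; apply ext' <;> simp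
  · right; right; left; rfl
  · left; rfl
  · right; right; right; right; right; apply ext' <;> simp

lemma isUnit_w : IsUnit w := isUnit_iff.mpr nm_w

/-- `ω` as a unit. -/
def wU : Eisˣ := isUnit_w.unit
@[simp] lemma wU_val : (wU : Eis) = w := rfl

/-- Every unit is `± ω^k`. -/
lemma isUnit_exists {z : Eis} (h : IsUnit z) :
    ∃ k : ℕ, k < 3 ∧ (z = w ^ k ∨ z = -w ^ k) := by
  rcases isUnit_cases h with rfl | rfl | rfl | rfl | rfl | rfl
  · exact ⟨0, by norm_num, Or.inl (by simp)⟩
  · exact ⟨0, by norm_num, Or.inr (by simp)⟩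
  · exact ⟨1, by norm_num, Or.inl (by simp)⟩
  · exact ⟨1, by norm_num, Or.inr (by simp)⟩
  · exact ⟨2, by norm_num, Or.inl rfl⟩
  · exact ⟨2, by norm_num, Or.inr rfl⟩

/-! ### Euclidean structure -/

/-- Rounded quotient. -/
def quo (x y : Eis) : Eis :=
  let t := x * conj y
  let n : ℤ := ((nm y : ℕ) : ℤ)
  ⟨(2 * t.re + n) / (2 * n), (2 * t.im + n) / (2 * n)⟩

lemma round_bound (a n : ℤ) (hn : 0 < n) :
    4 * (a - n * ((2 * a + n) / (2 * n))) ^ 2 ≤ n ^ 2 := by
  have h1 := Int.emod_add_mul_ediv (2 * a + n) (2 * n)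
  have h2 := Int.emod_nonneg (2 * a + n) (show 2 * n ≠ 0 by omega)
  have h3 := Int.emod_lt_of_pos (2 * a + n) (show 0 < 2 * n by omega)
  set q := (2 * a + n) / (2 * n)
  set r := (2 * a + n) % (2 * n)
  have h4 : 2 * (a - n * q) = r - n := by linarith
  have h5 : 4 * (a - n * q) ^ 2 = (r - n) ^ 2 := by rw [← h4]; ring
  rw [h5]
  nlinarith

lemma nm_sub_quo_lt (x : Eis) {y : Eis} (hy : y ≠ 0) : nm (x - y * quo x y) < nm y := by
  have hn : 0 < (nm y : ℤ) := by exact_mod_cast nm_pos.mpr hy
  set t := x * conj y with ht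
  set n : ℤ := ((nm y : ℕ) : ℤ) with hndef
  set q := quo x y with hq
  have key : (nm (x - y * q) : ℤ) * n = nm (t - (n : Eis) * q) := by
    have : (x - y * q) * conj y = t - (n : Eis) * q := by
      have := mul_conj y
      rw [sub_mul, ← ht]
      congr 1
      have h2 : ((n : ℤ) : Eis) = ((nm y : ℕ) : Eis) := by rw [hndef]; simp
      rw [h2, ← this]; ring
    rw [← this, nm_mul, nm_conj]; push_cast; rfl
  have hre : (t - (n : Eis) * q).re = t.re - n * ((2 * t.re + n) / (2 * n)) := by
    simp [re_mul', hq, quo, ← ht, ← hndef]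
  have him : (t - (n : Eis) * q).im = t.im - n * ((2 * t.im + n) / (2 * n)) := by
    simp [im_mul', hq, quo, ← ht, ← hndef]
  have b1 := round_bound t.re n hn
  have b2 := round_bound t.im n hn
  rw [← hre] at b1
  rw [← him] at b2
  set u := (t - (n : Eis) * q).re
  set v := (t - (n : Eis) * q).im
  have hnm : (nm (t - (n : Eis) * q) : ℤ) = u ^ 2 - u * v + v ^ 2 := nm_cast _
  have h6 : (nm (x - y * q) : ℤ) * n < n * n := by
    rw [key, hnm]
    nlinarith [sq_nonneg (u + v), sq_nonneg (u - v)]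
  have h7 : (nm (x - y * q) : ℤ) < n := lt_of_mul_lt_mul_right h6 hn.le
  rw [hndef] at h7
  exact Int.ofNat_lt.mp h7

instance instEuclideanDomain : EuclideanDomain Eis :=
  { (inferInstance : CommRing Eis), (inferInstance : Nontrivial Eis) with
    quotient := quo
    quotient_zero := fun x => by
      unfold quo; apply ext' <;> simp
    remainder := fun x y => x - y * quo x y
    quotient_mul_add_remainder_eq := fun x y => by ring
    r := fun x y => nm x < nm y
    r_wellFounded := (measure nm).wf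
    remainder_lt := fun x {y} hy => nm_sub_quo_lt x hy
    mul_left_not_lt := fun x {y} hy h => by
      rw [nm_mul] at h
      have := nm_pos.mpr hy
      nlinarith [Nat.zero_le (nm x)] }

example : IsPrincipalIdealRing Eis := inferInstance
example : UniqueFactorizationMonoid Eis := inferInstance

end Eis

end Crest.Agent.R012
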