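import Crest.Agent.R012.NonCubeW_52
import Crest.Agent.R012.Per_277

/-!
# Row 12, items TN / TNX: the engine for weighted dual sums

Weight `omx x = min (x^(1/4)) (x^2)` evaluated at `x = K / nm h`; `h = kv κ * m^3`.
-/

set_option autoImplicit false
set_option linter.unusedVariables false
set_option linter.unusedSectionVars false

noncomputable section

namespace Crest.Agent.R012.NonCube52

open Finset Eis LS448 CharSum852 Char766

/-- the weight -/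
def omx (x : ℝ) : ℝ := min (x ^ ((1 : ℝ) / 4)) (x ^ (2 : ℝ))

/-- `μ(x) = min (x^(1/3)) (x^2)` -/
def mux (x : ℝ) : ℝ := min (x ^ ((1 : ℝ) / 3)) (x ^ (2 : ℝ))

lemma omx_nonneg {x : ℝ} (hx : 0 ≤ x) : 0 ≤ omx x := by
  unfold omx; exact le_min (by positivity) (by positivity)

lemma mux_nonneg {x : ℝ} (hx : 0 ≤ x) : 0 ≤ mux x := by
  unfold mux; exact le_min (by positivity) (by positivity)

lemma omx_mono {x y : ℝ} (hx : 0 ≤ x) (hxy : x ≤ y) : omx x ≤ omx y := by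
  unfold omx
  exact min_le_min (Real.rpow_le_rpow hx hxy (by norm_num)) (Real.rpow_le_rpow hx hxy (by norm_num))

lemma mux_le_third (x : ℝ) : mux x ≤ x ^ ((1 : ℝ) / 3) := min_le_left _ _

lemma mux_le_sq (x : ℝ) : mux x ≤ x ^ (2 : ℝ) := min_le_right _ _

/-- `Σ_{z ≠ 0} nm(z)^(-2)` beyond `V`. -/
lemma sum_tail2 {V : ℝ} (hV : 1 ≤ V) (M : Finset Eis) (hM : ∀ m ∈ M, m ≠ 0 ∧ V < nm m) :
    ∑ m ∈ M, (nm m : ℝ) ^ (-(2 : ℝ)) ≤ 400 * V⁻¹ := by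
  classical
  have h1 : 1 ≤ ⌊V⌋₊ := Nat.le_floor (by simpa using hV)
  set Y : ℕ := ∑ m ∈ M, nm m with hY
  have hsub : M ⊆ Div277.nz Y \ Div277.nz ⌊V⌋₊ := by
    intro m hm
    obtain ⟨h0, h2⟩ := hM m hm
    rw [mem_sdiff, Div277.mem_nz, Div277.mem_nz]
    refine ⟨⟨h0, single_le_sum (f := fun m => nm m) (fun _ _ => Nat.zero_le _) hm⟩, ?_⟩
    rintro ⟨-, h3⟩
    have h4 : (nm m : ℝ) ≤ V := le_trans (by exact_mod_cast h3) (Nat.floor_le (by linarith))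
    linarith
  have h2 := Per277.sum_nz_tail_le (s := 2) (by norm_num) h1 Y
  have h3 : (0 : ℝ) < ⌊V⌋₊ := by exact_mod_cast h1
  have h4 : V ≤ 2 * ⌊V⌋₊ := by
    have := Nat.lt_floor_add_one V
    have : (1 : ℝ) ≤ ⌊V⌋₊ := by exact_mod_cast h1
    linarith
  calc ∑ m ∈ M, (nm m : ℝ) ^ (-(2 : ℝ))
      ≤ ∑ m ∈ Div277.nz Y \ Div277.nz ⌊V⌋₊, (nm m : ℝ) ^ (-(2 : ℝ)) :=
        sum_le_sum_of_subset_of_nonneg hsub fun _ _ _ => by positivity
    _ ≤ 100 * (2 / (2 - 1) * (⌊V⌋₊ : ℝ) ^ (1 - 2 : ℝ)) := h2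
    _ = 200 * (⌊V⌋₊ : ℝ)⁻¹ := by
        rw [show (1 - 2 : ℝ) = -1 by norm_num, Real.rpow_neg_one]; ring
    _ ≤ 200 * (2 * V⁻¹) := by
        gcongr
        rw [← div_eq_mul_inv, inv_eq_one_div, div_le_div_iff₀ h3 (by linarith)]
        linarith
    _ = _ := by ring

lemma sum_head34 {V : ℝ} (hV : 1 ≤ V) (M : Finset Eis) (hM : ∀ m ∈ M, m ≠ 0 ∧ (nm m : ℝ) ≤ V) :
    ∑ m ∈ M, (nm m : ℝ) ^ (-(3 / 4 : ℝ)) ≤ 400 * V ^ ((1 : ℝ) / 4) := by
  classical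
  have hsub : M ⊆ Div277.nz ⌊V⌋₊ := by
    intro m hm
    obtain ⟨h0, h2⟩ := hM m hm
    rw [Div277.mem_nz]
    exact ⟨h0, Nat.le_floor h2⟩
  have h2 := Per277.sum_nz_rpow_neg_le (s := 3 / 4) (by norm_num) (by norm_num) ⌊V⌋₊
  have h3 : (⌊V⌋₊ : ℝ) ≤ V := Nat.floor_le (by linarith)
  calc ∑ m ∈ M, (nm m : ℝ) ^ (-(3 / 4 : ℝ))
      ≤ ∑ m ∈ Div277.nz ⌊V⌋₊, (nm m : ℝ) ^ (-(3 / 4 : ℝ)) :=
        sum_le_sum_of_subset_of_nonneg hsub fun _ _ _ => by positivity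
    _ ≤ 100 * ((⌊V⌋₊ : ℝ) ^ (1 - 3 / 4 : ℝ) / (1 - 3 / 4)) := h2
    _ = 400 * (⌊V⌋₊ : ℝ) ^ ((1 : ℝ) / 4) := by
        rw [show (1 - 3 / 4 : ℝ) = 1 / 4 by norm_num]; ring
    _ ≤ 400 * V ^ ((1 : ℝ) / 4) := by gcongr

/-- sum of the weight over the cofactors `m`. -/
lemma om_m_sum : ∃ C : ℝ, 0 < C ∧ ∀ x : ℝ, 0 < x → ∀ M : Finset Eis, (∀ m ∈ M, m ≠ 0) →
    ∑ m ∈ M, omx (x / (nm m : ℝ) ^ 3) ≤ C * mux x := by
  classical
  obtain ⟨C3, hC3, hsum⟩ := sum_nz_43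
  refine ⟨800 + C3, by positivity, fun x hx M hM => ?_⟩
  rcases le_total 1 x with h1 | h1
  · -- `x ≥ 1`
    have hmu : mux x = x ^ ((1 : ℝ) / 3) := by
      unfold mux
      exact min_eq_left (Real.rpow_le_rpow_of_exponent_le h1 (by norm_num))
    set V : ℝ := x ^ ((1 : ℝ) / 3) with hV
    have hV1 : 1 ≤ V := Real.one_le_rpow h1 (by norm_num)
    have hV0 : 0 < V := by linarith
    have hxV : x = V ^ 3 := by
      rw [hV, ← Real.rpow_natCast, ← Real.rpow_mul hx.le]; norm_num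
    rw [hmu, ← sum_filter_add_sum_filter_not M (fun m => (nm m : ℝ) ≤ V)]
    have ha : ∑ m ∈ M with (nm m : ℝ) ≤ V, omx (x / (nm m : ℝ) ^ 3) ≤ 400 * V := by
      have h2 := sum_head34 hV1 (M.filter (fun m => (nm m : ℝ) ≤ V)) (fun m hm => by
        rw [mem_filter] at hm; exact ⟨hM m hm.1, hm.2⟩)
      calc ∑ m ∈ M with (nm m : ℝ) ≤ V, omx (x / (nm m : ℝ) ^ 3)
          ≤ ∑ m ∈ M with (nm m : ℝ) ≤ V, V ^ ((3 : ℝ) / 4) * (nm m : ℝ) ^ (-(3 / 4 : ℝ)) := by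
            refine sum_le_sum fun m hm => ?_
            rw [mem_filter] at hm
            have hn : (0 : ℝ) < nm m := by
              have := one_le_nm' (hM m hm.1); linarith
            refine (min_le_left _ _).trans (le_of_eq ?_)
            rw [hxV, ← div_pow, ← Real.rpow_natCast, ← Real.rpow_mul (by positivity),
              Real.div_rpow hV0.le hn.le, Real.rpow_neg hn.le, div_eq_mul_inv]
            norm_num
        _ = V ^ ((3 : ℝ) / 4) * ∑ m ∈ M with (nm m : ℝ) ≤ V, (nm m : ℝ) ^ (-(3 / 4 : ℝ)) := by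
            rw [mul_sum]
        _ ≤ V ^ ((3 : ℝ) / 4) * (400 * V ^ ((1 : ℝ) / 4)) := by gcongr
        _ = 400 * V := by
            have : V ^ ((3 : ℝ) / 4) * V ^ ((1 : ℝ) / 4) = V := by
              rw [← Real.rpow_add hV0]; norm_num
            linear_combination 400 * this
    have hb : ∑ m ∈ M with ¬ (nm m : ℝ) ≤ V, omx (x / (nm m : ℝ) ^ 3) ≤ 400 * V := by
      have h2 := sum_tail2 hV1 (M.filter (fun m => ¬ (nm m : ℝ) ≤ V)) (fun m hm => by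
        rw [mem_filter, not_le] at hm; exact ⟨hM m hm.1, hm.2⟩)
      calc ∑ m ∈ M with ¬ (nm m : ℝ) ≤ V, omx (x / (nm m : ℝ) ^ 3)
          ≤ ∑ m ∈ M with ¬ (nm m : ℝ) ≤ V, V ^ 2 * (nm m : ℝ) ^ (-(2 : ℝ)) := by
            refine sum_le_sum fun m hm => ?_
            rw [mem_filter, not_le] at hm
            have hn : (0 : ℝ) < nm m := by linarith
            refine (min_le_right _ _).trans ?_
            have h3 : V / nm m ≤ 1 := by rw [div_le_one hn]; exact hm.2.le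
            have h4 : (0 : ℝ) ≤ V / nm m := by positivity
            have e1 : (x / (nm m : ℝ) ^ 3) ^ (2 : ℝ) = (V / nm m) ^ 6 := by
              rw [hxV, ← div_pow, Real.rpow_two, ← pow_mul]
            have e2 : V ^ 2 * (nm m : ℝ) ^ (-(2 : ℝ)) = (V / nm m) ^ 2 := by
              rw [Real.rpow_neg hn.le, Real.rpow_two, div_pow, div_eq_mul_inv]
            rw [e1, e2]
            exact pow_le_pow_of_le_one h4 h3 (by norm_num)
        _ = V ^ 2 * ∑ m ∈ M with ¬ (nm m : ℝ) ≤ V, (nm m : ℝ) ^ (-(2 : ℝ)) := by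
            rw [mul_sum]
        _ ≤ V ^ 2 * (400 * V⁻¹) := by gcongr
        _ = 400 * V := by field_simp
    nlinarith
  · -- `x ≤ 1`
    have hmu : mux x = x ^ (2 : ℝ) := by
      unfold mux
      exact min_eq_right (Real.rpow_le_rpow_of_exponent_ge hx h1 (by norm_num))
    rw [hmu]
    obtain ⟨X, hX⟩ : ∃ X : ℝ, M ⊆ nz X := by
      refine ⟨((∑ m ∈ M, nm m : ℕ) : ℝ), fun m hm => mem_nz.mpr ⟨hM m hm, ?_⟩⟩
      exact_mod_cast single_le_sum (f := fun m => nm m) (fun _ _ => Nat.zero_le _) hm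
    calc ∑ m ∈ M, omx (x / (nm m : ℝ) ^ 3)
        ≤ ∑ m ∈ M, x ^ (2 : ℝ) * (nm m : ℝ) ^ (-(4 : ℝ) / 3) := by
          refine sum_le_sum fun m hm => ?_
          have hn : (1 : ℝ) ≤ nm m := one_le_nm' (hM m hm)
          refine (min_le_right _ _).trans ?_
          rw [Real.div_rpow hx.le (by positivity), div_eq_mul_inv]
          gcongr
          rw [← Real.rpow_natCast, ← Real.rpow_mul (by positivity), ← Real.rpow_neg (by positivity)]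
          exact Real.rpow_le_rpow_of_exponent_le hn (by norm_num)
      _ = x ^ (2 : ℝ) * ∑ m ∈ M, (nm m : ℝ) ^ (-(4 : ℝ) / 3) := by rw [mul_sum]
      _ ≤ x ^ (2 : ℝ) * ∑ m ∈ nz X, (nm m : ℝ) ^ (-(4 : ℝ) / 3) := by
          gcongr
      _ ≤ x ^ (2 : ℝ) * C3 := by
          have := hsum X
          gcongr
      _ = C3 * x ^ (2 : ℝ) := mul_comm _ _
      _ ≤ (800 + C3) * x ^ (2 : ℝ) := by
          have : 0 ≤ x ^ (2 : ℝ) := by positivity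
          gcongr
          linarith

/-- **engine**: sum over (kernel, cofactor) with weights `omx (K / nm h)`, dyadic in the kernel. -/
theorem engine : ∃ C : ℝ, 0 < C ∧ ∀ (K : ℝ), 0 < K → ∀ 𝒮 : Finset (Ker × Eis),
    (∀ q ∈ 𝒮, Good q.1 ∧ q.2 ≠ 0) → ∀ (Φ : Ker → Eis → ℝ), (∀ κ m, 0 ≤ Φ κ m) →
    ∀ (D : ℕ → ℝ) (Rs : Finset ℕ), (∀ q ∈ 𝒮, Nat.log 2 (nm (kv q.1)) ∈ Rs) →
    (∀ r ∈ Rs, ∀ m : Eis, ∀ 𝒦 : Finset Ker,
      (∀ κ ∈ 𝒦, (κ, m) ∈ 𝒮 ∧ Nat.log 2 (nm (kv κ)) = r) → ∑ κ ∈ 𝒦, Φ κ m ≤ D r) →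
    ∑ q ∈ 𝒮, omx (K / (nm (kv q.1) * (nm q.2 : ℝ) ^ 3)) * Φ q.1 q.2
      ≤ C * ∑ r ∈ Rs, mux (K / 2 ^ r) * D r := by
  classical
  obtain ⟨C, hC, hm⟩ := om_m_sum
  refine ⟨C, hC, ?_⟩
  intro K hK 𝒮 h𝒮 Φ hΦ D Rs hRs hD
  rw [← sum_fiberwise_of_maps_to hRs, mul_sum]
  refine sum_le_sum fun r hr => ?_
  have hD0 : 0 ≤ D r := by
    have := hD r hr 0 ∅ (fun κ hκ => absurd hκ (by simp))
    simpa using this
  set 𝒮r := 𝒮.filter (fun q => Nat.log 2 (nm (kv q.1)) = r) with h𝒮r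
  set M := 𝒮r.image Prod.snd with hM
  set Ks := 𝒮r.image Prod.fst with hKs
  have hsub : 𝒮r ⊆ Ks ×ˢ M := by
    intro q hq
    rw [mem_product]
    exact ⟨mem_image_of_mem _ hq, mem_image_of_mem _ hq⟩
  have hstep : ∑ q ∈ 𝒮r, omx (K / (nm (kv q.1) * (nm q.2 : ℝ) ^ 3)) * Φ q.1 q.2
      = ∑ m ∈ M, ∑ κ ∈ Ks with (κ, m) ∈ 𝒮r, omx (K / (nm (kv κ) * (nm m : ℝ) ^ 3)) * Φ κ m := by
    have h1 : ∑ q ∈ 𝒮r, omx (K / (nm (kv q.1) * (nm q.2 : ℝ) ^ 3)) * Φ q.1 q.2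
        = ∑ q ∈ Ks ×ˢ M, if q ∈ 𝒮r then
          omx (K / (nm (kv q.1) * (nm q.2 : ℝ) ^ 3)) * Φ q.1 q.2 else 0 := by
      rw [← sum_filter]
      refine sum_congr ?_ fun _ _ => rfl
      ext q
      exact ⟨fun h => mem_filter.mpr ⟨hsub h, h⟩, fun h => (mem_filter.mp h).2⟩
    rw [h1, sum_product_right]
    refine sum_congr rfl fun m _ => ?_
    rw [sum_filter]
  rw [hstep]
  have hinner : ∀ m ∈ M, ∑ κ ∈ Ks with (κ, m) ∈ 𝒮r,
      omx (K / (nm (kv κ) * (nm m : ℝ) ^ 3)) * Φ κ m ≤ omx (K / 2 ^ r / (nm m : ℝ) ^ 3) * D r := by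
    intro m hm'
    have hm0 : m ≠ 0 := by
      rw [hM, mem_image] at hm'
      obtain ⟨q, hq, rfl⟩ := hm'
      exact (h𝒮 q (mem_filter.mp hq).1).2
    have hn : (1 : ℝ) ≤ nm m := one_le_nm' hm0
    calc ∑ κ ∈ Ks with (κ, m) ∈ 𝒮r, omx (K / (nm (kv κ) * (nm m : ℝ) ^ 3)) * Φ κ m
        ≤ ∑ κ ∈ Ks with (κ, m) ∈ 𝒮r, omx (K / 2 ^ r / (nm m : ℝ) ^ 3) * Φ κ m := by
          refine sum_le_sum fun κ hκ => ?_
          rw [mem_filter] at hκ
          have h2 := mem_filter.mp hκ.2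
          have hg := (h𝒮 _ h2.1).1
          have h3 : (2 : ℝ) ^ r ≤ nm (kv κ) := by
            have h4 : 2 ^ Nat.log 2 (nm (kv κ)) ≤ nm (kv κ) :=
              Nat.pow_log_le_self 2 (nm_pos.mpr (kv_ne_zero hg)).ne'
            have h5 : Nat.log 2 (nm (kv κ)) = r := h2.2
            rw [h5] at h4
            exact_mod_cast h4
          have h6 := hΦ κ m
          gcongr
          apply omx_mono (by positivity)
          rw [div_div]
          gcongr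
      _ = omx (K / 2 ^ r / (nm m : ℝ) ^ 3) * ∑ κ ∈ Ks with (κ, m) ∈ 𝒮r, Φ κ m := by
          rw [mul_sum]
      _ ≤ omx (K / 2 ^ r / (nm m : ℝ) ^ 3) * D r := by
          have h7 : 0 ≤ omx (K / 2 ^ r / (nm m : ℝ) ^ 3) := omx_nonneg (by positivity)
          refine mul_le_mul_of_nonneg_left (hD r hr m _ fun κ hκ => ?_) h7
          rw [mem_filter] at hκ
          have h2 := mem_filter.mp hκ.2
          exact ⟨h2.1, h2.2⟩
  calc ∑ m ∈ M, ∑ κ ∈ Ks with (κ, m) ∈ 𝒮r, omx (K / (nm (kv κ) * (nm m : ℝ) ^ 3)) * Φ κ m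
      ≤ ∑ m ∈ M, omx (K / 2 ^ r / (nm m : ℝ) ^ 3) * D r := sum_le_sum hinner
    _ = (∑ m ∈ M, omx (K / 2 ^ r / (nm m : ℝ) ^ 3)) * D r := by rw [sum_mul]
    _ ≤ (C * mux (K / 2 ^ r)) * D r := by
        gcongr
        refine hm (K / 2 ^ r) (by positivity) M fun m hm' => ?_
        rw [hM, mem_image] at hm'
        obtain ⟨q, hq, rfl⟩ := hm'
        exact (h𝒮 q (mem_filter.mp hq).1).2
    _ = _ := by ring

/-! ### arithmetic of the tails -/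

lemma mux_two_le {x : ℝ} (hx : 0 ≤ x) : mux (2 * x) ≤ 4 * mux x := by
  have h2 : (2 : ℝ) ^ ((1 : ℝ) / 3) ≤ 4 := by
    calc (2 : ℝ) ^ ((1 : ℝ) / 3) ≤ 2 ^ (1 : ℝ) :=
          Real.rpow_le_rpow_of_exponent_le (by norm_num) (by norm_num)
      _ ≤ 4 := by norm_num
  unfold mux
  rw [mul_min_of_nonneg _ _ (by norm_num)]
  refine min_le_min ?_ ?_
  · rw [Real.mul_rpow (by norm_num) hx]
    gcongr
  · rw [Real.mul_rpow (by norm_num) hx]
    norm_num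

lemma mux_pow_le {K : ℝ} (hK : 0 < K) (r : ℕ) : mux (K / 2 ^ r) ≤ 4 * mux (K / 2 ^ (r + 1)) := by
  have : K / 2 ^ r = 2 * (K / 2 ^ (r + 1)) := by rw [pow_succ]; field_simp
  rw [this]
  exact mux_two_le (by positivity)

/-- the three arithmetic inequalities -/
lemma tailN {B K P δ : ℝ} (hB : 1 ≤ B) (hK : 0 < K) (hKB : K ≤ B ^ (1 - 2 * δ))
    (hP : B ^ (1 - δ) ≤ P) (hδ : 0 < δ) (hδ2 : δ ≤ 1 / 2) :
    mux (K / P) * ((P * B) ^ (δ / 12) * (P + B + (P * B) ^ ((2 : ℝ) / 3)))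
      ≤ 3 * (K ^ ((1 : ℝ) / 3) * B ^ (1 - δ / 2) * P ^ (-(δ / 12))) := by
  have hB0 : 0 < B := by linarith
  have hP0 : 0 < P := lt_of_lt_of_le (by positivity) hP
  refine (mul_le_mul_of_nonneg_right (mux_le_sq _) (by positivity)).trans ?_
  obtain ⟨b, rfl⟩ : ∃ b, B = Real.exp b := ⟨Real.log B, (Real.exp_log hB0).symm⟩
  obtain ⟨k, rfl⟩ : ∃ k, K = Real.exp k := ⟨Real.log K, (Real.exp_log hK).symm⟩
  obtain ⟨v, rfl⟩ : ∃ v, P = Real.exp v := ⟨Real.log P, (Real.exp_log hP0).symm⟩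
  have hb : 0 ≤ b := by rwa [← Real.exp_zero, Real.exp_le_exp] at hB
  rw [← Real.exp_mul, Real.exp_le_exp] at hKB hP
  simp only [← Real.exp_add, ← Real.exp_mul, ← Real.exp_sub]
  have hv : 0 ≤ v := le_trans (mul_nonneg hb (by linarith)) hP
  have h3 : 0 ≤ b * δ := by positivity
  have h5 : 0 ≤ v * δ := by positivity
  have h6 : 0 ≤ b * δ * δ := by positivity
  have h7 : (b * (1 - δ)) * (1 - δ / 6) ≤ v * (1 - δ / 6) :=
    mul_le_mul_of_nonneg_right hP (by linarith)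
  have t1 : Real.exp ((k - v) * 2) * (Real.exp ((v + b) * (δ / 12)) * Real.exp v)
      ≤ Real.exp (k * (1 / 3) + b * (1 - δ / 2) + v * -(δ / 12)) := by
    rw [← Real.exp_add, ← Real.exp_add, Real.exp_le_exp]
    nlinarith
  have t2 : Real.exp ((k - v) * 2) * (Real.exp ((v + b) * (δ / 12)) * Real.exp b)
      ≤ Real.exp (k * (1 / 3) + b * (1 - δ / 2) + v * -(δ / 12)) := by
    rw [← Real.exp_add, ← Real.exp_add, Real.exp_le_exp]
    nlinarith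
  have t3 : Real.exp ((k - v) * 2) * (Real.exp ((v + b) * (δ / 12)) *
      Real.exp ((v + b) * (2 / 3)))
      ≤ Real.exp (k * (1 / 3) + b * (1 - δ / 2) + v * -(δ / 12)) := by
    rw [← Real.exp_add, ← Real.exp_add, Real.exp_le_exp]
    nlinarith
  nlinarith [t1, t2, t3]

lemma tailC {B K P η : ℝ} (hB : 1 ≤ B) (hK : 0 < K) (hKB : K ≤ B ^ (1 + 3 * η / 5))
    (hP : B ^ (1 + η) ≤ P) (hη : 0 < η) (hη2 : η ≤ 1 / 2) :
    mux (K / P) * ((P * B) ^ (η / 48) * (P + B + (P * B) ^ ((2 : ℝ) / 3)))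
      ≤ 3 * (K ^ ((1 : ℝ) / 3) * B ^ (1 - η / 8) * P ^ (-(η / 48))) := by
  have hB0 : 0 < B := by linarith
  have hP0 : 0 < P := lt_of_lt_of_le (by positivity) hP
  refine (mul_le_mul_of_nonneg_right (mux_le_sq _) (by positivity)).trans ?_
  obtain ⟨b, rfl⟩ : ∃ b, B = Real.exp b := ⟨Real.log B, (Real.exp_log hB0).symm⟩
  obtain ⟨k, rfl⟩ : ∃ k, K = Real.exp k := ⟨Real.log K, (Real.exp_log hK).symm⟩
  obtain ⟨v, rfl⟩ : ∃ v, P = Real.exp v := ⟨Real.log P, (Real.exp_log hP0).symm⟩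
  have hb : 0 ≤ b := by rwa [← Real.exp_zero, Real.exp_le_exp] at hB
  rw [← Real.exp_mul, Real.exp_le_exp] at hKB hP
  simp only [← Real.exp_add, ← Real.exp_mul, ← Real.exp_sub]
  have hv : 0 ≤ v := le_trans (mul_nonneg hb (by linarith)) hP
  have h3 : 0 ≤ b * η := by positivity
  have h5 : 0 ≤ v * η := by positivity
  have h6 : b * η * η ≤ b * η * (1 / 2) := by gcongr
  have h7 : (b * (1 + η)) * (1 - η / 24) ≤ v * (1 - η / 24) :=
    mul_le_mul_of_nonneg_right hP (by linarith)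
  have t1 : Real.exp ((k - v) * 2) * (Real.exp ((v + b) * (η / 48)) * Real.exp v)
      ≤ Real.exp (k * (1 / 3) + b * (1 - η / 8) + v * -(η / 48)) := by
    rw [← Real.exp_add, ← Real.exp_add, Real.exp_le_exp]
    nlinarith
  have t2 : Real.exp ((k - v) * 2) * (Real.exp ((v + b) * (η / 48)) * Real.exp b)
      ≤ Real.exp (k * (1 / 3) + b * (1 - η / 8) + v * -(η / 48)) := by
    rw [← Real.exp_add, ← Real.exp_add, Real.exp_le_exp]
    nlinarith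
  have t3 : Real.exp ((k - v) * 2) * (Real.exp ((v + b) * (η / 48)) *
      Real.exp ((v + b) * (2 / 3)))
      ≤ Real.exp (k * (1 / 3) + b * (1 - η / 8) + v * -(η / 48)) := by
    rw [← Real.exp_add, ← Real.exp_add, Real.exp_le_exp]
    nlinarith
  nlinarith [t1, t2, t3]

lemma tailE {B K P ε : ℝ} (hB : 1 ≤ B) (hK : 0 < K) (hP : 1 ≤ P) (hε : 0 < ε)
    (hε2 : ε ≤ 1 / 12) :
    mux (K / P) * ((P * B) ^ ε * (P + B + (P * B) ^ ((2 : ℝ) / 3)))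
      ≤ ((1 + K) * B) ^ (2 * ε) * (K + B * K ^ ((1 : ℝ) / 3) + (K * B) ^ ((2 : ℝ) / 3))
        * P ^ (-ε) := by
  have hB0 : 0 < B := by linarith
  have hP0 : 0 < P := by linarith
  have hK1 : 0 < 1 + K := by linarith
  obtain ⟨u, hu⟩ : ∃ u, 1 + K = Real.exp u := ⟨Real.log (1 + K), (Real.exp_log hK1).symm⟩
  obtain ⟨b, rfl⟩ : ∃ b, B = Real.exp b := ⟨Real.log B, (Real.exp_log hB0).symm⟩
  obtain ⟨k, rfl⟩ : ∃ k, K = Real.exp k := ⟨Real.log K, (Real.exp_log hK).symm⟩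
  obtain ⟨v, rfl⟩ : ∃ v, P = Real.exp v := ⟨Real.log P, (Real.exp_log hP0).symm⟩
  have hb : 0 ≤ b := by rwa [← Real.exp_zero, Real.exp_le_exp] at hB
  have hv : 0 ≤ v := by rwa [← Real.exp_zero, Real.exp_le_exp] at hP
  have hku : k ≤ u := by rw [← Real.exp_le_exp, ← hu]; linarith
  have hu0 : 0 ≤ u := by rw [← Real.exp_le_exp, ← hu, Real.exp_zero]; linarith
  rw [hu]
  -- upper bound for `mux`
  have hvε : 0 ≤ v * ε := by positivity
  have huε : 0 ≤ u * ε := by positivity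
  have hbε : 0 ≤ b * ε := by positivity
  have hvε2 : v * ε ≤ v * (1 / 12) := by gcongr
  have key : mux (Real.exp k / Real.exp v) * (Real.exp v * Real.exp (2 * ε * v))
        ≤ Real.exp k * Real.exp (2 * ε * u) ∧
      mux (Real.exp k / Real.exp v) * Real.exp (2 * ε * v) ≤ Real.exp (k * (1 / 3)) ∧
      mux (Real.exp k / Real.exp v) * (Real.exp (v * (2 / 3)) * Real.exp (2 * ε * v))
        ≤ Real.exp (k * (2 / 3)) * Real.exp (2 * ε * u) := by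
    have m1 : mux (Real.exp k / Real.exp v) ≤ Real.exp ((k - v) * (1 / 3)) := by
      refine (mux_le_third _).trans (le_of_eq ?_)
      rw [← Real.exp_sub, ← Real.exp_mul]
    have m2 : mux (Real.exp k / Real.exp v) ≤ Real.exp ((k - v) * 2) := by
      refine (mux_le_sq _).trans (le_of_eq ?_)
      rw [← Real.exp_sub, ← Real.exp_mul]
    refine ⟨?_, ?_, ?_⟩
    · rcases le_total v k with h | h
      · refine (mul_le_mul_of_nonneg_right m1 (by positivity)).trans ?_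
        rw [← Real.exp_add, ← Real.exp_add, ← Real.exp_add, Real.exp_le_exp]
        have : v * ε ≤ u * ε := by gcongr; linarith
        nlinarith
      · refine (mul_le_mul_of_nonneg_right m2 (by positivity)).trans ?_
        rw [← Real.exp_add, ← Real.exp_add, ← Real.exp_add, Real.exp_le_exp]
        rcases le_total 0 k with h0 | h0
        · have h1 : k * (1 - 2 * ε) ≤ v * (1 - 2 * ε) := by
            apply mul_le_mul_of_nonneg_right h; linarith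
          have h2 : k * ε ≤ u * ε := by gcongr
          nlinarith
        · nlinarith
    · refine (mul_le_mul_of_nonneg_right m1 (by positivity)).trans ?_
      rw [← Real.exp_add, Real.exp_le_exp]
      nlinarith
    · rcases le_total v k with h | h
      · refine (mul_le_mul_of_nonneg_right m1 (by positivity)).trans ?_
        rw [← Real.exp_add, ← Real.exp_add, ← Real.exp_add, Real.exp_le_exp]
        have : v * ε ≤ u * ε := by gcongr; linarith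
        nlinarith
      · refine (mul_le_mul_of_nonneg_right m2 (by positivity)).trans ?_
        rw [← Real.exp_add, ← Real.exp_add, ← Real.exp_add, Real.exp_le_exp]
        rcases le_total 0 k with h0 | h0
        · have h1 : k * (4 / 3 - 2 * ε) ≤ v * (4 / 3 - 2 * ε) := by
            apply mul_le_mul_of_nonneg_right h; linarith
          have h2 : k * ε ≤ u * ε := by gcongr
          nlinarith
        · nlinarith
  obtain ⟨k1, k2, k3⟩ := key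
  have hfac : (Real.exp v * Real.exp b) ^ ε = Real.exp (2 * ε * v) * Real.exp (b * ε) *
      (Real.exp v) ^ (-ε) := by
    rw [← Real.exp_add, ← Real.exp_mul, ← Real.exp_mul, ← Real.exp_add, ← Real.exp_add]
    congr 1; ring
  have hB2 : Real.exp (b * ε) ≤ Real.exp (2 * ε * b) := by
    rw [Real.exp_le_exp]; nlinarith
  have hU : (Real.exp u * Real.exp b) ^ (2 * ε) = Real.exp (2 * ε * u) * Real.exp (2 * ε * b) := by
    rw [← Real.exp_add, ← Real.exp_mul, ← Real.exp_add]; congr 1; ring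
  have e3 : (Real.exp v * Real.exp b) ^ ((2 : ℝ) / 3)
      = Real.exp (v * (2 / 3)) * Real.exp (b * (2 / 3)) := by
    rw [← Real.exp_add, ← Real.exp_mul, ← Real.exp_add]; congr 1; ring
  have e4 : (Real.exp k * Real.exp b) ^ ((2 : ℝ) / 3)
      = Real.exp (k * (2 / 3)) * Real.exp (b * (2 / 3)) := by
    rw [← Real.exp_add, ← Real.exp_mul, ← Real.exp_add]; congr 1; ring
  have e5 : (Real.exp k) ^ ((1 : ℝ) / 3) = Real.exp (k * (1 / 3)) := by rw [← Real.exp_mul]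
  rw [hfac, hU, e3, e4, e5]
  set W := mux (Real.exp k / Real.exp v) with hW
  have hW0 : 0 ≤ W := mux_nonneg (by positivity)
  set p := (Real.exp v) ^ (-ε) with hp
  have hp0 : 0 < p := by positivity
  have hue : 1 ≤ Real.exp (2 * ε * u) := Real.one_le_exp (by positivity)
  have a1 : W * (Real.exp (2 * ε * v) * Real.exp (b * ε) * p *
      (Real.exp v + Real.exp b + Real.exp (v * (2 / 3)) * Real.exp (b * (2 / 3))))
      = (W * (Real.exp v * Real.exp (2 * ε * v)) + (W * Real.exp (2 * ε * v)) * Real.exp b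
        + (W * (Real.exp (v * (2 / 3)) * Real.exp (2 * ε * v))) * Real.exp (b * (2 / 3))) *
        (Real.exp (b * ε) * p) := by ring
  rw [a1]
  have a2 : Real.exp (2 * ε * u) * Real.exp (2 * ε * b) *
      (Real.exp k + Real.exp b * Real.exp (k * (1 / 3)) +
        Real.exp (k * (2 / 3)) * Real.exp (b * (2 / 3))) * p
      = ((Real.exp k * Real.exp (2 * ε * u)) + (Real.exp (k * (1 / 3)) * Real.exp (2 * ε * u))
          * Real.exp b + (Real.exp (k * (2 / 3)) * Real.exp (2 * ε * u)) *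
          Real.exp (b * (2 / 3))) * (Real.exp (2 * ε * b) * p) := by ring
  rw [a2]
  have k2' : W * Real.exp (2 * ε * v) ≤ Real.exp (k * (1 / 3)) * Real.exp (2 * ε * u) :=
    k2.trans (le_mul_of_one_le_right (by positivity) hue)
  gcongr

/-! ### ranges of kernels -/

lemma log_bounds {κ : Ker} (hg : Good κ) :
    (2 : ℝ) ^ Nat.log 2 (nm (kv κ)) ≤ nm (kv κ) ∧
      (nm (kv κ) : ℝ) ≤ 2 ^ (Nat.log 2 (nm (kv κ)) + 1) := by
  constructor
  · exact_mod_cast Nat.pow_log_le_self 2 (nm_pos.mpr (kv_ne_zero hg)).ne'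
  · exact_mod_cast (Nat.lt_pow_succ_log_self (b := 2) (by norm_num) (nm (kv κ))).le

/-- generic tail: all kernels with the eps-loss large sieve -/
theorem eng_tail_gen (H : SyFacts) (hL1 : L1Prop) (hHB : HBProp) {ε : ℝ} (hε : 0 < ε) :
    ∃ C : ℝ, 0 < C ∧ ∀ B K E X : ℝ, 1 ≤ B → 0 < K → 0 ≤ E → 0 ≤ X →
      ∀ T : Finset Eis, (∀ b ∈ T, IsPrim b ∧ Squarefree b ∧ (nm b : ℝ) ≤ B) →
      ∀ (β : Eis → ℂ) (γ : Eis → Eis → ℂ), (∀ m, ∑ b ∈ T, ‖β b * γ m b‖ ^ 2 ≤ E) →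
      ∀ 𝒮 : Finset (Ker × Eis), (∀ q ∈ 𝒮, Good q.1 ∧ q.2 ≠ 0) →
      (∀ q ∈ 𝒮, ∀ P : ℝ, (nm (kv q.1) : ℝ) ≤ P → P ≤ 2 * nm (kv q.1) →
        mux (K / P) * ((P * B) ^ ε * (P + B + (P * B) ^ ((2 : ℝ) / 3))) ≤ X * P ^ (-ε)) →
      ∑ q ∈ 𝒮, omx (K / (nm (kv q.1) * (nm q.2 : ℝ) ^ 3)) *
        ‖∑ b ∈ T, β b * γ q.2 b * sy (kv q.1) b‖ ^ 2 ≤ C * X * E := by
  classical
  obtain ⟨C0, hC0, hE0⟩ := engine
  obtain ⟨C1, hC1, hLS⟩ := ls_kernel_eps H hL1 hHB hε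
  set q0 : ℝ := (2 : ℝ) ^ (-ε) with hq
  have hq0 : 0 < q0 := Real.rpow_pos_of_pos (by norm_num) _
  have hq1 : q0 < 1 := Real.rpow_lt_one_of_one_lt_of_neg (by norm_num) (by linarith)
  have hq1' : 0 < 1 - q0 := by linarith
  refine ⟨C0 * (4 * C1) * (1 - q0)⁻¹, by positivity, ?_⟩
  intro B K E X hB hK hE hX T hT β γ hγ 𝒮 h𝒮 hP
  have hB0 : (0 : ℝ) < B := by linarith
  set Rs : Finset ℕ := 𝒮.image (fun q => Nat.log 2 (nm (kv q.1))) with hRs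
  set D : ℕ → ℝ := fun r => C1 * ((2 : ℝ) ^ (r + 1) * B) ^ ε *
    ((2 : ℝ) ^ (r + 1) + B + ((2 : ℝ) ^ (r + 1) * B) ^ ((2 : ℝ) / 3)) * E with hD
  have h1 := hE0 K hK 𝒮 h𝒮 (fun κ m => ‖∑ b ∈ T, β b * γ m b * sy (kv κ) b‖ ^ 2)
    (fun κ m => by positivity) D Rs (fun q hq => mem_image_of_mem _ hq) (by
      intro r hr m 𝒦 h𝒦
      have h2 := hLS B (2 ^ (r + 1)) hB (one_le_pow₀ (by norm_num)) 𝒦 (fun κ hκ => by
        obtain ⟨h3, h4⟩ := h𝒦 κ hκ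
        have hg := (h𝒮 _ h3).1
        refine ⟨hg, ?_⟩
        have := (log_bounds hg).2
        rw [h4] at this
        exact this) T hT (fun b => β b * γ m b)
      refine h2.trans ?_
      have := hγ m
      simp only [hD]
      gcongr)
  refine h1.trans ?_
  have h2 : ∀ r ∈ Rs, mux (K / 2 ^ r) * D r ≤ 4 * C1 * X * E * q0 ^ r := by
    intro r hr
    rw [hRs, mem_image] at hr
    obtain ⟨q, hq', rfl⟩ := hr
    have hg := (h𝒮 q hq').1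
    have hb := log_bounds hg
    set r := Nat.log 2 (nm (kv q.1)) with hr
    have h3 := hP q hq' (2 ^ (r + 1)) hb.2 (by rw [pow_succ]; linarith [hb.1])
    have h4 := mux_pow_le hK r
    have h5 : ((2 : ℝ) ^ (r + 1)) ^ (-ε) ≤ q0 ^ r := by
      have : ((2 : ℝ) ^ (r + 1)) ^ (-ε) = q0 ^ (r + 1) := by
        rw [hq, ← Real.rpow_natCast, ← Real.rpow_mul (by norm_num), ← Real.rpow_natCast,
          ← Real.rpow_mul (by norm_num), mul_comm]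
      rw [this, pow_succ]
      have : 0 < q0 ^ r := by positivity
      nlinarith
    have h6 : 0 ≤ D r := by rw [hD]; positivity
    calc mux (K / 2 ^ r) * D r ≤ 4 * mux (K / 2 ^ (r + 1)) * D r := by gcongr
      _ = 4 * C1 * E * (mux (K / 2 ^ (r + 1)) * (((2 : ℝ) ^ (r + 1) * B) ^ ε *
          ((2 : ℝ) ^ (r + 1) + B + ((2 : ℝ) ^ (r + 1) * B) ^ ((2 : ℝ) / 3)))) := by
          rw [hD]; ring
      _ ≤ 4 * C1 * E * (X * (2 ^ (r + 1)) ^ (-ε)) := by gcongr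
      _ ≤ 4 * C1 * E * (X * q0 ^ r) := by gcongr
      _ = _ := by ring
  have h3 : ∑ r ∈ Rs, q0 ^ r ≤ (1 - q0)⁻¹ :=
    (Summable.sum_le_tsum _ (fun _ _ => by positivity)
      (summable_geometric_of_lt_one hq0.le hq1)).trans
      (tsum_geometric_of_lt_one hq0.le hq1).le
  calc C0 * ∑ r ∈ Rs, mux (K / 2 ^ r) * D r
      ≤ C0 * ∑ r ∈ Rs, 4 * C1 * X * E * q0 ^ r :=
        mul_le_mul_of_nonneg_left (sum_le_sum h2) hC0.le
    _ = C0 * (4 * C1) * (X * E) * ∑ r ∈ Rs, q0 ^ r := by rw [← mul_sum]; ring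
    _ ≤ C0 * (4 * C1) * (X * E) * (1 - q0)⁻¹ := by gcongr
    _ = _ := by ring

/-- kernels of norm `≥ B^(1-δ)`, `K ≤ B^(1-2δ)` : power saving. -/
theorem eng_tailN (H : SyFacts) (hL1 : L1Prop) (hHB : HBProp) {δ : ℝ} (hδ : 0 < δ)
    (hδ2 : δ ≤ 1 / 2) :
    ∃ C : ℝ, 0 < C ∧ ∀ B K E : ℝ, 1 ≤ B → 0 < K → K ≤ B ^ (1 - 2 * δ) → 0 ≤ E →
      ∀ T : Finset Eis, (∀ b ∈ T, IsPrim b ∧ Squarefree b ∧ (nm b : ℝ) ≤ B) →
      ∀ (β : Eis → ℂ) (γ : Eis → Eis → ℂ), (∀ m, ∑ b ∈ T, ‖β b * γ m b‖ ^ 2 ≤ E) →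
      ∀ 𝒮 : Finset (Ker × Eis), (∀ q ∈ 𝒮, Good q.1 ∧ q.2 ≠ 0 ∧ B ^ (1 - δ) ≤ nm (kv q.1)) →
      ∑ q ∈ 𝒮, omx (K / (nm (kv q.1) * (nm q.2 : ℝ) ^ 3)) *
        ‖∑ b ∈ T, β b * γ q.2 b * sy (kv q.1) b‖ ^ 2
        ≤ C * (K ^ ((1 : ℝ) / 3) * B ^ (1 - δ / 2)) * E := by
  obtain ⟨C, hC, h⟩ := eng_tail_gen H hL1 hHB (ε := δ / 12) (by positivity)
  refine ⟨3 * C, by positivity, ?_⟩
  intro B K E hB hK hKB hE T hT β γ hγ 𝒮 h𝒮
  have hB0 : (0 : ℝ) < B := by linarith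
  have h1 := h B K E (3 * (K ^ ((1 : ℝ) / 3) * B ^ (1 - δ / 2))) hB hK hE (by positivity)
    T hT β γ hγ 𝒮 (fun q hq => ⟨(h𝒮 q hq).1, (h𝒮 q hq).2.1⟩) (by
      intro q hq P hP1 hP2
      have := tailN hB hK hKB ((h𝒮 q hq).2.2.trans hP1) hδ hδ2
      refine this.trans (le_of_eq ?_)
      ring)
  refine h1.trans (le_of_eq ?_)
  ring

/-- kernels of norm `≥ B^(1+η)`, `K ≤ B^(1+3η/5)` : power saving. -/
theorem eng_tailC (H : SyFacts) (hL1 : L1Prop) (hHB : HBProp) {η : ℝ} (hη : 0 < η)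
    (hη2 : η ≤ 1 / 2) :
    ∃ C : ℝ, 0 < C ∧ ∀ B K E : ℝ, 1 ≤ B → 0 < K → K ≤ B ^ (1 + 3 * η / 5) → 0 ≤ E →
      ∀ T : Finset Eis, (∀ b ∈ T, IsPrim b ∧ Squarefree b ∧ (nm b : ℝ) ≤ B) →
      ∀ (β : Eis → ℂ) (γ : Eis → Eis → ℂ), (∀ m, ∑ b ∈ T, ‖β b * γ m b‖ ^ 2 ≤ E) →
      ∀ 𝒮 : Finset (Ker × Eis), (∀ q ∈ 𝒮, Good q.1 ∧ q.2 ≠ 0 ∧ B ^ (1 + η) ≤ nm (kv q.1)) →
      ∑ q ∈ 𝒮, omx (K / (nm (kv q.1) * (nm q.2 : ℝ) ^ 3)) *
        ‖∑ b ∈ T, β b * γ q.2 b * sy (kv q.1) b‖ ^ 2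
        ≤ C * (K ^ ((1 : ℝ) / 3) * B ^ (1 - η / 8)) * E := by
  obtain ⟨C, hC, h⟩ := eng_tail_gen H hL1 hHB (ε := η / 48) (by positivity)
  refine ⟨3 * C, by positivity, ?_⟩
  intro B K E hB hK hKB hE T hT β γ hγ 𝒮 h𝒮
  have hB0 : (0 : ℝ) < B := by linarith
  have h1 := h B K E (3 * (K ^ ((1 : ℝ) / 3) * B ^ (1 - η / 8))) hB hK hE (by positivity)
    T hT β γ hγ 𝒮 (fun q hq => ⟨(h𝒮 q hq).1, (h𝒮 q hq).2.1⟩) (by
      intro q hq P hP1 hP2
      have := tailC hB hK hKB ((h𝒮 q hq).2.2.trans hP1) hη hη2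
      refine this.trans (le_of_eq ?_)
      ring)
  refine h1.trans (le_of_eq ?_)
  ring

/-- all kernels, with eps-loss. -/
theorem eng_eps (H : SyFacts) (hL1 : L1Prop) (hHB : HBProp) {ε : ℝ} (hε : 0 < ε)
    (hε2 : ε ≤ 1 / 12) :
    ∃ C : ℝ, 0 < C ∧ ∀ B K E : ℝ, 1 ≤ B → 0 < K → 0 ≤ E →
      ∀ T : Finset Eis, (∀ b ∈ T, IsPrim b ∧ Squarefree b ∧ (nm b : ℝ) ≤ B) →
      ∀ (β : Eis → ℂ) (γ : Eis → Eis → ℂ), (∀ m, ∑ b ∈ T, ‖β b * γ m b‖ ^ 2 ≤ E) →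
      ∀ 𝒮 : Finset (Ker × Eis), (∀ q ∈ 𝒮, Good q.1 ∧ q.2 ≠ 0) →
      ∑ q ∈ 𝒮, omx (K / (nm (kv q.1) * (nm q.2 : ℝ) ^ 3)) *
        ‖∑ b ∈ T, β b * γ q.2 b * sy (kv q.1) b‖ ^ 2
        ≤ C * (((1 + K) * B) ^ (2 * ε) *
          (K + B * K ^ ((1 : ℝ) / 3) + (K * B) ^ ((2 : ℝ) / 3))) * E := by
  obtain ⟨C, hC, h⟩ := eng_tail_gen H hL1 hHB (ε := ε) hε
  refine ⟨C, by positivity, ?_⟩
  intro B K E hB hK hE T hT β γ hγ 𝒮 h𝒮
  have hB0 : (0 : ℝ) < B := by linarith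
  exact h B K E (((1 + K) * B) ^ (2 * ε) *
          (K + B * K ^ ((1 : ℝ) / 3) + (K * B) ^ ((2 : ℝ) / 3))) hB hK hE (by positivity)
    T hT β γ hγ 𝒮 (fun q hq => ⟨(h𝒮 q hq).1, (h𝒮 q hq).2⟩) (by
      intro q hq P hP1 hP2
      exact tailE hB hK ((one_le_nmkv (h𝒮 q hq).1).trans hP1) hε hε2)

/-- kernels of norm `≤ B^(1+η)`: `≤ C K^(1/3) B^(1+η/2) E`. -/
theorem eng_crit (H : SyFacts) (hL1 : L1Prop) (hHB : HBProp) {η : ℝ} (hη : 0 < η)
    (hη2 : η ≤ 1) :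
    ∃ C : ℝ, 0 < C ∧ ∀ B K E : ℝ, 1 ≤ B → 0 < K → 0 ≤ E →
      ∀ T : Finset Eis, (∀ b ∈ T, IsPrim b ∧ Squarefree b ∧ (nm b : ℝ) ≤ B) →
      ∀ (β : Eis → ℂ) (γ : Eis → Eis → ℂ), (∀ m, ∑ b ∈ T, ‖β b * γ m b‖ ^ 2 ≤ E) →
      ∀ 𝒮 : Finset (Ker × Eis), (∀ q ∈ 𝒮, Good q.1 ∧ q.2 ≠ 0 ∧ nm (kv q.1) ≤ B ^ (1 + η)) →
      ∑ q ∈ 𝒮, omx (K / (nm (kv q.1) * (nm q.2 : ℝ) ^ 3)) *
        ‖∑ b ∈ T, β b * γ q.2 b * sy (kv q.1) b‖ ^ 2
        ≤ C * (K ^ ((1 : ℝ) / 3) * B ^ (1 + η / 2)) * E := by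
  obtain ⟨C, hC, h⟩ := eng_tail_gen H hL1 hHB (ε := η / 48) (by positivity)
  refine ⟨12 * C, by positivity, ?_⟩
  intro B K E hB hK hE T hT β γ hγ 𝒮 h𝒮
  have hB0 : (0 : ℝ) < B := by linarith
  have h1 := h B K E (12 * (K ^ ((1 : ℝ) / 3) * B ^ (1 + η / 2))) hB hK hE (by positivity)
    T hT β γ hγ 𝒮 (fun q hq => ⟨(h𝒮 q hq).1, (h𝒮 q hq).2.1⟩) (by
      intro q hq P hP1 hP2
      have hP0 : 1 ≤ P := (one_le_nmkv (h𝒮 q hq).1).trans hP1
      have hP3 : P ≤ 2 * B ^ (1 + η) := hP2.trans (by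
        have := (h𝒮 q hq).2.2
        linarith)
      have hPp : 0 < P := by linarith
      refine (mul_le_mul_of_nonneg_right (mux_le_third _) (by positivity)).trans ?_
      -- reduce to `P' = P / 2 ≤ B^(1+η)` by logs
      obtain ⟨b, rfl⟩ : ∃ b, B = Real.exp b := ⟨Real.log B, (Real.exp_log hB0).symm⟩
      obtain ⟨k, rfl⟩ : ∃ k, K = Real.exp k := ⟨Real.log K, (Real.exp_log hK).symm⟩
      obtain ⟨v, rfl⟩ : ∃ v, P = Real.exp v := ⟨Real.log P, (Real.exp_log hPp).symm⟩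
      obtain ⟨l2, hl2⟩ : ∃ l2, (2 : ℝ) = Real.exp l2 :=
        ⟨Real.log 2, (Real.exp_log (by norm_num)).symm⟩
      have hl0 : 0 ≤ l2 := by
        have : (1 : ℝ) ≤ Real.exp l2 := by rw [← hl2]; norm_num
        rwa [← Real.exp_zero, Real.exp_le_exp] at this
      have hb : 0 ≤ b := by rwa [← Real.exp_zero, Real.exp_le_exp] at hB
      have hv : 0 ≤ v := by rwa [← Real.exp_zero, Real.exp_le_exp] at hP0
      rw [hl2, ← Real.exp_mul, ← Real.exp_add, Real.exp_le_exp] at hP3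
      have h12 : (12 : ℝ) = 3 * (Real.exp l2 * Real.exp l2) := by rw [← hl2]; norm_num
      rw [h12]
      simp only [← Real.exp_add, ← Real.exp_mul, ← Real.exp_sub]
      have h3 : 0 ≤ b * η := by positivity
      have h6 : b * η * η ≤ b * η := by nlinarith
      have h7 : v * η ≤ (l2 + b * (1 + η)) * η := by gcongr
      have h8 : l2 * η ≤ l2 := by nlinarith
      have t1 : Real.exp ((k - v) * (1 / 3)) * (Real.exp ((v + b) * (η / 48)) * Real.exp v)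
          ≤ Real.exp (l2 + l2) *
            Real.exp (k * (1 / 3) + b * (1 + η / 2) + v * -(η / 48)) := by
        rw [← Real.exp_add, ← Real.exp_add, ← Real.exp_add, Real.exp_le_exp]
        nlinarith
      have t2 : Real.exp ((k - v) * (1 / 3)) * (Real.exp ((v + b) * (η / 48)) * Real.exp b)
          ≤ Real.exp (l2 + l2) *
            Real.exp (k * (1 / 3) + b * (1 + η / 2) + v * -(η / 48)) := by
        rw [← Real.exp_add, ← Real.exp_add, ← Real.exp_add, Real.exp_le_exp]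
        nlinarith
      have t3 : Real.exp ((k - v) * (1 / 3)) * (Real.exp ((v + b) * (η / 48)) *
          Real.exp ((v + b) * (2 / 3)))
          ≤ Real.exp (l2 + l2) *
            Real.exp (k * (1 / 3) + b * (1 + η / 2) + v * -(η / 48)) := by
        rw [← Real.exp_add, ← Real.exp_add, ← Real.exp_add, Real.exp_le_exp]
        nlinarith
      have e1 : Real.exp (k * (1 / 3) + b * (1 + η / 2) + v * -(η / 48))
          = Real.exp (k * (1 / 3) + b * (1 + η / 2)) * Real.exp (v * -(η / 48)) := by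
        rw [← Real.exp_add]
      rw [e1] at t1 t2 t3
      nlinarith [t1, t2, t3])
  refine h1.trans (le_of_eq ?_)
  ring

/-- middle range `L ≤ nm κ ≤ B^(1-δ)`, no loss. -/
theorem eng_mid (H : SyFacts) (hL1 : L1Prop) (hHB : HBProp) {δ : ℝ} (hδ : 0 < δ)
    (hδ2 : δ ≤ 1 / 2) :
    ∃ C : ℝ, 0 < C ∧ ∀ B K L E : ℝ, 1 ≤ B → 0 < K → 1 ≤ L → 0 ≤ E →
      ∀ T : Finset Eis, (∀ b ∈ T, IsPrim b ∧ Squarefree b ∧ (nm b : ℝ) ≤ B) →
      ∀ (β : Eis → ℂ) (γ : Eis → Eis → ℂ), (∀ m, ∑ b ∈ T, ‖β b * γ m b‖ ^ 2 ≤ E) →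
      ∀ 𝒮 : Finset (Ker × Eis), (∀ q ∈ 𝒮, Good q.1 ∧ q.2 ≠ 0 ∧ L ≤ nm (kv q.1) ∧
        nm (kv q.1) ≤ B ^ (1 - δ)) →
      ∑ q ∈ 𝒮, omx (K / (nm (kv q.1) * (nm q.2 : ℝ) ^ 3)) *
        ‖∑ b ∈ T, β b * γ q.2 b * sy (kv q.1) b‖ ^ 2
        ≤ C * (K ^ ((1 : ℝ) / 3) * (L ^ (-(1 : ℝ) / 3) + B ^ (-(δ / 12))) * B) * E := by
  classical
  obtain ⟨C0, hC0, hE0⟩ := engine
  obtain ⟨C1, hC1, hLS⟩ := ls_kernel H hL1 hHB hδ hδ2
  obtain ⟨C2, hC2, hlog⟩ := log2_floor_le (ε := δ / 12) (by positivity)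
  set q0 : ℝ := (2 : ℝ) ^ (-(1 : ℝ) / 3) with hq
  have hq0 : 0 < q0 := Real.rpow_pos_of_pos (by norm_num) _
  have hq1 : q0 < 1 := Real.rpow_lt_one_of_one_lt_of_neg (by norm_num) (by norm_num)
  have hq1' : 0 < 1 - q0 := by linarith
  refine ⟨C0 * C1 * (2 * (1 - q0)⁻¹ + 2 * C2), by positivity, ?_⟩
  intro B K L E hB hK hL hE T hT β γ hγ 𝒮 h𝒮
  have hB0 : (0 : ℝ) < B := by linarith
  have hL0 : (0 : ℝ) < L := by linarith
  set Rs : Finset ℕ := 𝒮.image (fun q => Nat.log 2 (nm (kv q.1))) with hRs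
  rcases 𝒮.eq_empty_or_nonempty with hem | hne
  · rw [hem, sum_empty]; positivity
  have hRne : Rs.Nonempty := hne.image _
  set D : ℕ → ℝ := fun r => C1 * (B + ((2 : ℝ) * 2 ^ r) ^ ((1 : ℝ) / 3) * B ^ (1 - δ / 6)) * E
    with hD
  have h1 := hE0 K hK 𝒮 (fun q hq => ⟨(h𝒮 q hq).1, (h𝒮 q hq).2.1⟩)
    (fun κ m => ‖∑ b ∈ T, β b * γ m b * sy (kv κ) b‖ ^ 2)
    (fun κ m => by positivity) D Rs (fun q hq => mem_image_of_mem _ hq) (by
      intro r hr m 𝒦 h𝒦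
      rcases 𝒦.eq_empty_or_nonempty with hem | ⟨κ0, hκ0⟩
      · rw [hem, sum_empty, hD]; positivity
      have h2 := hLS B (2 * 2 ^ r) hB (by
          have : (1 : ℝ) ≤ 2 ^ r := one_le_pow₀ (by norm_num)
          linarith) (by
          obtain ⟨h3, h4⟩ := h𝒦 κ0 hκ0
          have h5 := (log_bounds (h𝒮 _ h3).1).1
          rw [h4] at h5
          have := (h𝒮 _ h3).2.2.2
          linarith) 𝒦 (fun κ hκ => by
        obtain ⟨h3, h4⟩ := h𝒦 κ hκ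
        have hg := (h𝒮 _ h3).1
        refine ⟨hg, ?_⟩
        have := (log_bounds hg).2
        rw [h4, pow_succ, mul_comm] at this
        exact this) T hT (fun b => β b * γ m b)
      refine h2.trans ?_
      have := hγ m
      simp only [hD]
      gcongr)
  refine h1.trans ?_
  have h2 : ∀ r ∈ Rs, mux (K / 2 ^ r) * D r
      ≤ C1 * E * K ^ ((1 : ℝ) / 3) * (B * q0 ^ r + 2 * B ^ (1 - δ / 6)) := by
    intro r hr
    have h6 : 0 ≤ D r := by rw [hD]; positivity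
    have e1 : (K / 2 ^ r) ^ ((1 : ℝ) / 3) = K ^ ((1 : ℝ) / 3) * q0 ^ r := by
      rw [Real.div_rpow hK.le (by positivity), div_eq_mul_inv, ← Real.rpow_neg (by positivity),
        hq, ← Real.rpow_natCast, ← Real.rpow_mul (by norm_num), ← Real.rpow_natCast,
        ← Real.rpow_mul (by norm_num)]
      congr 2; ring
    have e2 : ((2 : ℝ) * 2 ^ r) ^ ((1 : ℝ) / 3) * q0 ^ r ≤ 2 := by
      have e3 : ((2 : ℝ) * 2 ^ r) ^ ((1 : ℝ) / 3) * q0 ^ r = 2 ^ ((1 : ℝ) / 3) := by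
        rw [Real.mul_rpow (by norm_num) (by positivity), hq, ← Real.rpow_natCast,
          ← Real.rpow_natCast, ← Real.rpow_mul (by norm_num), ← Real.rpow_mul (by norm_num),
          mul_assoc, ← Real.rpow_add (by norm_num)]
        have : (r : ℝ) * (1 / 3) + -1 / 3 * r = 0 := by ring
        rw [this, Real.rpow_zero, mul_one]
      rw [e3]
      calc (2 : ℝ) ^ ((1 : ℝ) / 3) ≤ 2 ^ (1 : ℝ) :=
            Real.rpow_le_rpow_of_exponent_le (by norm_num) (by norm_num)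
        _ = 2 := Real.rpow_one _
    calc mux (K / 2 ^ r) * D r ≤ (K / 2 ^ r) ^ ((1 : ℝ) / 3) * D r := by
          have := mux_le_third (K / 2 ^ r)
          gcongr
      _ = C1 * E * K ^ ((1 : ℝ) / 3) * (B * q0 ^ r +
          (((2 : ℝ) * 2 ^ r) ^ ((1 : ℝ) / 3) * q0 ^ r) * B ^ (1 - δ / 6)) := by
          rw [e1, hD]; ring
      _ ≤ _ := by gcongr
  have h3 : ∑ r ∈ Rs, q0 ^ r ≤ 2 * L ^ (-(1 : ℝ) / 3) * (1 - q0)⁻¹ := by
    set r0 := Rs.min' hRne with hr0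
    obtain ⟨N, hN⟩ := Rs.bddAbove
    have hsub : Rs ⊆ Ico r0 (N + 1) := by
      intro r hr
      rw [mem_Ico]
      exact ⟨Rs.min'_le r hr, Nat.lt_succ_of_le (hN hr)⟩
    have h4 : ∑ r ∈ Rs, q0 ^ r ≤ ∑ r ∈ Ico r0 (N + 1), q0 ^ r :=
      sum_le_sum_of_subset_of_nonneg hsub fun _ _ _ => by positivity
    have h5 : ∑ r ∈ Ico r0 (N + 1), q0 ^ r ≤ q0 ^ r0 * (1 - q0)⁻¹ := by
      rw [sum_Ico_eq_sum_range]
      calc ∑ k ∈ range (N + 1 - r0), q0 ^ (r0 + k)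
          = q0 ^ r0 * ∑ k ∈ range (N + 1 - r0), q0 ^ k := by
            rw [mul_sum]; exact sum_congr rfl fun k _ => pow_add _ _ _
        _ ≤ q0 ^ r0 * (1 - q0)⁻¹ := by
            gcongr
            exact (Summable.sum_le_tsum _ (fun _ _ => by positivity)
              (summable_geometric_of_lt_one hq0.le hq1)).trans
              (tsum_geometric_of_lt_one hq0.le hq1).le
    have h6 : q0 ^ r0 ≤ 2 * L ^ (-(1 : ℝ) / 3) := by
      have hmem := Rs.min'_mem hRne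
      rw [← hr0, hRs, mem_image] at hmem
      obtain ⟨q, hq', hqr⟩ := hmem
      have h7 := (log_bounds (h𝒮 q hq').1).2
      rw [hqr] at h7
      have h8 := (h𝒮 q hq').2.2.1
      have h9 : L / 2 ≤ 2 ^ r0 := by rw [pow_succ] at h7; linarith
      have e1 : q0 ^ r0 = ((2 : ℝ) ^ r0) ^ (-(1 : ℝ) / 3) := by
        rw [hq, ← Real.rpow_natCast, ← Real.rpow_mul (by norm_num), ← Real.rpow_natCast,
          ← Real.rpow_mul (by norm_num), mul_comm]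
      rw [e1]
      calc ((2 : ℝ) ^ r0) ^ (-(1 : ℝ) / 3) ≤ (L / 2) ^ (-(1 : ℝ) / 3) :=
            Real.rpow_le_rpow_of_nonpos (by positivity) h9 (by norm_num)
        _ = L ^ (-(1 : ℝ) / 3) * (2⁻¹ : ℝ) ^ (-(1 : ℝ) / 3) := by
            rw [div_eq_mul_inv, Real.mul_rpow hL0.le (by norm_num)]
        _ ≤ L ^ (-(1 : ℝ) / 3) * 2 := by
            gcongr
            rw [Real.inv_rpow (by norm_num), ← Real.rpow_neg (by norm_num)]
            calc (2 : ℝ) ^ (-(-(1 : ℝ) / 3)) ≤ 2 ^ (1 : ℝ) :=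
                  Real.rpow_le_rpow_of_exponent_le (by norm_num) (by norm_num)
              _ = 2 := Real.rpow_one _
        _ = _ := by ring
    calc ∑ r ∈ Rs, q0 ^ r ≤ q0 ^ r0 * (1 - q0)⁻¹ := h4.trans h5
      _ ≤ _ := by gcongr
  have h4 : (#Rs : ℝ) ≤ C2 * B ^ (δ / 12) := by
    have hsub : Rs ⊆ range (Nat.log 2 ⌊B⌋₊ + 1) := by
      intro r hr
      rw [hRs, mem_image] at hr
      obtain ⟨q, hq', rfl⟩ := hr
      rw [mem_range, Nat.lt_succ_iff]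
      refine Nat.log_mono_right (Nat.le_floor ?_)
      refine (h𝒮 q hq').2.2.2.trans ?_
      calc B ^ (1 - δ) ≤ B ^ (1 : ℝ) := Real.rpow_le_rpow_of_exponent_le hB (by linarith)
        _ = B := Real.rpow_one _
    have h5 := card_le_card hsub
    rw [card_range] at h5
    exact le_trans (by exact_mod_cast h5) (hlog B hB)
  have e6 : B ^ (δ / 12) * B ^ (1 - δ / 6) = B ^ (-(δ / 12)) * B := by
    nth_rewrite 4 [← Real.rpow_one B]
    rw [← Real.rpow_add hB0, ← Real.rpow_add hB0]; congr 1; ring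
  have hLp : 0 ≤ L ^ (-(1 : ℝ) / 3) := by positivity
  have hBp : 0 ≤ B ^ (-(δ / 12)) := by positivity
  have hqi : 0 ≤ (1 - q0)⁻¹ := by positivity
  calc C0 * ∑ r ∈ Rs, mux (K / 2 ^ r) * D r
      ≤ C0 * ∑ r ∈ Rs, C1 * E * K ^ ((1 : ℝ) / 3) * (B * q0 ^ r + 2 * B ^ (1 - δ / 6)) :=
        mul_le_mul_of_nonneg_left (sum_le_sum h2) hC0.le
    _ = C0 * C1 * E * K ^ ((1 : ℝ) / 3) * (B * ∑ r ∈ Rs, q0 ^ r + 2 * (#Rs * B ^ (1 - δ / 6))) := by
        rw [← mul_sum, sum_add_distrib, ← mul_sum, sum_const, nsmul_eq_mul]; ring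
    _ ≤ C0 * C1 * E * K ^ ((1 : ℝ) / 3) * (B * (2 * L ^ (-(1 : ℝ) / 3) * (1 - q0)⁻¹)
          + 2 * ((C2 * B ^ (δ / 12)) * B ^ (1 - δ / 6))) := by gcongr
    _ = C0 * C1 * E * K ^ ((1 : ℝ) / 3) * B * (2 * (1 - q0)⁻¹ * L ^ (-(1 : ℝ) / 3)
          + 2 * C2 * B ^ (-(δ / 12))) := by
        rw [mul_assoc C2, e6]; ring
    _ ≤ C0 * C1 * E * K ^ ((1 : ℝ) / 3) * B * ((2 * (1 - q0)⁻¹ + 2 * C2) *
          (L ^ (-(1 : ℝ) / 3) + B ^ (-(δ / 12)))) := by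
        gcongr
        nlinarith [mul_nonneg hqi hBp, mul_nonneg hC2.le hLp]
    _ = _ := by ring

end Crest.Agent.R012.NonCube52
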