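import Crest.Agent.R012.LatW_413

/-!
# Row 12 (MK12): the function `exp(-|z|⁶)` and the cube sums with Gaussian weight

* `second_diff_1d` : one-variable criterion for second differences.
* `expSix_second`, `expSix_decay`.
* `cube_sum` : `|∑_{m ≠ 0} exp(-c N(m)³) - (2/√3) ∫ exp(-c |z|⁶)| ≤ C` for all `c > 0`.
-/

set_option autoImplicit false

noncomputable section

open MeasureTheory Set

namespace Crest.Agent.R012.LatSum413

open Crest.Agent.R012 Crest.Agent.R012.Eis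

lemma second_diff_1d {φ φ' φ'' : ℝ → ℝ} {K : ℝ}
    (h1 : ∀ s ∈ Icc (-1 : ℝ) 1, HasDerivAt φ (φ' s) s)
    (h2 : ∀ s ∈ Icc (-1 : ℝ) 1, HasDerivAt φ' (φ'' s) s)
    (hK : ∀ s ∈ Icc (-1 : ℝ) 1, |φ'' s| ≤ K) : |φ 1 + φ (-1) - 2 * φ 0| ≤ K := by
  have hstep : ∀ s ∈ Icc (-1 : ℝ) 0, |φ' (s + 1) - φ' s| ≤ K := by
    intro s hs
    have := Convex.norm_image_sub_le_of_norm_hasDerivWithin_le (f := φ') (f' := φ'')
      (s := Icc (-1 : ℝ) 1) (C := K) (x := s) (y := s + 1)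
      (fun x hx => (h2 x hx).hasDerivWithinAt) (fun x hx => hK x hx) (convex_Icc _ _)
      ⟨hs.1, by linarith [hs.2]⟩ ⟨by linarith [hs.1], by linarith [hs.2]⟩
    simpa using this
  have := Convex.norm_image_sub_le_of_norm_hasDerivWithin_le (f := fun s => φ (s + 1) - φ s)
    (f' := fun s => φ' (s + 1) - φ' s)
    (s := Icc (-1 : ℝ) 0) (C := K) (x := -1) (y := 0)
    (fun x hx => by
      have h3 : HasDerivAt (fun s => φ (s + 1)) (φ' (x + 1)) x :=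
        (h1 (x + 1) ⟨by linarith [hx.1], by linarith [hx.2]⟩).comp_add_const x 1
      exact (h3.sub (h1 x ⟨hx.1, by linarith [hx.2]⟩)).hasDerivWithinAt)
    (fun x hx => hstep x hx) (convex_Icc _ _) ⟨le_rfl, by norm_num⟩ ⟨by norm_num, le_rfl⟩
  simp only [zero_add, neg_add_cancel, sub_neg_eq_add, norm_one, mul_one, Real.norm_eq_abs] at this
  convert this using 2
  ring

/-- `exp(-|z|⁶)`. -/
def expSix (z : ℂ) : ℝ := Real.exp (-(‖z‖ ^ 2) ^ 3)

lemma continuous_expSix : Continuous expSix := by unfold expSix; fun_prop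

lemma exp_poly_bound {x : ℝ} (hx : 0 ≤ x) : 8 * (66 + 96 * x + 66 * x ^ 2 + 36 * x ^ 3) *
    Real.exp (-x) ≤ 5000 := by
  have h1 := Real.pow_div_factorial_le_exp x hx 1
  have h2 := Real.pow_div_factorial_le_exp x hx 2
  have h3 := Real.pow_div_factorial_le_exp x hx 3
  have h0 := Real.one_le_exp hx
  norm_num [Nat.factorial] at h1 h2 h3
  have hE := Real.exp_pos x
  rw [Real.exp_neg, ← div_eq_mul_inv, div_le_iff₀ hE]
  nlinarith

lemma one_add_cube_le {r : ℝ} (hr : 0 ≤ r) : (1 + r) ^ 3 ≤ 8 * (1 + (r ^ 2) ^ 3) := by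
  rcases le_total r 1 with h | h
  · have : (1 + r) ^ 3 ≤ 2 ^ 3 := by gcongr; linarith
    have h2 : 0 ≤ (r ^ 2) ^ 3 := by positivity
    nlinarith
  · have h1 : (1 + r) ^ 3 ≤ (2 * r) ^ 3 := by gcongr; linarith
    have h2 : r ^ 3 ≤ (r ^ 2) ^ 3 := by
      rw [← pow_mul]; exact pow_le_pow_right₀ h (by norm_num)
    nlinarith

lemma wt3_eq (z : ℂ) : wt3 z = ((1 + ‖z‖) ^ 3)⁻¹ := by
  unfold wt3
  rw [Real.rpow_neg (by positivity), show (3 : ℝ) = ((3 : ℕ) : ℝ) by norm_num, Real.rpow_natCast]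

/-- Polynomials times `exp(-|z|⁶)` are `O(wt3)`. -/
lemma poly_exp_le (z : ℂ) : (36 * (‖z‖ ^ 2) ^ 5 + 30 * (‖z‖ ^ 2) ^ 2) * expSix z ≤
    5000 * wt3 z := by
  set q := ‖z‖ ^ 2 with hq
  have hq0 : 0 ≤ q := by positivity
  set x := q ^ 3 with hx
  have hx0 : 0 ≤ x := by positivity
  have h1 : q ^ 5 ≤ 1 + x ^ 2 := by
    rcases le_total q 1 with h | h
    · have : q ^ 5 ≤ 1 := pow_le_one₀ hq0 h
      nlinarith [sq_nonneg x]
    · have : q ^ 5 ≤ q ^ 6 := pow_le_pow_right₀ h (by norm_num)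
      have e : q ^ 6 = x ^ 2 := by rw [hx]; ring
      linarith
  have h2 : q ^ 2 ≤ 1 + x := by
    rcases le_total q 1 with h | h
    · have : q ^ 2 ≤ 1 := pow_le_one₀ hq0 h
      linarith
    · have : q ^ 2 ≤ q ^ 3 := pow_le_pow_right₀ h (by norm_num)
      linarith
  have h3 := one_add_cube_le (norm_nonneg z)
  rw [← hq, ← hx] at h3
  have h4 := exp_poly_bound hx0
  have hpos : 0 < (1 + ‖z‖) ^ 3 := by positivity
  rw [wt3_eq, ← div_eq_mul_inv, le_div_iff₀ hpos]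
  have hE : expSix z = Real.exp (-x) := rfl
  rw [hE]
  have hexp := Real.exp_pos (-x)
  calc (36 * q ^ 5 + 30 * q ^ 2) * Real.exp (-x) * (1 + ‖z‖) ^ 3
      ≤ (36 * (1 + x ^ 2) + 30 * (1 + x)) * Real.exp (-x) * (8 * (1 + x)) := by gcongr
    _ = 8 * (66 + 96 * x + 66 * x ^ 2 + 36 * x ^ 3) * Real.exp (-x) := by ring
    _ ≤ 5000 := h4

lemma expSix_decay (z : ℂ) : ‖expSix z‖ ≤ 5000 * wt3 z := by
  set x := (‖z‖ ^ 2) ^ 3 with hx
  have hx0 : 0 ≤ x := by positivity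
  have h3 := one_add_cube_le (norm_nonneg z)
  rw [← hx] at h3
  have h4 := exp_poly_bound hx0
  have hpos : 0 < (1 + ‖z‖) ^ 3 := by positivity
  have hE : expSix z = Real.exp (-x) := rfl
  rw [wt3_eq, ← div_eq_mul_inv, le_div_iff₀ hpos, hE, Real.norm_of_nonneg (Real.exp_pos _).le]
  have hexp := Real.exp_pos (-x)
  calc Real.exp (-x) * (1 + ‖z‖) ^ 3 ≤ Real.exp (-x) * (8 * (1 + x)) := by gcongr
    _ ≤ 8 * (66 + 96 * x + 66 * x ^ 2 + 36 * x ^ 3) * Real.exp (-x) := by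
        have : 0 ≤ x ^ 2 := by positivity
        have : 0 ≤ x ^ 3 := by positivity
        nlinarith
    _ ≤ 5000 := h4

lemma integrable_expSix : Integrable expSix :=
  (integrable_wt3.const_mul 5000).mono' continuous_expSix.aestronglyMeasurable
    (Filter.Eventually.of_forall expSix_decay)

lemma norm_add_smul_sq (z h : ℂ) (s : ℝ) :
    ‖z + (s : ℂ) * h‖ ^ 2 = ‖z‖ ^ 2 + 2 * s * (z.re * h.re + z.im * h.im) + s ^ 2 * ‖h‖ ^ 2 := by
  rw [← Complex.normSq_eq_norm_sq, ← Complex.normSq_eq_norm_sq, ← Complex.normSq_eq_norm_sq,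
    Complex.normSq_apply, Complex.normSq_apply, Complex.normSq_apply]
  simp
  ring

lemma expSix_second (z h : ℂ) (hh : ‖h‖ ≤ 1) :
    ‖expSix (z + h) + expSix (z - h) - (2 : ℝ) • expSix z‖ ≤ 40000 * wt3 z * ‖h‖ ^ 2 := by
  set b := z.re * h.re + z.im * h.im with hb
  set q : ℝ → ℝ := fun s => ‖z‖ ^ 2 + 2 * s * b + s ^ 2 * ‖h‖ ^ 2 with hq
  have hqs : ∀ s : ℝ, q s = ‖z + (s : ℂ) * h‖ ^ 2 := fun s => (norm_add_smul_sq z h s).symm
  set q' : ℝ → ℝ := fun s => 2 * b + 2 * s * ‖h‖ ^ 2 with hq'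
  have hdq : ∀ s, HasDerivAt q (q' s) s := by
    intro s
    have h1 : HasDerivAt (fun s : ℝ => 2 * s * b) (2 * b) s := by
      have := ((hasDerivAt_id s).const_mul 2).mul_const b
      simpa using this
    have h2 : HasDerivAt (fun s : ℝ => s ^ 2 * ‖h‖ ^ 2) (2 * s * ‖h‖ ^ 2) s := by
      have := (hasDerivAt_pow 2 s).mul_const (‖h‖ ^ 2)
      simpa using this
    have h3 := ((hasDerivAt_const s (‖z‖ ^ 2)).add h1).add h2
    rw [zero_add] at h3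
    exact h3
  have hdq' : ∀ s, HasDerivAt q' (2 * ‖h‖ ^ 2) s := by
    intro s
    have h1 : HasDerivAt (fun s : ℝ => 2 * s * ‖h‖ ^ 2) (2 * ‖h‖ ^ 2) s := by
      have := ((hasDerivAt_id s).const_mul 2).mul_const (‖h‖ ^ 2)
      simpa using this
    have h3 := (hasDerivAt_const s (2 * b)).add h1
    rw [zero_add] at h3
    exact h3
  -- Cauchy-Schwarz
  have hcs : ∀ s, q' s ^ 2 ≤ 4 * q s * ‖h‖ ^ 2 := by
    intro s
    have e1 : b ^ 2 ≤ ‖z‖ ^ 2 * ‖h‖ ^ 2 := by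
      rw [← Complex.normSq_eq_norm_sq, ← Complex.normSq_eq_norm_sq, Complex.normSq_apply,
        Complex.normSq_apply, hb]
      nlinarith [sq_nonneg (z.re * h.im - z.im * h.re)]
    simp only [hq, hq']
    nlinarith
  set φ : ℝ → ℝ := fun s => Real.exp (-(q s) ^ 3) with hφ
  set φ' : ℝ → ℝ := fun s => -(3 * q s ^ 2 * q' s) * Real.exp (-(q s) ^ 3) with hφ'
  set φ'' : ℝ → ℝ := fun s => (9 * q s ^ 4 * q' s ^ 2 - 6 * q s * q' s ^ 2 -
    6 * q s ^ 2 * ‖h‖ ^ 2) * Real.exp (-(q s) ^ 3) with hφ''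
  have hE : ∀ s, HasDerivAt (fun s => Real.exp (-(q s) ^ 3))
      (Real.exp (-(q s) ^ 3) * (-(3 * q s ^ 2 * q' s))) s := by
    intro s
    have h1 := ((hdq s).fun_pow 3).fun_neg.exp
    refine h1.congr_deriv ?_
    push_cast
    ring
  have h1 : ∀ s ∈ Icc (-1 : ℝ) 1, HasDerivAt φ (φ' s) s := by
    intro s _
    refine (hE s).congr_deriv ?_
    simp only [hφ']; ring
  have h2 : ∀ s ∈ Icc (-1 : ℝ) 1, HasDerivAt φ' (φ'' s) s := by
    intro s _
    have d1 : HasDerivAt (fun s => -(3 * q s ^ 2 * q' s))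
        (-(6 * q s * q' s ^ 2 + 6 * q s ^ 2 * ‖h‖ ^ 2)) s := by
      have h4 := ((((hdq s).fun_pow 2).const_mul 3).fun_mul (hdq' s)).fun_neg
      refine h4.congr_deriv ?_
      push_cast
      ring
    refine (d1.fun_mul (hE s)).congr_deriv ?_
    simp only [hφ'']
    ring
  have hK : ∀ s ∈ Icc (-1 : ℝ) 1, |φ'' s| ≤ 40000 * wt3 z * ‖h‖ ^ 2 := by
    intro s hs
    have hq0 : 0 ≤ q s := by rw [hqs]; positivity
    have h3 := poly_exp_le (z + (s : ℂ) * h)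
    rw [← hqs] at h3
    have e3 : expSix (z + (s : ℂ) * h) = Real.exp (-(q s) ^ 3) := by
      rw [expSix, hqs]
    rw [e3] at h3
    have h4 : wt3 (z + (s : ℂ) * h) ≤ 8 * wt3 z := by
      apply wt3_le
      rw [sub_add_cancel_left, norm_neg, norm_mul, Complex.norm_real, Real.norm_eq_abs]
      have : |s| ≤ 1 := abs_le.mpr hs
      nlinarith [norm_nonneg h, abs_nonneg s]
    simp only [hφ'']
    rw [abs_mul, abs_of_pos (Real.exp_pos _)]
    have h5 : |9 * q s ^ 4 * q' s ^ 2 - 6 * q s * q' s ^ 2 - 6 * q s ^ 2 * ‖h‖ ^ 2| ≤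
        (36 * q s ^ 5 + 30 * q s ^ 2) * ‖h‖ ^ 2 := by
      have hc := hcs s
      have hq'2 : 0 ≤ q' s ^ 2 := sq_nonneg _
      have hh2 : 0 ≤ ‖h‖ ^ 2 := by positivity
      have b1 : 9 * q s ^ 4 * q' s ^ 2 ≤ 36 * (q s ^ 5 * ‖h‖ ^ 2) := by
        calc 9 * q s ^ 4 * q' s ^ 2 ≤ 9 * q s ^ 4 * (4 * q s * ‖h‖ ^ 2) := by gcongr
          _ = 36 * (q s ^ 5 * ‖h‖ ^ 2) := by ring
      have b2 : 6 * q s * q' s ^ 2 ≤ 24 * (q s ^ 2 * ‖h‖ ^ 2) := by
        calc 6 * q s * q' s ^ 2 ≤ 6 * q s * (4 * q s * ‖h‖ ^ 2) := by gcongr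
          _ = 24 * (q s ^ 2 * ‖h‖ ^ 2) := by ring
      have b3 : 0 ≤ 9 * q s ^ 4 * q' s ^ 2 := by positivity
      have b4 : 0 ≤ 6 * q s * q' s ^ 2 := by positivity
      have b5 : 0 ≤ q s ^ 2 * ‖h‖ ^ 2 := by positivity
      have b6 : 0 ≤ q s ^ 5 * ‖h‖ ^ 2 := by positivity
      have b7 : 6 * q s ^ 2 * ‖h‖ ^ 2 = 6 * (q s ^ 2 * ‖h‖ ^ 2) := by ring
      have b8 : (36 * q s ^ 5 + 30 * q s ^ 2) * ‖h‖ ^ 2 =
          36 * (q s ^ 5 * ‖h‖ ^ 2) + 30 * (q s ^ 2 * ‖h‖ ^ 2) := by ring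
      rw [b7, b8, abs_le]
      constructor <;> linarith
    calc _ ≤ (36 * q s ^ 5 + 30 * q s ^ 2) * ‖h‖ ^ 2 * Real.exp (-(q s) ^ 3) := by gcongr
      _ = ((36 * q s ^ 5 + 30 * q s ^ 2) * Real.exp (-(q s) ^ 3)) * ‖h‖ ^ 2 := by ring
      _ ≤ (5000 * wt3 (z + (s : ℂ) * h)) * ‖h‖ ^ 2 := by gcongr
      _ ≤ (5000 * (8 * wt3 z)) * ‖h‖ ^ 2 := by gcongr
      _ = 40000 * wt3 z * ‖h‖ ^ 2 := by ring
  have hfin := second_diff_1d h1 h2 hK
  have e1 : φ 1 = expSix (z + h) := by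
    simp only [hφ]; rw [expSix, hqs]; simp
  have e2 : φ (-1) = expSix (z - h) := by
    simp only [hφ]; rw [expSix, hqs]; simp [sub_eq_add_neg]
  have e3 : φ 0 = expSix z := by
    simp only [hφ]; rw [expSix, hqs]; simp
  rw [e1, e2, e3] at hfin
  simpa [Real.norm_eq_abs] using hfin

open Classical in
/-- **Cube sums with Gaussian weight**, error `O(1)` uniformly in `c > 0`. -/
theorem cube_sum : ∃ C : ℝ, 0 ≤ C ∧ ∀ c : ℝ, 0 < c →
    Summable (fun m : Eis => if m = 0 then 0 else Real.exp (-(c * (nm m : ℝ) ^ 3))) ∧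
    |∑' m : Eis, (if m = 0 then 0 else Real.exp (-(c * (nm m : ℝ) ^ 3))) -
      2 / Real.sqrt 3 * ∫ z : ℂ, Real.exp (-(c * (‖z‖ ^ 2) ^ 3))| ≤ C := by
  refine ⟨Kdec expSix 40000 5000, Kdec_nonneg _ (by norm_num) (by norm_num), ?_⟩
  intro c hc
  set t : ℝ := c ^ ((1 : ℝ) / 6) with ht
  have ht0 : 0 < t := Real.rpow_pos_of_pos hc _
  have htC : (t : ℂ) ≠ 0 := by exact_mod_cast ht0.ne'
  have ht6 : (t ^ 2) ^ 3 = c := by
    rw [← pow_mul, ht, ← Real.rpow_natCast, ← Real.rpow_mul hc.le]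
    norm_num
  have e0 : ∀ z : ℂ, expSix ((t : ℂ) * z) = Real.exp (-(c * (‖z‖ ^ 2) ^ 3)) := by
    intro z
    rw [expSix, norm_mul, Complex.norm_real, Real.norm_of_nonneg ht0.le, mul_pow, mul_pow, ht6]
  have e1 : ∀ m : Eis, (if m = 0 then (0 : ℝ) else Real.exp (-(c * (nm m : ℝ) ^ 3))) =
      if m = 0 then 0 else expSix ((t : ℂ) * toC m) := by
    intro m
    split_ifs with h
    · rfl
    · rw [e0, norm_toC_sq]
  have hD : ∀ z ≠ 0, ‖expSix z‖ ≤ 5000 / ‖z‖ ^ 3 := by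
    intro z hz
    refine (expSix_decay z).trans ?_
    have := wt3_le_inv hz
    calc 5000 * wt3 z ≤ 5000 * (1 / ‖z‖ ^ 3) := by gcongr
      _ = 5000 / ‖z‖ ^ 3 := by ring
  have h := lsum_decay continuous_expSix integrable_expSix (M := 40000) (K₀ := 5000)
    (by norm_num) (by norm_num) expSix_second expSix_decay (β := 0) le_rfl (by norm_num) htC
  have hsum := (summable_lsum (f := expSix) (K' := 5000) (by norm_num) hD htC).1
  simp_rw [e1]
  refine ⟨hsum, ?_⟩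
  rw [neg_zero, Real.rpow_zero, mul_one, Complex.norm_real, Real.norm_of_nonneg ht0.le] at h
  have hint : (2 / Real.sqrt 3 / t ^ 2) • ∫ z, expSix z =
      2 / Real.sqrt 3 * ∫ z : ℂ, Real.exp (-(c * (‖z‖ ^ 2) ^ 3)) := by
    have h2 := Measure.integral_comp_smul (volume : Measure ℂ) expSix t
    rw [Complex.finrank_real_complex] at h2
    have h3 : ∫ z : ℂ, expSix (t • z) = ∫ z : ℂ, Real.exp (-(c * (‖z‖ ^ 2) ^ 3)) := by
      congr 1; funext z; rw [Complex.real_smul, e0]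
    rw [h3] at h2
    rw [h2, abs_of_pos (by positivity), smul_eq_mul, smul_eq_mul]
    field_simp
  rw [hint] at h
  exact h

end Crest.Agent.R012.LatSum413
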