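import Crest.Agent.R012.Base_666

/-!
# Row 12, part (F): Gauss sums of split primes and the classical cubic sums
-/

set_option autoImplicit false
set_option linter.unusedSimpArgs false
set_option linter.unusedVariables false

noncomputable section

open Complex

namespace Crest.Agent.R012

open Eis

namespace Fin713

/-! ### `sy` at a prime -/

lemma sy0_congr_assoc {x p q : Eis} (h : Associated p q) : sy0 x p = sy0 x q := by
  have h1 : ∀ y, (p ∣ y) = (q ∣ y) := fun y => propext h.dvd_iff_dvd_left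
  unfold sy0
  rw [Eis.nm_eq_of_associated h, h1, h1, h1]

lemma sy_prime {x p : Eis} (hp : Prime p) : sy x p = sy0 x p := by
  unfold sy
  obtain ⟨q, h, hq⟩ := UniqueFactorizationMonoid.factors_eq_singleton_of_irreducible hp.irreducible
  rw [hq]
  simp only [Multiset.map_singleton, Multiset.prod_singleton]
  exact (sy0_congr_assoc h).symm

/-! ### rational integers modulo a split prime -/

/-- data of a primary prime of rational prime norm -/
structure Split (p : ℕ) (π : Eis) : Prop where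
  pp : p.Prime
  hn : nm π = p
  prim : IsPrim π

variable {p : ℕ} {π : Eis}

lemma Split.mod (h : Split p π) : p % 3 = 1 := by rw [← h.hn]; exact h.prim.nm_mod

lemma Split.conj (h : Split p π) : Split p (Eis.conj π) :=
  ⟨h.pp, by rw [nm_conj, h.hn], h.prim.conj⟩

lemma Split.mul_conj (h : Split p π) : π * Eis.conj π = (p : Eis) := by
  rw [Eis.mul_conj, h.hn]

lemma prime_of_nm_prime {z : Eis} (h : (nm z).Prime) : Prime z := by
  apply Irreducible.prime
  constructor
  · rw [isUnit_iff]; exact h.one_lt.ne'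
  · intro a b hab
    rw [hab, nm_mul] at h
    rcases Nat.prime_mul_iff.mp h with h | h
    · exact Or.inr (isUnit_iff.mpr h.2)
    · exact Or.inl (isUnit_iff.mpr h.2)

lemma Split.prime (h : Split p π) : Prime π := prime_of_nm_prime (by rw [h.hn]; exact h.pp)

lemma Split.dvd_intCast (h : Split p π) (n : ℤ) : π ∣ (n : Eis) ↔ (p : ℤ) ∣ n := by
  constructor
  · rintro ⟨t, ht⟩
    have h1 : (nm (n : Eis) : ℤ) = p * nm t := by rw [ht, nm_mul, h.hn]; push_cast; ring
    rw [nm_intCast] at h1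
    have h2 : (p : ℤ) ∣ n ^ 2 := ⟨nm t, h1⟩
    exact Int.Prime.dvd_pow' h.pp h2
  · rintro ⟨t, rfl⟩
    push_cast
    rw [← h.mul_conj, mul_assoc]
    exact dvd_mul_right _ _

/-- there is an integer `r` with `ω ≡ r mod π` -/
lemma Split.exists_r (h : Split p π) : ∃ r : ℤ, π ∣ w - (r : Eis) := by
  -- p does not divide π.im
  have hb : ¬ (p : ℤ) ∣ π.im := by
    intro hb
    have h1 : (nm π : ℤ) = p := by rw [h.hn]
    rw [nm_cast] at h1
    have h2 : (p : ℤ) ∣ π.re := by
      have : (p : ℤ) ∣ π.re ^ 2 := by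
        have : π.re ^ 2 = p + π.re * π.im - π.im ^ 2 := by linarith
        rw [this]
        obtain ⟨t, ht⟩ := hb
        exact ⟨1 + π.re * t - π.im * t, by rw [ht]; ring⟩
      exact Int.Prime.dvd_pow' h.pp this
    obtain ⟨s, hs⟩ := hb
    obtain ⟨t, ht⟩ := h2
    rw [hs, ht] at h1
    have h3 : (p : ℤ) * (p * (t ^ 2 - t * s + s ^ 2) - 1) = 0 := by linarith
    have hp0 : (p : ℤ) ≠ 0 := by exact_mod_cast h.pp.ne_zero
    rcases mul_eq_zero.mp h3 with h4 | h4
    · exact hp0 h4
    · have h5 : (p : ℤ) ∣ 1 := ⟨t ^ 2 - t * s + s ^ 2, by linarith⟩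
      have : p ∣ 1 := by exact_mod_cast h5
      exact h.pp.one_lt.ne' (Nat.dvd_one.mp this)
  have hcop : IsCoprime (p : ℤ) π.im :=
    (Int.isCoprime_iff_gcd_eq_one.mpr (by
      have h1 := (Nat.Prime.coprime_iff_not_dvd h.pp (n := π.im.natAbs)).mpr (by
        intro h'
        exact hb (Int.natCast_dvd.mpr h'))
      simpa [Int.gcd, Nat.Coprime] using h1))
  obtain ⟨k, b', hk⟩ := hcop
  -- k p + b' b = 1
  refine ⟨-(π.re * b'), ?_⟩
  have h1 : w - ((-(π.re * b') : ℤ) : Eis) = (b' : Eis) * π + (k : Eis) * (p : Eis) * w := by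
    have h2 : (k : Eis) * (p : Eis) + (b' : Eis) * (π.im : Eis) = 1 := by
      have := congrArg (fun x : ℤ => (x : Eis)) hk
      push_cast at this
      exact this
    have h3 := eq_re_add π
    calc w - ((-(π.re * b') : ℤ) : Eis) = ((k : Eis) * (p : Eis) + (b' : Eis) * (π.im : Eis)) * w +
          (π.re : Eis) * (b' : Eis) := by rw [h2]; push_cast; ring
      _ = (b' : Eis) * ((π.re : Eis) + (π.im : Eis) * w) + (k : Eis) * (p : Eis) * w := by ring
      _ = _ := by rw [← h3]
  rw [h1]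
  refine dvd_add (dvd_mul_left _ _) ?_
  rw [← h.mul_conj]
  exact ⟨k * Eis.conj π * w, by ring⟩

/-- choice of `r` -/
def Split.r (h : Split p π) : ℤ := h.exists_r.choose

lemma Split.r_spec (h : Split p π) : π ∣ w - (h.r : Eis) := h.exists_r.choose_spec

lemma Split.r_eq (h : Split p π) : (p : ℤ) ∣ h.r ^ 2 + h.r + 1 := by
  rw [← h.dvd_intCast]
  have h1 := h.r_spec
  obtain ⟨t, ht⟩ := h1
  have h2 : (h.r : Eis) = w - π * t := by rw [← ht]; ring
  push_cast
  rw [h2]
  have := w_sq
  refine ⟨-t * (2 * w - π * t) - t, ?_⟩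
  linear_combination this

/-- reduction modulo `π` -/
def Split.red (h : Split p π) : Eis →+* ZMod p where
  toFun z := ((z.re + h.r * z.im : ℤ) : ZMod p)
  map_zero' := by simp
  map_one' := by simp
  map_add' x y := by simp; ring
  map_mul' x y := by
    simp only [re_mul', im_mul']
    push_cast
    have h3 : ((h.r ^ 2 + h.r + 1 : ℤ) : ZMod p) = 0 :=
      (ZMod.intCast_zmod_eq_zero_iff_dvd _ _).mpr h.r_eq
    push_cast at h3
    linear_combination (-(x.im : ZMod p) * y.im) * h3

lemma Split.red_apply (h : Split p π) (z : Eis) :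
    h.red z = ((z.re + h.r * z.im : ℤ) : ZMod p) := rfl

lemma Split.red_eq_zero (h : Split p π) {z : Eis} : h.red z = 0 ↔ π ∣ z := by
  rw [h.red_apply, ZMod.intCast_zmod_eq_zero_iff_dvd, ← h.dvd_intCast]
  have h1 : z = ((z.re + h.r * z.im : ℤ) : Eis) + (z.im : Eis) * (w - (h.r : Eis)) := by
    conv_lhs => rw [eq_re_add z]
    push_cast
    ring
  have h2 : π ∣ (z.im : Eis) * (w - (h.r : Eis)) := h.r_spec.mul_left _
  constructor
  · intro h3
    rw [h1]
    exact dvd_add h3 h2
  · intro h3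
    rw [h1] at h3
    exact (dvd_add_left h2).mp h3

lemma Split.red_eq_iff (h : Split p π) {x y : Eis} : h.red x = h.red y ↔ π ∣ x - y := by
  rw [← sub_eq_zero, ← map_sub, h.red_eq_zero]

lemma Split.red_intCast (h : Split p π) (n : ℤ) : h.red (n : Eis) = (n : ZMod p) := by
  simp

lemma Split.red_natCast (h : Split p π) (n : ℕ) : h.red (n : Eis) = (n : ZMod p) := by
  simp

/-- sum over a complete residue system modulo a split prime -/
lemma Split.sumMod_eq (h : Split p π) [Fact p.Prime] (f : Eis → ℂ)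
    (hf : ∀ x y, π ∣ x - y → f x = f y) :
    sumMod π f = ∑ v : ZMod p, f ((v.val : ℕ) : Eis) := by
  unfold sumMod
  have hbij : Function.Bijective (fun v : ZMod p =>
      (Ideal.Quotient.mk (Ideal.span ({π} : Set Eis)) ((v.val : ℕ) : Eis))) := by
    constructor
    · intro a b hab
      simp only at hab
      rw [Ideal.Quotient.eq, Ideal.mem_span_singleton, ← h.red_eq_iff, h.red_natCast,
        h.red_natCast, ZMod.natCast_zmod_val, ZMod.natCast_zmod_val] at hab
      exact hab
    · intro q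
      obtain ⟨x, rfl⟩ := Ideal.Quotient.mk_surjective q
      refine ⟨h.red x, ?_⟩
      simp only
      rw [Ideal.Quotient.eq, Ideal.mem_span_singleton, ← h.red_eq_iff, h.red_natCast,
        ZMod.natCast_zmod_val]
  rw [← finsum_eq_sum_of_fintype]
  symm
  refine finsum_eq_of_bijective _ hbij fun v => ?_
  apply hf
  rw [← neg_sub, dvd_neg]
  rw [← Ideal.mem_span_singleton, ← Ideal.Quotient.eq]
  exact Quotient.out_eq _

/-! ### the cubic character of a rational integer -/

/-- the exponent `(p-1)/3` -/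
lemma Split.three_m (h : Split p π) : 3 * ((p - 1) / 3) = p - 1 := by
  have := h.mod
  have := h.pp.two_le
  omega

lemma Split.sy_eq (h : Split p π) (v : ZMod p) :
    sy ((v.val : ℕ) : Eis) π = if v = 0 then 0 else if v ^ ((p - 1) / 3) = 1 then 1
      else if v ^ ((p - 1) / 3) = (h.r : ZMod p) then wC else wC ^ 2 := by
  have : Fact p.Prime := ⟨h.pp⟩
  rw [sy_prime h.prime]
  unfold sy0
  rw [h.hn]
  have e1 : π ∣ ((v.val : ℕ) : Eis) ↔ v = 0 := by
    rw [← h.red_eq_zero, h.red_natCast, ZMod.natCast_zmod_val]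
  have e2 : π ∣ ((v.val : ℕ) : Eis) ^ ((p - 1) / 3) - 1 ↔ v ^ ((p - 1) / 3) = 1 := by
    rw [← h.red_eq_iff, map_pow, h.red_natCast, ZMod.natCast_zmod_val, map_one]
  have e3 : π ∣ ((v.val : ℕ) : Eis) ^ ((p - 1) / 3) - w ↔
      v ^ ((p - 1) / 3) = (h.r : ZMod p) := by
    rw [← h.red_eq_iff, map_pow, h.red_natCast, ZMod.natCast_zmod_val]
    have : h.red w = (h.r : ZMod p) := by simp [h.red_apply]
    rw [this]
  simp only [e1, e2, e3]

lemma Split.r_root (h : Split p π) : (h.r : ZMod p) ^ 2 + (h.r : ZMod p) + 1 = 0 := by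
  have h3 : ((h.r ^ 2 + h.r + 1 : ℤ) : ZMod p) = 0 :=
    (ZMod.intCast_zmod_eq_zero_iff_dvd _ _).mpr h.r_eq
  push_cast at h3
  exact h3

lemma Split.r_cube (h : Split p π) : (h.r : ZMod p) ^ 3 = 1 := by
  have := h.r_root
  linear_combination ((h.r : ZMod p) - 1) * this

lemma Split.r_ne_one (h : Split p π) : (h.r : ZMod p) ≠ 1 := by
  have : Fact p.Prime := ⟨h.pp⟩
  intro h1
  have h2 := h.r_root
  rw [h1] at h2
  have h3 : ((3 : ℕ) : ZMod p) = 0 := by push_cast; linear_combination h2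
  rw [ZMod.natCast_eq_zero_iff] at h3
  have := (Nat.prime_dvd_prime_iff_eq h.pp Nat.prime_three).mp h3
  have := h.mod
  omega

lemma Split.pow_m_cases (h : Split p π) {v : ZMod p} (hv : v ≠ 0) :
    v ^ ((p - 1) / 3) = 1 ∨ v ^ ((p - 1) / 3) = (h.r : ZMod p) ∨
      v ^ ((p - 1) / 3) = (h.r : ZMod p) ^ 2 := by
  have : Fact p.Prime := ⟨h.pp⟩
  have h1 : (v ^ ((p - 1) / 3)) ^ 3 = 1 := by
    rw [← pow_mul, mul_comm, h.three_m]
    exact ZMod.pow_card_sub_one_eq_one hv
  set y := v ^ ((p - 1) / 3)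
  have h2 : (y - 1) * ((y - (h.r : ZMod p)) * (y - (h.r : ZMod p) ^ 2)) = 0 := by
    have h3 := h.r_root
    have h4 := h.r_cube
    linear_combination h1 + (-y ^ 2 + y) * h3 + (1 - y) * (-1) * h4 + 0 * h3
  rcases mul_eq_zero.mp h2 with h3 | h3
  · left; exact sub_eq_zero.mp h3
  · rcases mul_eq_zero.mp h3 with h3 | h3
    · right; left; exact sub_eq_zero.mp h3
    · right; right; exact sub_eq_zero.mp h3

lemma Split.sy_congr (h : Split p π) {x y : Eis} (hxy : π ∣ x - y) : sy x π = sy y π := by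
  rw [sy_prime h.prime, sy_prime h.prime]
  have e := h.red_eq_iff.mpr hxy
  have h1 : (π ∣ x) = (π ∣ y) := by rw [← h.red_eq_zero, ← h.red_eq_zero, e]
  have h2 : ∀ (k : ℕ) (c : Eis), (π ∣ x ^ k - c) = (π ∣ y ^ k - c) := fun k c => by
    rw [← h.red_eq_iff, ← h.red_eq_iff, map_pow, map_pow, e]
  unfold sy0
  rw [h1, h2, h2]

lemma Split.conj_ne (h : Split p π) : Eis.conj π ≠ π := by
  intro h1
  have h2 := congrArg QuadraticAlgebra.im h1
  simp only [Eis.conj_im] at h2
  have h3 : π.im = 0 := by omega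
  have h4 : (nm π : ℤ) = p := by rw [h.hn]
  rw [nm_cast, h3] at h4
  have h5 : (p : ℤ) = π.re ^ 2 := by linarith
  have h6 : p = π.re.natAbs ^ 2 := by
    have : ((π.re.natAbs : ℕ) : ℤ) ^ 2 = π.re ^ 2 := by simp
    rw [← this] at h5
    exact_mod_cast h5
  have := h.pp
  rw [h6] at this
  exact Nat.Prime.not_prime_pow (le_refl 2) this

/-- the trace of `π` -/
def Split.t (_ : Split p π) : ℤ := 2 * π.re - π.im

lemma Split.t_eis (h : Split p π) : (h.t : Eis) = π + Eis.conj π := by
  unfold Split.t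
  apply ext' <;> simp <;> ring

lemma Split.t_ne (h : Split p π) : (h.t : ZMod p) ≠ 0 := by
  rw [Ne, ZMod.intCast_zmod_eq_zero_iff_dvd, ← h.dvd_intCast, h.t_eis]
  intro h1
  have h2 : π ∣ Eis.conj π := (dvd_add_right (dvd_refl π)).mp h1
  have h3 : Associated π (Eis.conj π) :=
    (h.prime.irreducible.associated_of_dvd h.conj.prime.irreducible h2)
  exact h.conj_ne (h.prim.eq_of_associated h.conj.prim h3).symm

lemma eC_toC (y : Eis) : eC (toC y) = 1 := by
  unfold eC
  have : toC y + (starRingEnd ℂ) (toC y) = ((2 * y.re - y.im : ℤ) : ℂ) := by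
    apply Complex.ext
    · simp only [add_re, Complex.conj_re, toC_re, Complex.intCast_re]; push_cast; ring
    · simp only [add_im, Complex.conj_im, Complex.intCast_im]; ring
  rw [this, Complex.exp_eq_one_iff]
  exact ⟨2 * y.re - y.im, by push_cast; ring⟩

lemma eC_add (x y : ℂ) : eC (x + y) = eC x * eC y := by
  unfold eC
  rw [← Complex.exp_add, map_add]
  congr 1
  ring

lemma eC_div_congr {π : Eis} (hπ : π ≠ 0) {x y : Eis} (hxy : π ∣ x - y) :
    eC (toC 1 * toC x / toC π) = eC (toC 1 * toC y / toC π) := by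
  obtain ⟨t, ht⟩ := hxy
  have h0 : toC π ≠ 0 := by rwa [Ne, toC_eq_zero]
  have h1 : toC 1 * toC x / toC π = toC 1 * toC y / toC π + toC t := by
    have : x = y + π * t := by rw [← ht]; ring
    rw [this, map_add, map_mul, map_one]
    field_simp
  rw [h1, eC_add, eC_toC, mul_one]

lemma Split.eC_eq (h : Split p π) [NeZero p] (v : ZMod p) :
    eC (toC 1 * toC ((v.val : ℕ) : Eis) / toC π) = ZMod.stdAddChar ((h.t : ZMod p) * v) := by
  have h0 : toC π ≠ 0 := by rw [Ne, toC_eq_zero]; exact h.prim.ne_zero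
  have hv : (h.t : ZMod p) * v = ((h.t * (v.val : ℤ) : ℤ) : ZMod p) := by
    push_cast
    rw [ZMod.natCast_zmod_val]
  rw [hv, ZMod.stdAddChar_coe]
  unfold eC
  congr 1
  have hp0 : (p : ℂ) ≠ 0 := by exact_mod_cast NeZero.ne p
  have hc : (starRingEnd ℂ) (toC π) ≠ 0 := by rwa [Ne, map_eq_zero]
  have hmul : toC π * (starRingEnd ℂ) (toC π) = (p : ℂ) := by
    rw [← toC_conj, ← map_mul, h.mul_conj, map_natCast]
  have htr : toC π + (starRingEnd ℂ) (toC π) = ((h.t : ℤ) : ℂ) := by
    rw [← toC_conj, ← map_add, ← h.t_eis, map_intCast]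
  rw [map_one, one_mul, map_natCast, map_div₀, Complex.conj_natCast]
  have e1 : ((v.val : ℕ) : ℂ) / toC π + ((v.val : ℕ) : ℂ) / (starRingEnd ℂ) (toC π) =
      ((h.t : ℤ) : ℂ) * (v.val : ℕ) / p := by
    rw [← htr, ← hmul]
    field_simp
    ring
  rw [e1]
  push_cast
  ring

lemma Split.gs_eq (h : Split p π) [Fact p.Prime] :
    gs 1 π = ∑ v : ZMod p, sy ((v.val : ℕ) : Eis) π * ZMod.stdAddChar ((h.t : ZMod p) * v) := by
  unfold gs
  rw [h.sumMod_eq]
  · apply Finset.sum_congr rfl
    intro v _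
    rw [h.eC_eq]
  · intro x y hxy
    rw [h.sy_congr hxy, eC_div_congr h.prim.ne_zero hxy]

lemma Split.r_conj (h : Split p π) : (h.conj.r : ZMod p) = (h.r : ZMod p) ^ 2 := by
  have h1 := conj_dvd_conj h.conj.r_spec
  rw [conj_conj, conj_sub, conj_w] at h1
  have h2 : Eis.conj ((h.conj.r : ℤ) : Eis) = ((h.conj.r : ℤ) : Eis) := map_intCast conjHom _
  rw [h2, ← h.red_eq_iff, h.red_intCast, map_pow] at h1
  rw [← h1]
  congr 1
  simp [h.red_apply]

lemma Split.t_conj (h : Split p π) : h.conj.t = h.t := by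
  unfold Split.t
  simp
  ring

lemma wC_add_sq : wC + wC ^ 2 = -1 := by rw [wC_sq]; ring

/-- number of cube roots -/
def ncube (p : ℕ) [NeZero p] (v : ZMod p) : ℕ := (Finset.univ.filter (fun x : ZMod p => x ^ 3 = v)).card

lemma Split.cube_of_pow (h : Split p π) {v : ZMod p} (hv : v ≠ 0)
    (h1 : v ^ ((p - 1) / 3) = 1) : ∃ s : ZMod p, s ^ 3 = v := by
  have : Fact p.Prime := ⟨h.pp⟩
  obtain ⟨g, hg⟩ := IsCyclic.exists_generator (α := (ZMod p)ˣ)
  set u : (ZMod p)ˣ := Units.mk0 v hv
  obtain ⟨k, hk⟩ := Subgroup.mem_zpowers_iff.mp (hg u)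
  have hu : u ^ ((p - 1) / 3) = 1 := by
    apply Units.ext
    simpa [u] using h1
  have ho : orderOf g = p - 1 := by
    rw [orderOf_eq_card_of_forall_mem_zpowers hg, Nat.card_eq_fintype_card,
      ZMod.card_units]
  rw [← hk, ← zpow_natCast, ← zpow_mul, ← orderOf_dvd_iff_zpow_eq_one, ho] at hu
  have h3 := h.three_m
  have hm : 0 < (p - 1) / 3 := by
    have := h.mod
    have := h.pp.two_le
    omega
  have h4 : (3 : ℤ) ∣ k := by
    obtain ⟨c, hc⟩ := hu
    have h5 : ((p - 1 : ℕ) : ℤ) = 3 * (((p - 1) / 3 : ℕ) : ℤ) := by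
      rw [← h3]; push_cast; omega
    rw [h5] at hc
    refine ⟨c, ?_⟩
    have h6 : (((p - 1) / 3 : ℕ) : ℤ) ≠ 0 := by exact_mod_cast hm.ne'
    have h7 : (((p - 1) / 3 : ℕ) : ℤ) * k = (((p - 1) / 3 : ℕ) : ℤ) * (3 * c) := by
      linear_combination hc
    exact mul_left_cancel₀ h6 h7
  obtain ⟨j, rfl⟩ := h4
  refine ⟨((g ^ j : (ZMod p)ˣ) : ZMod p), ?_⟩
  have : (g ^ j) ^ 3 = u := by
    rw [← hk, ← zpow_natCast, ← zpow_mul]
    congr 1
    push_cast
    ring
  rw [← Units.val_pow_eq_pow_val, this]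
  rfl

lemma Split.ncube_eq (h : Split p π) [NeZero p] (v : ZMod p) :
    ncube p v = if v = 0 then 1 else if v ^ ((p - 1) / 3) = 1 then 3 else 0 := by
  have : Fact p.Prime := ⟨h.pp⟩
  unfold ncube
  split_ifs with h0 h1
  · subst h0
    have : (Finset.univ.filter (fun x : ZMod p => x ^ 3 = 0)) = {0} := by
      ext x
      simp
    rw [this, Finset.card_singleton]
  · obtain ⟨s, hs⟩ := h.cube_of_pow h0 h1
    have hs0 : s ≠ 0 := by
      rintro rfl
      apply h0
      rw [← hs]
      simp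
    have hr := h.r_root
    have hr3 := h.r_cube
    have hr1 := h.r_ne_one
    have : (Finset.univ.filter (fun x : ZMod p => x ^ 3 = v)) =
        {s, s * (h.r : ZMod p), s * (h.r : ZMod p) ^ 2} := by
      ext x
      simp only [Finset.mem_filter, Finset.mem_univ, true_and, Finset.mem_insert,
        Finset.mem_singleton]
      constructor
      · intro hx
        have h2 : (x - s) * ((x - s * (h.r : ZMod p)) * (x - s * (h.r : ZMod p) ^ 2)) = 0 := by
          have e : (x - s) * ((x - s * (h.r : ZMod p)) * (x - s * (h.r : ZMod p) ^ 2)) =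
              x ^ 3 - s ^ 3 * (h.r : ZMod p) ^ 3 - x ^ 2 * s * ((h.r : ZMod p) ^ 2 + (h.r : ZMod p) + 1)
              + x * s ^ 2 * ((h.r : ZMod p) ^ 3 + (h.r : ZMod p) ^ 2 + (h.r : ZMod p)) := by ring
          rw [e, hr, hr3, hx, hs]
          have : (1 : ZMod p) + (h.r : ZMod p) ^ 2 + (h.r : ZMod p) = 0 := by
            linear_combination hr
          rw [this]
          ring
        rcases mul_eq_zero.mp h2 with h3 | h3
        · left; exact sub_eq_zero.mp h3
        · rcases mul_eq_zero.mp h3 with h3 | h3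
          · right; left; exact sub_eq_zero.mp h3
          · right; right; exact sub_eq_zero.mp h3
      · rintro (rfl | rfl | rfl)
        · exact hs
        · rw [mul_pow, hr3, mul_one, hs]
        · rw [mul_pow, ← pow_mul, mul_comm 2 3, pow_mul, hr3, one_pow, mul_one, hs]
    rw [this]
    have hr0 : (h.r : ZMod p) ≠ 0 := by
      intro h'
      rw [h'] at hr3
      simp at hr3
    have n1 : s ≠ s * (h.r : ZMod p) := by
      intro h'
      apply hr1
      have : s * ((h.r : ZMod p) - 1) = 0 := by linear_combination -h'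
      rcases mul_eq_zero.mp this with h'' | h''
      · exact absurd h'' hs0
      · exact sub_eq_zero.mp h''
    have n2 : s ≠ s * (h.r : ZMod p) ^ 2 := by
      intro h'
      have : s * ((h.r : ZMod p) ^ 2 - 1) = 0 := by linear_combination -h'
      rcases mul_eq_zero.mp this with h'' | h''
      · exact absurd h'' hs0
      · apply hr1
        have h3 : (h.r : ZMod p) ^ 2 = 1 := sub_eq_zero.mp h''
        have : (h.r : ZMod p) ^ 3 = (h.r : ZMod p) ^ 2 * (h.r : ZMod p) := by ring
        rw [h3, hr3, one_mul] at this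
        exact this.symm
    have n3 : s * (h.r : ZMod p) ≠ s * (h.r : ZMod p) ^ 2 := by
      intro h'
      have : (s * (h.r : ZMod p)) * ((h.r : ZMod p) - 1) = 0 := by linear_combination -h'
      rcases mul_eq_zero.mp this with h'' | h''
      · exact (mul_ne_zero hs0 hr0) h''
      · exact hr1 (sub_eq_zero.mp h'')
    rw [Finset.card_insert_of_notMem, Finset.card_insert_of_notMem, Finset.card_singleton]
    · simpa using n3
    · simp only [Finset.mem_insert, Finset.mem_singleton, not_or]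
      exact ⟨n1, n2⟩
  · rw [Finset.card_eq_zero, Finset.filter_eq_empty_iff]
    intro x _ hx
    apply h1
    rw [← hx, ← pow_mul, h.three_m]
    apply ZMod.pow_card_sub_one_eq_one
    rintro rfl
    apply h0
    rw [← hx]
    simp

lemma Split.sy_add_sy (h : Split p π) [NeZero p] (v : ZMod p) :
    sy ((v.val : ℕ) : Eis) π + sy ((v.val : ℕ) : Eis) (Eis.conj π) = (ncube p v : ℂ) - 1 := by
  have : Fact p.Prime := ⟨h.pp⟩
  rw [h.sy_eq, h.conj.sy_eq, h.r_conj, h.ncube_eq]
  by_cases h0 : v = 0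
  · simp [h0]
  rw [if_neg h0, if_neg h0, if_neg h0]
  have hr3 := h.r_cube
  have hr1 := h.r_ne_one
  have hr0 : (h.r : ZMod p) ≠ 0 := by
    intro h'
    rw [h'] at hr3
    simp at hr3
  have hrr : (h.r : ZMod p) ^ 2 ≠ 1 := by
    intro h3
    apply hr1
    have : (h.r : ZMod p) ^ 3 = (h.r : ZMod p) ^ 2 * (h.r : ZMod p) := by ring
    rw [h3, hr3, one_mul] at this
    exact this.symm
  have hrn : (h.r : ZMod p) ≠ (h.r : ZMod p) ^ 2 := by
    intro h'
    have : (h.r : ZMod p) * ((h.r : ZMod p) - 1) = 0 := by linear_combination -h'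
    rcases mul_eq_zero.mp this with h'' | h''
    · exact hr0 h''
    · exact hr1 (sub_eq_zero.mp h'')
  have hw := wC_add_sq
  rcases h.pow_m_cases h0 with h1 | h1 | h1
  · rw [h1]
    simp
    norm_num
  · rw [h1, if_neg hr1, if_pos rfl, if_neg hr1, if_neg hrn, if_neg hr1, hw]
    simp
  · rw [h1, if_neg hrr, if_neg hrn.symm, if_neg hrr, if_pos rfl, if_neg hrr, add_comm, hw]
    simp

/-- The sum of the two cubic Gauss sums over `p` is the cubic exponential sum. -/
theorem Split.gs_add_gs (h : Split p π) [Fact p.Prime]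
    (hc : sy ((h.t : ℤ) : Eis) π = 1) :
    gs 1 π + gs 1 (Eis.conj π) = ∑ x : ZMod p, ZMod.stdAddChar (x ^ 3) := by
  rw [h.gs_eq, h.conj.gs_eq, h.t_conj, ← Finset.sum_add_distrib]
  have e1 : ∀ v : ZMod p, sy ((v.val : ℕ) : Eis) π * ZMod.stdAddChar ((h.t : ZMod p) * v) +
      sy ((v.val : ℕ) : Eis) (Eis.conj π) * ZMod.stdAddChar ((h.t : ZMod p) * v) =
      (ncube p v : ℂ) * ZMod.stdAddChar ((h.t : ZMod p) * v) -
        ZMod.stdAddChar (v * (h.t : ZMod p)) := by
    intro v
    rw [← add_mul, h.sy_add_sy]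
    rw [mul_comm v (h.t : ZMod p)]
    ring
  rw [Finset.sum_congr rfl fun v _ => e1 v, Finset.sum_sub_distrib,
    AddChar.sum_mulShift _ (ZMod.isPrimitive_stdAddChar p), if_neg h.t_ne, Nat.cast_zero, sub_zero]
  -- cubes
  have e2 : ∀ v : ZMod p, (ncube p v : ℂ) * ZMod.stdAddChar ((h.t : ZMod p) * v) =
      ∑ x ∈ Finset.univ.filter (fun x : ZMod p => x ^ 3 = v),
        ZMod.stdAddChar ((h.t : ZMod p) * x ^ 3) := by
    intro v
    rw [Finset.sum_congr rfl (g := fun _ => ZMod.stdAddChar ((h.t : ZMod p) * v))]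
    · rw [Finset.sum_const, nsmul_eq_mul]; rfl
    · intro x hx
      rw [Finset.mem_filter] at hx
      rw [hx.2]
  rw [Finset.sum_congr rfl fun v _ => e2 v, Finset.sum_fiberwise]
  -- t is a cube
  have hcub : ∃ s : ZMod p, s ^ 3 = (h.t : ZMod p) := by
    apply h.cube_of_pow h.t_ne
    have h1 := h.sy_eq (h.t : ZMod p)
    have h2 : sy (((h.t : ZMod p).val : ℕ) : Eis) π = sy ((h.t : ℤ) : Eis) π := by
      apply h.sy_congr
      rw [← h.red_eq_iff, h.red_natCast, h.red_intCast, ZMod.natCast_zmod_val]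
    rw [h2, hc, if_neg h.t_ne] at h1
    by_contra hne
    rw [if_neg hne] at h1
    have hw1 : wC ≠ 1 := by
      intro h'
      have := congrArg Complex.re h'
      simp [wC] at this
      norm_num at this
    split_ifs at h1
    · exact hw1 h1.symm
    · apply hw1
      have : wC ^ 3 = wC ^ 2 * wC := by ring
      rw [wC_cube, ← h1, one_mul] at this
      exact this.symm
  obtain ⟨s, hs⟩ := hcub
  have hs0 : s ≠ 0 := by
    rintro rfl
    apply h.t_ne
    rw [← hs]
    simp
  have e3 : ∀ x : ZMod p, ZMod.stdAddChar ((h.t : ZMod p) * x ^ 3) =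
      ZMod.stdAddChar ((s * x) ^ 3) := by
    intro x
    rw [mul_pow, hs]
  rw [Finset.sum_congr rfl fun v _ => e3 v]
  exact Fintype.sum_bijective (fun x => s * x) (mulLeft_bijective₀ s hs0) _ _ (fun x => rfl)

end Fin713

end Crest.Agent.R012
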