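import Crest.Agent.R012.Parseval_499
import Crest.Agent.R012.Quot_666
import Crest.Agent.R012.AddChar_666
import Crest.Agent.R012.Base_666
import Crest.Agent.R012.CharSum_852

/-!
# Fourier coefficients of sums over rows  (row 12, part (M-F), helper499)

For a kernel `k : Eis → Eis → ℂ` with `k (c + 3 d t) d = k c d` (`d` primary) and functions
`φ d : ℂ → ℂ` (think `φ d z = F (d (z η + ζ))`), the function
`z ↦ Σ_{c, d} k (3c) d φ_d (z + 3c/d)` on `ℂ/3ℤ[ω]` has Fourier coefficient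
`Σ_d (Σ_{x mod d} k (3x) d e(u x/(√-3 d))) · covol⁻¹ ∫_ℂ φ_d(z) e(-u z/(3√-3)) dz`.
-/

set_option autoImplicit false

noncomputable section

open MeasureTheory Complex Set
open scoped ComplexConjugate ENNReal

namespace Crest.Agent.R012.FourCoef499

open Crest.Agent.R012 Crest.Agent.R012.Parseval499 Eis

/-- the lintegral over the parallelogram of all translates by `3c/d`. -/
lemma tsum_lintegral_row {d : Eis} (hd : d ≠ 0) {a : ℂ} (ha : a ≠ 0) (g : ℂ → ℝ≥0∞)
 :
    ∑' c : Eis, ∫⁻ z in par a, g (z + a * (toC c / toC d)) = (Eis.nm d : ℝ≥0∞) * ∫⁻ z, g z := by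
  have hdC : toC d ≠ 0 := by rwa [Ne, toC_eq_zero]
  rw [← (crsEquiv hd (isCRS_crs hd)).tsum_eq]
  refine (ENNReal.tsum_prod (f := fun (s : crs d) (t : Eis) => ∫⁻ z in par a,
      g (z + a * (toC (crsEquiv hd (isCRS_crs hd) (s, t)) / toC d)))).trans ?_
  have h1 : ∀ s : (crs d), ∑' t : Eis, ∫⁻ z in par a,
      g (z + a * (toC (crsEquiv hd (isCRS_crs hd) (s, t)) / toC d)) = ∫⁻ z, g z := by
    intro s
    have h2 := lintegral_eq_tsum_par ha (fun z => g (z + a * (toC s.1 / toC d)))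
    rw [lintegral_add_right_eq_self (fun z => g z)] at h2
    rw [h2]
    refine tsum_congr fun t => lintegral_congr fun z => ?_
    congr 1
    rw [crsEquiv_apply, map_add, map_mul]
    field_simp
    ring
  rw [tsum_congr h1, tsum_fintype, Finset.sum_const, Finset.card_univ, Fintype.card_coe,
    card_crs hd, nsmul_eq_mul]

/-- Fourier coefficient of one row-sum (fixed `d`), for a general periodic coefficient `f`. -/
theorem tsum_integral_row {d : Eis} (hd : d ≠ 0) {a : ℂ} (ha : a ≠ 0) {f : Eis → ℂ} (hf : PMod d f)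
    {φ : ℂ → ℂ} (hφ : Integrable φ)
    (u : Eis) :
    ∑' c : Eis, f c * ∫ z in par a, φ (z + a * (toC c / toC d)) * eC (-(frq a u * z)) =
      sumMod d (fun x => f x * eC (toC u * toC x / (toC s3 * toC d))) *
        ∫ z, φ z * eC (-(frq a u * z)) := by
  have hdC : toC d ≠ 0 := by rwa [Ne, toC_eq_zero]
  set J : Eis → ℂ := fun c => ∫ z in par a, φ (z + a * (toC c / toC d)) * eC (-(frq a u * z))
    with hJ
  -- summability
  have hsum : Summable (fun c : Eis => (∫⁻ z in par a, ‖φ (z + a * (toC c / toC d))‖ₑ).toReal) := by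
    refine ENNReal.summable_toReal ?_
    rw [tsum_lintegral_row hd ha (fun z => ‖φ z‖ₑ)]
    exact ENNReal.mul_ne_top (ENNReal.natCast_ne_top _) hφ.2.ne
  have hJb : ∀ c, ‖J c‖ ≤ (∫⁻ z in par a, ‖φ (z + a * (toC c / toC d))‖ₑ).toReal := by
    intro c
    have h1 := norm_integral_le_lintegral_norm (μ := volume.restrict (par a))
      (fun z => φ (z + a * (toC c / toC d)) * eC (-(frq a u * z)))
    have h2 : (∫⁻ z in par a, ENNReal.ofReal ‖φ (z + a * (toC c / toC d)) * eC (-(frq a u * z))‖)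
        = ∫⁻ z in par a, ‖φ (z + a * (toC c / toC d))‖ₑ := by
      refine lintegral_congr fun z => ?_
      rw [norm_mul, norm_eC, mul_one, ofReal_norm]
    rw [h2] at h1
    exact h1
  have hJs : Summable J := Summable.of_norm_bounded hsum hJb
  obtain ⟨K, hK⟩ : ∃ K, ∀ x, ‖f x‖ ≤ K := by
    refine ⟨∑ s ∈ crs d, ‖f s‖, fun x => ?_⟩
    obtain ⟨s, ⟨hs, hds⟩, -⟩ := isCRS_crs hd x
    rw [hf.congr hds]
    exact Finset.single_le_sum (f := fun s => ‖f s‖) (fun _ _ => norm_nonneg _) hs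
  have hfJs : Summable (fun c => f c * J c) := by
    refine Summable.of_norm_bounded (hsum.mul_left K) fun c => ?_
    rw [norm_mul]
    exact mul_le_mul (hK c) (hJb c) (norm_nonneg _) ((norm_nonneg _).trans (hK c))
  rw [tsum_periodic hd hf hJs hfJs, ← sumMod_mul_right hd]
  refine sumMod_congr fun x => ?_
  rw [mul_assoc]
  congr 1
  -- inner sum
  have hint : Integrable (fun z => φ (z + a * (toC x / toC d)) * eC (-(frq a u * z))) := by
    refine Integrable.mul_bdd (c := 1) (hφ.comp_add_right _) ?_ ?_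
    · exact (continuous_eC.comp (by fun_prop)).aestronglyMeasurable
    · exact Filter.Eventually.of_forall fun z => by rw [norm_eC]
  have h1 := (hasSum_integral_par ha hint).tsum_eq
  have h2 : ∀ t : Eis, J (x + d * t) = ∫ z in par a, φ (z + a * toC t + a * (toC x / toC d)) *
      eC (-(frq a u * (z + a * toC t))) := by
    intro t
    simp only [hJ]
    refine integral_congr_ae (Filter.Eventually.of_forall fun z => ?_)
    simp only
    rw [eC_frq_neg_add ha]
    congr 2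
    rw [map_add, map_mul]
    field_simp
    ring
  rw [tsum_congr h2, h1]
  -- shift
  have h3 := integral_add_right_eq_self (μ := (volume : Measure ℂ))
    (fun z => φ z * eC (-(frq a u * (z - a * (toC x / toC d))))) (a * (toC x / toC d))
  simp only [add_sub_cancel_right] at h3
  rw [h3, ← integral_const_mul]
  refine integral_congr_ae (Filter.Eventually.of_forall fun z => ?_)
  simp only
  have h4 : -(frq a u * (z - a * (toC x / toC d))) =
      toC u * toC x / (toC s3 * toC d) + -(frq a u * z) := by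
    unfold frq
    have := toC_s3_ne
    field_simp
    ring
  rw [h4, Parseval499.eC_add]
  ring

open Classical in
/-- `Σ_{c, d, d primary} k (3c) d φ_d(z + a c/d)` (with `a = 3` in the applications). -/
def rowSum (a : ℂ) (k : Eis → Eis → ℂ) (φ : Eis → ℂ → ℂ) (z : ℂ) : ℂ :=
  ∑' p : Eis × Eis, if IsPrim p.2 then k (3 * p.1) p.2 * φ p.2 (z + a * (toC p.1 / toC p.2)) else 0

open Classical in
/-- **Fourier coefficients of a sum over rows** (abstract form). -/
theorem fco_rowSum {a : ℂ} (ha : a ≠ 0) {k : Eis → Eis → ℂ} {K : ℝ}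
    (hkb : ∀ c d, IsPrim d → ‖k (3 * c) d‖ ≤ K)
    (hk : ∀ d, IsPrim d → PMod d (fun c => k (3 * c) d))
    {φ : Eis → ℂ → ℂ} (hφ : ∀ d, IsPrim d → Integrable (φ d))
    (hsum : ∑' d : Eis, (if IsPrim d then (Eis.nm d : ℝ≥0∞) * ∫⁻ z, ‖φ d z‖ₑ else 0) ≠ ∞)
    (u : Eis) :
    fco a (rowSum a k φ) u = ∑' d : Eis, if IsPrim d then
      sumMod d (fun x => k (3 * x) d * eC (toC u * toC x / (toC s3 * toC d))) *
        ((covol a : ℂ)⁻¹ * ∫ z, φ d z * eC (-(frq a u * z))) else 0 := by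
  have hK0 : 0 ≤ K := (norm_nonneg _).trans (hkb 0 1 isPrim_one)
  -- the family of functions
  set G : Eis × Eis → ℂ → ℂ := fun p z =>
    (if IsPrim p.2 then k (3 * p.1) p.2 * φ p.2 (z + a * (toC p.1 / toC p.2)) else 0) *
      eC (-(frq a u * z)) with hG
  have hGm : ∀ p, AEStronglyMeasurable (G p) (volume.restrict (par a)) := by
    intro p
    refine AEStronglyMeasurable.mul ?_ (continuous_eC.comp (by fun_prop)).aestronglyMeasurable
    by_cases hp : IsPrim p.2
    · simp only [hp, if_true]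
      exact (((hφ p.2 hp).comp_add_right _).aestronglyMeasurable.const_mul _).restrict
    · simp only [hp, if_false]
      exact aestronglyMeasurable_const
  have hGn : ∀ p, ∫⁻ z in par a, ‖G p z‖ₑ ≤ if IsPrim p.2 then ENNReal.ofReal K *
      ∫⁻ z in par a, ‖φ p.2 (z + a * (toC p.1 / toC p.2))‖ₑ else 0 := by
    intro p
    by_cases hp : IsPrim p.2
    · simp only [hG, hp, if_true]
      rw [← lintegral_const_mul' _ _ ENNReal.ofReal_ne_top]
      refine lintegral_mono fun z => ?_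
      rw [enorm_mul, enorm_mul, ← ofReal_norm (eC _), norm_eC, ENNReal.ofReal_one, mul_one]
      refine mul_le_mul_left ?_ _
      rw [← ofReal_norm]
      exact ENNReal.ofReal_le_ofReal (hkb _ _ hp)
    · simp [hG, hp]
  have hfin : ∑' p : Eis × Eis, ∫⁻ z in par a, ‖G p z‖ₑ ≠ ∞ := by
    refine ne_top_of_le_ne_top ?_ (ENNReal.tsum_le_tsum hGn)
    rw [← (Equiv.prodComm Eis Eis).tsum_eq]
    have h1 : (∑' p : Eis × Eis, if IsPrim ((Equiv.prodComm Eis Eis) p).2 then ENNReal.ofReal K *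
        ∫⁻ z in par a, ‖φ ((Equiv.prodComm Eis Eis) p).2 (z + a *
          (toC ((Equiv.prodComm Eis Eis) p).1 / toC ((Equiv.prodComm Eis Eis) p).2))‖ₑ else 0)
        = ∑' d : Eis, ∑' c : Eis, if IsPrim d then ENNReal.ofReal K *
          ∫⁻ z in par a, ‖φ d (z + a * (toC c / toC d))‖ₑ else 0 :=
      ENNReal.tsum_prod (f := fun d c => if IsPrim d then ENNReal.ofReal K *
          ∫⁻ z in par a, ‖φ d (z + a * (toC c / toC d))‖ₑ else 0)
    rw [h1]
    have h2 : ∀ d : Eis, (∑' c : Eis, if IsPrim d then ENNReal.ofReal K *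
          ∫⁻ z in par a, ‖φ d (z + a * (toC c / toC d))‖ₑ else 0) =
        ENNReal.ofReal K * (if IsPrim d then (Eis.nm d : ℝ≥0∞) * ∫⁻ z, ‖φ d z‖ₑ else 0) := by
      intro d
      by_cases hd : IsPrim d
      · simp only [hd, if_true]
        rw [ENNReal.tsum_mul_left, tsum_lintegral_row hd.ne_zero ha (fun z => ‖φ d z‖ₑ)]
      · simp [hd]
    rw [tsum_congr h2, ENNReal.tsum_mul_left]
    exact ENNReal.mul_ne_top ENNReal.ofReal_ne_top hsum
  have hI := integral_tsum hGm hfin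
  -- rewrite the left hand side
  have hL : fco a (rowSum a k φ) u = (covol a : ℂ)⁻¹ * ∑' p : Eis × Eis, ∫ z in par a, G p z := by
    rw [← hI]
    unfold fco rowSum
    congr 1
    refine integral_congr_ae (Filter.Eventually.of_forall fun z => ?_)
    simp only [hG]
    rw [tsum_mul_right]
  rw [hL]
  -- summability of the integrals
  have hS : Summable (fun p : Eis × Eis => ∫ z in par a, G p z) := by
    refine Summable.of_norm_bounded (ENNReal.summable_toReal hfin) fun p => ?_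
    have h1 := norm_integral_le_lintegral_norm (μ := volume.restrict (par a)) (G p)
    simpa only [ofReal_norm] using h1
  rw [← (Equiv.prodComm Eis Eis).tsum_eq (fun p : Eis × Eis => ∫ z in par a, G p z)]
  have hS' : Summable (fun p : Eis × Eis => ∫ z in par a, G ((Equiv.prodComm Eis Eis) p) z) :=
    (Equiv.prodComm Eis Eis).summable_iff.mpr hS
  rw [hS'.tsum_prod, ← tsum_mul_left]
  refine tsum_congr fun d => ?_
  by_cases hd : IsPrim d
  · simp only [hd, if_true]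
    have h1 := tsum_integral_row hd.ne_zero ha (hk d hd) (hφ d hd) u
    have h2 : ∀ c : Eis, ∫ z in par a, G ((Equiv.prodComm Eis Eis) (d, c)) z =
        k (3 * c) d * ∫ z in par a, φ d (z + a * (toC c / toC d)) * eC (-(frq a u * z)) := by
      intro c
      rw [← integral_const_mul]
      refine integral_congr_ae (Filter.Eventually.of_forall fun z => ?_)
      simp only [hG, Equiv.prodComm_apply, Prod.swap_prod_mk, hd, if_true]
      ring
    rw [tsum_congr h2, h1]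
    ring
  · simp only [hd, if_false]
    have h2 : ∀ c : Eis, ∫ z in par a, G ((Equiv.prodComm Eis Eis) (d, c)) z = 0 := by
      intro c
      simp [hG, hd]
    rw [tsum_congr h2, tsum_zero, mul_zero]

/-! ### frames -/

open Classical in
/-- Sum over the rows `(c, d)`, `3 ∣ c`, `d` primary, of `k c d * F (c η + d ζ)`. -/
def EK (k : Eis → Eis → ℂ) (F : ℂ × ℂ → ℂ) (η ζ : ℂ × ℂ) : ℂ :=
  ∑' p : Eis × Eis, if (3 : Eis) ∣ p.1 ∧ IsPrim p.2 then
    k p.1 p.2 * F (toC p.1 • η + toC p.2 • ζ) else 0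

open Classical in
lemma EK_shift (k : Eis → Eis → ℂ) (F : ℂ × ℂ → ℂ) (η ζ : ℂ × ℂ) (z : ℂ) :
    EK k F η (ζ + z • η) = rowSum 3 k (fun d z => F (toC d • (z • η + ζ))) z := by
  have h30 : (3 : Eis) ≠ 0 := Eis.three_ne_zero'
  have hj : Function.Injective (fun p : Eis × Eis => ((3 * p.1, p.2) : Eis × Eis)) := by
    rintro ⟨c, d⟩ ⟨c', d'⟩ h
    simp only [Prod.mk.injEq] at h
    exact Prod.ext (mul_left_cancel₀ h30 h.1) h.2
  unfold EK rowSum
  rw [← hj.tsum_eq]
  · refine tsum_congr fun p => ?_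
    simp only [dvd_mul_right, true_and]
    by_cases hp : IsPrim p.2
    · simp only [hp, if_true]
      congr 2
      have hd : toC p.2 ≠ 0 := by
        rw [Ne, toC_eq_zero]; exact hp.ne_zero
      ext
      · simp only [Prod.fst_add, Prod.smul_fst, smul_eq_mul, map_mul, map_ofNat]
        field_simp
        ring
      · simp only [Prod.snd_add, Prod.smul_snd, smul_eq_mul, map_mul, map_ofNat]
        field_simp
        ring
    · simp [hp]
  · intro p hp
    simp only [Function.mem_support, ne_eq, ite_eq_right_iff, not_forall] at hp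
    obtain ⟨⟨⟨c, hc⟩, -⟩, -⟩ := hp
    exact ⟨(c, p.2), Prod.ext hc.symm rfl⟩

lemma norm_mul_det_le (η ζ : ℂ × ℂ) (d c : ℂ) :
    ‖d‖ * ‖η.1 * ζ.2 - η.2 * ζ.1‖ ≤ 2 * ‖η‖ * ‖c • η + d • ζ‖ := by
  have h : d * (η.1 * ζ.2 - η.2 * ζ.1) = η.1 * (c • η + d • ζ).2 - η.2 * (c • η + d • ζ).1 := by
    simp only [Prod.fst_add, Prod.snd_add, Prod.smul_fst, Prod.smul_snd, smul_eq_mul]
    ring
  rw [← norm_mul, h]
  refine (norm_sub_le _ _).trans ?_
  rw [norm_mul, norm_mul]
  have h1 := norm_fst_le η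
  have h2 := norm_snd_le η
  have h3 := norm_fst_le (c • η + d • ζ)
  have h4 := norm_snd_le (c • η + d • ζ)
  have h5 := norm_nonneg (c • η + d • ζ)
  have h6 := norm_nonneg η
  have e1 : ‖η.1‖ * ‖(c • η + d • ζ).2‖ ≤ ‖η‖ * ‖c • η + d • ζ‖ :=
    mul_le_mul h1 h4 (norm_nonneg _) h6
  have e2 : ‖η.2‖ * ‖(c • η + d • ζ).1‖ ≤ ‖η‖ * ‖c • η + d • ζ‖ :=
    mul_le_mul h2 h3 (norm_nonneg _) h6
  linarith

/-- a bound for the norms of the `d` which occur. -/
lemma nm_le_of_ne_zero {F : ℂ × ℂ → ℂ} {R : ℝ} (hFs : ∀ u, R < ‖u‖ → F u = 0)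
    {η ζ : ℂ × ℂ} (hδ : η.1 * ζ.2 - η.2 * ζ.1 ≠ 0) {c : ℂ} {d : Eis}
    (h : F (c • η + toC d • ζ) ≠ 0) :
    Eis.nm d ≤ ⌈(2 * ‖η‖ * R / ‖η.1 * ζ.2 - η.2 * ζ.1‖) ^ 2⌉₊ := by
  have h1 : ‖c • η + toC d • ζ‖ ≤ R := by
    by_contra hc
    exact h (hFs _ (not_le.mp hc))
  have h2 := norm_mul_det_le η ζ (toC d) c
  have h3 : 0 < ‖η.1 * ζ.2 - η.2 * ζ.1‖ := norm_pos_iff.mpr hδ
  have h4 : ‖toC d‖ ≤ 2 * ‖η‖ * R / ‖η.1 * ζ.2 - η.2 * ζ.1‖ := by
    rw [le_div_iff₀ h3]
    exact h2.trans (mul_le_mul_of_nonneg_left h1 (by positivity))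
  have h5 : ((Eis.nm d : ℕ) : ℝ) ≤ (2 * ‖η‖ * R / ‖η.1 * ζ.2 - η.2 * ζ.1‖) ^ 2 := by
    rw [← norm_toC_sq]
    exact pow_le_pow_left₀ (norm_nonneg _) h4 2
  exact_mod_cast h5.trans (Nat.le_ceil _)

lemma integrable_phi {F : ℂ × ℂ → ℂ} (hFm : Measurable F) {M R : ℝ} (hFb : ∀ u, ‖F u‖ ≤ M)
    (hFs : ∀ u, R < ‖u‖ → F u = 0) {η : ℂ × ℂ} (hη : η ≠ 0) (ζ : ℂ × ℂ) {d : ℂ} (hd : d ≠ 0) :
    Integrable (fun z : ℂ => F (d • (z • η + ζ))) := by
  have hη' : 0 < ‖η‖ := norm_pos_iff.mpr hη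
  have hd' : 0 < ‖d‖ := norm_pos_iff.mpr hd
  set ρ : ℝ := (R / ‖d‖ + ‖ζ‖) / ‖η‖ with hρ
  have hz : ∀ z : ℂ, z ∉ Metric.closedBall (0 : ℂ) ρ → F (d • (z • η + ζ)) = 0 := by
    intro z hz
    apply hFs
    rw [mem_closedBall_zero_iff, not_le, hρ, div_lt_iff₀ hη'] at hz
    rw [norm_smul]
    have h1 : ‖z • η‖ - ‖ζ‖ ≤ ‖z • η + ζ‖ := by
      have := norm_sub_le (z • η + ζ) ζ
      rw [add_sub_cancel_right] at this
      linarith
    rw [norm_smul] at h1
    have h2 : R / ‖d‖ < ‖z • η + ζ‖ := by linarith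
    rw [div_lt_iff₀ hd'] at h2
    linarith
  have hm : Measurable (fun z : ℂ => F (d • (z • η + ζ))) := hFm.comp (by fun_prop)
  have h1 : IntegrableOn (fun z : ℂ => F (d • (z • η + ζ))) (Metric.closedBall (0 : ℂ) ρ) := by
    refine Measure.integrableOn_of_bounded (M := M) ?_ hm.aestronglyMeasurable ?_
    · exact (isCompact_closedBall (0 : ℂ) ρ).measure_lt_top.ne
    · exact Filter.Eventually.of_forall fun z => hFb _
  exact (integrableOn_iff_integrable_of_support_subset (fun z hz' => by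
    by_contra hc
    exact hz' (hz z hc))).mp h1

open Classical in
/-- **Fourier coefficients of `EK`**, general periodic kernel. -/
theorem fco_EK_general {k : Eis → Eis → ℂ} {K : ℝ}
    (hkb : ∀ c d, IsPrim d → ‖k (3 * c) d‖ ≤ K)
    (hk : ∀ d, IsPrim d → PMod d (fun c => k (3 * c) d))
    {F : ℂ × ℂ → ℂ} (hFm : Measurable F) {M R : ℝ} (hFb : ∀ u, ‖F u‖ ≤ M)
    (hFs : ∀ u, R < ‖u‖ → F u = 0) {η ζ : ℂ × ℂ} (hδ : η.1 * ζ.2 - η.2 * ζ.1 ≠ 0) (u : Eis) :
    fco 3 (fun z => EK k F η (ζ + z • η)) u = ∑' d : Eis, if IsPrim d then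
      sumMod d (fun x => k (3 * x) d * eC (toC u * toC x / (toC s3 * toC d))) *
        ((covol 3 : ℂ)⁻¹ * ∫ z, F (toC d • (z • η + ζ)) * eC (-(frq 3 u * z))) else 0 := by
  have hη : η ≠ 0 := by
    rintro rfl
    simp at hδ
  have h1 : (fun z => EK k F η (ζ + z • η)) =
      rowSum 3 k (fun d z => F (toC d • (z • η + ζ))) := by
    funext z; exact EK_shift k F η ζ z
  rw [h1]
  have hint : ∀ d, IsPrim d → Integrable (fun z : ℂ => F (toC d • (z • η + ζ))) := fun d hd =>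
    integrable_phi hFm hFb hFs hη ζ (by rw [Ne, toC_eq_zero]; exact hd.ne_zero)
  refine fco_rowSum (by norm_num) hkb hk hint ?_ u
  set X := ⌈(2 * ‖η‖ * R / ‖η.1 * ζ.2 - η.2 * ζ.1‖) ^ 2⌉₊ with hX
  rw [tsum_eq_sum (s := ball X)]
  · rw [ne_eq, ENNReal.sum_eq_top]
    push Not
    intro d _
    by_cases hd : IsPrim d
    · simp only [hd, if_true]
      exact ENNReal.mul_ne_top (ENNReal.natCast_ne_top _) (hint d hd).2.ne
    · simp [hd]
  · intro d hd
    rw [mem_ball, not_le] at hd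
    by_cases hp : IsPrim d
    · simp only [hp, if_true]
      have : ∀ z : ℂ, F (toC d • (z • η + ζ)) = 0 := by
        intro z
        by_contra hc
        rw [smul_add, smul_smul] at hc
        exact absurd (nm_le_of_ne_zero hFs hδ hc) (not_le.mpr hd)
      simp only [this, enorm_zero, lintegral_zero, mul_zero]
    · simp [hp]

/-! ### the Gauss sum -/

section gauss

variable (H : CharSum852.SyFacts)
include H

lemma sy_unit_lam {d : Eis} (hd : IsPrim d) (y : Eis) : sy (3 * (s3 * y)) d = sy y d := by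
  have e : (3 : Eis) * (s3 * y) = (-lam) ^ 3 * y := by
    have : (3 : Eis) * s3 = (-lam) ^ 3 := by
      unfold s3 lam
      apply Eis.ext' <;> simp [pow_succ]
    rw [← mul_assoc, this]
  have hco : IsCoprime (-lam) d := (hd.isCoprime_lam.symm).neg_left
  rw [e, H.mul_left _ _ _ hd, CharSum852.sy_pow_left H _ _ hd 3 (CharSum852.sy_one_left H _ hd),
    H.cube _ _ hd hco, one_mul]

lemma sy_neg {d : Eis} (hd : IsPrim d) (y : Eis) : sy (-y) d = sy y d := by
  have e : -y = (-1) ^ 3 * y := by ring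
  have hco : IsCoprime (-1 : Eis) d := isCoprime_one_left.neg_left
  rw [e, H.mul_left _ _ _ hd, CharSum852.sy_pow_left H _ _ hd 3 (CharSum852.sy_one_left H _ hd),
    H.cube _ _ hd hco, one_mul]

omit H in
lemma isCoprime_s3 {d : Eis} (hd : IsPrim d) : IsCoprime s3 d := by
  have e : s3 = Eis.w * lam := by
    unfold s3 lam
    apply Eis.ext' <;> simp
  rw [e]
  refine IsCoprime.mul_left ?_ hd.isCoprime_lam.symm
  exact isCoprime_of_isUnit ⟨⟨Eis.w, Eis.w ^ 2, by
    rw [← pow_succ']; exact Eis.w_cube, by rw [← pow_succ]; exact Eis.w_cube⟩, rfl⟩ d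

/-- the bracket for the kernel `ψ(d) conj (c/d)`. -/
lemma bracket {d : Eis} (hd : IsPrim d) (ψ : ℂ) (u : Eis) :
    sumMod d (fun x => ψ * conj (sy (3 * x) d) * eC (toC u * toC x / (toC s3 * toC d))) =
      ψ * conj (gs u d) := by
  have hd0 := hd.ne_zero
  have hdC : toC d ≠ 0 := by rwa [Ne, toC_eq_zero]
  have hs := toC_s3_ne
  -- periodicity
  have hper1 : PMod d (fun x => conj (sy (3 * x) d)) := fun x t => by
    simp only
    rw [H.congr (3 * (x + d * t)) (3 * x) d hd ⟨3 * t, by ring⟩]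
  have hper2 : PMod d (fun x => eC (toC u * toC x / (toC s3 * toC d))) := fun x t => by
    simp only
    have : toC u * toC (x + d * t) / (toC s3 * toC d) =
        toC u * toC x / (toC s3 * toC d) + toC (u * t) / toC s3 := by
      rw [map_add, map_mul, map_mul]
      field_simp
    rw [this, Parseval499.eC_add, eC_toC_div_s3, mul_one]
  have hper : PMod d (fun x => ψ * conj (sy (3 * x) d) * eC (toC u * toC x / (toC s3 * toC d))) :=
    ((PMod.const ψ).mul hper1).mul hper2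
  rw [← sumMod_mul_coprime hd0 hper (isCoprime_s3 hd)]
  have h1 : ∀ x : Eis, ψ * conj (sy (3 * (s3 * x)) d) *
      eC (toC u * toC (s3 * x) / (toC s3 * toC d)) =
      ψ * conj (sy (-x) d * eC (toC u * toC (-x) / toC d)) := by
    intro x
    rw [sy_unit_lam H hd, sy_neg H hd, map_mul (starRingEnd ℂ), ← Parseval499.eC_neg, mul_assoc]
    congr 3
    rw [map_mul, map_neg]
    field_simp
    try ring
  rw [sumMod_congr h1, sumMod_mul_left hd0 ψ (fun x => conj (sy (-x) d * eC (toC u * toC (-x) / toC d)))]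
  congr 1
  rw [← sumMod_star hd0]
  congr 1
  unfold gs
  have hper3 : PMod d (fun x => sy x d * eC (toC u * toC x / toC d)) := by
    refine PMod.mul (fun x t => ?_) (pmod_eC u d)
    exact H.congr _ _ _ hd ⟨t, by ring⟩
  exact sumMod_neg hd0 hper3

end gauss

open Classical in
/-- **(F1)** Fourier coefficients of `Σ_{rows} ψ(d) conj (c/d) F(c η + d ζ)` along
`ζ ↦ ζ + z η`. -/
theorem fco_EK (H : CharSum852.SyFacts) {ψ : Eis → ℂ} {K : ℝ} (hψ : ∀ d, ‖ψ d‖ ≤ K)
    (hsy : ∀ c d, IsPrim d → ‖sy c d‖ ≤ 1)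
    {F : ℂ × ℂ → ℂ} (hFm : Measurable F) {M R : ℝ} (hFb : ∀ u, ‖F u‖ ≤ M)
    (hFs : ∀ u, R < ‖u‖ → F u = 0) {η ζ : ℂ × ℂ} (hδ : η.1 * ζ.2 - η.2 * ζ.1 ≠ 0) (u : Eis) :
    fco 3 (fun z => EK (fun c d => ψ d * conj (sy c d)) F η (ζ + z • η)) u =
      (covol 3 : ℂ)⁻¹ * ∑' d : Eis, if IsPrim d then ψ d * conj (gs u d) *
        ∫ x, F (toC d • (x • η + ζ)) * eC (-(frq 3 u * x)) else 0 := by
  have hK0 : 0 ≤ K := (norm_nonneg _).trans (hψ 0)
  rw [fco_EK_general (K := K) (M := M) (R := R) ?_ ?_ hFm hFb hFs hδ, ← tsum_mul_left]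
  · refine tsum_congr fun d => ?_
    by_cases hd : IsPrim d
    · simp only [hd, if_true]
      rw [bracket H hd]
      ring
    · simp [hd]
  · intro c d hd
    rw [norm_mul, RCLike.norm_conj]
    exact (mul_le_mul (hψ d) (hsy _ _ hd) (norm_nonneg _) hK0).trans_eq (mul_one K)
  · intro d hd x t
    simp only
    rw [H.congr (3 * (x + d * t)) (3 * x) d hd ⟨3 * t, by ring⟩]

/-! ### local finiteness, boundedness, `L²` on bounded sets -/

open Classical in
/-- On a bounded set of `z` the sum over rows is a fixed finite sum. -/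
lemma EK_eq_sum {k : Eis → Eis → ℂ} {F : ℂ × ℂ → ℂ} {R : ℝ} (hFs : ∀ u, R < ‖u‖ → F u = 0)
    {η ζ : ℂ × ℂ} (hδ : η.1 * ζ.2 - η.2 * ζ.1 ≠ 0) (ρ : ℝ) :
    ∃ T : Finset (Eis × Eis), ∀ z : ℂ, ‖z‖ ≤ ρ → EK k F η (ζ + z • η) =
      ∑ p ∈ T, if (3 : Eis) ∣ p.1 ∧ IsPrim p.2 then
        k p.1 p.2 * F (toC p.1 • η + toC p.2 • (ζ + z • η)) else 0 := by
  have hη : η ≠ 0 := by
    rintro rfl
    simp at hδ
  have hη' : 0 < ‖η‖ := norm_pos_iff.mpr hη
  set X := ⌈(2 * ‖η‖ * R / ‖η.1 * ζ.2 - η.2 * ζ.1‖) ^ 2⌉₊ with hX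
  set Y := ⌈((R + Real.sqrt X * (‖ζ‖ + ρ * ‖η‖)) / ‖η‖) ^ 2⌉₊ with hY
  refine ⟨ball Y ×ˢ ball X, fun z hz => ?_⟩
  unfold EK
  refine tsum_eq_sum fun p hp => ?_
  by_cases h3 : (3 : Eis) ∣ p.1 ∧ IsPrim p.2
  · rw [if_pos h3]
    by_contra hc
    have hF : F (toC p.1 • η + toC p.2 • (ζ + z • η)) ≠ 0 := right_ne_zero_of_mul hc
    apply hp
    have e : toC p.1 • η + toC p.2 • (ζ + z • η) =
        (toC p.1 + toC p.2 * z) • η + toC p.2 • ζ := by
      rw [smul_add, smul_smul, add_smul]; abel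
    have h2 : Eis.nm p.2 ≤ X := nm_le_of_ne_zero hFs hδ (by rw [← e]; exact hF)
    have h1 : ‖toC p.1 • η + toC p.2 • (ζ + z • η)‖ ≤ R := by
      by_contra hc
      exact hF (hFs _ (not_le.mp hc))
    have h4 : ‖toC p.2‖ ≤ Real.sqrt X := by
      rw [norm_toC]
      exact Real.sqrt_le_sqrt (by exact_mod_cast h2)
    have h5 : ‖toC p.1‖ * ‖η‖ ≤ R + Real.sqrt X * (‖ζ‖ + ρ * ‖η‖) := by
      rw [← norm_smul]
      have h6 : ‖toC p.1 • η‖ ≤ ‖toC p.1 • η + toC p.2 • (ζ + z • η)‖ +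
          ‖toC p.2 • (ζ + z • η)‖ := by
        have := norm_sub_le (toC p.1 • η + toC p.2 • (ζ + z • η)) (toC p.2 • (ζ + z • η))
        rwa [add_sub_cancel_right] at this
      have h7 : ‖toC p.2 • (ζ + z • η)‖ ≤ Real.sqrt X * (‖ζ‖ + ρ * ‖η‖) := by
        rw [norm_smul]
        have h8 : ‖ζ + z • η‖ ≤ ‖ζ‖ + ρ * ‖η‖ := by
          refine (norm_add_le _ _).trans ?_
          rw [norm_smul]
          have := mul_le_mul_of_nonneg_right hz hη'.le
          linarith
        exact mul_le_mul h4 h8 (norm_nonneg _) (Real.sqrt_nonneg _)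
      linarith
    have h9 : ((Eis.nm p.1 : ℕ) : ℝ) ≤ ((R + Real.sqrt X * (‖ζ‖ + ρ * ‖η‖)) / ‖η‖) ^ 2 := by
      rw [← norm_toC_sq]
      refine pow_le_pow_left₀ (norm_nonneg _) ?_ 2
      rw [le_div_iff₀ hη']
      exact h5
    have h10 : Eis.nm p.1 ≤ Y := by exact_mod_cast h9.trans (Nat.le_ceil _)
    rw [Finset.mem_product]
    exact ⟨mem_ball.mpr h10, mem_ball.mpr h2⟩
  · rw [if_neg h3]

lemma norm_le_of_mem_par {a z : ℂ} (hz : z ∈ par a) : ‖z‖ ≤ 2 * ‖a‖ := by
  obtain ⟨x, hx, rfl⟩ := hz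
  unfold Lm
  rw [norm_mul]
  have h0 := hx 0
  have h1 := hx 1
  simp only [Pi.zero_apply, zero_add, mem_Ioc] at h0 h1
  have hw : ‖wC‖ = 1 := by
    have := norm_toC_sq Eis.w
    rw [toC_w] at this
    have h2 : ((Eis.nm Eis.w : ℕ) : ℝ) = 1 := by
      have : (Eis.nm Eis.w : ℤ) = 1 := by rw [Eis.nm_cast]; simp
      exact_mod_cast this
    rw [h2] at this
    nlinarith [norm_nonneg wC]
  have h3 : ‖(x 0 : ℂ) + (x 1 : ℂ) * wC‖ ≤ 2 := by
    refine (norm_add_le _ _).trans ?_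
    rw [norm_mul, hw, mul_one, Complex.norm_real, Complex.norm_real, Real.norm_eq_abs,
      Real.norm_eq_abs, abs_of_pos h0.1, abs_of_pos h1.1]
    linarith [h0.2, h1.2]
  nlinarith [norm_nonneg a]

open Classical in
/-- `z ↦ EK (η, ζ + z η)` is in `L²` of the parallelogram. -/
theorem memLp_EK {k : Eis → Eis → ℂ} {F : ℂ × ℂ → ℂ} (hFm : Measurable F) {M R : ℝ}
    (hFb : ∀ u, ‖F u‖ ≤ M) (hFs : ∀ u, R < ‖u‖ → F u = 0)
    {η ζ : ℂ × ℂ} (hδ : η.1 * ζ.2 - η.2 * ζ.1 ≠ 0) {a : ℂ} (ha : a ≠ 0) :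
    MemLp (fun z => EK k F η (ζ + z • η)) 2 (volume.restrict (par a)) := by
  obtain ⟨T, hT⟩ := EK_eq_sum (k := k) hFs hδ (2 * ‖a‖)
  have hfin : IsFiniteMeasure (volume.restrict (par a)) := by
    refine ⟨?_⟩
    rw [Measure.restrict_apply_univ]
    refine lt_of_le_of_lt (measure_mono ?_) (isCompact_closedBall (0 : ℂ) (2 * ‖a‖)).measure_lt_top
    intro z hz
    rw [mem_closedBall_zero_iff]
    exact norm_le_of_mem_par hz
  have h1 : MemLp (fun z => ∑ p ∈ T, if (3 : Eis) ∣ p.1 ∧ IsPrim p.2 then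
        k p.1 p.2 * F (toC p.1 • η + toC p.2 • (ζ + z • η)) else 0) 2
        (volume.restrict (par a)) := by
    refine memLp_finsetSum T fun p _ => ?_
    by_cases h3 : (3 : Eis) ∣ p.1 ∧ IsPrim p.2
    · simp only [if_pos h3]
      refine MemLp.of_bound ?_ (‖k p.1 p.2‖ * M) (Filter.Eventually.of_forall fun z => ?_)
      · exact ((hFm.comp (by fun_prop)).const_mul _).aestronglyMeasurable
      · rw [norm_mul]
        exact mul_le_mul_of_nonneg_left (hFb _) (norm_nonneg _)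
    · simp only [if_neg h3]
      exact MemLp.zero'
  refine h1.ae_eq ?_
  filter_upwards [ae_restrict_mem (measurableSet_par ha)] with z hz
  exact (hT z (norm_le_of_mem_par hz)).symm

end Crest.Agent.R012.FourCoef499
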