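import Crest.Agent.R012.StripCo_813
import Crest.Agent.R012.FourCoef_499

/-!
# Row 12 (MF): Fourier coefficients at special frames

Test functions `tens W φ (u₁, u₂) = W(u₁) φ(u₂/u₁)`.  At the special frames `η = (0, v)`,
`ζ = (e, x v)` the Fourier integral of `F(d (x η + ζ))` in `x` is
`W(d e) |e/v|² φ^(θ e / v)`.
-/

set_option autoImplicit false

noncomputable section

open MeasureTheory Complex Set
open scoped ComplexConjugate ENNReal

namespace Crest.Agent.R012.Four813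

open Crest.Agent.R012 Crest.Agent.R012.Parseval499 Crest.Agent.R012.StripCo813
open Crest.Agent.R012.FourCoef499

/-- product test functions `W(u₁) φ(u₂/u₁)`. -/
def tens (W φ : ℂ → ℂ) (u : ℂ × ℂ) : ℂ := W u.1 * φ (u.2 / u.1)

/-- Fourier transform `∫ φ(s) e(-ξ s) ds`. -/
def phat (φ : ℂ → ℂ) (ξ : ℂ) : ℂ := ∫ s, φ s * eC (-(ξ * s))

lemma integral_comp_mul_left' {E : Type*} [NormedAddCommGroup E] [NormedSpace ℝ E]
    {a : ℂ} (ha : a ≠ 0) (f : ℂ → E) :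
    ∫ z, f z = (‖a‖ ^ 2) • ∫ z, f (a * z) := by
  have h1 : ∫ z, f (a * z) = ∫ z, f z ∂(Measure.map (fun z : ℂ => a * z) volume) := by
    have := integral_map_equiv (μ := (volume : Measure ℂ))
      (Homeomorph.mulLeft₀ a ha).toMeasurableEquiv f
    exact this.symm
  have h0 : ‖a‖ ≠ 0 := norm_ne_zero_iff.mpr ha
  rw [h1, map_mul_left ha, integral_smul_measure, ENNReal.toReal_ofReal (by positivity), smul_smul,
    mul_inv_cancel₀ (by positivity), one_smul]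

lemma integral_dilate {a : ℂ} (ha : a ≠ 0) (φ : ℂ → ℂ) (θ : ℂ) :
    ∫ x, φ (a * x) * eC (-(θ * x)) = ((‖a‖ ^ 2)⁻¹ : ℝ) * phat φ (θ / a) := by
  unfold phat
  rw [integral_comp_mul_left' ha (fun s => φ s * eC (-(θ / a * s)))]
  have h0 : ‖a‖ ≠ 0 := norm_ne_zero_iff.mpr ha
  rw [Complex.real_smul, ← mul_assoc, ← Complex.ofReal_mul, inv_mul_cancel₀ (by positivity),
    Complex.ofReal_one, one_mul]
  refine integral_congr_ae (Filter.Eventually.of_forall fun x => ?_)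
  simp only
  congr 3
  field_simp

/-- The Fourier integral at a special frame. -/
theorem special_integral (W φ : ℂ → ℂ) {d e v : ℂ} (hd : d ≠ 0) (he : e ≠ 0) (hv : v ≠ 0) (θ : ℂ) :
    ∫ x, tens W φ (d * (x * 0 + e), d * (x * v + 0)) * eC (-(θ * x)) =
      W (d * e) * ((‖e / v‖ ^ 2 : ℝ) * phat φ (θ * e / v)) := by
  have ha : v / e ≠ 0 := div_ne_zero hv he
  have h1 : ∀ x : ℂ, tens W φ (d * (x * 0 + e), d * (x * v + 0)) * eC (-(θ * x)) =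
      W (d * e) * (φ ((v / e) * x) * eC (-(θ * x))) := by
    intro x
    unfold tens
    simp only [mul_zero, zero_add, add_zero]
    have : d * (x * v) / (d * e) = v / e * x := by field_simp
    rw [this]; ring
  simp_rw [h1]
  rw [integral_const_mul, integral_dilate ha]
  congr 2
  · congr 1
    rw [norm_div, norm_div]
    have h0 : ‖v‖ ≠ 0 := norm_ne_zero_iff.mpr hv
    have h2 : ‖e‖ ≠ 0 := norm_ne_zero_iff.mpr he
    field_simp
  · congr 1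
    field_simp

/-- Bessel's inequality in the form used below. -/
theorem bessel_form {g : ℂ → ℂ} (hg : MemLp g 2 (volume.restrict (par 3))) (A B : Eis → ℂ)
    (hA : ∀ u, fco 3 g u = (covol 3 : ℂ)⁻¹ * (A u * B u)) (S : Finset Eis) :
    ∑ u ∈ S, ‖A u‖ ^ 2 * ‖B u‖ ^ 2 ≤ covol 3 * ∫ z in par 3, ‖g z‖ ^ 2 := by
  have h3 : (3 : ℂ) ≠ 0 := by norm_num
  have hc := covol_pos h3
  have h := sum_sq_fco_le h3 hg S
  have h1 : ∀ u, ‖A u‖ ^ 2 * ‖B u‖ ^ 2 = covol 3 ^ 2 * ‖fco 3 g u‖ ^ 2 := by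
    intro u
    rw [hA u, norm_mul, norm_mul, norm_inv, Complex.norm_real, Real.norm_of_nonneg hc.le]
    field_simp
  simp_rw [h1]
  rw [← Finset.mul_sum]
  calc covol 3 ^ 2 * ∑ u ∈ S, ‖fco 3 g u‖ ^ 2
      ≤ covol 3 ^ 2 * ((covol 3)⁻¹ * ∫ z in par 3, ‖g z‖ ^ 2) := by gcongr
    _ = covol 3 * ∫ z in par 3, ‖g z‖ ^ 2 := by field_simp

/-! ### product test functions -/

/-- `W` and `φ` are bounded, measurable, with bounded support, `W 0 = 0`. -/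
structure Nice (W φ : ℂ → ℂ) (M R : ℝ) : Prop where
  mW : Measurable W
  mφ : Measurable φ
  bW : ∀ z, ‖W z‖ ≤ M
  bφ : ∀ z, ‖φ z‖ ≤ M
  sW : ∀ z, R < ‖z‖ → W z = 0
  sφ : ∀ z, R < ‖z‖ → φ z = 0
  zero : W 0 = 0

lemma measurable_tens {W φ : ℂ → ℂ} (hW : Measurable W) (hφ : Measurable φ) :
    Measurable (tens W φ) := by
  unfold tens
  exact (hW.comp measurable_fst).mul (hφ.comp (measurable_snd.div measurable_fst))

lemma Nice.nonneg {W φ : ℂ → ℂ} {M R : ℝ} (h : Nice W φ M R) : 0 ≤ M :=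
  (norm_nonneg _).trans (h.bW 0)

lemma Nice.meas {W φ : ℂ → ℂ} {M R : ℝ} (h : Nice W φ M R) : Measurable (tens W φ) :=
  measurable_tens h.mW h.mφ

lemma Nice.bound {W φ : ℂ → ℂ} {M R : ℝ} (h : Nice W φ M R) (u : ℂ × ℂ) :
    ‖tens W φ u‖ ≤ M * M := by
  unfold tens
  rw [norm_mul]
  exact mul_le_mul (h.bW _) (h.bφ _) (norm_nonneg _) h.nonneg

lemma Nice.supp {W φ : ℂ → ℂ} {M R : ℝ} (h : Nice W φ M R) (u : ℂ × ℂ)
    (hu : max R (R * R) < ‖u‖) : tens W φ u = 0 := by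
  by_contra hne
  unfold tens at hne
  have h1 : W u.1 ≠ 0 := left_ne_zero_of_mul hne
  have h2 : φ (u.2 / u.1) ≠ 0 := right_ne_zero_of_mul hne
  have h3 : u.1 ≠ 0 := by
    intro h0; rw [h0] at h1; exact h1 h.zero
  have h4 : ‖u.1‖ ≤ R := by
    by_contra hc; exact h1 (h.sW _ (not_le.mp hc))
  have h5 : ‖u.2 / u.1‖ ≤ R := by
    by_contra hc; exact h2 (h.sφ _ (not_le.mp hc))
  have hR : 0 ≤ R := (norm_nonneg _).trans h4
  rw [norm_div, div_le_iff₀ (norm_pos_iff.mpr h3)] at h5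
  have h6 : ‖u.2‖ ≤ R * R := h5.trans (by gcongr)
  have h7 : ‖u‖ ≤ max R (R * R) := by
    rw [Prod.norm_def]
    exact max_le (h4.trans (le_max_left _ _)) (h6.trans (le_max_right _ _))
  linarith

open Classical in
/-- The weighted sums `Σ_{d ≡ 1} ψ(d) conj g(u,d) W(d e)`. -/
def Sg (ψ : Eis → ℂ) (W : ℂ → ℂ) (u : Eis) (e : ℂ) : ℂ :=
  ∑' d : Eis, if IsPrim d then ψ d * conj (gs u d) * W (toC d * e) else 0

/-- The kernel `ψ(d) conj (c/d)`. -/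
def ker (ψ : Eis → ℂ) (c d : Eis) : ℂ := ψ d * conj (sy c d)

open Classical in
/-- **Fourier coefficients at special frames.** -/
theorem fco_special (H : CharSum852.SyFacts) {ψ : Eis → ℂ} {K : ℝ} (hψ : ∀ d, ‖ψ d‖ ≤ K)
    (hsy : ∀ c d, IsPrim d → ‖sy c d‖ ≤ 1) {W φ : ℂ → ℂ} {M R : ℝ} (hF : Nice W φ M R)
    {v e : ℂ} (hv : v ≠ 0) (he : e ≠ 0) (u : Eis) :
    fco 3 (fun x => EK (ker ψ) (tens W φ) (0, v) (e, x * v)) u =
      (covol 3 : ℂ)⁻¹ * (Sg ψ W u e * ((‖e / v‖ ^ 2 : ℝ) * phat φ (frq 3 u * e / v))) := by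
  have hδ : ((0, v) : ℂ × ℂ).1 * ((e, 0) : ℂ × ℂ).2 - ((0, v) : ℂ × ℂ).2 * ((e, 0) : ℂ × ℂ).1 ≠ 0 := by
    simp [hv, he]
  have h := fco_EK H hψ hsy hF.meas hF.bound hF.supp hδ u
  have e1 : (fun z : ℂ => EK (fun c d => ψ d * conj (sy c d)) (tens W φ) (0, v)
      (((e, 0) : ℂ × ℂ) + z • ((0, v) : ℂ × ℂ))) =
      fun x => EK (ker ψ) (tens W φ) (0, v) (e, x * v) := by
    funext z
    congr 1
    ext <;> simp
  rw [e1] at h
  rw [h]
  congr 1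
  unfold Sg
  rw [← tsum_mul_right]
  refine tsum_congr fun d => ?_
  by_cases hd : IsPrim d
  · simp only [hd, if_true]
    have hd0 : toC d ≠ 0 := by
      rw [Ne, toC_eq_zero]; exact hd.ne_zero
    have hs := special_integral W φ hd0 he hv (frq 3 u)
    rw [mul_assoc (ψ d * conj (gs u d)), ← hs]
    congr 1
  · simp [hd]

/-- **Bessel at special frames**, with real integrals. -/
theorem special_bessel (H : CharSum852.SyFacts) {ψ : Eis → ℂ} {K : ℝ} (hψ : ∀ d, ‖ψ d‖ ≤ K)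
    (hsy : ∀ c d, IsPrim d → ‖sy c d‖ ≤ 1) {W φ : ℂ → ℂ} {M R : ℝ} (hF : Nice W φ M R)
    {v e : ℂ} (hv : v ≠ 0) (he : e ≠ 0) (S : Finset Eis) :
    ∑ u ∈ S, ‖Sg ψ W u e‖ ^ 2 * (‖e / v‖ ^ 4 * ‖phat φ (frq 3 u * e / v)‖ ^ 2) ≤
      covol 3 * ∫ x in par 3, ‖EK (ker ψ) (tens W φ) (0, v) (e, x * v)‖ ^ 2 := by
  have hδ : ((0, v) : ℂ × ℂ).1 * ((e, 0) : ℂ × ℂ).2 - ((0, v) : ℂ × ℂ).2 * ((e, 0) : ℂ × ℂ).1 ≠ 0 := by
    simp [hv, he]
  have hL := memLp_EK (k := ker ψ) hF.meas hF.bound hF.supp hδ (a := 3) (by norm_num)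
  have e1 : (fun z : ℂ => EK (ker ψ) (tens W φ) (0, v)
      (((e, 0) : ℂ × ℂ) + z • ((0, v) : ℂ × ℂ))) =
      fun x => EK (ker ψ) (tens W φ) (0, v) (e, x * v) := by
    funext z
    congr 1
    ext <;> simp
  rw [e1] at hL
  have h := bessel_form hL _ _ (fco_special H hψ hsy hF hv he) S
  refine le_trans (le_of_eq ?_) h
  refine Finset.sum_congr rfl fun u _ => ?_
  congr 1
  rw [norm_mul, mul_pow, Complex.norm_real, Real.norm_of_nonneg (by positivity)]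
  ring

lemma ofReal_integral_sq {g : ℂ → ℂ} {μ : Measure ℂ} (hg : MemLp g 2 μ) :
    ENNReal.ofReal (∫ z, ‖g z‖ ^ 2 ∂μ) = ∫⁻ z, ‖g z‖ₑ ^ 2 ∂μ := by
  rw [ofReal_integral_eq_lintegral_ofReal]
  · refine lintegral_congr fun z => ?_
    rw [ENNReal.ofReal_pow (norm_nonneg _), ofReal_norm]
  · exact hg.integrable_norm_pow (by norm_num)
  · exact Filter.Eventually.of_forall fun z => by positivity

/-- **Bessel at special frames**, with `ℝ≥0∞` integrals. -/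
theorem special_bessel_lint (H : CharSum852.SyFacts) {ψ : Eis → ℂ} {K : ℝ} (hψ : ∀ d, ‖ψ d‖ ≤ K)
    (hsy : ∀ c d, IsPrim d → ‖sy c d‖ ≤ 1) {W φ : ℂ → ℂ} {M R : ℝ} (hF : Nice W φ M R)
    {v e : ℂ} (hv : v ≠ 0) (he : e ≠ 0) (S : Finset Eis) :
    ∑ u ∈ S, ENNReal.ofReal (‖Sg ψ W u e‖ ^ 2 * (‖e / v‖ ^ 4 * ‖phat φ (frq 3 u * e / v)‖ ^ 2)) ≤
      ENNReal.ofReal (covol 3) *
        ∫⁻ x in par 3, ‖EK (ker ψ) (tens W φ) (frame v e x 0).1 (frame v e x 0).2‖ₑ ^ 2 := by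
  have hδ : ((0, v) : ℂ × ℂ).1 * ((e, 0) : ℂ × ℂ).2 - ((0, v) : ℂ × ℂ).2 * ((e, 0) : ℂ × ℂ).1 ≠ 0 := by
    simp [hv, he]
  have hL := memLp_EK (k := ker ψ) hF.meas hF.bound hF.supp hδ (a := 3) (by norm_num)
  have e1 : (fun z : ℂ => EK (ker ψ) (tens W φ) (0, v)
      (((e, 0) : ℂ × ℂ) + z • ((0, v) : ℂ × ℂ))) =
      fun x => EK (ker ψ) (tens W φ) (frame v e x 0).1 (frame v e x 0).2 := by
    funext z
    simp [frame]
  rw [e1] at hL
  have h := special_bessel H hψ hsy hF hv he S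
  rw [← ENNReal.ofReal_sum_of_nonneg (fun u _ => by positivity)]
  refine (ENNReal.ofReal_le_ofReal h).trans (le_of_eq ?_)
  rw [ENNReal.ofReal_mul (covol_pos (by norm_num)).le]
  congr 1
  rw [← ofReal_integral_sq hL]
  simp [frame]

end Crest.Agent.R012.Four813
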