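import Crest.Agent.R012.StripCo_813
import Crest.Agent.R012.AbsUnfold_681
import Crest.Agent.R012.PoissonG_381

/-!
# Row 12 (MU): the action of `Γ(3)` on frames

`Fr = (ℂ × ℂ) × (ℂ × ℂ)`, `M = (η, ζ)`, action `g • M = gact g M`.

* instances `MulAction K695.Gam Fr`, measurability, invariance of Lebesgue measure
* `muD θ = volume.withDensity (θ ∘ detF)` is invariant
* `isWt_gam` : existence of a weight for every subgroup of `Γ(3)`
-/

set_option autoImplicit false

noncomputable section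

open MeasureTheory Complex Set
open scoped ComplexConjugate ENNReal

namespace Crest.Agent.R012.FA681

open Crest.Agent.R012 Crest.Agent.R012.Parseval499 Crest.Agent.R012.StripCo813
open Crest.Agent.R012.AU681 Crest.Agent.R012.Eis

/-! ### the action -/

lemma gact_one (M : Fr) : gact 1 M = M := by
  simp [gact]

lemma gact_mul (g h : K695.Gam) (M : Fr) : gact (g * h) M = gact g (gact h M) := by
  simp only [gact, K695.ga_mul, K695.gb_mul, K695.gc_mul, K695.gd_mul, map_add, map_mul]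
  ext <;> simp only <;> ring

instance instAct : MulAction K695.Gam Fr where
  smul := gact
  one_smul := gact_one
  mul_smul := gact_mul

lemma smul_def (g : K695.Gam) (M : Fr) : g • M = gact g M := rfl

lemma detF_smul (g : K695.Gam) (M : Fr) : detF (g • M) = detF M := detF_gact g M

lemma smul_snd (g : K695.Gam) (M : Fr) :
    (g • M).2 = toC (K695.gc g) • M.1 + toC (K695.gd g) • M.2 := by
  rw [smul_def]; rfl

lemma smul_fst (g : K695.Gam) (M : Fr) :
    (g • M).1 = toC (K695.ga g) • M.1 + toC (K695.gb g) • M.2 := by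
  rw [smul_def]; rfl

lemma continuous_gact (g : K695.Gam) : Continuous (gact g) := by
  unfold gact; fun_prop

instance instMeas : MeasurableConstSMul K695.Gam Fr where
  measurable_const_smul g := (continuous_gact g).measurable

/-! ### measure preservation -/

/-- lower shear -/
def shL (t : ℂ) (M : Fr) : Fr := (M.1, t • M.1 + M.2)
/-- upper shear -/
def shU (t : ℂ) (M : Fr) : Fr := (t • M.2 + M.1, M.2)
/-- diagonal -/
def dia (a : ℂ) (M : Fr) : Fr := (a • M.1, a⁻¹ • M.2)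

instance instInvC2 : (volume : Measure (ℂ × ℂ)).IsAddLeftInvariant := by
  rw [Measure.volume_eq_prod]; infer_instance

lemma mp_shL (t : ℂ) : MeasurePreserving (shL t) (volume : Measure Fr) volume := by
  have h := (MeasurePreserving.id (volume : Measure (ℂ × ℂ))).skew_product
    (μb := (volume : Measure (ℂ × ℂ))) (μd := (volume : Measure (ℂ × ℂ)))
    (g := fun η ζ => t • η + ζ) (by
      apply Continuous.measurable
      fun_prop) (Filter.Eventually.of_forall fun η => (measurePreserving_add_left _ _).map_eq)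
  exact h

lemma mp_swap : MeasurePreserving (Prod.swap : Fr → Fr) volume volume :=
  Measure.measurePreserving_swap

lemma mp_shU (t : ℂ) : MeasurePreserving (shU t) (volume : Measure Fr) volume := by
  have h : shU t = Prod.swap ∘ shL t ∘ Prod.swap := by
    funext M; rfl
  rw [h]
  exact mp_swap.comp ((mp_shL t).comp mp_swap)

lemma map_smul_C2 {a : ℂ} (ha : a ≠ 0) :
    Measure.map (fun u : ℂ × ℂ => a • u) volume =
      (ENNReal.ofReal (‖a‖ ^ 2)⁻¹ * ENNReal.ofReal (‖a‖ ^ 2)⁻¹) • (volume : Measure (ℂ × ℂ)) := by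
  have h : (fun u : ℂ × ℂ => a • u) = Prod.map (fun z : ℂ => a * z) (fun z : ℂ => a * z) := by
    funext u; rfl
  have hm : Measurable (fun z : ℂ => a * z) := measurable_const_mul a
  rw [h, Measure.volume_eq_prod, ← Measure.map_prod_map _ _ hm hm, StripCo813.map_mul_left ha,
    Measure.prod_smul_left, Measure.prod_smul_right, smul_smul]

lemma mp_dia {a : ℂ} (ha : a ≠ 0) : MeasurePreserving (dia a) (volume : Measure Fr) volume := by
  constructor
  · apply Continuous.measurable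
    unfold dia; fun_prop
  · have h : dia a = Prod.map (fun u : ℂ × ℂ => a • u) (fun u : ℂ × ℂ => a⁻¹ • u) := by
      funext u; rfl
    have hm : Measurable (fun u : ℂ × ℂ => a • u) := (continuous_const_smul a).measurable
    have hm' : Measurable (fun u : ℂ × ℂ => a⁻¹ • u) := (continuous_const_smul a⁻¹).measurable
    rw [h, Measure.volume_eq_prod, ← Measure.map_prod_map _ _ hm hm', map_smul_C2 ha,
      map_smul_C2 (inv_ne_zero ha), Measure.prod_smul_left, Measure.prod_smul_right, smul_smul]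
    have h0 : ‖a‖ ≠ 0 := norm_ne_zero_iff.mpr ha
    have e : ENNReal.ofReal (‖a‖ ^ 2)⁻¹ * ENNReal.ofReal (‖a‖ ^ 2)⁻¹ *
        (ENNReal.ofReal (‖a⁻¹‖ ^ 2)⁻¹ * ENNReal.ofReal (‖a⁻¹‖ ^ 2)⁻¹) = 1 := by
      rw [← ENNReal.ofReal_mul (by positivity), ← ENNReal.ofReal_mul (by positivity),
        ← ENNReal.ofReal_mul (by positivity), norm_inv]
      have : (‖a‖ ^ 2)⁻¹ * (‖a‖ ^ 2)⁻¹ * ((‖a‖⁻¹ ^ 2)⁻¹ * (‖a‖⁻¹ ^ 2)⁻¹) = 1 := by
        field_simp
      rw [this, ENNReal.ofReal_one]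
    rw [e, one_smul]

lemma gact_eq (g : K695.Gam) :
    gact g = shL (toC (K695.gc g) / toC (K695.ga g)) ∘ dia (toC (K695.ga g)) ∘
      shU (toC (K695.gb g) / toC (K695.ga g)) := by
  have ha : toC (K695.ga g) ≠ 0 := by
    rw [Ne, toC_eq_zero]
    exact K695.prim_ne_zero (K695.ga_prim g)
  have hdet := congrArg toC (K695.det_eq g)
  rw [map_sub, map_mul, map_mul, map_one] at hdet
  have hd : toC (K695.gd g) = (1 + toC (K695.gb g) * toC (K695.gc g)) / toC (K695.ga g) := by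
    rw [eq_div_iff ha]; linear_combination hdet
  funext M
  simp only [gact, shL, shU, dia, Function.comp_apply]
  ext
  · simp only [Prod.smul_fst, Prod.fst_add, smul_eq_mul]; field_simp; ring
  · simp only [Prod.smul_snd, Prod.snd_add, smul_eq_mul]; field_simp; ring
  · simp only [Prod.smul_fst, Prod.fst_add, smul_eq_mul, hd]; field_simp; ring
  · simp only [Prod.smul_snd, Prod.snd_add, smul_eq_mul, hd]; field_simp; ring

lemma mp_gact (g : K695.Gam) : MeasurePreserving (gact g) (volume : Measure Fr) volume := by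
  have ha : toC (K695.ga g) ≠ 0 := by
    rw [Ne, toC_eq_zero]
    exact K695.prim_ne_zero (K695.ga_prim g)
  rw [gact_eq]
  exact (mp_shL _).comp ((mp_dia ha).comp (mp_shU _))

instance instInv : SMulInvariantMeasure K695.Gam Fr volume where
  measure_preimage_smul g _ hs := (mp_gact g).measure_preimage hs.nullMeasurableSet

/-! ### invariant measures with a density in the determinant -/

lemma continuous_detF : Continuous detF := by unfold detF; fun_prop

/-- Lebesgue measure times `θ(det)`. -/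
def muD (θ : ℂ → ℝ≥0∞) : Measure Fr := volume.withDensity (fun M => θ (detF M))

lemma muD_ac (θ : ℂ → ℝ≥0∞) : muD θ ≪ volume := withDensity_absolutelyContinuous _ _

lemma invD {θ : ℂ → ℝ≥0∞} (hθ : Measurable θ) : SMulInvariantMeasure K695.Gam Fr (muD θ) where
  measure_preimage_smul g s hs := by
    have hp : MeasurableSet ((fun M : Fr => g • M) ⁻¹' s) := (measurable_const_smul g) hs
    rw [muD, withDensity_apply _ hp, withDensity_apply _ hs, ← lintegral_indicator hp,
      ← lintegral_indicator hs]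
    have h := (mp_gact g).lintegral_comp
      (f := s.indicator (fun M => θ (detF M))) ((hθ.comp continuous_detF.measurable).indicator hs)
    rw [← h]
    congr 1
    ext M
    by_cases hM : g • M ∈ s
    · rw [indicator_of_mem (show M ∈ (fun M : Fr => g • M) ⁻¹' s from hM),
        indicator_of_mem (show gact g M ∈ s from hM), detF_gact]
    · rw [indicator_of_notMem (show M ∉ (fun M : Fr => g • M) ⁻¹' s from hM),
        indicator_of_notMem (show gact g M ∉ s from hM)]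

/-! ### existence of weights -/

/-- a positive decaying function of the frame. -/
def w0 (M : Fr) : ℝ≥0∞ :=
  ENNReal.ofReal (((1 + ‖M.1‖) ^ (-(6 : ℝ))) * ((1 + ‖M.2‖) ^ (-(6 : ℝ))))

lemma measurable_w0 : Measurable w0 := by
  unfold w0
  refine ENNReal.measurable_ofReal.comp ?_
  fun_prop

lemma w0_pos (M : Fr) : 0 < w0 M := by
  unfold w0
  rw [ENNReal.ofReal_pos]
  have h1 : 0 < 1 + ‖M.1‖ := by positivity
  have h2 : 0 < 1 + ‖M.2‖ := by positivity
  exact mul_pos (Real.rpow_pos_of_pos h1 _) (Real.rpow_pos_of_pos h2 _)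

/-- `|det(u, v)| ≤ 2 ‖u‖ ‖v‖`. -/
lemma norm_det_le (u v : ℂ × ℂ) : ‖u.1 * v.2 - u.2 * v.1‖ ≤ 2 * (‖u‖ * ‖v‖) := by
  have h1 : ‖u.1‖ ≤ ‖u‖ := norm_fst_le u
  have h2 : ‖u.2‖ ≤ ‖u‖ := norm_snd_le u
  have h3 : ‖v.1‖ ≤ ‖v‖ := norm_fst_le v
  have h4 : ‖v.2‖ ≤ ‖v‖ := norm_snd_le v
  calc ‖u.1 * v.2 - u.2 * v.1‖ ≤ ‖u.1 * v.2‖ + ‖u.2 * v.1‖ := norm_sub_le _ _
    _ = ‖u.1‖ * ‖v.2‖ + ‖u.2‖ * ‖v.1‖ := by rw [norm_mul, norm_mul]
    _ ≤ ‖u‖ * ‖v‖ + ‖u‖ * ‖v‖ := by gcongr
    _ = _ := by ring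

/-- lower bound for the vectors of a lattice. -/
lemma lat_lower {M : Fr} (hM : detF M ≠ 0) : ∃ δ : ℝ, 0 < δ ∧ δ ≤ 1 ∧ ∀ a b : ℂ,
    δ * ‖a‖ ≤ ‖a • M.1 + b • M.2‖ ∧ δ * ‖b‖ ≤ ‖a • M.1 + b • M.2‖ := by
  have hd : 0 < ‖detF M‖ := norm_pos_iff.mpr hM
  set K : ℝ := 2 * (‖M.1‖ + ‖M.2‖) + 1 with hK
  have hK0 : 0 < K := by positivity
  refine ⟨min 1 (‖detF M‖ / K), lt_min one_pos (by positivity), min_le_left _ _, fun a b => ?_⟩
  set u := a • M.1 + b • M.2 with hu
  have e1 : a * detF M = u.1 * M.2.2 - u.2 * M.2.1 := by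
    rw [hu]; simp only [detF, Prod.fst_add, Prod.snd_add, Prod.smul_fst, Prod.smul_snd, smul_eq_mul]
    ring
  have e2 : b * detF M = M.1.1 * u.2 - M.1.2 * u.1 := by
    rw [hu]; simp only [detF, Prod.fst_add, Prod.snd_add, Prod.smul_fst, Prod.smul_snd, smul_eq_mul]
    ring
  have b1 : ‖a‖ * ‖detF M‖ ≤ K * ‖u‖ := by
    rw [← norm_mul, e1]
    refine (norm_det_le u M.2).trans ?_
    have := norm_nonneg u
    have := norm_nonneg M.1
    nlinarith
  have b2 : ‖b‖ * ‖detF M‖ ≤ K * ‖u‖ := by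
    rw [← norm_mul, e2]
    refine (norm_det_le M.1 u).trans ?_
    have := norm_nonneg u
    have := norm_nonneg M.2
    nlinarith
  have hmin : min 1 (‖detF M‖ / K) ≤ ‖detF M‖ / K := min_le_right _ _
  constructor
  · calc min 1 (‖detF M‖ / K) * ‖a‖ ≤ ‖detF M‖ / K * ‖a‖ := by gcongr
      _ = (‖a‖ * ‖detF M‖) / K := by ring
      _ ≤ ‖u‖ := by rw [div_le_iff₀ hK0]; linarith
  · calc min 1 (‖detF M‖ / K) * ‖b‖ ≤ ‖detF M‖ / K * ‖b‖ := by gcongr
      _ = (‖b‖ * ‖detF M‖) / K := by ring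
      _ ≤ ‖u‖ := by rw [div_le_iff₀ hK0]; linarith

lemma rpow_bound {δ s t N : ℝ} (hδ : 0 < δ) (hδ1 : δ ≤ 1) (hs : 0 ≤ s) (ht : 0 ≤ t)
    (h1 : δ * s ≤ N) (h2 : δ * t ≤ N) :
    (1 + N) ^ (-(6 : ℝ)) ≤ δ ^ (-(6 : ℝ)) * ((1 + s) ^ (-(3 : ℝ)) * (1 + t) ^ (-(3 : ℝ))) := by
  have hN : 0 ≤ N := le_trans (by positivity) h1
  have a1 : δ * (1 + s) ≤ 1 + N := by nlinarith
  have a2 : δ * (1 + t) ≤ 1 + N := by nlinarith
  have e : (1 + N) ^ (-(6 : ℝ)) = (1 + N) ^ (-(3 : ℝ)) * (1 + N) ^ (-(3 : ℝ)) := by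
    rw [← Real.rpow_add (by positivity)]; norm_num
  have e2 : δ ^ (-(6 : ℝ)) = δ ^ (-(3 : ℝ)) * δ ^ (-(3 : ℝ)) := by
    rw [← Real.rpow_add hδ]; norm_num
  have b1 : (1 + N) ^ (-(3 : ℝ)) ≤ δ ^ (-(3 : ℝ)) * (1 + s) ^ (-(3 : ℝ)) := by
    rw [← Real.mul_rpow hδ.le (by positivity)]
    exact Real.rpow_le_rpow_of_nonpos (by positivity) a1 (by norm_num)
  have b2 : (1 + N) ^ (-(3 : ℝ)) ≤ δ ^ (-(3 : ℝ)) * (1 + t) ^ (-(3 : ℝ)) := by
    rw [← Real.mul_rpow hδ.le (by positivity)]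
    exact Real.rpow_le_rpow_of_nonpos (by positivity) a2 (by norm_num)
  rw [e, e2]
  calc (1 + N) ^ (-(3 : ℝ)) * (1 + N) ^ (-(3 : ℝ))
      ≤ (δ ^ (-(3 : ℝ)) * (1 + s) ^ (-(3 : ℝ))) * (δ ^ (-(3 : ℝ)) * (1 + t) ^ (-(3 : ℝ))) := by
        gcongr
    _ = _ := by ring

/-- the summable majorant on `Eis`. -/
def mj (x : Eis) : ℝ≥0∞ := ENNReal.ofReal ((1 + ‖toC x‖) ^ (-(3 : ℝ)))

lemma tsum_mj : ∑' x : Eis, mj x ≠ ∞ := by
  have h := Poisson381.summable_eis (b := 3) (by norm_num)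
  exact h.tsum_ofReal_ne_top

theorem tsum_w0 {M : Fr} (hM : detF M ≠ 0) : ∑' g : K695.Gam, w0 (g • M) ≠ ∞ := by
  obtain ⟨δ, hδ, hδ1, hl⟩ := lat_lower hM
  have key : ∀ g : K695.Gam, w0 (g • M) ≤ ENNReal.ofReal (δ ^ (-(6 : ℝ)) * δ ^ (-(6 : ℝ))) *
      ((mj (K695.ga g) * mj (K695.gb g)) * (mj (K695.gc g) * mj (K695.gd g))) := by
    intro g
    unfold w0 mj
    rw [smul_fst, smul_snd, ← ENNReal.ofReal_mul (by positivity),
      ← ENNReal.ofReal_mul (by positivity), ← ENNReal.ofReal_mul (by positivity),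
      ← ENNReal.ofReal_mul (by positivity)]
    apply ENNReal.ofReal_le_ofReal
    have h1 := rpow_bound hδ hδ1 (norm_nonneg _) (norm_nonneg _)
      (hl (toC (K695.ga g)) (toC (K695.gb g))).1 (hl (toC (K695.ga g)) (toC (K695.gb g))).2
    have h2 := rpow_bound hδ hδ1 (norm_nonneg _) (norm_nonneg _)
      (hl (toC (K695.gc g)) (toC (K695.gd g))).1 (hl (toC (K695.gc g)) (toC (K695.gd g))).2
    calc _ ≤ _ := mul_le_mul h1 h2 (by positivity) (by positivity)
      _ = _ := by ring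
  refine ne_top_of_le_ne_top ?_ (ENNReal.tsum_le_tsum key)
  rw [ENNReal.tsum_mul_left]
  refine ENNReal.mul_ne_top ENNReal.ofReal_ne_top ?_
  let f : (Eis × Eis) × (Eis × Eis) → ℝ≥0∞ := fun p => (mj p.1.1 * mj p.1.2) * (mj p.2.1 * mj p.2.2)
  have hinj : Function.Injective (fun g : K695.Gam =>
      (((K695.ga g, K695.gb g), (K695.gc g, K695.gd g)) : (Eis × Eis) × (Eis × Eis))) := by
    intro g h hgh
    simp only [Prod.mk.injEq] at hgh
    exact K695.gam_ext hgh.1.1 hgh.1.2 hgh.2.1 hgh.2.2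
  have h1 : ∑' g : K695.Gam, f ((K695.ga g, K695.gb g), (K695.gc g, K695.gd g)) ≤ ∑' p, f p :=
    ENNReal.tsum_comp_le_tsum_of_injective hinj f
  refine ne_top_of_le_ne_top ?_ h1
  have h2 : ∑' p, f p = ((∑' x, mj x) * (∑' x, mj x)) * ((∑' x, mj x) * (∑' x, mj x)) := by
    rw [ENNReal.tsum_prod']
    simp_rw [ENNReal.tsum_prod', f]
    simp_rw [ENNReal.tsum_mul_left, ENNReal.tsum_mul_right, ENNReal.tsum_mul_left,
      ENNReal.tsum_mul_right]
  rw [h2]
  exact ENNReal.mul_ne_top (ENNReal.mul_ne_top tsum_mj tsum_mj) (ENNReal.mul_ne_top tsum_mj tsum_mj)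

instance instCountSL : Countable (Matrix.SpecialLinearGroup (Fin 2) Eis) := by
  have : Countable Eis := (idx.countable_iff).mpr inferInstance
  have h : Function.Injective (fun g : Matrix.SpecialLinearGroup (Fin 2) Eis =>
      (fun i j => g i j : Fin 2 → Fin 2 → Eis)) := by
    intro g h hgh
    apply Matrix.SpecialLinearGroup.ext
    intro i j
    exact congrFun (congrFun hgh i) j
  exact h.countable

instance instMeasSub (G : Subgroup K695.Gam) : MeasurableConstSMul G Fr where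
  measurable_const_smul g := (continuous_gact (g : K695.Gam)).measurable

/-- the standard weight for a subgroup `G` of `Γ(3)`. -/
def rhoG (G : Subgroup K695.Gam) : Fr → ℝ≥0∞ := wtOf G w0

/-- **Existence of weights** for every subgroup of `Γ(3)`. -/
theorem isWt_sub (G : Subgroup K695.Gam) {θ : ℂ → ℝ≥0∞} (hθ : Measurable θ) (h0 : θ 0 = 0) :
    IsWt G (muD θ) (rhoG G) := by
  have hdet : ∀ᵐ M ∂(muD θ), detF M ≠ 0 := by
    have : ∀ᵐ M ∂(muD θ), θ (detF M) ≠ 0 := by
      have hm : Measurable (fun M : Fr => θ (detF M)) := hθ.comp continuous_detF.measurable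
      rw [muD, ae_withDensity_iff hm]
      exact Filter.Eventually.of_forall fun M h => h
    filter_upwards [this] with M hM h
    exact hM (by rw [h, h0])
  refine IsWt.ofPos measurable_w0 (Filter.Eventually.of_forall fun M => ?_) ?_
  · intro h
    rw [ENNReal.tsum_eq_zero] at h
    have := h 1
    exact (w0_pos _).ne' this
  · filter_upwards [hdet] with M hM
    refine ne_top_of_le_ne_top (tsum_w0 hM) ?_
    exact ENNReal.tsum_comp_le_tsum_of_injective (f := fun g : G => (g : K695.Gam))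
      Subtype.val_injective (fun g => w0 (g • M))

theorem isWt_gam {θ : ℂ → ℝ≥0∞} (hθ : Measurable θ) (h0 : θ 0 = 0) :
    IsWt K695.Gam (muD θ) (wtOf K695.Gam w0) := by
  have hdet : ∀ᵐ M ∂(muD θ), detF M ≠ 0 := by
    have : ∀ᵐ M ∂(muD θ), θ (detF M) ≠ 0 := by
      have hm : Measurable (fun M : Fr => θ (detF M)) := hθ.comp continuous_detF.measurable
      rw [muD, ae_withDensity_iff hm]
      exact Filter.Eventually.of_forall fun M h => h
    filter_upwards [this] with M hM h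
    exact hM (by rw [h, h0])
  refine IsWt.ofPos measurable_w0 (Filter.Eventually.of_forall fun M => ?_) ?_
  · intro h
    rw [ENNReal.tsum_eq_zero] at h
    exact (w0_pos _).ne' (h 1)
  · filter_upwards [hdet] with M hM
    exact tsum_w0 hM

end Crest.Agent.R012.FA681
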