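import Crest.Agent.R012.Kubota_695

/-!
# Row 12 (M-U), part 1: frames

* `SL₂(ℂ)` acts on `E × E` preserving `μ.prod μ`.
* `Vec = ℂ × ℂ`, `Frm = Vec × Vec` (a frame `(η, ζ)`), determinant, the action of `Γ(3)`,
  the pseudo-Eisenstein series `EF F (η, ζ) = Σ_{(c,d)} conj (c/d) F (c η + d ζ)`.
-/

set_option autoImplicit false

noncomputable section

open MeasureTheory Complex

namespace Crest.Agent.R012.K695

open Eis

/-! ### `SL₂(ℂ)` preserves the measure -/

section SL2

variable {E : Type*} [NormedAddCommGroup E] [NormedSpace ℂ E] [MeasurableSpace E] [BorelSpace E]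
  [SecondCountableTopology E] (μ : Measure E) [μ.IsAddLeftInvariant] [SFinite μ]

/-- The action of a `2 × 2` matrix on `E × E`. -/
def mact (a b c d : ℂ) (p : E × E) : E × E := (a • p.1 + b • p.2, c • p.1 + d • p.2)

omit [MeasurableSpace E] [BorelSpace E] [SecondCountableTopology E] in
lemma mact_mact (a b c d a' b' c' d' : ℂ) (p : E × E) :
    mact a b c d (mact a' b' c' d' p) =
      mact (a * a' + b * c') (a * b' + b * d') (c * a' + d * c') (c * b' + d * d') p := by
  unfold mact
  ext1 <;> simp only [smul_add, add_smul, mul_smul] <;> abel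

omit [BorelSpace E] [SecondCountableTopology E] [MeasurableSpace E] in
lemma continuous_mact (a b c d : ℂ) : Continuous (mact (E := E) a b c d) := by
  unfold mact; fun_prop

lemma measurable_mact (a b c d : ℂ) : Measurable (mact (E := E) a b c d) :=
  (continuous_mact a b c d).measurable

lemma mp_lower (t : ℂ) : MeasurePreserving (mact (E := E) 1 0 t 1) (μ.prod μ) (μ.prod μ) := by
  have h := (MeasurePreserving.id μ).skew_product (μc := μ) (μd := μ)
    (g := fun (x y : E) => t • x + y) (by
      have : Continuous (Function.uncurry fun (x y : E) => t • x + y) := by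
        unfold Function.uncurry; fun_prop
      exact this.measurable)
    (Filter.Eventually.of_forall fun x => map_add_left_eq_self μ (t • x))
  convert h using 1
  funext p
  simp [mact]

lemma mp_upper (t : ℂ) : MeasurePreserving (mact (E := E) 1 t 0 1) (μ.prod μ) (μ.prod μ) := by
  have h1 : MeasurePreserving (Prod.swap : E × E → E × E) (μ.prod μ) (μ.prod μ) :=
    Measure.measurePreserving_swap
  have h := (h1.comp (mp_lower μ t)).comp h1
  convert h using 1
  funext p
  simp [mact, add_comm]

lemma mp_mact_of_ne {a b c d : ℂ} (hdet : a * d - b * c = 1) (hc : c ≠ 0) :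
    MeasurePreserving (mact (E := E) a b c d) (μ.prod μ) (μ.prod μ) := by
  have h := ((mp_upper (E := E) μ ((a - 1) / c)).comp (mp_lower (E := E) μ c)).comp
    (mp_upper (E := E) μ ((d - 1) / c))
  convert h using 1
  funext p
  simp only [Function.comp_apply, mact_mact]
  congr 1
  · field_simp; ring
  · field_simp; linear_combination -hdet
  · field_simp; ring
  · field_simp; ring

theorem mp_mact {a b c d : ℂ} (hdet : a * d - b * c = 1) :
    MeasurePreserving (mact (E := E) a b c d) (μ.prod μ) (μ.prod μ) := by
  by_cases hc : c = 0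
  · subst hc
    have ha : a ≠ 0 := by
      rintro rfl; simp at hdet
    have h1 : MeasurePreserving (mact (E := E) a b a (b + d)) (μ.prod μ) (μ.prod μ) :=
      mp_mact_of_ne μ (by linear_combination hdet) ha
    have h := (mp_lower (E := E) μ (-1)).comp h1
    convert h using 1
    funext p
    simp only [Function.comp_apply, mact_mact]
    congr 1 <;> ring
  · exact mp_mact_of_ne μ hdet hc

end SL2

/-! ### Frames -/

/-- Vectors. -/
abbrev Vec : Type := ℂ × ℂ

/-- Frames `(η, ζ)`. -/
abbrev Frm : Type := Vec × Vec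

/-- `|u|²`. -/
def n2 (u : Vec) : ℝ := ‖u.1‖ ^ 2 + ‖u.2‖ ^ 2

instance : (volume : Measure Vec).IsAddHaarMeasure := by
  rw [Measure.volume_eq_prod]; infer_instance

/-- The determinant of a frame. -/
def det2 (M : Frm) : ℂ := M.1.1 * M.2.2 - M.1.2 * M.2.1

/-- The vector `c η + d ζ`. -/
def rowv (r : Eis × Eis) (M : Frm) : Vec := toC r.1 • M.1 + toC r.2 • M.2

/-- The action of `Γ(3)` on frames. -/
def act (g : Gam) (M : Frm) : Frm :=
  mact (toC (ga g)) (toC (gb g)) (toC (gc g)) (toC (gd g)) M

lemma act_def (g : Gam) (M : Frm) :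
    act g M = (toC (ga g) • M.1 + toC (gb g) • M.2, toC (gc g) • M.1 + toC (gd g) • M.2) := rfl

lemma act_snd (g : Gam) (M : Frm) : (act g M).2 = rowv (gc g, gd g) M := rfl

lemma act_mul (g h : Gam) (M : Frm) : act (g * h) M = act g (act h M) := by
  unfold act
  rw [mact_mact, ga_mul, gb_mul, gc_mul, gd_mul]
  simp only [map_add, map_mul]

@[simp] lemma act_one (M : Frm) : act 1 M = M := by
  simp [act, mact]

lemma act_inv_act (g : Gam) (M : Frm) : act g⁻¹ (act g M) = M := by
  rw [← act_mul]; simp

lemma act_act_inv (g : Gam) (M : Frm) : act g (act g⁻¹ M) = M := by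
  rw [← act_mul]; simp

lemma measurable_act (g : Gam) : Measurable (act g) := measurable_mact _ _ _ _

lemma continuous_act (g : Gam) : Continuous (act g) := continuous_mact _ _ _ _

theorem mp_act (g : Gam) : MeasurePreserving (act g) (volume : Measure Frm) volume := by
  have hdet : toC (ga g) * toC (gd g) - toC (gb g) * toC (gc g) = 1 := by
    rw [← map_mul, ← map_mul, ← map_sub, det_eq, map_one]
  exact mp_mact (volume : Measure Vec) hdet

/-- `act g` as a measurable equivalence. -/
def actEquiv (g : Gam) : Frm ≃ᵐ Frm where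
  toFun := act g
  invFun := act g⁻¹
  left_inv := act_inv_act g
  right_inv := act_act_inv g
  measurable_toFun := measurable_act g
  measurable_invFun := measurable_act g⁻¹

lemma det2_mact (a b c d : ℂ) (M : Frm) :
    det2 (mact a b c d M) = (a * d - b * c) * det2 M := by
  simp only [det2, mact, Prod.fst_add, Prod.snd_add, Prod.smul_fst, Prod.smul_snd, smul_eq_mul]
  ring

@[simp] lemma det2_act (g : Gam) (M : Frm) : det2 (act g M) = det2 M := by
  unfold act
  rw [det2_mact, ← map_mul, ← map_mul, ← map_sub, det_eq, map_one, one_mul]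

lemma rowv_act (r : Eis × Eis) (g : Gam) (M : Frm) : rowv r (act g M) = rowv (rmul r g) M := by
  simp only [rowv, act_def, rmul, map_add, map_mul, smul_add, add_smul, mul_smul]
  abel

lemma continuous_rowv (r : Eis × Eis) : Continuous (rowv r) := by
  unfold rowv; fun_prop

lemma measurable_rowv (r : Eis × Eis) : Measurable (rowv r) := (continuous_rowv r).measurable

/-- The rows `(c, d)`: bottom rows of elements of `Γ(3)`. -/
abbrev Row : Type := {r : Eis × Eis // IsRow r}

instance : Countable Eis := by
  have : Function.Injective (fun z : Eis => (z.re, z.im)) := by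
    intro x y h
    simp only [Prod.mk.injEq] at h
    exact ext' h.1 h.2
  exact this.countable

instance : Countable Row := inferInstance

instance : Countable Gam := by
  have : Function.Injective (fun g : Gam => (ga g, gb g, gc g, gd g)) := by
    intro g h e
    simp only [Prod.mk.injEq] at e
    exact gam_ext e.1 e.2.1 e.2.2.1 e.2.2.2
  exact this.countable

/-- Right multiplication by `γ` on rows, as an equivalence. -/
def rowEquiv (g : Gam) : Row ≃ Row where
  toFun r := ⟨rmul r.1 g, isRow_rmul r.2 g⟩
  invFun r := ⟨rmul r.1 g⁻¹, isRow_rmul r.2 g⁻¹⟩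
  left_inv r := by
    apply Subtype.ext
    simp only
    rw [← rmul_mul, mul_inv_cancel, rmul_one]
  right_inv r := by
    apply Subtype.ext
    simp only
    rw [← rmul_mul, inv_mul_cancel, rmul_one]

/-- The pseudo-Eisenstein series `Σ conj (c/d) F (c η + d ζ)`. -/
def EF (F : Vec → ℂ) (M : Frm) : ℂ :=
  ∑' r : Row, (starRingEnd ℂ) (sy r.1.1 r.1.2) * F (rowv r.1 M)

/-- `E_F (γ M) = κ(γ) E_F (M)`. -/
theorem EF_act (H : SyAPI) (F : Vec → ℂ) (g : Gam) (M : Frm) :
    EF F (act g M) = kub g * EF F M := by
  unfold EF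
  rw [← tsum_mul_left, ← (rowEquiv g).tsum_eq (fun r : Row => kub g *
    ((starRingEnd ℂ) (sy r.1.1 r.1.2) * F (rowv r.1 M)))]
  apply tsum_congr
  intro r
  have h1 : ((rowEquiv g r : Row) : Eis × Eis) = rmul r.1 g := rfl
  rw [rowv_act, h1, sy_rmul H r.2 g, map_mul]
  have h2 := kub_mul_conj H g
  linear_combination (-(starRingEnd ℂ) (sy r.1.1 r.1.2) * F (rowv (rmul r.1 g) M)) * h2

end Crest.Agent.R012.K695
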