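import Crest.Agent.R012.TateC_413

/-!
# Row 12 (MK12, T4): Gamma identities for the constant `pC`

* `gamma_third` : `Γ(1/3) Γ(2/3) = 2π/√3`.
* `pC_sq_gamma` : `pC² Γ(2/3) = 2π/(3√3) Γ(1/3) (2π)^(-2/3)`.
* `integral_exp_cube` : `∫_0^∞ exp(-c x³) dx = Γ(1/3)/3 · c^(-1/3)`.
* `cube_const` : the constant of the cube part of the dispersion.
-/

set_option autoImplicit false

noncomputable section

open MeasureTheory Set Real

namespace Crest.Agent.R012.Gam413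

open Crest.Agent.R012

lemma gamma_third : Real.Gamma (1 / 3) * Real.Gamma (2 / 3) = 2 * Real.pi / Real.sqrt 3 := by
  have h := Real.Gamma_mul_Gamma_one_sub (1 / 3)
  rw [show (1 : ℝ) - 1 / 3 = 2 / 3 by norm_num, show Real.pi * (1 / 3) = Real.pi / 3 by ring,
    Real.sin_pi_div_three] at h
  rw [h]
  field_simp

lemma gamma_two_third_pos : 0 < Real.Gamma (2 / 3) := Real.Gamma_pos_of_pos (by norm_num)
lemma gamma_one_third_pos : 0 < Real.Gamma (1 / 3) := Real.Gamma_pos_of_pos (by norm_num)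

lemma pC_pos : 0 < pC := by
  unfold pC
  have := gamma_two_third_pos
  positivity

lemma pC_sq_gamma : pC ^ 2 * Real.Gamma (2 / 3) =
    2 * Real.pi / (3 * Real.sqrt 3) * Real.Gamma (1 / 3) * (2 * Real.pi) ^ (-((2 : ℝ) / 3)) := by
  have h := gamma_third
  have hp := gamma_two_third_pos
  have h3 : (0 : ℝ) < Real.sqrt 3 := by positivity
  have h33 : Real.sqrt 3 * Real.sqrt 3 = 3 := Real.mul_self_sqrt (by norm_num)
  have hpi : (0 : ℝ) < 2 * Real.pi := by positivity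
  have e1 : Real.Gamma (1 / 3) = 2 * Real.pi / Real.sqrt 3 / Real.Gamma (2 / 3) := by
    rw [← h]; field_simp
  rw [e1]
  unfold pC
  have e2 : ((2 * Real.pi) ^ ((2 : ℝ) / 3)) ^ 2 = (2 * Real.pi) ^ 2 * (2 * Real.pi) ^ (-((2 : ℝ) / 3)) := by
    rw [← Real.rpow_natCast, ← Real.rpow_natCast, ← Real.rpow_mul hpi.le, ← Real.rpow_add hpi]
    norm_num
  rw [div_pow, e2]
  field_simp
  nlinarith [h33]

lemma integral_exp_cube {c : ℝ} (hc : 0 < c) :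
    ∫ x in Ioi (0 : ℝ), Real.exp (-(c * x ^ 3)) = Real.Gamma (1 / 3) / 3 * c ^ (-(1 / 3) : ℝ) := by
  have h := integral_comp_rpow_Ioi_of_pos
    (g := fun y : ℝ => 1 / 3 * (y ^ ((1 : ℝ) / 3 - 1) * Real.exp (-(y * c)))) (p := 3) (by norm_num)
  have h2 := TateC413.int_gamma (σ := 1 / 3) (r := c) (by norm_num) hc
  rw [integral_const_mul, h2] at h
  rw [show Real.Gamma (1 / 3) / 3 * c ^ (-(1 / 3) : ℝ) =
    1 / 3 * (Real.Gamma (1 / 3) * c ^ (-(1 / 3) : ℝ)) by ring, ← h]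
  apply setIntegral_congr_fun measurableSet_Ioi
  intro x hx
  have hx' : (0 : ℝ) < x := hx
  simp only [smul_eq_mul]
  rw [← Real.rpow_mul hx'.le, show (3 : ℝ) * (1 / 3 - 1) = -2 by norm_num,
    show (3 : ℝ) - 1 = 2 by norm_num]
  have e1 : x ^ (2 : ℝ) * x ^ (-2 : ℝ) = 1 := by
    rw [← Real.rpow_add hx']; norm_num
  have e2 : x ^ (3 : ℝ) = x ^ 3 := by
    rw [show (3 : ℝ) = ((3 : ℕ) : ℝ) by norm_num, Real.rpow_natCast]
  rw [e2, mul_comm c]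
  calc Real.exp (-(x ^ 3 * c)) = (x ^ (2 : ℝ) * x ^ (-2 : ℝ)) * Real.exp (-(x ^ 3 * c)) := by
        rw [e1, one_mul]
    _ = 3 * x ^ (2 : ℝ) * (1 / 3 * (x ^ (-2 : ℝ) * Real.exp (-(x ^ 3 * c)))) := by ring

/-- The radial version over `ℂ`. -/
lemma integral_exp_cube_C {c : ℝ} (hc : 0 < c) :
    ∫ z : ℂ, Real.exp (-(c * (‖z‖ ^ 2) ^ 3)) =
      Real.pi * (Real.Gamma (1 / 3) / 3 * c ^ (-(1 / 3) : ℝ)) := by
  rw [TateC413.integral_radial (fun y : ℝ => Real.exp (-(c * (y ^ 2) ^ 3))),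
    ← integral_exp_cube hc]
  have h := integral_comp_rpow_Ioi_of_pos
    (g := fun y : ℝ => Real.exp (-(c * y ^ 3))) (p := 2) (by norm_num)
  rw [← h]
  rw [smul_eq_mul, ← integral_const_mul, ← integral_const_mul]
  apply setIntegral_congr_fun measurableSet_Ioi
  intro x hx
  simp only [smul_eq_mul]
  rw [Real.rpow_two, show (2 : ℝ) - 1 = 1 by norm_num, Real.rpow_one]
  ring

/-- **T4.** With `c₀ = 4π²/27`:
`(2π/(9√3)) · (1/3) · (2/√3) · ∫_ℂ exp(-c₀ |z|⁶) dz = pC² (2π/(9√3)) Γ(2/3)`. -/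
lemma cube_const :
    2 * Real.pi / (9 * Real.sqrt 3) * (1 / 3) * (2 / Real.sqrt 3) *
      (∫ z : ℂ, Real.exp (-(4 * Real.pi ^ 2 / 27 * (‖z‖ ^ 2) ^ 3))) =
    pC ^ 2 * (2 * Real.pi / (9 * Real.sqrt 3)) * Real.Gamma (2 / 3) := by
  rw [integral_exp_cube_C (by positivity)]
  have h := pC_sq_gamma
  have h3 : (0 : ℝ) < Real.sqrt 3 := by positivity
  have hpi := Real.pi_pos
  have e1 : (4 * Real.pi ^ 2 / 27 : ℝ) ^ (-(1 / 3) : ℝ) = 3 * (2 * Real.pi) ^ (-((2 : ℝ) / 3)) := by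
    rw [show (4 * Real.pi ^ 2 / 27 : ℝ) = (2 * Real.pi) ^ (2 : ℝ) / 3 ^ (3 : ℝ) by
      rw [Real.rpow_two, show (3 : ℝ) ^ (3 : ℝ) = 27 by
        rw [show (3 : ℝ) ^ (3 : ℝ) = (3 : ℝ) ^ ((3 : ℕ) : ℝ) by norm_num, Real.rpow_natCast]
        norm_num]
      ring, Real.div_rpow (by positivity) (by positivity), ← Real.rpow_mul (by positivity),
      ← Real.rpow_mul (by norm_num)]
    norm_num
    ring
  rw [e1]
  have e2 : pC ^ 2 * (2 * Real.pi / (9 * Real.sqrt 3)) * Real.Gamma (2 / 3) =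
    (2 * Real.pi / (9 * Real.sqrt 3)) * (pC ^ 2 * Real.Gamma (2 / 3)) := by ring
  rw [e2, h]
  field_simp

end Crest.Agent.R012.Gam413
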