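import Crest.Agent.R012.SumMod_880

/-!
# Row 12, item R3c: local table of the cubic Gauss sums

`SyAx` bundles the (few) facts on the cubic symbol which are used; everything else is proved here.

Main results (all `c, d, p` primary, `p` prime, `q = nm p`):

* `gs_mul` : `gs r (c d) = sy c d * sy d c * gs r c * gs r d` and
  `gs_mul' : gs r (c d) = gs r c * gs (r c) d`   (`c, d` coprime)
* `gs_mul_left : gs (r u) c = conj (sy u c) * gs r c` (`u` coprime to `c`),
  `gs_cube_left : gs (r u^3) c = gs r c`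
* `gs_pow_of_not_dvd : gs r (p^(k+1)) = 0` if `p^k ∤ r`
* `gs_pow : gs (s p^k) (p^(k+1)) = q^k * tw (k+1) s p`,
  `tw j s p = Σ_{a mod p} (a/p)^j e(s a/p)`
* the table of `gs (r p^a) (p^k)`.
-/

set_option autoImplicit false
set_option linter.unusedSimpArgs false
set_option linter.unusedVariables false

noncomputable section

open Complex

namespace Crest.Agent.R012.GaussLoc283

open Crest.Agent.R012 Crest.Agent.R012.Eis Crest.Agent.R012.SumMod880

/-- The facts on the cubic symbol which are used here. -/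
structure SyAx : Prop where
  mul_left : ∀ x y c : Eis, IsPrim c → sy (x * y) c = sy x c * sy y c
  mul_right : ∀ x c d : Eis, IsPrim c → IsPrim d → sy x (c * d) = sy x c * sy x d
  congr : ∀ x y c : Eis, IsPrim c → c ∣ x - y → sy x c = sy y c
  eq_zero : ∀ x c : Eis, IsPrim c → (sy x c = 0 ↔ ¬ IsCoprime x c)
  cube : ∀ x c : Eis, IsPrim c → IsCoprime x c → sy x c ^ 3 = 1
  recip : ∀ a b : Eis, IsPrim a → IsPrim b → sy a b = sy b a
  nontriv : ∀ p : Eis, IsPrim p → Prime p → ∃ b, IsCoprime b p ∧ sy b p ≠ 1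

variable (H : SyAx)
include H

namespace SyAx

lemma one_left {c : Eis} (hc : IsPrim c) : sy 1 c = 1 := by
  have h1 := H.mul_left 1 1 c hc
  rw [one_mul] at h1
  have h2 : sy 1 c ≠ 0 := fun h => (H.eq_zero 1 c hc).mp h isCoprime_one_left
  field_simp at h1
  exact h1.symm

lemma one_right (x : Eis) : sy x 1 = 1 := by
  have h1 := H.mul_right x 1 1 isPrim_one isPrim_one
  rw [one_mul] at h1
  have h2 : sy x 1 ≠ 0 := fun h => (H.eq_zero x 1 isPrim_one).mp h isCoprime_one_right
  field_simp at h1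
  exact h1.symm

lemma ne_zero {x c : Eis} (hc : IsPrim c) (h : IsCoprime x c) : sy x c ≠ 0 :=
  fun h' => (H.eq_zero x c hc).mp h' h

lemma neg_one_left {c : Eis} (hc : IsPrim c) : sy (-1) c = 1 := by
  have h1 := H.mul_left (-1) (-1) c hc
  rw [neg_one_mul, neg_neg, H.one_left hc] at h1
  have h2 := H.cube (-1) c hc isCoprime_one_left.neg_left
  have h3 : sy (-1) c ^ 3 = sy (-1) c * (sy (-1) c * sy (-1) c) := by ring
  rw [h3, ← h1, mul_one] at h2
  exact h2

lemma neg_left (x : Eis) {c : Eis} (hc : IsPrim c) : sy (-x) c = sy x c := by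
  have h1 := H.mul_left (-1) x c hc
  rw [neg_one_mul, H.neg_one_left hc, one_mul] at h1
  exact h1

lemma pow_left (x : Eis) {c : Eis} (hc : IsPrim c) (k : ℕ) : sy (x ^ k) c = sy x c ^ k := by
  induction k with
  | zero => rw [pow_zero, pow_zero, H.one_left hc]
  | succ k ih => rw [pow_succ, H.mul_left _ _ _ hc, ih, pow_succ]

lemma pow_right (x : Eis) {c : Eis} (hc : IsPrim c) (k : ℕ) : sy x (c ^ k) = sy x c ^ k := by
  induction k with
  | zero => rw [pow_zero, pow_zero, H.one_right]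
  | succ k ih => rw [pow_succ, H.mul_right _ _ _ (hc.pow k) hc, ih, pow_succ]

lemma norm_eq_one {x c : Eis} (hc : IsPrim c) (h : IsCoprime x c) : ‖sy x c‖ = 1 := by
  have h1 := H.cube x c hc h
  have h2 : ‖sy x c‖ ^ 3 = 1 := by rw [← norm_pow, h1, norm_one]
  exact (pow_eq_one_iff_of_nonneg (norm_nonneg _) (by norm_num)).mp h2

lemma norm_le_one (x : Eis) {c : Eis} (hc : IsPrim c) : ‖sy x c‖ ≤ 1 := by
  by_cases h : IsCoprime x c
  · exact (H.norm_eq_one hc h).le
  · rw [(H.eq_zero x c hc).mpr h, norm_zero]; exact zero_le_one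

lemma mul_conj {x c : Eis} (hc : IsPrim c) (h : IsCoprime x c) :
    sy x c * (starRingEnd ℂ) (sy x c) = 1 := by
  rw [Complex.mul_conj, Complex.normSq_eq_norm_sq, H.norm_eq_one hc h]; simp

lemma conj_mul {x c : Eis} (hc : IsPrim c) (h : IsCoprime x c) :
    (starRingEnd ℂ) (sy x c) * sy x c = 1 := by
  rw [mul_comm]; exact H.mul_conj hc h

lemma conj_eq_sq (x : Eis) {c : Eis} (hc : IsPrim c) :
    (starRingEnd ℂ) (sy x c) = sy x c ^ 2 := by
  by_cases h : IsCoprime x c
  · have h1 := H.mul_conj hc h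
    have h2 := H.cube x c hc h
    apply mul_left_cancel₀ (H.ne_zero hc h)
    rw [h1, ← h2]; ring
  · rw [(H.eq_zero x c hc).mpr h]; simp

lemma per {c : Eis} (hc : IsPrim c) : Per c (fun x => sy x c) := fun x y h => H.congr x y c hc h

lemma conj_sq (x : Eis) {c : Eis} (hc : IsPrim c) :
    (starRingEnd ℂ) (sy x c) ^ 2 = sy x c := by
  rw [H.conj_eq_sq x hc]
  by_cases h : IsCoprime x c
  · have h2 := H.cube x c hc h
    linear_combination (sy x c) * h2
  · rw [(H.eq_zero x c hc).mpr h]; simp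

end SyAx

/-! ### general properties of `gs` -/

omit H in
lemma gs_congr_left {r r' c : Eis} (hc : c ≠ 0) (h : c ∣ r - r') : gs r c = gs r' c := by
  unfold gs
  apply sumMod_congr'
  intro x
  congr 1
  have h1 := per_eC hc x r r' h
  simp only at h1
  rw [mul_comm (toC r), mul_comm (toC r'), h1]

lemma per_gs {c : Eis} (hc : IsPrim c) (r : Eis) :
    Per c (fun x => sy x c * eC (toC r * toC x / toC c)) :=
  (H.per hc).mul (per_eC hc.ne_zero r)

lemma gs_one_right (r : Eis) : gs r 1 = 1 := by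
  unfold gs
  rw [isUnit_sumMod isUnit_one (per_gs H isPrim_one r), H.one_right, map_zero, mul_zero, zero_div,
    eC_zero, one_mul]

/-- `gs (r u) c = conj (sy u c) * gs r c` for `u` coprime to `c`. -/
theorem gs_mul_left (r : Eis) {u c : Eis} (hc : IsPrim c) (hu : IsCoprime u c) :
    gs (r * u) c = (starRingEnd ℂ) (sy u c) * gs r c := by
  have h1 := sumMod_comp_mul hc.ne_zero (per_gs H hc r) hu
  have h2 : ∀ x, sy (u * x) c * eC (toC r * toC (u * x) / toC c) =
      sy u c * (sy x c * eC (toC (r * u) * toC x / toC c)) := by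
    intro x
    rw [H.mul_left _ _ _ hc, mul_assoc]
    congr 3
    rw [map_mul, map_mul]; ring
  rw [sumMod_congr' h2, sumMod_const_mul hc.ne_zero] at h1
  unfold gs
  rw [← h1, ← mul_assoc, H.conj_mul hc hu, one_mul]

theorem gs_cube_left (r : Eis) {u c : Eis} (hc : IsPrim c) (hu : IsCoprime u c) :
    gs (r * u ^ 3) c = gs r c := by
  rw [gs_mul_left H r hc (hu.pow_left), H.pow_left _ hc, H.cube _ _ hc hu, map_one, one_mul]

theorem gs_neg_left (r : Eis) {c : Eis} (hc : IsPrim c) : gs (-r) c = gs r c := by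
  have h := gs_mul_left H r (u := -1) hc isCoprime_one_left.neg_left
  rw [H.neg_one_left hc, map_one, one_mul, mul_neg_one] at h
  exact h

/-- `gs r c = conj (sy r c) * gs 1 c` for `r` coprime to `c`. -/
theorem gs_eq_conj_mul {r c : Eis} (hc : IsPrim c) (hr : IsCoprime r c) :
    gs r c = (starRingEnd ℂ) (sy r c) * gs 1 c := by
  have := gs_mul_left H 1 hc hr
  rwa [one_mul] at this

/-- twisted multiplicativity. -/
theorem gs_mul (r : Eis) {c d : Eis} (hc : IsPrim c) (hd : IsPrim d) (hcd : IsCoprime c d) :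
    gs r (c * d) = sy d c * sy c d * (gs r c * gs r d) := by
  have hc0 := hc.ne_zero
  have hd0 := hd.ne_zero
  have hc' : toC c ≠ 0 := by rwa [Ne, toC_eq_zero]
  have hd' : toC d ≠ 0 := by rwa [Ne, toC_eq_zero]
  unfold gs
  rw [sumMod_mul_coprime hc0 hd0 hcd (per_gs H (hc.mul hd) r), sumMod_mul_sumMod hc0 hd0,
    ← sumMod_const_mul hc0]
  apply sumMod_congr'
  intro x
  rw [← sumMod_const_mul hd0]
  apply sumMod_congr'
  intro y
  have e1 : sy (d * x + c * y) c = sy d c * sy x c := by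
    rw [← H.mul_left _ _ _ hc]
    apply H.congr _ _ _ hc
    exact ⟨y, by ring⟩
  have e2 : sy (d * x + c * y) d = sy c d * sy y d := by
    rw [← H.mul_left _ _ _ hd]
    apply H.congr _ _ _ hd
    exact ⟨x, by ring⟩
  have e3 : toC r * toC (d * x + c * y) / toC (c * d) =
      toC r * toC x / toC c + toC r * toC y / toC d := by
    rw [map_add, map_mul, map_mul, map_mul]
    field_simp
  rw [H.mul_right _ _ _ hc hd, e1, e2, e3, eC_add]
  ring

/-- twisted multiplicativity, second form: `gs r (c d) = gs r c * gs (r c) d`. -/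
theorem gs_mul' (r : Eis) {c d : Eis} (hc : IsPrim c) (hd : IsPrim d) (hcd : IsCoprime c d) :
    gs r (c * d) = gs r c * gs (r * c) d := by
  rw [gs_mul H r hc hd hcd, gs_mul_left H r hd hcd, H.recip d c hd hc, H.conj_eq_sq _ hd]
  ring

theorem norm_gs_le (r : Eis) {c : Eis} (hc : IsPrim c) : ‖gs r c‖ ≤ nm c := by
  have := norm_sumMod_le (f := fun x => sy x c * eC (toC r * toC x / toC c)) (B := 1) hc.ne_zero
    (fun x => by
      rw [norm_mul, norm_eC, mul_one]
      exact H.norm_le_one x hc)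
  rwa [mul_one] at this

theorem conj_gs (r : Eis) {c : Eis} (hc : IsPrim c) :
    (starRingEnd ℂ) (gs r c) =
      sumMod c (fun x => (starRingEnd ℂ) (sy x c) * eC (toC r * toC x / toC c)) := by
  have h1 : (starRingEnd ℂ) (gs (-r) c) =
      sumMod c (fun x => (starRingEnd ℂ) (sy x c) * eC (toC r * toC x / toC c)) := by
    unfold gs
    rw [conj_sumMod hc.ne_zero]
    apply sumMod_congr'
    intro x
    rw [map_mul, conj_eC]
    congr 2
    rw [map_neg]; ring
  rw [← h1, gs_neg_left H r hc]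

/-! ### prime powers -/

/-- `tw j s p = Σ_{a mod p} (a/p)^j e(s a / p)`. -/
def tw (j : ℕ) (s p : Eis) : ℂ := sumMod p (fun a => sy a p ^ j * eC (toC s * toC a / toC p))

lemma sum_prime_pow (j : ℕ) (r : Eis) {p : Eis} (hp : IsPrim p) (k : ℕ) :
    sumMod (p ^ (k + 1)) (fun x => sy x p ^ j * eC (toC r * toC x / toC (p ^ (k + 1)))) =
      open Classical in
      if p ^ k ∣ r then (nm p : ℂ) ^ k * sumMod p (fun a => sy a p ^ j *
        eC (toC r * toC a / toC (p ^ (k + 1)))) else 0 := by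
  have hp0 := hp.ne_zero
  have hp' : toC p ≠ 0 := by rwa [Ne, toC_eq_zero]
  have hper : Per (p ^ (k + 1)) (fun x => sy x p ^ j * eC (toC r * toC x / toC (p ^ (k + 1)))) := by
    apply Per.mul
    · exact (((H.per hp).comp (fun z => z ^ j)).of_dvd (dvd_pow_self p (Nat.succ_ne_zero k)))
    · exact per_eC (pow_ne_zero _ hp0) r
  have e0 : p ^ (k + 1) = p * p ^ k := by ring
  rw [e0] at hper ⊢
  rw [sumMod_mul hp0 (pow_ne_zero k hp0) hper]
  have h1 : ∀ x, sumMod (p ^ k) (fun y => sy (x + p * y) p ^ j *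
      eC (toC r * toC (x + p * y) / toC (p * p ^ k))) =
      sy x p ^ j * eC (toC r * toC x / toC (p * p ^ k)) *
        (open Classical in if p ^ k ∣ r then ((nm p : ℂ) ^ k) else 0) := by
    intro x
    have h2 : ∀ y, sy (x + p * y) p ^ j * eC (toC r * toC (x + p * y) / toC (p * p ^ k)) =
        (sy x p ^ j * eC (toC r * toC x / toC (p * p ^ k))) *
          eC (toC r * toC y / toC (p ^ k)) := by
      intro y
      have e1 : sy (x + p * y) p = sy x p := H.congr _ _ _ hp ⟨y, by ring⟩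
      have hpk : toC (p ^ k) ≠ 0 := by rw [Ne, toC_eq_zero]; exact pow_ne_zero _ hp0
      have e2 : toC r * toC (x + p * y) / toC (p * p ^ k) =
          toC r * toC x / toC (p * p ^ k) + toC r * toC y / toC (p ^ k) := by
        rw [map_add, map_mul toC p y, map_mul toC p (p ^ k)]
        field_simp
      rw [e1, e2, eC_add]; ring
    rw [sumMod_congr' h2, sumMod_const_mul (pow_ne_zero k hp0),
      sumMod_eC ((hp.pow k).isCoprime_lam), nm_pow]
    push_cast
    rfl
  rw [sumMod_congr' h1, sumMod_mul_const hp0]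
  split_ifs
  · ring
  · rw [mul_zero]

omit H in
/-- picking out one residue class. -/
lemma sumMod_delta {c : Eis} (hc : c ≠ 0) {f : Eis → ℂ} (hf : Per c f) (x : Eis) :
    sumMod c (fun y => open Classical in if c ∣ y - x then f y else 0) = f x := by
  have := finQ hc
  have : Fintype (Q c) := Fintype.ofFinite _
  rw [sumMod_eq_sum, Finset.sum_eq_single (mk c x)]
  · rw [if_pos (out_mk_sub x), hf.out]
  · intro q _ hq
    rw [if_neg]
    intro h
    apply hq
    rw [← mk_eq_iff, mk_out] at h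
    exact h
  · intro h; exact absurd (Finset.mem_univ _) h

omit H in
lemma isCoprime_iff_not_dvd {p : Eis} (hp : Prime p) (x : Eis) : IsCoprime x p ↔ ¬ p ∣ x := by
  rw [isCoprime_comm]; exact hp.irreducible.coprime_iff_not_dvd

lemma sy_eq_zero_iff_dvd {p : Eis} (hp : IsPrim p) (hpp : Prime p) (x : Eis) :
    sy x p = 0 ↔ p ∣ x := by
  rw [H.eq_zero x p hp, isCoprime_iff_not_dvd hpp, not_not]

lemma sy_cube_eq {p : Eis} (hp : IsPrim p) (hpp : Prime p) (x : Eis) :
    sy x p ^ 3 = 1 - (open Classical in if p ∣ x - 0 then 1 else 0) := by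
  rw [sub_zero]
  split_ifs with h
  · rw [(sy_eq_zero_iff_dvd H hp hpp x).mpr h]; simp
  · rw [H.cube x p hp ((isCoprime_iff_not_dvd hpp x).mpr h), sub_zero]

omit H in
lemma tw_one (s p : Eis) : tw 1 s p = gs s p := by
  unfold tw gs
  simp only [pow_one]

lemma tw_two (s : Eis) {p : Eis} (hp : IsPrim p) : tw 2 s p = (starRingEnd ℂ) (gs s p) := by
  rw [conj_gs H s hp]
  unfold tw
  apply sumMod_congr'
  intro x
  rw [H.conj_eq_sq x hp]

lemma tw_three (s : Eis) {p : Eis} (hp : IsPrim p) (hpp : Prime p) :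
    tw 3 s p = (open Classical in if p ∣ s then (nm p : ℂ) else 0) - 1 := by
  classical
  unfold tw
  have hp0 := hp.ne_zero
  have h1 : ∀ a, sy a p ^ 3 * eC (toC s * toC a / toC p) = eC (toC s * toC a / toC p) -
      (if p ∣ a - 0 then eC (toC s * toC a / toC p) else 0) := by
    intro a
    rw [sy_cube_eq H hp hpp]
    split_ifs <;> ring
  rw [sumMod_congr' h1, sumMod_sub hp0, sumMod_eC hp.isCoprime_lam, sumMod_delta hp0 (per_eC hp0 s) 0,
    map_zero, mul_zero, zero_div, eC_zero]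

lemma tw_add_three (j : ℕ) (s : Eis) {p : Eis} (hp : IsPrim p) :
    tw (j + 1 + 3) s p = tw (j + 1) s p := by
  unfold tw
  apply sumMod_congr'
  intro a
  congr 1
  by_cases h : IsCoprime a p
  · rw [pow_add _ _ 3, H.cube a p hp h, mul_one]
  · rw [(H.eq_zero a p hp).mpr h]; simp

lemma tw_of_mod_one {j : ℕ} (hj : j % 3 = 1) (s : Eis) {p : Eis} (hp : IsPrim p) :
    tw j s p = gs s p := by
  induction j using Nat.strong_induction_on with
  | _ j ih =>
    rcases Nat.lt_or_ge j 3 with h | h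
    · have : j = 1 := by omega
      rw [this, tw_one]
    · obtain ⟨i, rfl⟩ : ∃ i, j = i + 1 + 3 := ⟨j - 4, by omega⟩
      rw [tw_add_three H i s hp]
      exact ih (i + 1) (by omega) (by omega)

lemma tw_of_mod_two {j : ℕ} (hj : j % 3 = 2) (s : Eis) {p : Eis} (hp : IsPrim p) :
    tw j s p = (starRingEnd ℂ) (gs s p) := by
  induction j using Nat.strong_induction_on with
  | _ j ih =>
    rcases Nat.lt_or_ge j 3 with h | h
    · have : j = 2 := by omega
      rw [this, tw_two H s hp]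
    · obtain ⟨i, rfl⟩ : ∃ i, j = i + 1 + 3 := ⟨j - 4, by omega⟩
      rw [tw_add_three H i s hp]
      exact ih (i + 1) (by omega) (by omega)

lemma tw_of_mod_zero {j : ℕ} (hj0 : j ≠ 0) (hj : j % 3 = 0) (s : Eis) {p : Eis} (hp : IsPrim p)
    (hpp : Prime p) :
    tw j s p = (open Classical in if p ∣ s then (nm p : ℂ) else 0) - 1 := by
  induction j using Nat.strong_induction_on with
  | _ j ih =>
    rcases Nat.lt_or_ge j 4 with h | h
    · have : j = 3 := by omega
      rw [this, tw_three H s hp hpp]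
    · obtain ⟨i, rfl⟩ : ∃ i, j = i + 1 + 3 := ⟨j - 4, by omega⟩
      rw [tw_add_three H i s hp]
      exact ih (i + 1) (by omega) (by omega) (by omega)

lemma per_tw (j : ℕ) (s : Eis) {p : Eis} (hp : IsPrim p) :
    Per p (fun a => sy a p ^ j * eC (toC s * toC a / toC p)) :=
  ((H.per hp).comp (fun z => z ^ j)).mul (per_eC hp.ne_zero s)

/-- `gs s p = 0` for `p | s`. -/
theorem gs_prime_of_dvd {s p : Eis} (hp : IsPrim p) (hpp : Prime p) (h : p ∣ s) : gs s p = 0 := by
  obtain ⟨b, hb, hb1⟩ := H.nontriv p hp hpp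
  unfold gs
  refine sumMod_eq_zero_of_mul hp.ne_zero (per_gs H hp s) hb (sy b p) hb1 (fun x => ?_)
  have h2 : ∀ y, eC (toC s * toC y / toC p) = 1 := by
    intro y
    have h3 := per_eC hp.ne_zero y s 0 (by simpa using h)
    simp only at h3
    rw [mul_comm (toC s), h3, map_zero, mul_zero, zero_div, eC_zero]
  rw [h2, h2, H.mul_left _ _ _ hp]; ring

/-- `|gs 1 p|^2 = nm p`. -/
theorem gs_one_prime_mul_conj {p : Eis} (hp : IsPrim p) (hpp : Prime p) :
    gs 1 p * (starRingEnd ℂ) (gs 1 p) = nm p := by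
  classical
  have hp0 := hp.ne_zero
  -- second moment, computed in two ways
  have h1 : sumMod p (fun s => gs s p * (starRingEnd ℂ) (gs s p)) =
      (nm p - 1) * (gs 1 p * (starRingEnd ℂ) (gs 1 p)) := by
    have h2 : ∀ s, gs s p * (starRingEnd ℂ) (gs s p) = gs 1 p * (starRingEnd ℂ) (gs 1 p) -
        (if p ∣ s - 0 then gs 1 p * (starRingEnd ℂ) (gs 1 p) else 0) := by
      intro s
      rw [sub_zero]
      split_ifs with h
      · rw [gs_prime_of_dvd H hp hpp h]; simp
      · have hs := (isCoprime_iff_not_dvd hpp s).mpr h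
        rw [gs_eq_conj_mul H hp hs, map_mul, Complex.conj_conj, sub_zero]
        linear_combination (gs 1 p * (starRingEnd ℂ) (gs 1 p)) * (H.conj_mul hp hs)
    rw [sumMod_congr' h2, sumMod_sub hp0, sumMod_const hp0, sumMod_delta hp0 (Per.const _) 0]
    ring
  have h3 : sumMod p (fun s => gs s p * (starRingEnd ℂ) (gs s p)) = nm p * (nm p - 1) := by
    have h4 : ∀ s, gs s p * (starRingEnd ℂ) (gs s p) =
        sumMod p (fun x => sumMod p (fun y => sy x p * (starRingEnd ℂ) (sy y p) *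
          eC (toC (x - y) * toC s / toC p))) := by
      intro s
      have : (starRingEnd ℂ) (gs s p) = sumMod p (fun y => (starRingEnd ℂ) (sy y p) *
          eC (-(toC s * toC y / toC p))) := by
        unfold gs
        rw [conj_sumMod hp0]
        apply sumMod_congr'
        intro x
        rw [map_mul, conj_eC]
      rw [this]
      unfold gs
      rw [sumMod_mul_sumMod hp0 hp0]
      apply sumMod_congr'
      intro x
      apply sumMod_congr'
      intro y
      have e1 : toC (x - y) * toC s / toC p = toC s * toC x / toC p + -(toC s * toC y / toC p) := by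
        rw [map_sub]; ring
      rw [e1, eC_add]; ring
    rw [sumMod_congr' h4, sumMod_comm hp0 hp0]
    have h5 : ∀ x, sumMod p (fun s => sumMod p (fun y => sy x p * (starRingEnd ℂ) (sy y p) *
          eC (toC (x - y) * toC s / toC p))) = nm p * (sy x p * (starRingEnd ℂ) (sy x p)) := by
      intro x
      rw [sumMod_comm hp0 hp0]
      have h6 : ∀ y, sumMod p (fun s => sy x p * (starRingEnd ℂ) (sy y p) *
          eC (toC (x - y) * toC s / toC p)) =
          if p ∣ y - x then nm p * (sy x p * (starRingEnd ℂ) (sy y p)) else 0 := by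
        intro y
        rw [sumMod_const_mul hp0, sumMod_eC hp.isCoprime_lam]
        by_cases h : p ∣ y - x
        · have h' : p ∣ x - y := by rw [← neg_sub]; exact (dvd_neg).mpr h
          rw [if_pos h, if_pos h']; ring
        · have h' : ¬ p ∣ x - y := by
            intro h''; apply h; rw [← neg_sub]; exact (dvd_neg).mpr h''
          rw [if_neg h, if_neg h', mul_zero]
      rw [sumMod_congr' h6]
      exact sumMod_delta hp0 (f := fun y => nm p * (sy x p * (starRingEnd ℂ) (sy y p)))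
        (fun y y' hy => by simp only [H.congr y y' p hp hy]) x
    rw [sumMod_congr' h5, sumMod_const_mul hp0]
    congr 1
    have h7 : ∀ x, sy x p * (starRingEnd ℂ) (sy x p) = 1 - (if p ∣ x - 0 then 1 else 0) := by
      intro x
      rw [H.conj_eq_sq x hp, ← sy_cube_eq H hp hpp x]; ring
    rw [sumMod_congr' h7, sumMod_sub hp0, sumMod_const hp0, sumMod_delta hp0 (Per.const _) 0]
    ring
  have hq : (nm p : ℂ) - 1 ≠ 0 := by
    have h8 : nm p ≠ 1 := fun h => hpp.not_isUnit (isUnit_iff.mpr h)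
    intro h
    apply h8
    have : (nm p : ℂ) = 1 := by linear_combination h
    exact_mod_cast this
  apply mul_left_cancel₀ hq
  rw [← h1, h3]; ring

theorem gs_prime_mul_conj {s p : Eis} (hp : IsPrim p) (hpp : Prime p) (h : ¬ p ∣ s) :
    gs s p * (starRingEnd ℂ) (gs s p) = nm p := by
  have hs := (isCoprime_iff_not_dvd hpp s).mpr h
  rw [gs_eq_conj_mul H hp hs, map_mul, Complex.conj_conj]
  linear_combination (gs 1 p * (starRingEnd ℂ) (gs 1 p)) * (H.conj_mul hp hs) +
    gs_one_prime_mul_conj H hp hpp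

theorem norm_gs_prime_sq {s p : Eis} (hp : IsPrim p) (hpp : Prime p) (h : ¬ p ∣ s) :
    ‖gs s p‖ ^ 2 = nm p := by
  have := gs_prime_mul_conj H hp hpp h
  rw [Complex.mul_conj, Complex.normSq_eq_norm_sq] at this
  exact_mod_cast this

/-! ### the table -/

/-- **vanishing**: `gs r (p^(k+1)) = 0` unless `p^k | r`. -/
theorem gs_pow_of_not_dvd {r p : Eis} (hp : IsPrim p) {k : ℕ} (h : ¬ p ^ k ∣ r) :
    gs r (p ^ (k + 1)) = 0 := by
  have h1 : gs r (p ^ (k + 1)) = sumMod (p ^ (k + 1)) (fun x => sy x p ^ (k + 1) *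
      eC (toC r * toC x / toC (p ^ (k + 1)))) := by
    unfold gs
    apply sumMod_congr'
    intro x
    rw [H.pow_right x hp]
  rw [h1, sum_prime_pow H (k + 1) r hp k, if_neg h]

/-- `gs (s p^k) (p^(k+1)) = nm p^k * tw (k+1) s p`. -/
theorem gs_pow (s : Eis) {p : Eis} (hp : IsPrim p) (k : ℕ) :
    gs (s * p ^ k) (p ^ (k + 1)) = (nm p : ℂ) ^ k * tw (k + 1) s p := by
  have hp' : toC p ≠ 0 := by rw [Ne, toC_eq_zero]; exact hp.ne_zero
  have h1 : gs (s * p ^ k) (p ^ (k + 1)) = sumMod (p ^ (k + 1)) (fun x => sy x p ^ (k + 1) *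
      eC (toC (s * p ^ k) * toC x / toC (p ^ (k + 1)))) := by
    unfold gs
    apply sumMod_congr'
    intro x
    rw [H.pow_right x hp]
  rw [h1, sum_prime_pow H (k + 1) _ hp k, if_pos (dvd_mul_left _ _)]
  congr 1
  unfold tw
  apply sumMod_congr'
  intro a
  congr 2
  rw [map_mul, map_pow, map_pow, pow_succ]
  field_simp

/-- `k ≡ 1 (mod 3)`: `gs (s p^(k-1)) (p^k) = nm p^(k-1) gs s p`. -/
theorem gs_pow_one (s : Eis) {p : Eis} (hp : IsPrim p) {k : ℕ} (hk : k % 3 = 0) :
    gs (s * p ^ k) (p ^ (k + 1)) = (nm p : ℂ) ^ k * gs s p := by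
  rw [gs_pow H s hp k, tw_of_mod_one H (by omega) s hp]

/-- `k ≡ 2 (mod 3)`. -/
theorem gs_pow_two (s : Eis) {p : Eis} (hp : IsPrim p) {k : ℕ} (hk : k % 3 = 1) :
    gs (s * p ^ k) (p ^ (k + 1)) = (nm p : ℂ) ^ k * (starRingEnd ℂ) (gs s p) := by
  rw [gs_pow H s hp k, tw_of_mod_two H (by omega) s hp]

/-- `k ≡ 0 (mod 3)`. -/
theorem gs_pow_three (s : Eis) {p : Eis} (hp : IsPrim p) (hpp : Prime p) {k : ℕ}
    (hk : k % 3 = 2) :
    gs (s * p ^ k) (p ^ (k + 1)) = (nm p : ℂ) ^ k *
      ((open Classical in if p ∣ s then (nm p : ℂ) else 0) - 1) := by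
  rw [gs_pow H s hp k, tw_of_mod_zero H (by omega) (by omega) s hp hpp]

/-- the complete table, `p ∤ r`, exponent `k ≤ a` (Ramanujan sum range). -/
theorem gs_table_le {r p : Eis} (hp : IsPrim p) (hpp : Prime p) {a k : ℕ}
    (hka : k + 1 ≤ a) : gs (r * p ^ a) (p ^ (k + 1)) =
      if (k + 1) % 3 = 0 then (nm p : ℂ) ^ k * (nm p - 1) else 0 := by
  have h1 : r * p ^ a = (r * p ^ (a - k)) * p ^ k := by
    rw [mul_assoc, ← pow_add]; congr 2; omega
  have h2 : p ∣ r * p ^ (a - k) := (dvd_pow_self p (by omega)).mul_left r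
  rw [h1]
  split_ifs with h
  · rw [gs_pow_three H _ hp hpp (by omega), if_pos h2]
  · have h3 : k % 3 = 0 ∨ k % 3 = 1 := by omega
    rcases h3 with h3 | h3
    · rw [gs_pow_one H _ hp h3, gs_prime_of_dvd H hp hpp h2, mul_zero]
    · rw [gs_pow_two H _ hp h3, gs_prime_of_dvd H hp hpp h2, map_zero, mul_zero]

/-- the complete table, `p ∤ r`, exponent `k = a + 1`. -/
theorem gs_table_succ {r p : Eis} (hp : IsPrim p) (hpp : Prime p) (hr : ¬ p ∣ r) (a : ℕ) :
    gs (r * p ^ a) (p ^ (a + 1)) = (nm p : ℂ) ^ a *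
      (if a % 3 = 0 then gs r p else if a % 3 = 1 then (starRingEnd ℂ) (gs r p) else -1) := by
  split_ifs with h h'
  · rw [gs_pow_one H _ hp h]
  · rw [gs_pow_two H _ hp h']
  · rw [gs_pow_three H _ hp hpp (by omega), if_neg hr, zero_sub]

/-- the complete table, `p ∤ r`, exponent `k ≥ a + 2`. -/
theorem gs_table_ge {r p : Eis} (hp : IsPrim p) (hpp : Prime p) (hr : ¬ p ∣ r) {a k : ℕ}
    (hk : a + 2 ≤ k) : gs (r * p ^ a) (p ^ k) = 0 := by
  obtain ⟨j, rfl⟩ : ∃ j, k = j + 1 := ⟨k - 1, by omega⟩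
  apply gs_pow_of_not_dvd H hp
  intro h
  apply hr
  have h1 : p ^ (a + 1) ∣ r * p ^ a := (pow_dvd_pow p (by omega)).trans h
  rw [pow_succ', mul_dvd_mul_iff_right (pow_ne_zero _ hp.ne_zero)] at h1
  exact h1

/-! ### the special cases used in the relations between residues -/

/-- `p ∤ h`: `gs h (p^k) = 0` for `k ≥ 2`. -/
theorem gs_pow_ge_two {h p : Eis} (hp : IsPrim p) (hpp : Prime p) (hh : ¬ p ∣ h) {k : ℕ}
    (hk : 2 ≤ k) : gs h (p ^ k) = 0 := by
  have := gs_table_ge H hp hpp hh (a := 0) (k := k) (by omega)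
  simpa using this

theorem gs_mul_p_prime {h p : Eis} (hp : IsPrim p) (hpp : Prime p) :
    gs (h * p) p = 0 := gs_prime_of_dvd H hp hpp (dvd_mul_left _ _)

/-- `gs (h p) (p^2) = N conj (gs h p)`. -/
theorem gs_p_sq {h p : Eis} (hp : IsPrim p) :
    gs (h * p) (p ^ 2) = nm p * (starRingEnd ℂ) (gs h p) := by
  have := gs_pow_two H h hp (k := 1) (by norm_num)
  simpa using this

/-- `p ∤ h`: `gs (h p) (p^k) = 0` for `k ≥ 3`. -/
theorem gs_p_pow_ge_three {h p : Eis} (hp : IsPrim p) (hpp : Prime p) (hh : ¬ p ∣ h) {k : ℕ}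
    (hk : 3 ≤ k) : gs (h * p) (p ^ k) = 0 := by
  have := gs_table_ge H hp hpp hh (a := 1) (k := k) (by omega)
  simpa using this

theorem gs_sq_p {h p : Eis} (hp : IsPrim p) (hpp : Prime p) : gs (h * p ^ 2) p = 0 :=
  gs_prime_of_dvd H hp hpp ((dvd_pow_self p two_ne_zero).mul_left h)

theorem gs_sq_sq {h p : Eis} (hp : IsPrim p) (hpp : Prime p) : gs (h * p ^ 2) (p ^ 2) = 0 := by
  have := gs_table_le H (r := h) hp hpp (a := 2) (k := 1) (by omega)
  simpa using this

theorem gs_sq_cube {h p : Eis} (hp : IsPrim p) (hpp : Prime p) (hh : ¬ p ∣ h) :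
    gs (h * p ^ 2) (p ^ 3) = -(nm p : ℂ) ^ 2 := by
  have := gs_table_succ H hp hpp hh 2
  simpa using this

theorem gs_sq_pow_ge_four {h p : Eis} (hp : IsPrim p) (hpp : Prime p) (hh : ¬ p ∣ h) {k : ℕ}
    (hk : 4 ≤ k) : gs (h * p ^ 2) (p ^ k) = 0 :=
  gs_table_ge H hp hpp hh (a := 2) (by omega)

end Crest.Agent.R012.GaussLoc283
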