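import Crest.Agent.R012.Base_666

/-!
# Row 12, item MG (part A): integrals of functions of `det (u, z)` on `ℂ² × ℂ²`

* `dt u z = u₁ z₂ - u₂ z₁`
* `Fr r₁ r₂ r₃ K F` : the class of test functions, `F` measurable, `‖F‖ ≤ K`, supported in
  `r₁ ≤ ‖u₁‖ ≤ r₂`, `‖u₂‖ ≤ r₃`
* `lintegral_dt_le` : `∫∫ Φ(det(u,z)) ‖F u‖ ‖F' z‖ ≤ (explicit) * ∫_{‖y‖ ≤ Y} Φ`
* `mm τ D = min (D^(-4/3)) (D^(-2+τ))` (`0 < τ < 2/3`), `lintegral_mm_le`.
-/

set_option autoImplicit false

noncomputable section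

open MeasureTheory Set Complex
open scoped ENNReal

namespace Crest.Agent.R012.Gram858

/-! ## Change of variables in `ℂ` -/

/-- Multiplication by `c` as an `ℝ`-linear map. -/
lemma det_lmul (c : ℂ) : LinearMap.det (LinearMap.mulLeft ℝ c) = ‖c‖ ^ 2 := by
  have h : LinearMap.mulLeft ℝ c = Algebra.lmul ℝ ℂ c := rfl
  rw [h, ← Algebra.norm_apply, Algebra.norm_complex_apply, Complex.normSq_eq_norm_sq]

lemma map_mul_left {c : ℂ} (hc : c ≠ 0) :
    Measure.map (fun z : ℂ => c * z) (volume : Measure ℂ)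
      = ENNReal.ofReal ((‖c‖ ^ 2)⁻¹) • (volume : Measure ℂ) := by
  have hdet : LinearMap.det (LinearMap.mulLeft ℝ c) ≠ 0 := by
    rw [det_lmul]; positivity
  have := Measure.map_linearMap_addHaar_eq_smul_addHaar (volume : Measure ℂ) hdet
  rw [det_lmul, abs_of_nonneg (by positivity)] at this
  exact this

lemma lintegral_mul_left {c : ℂ} (hc : c ≠ 0) (f : ℂ → ℝ≥0∞) :
    ∫⁻ z, f (c * z) = ENNReal.ofReal ((‖c‖ ^ 2)⁻¹) * ∫⁻ z, f z := by
  have h := (Homeomorph.mulLeft₀ c hc).measurableEmbedding.lintegral_map (μ := volume) f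
  have h2 : Measure.map (Homeomorph.mulLeft₀ c hc) (volume : Measure ℂ)
      = ENNReal.ofReal ((‖c‖ ^ 2)⁻¹) • (volume : Measure ℂ) := map_mul_left hc
  rw [h2, lintegral_smul_measure] at h
  exact h.symm

lemma lintegral_affine {c : ℂ} (hc : c ≠ 0) (b : ℂ) (f : ℂ → ℝ≥0∞) :
    ∫⁻ z, f (b - z * c) = ENNReal.ofReal ((‖c‖ ^ 2)⁻¹) * ∫⁻ z, f z := by
  have h1 := lintegral_mul_left (c := -c) (neg_ne_zero.mpr hc) (fun z => f (b + z))
  rw [norm_neg] at h1
  rw [lintegral_add_left_eq_self (fun z => f z) b] at h1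
  rw [← h1]
  congr 1
  ext z
  congr 1
  ring

lemma integral_mul_left' {E : Type*} [NormedAddCommGroup E] [NormedSpace ℝ E]
    {c : ℂ} (hc : c ≠ 0) (f : ℂ → E) :
    ∫ z, f (c * z) = ((‖c‖ ^ 2)⁻¹ : ℝ) • ∫ z, f z := by
  have h := (Homeomorph.mulLeft₀ c hc).measurableEmbedding.integral_map (μ := volume) f
  have h2 : Measure.map (Homeomorph.mulLeft₀ c hc) (volume : Measure ℂ)
      = ENNReal.ofReal ((‖c‖ ^ 2)⁻¹) • (volume : Measure ℂ) := map_mul_left hc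
  rw [h2, integral_smul_measure, ENNReal.toReal_ofReal (by positivity)] at h
  exact h.symm

/-! ## The determinant and the class of test functions -/

/-- The determinant of the frame `(u, z)`. -/
def dt (u z : ℂ × ℂ) : ℂ := u.1 * z.2 - u.2 * z.1

lemma continuous_dt : Continuous fun p : (ℂ × ℂ) × (ℂ × ℂ) => dt p.1 p.2 := by
  unfold dt; fun_prop

lemma norm_dt_le (u z : ℂ × ℂ) : ‖dt u z‖ ≤ ‖u.1‖ * ‖z.2‖ + ‖u.2‖ * ‖z.1‖ := by
  unfold dt
  refine (norm_sub_le _ _).trans ?_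
  rw [norm_mul, norm_mul]

/-- Test functions: measurable, bounded by `K`, supported in `r₁ ≤ ‖u₁‖ ≤ r₂`, `‖u₂‖ ≤ r₃`. -/
structure Fr (r₁ r₂ r₃ K : ℝ) (F : ℂ × ℂ → ℂ) : Prop where
  meas : Measurable F
  bd : ∀ u, ‖F u‖ ≤ K
  supp : ∀ u, F u ≠ 0 → r₁ ≤ ‖u.1‖ ∧ ‖u.1‖ ≤ r₂ ∧ ‖u.2‖ ≤ r₃

lemma volume_closedBall_C (r : ℝ) :
    volume (Metric.closedBall (0 : ℂ) r) = ENNReal.ofReal r ^ 2 * NNReal.pi := by
  exact Complex.volume_closedBall 0 r

/-- Bound for the inner integral over `u`. -/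
lemma lintegral_u_le {Φ : ℂ → ℝ≥0∞} (hΦ : Measurable Φ) {r₁ r₂ r₃ K : ℝ} {F : ℂ × ℂ → ℂ}
    (hF : Fr r₁ r₂ r₃ K F) {Y : ℝ} {z : ℂ × ℂ} (hz : z.1 ≠ 0)
    (hY : r₂ * ‖z.2‖ + r₃ * ‖z.1‖ ≤ Y) :
    ∫⁻ u : ℂ × ℂ, Φ (dt u z) * ‖F u‖ₑ ≤
      ENNReal.ofReal K * (ENNReal.ofReal r₂ ^ 2 * NNReal.pi) *
        (ENNReal.ofReal ((‖z.1‖ ^ 2)⁻¹) * ∫⁻ y in Metric.closedBall (0 : ℂ) Y, Φ y) := by
  classical
  have hpt : ∀ u : ℂ × ℂ, Φ (dt u z) * ‖F u‖ₑ ≤
      (Metric.closedBall (0 : ℂ) r₂).indicator (fun _ => ENNReal.ofReal K) u.1 *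
        (Metric.closedBall (0 : ℂ) Y).indicator Φ (dt u z) := by
    intro u
    by_cases h0 : F u = 0
    · simp [h0]
    · obtain ⟨h1, h2, h3⟩ := hF.supp u h0
      have hu1 : u.1 ∈ Metric.closedBall (0 : ℂ) r₂ := by simpa using h2
      have hdt : dt u z ∈ Metric.closedBall (0 : ℂ) Y := by
        simp only [mem_closedBall_zero_iff]
        refine (norm_dt_le u z).trans (le_trans ?_ hY)
        gcongr
      rw [indicator_of_mem hu1, indicator_of_mem hdt, mul_comm]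
      gcongr
      rw [← ofReal_norm]
      exact ENNReal.ofReal_le_ofReal (hF.bd u)
  have hm1 : Measurable fun u : ℂ × ℂ =>
      (Metric.closedBall (0 : ℂ) r₂).indicator (fun _ => ENNReal.ofReal K) u.1 *
        (Metric.closedBall (0 : ℂ) Y).indicator Φ (dt u z) := by
    apply Measurable.mul
    · exact (measurable_const.indicator Metric.isClosed_closedBall.measurableSet).comp
        measurable_fst
    · refine (hΦ.indicator Metric.isClosed_closedBall.measurableSet).comp ?_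
      unfold dt
      fun_prop
  calc ∫⁻ u : ℂ × ℂ, Φ (dt u z) * ‖F u‖ₑ
      ≤ ∫⁻ u : ℂ × ℂ, (Metric.closedBall (0 : ℂ) r₂).indicator (fun _ => ENNReal.ofReal K) u.1 *
        (Metric.closedBall (0 : ℂ) Y).indicator Φ (dt u z) := lintegral_mono hpt
    _ = ∫⁻ x : ℂ, ∫⁻ y : ℂ,
        (Metric.closedBall (0 : ℂ) r₂).indicator (fun _ => ENNReal.ofReal K) x *
        (Metric.closedBall (0 : ℂ) Y).indicator Φ (dt (x, y) z) := by
        rw [Measure.volume_eq_prod, lintegral_prod _ hm1.aemeasurable]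
    _ = ∫⁻ x : ℂ, (Metric.closedBall (0 : ℂ) r₂).indicator (fun _ => ENNReal.ofReal K) x *
          (ENNReal.ofReal ((‖z.1‖ ^ 2)⁻¹) * ∫⁻ y in Metric.closedBall (0 : ℂ) Y, Φ y) := by
        congr 1
        ext x
        rw [lintegral_const_mul' _ _ (by
          by_cases hx : x ∈ Metric.closedBall (0 : ℂ) r₂
          · rw [indicator_of_mem hx]; exact ENNReal.ofReal_ne_top
          · rw [indicator_of_notMem hx]; exact ENNReal.zero_ne_top)]
        congr 1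
        have := lintegral_affine hz (x * z.2) ((Metric.closedBall (0 : ℂ) Y).indicator Φ)
        rw [lintegral_indicator Metric.isClosed_closedBall.measurableSet] at this
        exact this
    _ = ENNReal.ofReal K * (ENNReal.ofReal r₂ ^ 2 * NNReal.pi) *
        (ENNReal.ofReal ((‖z.1‖ ^ 2)⁻¹) * ∫⁻ y in Metric.closedBall (0 : ℂ) Y, Φ y) := by
        rw [lintegral_mul_const _
          (measurable_const.indicator Metric.isClosed_closedBall.measurableSet)]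
        rw [lintegral_indicator_const Metric.isClosed_closedBall.measurableSet,
          volume_closedBall_C]

/-- Bound for the double integral. -/
lemma lintegral_dt_le {Φ : ℂ → ℝ≥0∞} (hΦ : Measurable Φ) {r₁ r₂ r₃ K : ℝ} {F : ℂ × ℂ → ℂ}
    (hF : Fr r₁ r₂ r₃ K F) {s₁ s₂ s₃ L : ℝ} {F' : ℂ × ℂ → ℂ} (hF' : Fr s₁ s₂ s₃ L F')
    (hs₁ : 0 < s₁) (hr₂ : 0 ≤ r₂) (hr₃ : 0 ≤ r₃) {Y : ℝ} (hY : r₂ * s₃ + r₃ * s₂ ≤ Y) :
    ∫⁻ z : ℂ × ℂ, (∫⁻ u : ℂ × ℂ, Φ (dt u z) * ‖F u‖ₑ) * ‖F' z‖ₑ ≤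
      ENNReal.ofReal K * (ENNReal.ofReal r₂ ^ 2 * NNReal.pi) *
        (ENNReal.ofReal ((s₁ ^ 2)⁻¹) * ∫⁻ y in Metric.closedBall (0 : ℂ) Y, Φ y) *
        (ENNReal.ofReal L * ((ENNReal.ofReal s₂ ^ 2 * NNReal.pi) *
          (ENNReal.ofReal s₃ ^ 2 * NNReal.pi))) := by
  classical
  set C : ℝ≥0∞ := ENNReal.ofReal K * (ENNReal.ofReal r₂ ^ 2 * NNReal.pi) *
        (ENNReal.ofReal ((s₁ ^ 2)⁻¹) * ∫⁻ y in Metric.closedBall (0 : ℂ) Y, Φ y) with hC
  have hms : MeasurableSet ((Metric.closedBall (0 : ℂ) s₂) ×ˢ (Metric.closedBall (0 : ℂ) s₃)) :=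
    Metric.isClosed_closedBall.measurableSet.prod Metric.isClosed_closedBall.measurableSet
  have hpt : ∀ z : ℂ × ℂ, (∫⁻ u : ℂ × ℂ, Φ (dt u z) * ‖F u‖ₑ) * ‖F' z‖ₑ ≤
      C * (((Metric.closedBall (0 : ℂ) s₂) ×ˢ (Metric.closedBall (0 : ℂ) s₃)).indicator
        (fun _ => ENNReal.ofReal L) z) := by
    intro z
    by_cases h0 : F' z = 0
    · simp [h0]
    · obtain ⟨h1, h2, h3⟩ := hF'.supp z h0
      have hz1 : z.1 ≠ 0 := by
        intro h; rw [h, norm_zero] at h1; linarith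
      have hzmem : z ∈ (Metric.closedBall (0 : ℂ) s₂) ×ˢ (Metric.closedBall (0 : ℂ) s₃) := by
        simp only [mem_prod, mem_closedBall_zero_iff]
        exact ⟨h2, h3⟩
      rw [indicator_of_mem hzmem]
      have hle : ENNReal.ofReal ((‖z.1‖ ^ 2)⁻¹) ≤ ENNReal.ofReal ((s₁ ^ 2)⁻¹) := by
        apply ENNReal.ofReal_le_ofReal
        gcongr
      have hYz : r₂ * ‖z.2‖ + r₃ * ‖z.1‖ ≤ Y := le_trans (by gcongr) hY
      have := lintegral_u_le hΦ hF hz1 hYz
      gcongr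
      · refine this.trans ?_
        rw [hC]
        gcongr
      · rw [← ofReal_norm]
        exact ENNReal.ofReal_le_ofReal (hF'.bd z)
  calc ∫⁻ z : ℂ × ℂ, (∫⁻ u : ℂ × ℂ, Φ (dt u z) * ‖F u‖ₑ) * ‖F' z‖ₑ
      ≤ ∫⁻ z : ℂ × ℂ, C * (((Metric.closedBall (0 : ℂ) s₂) ×ˢ
          (Metric.closedBall (0 : ℂ) s₃)).indicator (fun _ => ENNReal.ofReal L) z) :=
        lintegral_mono hpt
    _ = C * (ENNReal.ofReal L * ((ENNReal.ofReal s₂ ^ 2 * NNReal.pi) *
          (ENNReal.ofReal s₃ ^ 2 * NNReal.pi))) := by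
        rw [lintegral_const_mul _ (measurable_const.indicator hms),
          lintegral_indicator_const hms, Measure.volume_eq_prod, Measure.prod_prod,
          volume_closedBall_C, volume_closedBall_C]

lemma dt_swap (u z : ℂ × ℂ) : dt z u = - dt u z := by
  unfold dt; ring

/-! ## The majorant `mm` -/

/-- `min (D^(-4/3)) (D^(-2+τ))`, where `0 < τ < 2/3`. -/
def mm (τ D : ℝ) : ℝ := min (D ^ (-(4 / 3) : ℝ)) (D ^ (-2 + τ))

lemma mm_nonneg {τ D : ℝ} (hD : 0 ≤ D) : 0 ≤ mm τ D := by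
  unfold mm; positivity

lemma mm_zero {τ : ℝ} (hτ : τ < 2 / 3) : mm τ 0 = 0 := by
  unfold mm
  rw [Real.zero_rpow (by norm_num), Real.zero_rpow (by linarith), min_self]

lemma mm_of_le_one {τ D : ℝ} (hτ : τ < 2 / 3) (h0 : 0 < D) (h1 : D ≤ 1) :
    mm τ D = D ^ (-(4 / 3) : ℝ) := by
  unfold mm
  apply min_eq_left
  exact Real.rpow_le_rpow_of_exponent_ge h0 h1 (by linarith)

lemma mm_of_one_le {τ D : ℝ} (hτ : τ < 2 / 3) (h1 : 1 ≤ D) : mm τ D = D ^ (-2 + τ) := by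
  unfold mm
  apply min_eq_right
  exact Real.rpow_le_rpow_of_exponent_le h1 (by linarith)

lemma measurable_mm {τ : ℝ} : Measurable (mm τ) := by
  unfold mm; fun_prop

/-- `∫_{‖y‖ ≤ Y} mm τ ‖y‖ ≤ 2π (3/2 + 1/τ) Y^τ` for `Y ≥ 1`. -/
lemma lintegral_mm_le {τ Y : ℝ} (hτ0 : 0 < τ) (hτ : τ < 2 / 3) (hY : 1 ≤ Y) :
    ∫⁻ y in Metric.closedBall (0 : ℂ) Y, ENNReal.ofReal (mm τ ‖y‖) ≤
      ENNReal.ofReal (2 * Real.pi * (3 / 2 + 1 / τ) * Y ^ τ) := by
  have hY0 : 0 < Y := by linarith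
  -- the integrand as a radial function
  set f : ℝ → ℝ := (Iic Y).indicator (mm τ) with hf
  have hfn : ∀ y : ℂ, (Metric.closedBall (0 : ℂ) Y).indicator
      (fun y => ENNReal.ofReal (mm τ ‖y‖)) y = ENNReal.ofReal (f ‖y‖) := by
    intro y
    by_cases hy : y ∈ Metric.closedBall (0 : ℂ) Y
    · rw [indicator_of_mem hy, hf, indicator_of_mem]
      simpa using hy
    · rw [indicator_of_notMem hy, hf, indicator_of_notMem]
      · simp
      · simpa using hy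
  have hrr : ∀ (r e : ℝ), 0 < r → r * r ^ e = r ^ (1 + e) := by
    intro r e hr
    have : r * r ^ e = r ^ (1 : ℝ) * r ^ e := by rw [Real.rpow_one]
    rw [this, ← Real.rpow_add hr]
  have hint1 : IntegrableOn (fun r : ℝ => r ^ (-(1 / 3) : ℝ)) (Ioc 0 1) := by
    have h1 : IntervalIntegrable (fun r : ℝ => r ^ (-(1 / 3) : ℝ)) volume 0 1 :=
      intervalIntegral.intervalIntegrable_rpow' (by norm_num)
    rwa [intervalIntegrable_iff_integrableOn_Ioc_of_le zero_le_one] at h1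
  have hval1 : ∫ r in Ioc (0 : ℝ) 1, r ^ (-(1 / 3) : ℝ) = 3 / 2 := by
    rw [← intervalIntegral.integral_of_le zero_le_one, integral_rpow (Or.inl (by norm_num))]
    norm_num
  have hint2 : IntegrableOn (fun r : ℝ => r ^ (-1 + τ)) (Ioc 1 Y) := by
    have h1 : IntervalIntegrable (fun r : ℝ => r ^ (-1 + τ)) volume 1 Y :=
      intervalIntegral.intervalIntegrable_rpow' (by linarith)
    rwa [intervalIntegrable_iff_integrableOn_Ioc_of_le hY] at h1
  have hval2 : ∫ r in Ioc (1 : ℝ) Y, r ^ (-1 + τ) = (Y ^ τ - 1) / τ := by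
    rw [← intervalIntegral.integral_of_le hY, integral_rpow (Or.inl (by linarith))]
    congr 1
    · rw [Real.one_rpow]; congr 2; ring
    · ring
  have hsplit : Ioc (0 : ℝ) Y = Ioc 0 1 ∪ Ioc 1 Y := (Ioc_union_Ioc_eq_Ioc zero_le_one hY).symm
  have heq1 : EqOn (fun r : ℝ => r * mm τ r) (fun r : ℝ => r ^ (-(1 / 3) : ℝ)) (Ioc 0 1) := by
    intro r hr
    simp only
    rw [mm_of_le_one hτ hr.1 hr.2, hrr _ _ hr.1]
    norm_num
  have heq2 : EqOn (fun r : ℝ => r * mm τ r) (fun r : ℝ => r ^ (-1 + τ)) (Ioc 1 Y) := by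
    intro r hr
    simp only
    have hr1 : 1 ≤ r := hr.1.le
    have hr0 : 0 < r := by linarith
    rw [mm_of_one_le hτ hr1, hrr _ _ hr0]
    congr 1
    ring
  have hI : IntegrableOn (fun r : ℝ => r * mm τ r) (Ioc 0 Y) := by
    rw [hsplit]
    exact (hint1.congr_fun heq1.symm measurableSet_Ioc).union
      (hint2.congr_fun heq2.symm measurableSet_Ioc)
  have hIv : ∫ r in Ioc (0 : ℝ) Y, r * mm τ r = 3 / 2 + (Y ^ τ - 1) / τ := by
    rw [hsplit, setIntegral_union (by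
      rw [Set.disjoint_left]
      intro x hx hx2
      exact absurd hx.2 (not_le.mpr hx2.1)) measurableSet_Ioc
      (hint1.congr_fun heq1.symm measurableSet_Ioc) (hint2.congr_fun heq2.symm measurableSet_Ioc),
      setIntegral_congr_fun measurableSet_Ioc heq1, setIntegral_congr_fun measurableSet_Ioc heq2,
      hval1, hval2]
  have hcong : EqOn (fun y : ℝ => y ^ (Module.finrank ℝ ℂ - 1) • f y)
      ((Ioc 0 Y).indicator (fun r => r * mm τ r)) (Ioi 0) := by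
    intro r hr
    have hr' : (0 : ℝ) < r := hr
    simp only [Complex.finrank_real_complex, smul_eq_mul]
    by_cases h : r ≤ Y
    · rw [hf, indicator_of_mem (show r ∈ Iic Y from h),
        indicator_of_mem (show r ∈ Ioc 0 Y from ⟨hr', h⟩)]
      norm_num
    · rw [hf, indicator_of_notMem (show r ∉ Iic Y from h),
        indicator_of_notMem (show r ∉ Ioc 0 Y from fun h' => h h'.2)]
      norm_num
  have hIf : IntegrableOn (fun y : ℝ => y ^ (Module.finrank ℝ ℂ - 1) • f y) (Ioi 0) := by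
    rw [integrableOn_congr_fun hcong measurableSet_Ioi]
    exact (hI.integrable_indicator measurableSet_Ioc).integrableOn
  have hint : Integrable (fun y : ℂ => f ‖y‖) :=
    (integrable_fun_norm_addHaar (volume : Measure ℂ)).mpr hIf
  have hval : ∫ y : ℂ, f ‖y‖ = 2 * Real.pi * (3 / 2 + (Y ^ τ - 1) / τ) := by
    rw [integral_fun_norm_addHaar]
    rw [setIntegral_congr_fun measurableSet_Ioi hcong, setIntegral_indicator measurableSet_Ioc]
    have : Ioi (0 : ℝ) ∩ Ioc 0 Y = Ioc 0 Y := by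
      ext x; simp only [mem_inter_iff, mem_Ioi, mem_Ioc]; tauto
    rw [this, hIv]
    have hv : (volume : Measure ℂ).real (Metric.ball 0 1) = Real.pi := by
      rw [Measure.real, Complex.volume_ball]
      simp
    rw [hv, Complex.finrank_real_complex]
    simp only [smul_eq_mul, nsmul_eq_mul]
    push_cast
    ring
  have hfin : 2 * Real.pi * (3 / 2 + (Y ^ τ - 1) / τ) ≤ 2 * Real.pi * (3 / 2 + 1 / τ) * Y ^ τ := by
    rw [mul_assoc (2 * Real.pi)]
    gcongr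
    have hYt : 1 ≤ Y ^ τ := Real.one_le_rpow hY hτ0.le
    have : (3 / 2 + 1 / τ) * Y ^ τ - (3 / 2 + (Y ^ τ - 1) / τ) = 3 / 2 * (Y ^ τ - 1) + 1 / τ := by
      field_simp
      ring
    have h2 : 0 ≤ 3 / 2 * (Y ^ τ - 1) + 1 / τ := by
      have : 0 < 1 / τ := by positivity
      nlinarith
    linarith
  rw [← lintegral_indicator Metric.isClosed_closedBall.measurableSet]
  simp_rw [hfn]
  rw [← ofReal_integral_eq_lintegral_ofReal hint, hval]
  · exact ENNReal.ofReal_le_ofReal hfin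
  refine Filter.Eventually.of_forall (fun y => ?_)
  exact indicator_apply_nonneg (fun _ => mm_nonneg (norm_nonneg y))

end Crest.Agent.R012.Gram858
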