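import Crest.Agent.R012.GramA_858

/-!
# Row 12, item MG (part B): the Gram sum over cubes

* `Lsum P w D = Σ_{m ≠ 0} P m |λm|^(-6) w(D / |λm|^3)`
* `Lsum_bound` : `|Lsum P w D - κ D^(-4/3)| ≤ C mm τ D`, given the lattice sum asymptotics
* `gram_main` : the same, integrated against `F(u) conj F'(z)`, `D = |det(u,z)|`.
-/

set_option autoImplicit false

noncomputable section

open MeasureTheory Set Complex
open scoped ENNReal ComplexConjugate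

namespace Crest.Agent.R012.Gram858

open Crest.Agent.R012.Eis

/-- `‖√3 m‖` -/
def rho3 (m : Eis) : ℝ := Real.sqrt 3 * ‖toC m‖

lemma one_le_norm_toC {m : Eis} (hm : m ≠ 0) : 1 ≤ ‖toC m‖ := by
  have h1 : ‖toC m‖ ^ 2 = nm m := norm_toC_sq m
  have h2 : (1 : ℝ) ≤ nm m := by exact_mod_cast nm_pos.mpr hm
  nlinarith [norm_nonneg (toC m)]

lemma one_lt_sqrt3 : (1 : ℝ) < Real.sqrt 3 := by
  rw [Real.lt_sqrt (by norm_num)]; norm_num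

lemma one_lt_rho3 {m : Eis} (hm : m ≠ 0) : 1 < rho3 m := by
  unfold rho3
  have := one_le_norm_toC hm
  have := one_lt_sqrt3
  nlinarith

lemma rho3_pos {m : Eis} (hm : m ≠ 0) : 0 < rho3 m := lt_trans one_pos (one_lt_rho3 hm)

lemma rho3_nonneg (m : Eis) : 0 ≤ rho3 m := by unfold rho3; positivity

/-- The radial profile `r ↦ r^(-6) w(r^(-3))`. -/
def gr (w : ℝ → ℝ) (r : ℝ) : ℝ := (r ^ 6)⁻¹ * w ((r ^ 3)⁻¹)

/-- The general term of the cube sum. -/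
def Lterm (P : Eis → ℂ) (w : ℝ → ℝ) (D : ℝ) (m : Eis) : ℂ :=
  if m = 0 then 0 else P m * (((rho3 m ^ 6)⁻¹ * w (D / rho3 m ^ 3) : ℝ) : ℂ)

/-- The cube sum. -/
def Lsum (P : Eis → ℂ) (w : ℝ → ℝ) (D : ℝ) : ℂ := ∑' m : Eis, Lterm P w D m

/-- Hypothesis on the coefficients: lattice sum asymptotics for the profile `gr w`. -/
def LatHyp (P : Eis → ℂ) (w : ℝ → ℝ) (κ : ℂ) (C₀ τ : ℝ) : Prop :=
  ∀ S : ℝ, 0 < S →
    ‖(∑' m : Eis, if m = 0 then (0 : ℂ) else P m * ((gr w (rho3 m / S) : ℝ) : ℂ)) - κ * (S : ℂ) ^ 2‖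
      ≤ C₀ * (1 + S) ^ (3 * τ)

lemma Lterm_scale (P : Eis → ℂ) (w : ℝ → ℝ) {S : ℝ} (hS : 0 < S) (m : Eis) :
    Lterm P w (S ^ 3) m = (((S ^ 6)⁻¹ : ℝ) : ℂ) *
      (if m = 0 then (0 : ℂ) else P m * ((gr w (rho3 m / S) : ℝ) : ℂ)) := by
  unfold Lterm gr
  split_ifs with h
  · simp
  · have hr := rho3_pos h
    have h1 : ((rho3 m / S) ^ 3)⁻¹ = S ^ 3 / rho3 m ^ 3 := by
      rw [div_pow, inv_div]
    have h2 : (S ^ 6)⁻¹ * ((rho3 m / S) ^ 6)⁻¹ = (rho3 m ^ 6)⁻¹ := by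
      rw [div_pow]
      field_simp
    rw [h1, ← h2]
    push_cast
    ring

lemma Lterm_eq_zero (P : Eis → ℂ) {w : ℝ → ℝ} {α : ℝ} (hw : ∀ x < α, w x = 0) {D : ℝ}
    {m : Eis} (h : D / rho3 m ^ 3 < α) : Lterm P w D m = 0 := by
  unfold Lterm
  split_ifs with h0
  · rfl
  · rw [hw _ h]; simp

lemma rho3_cube_ge {m : Eis} (hm : m ≠ 0) : (nm m : ℝ) ≤ rho3 m ^ 3 ∧ 1 ≤ rho3 m ^ 3 := by
  have h1 : ‖toC m‖ ^ 2 = nm m := norm_toC_sq m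
  have h2 := one_le_norm_toC hm
  have h3 := one_lt_sqrt3
  have h4 : ‖toC m‖ ≤ rho3 m := by unfold rho3; nlinarith
  have h5 := one_lt_rho3 hm
  constructor
  · rw [← h1]
    calc ‖toC m‖ ^ 2 ≤ rho3 m ^ 2 := by gcongr
      _ ≤ rho3 m ^ 3 := pow_le_pow_right₀ h5.le (by norm_num)
  · exact one_le_pow₀ h5.le

lemma Lsum_eq_zero (P : Eis → ℂ) {w : ℝ → ℝ} {α : ℝ} (hw : ∀ x < α, w x = 0)
    {D : ℝ} (hD0 : 0 ≤ D) (hD : D < α) : Lsum P w D = 0 := by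
  unfold Lsum
  have : ∀ m : Eis, Lterm P w D m = 0 := by
    intro m
    by_cases hm : m = 0
    · simp [Lterm, hm]
    · apply Lterm_eq_zero P hw
      have := (rho3_cube_ge hm).2
      exact lt_of_le_of_lt (div_le_self hD0 this) hD
  simp [this]

/-- (MG1) pointwise bound. -/
theorem Lsum_bound {P : Eis → ℂ} {w : ℝ → ℝ} {κ : ℂ} {C₀ τ α : ℝ} (hL : LatHyp P w κ C₀ τ)
    (hα : 0 < α) (hw : ∀ x < α, w x = 0) (hτ0 : 0 < τ) (hτ : τ < 2 / 3) :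
    ∀ D : ℝ, 0 ≤ D → ‖Lsum P w D - κ * ((D ^ (-(4 / 3) : ℝ) : ℝ) : ℂ)‖ ≤
      (‖κ‖ * (1 + α) ^ (2 / 3 : ℝ) + |C₀| * 4 * (1 + α ^ (-(2 / 3) : ℝ))) * mm τ D := by
  intro D hD0
  have hm0 := mm_nonneg (τ := τ) hD0
  have hαr : 0 < α ^ (-(2 / 3) : ℝ) := by positivity
  rcases hD0.eq_or_lt with h | hDpos
  · rw [← h, mm_zero hτ, Lsum_eq_zero P hw le_rfl hα, Real.zero_rpow (by norm_num)]
    simp
  by_cases hDα : D < α
  · rw [Lsum_eq_zero P hw hD0 hDα, zero_sub, norm_neg, norm_mul, Complex.norm_real,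
      Real.norm_of_nonneg (by positivity)]
    have key : D ^ (-(4 / 3) : ℝ) ≤ (1 + α) ^ (2 / 3 : ℝ) * mm τ D := by
      rcases le_total D 1 with h1 | h1
      · rw [mm_of_le_one hτ hDpos h1]
        have : (1 : ℝ) ≤ (1 + α) ^ (2 / 3 : ℝ) := Real.one_le_rpow (by linarith) (by norm_num)
        have h3 : 0 < D ^ (-(4 / 3) : ℝ) := by positivity
        nlinarith
      · rw [mm_of_one_le hτ h1]
        have h4 : D ^ (-(4 / 3) : ℝ) = D ^ (2 / 3 - τ) * D ^ (-2 + τ) := by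
          rw [← Real.rpow_add hDpos]; congr 1; ring
        rw [h4]
        gcongr
        calc D ^ (2 / 3 - τ) ≤ D ^ (2 / 3 : ℝ) :=
              Real.rpow_le_rpow_of_exponent_le h1 (by linarith)
          _ ≤ (1 + α) ^ (2 / 3 : ℝ) := by gcongr; linarith
    calc ‖κ‖ * D ^ (-(4 / 3) : ℝ) ≤ ‖κ‖ * ((1 + α) ^ (2 / 3 : ℝ) * mm τ D) := by gcongr
      _ ≤ _ := by
        have : 0 ≤ |C₀| * 4 * (1 + α ^ (-(2 / 3) : ℝ)) * mm τ D := by positivity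
        nlinarith
  · push Not at hDα
    set S : ℝ := D ^ (1 / 3 : ℝ) with hS
    have hSpos : 0 < S := by positivity
    have hS3 : S ^ 3 = D := by
      rw [hS, ← Real.rpow_natCast, ← Real.rpow_mul hD0]; norm_num
    have hS6 : S ^ 6 = D ^ 2 := by
      rw [← hS3]; ring
    have hS2 : S ^ 2 = D ^ (2 / 3 : ℝ) := by
      rw [hS, ← Real.rpow_natCast, ← Real.rpow_mul hD0]; norm_num
    have h1 : Lsum P w D = (((S ^ 6)⁻¹ : ℝ) : ℂ) *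
        (∑' m : Eis, if m = 0 then (0 : ℂ) else P m * ((gr w (rho3 m / S) : ℝ) : ℂ)) := by
      unfold Lsum
      rw [← tsum_mul_left]
      congr 1
      ext m
      rw [← Lterm_scale P w hSpos m, hS3]
    have h2 : ((D ^ (-(4 / 3) : ℝ) : ℝ) : ℂ) = (((S ^ 6)⁻¹ : ℝ) : ℂ) * (S : ℂ) ^ 2 := by
      have : D ^ (-(4 / 3) : ℝ) = (S ^ 6)⁻¹ * S ^ 2 := by
        rw [hS6, hS2, ← Real.rpow_natCast, ← Real.rpow_neg hD0, ← Real.rpow_add hDpos]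
        norm_num
      rw [this]; push_cast; ring
    have h3 : Lsum P w D - κ * ((D ^ (-(4 / 3) : ℝ) : ℝ) : ℂ) = (((S ^ 6)⁻¹ : ℝ) : ℂ) *
        ((∑' m : Eis, if m = 0 then (0 : ℂ) else P m * ((gr w (rho3 m / S) : ℝ) : ℂ))
          - κ * (S : ℂ) ^ 2) := by
      rw [h1, h2]; ring
    rw [h3, norm_mul, Complex.norm_real, Real.norm_of_nonneg (by positivity)]
    have h4 := hL S hSpos
    have h5 : C₀ * (1 + S) ^ (3 * τ) ≤ |C₀| * (1 + S) ^ (3 * τ) := by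
      gcongr; exact le_abs_self _
    have key : (S ^ 6)⁻¹ * (1 + S) ^ (3 * τ) ≤ 4 * (1 + α ^ (-(2 / 3) : ℝ)) * mm τ D := by
      have h6 : (S ^ 6)⁻¹ = D ^ (-2 : ℝ) := by
        rw [hS6, Real.rpow_neg hD0]; norm_num
      have h2t : (2 : ℝ) ^ (3 * τ) ≤ 4 := by
        calc (2 : ℝ) ^ (3 * τ) ≤ (2 : ℝ) ^ (2 : ℝ) :=
              Real.rpow_le_rpow_of_exponent_le (by norm_num) (by linarith)
          _ = 4 := by norm_num
      rw [h6]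
      rcases le_total D 1 with hD1 | hD1
      · rw [mm_of_le_one hτ hDpos hD1]
        have hS1 : S ≤ 1 := Real.rpow_le_one hD0 hD1 (by norm_num)
        have h7 : (1 + S) ^ (3 * τ) ≤ 4 := by
          calc (1 + S) ^ (3 * τ) ≤ (2 : ℝ) ^ (3 * τ) := by gcongr; linarith
            _ ≤ 4 := h2t
        have h8 : D ^ (-2 : ℝ) = D ^ (-(2 / 3) : ℝ) * D ^ (-(4 / 3) : ℝ) := by
          rw [← Real.rpow_add hDpos]; norm_num
        have h9 : D ^ (-(2 / 3) : ℝ) ≤ α ^ (-(2 / 3) : ℝ) :=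
          Real.rpow_le_rpow_of_nonpos hα hDα (by norm_num)
        have h10 : 0 < D ^ (-(4 / 3) : ℝ) := by positivity
        calc D ^ (-2 : ℝ) * (1 + S) ^ (3 * τ) ≤ D ^ (-2 : ℝ) * 4 := by gcongr
          _ = 4 * (D ^ (-(2 / 3) : ℝ)) * D ^ (-(4 / 3) : ℝ) := by rw [h8]; ring
          _ ≤ 4 * (1 + α ^ (-(2 / 3) : ℝ)) * D ^ (-(4 / 3) : ℝ) := by gcongr; linarith
      · rw [mm_of_one_le hτ hD1]
        have hS1 : 1 ≤ S := Real.one_le_rpow hD1 (by norm_num)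
        have h7 : (1 + S) ^ (3 * τ) ≤ 4 * D ^ τ := by
          calc (1 + S) ^ (3 * τ) ≤ (2 * S) ^ (3 * τ) := by gcongr; linarith
            _ = 2 ^ (3 * τ) * S ^ (3 * τ) := Real.mul_rpow (by norm_num) hSpos.le
            _ = 2 ^ (3 * τ) * D ^ τ := by
              congr 1
              rw [hS, ← Real.rpow_mul hD0]; congr 1; ring
            _ ≤ 4 * D ^ τ := by gcongr
        calc D ^ (-2 : ℝ) * (1 + S) ^ (3 * τ) ≤ D ^ (-2 : ℝ) * (4 * D ^ τ) := by gcongr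
          _ = 4 * D ^ (-2 + τ) := by rw [Real.rpow_add hDpos]; ring
          _ ≤ 4 * (1 + α ^ (-(2 / 3) : ℝ)) * D ^ (-2 + τ) := by
            have : 0 < D ^ (-2 + τ) := by positivity
            nlinarith
    calc (S ^ 6)⁻¹ * ‖(∑' m : Eis, if m = 0 then (0 : ℂ) else
            P m * ((gr w (rho3 m / S) : ℝ) : ℂ)) - κ * (S : ℂ) ^ 2‖
        ≤ (S ^ 6)⁻¹ * (|C₀| * (1 + S) ^ (3 * τ)) := by gcongr; exact h4.trans h5
      _ = |C₀| * ((S ^ 6)⁻¹ * (1 + S) ^ (3 * τ)) := by ring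
      _ ≤ |C₀| * (4 * (1 + α ^ (-(2 / 3) : ℝ)) * mm τ D) := by gcongr
      _ ≤ _ := by
        have : 0 ≤ ‖κ‖ * (1 + α) ^ (2 / 3 : ℝ) * mm τ D := by positivity
        nlinarith

/-! ## Integrals against test functions -/

/-- The measure space of frames. -/
abbrev X2 : Type := (ℂ × ℂ) × (ℂ × ℂ)

/-- `F(u) conj F'(z)`. -/
def FF (F F' : ℂ × ℂ → ℂ) (p : X2) : ℂ := F p.1 * conj (F' p.2)

lemma measurable_FF {F F' : ℂ × ℂ → ℂ} (hF : Measurable F) (hF' : Measurable F') :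
    Measurable (FF F F') := by
  unfold FF
  exact (hF.comp measurable_fst).mul
    (Complex.continuous_conj.measurable.comp (hF'.comp measurable_snd))

lemma measurable_dt : Measurable fun p : X2 => dt p.1 p.2 := continuous_dt.measurable

lemma norm_dt_le_of {r₁ r₂ r₃ K s₁ s₂ s₃ L Y : ℝ} {F F' : ℂ × ℂ → ℂ}
    (hF : Fr r₁ r₂ r₃ K F) (hF' : Fr s₁ s₂ s₃ L F') (hY : r₂ * s₃ + r₃ * s₂ ≤ Y)
    {p : X2} (hp : FF F F' p ≠ 0) : ‖dt p.1 p.2‖ ≤ Y := by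
  have h1 : F p.1 ≠ 0 := fun h => hp (by simp [FF, h])
  have h2 : F' p.2 ≠ 0 := fun h => hp (by simp [FF, h])
  obtain ⟨a1, a2, a3⟩ := hF.supp _ h1
  obtain ⟨b1, b2, b3⟩ := hF'.supp _ h2
  have hr2 : 0 ≤ r₂ := (norm_nonneg _).trans a2
  have hr3 : 0 ≤ r₃ := (norm_nonneg _).trans a3
  refine (norm_dt_le _ _).trans (le_trans ?_ hY)
  gcongr

/-- lintegral over the product. -/
lemma lintegral_X2 {Φ : ℂ → ℝ≥0∞} (hΦ : Measurable Φ) {F F' : ℂ × ℂ → ℂ} (hF : Measurable F)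
    (hF' : Measurable F') :
    ∫⁻ p : X2, Φ (dt p.1 p.2) * ‖FF F F' p‖ₑ =
      ∫⁻ z : ℂ × ℂ, (∫⁻ u : ℂ × ℂ, Φ (dt u z) * ‖F u‖ₑ) * ‖F' z‖ₑ := by
  have hm : Measurable fun p : X2 => Φ (dt p.1 p.2) * ‖FF F F' p‖ₑ :=
    (hΦ.comp measurable_dt).mul (measurable_FF hF hF').enorm
  rw [Measure.volume_eq_prod, lintegral_prod_symm _ hm.aemeasurable]
  congr 1
  ext z
  rw [← lintegral_mul_const']
  · congr 1
    ext u
    simp only [FF]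
    rw [enorm_mul, mul_assoc]
    congr 2
    rw [← ofReal_norm, ← ofReal_norm]
    simp
  · exact enorm_ne_top

/-- The constant in the Gram bounds. -/
def gc (r₂ K s₁ s₂ s₃ L : ℝ) : ℝ := Real.pi ^ 3 * (K * L * r₂ ^ 2 * s₂ ^ 2 * s₃ ^ 2 / s₁ ^ 2)

lemma lintegral_mm_X2 {r₁ r₂ r₃ K s₁ s₂ s₃ L Y τ : ℝ} {F F' : ℂ × ℂ → ℂ}
    (hF : Fr r₁ r₂ r₃ K F) (hF' : Fr s₁ s₂ s₃ L F') (hs₁ : 0 < s₁) (hK : 0 ≤ K) (hL : 0 ≤ L)
    (hr₂ : 0 ≤ r₂) (hr₃ : 0 ≤ r₃) (hs₂ : 0 ≤ s₂) (hs₃ : 0 ≤ s₃)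
    (hY1 : 1 ≤ Y) (hY : r₂ * s₃ + r₃ * s₂ ≤ Y) (hτ0 : 0 < τ) (hτ : τ < 2 / 3) :
    ∫⁻ p : X2, ENNReal.ofReal (mm τ ‖dt p.1 p.2‖) * ‖FF F F' p‖ₑ ≤
      ENNReal.ofReal (gc r₂ K s₁ s₂ s₃ L * (2 * Real.pi * (3 / 2 + 1 / τ) * Y ^ τ)) := by
  have hΦ : Measurable fun y : ℂ => ENNReal.ofReal (mm τ ‖y‖) :=
    (measurable_mm.comp measurable_norm).ennreal_ofReal
  rw [lintegral_X2 hΦ hF.meas hF'.meas]
  refine (lintegral_dt_le hΦ hF hF' hs₁ hr₂ hr₃ hY).trans ?_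
  have hpi : (NNReal.pi : ℝ≥0∞) = ENNReal.ofReal Real.pi := by
    rw [← NNReal.coe_real_pi, ENNReal.ofReal_coe_nnreal]
  have hY0 : 0 ≤ Y := by linarith
  calc ENNReal.ofReal K * (ENNReal.ofReal r₂ ^ 2 * NNReal.pi) *
        (ENNReal.ofReal ((s₁ ^ 2)⁻¹) *
          ∫⁻ y in Metric.closedBall (0 : ℂ) Y, ENNReal.ofReal (mm τ ‖y‖)) *
        (ENNReal.ofReal L * ((ENNReal.ofReal s₂ ^ 2 * NNReal.pi) *
          (ENNReal.ofReal s₃ ^ 2 * NNReal.pi)))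
      ≤ ENNReal.ofReal K * (ENNReal.ofReal r₂ ^ 2 * NNReal.pi) *
        (ENNReal.ofReal ((s₁ ^ 2)⁻¹) *
          ENNReal.ofReal (2 * Real.pi * (3 / 2 + 1 / τ) * Y ^ τ)) *
        (ENNReal.ofReal L * ((ENNReal.ofReal s₂ ^ 2 * NNReal.pi) *
          (ENNReal.ofReal s₃ ^ 2 * NNReal.pi))) := by
        gcongr
        exact lintegral_mm_le hτ0 hτ hY1
    _ = ENNReal.ofReal (gc r₂ K s₁ s₂ s₃ L * (2 * Real.pi * (3 / 2 + 1 / τ) * Y ^ τ)) := by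
        rw [hpi]
        rw [← ENNReal.ofReal_pow hr₂, ← ENNReal.ofReal_pow hs₂, ← ENNReal.ofReal_pow hs₃]
        rw [← ENNReal.ofReal_mul (by positivity), ← ENNReal.ofReal_mul (by positivity),
          ← ENNReal.ofReal_mul (by positivity), ← ENNReal.ofReal_mul (by positivity),
          ← ENNReal.ofReal_mul (by positivity), ← ENNReal.ofReal_mul (by positivity),
          ← ENNReal.ofReal_mul (by positivity), ← ENNReal.ofReal_mul (by positivity),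
          ← ENNReal.ofReal_mul (by positivity)]
        congr 1
        unfold gc
        field_simp

lemma rpow_le_mm {τ D Y : ℝ} (hD0 : 0 ≤ D) (hDY : D ≤ Y) (hY : 1 ≤ Y) (hτ : τ < 2 / 3) :
    D ^ (-(4 / 3) : ℝ) ≤ Y ^ (2 / 3 - τ) * mm τ D := by
  have hY0 : 0 < Y := by linarith
  rcases hD0.eq_or_lt with h | h
  · rw [← h, mm_zero hτ, Real.zero_rpow (by norm_num)]; simp
  rcases le_total D 1 with h1 | h1
  · rw [mm_of_le_one hτ h h1]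
    have : (1 : ℝ) ≤ Y ^ (2 / 3 - τ) := Real.one_le_rpow hY (by linarith)
    have h3 : 0 < D ^ (-(4 / 3) : ℝ) := by positivity
    nlinarith
  · rw [mm_of_one_le hτ h1]
    have h4 : D ^ (-(4 / 3) : ℝ) = D ^ (2 / 3 - τ) * D ^ (-2 + τ) := by
      rw [← Real.rpow_add h]; congr 1; ring
    rw [h4]
    gcongr

/-- Integrability criterion. -/
lemma integrable_of_bound {r₁ r₂ r₃ K s₁ s₂ s₃ L Y τ : ℝ} {F F' : ℂ × ℂ → ℂ}
    (hF : Fr r₁ r₂ r₃ K F) (hF' : Fr s₁ s₂ s₃ L F') (hs₁ : 0 < s₁) (hK : 0 ≤ K) (hL : 0 ≤ L)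
    (hr₂ : 0 ≤ r₂) (hr₃ : 0 ≤ r₃) (hs₂ : 0 ≤ s₂) (hs₃ : 0 ≤ s₃)
    (hY1 : 1 ≤ Y) (hY : r₂ * s₃ + r₃ * s₂ ≤ Y) (hτ0 : 0 < τ) (hτ : τ < 2 / 3)
    {g : ℝ → ℂ} (hg : Measurable g) {C : ℝ} (hC : 0 ≤ C)
    (hgb : ∀ D, 0 ≤ D → D ≤ Y → ‖g D‖ ≤ C * mm τ D) :
    Integrable (fun p : X2 => g ‖dt p.1 p.2‖ * FF F F' p) ∧
    ‖∫ p : X2, g ‖dt p.1 p.2‖ * FF F F' p‖ ≤
      C * (gc r₂ K s₁ s₂ s₃ L * (2 * Real.pi * (3 / 2 + 1 / τ) * Y ^ τ)) := by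
  have hm : Measurable fun p : X2 => g ‖dt p.1 p.2‖ * FF F F' p :=
    (hg.comp (measurable_norm.comp measurable_dt)).mul (measurable_FF hF.meas hF'.meas)
  have hpt : ∀ p : X2, ‖g ‖dt p.1 p.2‖ * FF F F' p‖ₑ ≤
      ENNReal.ofReal C * (ENNReal.ofReal (mm τ ‖dt p.1 p.2‖) * ‖FF F F' p‖ₑ) := by
    intro p
    by_cases hp : FF F F' p = 0
    · simp [hp]
    · have hY' := norm_dt_le_of hF hF' hY hp
      rw [enorm_mul, ← mul_assoc, ← ENNReal.ofReal_mul hC]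
      gcongr
      rw [← ofReal_norm]
      exact ENNReal.ofReal_le_ofReal (hgb _ (norm_nonneg _) hY')
  have hgc : 0 ≤ gc r₂ K s₁ s₂ s₃ L := by unfold gc; positivity
  have hY0 : 0 ≤ Y := by linarith
  have hlin : ∫⁻ p : X2, ‖g ‖dt p.1 p.2‖ * FF F F' p‖ₑ ≤
      ENNReal.ofReal (C * (gc r₂ K s₁ s₂ s₃ L * (2 * Real.pi * (3 / 2 + 1 / τ) * Y ^ τ))) := by
    calc ∫⁻ p : X2, ‖g ‖dt p.1 p.2‖ * FF F F' p‖ₑ
        ≤ ∫⁻ p : X2, ENNReal.ofReal C *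
          (ENNReal.ofReal (mm τ ‖dt p.1 p.2‖) * ‖FF F F' p‖ₑ) := lintegral_mono hpt
      _ = ENNReal.ofReal C * ∫⁻ p : X2, ENNReal.ofReal (mm τ ‖dt p.1 p.2‖) * ‖FF F F' p‖ₑ :=
          lintegral_const_mul' _ _ ENNReal.ofReal_ne_top
      _ ≤ ENNReal.ofReal C * ENNReal.ofReal (gc r₂ K s₁ s₂ s₃ L *
            (2 * Real.pi * (3 / 2 + 1 / τ) * Y ^ τ)) := by
          gcongr
          exact lintegral_mm_X2 hF hF' hs₁ hK hL hr₂ hr₃ hs₂ hs₃ hY1 hY hτ0 hτ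
      _ = _ := (ENNReal.ofReal_mul hC).symm
  refine ⟨⟨hm.aestronglyMeasurable, lt_of_le_of_lt hlin ENNReal.ofReal_lt_top⟩, ?_⟩
  have h1 := enorm_integral_le_lintegral_enorm (fun p : X2 => g ‖dt p.1 p.2‖ * FF F F' p)
    (μ := volume)
  have h2 := h1.trans hlin
  rw [← ofReal_norm, ENNReal.ofReal_le_ofReal_iff (by positivity)] at h2
  exact h2

/-- (MG3) the Gram sum, integrated against test functions. -/
theorem gram_main {P : Eis → ℂ} {w : ℝ → ℝ} (hwm : Measurable w) {W₀ : ℝ} (hwb : ∀ x, |w x| ≤ W₀)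
    {κ : ℂ} {C₀ τ α : ℝ} (hL : LatHyp P w κ C₀ τ)
    (hα : 0 < α) (hw : ∀ x < α, w x = 0) (hτ0 : 0 < τ) (hτ : τ < 2 / 3)
    {r₁ r₂ r₃ K s₁ s₂ s₃ L Y : ℝ} {F F' : ℂ × ℂ → ℂ}
    (hF : Fr r₁ r₂ r₃ K F) (hF' : Fr s₁ s₂ s₃ L F') (hs₁ : 0 < s₁) (hK : 0 ≤ K) (hLL : 0 ≤ L)
    (hr₂ : 0 ≤ r₂) (hr₃ : 0 ≤ r₃) (hs₂ : 0 ≤ s₂) (hs₃ : 0 ≤ s₃)
    (hY1 : 1 ≤ Y) (hY : r₂ * s₃ + r₃ * s₂ ≤ Y) :
    ‖(∑' m : Eis, if m = 0 then (0 : ℂ) else P m * (((rho3 m ^ 6)⁻¹ : ℝ) : ℂ) *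
        ∫ p : X2, ((w (‖dt p.1 p.2‖ / rho3 m ^ 3) : ℝ) : ℂ) * FF F F' p) -
      κ * ∫ p : X2, ((‖dt p.1 p.2‖ ^ (-(4 / 3) : ℝ) : ℝ) : ℂ) * FF F F' p‖ ≤
      (‖κ‖ * (1 + α) ^ (2 / 3 : ℝ) + |C₀| * 4 * (1 + α ^ (-(2 / 3) : ℝ))) *
        (gc r₂ K s₁ s₂ s₃ L * (2 * Real.pi * (3 / 2 + 1 / τ) * Y ^ τ)) := by
  have hY0 : 0 < Y := by linarith
  have hW₀ : 0 ≤ W₀ := (abs_nonneg _).trans (hwb 0)
  set C₁ : ℝ := ‖κ‖ * (1 + α) ^ (2 / 3 : ℝ) + |C₀| * 4 * (1 + α ^ (-(2 / 3) : ℝ)) with hC₁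
  have hC₁0 : 0 ≤ C₁ := by rw [hC₁]; positivity
  -- the finite set of relevant `m`
  set N : ℕ := ⌈Y / α⌉₊ with hN
  have hvan : ∀ m : Eis, m ∉ ball N → ∀ D : ℝ, 0 ≤ D → D ≤ Y → D / rho3 m ^ 3 < α := by
    intro m hm D hD0 hDY
    have h1 : N < nm m := by
      rw [mem_ball] at hm; omega
    have hm0 : m ≠ 0 := by
      intro h; rw [h, nm_zero] at h1; omega
    have h2 : Y / α ≤ N := Nat.le_ceil _
    have h3 : (N : ℝ) < nm m := by exact_mod_cast h1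
    have h4 := (rho3_cube_ge hm0).1
    have h5 : Y / α < rho3 m ^ 3 := by linarith
    have h6 : 0 < rho3 m ^ 3 := pow_pos (rho3_pos hm0) 3
    rw [div_lt_iff₀ h6]
    rw [div_lt_iff₀ hα] at h5
    calc D ≤ Y := hDY
      _ < rho3 m ^ 3 * α := h5
      _ = α * rho3 m ^ 3 := mul_comm _ _
  have hFF0 : ∀ p : X2, Y < ‖dt p.1 p.2‖ → FF F F' p = 0 := by
    intro p hp
    by_contra h
    exact absurd (norm_dt_le_of hF hF' hY h) (not_le.mpr hp)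
  have hI0 : ∀ m : Eis, m ∉ ball N →
      ∫ p : X2, ((w (‖dt p.1 p.2‖ / rho3 m ^ 3) : ℝ) : ℂ) * FF F F' p = 0 := by
    intro m hm
    have : ∀ p : X2, ((w (‖dt p.1 p.2‖ / rho3 m ^ 3) : ℝ) : ℂ) * FF F F' p = 0 := by
      intro p
      by_cases hp : Y < ‖dt p.1 p.2‖
      · rw [hFF0 p hp, mul_zero]
      · rw [hw _ (hvan m hm _ (norm_nonneg _) (not_lt.mp hp))]; simp
    simp [this]
  have hsum1 : (∑' m : Eis, if m = 0 then (0 : ℂ) else P m * (((rho3 m ^ 6)⁻¹ : ℝ) : ℂ) *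
        ∫ p : X2, ((w (‖dt p.1 p.2‖ / rho3 m ^ 3) : ℝ) : ℂ) * FF F F' p) =
      ∑ m ∈ ball N, if m = 0 then (0 : ℂ) else P m * (((rho3 m ^ 6)⁻¹ : ℝ) : ℂ) *
        ∫ p : X2, ((w (‖dt p.1 p.2‖ / rho3 m ^ 3) : ℝ) : ℂ) * FF F F' p := by
    apply tsum_eq_sum
    intro m hm
    rw [hI0 m hm]
    split_ifs <;> simp
  have hsumL : ∀ D : ℝ, 0 ≤ D → D ≤ Y → Lsum P w D = ∑ m ∈ ball N, Lterm P w D m := by
    intro D hD0 hDY
    unfold Lsum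
    apply tsum_eq_sum
    intro m hm
    exact Lterm_eq_zero P hw (hvan m hm D hD0 hDY)
  -- integrability of each term
  have hTerm : ∀ m : Eis, Integrable (fun p : X2 => Lterm P w ‖dt p.1 p.2‖ m * FF F F' p) := by
    intro m
    by_cases hm : m = 0
    · simp [Lterm, hm]
    have hr := rho3_pos hm
    have hr3 : 1 ≤ rho3 m ^ 3 := (rho3_cube_ge hm).2
    have hmeas : Measurable fun D : ℝ => Lterm P w D m := by
      unfold Lterm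
      simp only [hm, if_false]
      apply Measurable.const_mul
      apply Complex.measurable_ofReal.comp
      exact (hwm.comp (measurable_id.div_const _)).const_mul _
    -- a lower bound for `mm` on `[α, Y]`
    have hlow : ∀ D : ℝ, α ≤ D → D ≤ Y → min (Y ^ (-(4 / 3) : ℝ)) (Y ^ (-2 + τ)) ≤ mm τ D := by
      intro D hD1 hD2
      have hD0 : 0 < D := lt_of_lt_of_le hα hD1
      unfold mm
      apply min_le_min
      · exact Real.rpow_le_rpow_of_nonpos hD0 hD2 (by norm_num)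
      · exact Real.rpow_le_rpow_of_nonpos hD0 hD2 (by linarith)
    set μ₀ : ℝ := min (Y ^ (-(4 / 3) : ℝ)) (Y ^ (-2 + τ)) with hμ₀
    have hμpos : 0 < μ₀ := by
      rw [hμ₀]; exact lt_min (by positivity) (by positivity)
    refine (integrable_of_bound hF hF' hs₁ hK hLL hr₂ hr₃ hs₂ hs₃ hY1 hY hτ0 hτ hmeas
      (C := ‖P m‖ * ((rho3 m ^ 6)⁻¹ * W₀) / μ₀) (by positivity) ?_).1
    intro D hD0 hDY
    by_cases hDα : D / rho3 m ^ 3 < α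
    · rw [Lterm_eq_zero P hw hDα, norm_zero]
      have := mm_nonneg (τ := τ) hD0
      positivity
    · push Not at hDα
      have hDα' : α ≤ D := hDα.trans (div_le_self hD0 hr3)
      have h1 := hlow D hDα' hDY
      have h2 : ‖Lterm P w D m‖ ≤ ‖P m‖ * ((rho3 m ^ 6)⁻¹ * W₀) := by
        unfold Lterm
        simp only [hm, if_false]
        rw [norm_mul, Complex.norm_real, norm_mul, Real.norm_of_nonneg (by positivity)]
        gcongr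
        exact hwb _
      calc ‖Lterm P w D m‖ ≤ ‖P m‖ * ((rho3 m ^ 6)⁻¹ * W₀) := h2
        _ = ‖P m‖ * ((rho3 m ^ 6)⁻¹ * W₀) / μ₀ * μ₀ := by field_simp
        _ ≤ ‖P m‖ * ((rho3 m ^ 6)⁻¹ * W₀) / μ₀ * mm τ D := by gcongr
  have hstep : (∑ m ∈ ball N, if m = 0 then (0 : ℂ) else P m * (((rho3 m ^ 6)⁻¹ : ℝ) : ℂ) *
        ∫ p : X2, ((w (‖dt p.1 p.2‖ / rho3 m ^ 3) : ℝ) : ℂ) * FF F F' p) =
      ∫ p : X2, ∑ m ∈ ball N, Lterm P w ‖dt p.1 p.2‖ m * FF F F' p := by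
    rw [integral_finsetSum _ (fun m _ => hTerm m)]
    refine Finset.sum_congr rfl (fun m _ => ?_)
    split_ifs with hm
    · simp [Lterm, hm]
    · rw [← integral_const_mul]
      congr 1
      ext p
      simp only [Lterm, hm, if_false]
      push_cast
      ring
  have hpt : ∀ p : X2, ∑ m ∈ ball N, Lterm P w ‖dt p.1 p.2‖ m * FF F F' p =
      Lsum P w ‖dt p.1 p.2‖ * FF F F' p := by
    intro p
    by_cases hp : Y < ‖dt p.1 p.2‖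
    · simp [hFF0 p hp]
    · rw [hsumL _ (norm_nonneg _) (not_lt.mp hp), Finset.sum_mul]
  -- the main term
  have hMain : Integrable (fun p : X2 =>
      ((‖dt p.1 p.2‖ ^ (-(4 / 3) : ℝ) : ℝ) : ℂ) * FF F F' p) := by
    have hmeas : Measurable fun D : ℝ => ((D ^ (-(4 / 3) : ℝ) : ℝ) : ℂ) := by fun_prop
    refine (integrable_of_bound hF hF' hs₁ hK hLL hr₂ hr₃ hs₂ hs₃ hY1 hY hτ0 hτ hmeas
      (C := Y ^ (2 / 3 - τ)) (by positivity) ?_).1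
    intro D hD0 hDY
    rw [Complex.norm_real, Real.norm_of_nonneg (by positivity)]
    exact rpow_le_mm hD0 hDY hY1 hτ
  -- the truncated difference
  set gd : ℝ → ℂ := fun D => (∑ m ∈ ball N, Lterm P w D m) - κ * ((D ^ (-(4 / 3) : ℝ) : ℝ) : ℂ)
    with hgd
  have hgdm : Measurable gd := by
    rw [hgd]
    apply Measurable.sub
    · apply Finset.measurable_fun_sum
      intro m _
      unfold Lterm
      split_ifs with hm
      · exact measurable_const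
      · apply Measurable.const_mul
        apply Complex.measurable_ofReal.comp
        exact (hwm.comp (measurable_id.div_const _)).const_mul _
    · fun_prop
  have hgdb : ∀ D, 0 ≤ D → D ≤ Y → ‖gd D‖ ≤ C₁ * mm τ D := by
    intro D hD0 hDY
    simp only [hgd]
    rw [← hsumL D hD0 hDY]
    exact Lsum_bound hL hα hw hτ0 hτ D hD0
  have hfinal := (integrable_of_bound hF hF' hs₁ hK hLL hr₂ hr₃ hs₂ hs₃ hY1 hY hτ0 hτ hgdm
      hC₁0 hgdb).2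
  have hdiff : (∑' m : Eis, if m = 0 then (0 : ℂ) else P m * (((rho3 m ^ 6)⁻¹ : ℝ) : ℂ) *
        ∫ p : X2, ((w (‖dt p.1 p.2‖ / rho3 m ^ 3) : ℝ) : ℂ) * FF F F' p) -
      κ * ∫ p : X2, ((‖dt p.1 p.2‖ ^ (-(4 / 3) : ℝ) : ℝ) : ℂ) * FF F F' p =
      ∫ p : X2, gd ‖dt p.1 p.2‖ * FF F F' p := by
    rw [hsum1, hstep, ← integral_const_mul, ← integral_sub]
    · congr 1
      ext p
      simp only [hgd]
      rw [← Finset.sum_mul]
      ring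
    · exact integrable_finsetSum _ (fun m _ => hTerm m)
    · exact hMain.const_mul _
  rw [hdiff]
  exact hfinal

end Crest.Agent.R012.Gram858
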