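import Crest.Agent.R012.GramB_858
import Crest.Agent.R012.LatW_413

/-!
# Row 12, item MG (part C)

* `latHyp_C2` : the hypothesis `LatHyp` for the weights `Pw a` (helper413's `weighted_C2`)
* `LatHyp.add`, `LatHyp.smul`, `LatHyp.dvd`
* `prodF U φ`, `mU U`, `JJ φ φ'` and the product formula for the main term of the Gram sum.
-/

set_option autoImplicit false

noncomputable section

open MeasureTheory Set Complex Filter
open scoped ENNReal ComplexConjugate Topology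

namespace Crest.Agent.R012.Gram858

open Crest.Agent.R012.Eis Crest.Agent.R012.LatSum413

/-! ## Smoothness of the radial profile -/

/-- The radial profile as a function on `ℂ`. -/
def grC (w : ℝ → ℝ) (z : ℂ) : ℂ := ((gr w (Real.sqrt 3 * ‖z‖) : ℝ) : ℂ)

lemma gr_zero_of_small {w : ℝ → ℝ} {α β : ℝ} (hα : 0 < α) (hβ : 0 ≤ β)
    (hw : ∀ x, w x ≠ 0 → α ≤ x ∧ x ≤ β) {z : ℂ} (hz : Real.sqrt 3 * ‖z‖ < 1 / (1 + β)) :
    grC w z = 0 := by
  unfold grC gr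
  have h3 : w ((Real.sqrt 3 * ‖z‖) ^ 3)⁻¹ = 0 := by
    by_contra h
    obtain ⟨h1, h2⟩ := hw _ h
    set r := Real.sqrt 3 * ‖z‖ with hr
    have hr0 : 0 ≤ r := by positivity
    rcases hr0.eq_or_lt with h0 | h0
    · rw [← h0] at h1; norm_num at h1; linarith
    · have hb : 0 < 1 + β := by linarith
      have h5 : 1 / (1 + β) ≤ 1 := by
        rw [div_le_one hb]; linarith
      have h4 : r ^ 3 ≤ r := by
        have : r ≤ 1 := by linarith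
        nlinarith [mul_nonneg hr0 hr0, mul_nonneg (mul_nonneg hr0 hr0) hr0]
      have h6 : r ^ 3 < 1 / (1 + β) := by linarith
      have h7 : 1 + β < (r ^ 3)⁻¹ := by
        rw [lt_inv_comm₀ hb (by positivity)]
        simpa using h6
      linarith
  rw [h3]; simp

lemma gr_zero_of_large {w : ℝ → ℝ} {α β : ℝ} (hα : 0 < α)
    (hw : ∀ x, w x ≠ 0 → α ≤ x ∧ x ≤ β) {z : ℂ} (hz : 1 + 1 / α < ‖z‖) :
    grC w z = 0 := by
  unfold grC gr
  have h3 : w ((Real.sqrt 3 * ‖z‖) ^ 3)⁻¹ = 0 := by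
    by_contra h
    obtain ⟨h1, -⟩ := hw _ h
    have hz0 : 0 ≤ 1 / α := by positivity
    set r := Real.sqrt 3 * ‖z‖ with hr
    have hr1 : ‖z‖ ≤ r := by
      have := one_lt_sqrt3
      rw [hr]; nlinarith [norm_nonneg z]
    have hr2 : 1 + 1 / α < r := by linarith
    have hr3 : r ≤ r ^ 3 := by
      have h1r : 1 ≤ r := by linarith
      calc r = r ^ 1 := (pow_one r).symm
        _ ≤ r ^ 3 := pow_le_pow_right₀ h1r (by norm_num)
    have h5 : 1 / α < r ^ 3 := by linarith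
    have h6 : (r ^ 3)⁻¹ < α := by
      rw [inv_lt_comm₀ (by linarith [hz0]) hα]
      simpa using h5
    linarith
  rw [h3]; simp

lemma contDiff_grC {w : ℝ → ℝ} (hwd : ContDiff ℝ 2 w) {α β : ℝ} (hα : 0 < α) (hβ : 0 ≤ β)
    (hw : ∀ x, w x ≠ 0 → α ≤ x ∧ x ≤ β) : ContDiff ℝ 2 (grC w) := by
  rw [contDiff_iff_contDiffAt]
  intro z
  by_cases hz : z = 0
  · have hev : grC w =ᶠ[𝓝 z] fun _ => 0 := by
      have hopen : IsOpen {z : ℂ | Real.sqrt 3 * ‖z‖ < 1 / (1 + β)} :=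
        isOpen_lt (by fun_prop) continuous_const
      have hmem : z ∈ {z : ℂ | Real.sqrt 3 * ‖z‖ < 1 / (1 + β)} := by
        rw [hz]; simp only [mem_ofPred_eq, norm_zero, mul_zero]; positivity
      filter_upwards [hopen.mem_nhds hmem] with y hy
      exact gr_zero_of_small hα hβ hw hy
    exact contDiffAt_const.congr_of_eventuallyEq hev
  · have hn : ContDiffAt ℝ 2 (fun z : ℂ => Real.sqrt 3 * ‖z‖) z :=
      contDiffAt_const.mul (contDiffAt_norm ℝ hz)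
    have hne : Real.sqrt 3 * ‖z‖ ≠ 0 := by
      have := norm_pos_iff.mpr hz; positivity
    have h6 : ContDiffAt ℝ 2 (fun z : ℂ => ((Real.sqrt 3 * ‖z‖) ^ 6)⁻¹) z :=
      (hn.pow 6).inv (pow_ne_zero _ hne)
    have h3 : ContDiffAt ℝ 2 (fun z : ℂ => ((Real.sqrt 3 * ‖z‖) ^ 3)⁻¹) z :=
      (hn.pow 3).inv (pow_ne_zero _ hne)
    have h4 : ContDiffAt ℝ 2 (fun z : ℂ => w (((Real.sqrt 3 * ‖z‖) ^ 3)⁻¹)) z :=
      hwd.contDiffAt.comp z h3
    have h5 : ContDiffAt ℝ 2 (fun z : ℂ => gr w (Real.sqrt 3 * ‖z‖)) z := h6.mul h4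
    exact Complex.ofRealCLM.contDiff.contDiffAt.comp z h5

lemma hasCompactSupport_grC {w : ℝ → ℝ} {α β : ℝ} (hα : 0 < α)
    (hw : ∀ x, w x ≠ 0 → α ≤ x ∧ x ≤ β) : HasCompactSupport (grC w) := by
  apply HasCompactSupport.of_support_subset_isCompact
    (isCompact_closedBall (0 : ℂ) (1 + 1 / α))
  intro z hz
  rw [Function.mem_support] at hz
  rw [mem_closedBall_zero_iff]
  by_contra h
  push Not at h
  exact hz (gr_zero_of_large hα hw h)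

/-- The value `∫_ℂ |√3 z|^(-6) w(|√3 z|^(-3)) dz`. -/
def grI (w : ℝ → ℝ) : ℂ := ∫ z : ℂ, grC w z

open Classical in
/-- The hypothesis `LatHyp` for `Pw a`. -/
theorem latHyp_C2 {w : ℝ → ℝ} (hwd : ContDiff ℝ 2 w) {α β : ℝ} (hα : 0 < α) (hβ : 0 ≤ β)
    (hw : ∀ x, w x ≠ 0 → α ≤ x ∧ x ≤ β) {τ : ℝ} (hτ0 : 0 < τ) (hτ : τ < 2 / 3) :
    ∃ C₀ : ℝ, 0 ≤ C₀ ∧ ∀ a : Eis → ℝ, (∀ d ≠ 0, |a d| ≤ 1 / nm d) →
      LatHyp (fun m => ((Pw a m : ℝ) : ℂ)) w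
        (((2 / Real.sqrt 3 * ∑' d : Eis, a d / nm d : ℝ) : ℂ) * grI w) C₀ τ := by
  obtain ⟨C, hC, h⟩ := weighted_C2 (contDiff_grC hwd hα hβ hw) (hasCompactSupport_grC hα hw)
    (β := 3 * τ) (by linarith) (by linarith)
  refine ⟨C, hC, fun a ha S hS => ?_⟩
  have h1 := (h a ha S hS).2
  have h2 : ∀ m : Eis, (if m = 0 then (0 : ℂ) else
      ((Pw a m : ℝ) : ℂ) * ((gr w (rho3 m / S) : ℝ) : ℂ)) =
      (if m = 0 then 0 else Pw a m • grC w (toC m / S)) := by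
    intro m
    split_ifs with hm
    · rfl
    · rw [Complex.real_smul]
      unfold grC rho3
      rw [norm_div, Complex.norm_real, Real.norm_of_nonneg hS.le, mul_div_assoc]
  rw [tsum_congr h2]
  have h3 : ((2 / Real.sqrt 3 * ∑' d : Eis, a d / nm d : ℝ) : ℂ) * grI w * (S : ℂ) ^ 2 =
      (2 / Real.sqrt 3 * (∑' d : Eis, a d / nm d) * S ^ 2) • ∫ z, grC w z := by
    rw [Complex.real_smul]
    unfold grI
    push_cast
    ring
  rw [h3]
  refine h1.trans ?_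
  gcongr
  linarith

/-! ## Operations on `LatHyp` -/

lemma LatHyp.mono {P : Eis → ℂ} {w : ℝ → ℝ} {κ : ℂ} {C₀ C₁ τ : ℝ} (h : LatHyp P w κ C₀ τ)
    (hC : C₀ ≤ C₁) : LatHyp P w κ C₁ τ := by
  intro S hS
  refine (h S hS).trans ?_
  gcongr

lemma LatHyp.smul {P : Eis → ℂ} {w : ℝ → ℝ} {κ : ℂ} {C₀ τ : ℝ} (h : LatHyp P w κ C₀ τ)
    (c : ℂ) : LatHyp (fun m => c * P m) w (c * κ) (‖c‖ * C₀) τ := by
  intro S hS
  have h1 : ∀ m : Eis, (if m = 0 then (0 : ℂ) else c * P m * ((gr w (rho3 m / S) : ℝ) : ℂ)) =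
      c * (if m = 0 then (0 : ℂ) else P m * ((gr w (rho3 m / S) : ℝ) : ℂ)) := by
    intro m; split_ifs <;> ring
  rw [tsum_congr h1, tsum_mul_left]
  have h2 : c * (∑' m : Eis, if m = 0 then (0 : ℂ) else P m * ((gr w (rho3 m / S) : ℝ) : ℂ)) -
      c * κ * (S : ℂ) ^ 2 = c * ((∑' m : Eis, if m = 0 then (0 : ℂ) else
        P m * ((gr w (rho3 m / S) : ℝ) : ℂ)) - κ * (S : ℂ) ^ 2) := by ring
  rw [h2, norm_mul, mul_assoc]
  gcongr
  exact h S hS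

/-- The terms of the lattice sum have finite support. -/
lemma summable_term (P : Eis → ℂ) {w : ℝ → ℝ} {α : ℝ} (hα : 0 < α) (hw : ∀ x < α, w x = 0)
    {S : ℝ} (hS : 0 < S) :
    Summable (fun m : Eis => if m = 0 then (0 : ℂ) else P m * ((gr w (rho3 m / S) : ℝ) : ℂ)) := by
  have key : ∀ m : Eis, m ∉ ball ⌈S ^ 3 / α⌉₊ → Lterm P w (S ^ 3) m = 0 := by
    intro m hm
    have h1 : ⌈S ^ 3 / α⌉₊ < nm m := by
      rw [mem_ball] at hm; omega
    have hm0 : m ≠ 0 := by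
      intro h; rw [h, nm_zero] at h1; omega
    apply Lterm_eq_zero P hw
    have h2 : S ^ 3 / α ≤ ⌈S ^ 3 / α⌉₊ := Nat.le_ceil _
    have h3 : ((⌈S ^ 3 / α⌉₊ : ℕ) : ℝ) < nm m := by exact_mod_cast h1
    have h4 := (rho3_cube_ge hm0).1
    have h5 : S ^ 3 / α < rho3 m ^ 3 := by linarith
    have h6 : 0 < rho3 m ^ 3 := pow_pos (rho3_pos hm0) 3
    rw [div_lt_iff₀ h6]
    rw [div_lt_iff₀ hα] at h5
    linarith
  apply summable_of_ne_finset_zero (s := ball ⌈S ^ 3 / α⌉₊)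
  intro m hm
  have h1 := key m hm
  rw [Lterm_scale P w hS m] at h1
  rcases mul_eq_zero.mp h1 with h | h
  · exfalso
    have : ((S ^ 6)⁻¹ : ℝ) ≠ 0 := by positivity
    exact this (by exact_mod_cast h)
  · exact h

lemma LatHyp.add {P Q : Eis → ℂ} {w : ℝ → ℝ} {κ κ' : ℂ} {C₀ C₁ τ α : ℝ} (hα : 0 < α)
    (hw : ∀ x < α, w x = 0) (h : LatHyp P w κ C₀ τ) (h' : LatHyp Q w κ' C₁ τ) :
    LatHyp (fun m => P m + Q m) w (κ + κ') (C₀ + C₁) τ := by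
  intro S hS
  have h1 : ∀ m : Eis, (if m = 0 then (0 : ℂ) else (P m + Q m) * ((gr w (rho3 m / S) : ℝ) : ℂ)) =
      (if m = 0 then (0 : ℂ) else P m * ((gr w (rho3 m / S) : ℝ) : ℂ)) +
      (if m = 0 then (0 : ℂ) else Q m * ((gr w (rho3 m / S) : ℝ) : ℂ)) := by
    intro m; split_ifs <;> ring
  rw [tsum_congr h1, (summable_term P hα hw hS).tsum_add (summable_term Q hα hw hS)]
  have h2 := h S hS
  have h3 := h' S hS
  calc _ = ‖((∑' m : Eis, if m = 0 then (0 : ℂ) else P m * ((gr w (rho3 m / S) : ℝ) : ℂ)) -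
        κ * (S : ℂ) ^ 2) + ((∑' m : Eis, if m = 0 then (0 : ℂ) else
          Q m * ((gr w (rho3 m / S) : ℝ) : ℂ)) - κ' * (S : ℂ) ^ 2)‖ := by
        congr 1; ring
    _ ≤ C₀ * (1 + S) ^ (3 * τ) + C₁ * (1 + S) ^ (3 * τ) := (norm_add_le _ _).trans (by gcongr)
    _ = (C₀ + C₁) * (1 + S) ^ (3 * τ) := by ring

open Classical in
/-- Weights supported on multiples of `p`. -/
lemma LatHyp.dvd {P Q : Eis → ℂ} {w : ℝ → ℝ} {κ : ℂ} {C₀ τ : ℝ} (hτ0 : 0 ≤ τ) (hC₀ : 0 ≤ C₀)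
    {p : Eis} (hp : p ≠ 0) (h : LatHyp Q w κ C₀ τ)
    (hP : ∀ m, P m = if p ∣ m then Q (m / p) else 0) :
    LatHyp P w (κ / nm p) C₀ τ := by
  intro S hS
  have hpC : 1 ≤ ‖toC p‖ := one_le_norm_toC hp
  have hp0 : 0 < ‖toC p‖ := by linarith
  have h1 := h (S / ‖toC p‖) (by positivity)
  have hinj : Function.Injective (fun m : Eis => p * m) := mul_right_injective₀ hp
  have h2 : (∑' m : Eis, if m = 0 then (0 : ℂ) else P m * ((gr w (rho3 m / S) : ℝ) : ℂ)) =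
      ∑' m : Eis, if m = 0 then (0 : ℂ) else
        Q m * ((gr w (rho3 m / (S / ‖toC p‖)) : ℝ) : ℂ) := by
    rw [← hinj.tsum_eq (f := fun m : Eis => if m = 0 then (0 : ℂ) else
      P m * ((gr w (rho3 m / S) : ℝ) : ℂ))]
    · apply tsum_congr
      intro m
      by_cases hm : m = 0
      · simp [hm]
      · have hpm : p * m ≠ 0 := mul_ne_zero hp hm
        simp only [hm, hpm, if_false]
        rw [hP, if_pos (dvd_mul_right p m), mul_div_cancel_left₀ m hp]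
        congr 3
        unfold rho3
        rw [map_mul, norm_mul]
        field_simp
    · intro m hm
      rw [Function.mem_support] at hm
      by_contra hn
      apply hm
      have : ¬ p ∣ m := by
        rintro ⟨t, rfl⟩
        exact hn ⟨t, rfl⟩
      rw [hP, if_neg this]
      simp
  rw [h2]
  have h3 : κ / nm p * (S : ℂ) ^ 2 = κ * ((S / ‖toC p‖ : ℝ) : ℂ) ^ 2 := by
    have h4 : ((nm p : ℕ) : ℂ) = ((‖toC p‖ ^ 2 : ℝ) : ℂ) := by
      rw [norm_toC_sq]; push_cast; rfl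
    rw [h4]
    push_cast
    rw [div_pow]
    ring
  rw [h3]
  refine h1.trans ?_
  gcongr
  exact div_le_self hS.le hpC

/-! ## The product formula -/

/-- Test functions of product type. -/
def prodF (U φ : ℂ → ℂ) (u : ℂ × ℂ) : ℂ := U u.1 * φ (u.2 / u.1)

/-- `∫ U(z) |z|^(2/3) dz` -/
def mU (U : ℂ → ℂ) : ℂ := ∫ z : ℂ, U z * ((‖z‖ ^ (2 / 3 : ℝ) : ℝ) : ℂ)

/-- `∫∫ φ(s) conj φ'(t) |s - t|^(-4/3)` -/
def JJ (φ φ' : ℂ → ℂ) : ℂ :=
  ∫ s : ℂ, φ s * ∫ t : ℂ, ((‖t - s‖ ^ (-(4 / 3) : ℝ) : ℝ) : ℂ) * conj (φ' t)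

lemma integral_scale {c : ℂ} (hc : c ≠ 0) (f : ℂ → ℂ) :
    ∫ z, f z = ((‖c‖ ^ 2 : ℝ) : ℂ) * ∫ z, f (c * z) := by
  rw [integral_mul_left' hc f, Complex.real_smul, ← mul_assoc, ← Complex.ofReal_mul,
    mul_inv_cancel₀ (by positivity), Complex.ofReal_one, one_mul]

/-- **Product formula** for the main term. -/
theorem prod_formula {U φ U' φ' : ℂ → ℂ}
    (hint : Integrable (fun p : X2 => ((‖dt p.1 p.2‖ ^ (-(4 / 3) : ℝ) : ℝ) : ℂ) *
      FF (prodF U φ) (prodF U' φ') p)) :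
    ∫ p : X2, ((‖dt p.1 p.2‖ ^ (-(4 / 3) : ℝ) : ℝ) : ℂ) * FF (prodF U φ) (prodF U' φ') p =
      mU U * conj (mU U') * JJ φ φ' := by
  have hae : ∀ᵐ x : ℂ, x ≠ 0 := by
    rw [ae_iff]; simp
  set Gf : X2 → ℂ := fun p => ((‖dt p.1 p.2‖ ^ (-(4 / 3) : ℝ) : ℝ) : ℂ) *
      FF (prodF U φ) (prodF U' φ') p with hG
  have h1 : ∫ p : X2, Gf p = ∫ u : ℂ × ℂ, ∫ z : ℂ × ℂ, Gf (u, z) := by
    rw [Measure.volume_eq_prod, integral_prod]
    exact hint
  have hint' : Integrable Gf ((volume : Measure (ℂ × ℂ)).prod volume) := hint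
  have h2 : ∀ᵐ u : ℂ × ℂ, ∫ z : ℂ × ℂ, Gf (u, z) = ∫ y : ℂ, ∫ z2 : ℂ, Gf (u, (y, z2)) := by
    filter_upwards [hint'.prod_right_ae] with u hu
    have hu' : Integrable (fun z : ℂ × ℂ => Gf (u, z)) ((volume : Measure ℂ).prod volume) := hu
    rw [Measure.volume_eq_prod, integral_prod _ hu']
  have h3 : Integrable (fun u : ℂ × ℂ => ∫ y : ℂ, ∫ z2 : ℂ, Gf (u, (y, z2)))
      ((volume : Measure ℂ).prod volume) := by
    have := hint'.integral_prod_left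
    refine this.congr ?_
    exact h2
  have h4 : ∫ p : X2, Gf p = ∫ x : ℂ, ∫ u2 : ℂ, ∫ y : ℂ, ∫ z2 : ℂ, Gf ((x, u2), (y, z2)) := by
    rw [h1, integral_congr_ae h2]
    rw [Measure.volume_eq_prod, integral_prod _ h3]
  rw [h4]
  -- inner evaluation
  have h5 : ∀ (x s : ℂ), x ≠ 0 → ∫ y : ℂ, ∫ z2 : ℂ, Gf ((x, x * s), (y, z2)) =
      (((‖x‖ ^ (-(4 / 3) : ℝ) : ℝ) : ℂ) * U x * φ s) * (conj (mU U') *
        ∫ t : ℂ, ((‖t - s‖ ^ (-(4 / 3) : ℝ) : ℝ) : ℂ) * conj (φ' t)) := by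
    intro x s hx
    have h6 : ∀ᵐ y : ℂ, ∫ z2 : ℂ, Gf ((x, x * s), (y, z2)) =
        (((‖x‖ ^ (-(4 / 3) : ℝ) : ℝ) : ℂ) * U x * φ s) *
          ((conj (U' y) * ((‖y‖ ^ (2 / 3 : ℝ) : ℝ) : ℂ)) *
        ∫ t : ℂ, ((‖t - s‖ ^ (-(4 / 3) : ℝ) : ℝ) : ℂ) * conj (φ' t)) := by
      filter_upwards [hae] with y hy
      rw [integral_scale hy]
      rw [← integral_const_mul, ← integral_const_mul, ← integral_const_mul]
      congr 1
      ext t
      simp only [hG, FF, prodF, dt]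
      rw [mul_div_cancel_left₀ _ hx, mul_div_cancel_left₀ _ hy]
      have h7 : x * (y * t) - x * s * y = x * y * (t - s) := by ring
      rw [h7, norm_mul, norm_mul, Real.mul_rpow (by positivity) (by positivity),
        Real.mul_rpow (by positivity) (by positivity)]
      have hy0 : 0 < ‖y‖ := norm_pos_iff.mpr hy
      have h8 : ‖y‖ ^ 2 * ‖y‖ ^ (-(4 / 3) : ℝ) = ‖y‖ ^ (2 / 3 : ℝ) := by
        rw [← Real.rpow_natCast, ← Real.rpow_add hy0]; norm_num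
      rw [map_mul]
      have h9 : ((‖y‖ ^ (2 / 3 : ℝ) : ℝ) : ℂ) = ((‖y‖ ^ 2 : ℝ) : ℂ) *
          ((‖y‖ ^ (-(4 / 3) : ℝ) : ℝ) : ℂ) := by
        rw [← Complex.ofReal_mul, h8]
      rw [h9]
      push_cast
      ring
    rw [integral_congr_ae h6, integral_const_mul, integral_mul_const]
    congr 2
    unfold mU
    rw [← integral_conj]
    congr 1
    ext y
    rw [map_mul, Complex.conj_ofReal]
  have h10 : ∀ᵐ x : ℂ, ∫ u2 : ℂ, ∫ y : ℂ, ∫ z2 : ℂ, Gf ((x, u2), (y, z2)) =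
      (U x * ((‖x‖ ^ (2 / 3 : ℝ) : ℝ) : ℂ)) * (conj (mU U') * JJ φ φ') := by
    filter_upwards [hae] with x hx
    rw [integral_scale hx]
    have hx0 : 0 < ‖x‖ := norm_pos_iff.mpr hx
    have h8 : ‖x‖ ^ 2 * ‖x‖ ^ (-(4 / 3) : ℝ) = ‖x‖ ^ (2 / 3 : ℝ) := by
      rw [← Real.rpow_natCast, ← Real.rpow_add hx0]; norm_num
    have h9 : ((‖x‖ ^ (2 / 3 : ℝ) : ℝ) : ℂ) = ((‖x‖ ^ 2 : ℝ) : ℂ) *
          ((‖x‖ ^ (-(4 / 3) : ℝ) : ℝ) : ℂ) := by
        rw [← Complex.ofReal_mul, h8]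
    unfold JJ
    rw [← integral_const_mul, ← integral_const_mul, ← integral_const_mul]
    congr 1
    ext s
    rw [h5 x s hx, h9]
    ring
  rw [integral_congr_ae h10, integral_mul_const]
  unfold mU
  ring

end Crest.Agent.R012.Gram858
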