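import Crest.Agent.R012.GramP_681
import Crest.Agent.R012.ResFin_61

/-!
# Row 12 (M-R, H2): the Gram input at level `p`

`gramP : ResFin61.GramP` : for `F` continuous, supported in `a ≤ |u₁| ≤ b`, `|u₂| ≤ b` and
`ψ(d) = [p ∤ d] - N/(N+1)`, the mean square of `∑ ψ(d) conj (c/d) F((cη+dζ)/√B)` is `O(B^{7/3})`.
-/

set_option autoImplicit false

noncomputable section

open MeasureTheory Complex Filter Topology
open scoped ENNReal ComplexConjugate

namespace Crest.Agent.R012.GramP681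

open Crest.Agent.R012 Eis K695 K695.Gram988 Gram858 CharSum852 Mob705 ResLev61 ResFin61 StripIneq813
  Four813

/-- cut-off profiles -/
structure WP (α β : ℝ) (w : ℝ → ℝ) : Prop where
  pos : 0 < α
  bnn : 0 ≤ β
  cd : ContDiff ℝ 2 w
  nn : ∀ x, 0 ≤ w x
  supp : ∀ x, w x ≠ 0 → α ≤ x ∧ x ≤ β

section weight

variable {α β : ℝ} {w : ℝ → ℝ} (hw : WP α β w)
include hw

lemma WP.hcs : HasCompactSupport w := by
  refine HasCompactSupport.intro (K := Set.Icc α β) isCompact_Icc ?_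
  intro x hx
  by_contra h
  exact hx (hw.supp x h)

lemma WP.bdd : ∃ W₀ : ℝ, ∀ x, |w x| ≤ W₀ := by
  obtain ⟨C, hC⟩ := hw.hcs.exists_bound_of_continuous hw.cd.continuous
  exact ⟨C, fun x => by simpa [Real.norm_eq_abs] using hC x⟩

lemma WP.zero_lt {x : ℝ} (hx : x < α) : w x = 0 := by
  by_contra h
  exact absurd (hw.supp x h).1 (not_le.mpr hx)

lemma WP.cont : Continuous (Wc w) :=
  Complex.continuous_ofReal.comp (hw.cd.continuous.comp continuous_norm)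

lemma WP.cut : Cut (Wc w) where
  meas := hw.cont.measurable
  bdd := by
    obtain ⟨C, hC⟩ := hw.bdd
    refine ⟨C, fun z => ?_⟩
    unfold Wc
    rw [Complex.norm_real]
    exact hC _
  supp := ⟨α, hw.pos, fun z hz => by unfold Wc; rw [hw.zero_lt hz, Complex.ofReal_zero]⟩

lemma WP.integrable : Integrable (Wc w) := by
  refine hw.cont.integrable_of_hasCompactSupport ?_
  refine HasCompactSupport.intro (K := Metric.closedBall (0 : ℂ) β) (isCompact_closedBall _ _) ?_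
  intro z hz
  unfold Wc
  by_contra h
  apply hz
  rw [mem_closedBall_zero_iff]
  exact (hw.supp _ (fun h0 => h (by rw [h0, Complex.ofReal_zero]))).2

end weight

/-! ### Dilated test functions -/

section test

variable {a b : ℝ} {F : ℂ × ℂ → ℂ} (hF : CF a b F)
include hF

lemma cf_bdd : ∃ K : ℝ, 0 ≤ K ∧ ∀ u, ‖F u‖ ≤ K := by
  have h : HasCompactSupport F := by
    refine HasCompactSupport.intro
      (K := Metric.closedBall (0 : ℂ) b ×ˢ Metric.closedBall (0 : ℂ) b)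
      ((isCompact_closedBall _ _).prod (isCompact_closedBall _ _)) ?_
    intro u hu
    by_contra h
    obtain ⟨-, h2, h3⟩ := hF.supp u h
    exact hu ⟨by rw [mem_closedBall_zero_iff]; exact h2, by rw [mem_closedBall_zero_iff]; exact h3⟩
  obtain ⟨C, hC⟩ := h.exists_bound_of_continuous hF.cont
  exact ⟨max C 0, le_max_right _ _, fun u => (hC u).trans (le_max_left _ _)⟩

lemma fr_dilB {K B : ℝ} (hK : ∀ u, ‖F u‖ ≤ K) (hB : 0 < B) :
    Fr (a * Real.sqrt B) (b * Real.sqrt B) (b * Real.sqrt B) K (dilB B F) where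
  meas := (hF.cont.comp (continuous_const_smul _)).measurable
  bd u := hK _
  supp u hu := by
    have hs : 0 < Real.sqrt B := Real.sqrt_pos.mpr hB
    obtain ⟨h1, h2, h3⟩ := hF.supp _ hu
    have e1 : ‖((Real.sqrt B)⁻¹ • u).1‖ = (Real.sqrt B)⁻¹ * ‖u.1‖ := by
      rw [Prod.smul_fst, norm_smul, Real.norm_of_nonneg (by positivity)]
    have e2 : ‖((Real.sqrt B)⁻¹ • u).2‖ = (Real.sqrt B)⁻¹ * ‖u.2‖ := by
      rw [Prod.smul_snd, norm_smul, Real.norm_of_nonneg (by positivity)]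
    rw [e1] at h1 h2
    rw [e2] at h3
    rw [inv_mul_eq_div] at h1 h2 h3
    exact ⟨(le_div_iff₀ hs).mp h1, (div_le_iff₀ hs).mp h2, (div_le_iff₀ hs).mp h3⟩

lemma bs_dilB {B : ℝ} (hB : 0 < B) : BS (dilB B F) := by
  obtain ⟨K, -, hK⟩ := cf_bdd hF
  have h := fr_dilB hF hK hB
  refine ⟨h.meas, ⟨K, h.bd⟩, ⟨2 * (b * Real.sqrt B) ^ 2, fun u hu => ?_⟩⟩
  by_contra h0
  obtain ⟨-, h2, h3⟩ := h.supp u h0
  have h4 : ‖u.1‖ ^ 2 ≤ (b * Real.sqrt B) ^ 2 := by gcongr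
  have h5 : ‖u.2‖ ^ 2 ≤ (b * Real.sqrt B) ^ 2 := by gcongr
  unfold n2 at hu
  linarith

omit hF in
lemma integral_dilB {B : ℝ} (hB : 0 < B) :
    ∫ u : ℂ × ℂ, dilB B F u * conj (dilB B F u) = (B : ℂ) ^ 2 * ∫ u, F u * conj (F u) := by
  have h := Measure.integral_comp_inv_smul (volume : Measure (ℂ × ℂ))
    (fun u => F u * conj (F u)) (Real.sqrt B)
  have e : Module.finrank ℝ (ℂ × ℂ) = 4 := by
    rw [Module.finrank_prod, Complex.finrank_real_complex]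
  rw [e] at h
  have e2 : |Real.sqrt B ^ 4| = B ^ 2 := by
    have : Real.sqrt B ^ 4 = (Real.sqrt B ^ 2) ^ 2 := by ring
    rw [this, Real.sq_sqrt hB.le, abs_of_nonneg (by positivity)]
  rw [e2] at h
  have h2 : (fun u : ℂ × ℂ => dilB B F u * conj (dilB B F u)) =
      fun u => (fun u => F u * conj (F u)) ((Real.sqrt B)⁻¹ • u) := rfl
  rw [h2, h, Complex.real_smul]
  push_cast
  ring

end test

/-! ### The error term of the Gram sum -/

/-- the Gram sum over `c ≠ 0` -/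
def TT (q : Eis) (a : Eis × Eis → ℂ) (w : ℝ → ℝ) (F : ℂ × ℂ → ℂ) (B : ℝ) : ℂ :=
  ∑' c : Eis, gterm q a (Wc w) (dilB B F) (dilB B F) c

/-- the main integral -/
def II (F : ℂ × ℂ → ℂ) (B : ℝ) : ℂ :=
  ∫ p : X2, ((‖dt p.1 p.2‖ ^ (-(4 / 3) : ℝ) : ℝ) : ℂ) * FF (dilB B F) (dilB B F) p

lemma TT_eq {q : Eis} {a : Eis × Eis → ℂ} {P : Eis → ℂ} (hP : CubeCoef q a P)
    {α β : ℝ} {w : ℝ → ℝ} (hw : WP α β w) {a' b' : ℝ} {F : ℂ × ℂ → ℂ} (hF : CF a' b' F)
    {B : ℝ} (hB : 0 < B) :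
    TT q a w F B = (1 / 3) * ∑' m : Eis, if m = 0 then (0 : ℂ) else
      P m * (((rho3 m ^ 6)⁻¹ : ℝ) : ℂ) *
        ∫ p : X2, ((w (‖dt p.1 p.2‖ / rho3 m ^ 3) : ℝ) : ℂ) * FF (dilB B F) (dilB B F) p :=
  tsum_gterm hP hw.cut (bs_dilB hF hB) (bs_dilB hF hB)

/-- **The Gram sum of a dilated test function.** -/
theorem TT_bound {q : Eis} {a : Eis × Eis → ℂ} {P : Eis → ℂ} (hP : CubeCoef q a P)
    {α β : ℝ} {w : ℝ → ℝ} (hw : WP α β w) {κ : ℂ} {C₀ : ℝ} (hL : LatHyp P w κ C₀ (1 / 3))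
    {a' b' : ℝ} (ha : 0 < a') (hb : 0 ≤ b') {F : ℂ × ℂ → ℂ} (hF : CF a' b' F) :
    ∃ C : ℝ, 0 ≤ C ∧ ∀ B : ℝ, 1 ≤ B →
      ‖TT q a w F B - κ / 3 * II F B‖ ≤ C * B ^ ((7 : ℝ) / 3) := by
  obtain ⟨W₀, hW₀⟩ := hw.bdd
  obtain ⟨K, hK0, hK⟩ := cf_bdd hF
  have hα := hw.pos
  set C₁ : ℝ := ‖κ‖ * (1 + α) ^ (2 / 3 : ℝ) + |C₀| * 4 * (1 + α ^ (-(2 / 3) : ℝ)) with hC₁
  have hC₁0 : 0 ≤ C₁ := by rw [hC₁]; positivity
  set D : ℝ := Real.pi ^ 3 * (K * K * b' ^ 6 / a' ^ 2) with hD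
  have hD0 : 0 ≤ D := by rw [hD]; positivity
  set E : ℝ := 2 * Real.pi * (3 / 2 + 1 / (1 / 3)) * (1 + 2 * b' ^ 2) ^ ((1 : ℝ) / 3) with hE
  have hE0 : 0 ≤ E := by rw [hE]; positivity
  refine ⟨C₁ * (D * E), by positivity, fun B hB => ?_⟩
  have hB0 : 0 < B := by linarith
  have hs : 0 < Real.sqrt B := Real.sqrt_pos.mpr hB0
  have hsq : Real.sqrt B ^ 2 = B := Real.sq_sqrt hB0.le
  have hfr := fr_dilB hF hK hB0
  have hY1 : (1 : ℝ) ≤ (1 + 2 * b' ^ 2) * B := by nlinarith [sq_nonneg b']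
  have h := gram_main (F := dilB B F) (F' := dilB B F) hw.cd.continuous.measurable hW₀ hL hα
    (fun x hx => hw.zero_lt hx) (by norm_num) (by norm_num) hfr hfr
    (Y := (1 + 2 * b' ^ 2) * B) (by positivity) hK0 hK0 (by positivity) (by positivity)
    (by positivity) (by positivity) hY1 (by
      have : b' * Real.sqrt B * (b' * Real.sqrt B) = b' ^ 2 * B := by
        calc b' * Real.sqrt B * (b' * Real.sqrt B) = b' ^ 2 * Real.sqrt B ^ 2 := by ring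
          _ = b' ^ 2 * B := by rw [hsq]
      rw [this]; nlinarith)
  rw [← hC₁] at h
  have e1 : TT q a w F B - κ / 3 * II F B = (1 / 3) * ((∑' m : Eis, if m = 0 then (0 : ℂ) else
      P m * (((rho3 m ^ 6)⁻¹ : ℝ) : ℂ) *
        ∫ p : X2, ((w (‖dt p.1 p.2‖ / rho3 m ^ 3) : ℝ) : ℂ) * FF (dilB B F) (dilB B F) p) -
        κ * II F B) := by
    rw [TT_eq hP hw hF hB0]; ring
  have e2 : Gram858.gc (b' * Real.sqrt B) K (a' * Real.sqrt B) (b' * Real.sqrt B) (b' * Real.sqrt B) K =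
      D * B ^ 2 := by
    unfold Gram858.gc
    rw [hD]
    have h4 : Real.sqrt B ^ 6 = B ^ 2 * Real.sqrt B ^ 2 := by
      have : Real.sqrt B ^ 6 = (Real.sqrt B ^ 2) ^ 2 * Real.sqrt B ^ 2 := by ring
      rw [this, hsq]
    have h5 : K * K * (b' * Real.sqrt B) ^ 2 * (b' * Real.sqrt B) ^ 2 * (b' * Real.sqrt B) ^ 2 /
        (a' * Real.sqrt B) ^ 2 = K * K * b' ^ 6 * Real.sqrt B ^ 6 / (a' ^ 2 * Real.sqrt B ^ 2) := by
      ring
    rw [h5, h4]
    field_simp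
  have e3 : ((1 + 2 * b' ^ 2) * B) ^ ((1 : ℝ) / 3) = (1 + 2 * b' ^ 2) ^ ((1 : ℝ) / 3) *
      B ^ ((1 : ℝ) / 3) := Real.mul_rpow (by positivity) hB0.le
  have e4 : B ^ 2 * B ^ ((1 : ℝ) / 3) = B ^ ((7 : ℝ) / 3) := by
    rw [← Real.rpow_natCast B 2, ← Real.rpow_add hB0]; norm_num
  rw [e1, norm_mul]
  have h13 : ‖((1 : ℂ) / 3)‖ ≤ 1 := by norm_num
  refine (mul_le_mul h13 h (norm_nonneg _) zero_le_one).trans ?_
  rw [one_mul, e2, e3]
  refine le_of_eq ?_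
  rw [← e4, hE]
  ring

/-! ### The mean square at level `p` -/

/-- `κ₀ = N/(N+1)` -/
def kp (p : Eis) : ℝ := (nm p : ℝ) / ((nm p : ℝ) + 1)

lemma kp_nonneg (p : Eis) : 0 ≤ kp p := by unfold kp; positivity

lemma kp_le_one (p : Eis) : kp p ≤ 1 := by
  unfold kp
  have : (0 : ℝ) ≤ nm p := Nat.cast_nonneg _
  rw [div_le_one (by positivity)]; linarith

lemma coef_psiP (Hs : SyFacts) {p : Eis} (hp : IsPP p) (r : Eis × Eis) :
    coefK (Four813.ker (psiP p)) r = bco (DelP p) r - (kp p : ℂ) * bco ⊤ r := by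
  classical
  rw [coefK_ker_apply Hs]
  unfold bco
  rw [rowsOf_DelP, rowsOf_top]
  by_cases h : IsRow r
  · rw [if_pos h, if_pos (show r ∈ {r | IsRow r} from h)]
    unfold psiP kp
    by_cases h1 : p ∣ r.2
    · have h2 : ¬ IsCoprime p r.2 := fun h3 => hp.isCoprime_iff.mp h3 h1
      rw [if_pos h1, if_neg (show r ∉ {r | IsRow r ∧ IsCoprime p r.2} from fun h3 => h2 h3.2)]
      push_cast
      ring
    · have h2 : IsCoprime p r.2 := hp.isCoprime_iff.mpr h1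
      rw [if_neg h1, if_pos (show r ∈ {r | IsRow r ∧ IsCoprime p r.2} from ⟨h, h2⟩)]
      push_cast
      ring
  · rw [if_neg h, if_neg (show r ∉ {r | IsRow r} from h),
      if_neg (show r ∉ {r | IsRow r ∧ IsCoprime p r.2} from fun h3 => h h3.1)]
    ring

lemma EC_psiP (Hs : SyFacts) {p : Eis} (hp : IsPP p) {F : Vec → ℂ} (hF : BS F) {M : K695.Frm}
    (hM : det2 M ≠ 0) :
    EC (coefK (Four813.ker (psiP p))) F M = EC (bco (DelP p)) F M - (kp p : ℂ) * EC (bco ⊤) F M := by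
  unfold EC
  rw [← tsum_mul_left, ← Summable.tsum_sub (summable_EC hF hM) ((summable_EC hF hM).mul_left _)]
  refine tsum_congr fun r => ?_
  rw [coef_psiP Hs hp]
  ring

lemma isCoef_mono {Δ Δ' : Subgroup Gam} (h : Δ ≤ Δ') {a : Eis × Eis → ℂ} (ha : IsCoef Δ' a) :
    IsCoef Δ a := ⟨ha.supp, ha.bdd, fun g hg => ha.equiv g (h hg)⟩

lemma ae_det_nu {Δ : Subgroup Gam} {q : Eis} : ∀ᵐ M ∂(nu Δ q), det2 M ≠ 0 := by
  have hac : nu Δ q ≪ (volume : Measure K695.Frm) := withDensity_absolutelyContinuous _ _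
  exact hac.ae_le ae_det_ne

/-- `∫_{Slab q} W(det) F(ζ) conj F(ζ)` -/
def DD (q : Eis) (w : ℝ → ℝ) (F : Vec → ℂ) : ℂ :=
  ∫ M in Slab q, Wc w (det2 M) * F M.2 * conj (F M.2)

lemma integral_comb {X : Type*} [MeasurableSpace X] {μ : Measure X} {f g h : X → ℂ}
    (hf : Integrable f μ) (hg : Integrable g μ) (hh : Integrable h μ) (c d : ℂ) :
    ∫ x, (f x - c * g x + d * h x) ∂μ = ∫ x, f x ∂μ - c * ∫ x, g x ∂μ + d * ∫ x, h x ∂μ := by
  have h1 : Integrable (fun x => f x - c * g x) μ := hf.sub (hg.const_mul c)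
  rw [integral_add h1 (hh.const_mul d), integral_sub hf (hg.const_mul c), integral_const_mul,
    integral_const_mul]

section level

variable {α β : ℝ} {w : ℝ → ℝ} (hw : WP α β w)
include hw

lemma integrableOn_slab {q : Eis} (hq : q ≠ 0) {F : Vec → ℂ} (hF : BS F) :
    IntegrableOn (fun M : K695.Frm => Wc w (det2 M) * F M.2 * conj (F M.2)) (Slab q) ∧
    DD q w F = (slabVol q : ℂ) * (∫ s, Wc w s) * ∫ u, F u * conj (F u) := by
  have hm : Measurable fun u => F u * conj (F u) :=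
    hF.meas.mul (Complex.continuous_conj.measurable.comp hF.meas)
  obtain ⟨C, hC⟩ := hF.bdd
  have hi : Integrable fun u => F u * conj (F u) := by
    refine (Integrable.bdd_mul (c := C) (BS.integrable hF)
      (Complex.continuous_conj.measurable.comp hF.meas).aestronglyMeasurable
      (Filter.Eventually.of_forall fun u => ?_)).congr
      (Filter.Eventually.of_forall fun u => ?_)
    · simp only [Function.comp_apply, RCLike.norm_conj]
      exact hC u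
    · simp only [Function.comp_apply]
      ring
  have h1 := integrable_slab_zero hq hw.cont.measurable hw.integrable hm hi
  have h2 := integral_slab_zero hq hw.cont.measurable hw.integrable hm hi
  have e : (fun M : K695.Frm => Wc w (det2 M) * F M.2 * conj (F M.2)) =
      fun M : K695.Frm => Wc w (det2 M) * (F M.2 * conj (F M.2)) := by
    ext M; ring
  unfold DD
  rw [e]
  exact ⟨h1, h2⟩

/-- **The mean square at level `p`** in terms of the Gram sums. -/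
theorem level_le (H : SyAPI) (Hs : SyFacts) {p : Eis} (hp : IsPP p) {F : Vec → ℂ} (hF : BS F)
    (hT : ∑' c : Eis, gterm p (bco ⊤) (Wc w) F F c =
      (nm p : ℂ) * ∑' c : Eis, gterm 1 (bco ⊤) (Wc w) F F c) :
    LN (DelP p) p (psiP p) (fun z => ENNReal.ofReal (w ‖z‖)) F ≤ ENNReal.ofReal
      (‖(∑' c : Eis, gterm p (bco (DelP p)) (Wc w) F F c) - ((nm p : ℂ) ^ 2 / ((nm p : ℂ) + 1)) *
        ∑' c : Eis, gterm 1 (bco ⊤) (Wc w) F F c‖ + 3 * ‖DD p w F‖ +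
        ((nm p : ℝ) + 1) * ‖DD 1 w F‖) := by
  have hp0 : p ≠ 0 := hp.ne_zero
  have hN : (0 : ℝ) ≤ nm p := Nat.cast_nonneg _
  set Tp : ℂ := ∑' c : Eis, gterm p (bco (DelP p)) (Wc w) F F c with hTp
  set T1 : ℂ := ∑' c : Eis, gterm 1 (bco ⊤) (Wc w) F F c with hT1
  set Ep : K695.Frm → ℂ := EC (bco (DelP p)) F with hEp
  set E1 : K695.Frm → ℂ := EC (bco ⊤) F with hE1
  -- the three Gram formulas
  have g1 := gram H (isLev_DelP hp0) (isCoef_bco H (DelP p)) hw.cut hF hF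
    (integrableOn_slab hw hp0 hF).1
  have g2 := gram H (isLev_DelP hp0) (isCoef_mono le_top (isCoef_bco H ⊤)) hw.cut hF hF
    (integrableOn_slab hw hp0 hF).1
  have g3 := gram H isLev_top (isCoef_bco H ⊤) hw.cut hF hF
    (integrableOn_slab hw one_ne_zero hF).1
  rw [hT] at g2
  rw [← hTp, ← hEp] at g1
  rw [← hEp, ← hE1] at g2
  rw [← hT1, ← hE1] at g3
  -- level 1 on level p
  have hmeas : Measurable fun M : K695.Frm => Wc w (det2 M) * E1 M * conj (E1 M) :=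
    ((hw.cont.measurable.comp measurable_det2).mul (measurable_EC hF.meas)).mul
      (Complex.continuous_conj.measurable.comp (measurable_EC hF.meas))
  have hinv : ∀ g ∈ (⊤ : Subgroup Gam), ∀ M : K695.Frm,
      Wc w (det2 (act g M)) * E1 (act g M) * conj (E1 (act g M)) =
      Wc w (det2 M) * E1 M * conj (E1 M) := by
    intro g hg M
    rw [det2_act, hE1, EC_act H (isCoef_bco H ⊤) F hg, map_mul]
    have := kub_mul_conj H g
    linear_combination (Wc w (det2 M) * EC (bco ⊤) F M * conj (EC (bco ⊤) F M)) * this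
  have hidx := relIndex_DelP hp.2 hp.1
  have i3 := integrable_nu_index le_top (isLev_DelP hp0) isLev_top hidx.1 hmeas
    (fun g hg M => by rw [hinv g hg M]) g3.1
  have e3 := integral_nu_index le_top (isLev_DelP hp0) isLev_top hidx.1 hmeas hinv g3.1
  -- the integral of the square
  set κ : ℝ := kp p with hκ
  have hκ0 := kp_nonneg p
  have hκ1 := kp_le_one p
  have hpt : ∀ M : K695.Frm, det2 M ≠ 0 →
      ENNReal.ofReal (w ‖det2 M‖) * ‖EC (coefK (Four813.ker (psiP p))) F M‖ₑ ^ 2 =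
      ENNReal.ofReal ((Wc w (det2 M) * Ep M * conj (Ep M) -
        ((2 * κ : ℝ) : ℂ) * (Wc w (det2 M) * E1 M * conj (Ep M)) +
        ((κ ^ 2 : ℝ) : ℂ) * (Wc w (det2 M) * E1 M * conj (E1 M))).re) := by
    intro M hM
    rw [EC_psiP Hs hp hF hM, ← ofReal_norm, ← ENNReal.ofReal_pow (norm_nonneg _),
      ← ENNReal.ofReal_mul (hw.nn _)]
    congr 1
    rw [← Complex.normSq_eq_norm_sq]
    simp only [Wc, Complex.normSq_apply, Complex.add_re, Complex.sub_re, Complex.mul_re,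
      Complex.mul_im, Complex.sub_im, Complex.ofReal_re, Complex.ofReal_im, Complex.conj_re,
      Complex.conj_im, ← hEp, ← hE1]
    ring
  unfold LN
  have hae : ∀ᵐ M ∂(nu (DelP p) p), (fun z => ENNReal.ofReal (w ‖z‖)) (det2 M) *
      ‖EC (coefK (Four813.ker (psiP p))) F M‖ₑ ^ 2 =
      ENNReal.ofReal ((Wc w (det2 M) * Ep M * conj (Ep M) -
        ((2 * κ : ℝ) : ℂ) * (Wc w (det2 M) * E1 M * conj (Ep M)) +
        ((κ ^ 2 : ℝ) : ℂ) * (Wc w (det2 M) * E1 M * conj (E1 M))).re) := by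
    filter_upwards [ae_det_nu (Δ := DelP p) (q := p)] with M hM
    exact hpt M hM
  rw [lintegral_congr_ae hae]
  have hint : Integrable (fun M : K695.Frm => Wc w (det2 M) * Ep M * conj (Ep M) -
        ((2 * κ : ℝ) : ℂ) * (Wc w (det2 M) * E1 M * conj (Ep M)) +
        ((κ ^ 2 : ℝ) : ℂ) * (Wc w (det2 M) * E1 M * conj (E1 M))) (nu (DelP p) p) :=
    (g1.1.sub (g2.1.const_mul _)).add (i3.const_mul _)
  have hnn : 0 ≤ᵐ[nu (DelP p) p] fun M : K695.Frm => (Wc w (det2 M) * Ep M * conj (Ep M) -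
        ((2 * κ : ℝ) : ℂ) * (Wc w (det2 M) * E1 M * conj (Ep M)) +
        ((κ ^ 2 : ℝ) : ℂ) * (Wc w (det2 M) * E1 M * conj (E1 M))).re := by
    refine Filter.Eventually.of_forall fun M => ?_
    have : (Wc w (det2 M) * Ep M * conj (Ep M) -
        ((2 * κ : ℝ) : ℂ) * (Wc w (det2 M) * E1 M * conj (Ep M)) +
        ((κ ^ 2 : ℝ) : ℂ) * (Wc w (det2 M) * E1 M * conj (E1 M))).re =
        w ‖det2 M‖ * Complex.normSq (Ep M - (κ : ℂ) * E1 M) := by
      simp only [Wc, Complex.normSq_apply, Complex.add_re, Complex.sub_re, Complex.mul_re,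
        Complex.mul_im, Complex.sub_im, Complex.ofReal_re, Complex.ofReal_im, Complex.conj_re,
        Complex.conj_im]
      ring
    simp only [Pi.zero_apply]
    rw [this]
    exact mul_nonneg (hw.nn _) (Complex.normSq_nonneg _)
  have hint2 : Integrable (fun M : K695.Frm => (Wc w (det2 M) * Ep M * conj (Ep M) -
        ((2 * κ : ℝ) : ℂ) * (Wc w (det2 M) * E1 M * conj (Ep M)) +
        ((κ ^ 2 : ℝ) : ℂ) * (Wc w (det2 M) * E1 M * conj (E1 M))).re) (nu (DelP p) p) := hint.re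
  rw [← ofReal_integral_eq_lintegral_ofReal hint2 hnn]
  apply ENNReal.ofReal_le_ofReal
  have h4 : ∫ M, (Wc w (det2 M) * Ep M * conj (Ep M) -
        ((2 * κ : ℝ) : ℂ) * (Wc w (det2 M) * E1 M * conj (Ep M)) +
        ((κ ^ 2 : ℝ) : ℂ) * (Wc w (det2 M) * E1 M * conj (E1 M))).re ∂(nu (DelP p) p) =
      (∫ M, (Wc w (det2 M) * Ep M * conj (Ep M) -
        ((2 * κ : ℝ) : ℂ) * (Wc w (det2 M) * E1 M * conj (Ep M)) +
        ((κ ^ 2 : ℝ) : ℂ) * (Wc w (det2 M) * E1 M * conj (E1 M))) ∂(nu (DelP p) p)).re :=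
    integral_re hint
  rw [h4, integral_comb g1.1 g2.1 i3, e3]
  -- nonnegativity at level 1
  have h5 : 0 ≤ (∫ M, Wc w (det2 M) * E1 M * conj (E1 M) ∂(nu ⊤ 1)).re := by
    have h6 : ∫ M, (Wc w (det2 M) * E1 M * conj (E1 M)).re ∂(nu ⊤ 1) =
        (∫ M, Wc w (det2 M) * E1 M * conj (E1 M) ∂(nu ⊤ 1)).re := integral_re g3.1
    rw [← h6]
    refine integral_nonneg fun M => ?_
    have : (Wc w (det2 M) * E1 M * conj (E1 M)).re = w ‖det2 M‖ * Complex.normSq (E1 M) := by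
      simp only [Wc, Complex.normSq_apply, Complex.mul_re, Complex.mul_im, Complex.ofReal_re,
        Complex.ofReal_im, Complex.conj_re, Complex.conj_im]
      ring
    rw [this]
    exact mul_nonneg (hw.nn _) (Complex.normSq_nonneg _)
  have h7 : (((DelP p).relIndex ⊤ : ℕ) : ℝ) ≤ (nm p : ℝ) + 1 := by exact_mod_cast hidx.2
  set J := ∫ M, Wc w (det2 M) * E1 M * conj (E1 M) ∂(nu ⊤ 1) with hJ
  have hJ2 : J = bco ⊤ (0, 1) * DD 1 w F + T1 := g3.2
  have h8 : (∫ M, Wc w (det2 M) * Ep M * conj (Ep M) ∂(nu (DelP p) p)) =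
    bco (DelP p) (0, 1) * DD p w F + Tp := g1.2
  have h9 : (∫ M, Wc w (det2 M) * E1 M * conj (Ep M) ∂(nu (DelP p) p)) =
    bco ⊤ (0, 1) * DD p w F + (nm p : ℂ) * T1 := g2.2
  rw [h8, h9]
  have hre : (bco (DelP p) (0, 1) * DD p w F + Tp -
      ((2 * κ : ℝ) : ℂ) * (bco ⊤ (0, 1) * DD p w F + (nm p : ℂ) * T1) +
      ((κ ^ 2 : ℝ) : ℂ) * ((((DelP p).relIndex ⊤ : ℕ) : ℂ) * J)).re =
      (bco (DelP p) (0, 1) * DD p w F).re + Tp.re - 2 * κ * (bco ⊤ (0, 1) * DD p w F).re -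
      2 * κ * nm p * T1.re + κ ^ 2 * (((DelP p).relIndex ⊤ : ℕ) : ℝ) * J.re := by
    simp only [Complex.add_re, Complex.sub_re]
    rw [Complex.re_ofReal_mul, Complex.re_ofReal_mul, Complex.add_re]
    rw [← Complex.ofReal_natCast, ← Complex.ofReal_natCast, Complex.re_ofReal_mul,
      Complex.re_ofReal_mul]
    ring
  rw [hre]
  have h10 : κ ^ 2 * (((DelP p).relIndex ⊤ : ℕ) : ℝ) * J.re ≤
      κ ^ 2 * ((nm p : ℝ) + 1) * J.re := by gcongr
  have hJre : J.re = (bco ⊤ (0, 1) * DD 1 w F).re + T1.re := by rw [hJ2, Complex.add_re]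
  have hk2 : κ ^ 2 * ((nm p : ℝ) + 1) = (nm p : ℝ) ^ 2 / ((nm p : ℝ) + 1) := by
    rw [hκ]; unfold kp
    field_simp
  have hk1 : 2 * κ * nm p = 2 * ((nm p : ℝ) ^ 2 / ((nm p : ℝ) + 1)) := by
    rw [hκ]; unfold kp
    ring
  have b1 : (bco (DelP p) (0, 1) * DD p w F).re ≤ ‖DD p w F‖ := by
    refine (Complex.re_le_norm _).trans ?_
    rw [norm_mul]
    have := (isCoef_bco H (DelP p)).bdd (0, 1)
    nlinarith [norm_nonneg (DD p w F)]
  have b2 : |(bco ⊤ (0, 1) * DD p w F).re| ≤ ‖DD p w F‖ := by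
    refine (Complex.abs_re_le_norm _).trans ?_
    rw [norm_mul]
    have := (isCoef_bco H ⊤).bdd (0, 1)
    nlinarith [norm_nonneg (DD p w F)]
  have b3 : (bco ⊤ (0, 1) * DD 1 w F).re ≤ ‖DD 1 w F‖ := by
    refine (Complex.re_le_norm _).trans ?_
    rw [norm_mul]
    have := (isCoef_bco H ⊤).bdd (0, 1)
    nlinarith [norm_nonneg (DD 1 w F)]
  have b4 : (Tp - ((nm p : ℂ) ^ 2 / ((nm p : ℂ) + 1)) * T1).re ≤
      ‖Tp - ((nm p : ℂ) ^ 2 / ((nm p : ℂ) + 1)) * T1‖ := Complex.re_le_norm _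
  have b5 : (Tp - ((nm p : ℂ) ^ 2 / ((nm p : ℂ) + 1)) * T1).re =
      Tp.re - (nm p : ℝ) ^ 2 / ((nm p : ℝ) + 1) * T1.re := by
    have e : ((nm p : ℂ) ^ 2 / ((nm p : ℂ) + 1)) = (((nm p : ℝ) ^ 2 / ((nm p : ℝ) + 1) : ℝ) : ℂ) := by
      push_cast; ring
    rw [Complex.sub_re, e, Complex.re_ofReal_mul]
  have b6 : -(2 * κ * (bco ⊤ (0, 1) * DD p w F).re) ≤ 2 * ‖DD p w F‖ := by
    have h11 : -(bco ⊤ (0, 1) * DD p w F).re ≤ ‖DD p w F‖ := (neg_le_abs _).trans b2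
    have h12 : 0 ≤ ‖DD p w F‖ := norm_nonneg _
    nlinarith
  have hk3 : κ ^ 2 * ((nm p : ℝ) + 1) ≤ (nm p : ℝ) + 1 := by
    have : κ ^ 2 ≤ 1 := by nlinarith
    nlinarith
  have hk4 : 0 ≤ κ ^ 2 * ((nm p : ℝ) + 1) := by positivity
  have b7 : κ ^ 2 * ((nm p : ℝ) + 1) * (bco ⊤ (0, 1) * DD 1 w F).re ≤
      ((nm p : ℝ) + 1) * ‖DD 1 w F‖ := by
    calc κ ^ 2 * ((nm p : ℝ) + 1) * (bco ⊤ (0, 1) * DD 1 w F).re
        ≤ κ ^ 2 * ((nm p : ℝ) + 1) * ‖DD 1 w F‖ := by gcongr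
      _ ≤ _ := by gcongr
  rw [hJre] at h10
  rw [b5] at b4
  have h13 : κ ^ 2 * ((nm p : ℝ) + 1) * ((bco ⊤ (0, 1) * DD 1 w F).re + T1.re) =
      κ ^ 2 * ((nm p : ℝ) + 1) * (bco ⊤ (0, 1) * DD 1 w F).re +
      (nm p : ℝ) ^ 2 / ((nm p : ℝ) + 1) * T1.re := by
    rw [mul_add]; nth_rewrite 2 [hk2]; ring
  rw [h13] at h10
  have h14 : 2 * κ * nm p * T1.re = 2 * ((nm p : ℝ) ^ 2 / ((nm p : ℝ) + 1)) * T1.re := by
    rw [hk1]
  rw [h14]
  have h15 : κ ^ 2 * (((DelP p).relIndex ⊤ : ℕ) : ℝ) * J.re ≤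
      κ ^ 2 * ((nm p : ℝ) + 1) * (bco ⊤ (0, 1) * DD 1 w F).re +
      (nm p : ℝ) ^ 2 / ((nm p : ℝ) + 1) * T1.re := by
    rw [hJre]; exact h10
  linarith

end level

/-- the Gram sum of `bco ⊤` at level `p` -/
lemma TT_top_level (Hs : SyFacts) {p : Eis} (hp : p ≠ 0) {α β : ℝ} {w : ℝ → ℝ} (hw : WP α β w)
    {a' b' : ℝ} {F : ℂ × ℂ → ℂ} (hF : CF a' b' F) {B : ℝ} (hB : 0 < B) :
    TT p (bco ⊤) w F B = (nm p : ℂ) * TT 1 (bco ⊤) w F B := by
  rw [TT_eq (cubeCoef_top_level Hs hp) hw hF hB, TT_eq (cubeCoef_top Hs) hw hF hB]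
  have e : ∀ m : Eis, (if m = 0 then (0 : ℂ) else
      (nm p : ℂ) * ((PE m : ℝ) : ℂ) * (((rho3 m ^ 6)⁻¹ : ℝ) : ℂ) *
        ∫ p : X2, ((w (‖dt p.1 p.2‖ / rho3 m ^ 3) : ℝ) : ℂ) * FF (dilB B F) (dilB B F) p) =
      (nm p : ℂ) * (if m = 0 then (0 : ℂ) else ((PE m : ℝ) : ℂ) * (((rho3 m ^ 6)⁻¹ : ℝ) : ℂ) *
        ∫ p : X2, ((w (‖dt p.1 p.2‖ / rho3 m ^ 3) : ℝ) : ℂ) * FF (dilB B F) (dilB B F) p) := by
    intro m
    split_ifs
    · rw [mul_zero]
    · ring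
  rw [tsum_congr e, tsum_mul_left]
  ring

/-- **Explicit bound at level `p`.** -/
theorem LN_bound (H : SyAPI) (Hs : SyFacts) {p : Eis} (hp : IsPP p) {α β : ℝ} {w : ℝ → ℝ}
    (hw : WP α β w) {a b : ℝ} {F : ℂ × ℂ → ℂ} (ha : 0 < a) (hb : 0 ≤ b) (hF : CF a b F) :
    ∃ C : ℝ, 0 ≤ C ∧ ∀ B : ℝ, 1 ≤ B →
      LN (DelP p) p (psiP p) (fun z => ENNReal.ofReal (w ‖z‖)) (dilB B F) ≤
        ENNReal.ofReal (C * B ^ ((7 : ℝ) / 3)) := by
  have hw' := hw.supp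
  obtain ⟨C₀, hC₀, h0⟩ := latHyp_PE hw.cd hw.pos hw.bnn hw' (τ := 1 / 3) (by norm_num) (by norm_num)
  obtain ⟨C₁, hC₁, h1⟩ := latHyp_level hw.cd hw.pos hw.bnn hw' (τ := 1 / 3) (by norm_num)
    (by norm_num) hp
  obtain ⟨D₀, hD₀, g0⟩ := TT_bound (cubeCoef_top Hs) hw h0 ha hb hF
  obtain ⟨D₁, hD₁, g1⟩ := TT_bound (cubeCoef_DelP Hs hp) hw h1 ha hb hF
  have hN : (0 : ℝ) ≤ nm p := Nat.cast_nonneg _
  set ν : ℝ := (nm p : ℝ) ^ 2 / ((nm p : ℝ) + 1) with hν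
  have hν0 : 0 ≤ ν := by rw [hν]; positivity
  have hνc : ((nm p : ℂ) ^ 2 / ((nm p : ℂ) + 1)) = (ν : ℂ) := by rw [hν]; push_cast; ring
  set Q : ℝ := ‖∫ s, Wc w s‖ * ‖∫ u, F u * conj (F u)‖ with hQ
  have hQ0 : 0 ≤ Q := by rw [hQ]; positivity
  have hs1 := slabVol_nonneg p
  have hs2 := slabVol_nonneg 1
  refine ⟨D₁ + ν * D₀ + 3 * (slabVol p * Q) + ((nm p : ℝ) + 1) * (slabVol 1 * Q), by positivity,
    fun B hB => ?_⟩
  have hB0 : 0 < B := by linarith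
  have hT := TT_top_level Hs hp.ne_zero hw hF hB0
  refine (level_le hw H Hs hp (bs_dilB hF hB0) hT).trans (ENNReal.ofReal_le_ofReal ?_)
  have hB2 : B ^ 2 ≤ B ^ ((7 : ℝ) / 3) := by
    rw [← Real.rpow_natCast B 2]
    exact Real.rpow_le_rpow_of_exponent_le hB (by norm_num)
  have hDD : ∀ q : Eis, q ≠ 0 → ‖DD q w (dilB B F)‖ ≤ slabVol q * Q * B ^ ((7 : ℝ) / 3) := by
    intro q hq
    rw [(integrableOn_slab hw hq (bs_dilB hF hB0)).2, integral_dilB hB0, norm_mul, norm_mul,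
      norm_mul, Complex.norm_real, Real.norm_of_nonneg (slabVol_nonneg q), norm_pow,
      Complex.norm_real, Real.norm_of_nonneg hB0.le]
    have := slabVol_nonneg q
    calc slabVol q * ‖∫ s, Wc w s‖ * (B ^ 2 * ‖∫ u, F u * conj (F u)‖)
        = slabVol q * Q * B ^ 2 := by rw [hQ]; ring
      _ ≤ _ := by gcongr
  have hA : ‖TT p (bco (DelP p)) w F B - (ν : ℂ) * TT 1 (bco ⊤) w F B‖ ≤
      (D₁ + ν * D₀) * B ^ ((7 : ℝ) / 3) := by
    have e : TT p (bco (DelP p)) w F B - (ν : ℂ) * TT 1 (bco ⊤) w F B =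
        (TT p (bco (DelP p)) w F B - kap1 w * (nm p) ^ 2 / (nm p + 1) / 3 * II F B) -
        (ν : ℂ) * (TT 1 (bco ⊤) w F B - kap1 w / 3 * II F B) := by
      rw [← hνc]; ring
    rw [e]
    refine (norm_sub_le _ _).trans ?_
    rw [norm_mul, Complex.norm_real, Real.norm_of_nonneg hν0, add_mul]
    have i1 := g1 B hB
    have i0 := g0 B hB
    have : ν * ‖TT 1 (bco ⊤) w F B - kap1 w / 3 * II F B‖ ≤ ν * D₀ * B ^ ((7 : ℝ) / 3) := by
      rw [mul_assoc]; gcongr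
    linarith
  have hd1 := hDD p hp.ne_zero
  have hd2 := hDD 1 one_ne_zero
  rw [hνc]
  have hA' : ‖(∑' c : Eis, gterm p (bco (DelP p)) (Wc w) (dilB B F) (dilB B F) c) - (ν : ℂ) *
      ∑' c : Eis, gterm 1 (bco ⊤) (Wc w) (dilB B F) (dilB B F) c‖ ≤
      (D₁ + ν * D₀) * B ^ ((7 : ℝ) / 3) := hA
  have hd2' : ((nm p : ℝ) + 1) * ‖DD 1 w (dilB B F)‖ ≤
      ((nm p : ℝ) + 1) * (slabVol 1 * Q * B ^ ((7 : ℝ) / 3)) := by gcongr
  calc _ ≤ (D₁ + ν * D₀) * B ^ ((7 : ℝ) / 3) + 3 * (slabVol p * Q * B ^ ((7 : ℝ) / 3)) +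
        ((nm p : ℝ) + 1) * (slabVol 1 * Q * B ^ ((7 : ℝ) / 3)) := by linarith
    _ = _ := by ring

/-- **The Gram input at level `p`.** -/
theorem gramO (H : SyAPI) (Hs : SyFacts) {p : Eis} (hp : IsPP p) {α β : ℝ} {w : ℝ → ℝ}
    (hw : WP α β w) : GramO (DelP p) p (psiP p) (fun z => ENNReal.ofReal (w ‖z‖)) := by
  intro a b F ha hF
  obtain ⟨C, hC, h⟩ := LN_bound H Hs hp hw ha (le_max_right b 0) (hF.mono (le_max_left b 0))
  have h1 : Tendsto (fun B : ℝ => ENNReal.ofReal (C * B ^ (-(1 / 3 : ℝ)))) atTop (𝓝 0) := by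
    have h2 := (tendsto_rpow_neg_atTop (y := 1 / 3) (by norm_num)).const_mul C
    rw [mul_zero] at h2
    have h3 := (ENNReal.continuous_ofReal.tendsto 0).comp h2
    rwa [ENNReal.ofReal_zero] at h3
  refine tendsto_of_tendsto_of_tendsto_of_le_of_le' tendsto_const_nhds h1
    (Filter.Eventually.of_forall fun _ => bot_le) ?_
  filter_upwards [eventually_ge_atTop (1 : ℝ)] with B hB
  have hB0 : 0 < B := by linarith
  have h4 : C * B ^ (-(1 / 3 : ℝ)) = C * B ^ ((7 : ℝ) / 3) / B ^ ((8 : ℝ) / 3) := by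
    rw [mul_div_assoc, ← Real.rpow_sub hB0]; norm_num
  rw [h4, ENNReal.ofReal_div_of_pos (by positivity)]
  gcongr
  exact h B hB

/-- a smooth cut-off, `= 1` on `[1,4]` -/
def w0 (x : ℝ) : ℝ := Real.smoothTransition (4 * x - 2) * Real.smoothTransition (6 - x)

lemma wp_w0 : WP (1 / 2) 6 w0 where
  pos := by norm_num
  bnn := by norm_num
  cd := by
    unfold w0
    exact (Real.smoothTransition.contDiff.comp (by fun_prop)).mul
      (Real.smoothTransition.contDiff.comp (by fun_prop))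
  nn x := mul_nonneg (Real.smoothTransition.nonneg _) (Real.smoothTransition.nonneg _)
  supp x hx := by
    unfold w0 at hx
    constructor
    · by_contra h
      exact hx (by rw [Real.smoothTransition.zero_of_nonpos (by linarith), zero_mul])
    · by_contra h
      exact hx (by rw [Real.smoothTransition.zero_of_nonpos (x := 6 - x) (by linarith), mul_zero])

lemma w0_eq_one {x : ℝ} (h1 : 1 ≤ x) (h2 : x ≤ 4) : w0 x = 1 := by
  unfold w0
  rw [Real.smoothTransition.one_of_one_le (by linarith),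
    Real.smoothTransition.one_of_one_le (by linarith), one_mul]

/-- **`GramP`** : the Gram input for the residue relations holds at every primary prime. -/
theorem gramP_of (H : SyAPI) (Hs : SyFacts) : GramP := by
  intro p hp hpp
  refine ⟨fun z => ENNReal.ofReal (w0 ‖z‖), ?_, ?_, gramO H Hs ⟨hpp, hp⟩ wp_w0⟩
  · exact ENNReal.measurable_ofReal.comp (wp_w0.cd.continuous.measurable.comp measurable_norm)
  · intro z h1 h2
    simp only [w0_eq_one h1 h2, ENNReal.ofReal_one, le_refl]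

theorem gramP : GramP := gramP_of Sym645.syAPI Sym645.syFacts

/-- **The residue relations** from the mean square theorem alone. -/
theorem rhoRel_of_MS1 {ρ : Eis → ℂ} (hMS : M49.MS1 ρ) : M49.RhoRel ρ := rhoRel_of_gram hMS gramP

end Crest.Agent.R012.GramP681
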