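import Crest.Agent.R012.GramEx_988
import Crest.Agent.R012.GramD_858
import Crest.Agent.R012.Index_681
import Crest.Agent.R012.SlabVol_681
import Crest.Agent.R012.CharSumP_852

/-!
# Row 12 (M): the Gram formula over the cubes, at level `1` and at level `p` (coefficient side)

* `CubeCoef q a P` : `∑_{d mod 3qc} a(c,d)` vanishes unless `c = (λm)³`, where it is `P m N(c)`
* `cubeCoef_top`, `cubeCoef_top_level`, `cubeCoef_DelP`
* `tsum_gterm` : the Gram sum is `1/3 ∑_{m ≠ 0} P m ρ(m)^{-6} ∫∫ w(|det|/ρ(m)³) F' conj F`.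
-/

set_option autoImplicit false

noncomputable section

open MeasureTheory Complex
open scoped ENNReal ComplexConjugate

namespace Crest.Agent.R012.GramP681

open Crest.Agent.R012 Eis K695 K695.Gram988 Gram858 CharSum852 Mob705

/-! ### Sums over residue classes -/

lemma three_ne : (3 : Eis) ≠ 0 := Eis.three_ne_zero'

lemma bco_top_eq (Hs : SyFacts) {c : Eis} (hc : (3 : Eis) ∣ c) (d : Eis) :
    bco ⊤ (c, d) = conj (fS c d) := by
  classical
  unfold bco fS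
  rw [rowsOf_top]
  by_cases h : IsRow (c, d)
  · rw [if_pos (show (c, d) ∈ {r | IsRow r} from h), if_pos h.2.2]
  · rw [if_neg (show (c, d) ∉ {r | IsRow r} from h)]
    split_ifs with h1
    · have h2 : ¬ IsCoprime c d := fun h3 => h ⟨h3, hc, h1⟩
      rw [(Hs.eq_zero c d h1).mpr h2, map_zero]
    · rw [map_zero]

lemma bco_DelP_eq (Hs : SyFacts) {p : Eis} (hp : IsPP p) {c : Eis} (hc : (3 : Eis) ∣ c) (d : Eis) :
    bco (DelP p) (c, d) = conj (fSP p c d) := by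
  classical
  unfold bco fSP
  rw [rowsOf_DelP]
  by_cases h : IsRow (c, d) ∧ IsCoprime p d
  · rw [if_pos (show (c, d) ∈ {r | IsRow r ∧ IsCoprime p r.2} from h),
      if_pos ⟨h.1.2.2, hp.isCoprime_iff.mp h.2⟩]
  · rw [if_neg (show (c, d) ∉ {r | IsRow r ∧ IsCoprime p r.2} from h)]
    split_ifs with h1
    · have h2 : ¬ IsCoprime c d := fun h3 => h ⟨⟨h3, hc, h1.1⟩, hp.isCoprime_iff.mpr h1.2⟩
      rw [(Hs.eq_zero c d h1.1).mpr h2, map_zero]
    · rw [map_zero]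

lemma bco_eq_zero {Δ : Subgroup Gam} {c : Eis} (hc : ¬ (3 : Eis) ∣ c) (d : Eis) :
    bco Δ (c, d) = 0 := by
  classical
  unfold bco
  rw [if_neg]
  intro h
  exact hc (rowsOf_isRow h).2.1

/-- The residue sums of the coefficient function `a` at level `q`. -/
structure CubeCoef (q : Eis) (a : Eis × Eis → ℂ) (P : Eis → ℂ) : Prop where
  z3 : ∀ c : Eis, c ≠ 0 → ¬ (3 : Eis) ∣ c → sumMod (3 * q * c) (fun d => a (c, d)) = 0
  zc : ∀ c : Eis, c ≠ 0 → (3 : Eis) ∣ c → (¬ ∃ e, c = e ^ 3) →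
    sumMod (3 * q * c) (fun d => a (c, d)) = 0
  val : ∀ m : Eis, m ≠ 0 → sumMod (3 * q * (lam * m) ^ 3) (fun d => a ((lam * m) ^ 3, d)) =
    P m * (nm ((lam * m) ^ 3) : ℂ)

lemma three_dvd_lam_cube (m : Eis) : (3 : Eis) ∣ (lam * m) ^ 3 := by
  rw [mul_pow, pow_succ lam 2]
  exact Dvd.dvd.mul_right (Dvd.dvd.mul_right three_dvd_lam_sq _) _

lemma lam_cube_ne {m : Eis} (hm : m ≠ 0) : (lam * m) ^ 3 ≠ 0 :=
  pow_ne_zero _ (mul_ne_zero lam_ne_zero hm)

lemma Ssum_lam_cube (Hs : SyFacts) {m : Eis} (hm : m ≠ 0) :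
    Ssum ((lam * m) ^ 3) = ((PE m : ℝ) : ℂ) * (nm ((lam * m) ^ 3) : ℂ) := by
  rw [Ssum_cube Hs (mul_ne_zero lam_ne_zero hm), psi_lam_cube hm]
  push_cast
  ring

lemma sum_top (Hs : SyFacts) {c : Eis} (hc0 : c ≠ 0) (hc : (3 : Eis) ∣ c) :
    sumMod (3 * 1 * c) (fun d => bco ⊤ (c, d)) = conj (Ssum c) := by
  rw [mul_one, sumMod_congr (fun d => bco_top_eq Hs hc d), Ssum,
    sumMod_star (mul_ne_zero three_ne hc0)]

lemma sum_top_level (Hs : SyFacts) {p c : Eis} (hp : p ≠ 0) (hc0 : c ≠ 0) (hc : (3 : Eis) ∣ c) :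
    sumMod (3 * p * c) (fun d => bco ⊤ (c, d)) = (nm p : ℂ) * conj (Ssum c) := by
  have e : 3 * p * c = 3 * c * p := by ring
  rw [e, sumMod_congr (fun d => bco_top_eq Hs hc d),
    ← sumMod_star (mul_ne_zero (mul_ne_zero three_ne hc0) hp), sumMod_fS_level Hs hp hc0 hc,
    map_mul, Complex.conj_natCast]

lemma sum_DelP (Hs : SyFacts) {p c : Eis} (hp : IsPP p) (hc0 : c ≠ 0) (hc : (3 : Eis) ∣ c) :
    sumMod (3 * p * c) (fun d => bco (DelP p) (c, d)) =
      (open Classical in if p ∣ c then (nm p : ℂ) else (nm p - 1 : ℂ)) * conj (Ssum c) := by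
  classical
  have e : 3 * p * c = 3 * c * p := by ring
  rw [e, sumMod_congr (fun d => bco_DelP_eq Hs hp hc d),
    ← sumMod_star (mul_ne_zero (mul_ne_zero three_ne hc0) hp.ne_zero)]
  have e2 : sumMod (3 * c * p) (fSP p c) = SsumP p c := rfl
  rw [e2]
  by_cases h : p ∣ c
  · rw [if_pos h, SsumP_of_dvd Hs hp.2 hc0 hc h, map_mul, Complex.conj_natCast]
  · rw [if_neg h, SsumP_of_not_dvd Hs hp.2 hp.1 hc0 hc h, map_mul, map_sub, map_one,
      Complex.conj_natCast]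

lemma sumMod_zero_of {q : Eis} {a : Eis × Eis → ℂ} {c : Eis} (h : ∀ d, a (c, d) = 0)
    (hq : 3 * q * c ≠ 0) : sumMod (3 * q * c) (fun d => a (c, d)) = 0 := by
  rw [sumMod_congr h, sumMod_const hq, mul_zero]

theorem cubeCoef_top (Hs : SyFacts) :
    CubeCoef 1 (bco ⊤) (fun m => ((PE m : ℝ) : ℂ)) where
  z3 c hc0 hc := sumMod_zero_of (fun d => bco_eq_zero hc d)
    (mul_ne_zero (mul_ne_zero three_ne one_ne_zero) hc0)
  zc c hc0 hc hn := by rw [sum_top Hs hc0 hc, Ssum_eq_zero Hs hc0 hc hn, map_zero]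
  val m hm := by
    rw [sum_top Hs (lam_cube_ne hm) (three_dvd_lam_cube m), Ssum_lam_cube Hs hm, map_mul,
      Complex.conj_natCast, Complex.conj_ofReal]

theorem cubeCoef_top_level (Hs : SyFacts) {p : Eis} (hp : p ≠ 0) :
    CubeCoef p (bco ⊤) (fun m => (nm p : ℂ) * ((PE m : ℝ) : ℂ)) where
  z3 c hc0 hc := sumMod_zero_of (fun d => bco_eq_zero hc d)
    (mul_ne_zero (mul_ne_zero three_ne hp) hc0)
  zc c hc0 hc hn := by rw [sum_top_level Hs hp hc0 hc, Ssum_eq_zero Hs hc0 hc hn, map_zero, mul_zero]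
  val m hm := by
    rw [sum_top_level Hs hp (lam_cube_ne hm) (three_dvd_lam_cube m), Ssum_lam_cube Hs hm, map_mul,
      Complex.conj_natCast, Complex.conj_ofReal]
    ring

lemma dvd_lam_cube_iff {p : Eis} (hp : IsPP p) (m : Eis) : p ∣ (lam * m) ^ 3 ↔ p ∣ m := by
  constructor
  · intro h
    rcases hp.2.dvd_or_dvd (hp.2.dvd_of_dvd_pow h) with h1 | h1
    · exfalso
      have h2 : Associated p lam := hp.2.associated_of_dvd prime_lam h1
      exact hp.1.not_lam_dvd h2.symm.dvd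
    · exact h1
  · intro h
    exact dvd_pow (h.mul_left _) (by norm_num)

theorem cubeCoef_DelP (Hs : SyFacts) {p : Eis} (hp : IsPP p) :
    CubeCoef p (bco (DelP p)) (fun m => open Classical in
      (if p ∣ m then (nm p : ℂ) else (nm p - 1 : ℂ)) * ((PE m : ℝ) : ℂ)) where
  z3 c hc0 hc := sumMod_zero_of (fun d => bco_eq_zero hc d)
    (mul_ne_zero (mul_ne_zero three_ne hp.ne_zero) hc0)
  zc c hc0 hc hn := by rw [sum_DelP Hs hp hc0 hc, Ssum_eq_zero Hs hc0 hc hn, map_zero, mul_zero]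
  val m hm := by
    classical
    rw [sum_DelP Hs hp (lam_cube_ne hm) (three_dvd_lam_cube m), Ssum_lam_cube Hs hm, map_mul,
      Complex.conj_natCast, Complex.conj_ofReal]
    simp only [dvd_lam_cube_iff hp m]
    ring

/-! ### The Gram sum over the cubes -/

lemma nm_lam_cube (m : Eis) : (nm ((lam * m) ^ 3) : ℝ) = rho3 m ^ 6 := by
  unfold rho3
  rw [nm_pow, nm_mul, Eis.nm_lam]
  push_cast
  have h3 : Real.sqrt 3 ^ 6 = 27 := by
    have : Real.sqrt 3 ^ 6 = (Real.sqrt 3 ^ 2) ^ 3 := by ring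
    rw [this, Real.sq_sqrt (by norm_num)]; norm_num
  have h4 : (nm m : ℝ) = ‖toC m‖ ^ 2 := (norm_toC_sq m).symm
  rw [mul_pow (Real.sqrt 3), h3, h4]
  ring

lemma norm_toC_lam_cube (m : Eis) : ‖toC ((lam * m) ^ 3)‖ = rho3 m ^ 3 := by
  have h1 : ‖toC ((lam * m) ^ 3)‖ ^ 2 = (rho3 m ^ 3) ^ 2 := by
    rw [norm_toC_sq, nm_lam_cube]; ring
  exact (pow_left_inj₀ (norm_nonneg _) (by unfold rho3; positivity) two_ne_zero).mp h1

/-- the cut-off `w(|z|)` as a function on `ℂ`. -/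
def Wc (w : ℝ → ℝ) (z : ℂ) : ℂ := ((w ‖z‖ : ℝ) : ℂ)

lemma integral_G0_cube (w : ℝ → ℝ) (F' F : Vec → ℂ) {m : Eis} (_hm : m ≠ 0) :
    ∫ M, G0 (Wc w) F' F (toC ((lam * m) ^ 3)) M =
      ∫ p : X2, ((w (‖dt p.1 p.2‖ / rho3 m ^ 3) : ℝ) : ℂ) * FF F' F p := by
  refine integral_congr_ae (Filter.Eventually.of_forall fun M => ?_)
  simp only [G0, Wc, FF, norm_div, norm_toC_lam_cube]
  have e : dt M.1 M.2 = det2 M := rfl
  rw [e]
  ring

theorem tsum_gterm {q : Eis} {a : Eis × Eis → ℂ} {P : Eis → ℂ} (hP : CubeCoef q a P)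
    {w : ℝ → ℝ} (hW : Cut (Wc w)) {F' F : Vec → ℂ} (hF' : BS F') (hF : BS F) :
    ∑' c : Eis, gterm q a (Wc w) F' F c = (1 / 3) * ∑' m : Eis, if m = 0 then (0 : ℂ) else
      P m * (((rho3 m ^ 6)⁻¹ : ℝ) : ℂ) *
        ∫ p : X2, ((w (‖dt p.1 p.2‖ / rho3 m ^ 3) : ℝ) : ℂ) * FF F' F p := by
  have hs := summable_gterm hW hF' hF q a
  obtain ⟨K, hK⟩ := gterm_eq_zero hW hF' hF
  have h3 : ∀ c, gterm q a (Wc w) F' F c ≠ 0 → (3 : Eis) ∣ c := by
    intro c h
    by_contra hc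
    apply h
    unfold gterm
    split_ifs with h0
    · rfl
    · rw [hP.z3 c h0 hc, zero_mul, zero_mul]
  have hcube : ∀ c, gterm q a (Wc w) F' F c ≠ 0 → ∃ e, c = e ^ 3 := by
    intro c h
    by_contra hc
    apply h
    unfold gterm
    split_ifs with h0
    · rfl
    · rw [hP.zc c h0 (h3 c h) hc, zero_mul, zero_mul]
  have hsum : Summable fun m : Eis => gterm q a (Wc w) F' F (m ^ 3) := by
    apply summable_of_hasFiniteSupport
    refine (ball K).finite_toSet.subset ?_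
    intro m hm
    rw [Function.mem_support] at hm
    rw [Finset.mem_coe, mem_ball]
    by_contra h
    apply hm
    apply hK
    rw [nm_pow]
    have h1 : K < nm m := not_le.mp h
    calc K < nm m := h1
      _ ≤ nm m ^ 3 := Nat.le_self_pow (by norm_num) _
  rw [tsum_cubes_lam (by simp [gterm]) hcube h3 hsum]
  congr 1
  refine tsum_congr fun m => ?_
  by_cases hm : m = 0
  · subst hm
    simp [gterm]
  · rw [if_neg hm]
    unfold gterm
    rw [if_neg (lam_cube_ne hm), hP.val m hm, integral_G0_cube w F' F hm]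
    have h0 : (nm ((lam * m) ^ 3) : ℂ) ≠ 0 := by
      exact_mod_cast (nm_pos.mpr (lam_cube_ne hm)).ne'
    rw [← nm_lam_cube m]
    push_cast
    field_simp

end Crest.Agent.R012.GramP681
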