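import Crest.Agent.R012.GramD_858

/-!
# Row 12 (M-R): the weights of the level `p` step have no main term

`latHyp_level_p` : `LatHyp` for `PE m * ([p ∣ m] - 1/(N p + 1))` with `κ = 0`.
-/

set_option autoImplicit false

noncomputable section

open MeasureTheory Set Complex Filter
open scoped ENNReal ComplexConjugate Topology

namespace Crest.Agent.R012.LatP988

open Crest.Agent.R012 Crest.Agent.R012.Eis Crest.Agent.R012.LatSum413 Crest.Agent.R012.Gram858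
  Crest.Agent.R012.Mob705

open Classical in
/-- The weight at level `p`. -/
def Pp (p m : Eis) : ℂ :=
  ((PE m : ℝ) : ℂ) * ((if p ∣ m then 1 else 0) - 1 / ((nm p : ℂ) + 1))

/-- **No main term at level `p`.** -/
theorem latHyp_level_p {w : ℝ → ℝ} (hwd : ContDiff ℝ 2 w) {α β : ℝ} (hα : 0 < α) (hβ : 0 ≤ β)
    (hw : ∀ x, w x ≠ 0 → α ≤ x ∧ x ≤ β) {τ : ℝ} (hτ0 : 0 < τ) (hτ : τ < 2 / 3) :
    ∃ C₀ : ℝ, 0 ≤ C₀ ∧ ∀ p : Eis, IsPP p → LatHyp (Pp p) w 0 C₀ τ := by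
  classical
  obtain ⟨C₀, hC₀, h⟩ := latHyp_PE hwd hα hβ hw hτ0 hτ
  obtain ⟨C₁, hC₁, h'⟩ := latHyp_PE_dvd hwd hα hβ hw hτ0 hτ
  refine ⟨C₁ + C₀, by positivity, fun p hp => ?_⟩
  have hw0 : ∀ x < α, w x = 0 := by
    intro x hx
    by_contra hne
    exact absurd (hw x hne).1 (not_le.mpr hx)
  have hN : (1 : ℝ) < nm p := by exact_mod_cast hp.one_lt_nm
  have hn : ‖-(1 / ((nm p : ℂ) + 1))‖ ≤ 1 := by
    have e : -(1 / ((nm p : ℂ) + 1)) = ((-(1 / ((nm p : ℝ) + 1)) : ℝ) : ℂ) := by push_cast; ring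
    rw [e, Complex.norm_real, Real.norm_eq_abs, abs_neg, abs_of_nonneg (by positivity),
      div_le_one (by linarith)]
    linarith
  have h1 := (h.smul (-(1 / ((nm p : ℂ) + 1)))).mono (C₁ := C₀) (by
    calc ‖-(1 / ((nm p : ℂ) + 1))‖ * C₀ ≤ 1 * C₀ := by gcongr
      _ = C₀ := one_mul _)
  have h2 := (h' p hp).add hα hw0 h1
  have hκ : kap1 w / ((nm p : ℂ) + 1) + -(1 / ((nm p : ℂ) + 1)) * kap1 w = 0 := by ring
  rw [hκ] at h2
  refine h2.congr ?_
  intro m _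
  unfold Pp
  by_cases hpm : p ∣ m
  · simp only [hpm, if_true]; ring
  · simp only [hpm, if_false]; ring

end Crest.Agent.R012.LatP988
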