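import Crest.Agent.R012.Pair_695

/-!
# Row 12 (M-U), part 5: equivariant series and the pairing theorem
-/

set_option autoImplicit false

noncomputable section

open MeasureTheory Complex
open scoped ENNReal

namespace Crest.Agent.R012.K695

open Eis

/-- Bounded measurable functions with bounded support. -/
structure BS (F : Vec → ℂ) : Prop where
  meas : Measurable F
  bdd : ∃ C : ℝ, ∀ u, ‖F u‖ ≤ C
  supp : ∃ R : ℝ, ∀ u, R < n2 u → F u = 0

/-- Equivariant coefficient functions on the rows. -/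
structure IsCoef (Δ : Subgroup Gam) (a : Eis × Eis → ℂ) : Prop where
  supp : ∀ r, a r ≠ 0 → IsRow r
  bdd : ∀ r, ‖a r‖ ≤ 1
  equiv : ∀ g ∈ Δ, ∀ r, a (rmul r g) = (starRingEnd ℂ) (kub g) * a r

/-- The series `Σ a(r) F(c η + d ζ)`. -/
def EC (a : Eis × Eis → ℂ) (F : Vec → ℂ) (M : Frm) : ℂ :=
  ∑' r : Eis × Eis, a r * F (rowv r M)

lemma measurable_EC {a : Eis × Eis → ℂ} {F : Vec → ℂ} (hF : Measurable F) :
    Measurable (EC a F) := by
  unfold EC
  exact Measurable.tsum fun r => (hF.comp (measurable_rowv r)).const_mul (a r)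

lemma summable_EC {a : Eis × Eis → ℂ} {F : Vec → ℂ} (hF : BS F) {M : Frm} (hM : det2 M ≠ 0) :
    Summable (fun r : Eis × Eis => a r * F (rowv r M)) := by
  obtain ⟨R, hR⟩ := hF.supp
  apply summable_of_hasFiniteSupport
  refine (finite_rowv hM R).subset ?_
  intro r hr
  rw [Function.mem_support] at hr
  by_contra h
  simp only [Set.mem_ofPred_eq, not_le] at h
  exact hr (by rw [hR _ h, mul_zero])

/-- Right multiplication on all rows. -/
def allEquiv (g : Gam) : Eis × Eis ≃ Eis × Eis where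
  toFun r := rmul r g
  invFun r := rmul r g⁻¹
  left_inv r := by
    simp only
    rw [← rmul_mul, mul_inv_cancel, rmul_one]
  right_inv r := by
    simp only
    rw [← rmul_mul, inv_mul_cancel, rmul_one]

/-- Equivariance. -/
theorem EC_act (H : SyAPI) {Δ : Subgroup Gam} {a : Eis × Eis → ℂ} (ha : IsCoef Δ a)
    (F : Vec → ℂ) {g : Gam} (hg : g ∈ Δ) (M : Frm) : EC a F (act g M) = kub g * EC a F M := by
  unfold EC
  rw [← tsum_mul_left, ← (allEquiv g).tsum_eq (fun r => kub g * (a r * F (rowv r M)))]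
  apply tsum_congr
  intro r
  have h1 : allEquiv g r = rmul r g := rfl
  rw [rowv_act, h1, ha.equiv g hg r]
  have h2 := kub_mul_conj H g
  linear_combination (-(a r) * F (rowv (rmul r g) M)) * h2

open Classical in
/-- The basic coefficient function of `Δ`. -/
def bco (Δ : Subgroup Gam) (r : Eis × Eis) : ℂ :=
  if r ∈ rowsOf Δ then (starRingEnd ℂ) (sy r.1 r.2) else 0

lemma isCoef_bco (H : SyAPI) (Δ : Subgroup Gam) : IsCoef Δ (bco Δ) where
  supp r h := by
    unfold bco at h
    by_cases hr : r ∈ rowsOf Δ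
    · exact rowsOf_isRow hr
    · simp [hr] at h
  bdd r := by
    unfold bco
    by_cases hr : r ∈ rowsOf Δ
    · have h := rowsOf_isRow hr
      rw [if_pos hr, RCLike.norm_conj, H.norm_one _ _ h.2.2 h.1]
    · simp [hr]
  equiv g hg r := by
    unfold bco
    by_cases hr : r ∈ rowsOf Δ
    · rw [if_pos hr, if_pos (rmul_mem_rowsOf hr hg), sy_rmul H (rowsOf_isRow hr), map_mul]
      ring
    · rw [if_neg hr, if_neg (fun h => hr ((rmul_mem_rowsOf_iff hg).mp h)), mul_zero]

lemma EC_bco (Δ : Subgroup Gam) (F : Vec → ℂ) (M : Frm) :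
    EC (bco Δ) F M = ∑' r : rowsOf Δ, (starRingEnd ℂ) (sy r.1.1 r.1.2) * F (rowv r.1 M) := by
  classical
  unfold EC
  rw [tsum_subtype (rowsOf Δ) (fun r => (starRingEnd ℂ) (sy r.1 r.2) * F (rowv r M))]
  apply tsum_congr
  intro r
  unfold bco
  by_cases hr : r ∈ rowsOf Δ <;> simp [hr]

/-- Pointwise unfolding: the sum over `Δ` of the slab function is the product with the series. -/
lemma tsum_pairing {Δ : Subgroup Gam} {q : Eis} (hL : IsLev Δ q) {Φ : Frm → ℂ}
    (hΦ : ∀ g ∈ Δ, ∀ M, Φ (act g M) = kub g * Φ M) (W : ℂ → ℂ) (F : Vec → ℂ) {M : Frm}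
    (hM : det2 M ≠ 0) :
    ∑' g : Δ, (Slab q).indicator (fun M => W (det2 M) * Φ M * (starRingEnd ℂ) (F M.2))
      (act g.1 M) = W (det2 M) * Φ M * (starRingEnd ℂ) (EC (bco Δ) F M) := by
  classical
  have h1 : ∀ g : Δ, (Slab q).indicator
      (fun M => W (det2 M) * Φ M * (starRingEnd ℂ) (F M.2)) (act g.1 M) =
      (if act g.1 M ∈ Slab q then
        (fun r : Eis × Eis => W (det2 M) * Φ M *
          (sy r.1 r.2 * (starRingEnd ℂ) (F (rowv r M)))) (row g.1) else 0) := by
    intro g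
    by_cases h : act g.1 M ∈ Slab q
    · rw [Set.indicator_of_mem h, if_pos h, det2_act, hΦ g.1 g.2, act_snd']
      simp only [kub, row]
      ring
    · rw [Set.indicator_of_notMem h, if_neg h]
  rw [tsum_congr h1, tsum_slab hL hM (fun r : Eis × Eis => W (det2 M) * Φ M *
          (sy r.1 r.2 * (starRingEnd ℂ) (F (rowv r M)))), EC_bco, conj_tsum, tsum_mul_left]
  congr 1
  apply tsum_congr
  intro r
  simp

/-- **Pairing theorem** (unfolding): for `Φ` equivariant under `Δ`,
`∫ W(det) Φ conj(E_F) dν = ∫_{Slab q} W(det M) Φ(M) conj(F(ζ)) dM`. -/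
theorem pairing (H : SyAPI) {Δ : Subgroup Gam} {q : Eis} (hL : IsLev Δ q) {Φ : Frm → ℂ}
    (hΦm : Measurable Φ) (hΦ : ∀ g ∈ Δ, ∀ M, Φ (act g M) = kub g * Φ M) {W : ℂ → ℂ}
    (hW : Measurable W) {F : Vec → ℂ} (hF : Measurable F)
    (hint : IntegrableOn (fun M => W (det2 M) * Φ M * (starRingEnd ℂ) (F M.2)) (Slab q)) :
    Integrable (fun M => W (det2 M) * Φ M * (starRingEnd ℂ) (EC (bco Δ) F M)) (nu Δ q) ∧
    ∫ M, W (det2 M) * Φ M * (starRingEnd ℂ) (EC (bco Δ) F M) ∂(nu Δ q) =
      ∫ M in Slab q, W (det2 M) * Φ M * (starRingEnd ℂ) (F M.2) := by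
  have hm : Measurable (fun M : Frm => W (det2 M) * Φ M * (starRingEnd ℂ) (F M.2)) :=
    ((hW.comp measurable_det2).mul hΦm).mul
      (Complex.continuous_conj.measurable.comp (hF.comp measurable_snd))
  have h := integral_nu_tsum hL (hm.indicator (measurableSet_Slab q))
    ((integrable_indicator_iff (measurableSet_Slab q)).mpr hint)
  have hac : nu Δ q ≪ (volume : Measure Frm) := withDensity_absolutelyContinuous _ _
  have h1 : ∀ᵐ M ∂(nu Δ q), det2 M ≠ 0 := hac.ae_le ae_det_ne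
  have h2 : (fun M => ∑' g : Δ, (Slab q).indicator
      (fun M => W (det2 M) * Φ M * (starRingEnd ℂ) (F M.2)) (act g.1 M)) =ᵐ[nu Δ q]
      fun M => W (det2 M) * Φ M * (starRingEnd ℂ) (EC (bco Δ) F M) := by
    filter_upwards [h1] with M hM
    exact tsum_pairing hL hΦ W F hM
  refine ⟨h.1.congr h2, ?_⟩
  rw [← integral_congr_ae h2, h.2, integral_indicator (measurableSet_Slab q)]

end Crest.Agent.R012.K695
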