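import Crest.Agent.R012.Four_813
import Crest.Agent.R012.Series_695

/-!
# Row 12 (MF/MU): the strip inequality for the quotient measure `nu Δ q`

For a `Δ`-invariant `φ ≥ 0`

`r⁴ ∫_v ∫_q ∫_x ∫_e φ(frame v e x q) ≤ ∫_{strip r} φ ≤ (1 + 313600 r⁴) ∫ w(det) φ dν`.
-/

set_option autoImplicit false

noncomputable section

open MeasureTheory Complex Set
open scoped ComplexConjugate ENNReal

namespace Crest.Agent.R012.StripIneq813

open Crest.Agent.R012 Crest.Agent.R012.Parseval499 Crest.Agent.R012.StripCo813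
open Crest.Agent.R012.K695 Crest.Agent.R012.Four813 Crest.Agent.R012.FourCoef499

lemma gact_eq (g : Gam) (M : K695.Frm) : gact g M = act g M := rfl

lemma detF_eq (M : K695.Frm) : detF M = det2 M := rfl

/-- **Strip inequality** for `ν = nu Δ q`. -/
theorem strip_nu {Δ : Subgroup Gam} {q : Eis} (hL : IsLev Δ q) {φ : K695.Frm → ℝ≥0∞}
    (hφ : Measurable φ) (hinv : ∀ g ∈ Δ, ∀ M, φ (act g M) = φ M) {r : ℝ} (hr : 0 < r) :
    ∫⁻ M in strip r, φ M ≤ ENNReal.ofReal (1 + 313600 * r ^ 4) * ∫⁻ M, φ M ∂(nu Δ q) := by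
  have hS := measurableSet_strip hr
  have h1 := lintegral_nu_tsum' hL (hφ.indicator hS)
  rw [lintegral_indicator hS] at h1
  rw [← h1, ← lintegral_const_mul _ hφ]
  refine lintegral_mono fun M => ?_
  have e : ∀ g : Δ, (strip r).indicator φ (act g.1 M) =
      φ M * (strip r).indicator (1 : K695.Frm → ℝ≥0∞) (act g.1 M) := by
    intro g
    by_cases hg : act g.1 M ∈ strip r
    · rw [indicator_of_mem hg, indicator_of_mem hg, hinv _ g.2, Pi.one_apply, mul_one]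
    · rw [indicator_of_notMem hg, indicator_of_notMem hg, mul_zero]
  have h2 := tsum_strip_le (G := Δ) (fun g => g.1) Subtype.val_injective
    (fun g M => act g.1 M) (fun _ _ => rfl) hr M
  simp only [tsum_congr e]
  rw [ENNReal.tsum_mul_left, mul_comm]
  gcongr

/-- The strip inequality with a cut-off in the determinant. -/
theorem strip_nu_w {Δ : Subgroup Gam} {q : Eis} (hL : IsLev Δ q) {φ : K695.Frm → ℝ≥0∞}
    (hφ : Measurable φ) (hinv : ∀ g ∈ Δ, ∀ M, φ (act g M) = φ M) {w : ℂ → ℝ≥0∞}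
    (hw : Measurable w) (hw1 : ∀ z : ℂ, 1 ≤ ‖z‖ → ‖z‖ ≤ 4 → 1 ≤ w z) {r : ℝ} (hr : 0 < r) :
    ∫⁻ M in strip r, φ M ≤
      ENNReal.ofReal (1 + 313600 * r ^ 4) * ∫⁻ M, w (det2 M) * φ M ∂(nu Δ q) := by
  have h := strip_nu hL (φ := fun M => w (det2 M) * φ M)
    ((hw.comp measurable_det2).mul hφ) (fun g hg M => by
      simp only [det2_act]; rw [hinv g hg]) hr
  refine le_trans ?_ h
  refine setLIntegral_mono' (measurableSet_strip hr) fun M hM => ?_
  obtain ⟨h1, h2⟩ := strip_det hr hM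
  calc φ M = 1 * φ M := (one_mul _).symm
    _ ≤ w (det2 M) * φ M := by
        gcongr
        exact hw1 _ h1 h2

/-- **Box form**. -/
theorem box_nu_w {Δ : Subgroup Gam} {q : Eis} (hL : IsLev Δ q) {φ : K695.Frm → ℝ≥0∞}
    (hφ : Measurable φ) (hinv : ∀ g ∈ Δ, ∀ M, φ (act g M) = φ M) {w : ℂ → ℝ≥0∞}
    (hw : Measurable w) (hw1 : ∀ z : ℂ, 1 ≤ ‖z‖ → ‖z‖ ≤ 4 → 1 ≤ w z) {r : ℝ} (hr : 0 < r) :
    ENNReal.ofReal (r ^ 4) * ∫⁻ v in ann r (2 * r), ∫⁻ s in Metric.closedBall (0 : ℂ) 2,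
      ∫⁻ x in par 3, ∫⁻ e in ann (1 / r) (2 / r), φ (frame v e x s) ≤
      ENNReal.ofReal (1 + 313600 * r ^ 4) * ∫⁻ M, w (det2 M) * φ M ∂(nu Δ q) :=
  (box_le_strip hr hφ).trans (strip_nu_w hL hφ hinv hw hw1 hr)

/-- `|E|²` is `Δ`-invariant. -/
lemma normsq_EC_act (H : SyAPI) {Δ : Subgroup Gam} {a : Eis × Eis → ℂ} (ha : IsCoef Δ a)
    (F : Vec → ℂ) {g : Gam} (hg : g ∈ Δ) (M : K695.Frm) :
    ‖EC a F (act g M)‖ₑ ^ 2 = ‖EC a F M‖ₑ ^ 2 := by
  rw [EC_act H ha F hg, enorm_mul]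
  have h1 : ‖kub g‖ = 1 := H.norm_one _ _ (gd_prim g) (isRow_gam g).1
  rw [← ofReal_norm (kub g), h1, ENNReal.ofReal_one, one_mul]

/-- **Box inequality for pseudo-Eisenstein series.** -/
theorem box_EC (H : SyAPI) {Δ : Subgroup Gam} {q : Eis} (hL : IsLev Δ q) {a : Eis × Eis → ℂ}
    (ha : IsCoef Δ a) {F : Vec → ℂ} (hF : Measurable F) {w : ℂ → ℝ≥0∞}
    (hw : Measurable w) (hw1 : ∀ z : ℂ, 1 ≤ ‖z‖ → ‖z‖ ≤ 4 → 1 ≤ w z) {r : ℝ} (hr : 0 < r) :
    ENNReal.ofReal (r ^ 4) * ∫⁻ v in ann r (2 * r), ∫⁻ s in Metric.closedBall (0 : ℂ) 2,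
      ∫⁻ x in par 3, ∫⁻ e in ann (1 / r) (2 / r), ‖EC a F (frame v e x s)‖ₑ ^ 2 ≤
      ENNReal.ofReal (1 + 313600 * r ^ 4) * ∫⁻ M, w (det2 M) * ‖EC a F M‖ₑ ^ 2 ∂(nu Δ q) :=
  box_nu_w hL ((measurable_EC hF).enorm.pow_const 2) (fun _ hg M => normsq_EC_act H ha F hg M)
    hw hw1 hr

open Classical in
/-- the coefficient function on rows attached to a kernel `k c d`. -/
def coefK (k : Eis → Eis → ℂ) (r : Eis × Eis) : ℂ :=
  if (3 : Eis) ∣ r.1 ∧ IsPrim r.2 then k r.1 r.2 else 0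

/-- `EK` of `FourCoef_499` is `EC` of `Series_695`. -/
lemma EK_eq_EC (k : Eis → Eis → ℂ) (F : Vec → ℂ) (M : K695.Frm) :
    EK k F M.1 M.2 = EC (coefK k) F M := by
  classical
  unfold EK EC coefK rowv
  refine tsum_congr fun r => ?_
  by_cases h : (3 : Eis) ∣ r.1 ∧ IsPrim r.2
  · simp only [if_pos h]
  · simp only [if_neg h, zero_mul]

/-- the coefficient function `ψ(d) conj (c/d)`. -/
lemma coefK_ker_apply (Hs : CharSum852.SyFacts) (ψ : Eis → ℂ) (r : Eis × Eis) [Decidable (IsRow r)] :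
    coefK (ker ψ) r = if IsRow r then ψ r.2 * conj (sy r.1 r.2) else 0 := by
  classical
  unfold coefK ker
  by_cases h : (3 : Eis) ∣ r.1 ∧ IsPrim r.2
  · rw [if_pos h]
    by_cases hc : IsCoprime r.1 r.2
    · rw [if_pos ⟨hc, h.1, h.2⟩]
    · have h0 : sy r.1 r.2 = 0 := (Hs.eq_zero _ _ h.2).mpr hc
      rw [if_neg (fun h' : IsRow r => hc h'.1), h0]
      simp
  · rw [if_neg h, if_neg (fun h' : IsRow r => h ⟨h'.2.1, h'.2.2⟩)]

/-- For `ψ = 1` we get the basic coefficient function of `Γ(3)`. -/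
lemma coefK_ker_one (Hs : CharSum852.SyFacts) : coefK (ker (fun _ => 1)) = bco ⊤ := by
  classical
  funext r
  rw [coefK_ker_apply Hs]
  unfold bco
  have : (r ∈ rowsOf ⊤) ↔ IsRow r := by rw [rowsOf_top]; rfl
  by_cases h : IsRow r
  · rw [if_pos h, if_pos (this.mpr h), one_mul]
  · rw [if_neg h, if_neg (fun h' => h (this.mp h'))]

/-- `ψ(d) conj (c/d)` is a coefficient function for `Δ` if `ψ` of the second entry is invariant. -/
lemma isCoef_ker (H : SyAPI) (Hs : CharSum852.SyFacts) {Δ : Subgroup Gam} {ψ : Eis → ℂ}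
    (hψ : ∀ d, ‖ψ d‖ ≤ 1) (hinv : ∀ g ∈ Δ, ∀ r, IsRow r → ψ (rmul r g).2 = ψ r.2) :
    IsCoef Δ (coefK (ker ψ)) where
  supp r h := by
    classical
    rw [coefK_ker_apply Hs] at h
    by_contra hr
    exact h (if_neg hr)
  bdd r := by
    classical
    rw [coefK_ker_apply Hs]
    by_cases hr : IsRow r
    · rw [if_pos hr, norm_mul, RCLike.norm_conj, H.norm_one _ _ hr.2.2 hr.1, mul_one]
      exact hψ _
    · simp [hr]
  equiv g hg r := by
    classical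
    rw [coefK_ker_apply Hs, coefK_ker_apply Hs]
    by_cases hr : IsRow r
    · rw [if_pos hr, if_pos (isRow_rmul hr g), sy_rmul H hr, hinv g hg r hr, map_mul]
      ring
    · have hr' : ¬ IsRow (rmul r g) := by
        intro h
        have := isRow_rmul h g⁻¹
        rw [← rmul_mul, mul_inv_cancel, rmul_one] at this
        exact hr this
      rw [if_neg hr, if_neg hr', mul_zero]

end Crest.Agent.R012.StripIneq813
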