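import Crest.Agent.R012.GramEx_988
import Crest.Agent.R012.LatP_988
import Crest.Agent.R012.Index_681
import Crest.Agent.R012.SlabVol_681
import Crest.Agent.R012.StripIneq_813

/-!
# Row 12 (M-R), H2: the level `p` norm has no main term

`psiP p d = [p ∤ d] - N/(N+1)`.  `level_norm`: for `F` in the class `Fr r₁ r₂ r₃ K` and the cut-off
`w(|det|)`,
`∫ w(|det|) |E_{ψ_p, F}|² dν_p ≤ C_p K² r₂⁴ r₃² / r₁² (1 + 2 r₂ r₃)^τ`.
-/

set_option autoImplicit false

noncomputable section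

open MeasureTheory Complex Filter
open scoped ComplexConjugate ENNReal Topology

namespace Crest.Agent.R012.K695.GramP988

open Crest.Agent.R012 Crest.Agent.R012.Eis Crest.Agent.R012.Gram858 Crest.Agent.R012.Mob705
  Crest.Agent.R012.LatP988 Crest.Agent.R012.K695.Gram988 Crest.Agent.R012.StripIneq813
  Crest.Agent.R012.Four813

/-- `N/(N+1)` -/
def LL (p : Eis) : ℂ := (nm p : ℂ) / ((nm p : ℂ) + 1)

open Classical in
/-- `[p ∤ d] - N/(N+1)` -/
def psiP (p d : Eis) : ℂ := (if p ∣ d then 0 else 1) - LL p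

lemma nmC_add_ne (p : Eis) : ((nm p : ℂ) + 1) ≠ 0 := by exact_mod_cast Nat.succ_ne_zero (nm p)

lemma LL_real (p : Eis) : LL p = (((nm p : ℝ) / ((nm p : ℝ) + 1) : ℝ) : ℂ) := by
  unfold LL; push_cast; rfl

lemma norm_psiP_le (p d : Eis) : ‖psiP p d‖ ≤ 1 := by
  have h0 : (0 : ℝ) ≤ (nm p : ℝ) / ((nm p : ℝ) + 1) := by positivity
  have h1 : (nm p : ℝ) / ((nm p : ℝ) + 1) ≤ 1 := by
    rw [div_le_one (by positivity)]; linarith
  unfold psiP
  rw [LL_real]
  split_ifs
  · rw [zero_sub, norm_neg, Complex.norm_real, Real.norm_of_nonneg h0]; exact h1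
  · rw [← Complex.ofReal_one, ← Complex.ofReal_sub, Complex.norm_real, Real.norm_of_nonneg (by linarith)]
    linarith

lemma psiP_inv {p : Eis} (hp : Prime p) {g : Gam} (hg : g ∈ DelP p) {r : Eis × Eis} : psiP p (rmul r g).2 = psiP p r.2 := by
  have h1 : p ∣ gb g := (Dvd.intro_left 3 rfl).trans hg
  have h2 : ¬ p ∣ gd g := by
    intro h
    have := det_eq g
    have h3 : p ∣ (1 : Eis) := by
      rw [← this]
      exact dvd_sub (h.mul_left _) (h1.mul_right _)
    exact hp.not_isUnit (isUnit_of_dvd_one h3)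
  have h4 : p ∣ (rmul r g).2 ↔ p ∣ r.2 := by
    simp only [rmul]
    rw [dvd_add_right (h1.mul_left _)]
    exact ⟨fun h => (hp.dvd_or_dvd h).resolve_right h2, fun h => h.mul_right _⟩
  unfold psiP
  by_cases h : p ∣ r.2
  · rw [if_pos h, if_pos (h4.mpr h)]
  · rw [if_neg h, if_neg (fun h' => h (h4.mp h'))]

lemma isCoef_psiP (H : SyAPI) (Hs : CharSum852.SyFacts) {p : Eis} (hp : Prime p) :
    IsCoef (DelP p) (coefK (ker (psiP p))) :=
  isCoef_ker H Hs (norm_psiP_le p) (fun _ hg _ _ => psiP_inv hp hg)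

lemma isCoef_top (H : SyAPI) (Δ : Subgroup Gam) : IsCoef Δ (bco ⊤) where
  supp := (isCoef_bco H ⊤).supp
  bdd := (isCoef_bco H ⊤).bdd
  equiv g _ := (isCoef_bco H ⊤).equiv g trivial

lemma coef_eq (Hs : CharSum852.SyFacts) {p : Eis} (hp : Prime p) (r : Eis × Eis) :
    coefK (ker (psiP p)) r = bco (DelP p) r - LL p * bco ⊤ r := by
  classical
  rw [coefK_ker_apply Hs]
  have h1 : r ∈ rowsOf (DelP p) ↔ IsRow r ∧ ¬ p ∣ r.2 := by
    rw [rowsOf_DelP]
    simp only [Set.mem_ofPred_eq]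
    exact and_congr_right fun _ => hp.coprime_iff_not_dvd
  have h2 : r ∈ rowsOf ⊤ ↔ IsRow r := by rw [rowsOf_top]; rfl
  unfold bco
  by_cases hr : IsRow r
  · rw [if_pos hr, if_pos (h2.mpr hr)]
    unfold psiP
    by_cases hd : p ∣ r.2
    · rw [if_pos hd, if_neg (fun h => (h1.mp h).2 hd)]; ring
    · rw [if_neg hd, if_pos (h1.mpr ⟨hr, hd⟩)]; ring
  · rw [if_neg hr, if_neg (fun h => hr (h2.mp h)), if_neg (fun h => hr (h1.mp h).1)]; ring

/-! ### The coefficients of the Gram formula -/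

lemma bco_row (Hs : CharSum852.SyFacts) {c : Eis} (hc : (3 : Eis) ∣ c) (d : Eis) :
    bco ⊤ (c, d) = conj (CharSum852.fS c d) := by
  classical
  have h2 : (c, d) ∈ rowsOf ⊤ ↔ IsRow (c, d) := by rw [rowsOf_top]; rfl
  unfold bco CharSum852.fS
  by_cases hd : IsPrim d
  · rw [if_pos hd]
    by_cases hcop : IsCoprime c d
    · rw [if_pos (h2.mpr ⟨hcop, hc, hd⟩)]
    · rw [if_neg (fun h => hcop (h2.mp h).1), (Hs.eq_zero c d hd).mpr hcop, map_zero]
  · rw [if_neg hd, if_neg (fun h => hd (h2.mp h).2.2), map_zero]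

lemma bcoP_row (Hs : CharSum852.SyFacts) {p : Eis} (hp : Prime p) {c : Eis} (hc : (3 : Eis) ∣ c)
    (d : Eis) : bco (DelP p) (c, d) = conj (CharSum852.fSP p c d) := by
  classical
  have h1 : (c, d) ∈ rowsOf (DelP p) ↔ IsRow (c, d) ∧ ¬ p ∣ d := by
    rw [rowsOf_DelP]
    simp only [Set.mem_ofPred_eq]
    exact and_congr_right fun _ => hp.coprime_iff_not_dvd
  unfold bco CharSum852.fSP
  by_cases hd : IsPrim d ∧ ¬ p ∣ d
  · rw [if_pos hd]
    by_cases hcop : IsCoprime c d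
    · rw [if_pos (h1.mpr ⟨⟨hcop, hc, hd.1⟩, hd.2⟩)]
    · rw [if_neg (fun h => hcop (h1.mp h).1.1), (Hs.eq_zero c d hd.1).mpr hcop, map_zero]
  · rw [if_neg hd, if_neg (fun h => hd ⟨(h1.mp h).1.2.2, (h1.mp h).2⟩), map_zero]

lemma sumMod_zero {c : Eis} {f : Eis → ℂ} (h : ∀ x, f x = 0) : sumMod c f = 0 := by
  unfold sumMod
  simp [h]

lemma sumMod_bco (Hs : CharSum852.SyFacts) {p c : Eis} (hp : p ≠ 0) (hc0 : c ≠ 0)
    (hc : (3 : Eis) ∣ c) :
    sumMod (3 * p * c) (fun d => bco ⊤ (c, d)) = (nm p : ℂ) * conj (CharSum852.Ssum c) := by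
  have h3c : (3 * c : Eis) ≠ 0 := mul_ne_zero three_ne_zero' hc0
  have e1 : (3 * p * c : Eis) = 3 * c * p := by ring
  rw [e1, sumMod_congr (fun d => bco_row Hs hc d), ← sumMod_star (mul_ne_zero h3c hp),
    CharSum852.sumMod_fS_level Hs hp hc0 hc, map_mul, Complex.conj_natCast]

lemma sumMod_bcoP (Hs : CharSum852.SyFacts) {p c : Eis} (hp : Prime p) (hc0 : c ≠ 0)
    (hc : (3 : Eis) ∣ c) :
    sumMod (3 * p * c) (fun d => bco (DelP p) (c, d)) = conj (CharSum852.SsumP p c) := by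
  have h3c : (3 * c : Eis) ≠ 0 := mul_ne_zero three_ne_zero' hc0
  have e1 : (3 * p * c : Eis) = 3 * c * p := by ring
  rw [e1, sumMod_congr (fun d => bcoP_row Hs hp hc d),
    ← sumMod_star (mul_ne_zero h3c hp.ne_zero)]
  rfl

open Classical in
lemma sumMod_diff (Hs : CharSum852.SyFacts) {p c : Eis} (hp : Prime p) (hpp : IsPrim p)
    (hc0 : c ≠ 0) (hc : (3 : Eis) ∣ c) :
    sumMod (3 * p * c) (fun d => bco (DelP p) (c, d)) -
      LL p * sumMod (3 * p * c) (fun d => bco ⊤ (c, d)) =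
    conj (CharSum852.Ssum c) * ((if p ∣ c then 1 else 0) - 1 / ((nm p : ℂ) + 1)) := by
  rw [sumMod_bco Hs hp.ne_zero hc0 hc, sumMod_bcoP Hs hp hc0 hc]
  have hN := nmC_add_ne p
  by_cases h : p ∣ c
  · rw [CharSum852.SsumP_of_dvd Hs hp hc0 hc h, if_pos h, map_mul, Complex.conj_natCast]
    unfold LL
    field_simp
    ring
  · rw [CharSum852.SsumP_of_not_dvd Hs hp hpp hc0 hc h, if_neg h, map_mul, map_sub,
      Complex.conj_natCast, map_one]
    unfold LL
    field_simp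
    ring

lemma not_row_bco (Δ : Subgroup Gam) {c : Eis} (hc : ¬ (3 : Eis) ∣ c) (d : Eis) :
    bco Δ (c, d) = 0 := by
  classical
  unfold bco
  rw [if_neg]
  intro h
  exact hc (rowsOf_isRow h).2.1

/-! ### The radial cut-off -/

/-- A nonnegative `C²` cut-off supported in `[α, β]`, `α > 0`. -/
structure RCut (w : ℝ → ℝ) (α β : ℝ) : Prop where
  smooth : ContDiff ℝ 2 w
  apos : 0 < α
  bnonneg : 0 ≤ β
  nonneg : ∀ x, 0 ≤ w x
  supp : ∀ x, w x ≠ 0 → α ≤ x ∧ x ≤ β

variable {w : ℝ → ℝ} {α β : ℝ}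

/-- the cut-off as a function on `ℂ`. -/
def wC' (w : ℝ → ℝ) (z : ℂ) : ℂ := ((w ‖z‖ : ℝ) : ℂ)

lemma RCut.bdd (hw : RCut w α β) : ∃ C : ℝ, ∀ x, |w x| ≤ C := by
  have hc : HasCompactSupport w := by
    apply HasCompactSupport.of_support_subset_isCompact (isCompact_Icc (a := α) (b := β))
    intro x hx
    exact hw.supp x hx
  obtain ⟨C, hC⟩ := hc.exists_bound_of_continuous hw.smooth.continuous
  exact ⟨C, hC⟩

lemma RCut.continuous_wC (hw : RCut w α β) : Continuous (wC' w) := by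
  unfold wC'
  exact Complex.continuous_ofReal.comp (hw.smooth.continuous.comp continuous_norm)

lemma RCut.compact_wC (hw : RCut w α β) : HasCompactSupport (wC' w) := by
  apply HasCompactSupport.of_support_subset_isCompact (isCompact_closedBall (0 : ℂ) β)
  intro z hz
  rw [Function.mem_support] at hz
  rw [mem_closedBall_zero_iff]
  refine (hw.supp ‖z‖ ?_).2
  intro h
  exact hz (by unfold wC'; rw [h]; simp)

lemma RCut.integrable_wC (hw : RCut w α β) : Integrable (wC' w) :=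
  hw.continuous_wC.integrable_of_hasCompactSupport hw.compact_wC

lemma RCut.cut (hw : RCut w α β) : Cut (wC' w) where
  meas := hw.continuous_wC.measurable
  bdd := by
    obtain ⟨C, hC⟩ := hw.bdd
    refine ⟨C, fun z => ?_⟩
    unfold wC'
    rw [Complex.norm_real]
    exact hC _
  supp := by
    refine ⟨α, hw.apos, fun z hz => ?_⟩
    unfold wC'
    have : w ‖z‖ = 0 := by
      by_contra h
      exact absurd (hw.supp _ h).1 (not_le.mpr hz)
    rw [this]; simp

lemma RCut.small (hw : RCut w α β) : ∀ x < α, w x = 0 := by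
  intro x hx
  by_contra h
  exact absurd (hw.supp _ h).1 (not_le.mpr hx)

lemma RCut.integrableOn (hw : RCut w α β) {F : Vec → ℂ} (hF : BS F) {q : Eis} (hq : q ≠ 0) :
    IntegrableOn (fun M => wC' w (det2 M) * F M.2 * conj (F M.2)) (Slab q) := by
  have hK : Integrable (fun u : Vec => F u * conj (F u)) := by
    obtain ⟨C, hC⟩ := hF.bdd
    exact (Complex.conjCLE.toContinuousLinearMap.integrable_comp (BS.integrable hF)).bdd_mul
      hF.meas.aestronglyMeasurable (Filter.Eventually.of_forall hC)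
  have hKm : Measurable (fun u : Vec => F u * conj (F u)) :=
    hF.meas.mul (Complex.continuous_conj.measurable.comp hF.meas)
  have h := integrable_slab_zero hq hw.continuous_wC.measurable hw.integrable_wC hKm hK
  refine h.congr (Filter.Eventually.of_forall fun M => ?_)
  simp only
  ring

lemma RCut.slab_eq (hw : RCut w α β) {F : Vec → ℂ} (hF : BS F) {q : Eis} (hq : q ≠ 0) :
    ∫ M in Slab q, wC' w (det2 M) * F M.2 * conj (F M.2) =
      (slabVol q : ℂ) * (∫ s, wC' w s) * ∫ u, F u * conj (F u) := by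
  have hK : Integrable (fun u : Vec => F u * conj (F u)) := by
    obtain ⟨C, hC⟩ := hF.bdd
    exact (Complex.conjCLE.toContinuousLinearMap.integrable_comp (BS.integrable hF)).bdd_mul
      hF.meas.aestronglyMeasurable (Filter.Eventually.of_forall hC)
  have hKm : Measurable (fun u : Vec => F u * conj (F u)) :=
    hF.meas.mul (Complex.continuous_conj.measurable.comp hF.meas)
  rw [← integral_slab_zero hq hw.continuous_wC.measurable hw.integrable_wC hKm hK]
  congr 1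
  funext M
  ring

/-! ### The inner products -/

section Inner

variable {p : Eis} {F : Vec → ℂ}

/-- level one -/
lemma inner_one (H : SyAPI) (hw : RCut w α β) (hF : BS F) : Integrable (fun M => wC' w (det2 M) * EC (bco ⊤) F M * conj (EC (bco ⊤) F M))
      (nu ⊤ 1) ∧
    ∫ M, wC' w (det2 M) * EC (bco ⊤) F M * conj (EC (bco ⊤) F M) ∂(nu ⊤ 1) =
      bco ⊤ (0, 1) * (∫ M in Slab 1, wC' w (det2 M) * F M.2 * conj (F M.2)) +
        ∑' c : Eis, gterm 1 (bco ⊤) (wC' w) F F c :=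
  gram H isLev_top (isCoef_bco H ⊤) hw.cut hF hF (hw.integrableOn hF one_ne_zero)

/-- level `p`: `⟨E, E_p⟩` -/
lemma inner_mixed (H : SyAPI) (hp : Prime p) (hw : RCut w α β) (hF : BS F) : Integrable (fun M => wC' w (det2 M) * EC (bco ⊤) F M *
      conj (EC (bco (DelP p)) F M)) (nu (DelP p) p) ∧
    ∫ M, wC' w (det2 M) * EC (bco ⊤) F M * conj (EC (bco (DelP p)) F M) ∂(nu (DelP p) p) =
      bco ⊤ (0, 1) * (∫ M in Slab p, wC' w (det2 M) * F M.2 * conj (F M.2)) +
        ∑' c : Eis, gterm p (bco ⊤) (wC' w) F F c :=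
  gram H (isLev_DelP hp.ne_zero) (isCoef_top H _) hw.cut hF hF (hw.integrableOn hF hp.ne_zero)

/-- level `p`: `⟨E_p, E_p⟩` -/
lemma inner_pp (H : SyAPI) (hp : Prime p) (hw : RCut w α β) (hF : BS F) : Integrable (fun M => wC' w (det2 M) * EC (bco (DelP p)) F M *
      conj (EC (bco (DelP p)) F M)) (nu (DelP p) p) ∧
    ∫ M, wC' w (det2 M) * EC (bco (DelP p)) F M * conj (EC (bco (DelP p)) F M)
      ∂(nu (DelP p) p) =
      bco (DelP p) (0, 1) * (∫ M in Slab p, wC' w (det2 M) * F M.2 * conj (F M.2)) +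
        ∑' c : Eis, gterm p (bco (DelP p)) (wC' w) F F c :=
  gram H (isLev_DelP hp.ne_zero) (isCoef_bco H _) hw.cut hF hF (hw.integrableOn hF hp.ne_zero)

lemma gterm_p_eq (Hs : CharSum852.SyFacts) (hp : p ≠ 0) (W : ℂ → ℂ) (F' F : Vec → ℂ) (c : Eis) :
    gterm p (bco ⊤) W F' F c = (nm p : ℂ) * gterm 1 (bco ⊤) W F' F c := by
  unfold gterm
  by_cases hc0 : c = 0
  · simp [hc0]
  rw [if_neg hc0, if_neg hc0]
  by_cases hc : (3 : Eis) ∣ c
  · rw [sumMod_bco Hs hp hc0 hc, sumMod_bco Hs one_ne_zero hc0 hc, nm_one]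
    push_cast
    ring
  · rw [sumMod_zero (fun d => not_row_bco ⊤ hc d), sumMod_zero (fun d => not_row_bco ⊤ hc d)]
    ring

lemma slabVol_p (q : Eis) : slabVol q = nm q * slabVol 1 := by
  unfold slabVol; rw [nm_one]; push_cast; ring

/-- `⟨E, E_p⟩_p = N ⟨E, E⟩_1`. -/
lemma mixed_eq (H : SyAPI) (Hs : CharSum852.SyFacts) (hp : Prime p) (hw : RCut w α β)
    (hF : BS F) :
    ∫ M, wC' w (det2 M) * EC (bco ⊤) F M * conj (EC (bco (DelP p)) F M) ∂(nu (DelP p) p) =
      (nm p : ℂ) *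
        ∫ M, wC' w (det2 M) * EC (bco ⊤) F M * conj (EC (bco ⊤) F M) ∂(nu ⊤ 1) := by
  rw [(inner_mixed H hp hw hF).2, (inner_one H hw hF).2,
    tsum_congr (gterm_p_eq Hs hp.ne_zero (wC' w) F F), tsum_mul_left,
    hw.slab_eq hF hp.ne_zero, hw.slab_eq hF one_ne_zero, slabVol_p p]
  push_cast
  ring

lemma normsq_inv (H : SyAPI) (g : Gam) (M : Frm) :
    wC' w (det2 (act g M)) * EC (bco ⊤) F (act g M) * conj (EC (bco ⊤) F (act g M)) =
      wC' w (det2 M) * EC (bco ⊤) F M * conj (EC (bco ⊤) F M) := by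
  rw [det2_act, EC_act H (isCoef_bco H ⊤) F (Subgroup.mem_top g) M, map_mul]
  have h := kub_mul_conj H g
  linear_combination (wC' w (det2 M) * EC (bco ⊤) F M * conj (EC (bco ⊤) F M)) * h

/-- `⟨E, E⟩_p = [Γ : Γ_p] ⟨E, E⟩_1`. -/
lemma index_eq (H : SyAPI) (hp : Prime p) (hpp : IsPrim p) (hw : RCut w α β)
    (hF : BS F) :
    Integrable (fun M => wC' w (det2 M) * EC (bco ⊤) F M * conj (EC (bco ⊤) F M))
      (nu (DelP p) p) ∧
    ∫ M, wC' w (det2 M) * EC (bco ⊤) F M * conj (EC (bco ⊤) F M) ∂(nu (DelP p) p) =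
      ((DelP p).relIndex ⊤ : ℂ) *
        ∫ M, wC' w (det2 M) * EC (bco ⊤) F M * conj (EC (bco ⊤) F M) ∂(nu ⊤ 1) := by
  have hm : Measurable (fun M => wC' w (det2 M) * EC (bco ⊤) F M * conj (EC (bco ⊤) F M)) :=
    ((hw.continuous_wC.measurable.comp measurable_det2).mul (measurable_EC hF.meas)).mul
      (Complex.continuous_conj.measurable.comp (measurable_EC hF.meas))
  have hidx := (relIndex_DelP hp hpp).1
  refine ⟨integrable_nu_index le_top (isLev_DelP hp.ne_zero) isLev_top hidx hm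
    (fun g _ M => by rw [normsq_inv H g M]) (inner_one H hw hF).1,
    integral_nu_index le_top (isLev_DelP hp.ne_zero) isLev_top hidx hm
    (fun g _ M => normsq_inv H g M) (inner_one H hw hF).1⟩

lemma normsq_real (w : ℝ → ℝ) (z X : ℂ) : wC' w z * X * conj X = ((w ‖z‖ * ‖X‖ ^ 2 : ℝ) : ℂ) := by
  unfold wC'
  rw [mul_assoc, Complex.mul_conj, Complex.normSq_eq_norm_sq]
  push_cast
  ring

/-- `⟨E, E⟩_1` is real and nonnegative. -/
lemma inner_one_real (w : ℝ → ℝ) (hw0 : ∀ x, 0 ≤ w x) (F : Vec → ℂ) :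
    ∃ I : ℝ, 0 ≤ I ∧
      ∫ M, wC' w (det2 M) * EC (bco ⊤) F M * conj (EC (bco ⊤) F M) ∂(nu ⊤ 1) = (I : ℂ) := by
  refine ⟨∫ M, w ‖det2 M‖ * ‖EC (bco ⊤) F M‖ ^ 2 ∂(nu ⊤ 1), ?_, ?_⟩
  · apply integral_nonneg
    intro M
    exact mul_nonneg (hw0 _) (by positivity)
  · rw [← integral_complex_ofReal]
    refine integral_congr_ae (Filter.Eventually.of_forall fun M => ?_)
    exact normsq_real w _ _

/-- The remaining sum. -/
def DD (w : ℝ → ℝ) (F : Vec → ℂ) (p : Eis) : ℂ :=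
  (1 / ((nm p : ℂ) + 1)) * ((slabVol p : ℂ) * (∫ s, wC' w s) * ∫ u, F u * conj (F u)) +
    ∑' c : Eis, (gterm p (bco (DelP p)) (wC' w) F F c - LL p * gterm p (bco ⊤) (wC' w) F F c)

lemma bco_zero_one (H : SyAPI) (Δ : Subgroup Gam) (h : (0, 1) ∈ rowsOf Δ) :
    bco Δ (0, 1) = 1 := by
  classical
  unfold bco
  rw [if_pos h, H.one_right, map_one]

lemma row01 (Δ : Subgroup Gam) : ((0, 1) : Eis × Eis) ∈ rowsOf Δ :=
  ⟨1, Δ.one_mem, by simp [row]⟩

/-- **Expansion of the level `p` norm.** -/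
theorem norm_expand (H : SyAPI) (Hs : CharSum852.SyFacts) (hp : Prime p) (hpp : IsPrim p)
    (hw : RCut w α β) (hF : BS F) :
    Integrable (fun M => w ‖det2 M‖ * ‖EC (coefK (ker (psiP p))) F M‖ ^ 2) (nu (DelP p) p) ∧
    ∫ M, w ‖det2 M‖ * ‖EC (coefK (ker (psiP p))) F M‖ ^ 2 ∂(nu (DelP p) p) ≤ ‖DD w F p‖ := by
  set ν := nu (DelP p) p with hν
  obtain ⟨hi1, e1⟩ := index_eq H hp hpp hw hF
  obtain ⟨hi2, e2⟩ := inner_mixed H hp hw hF
  obtain ⟨hi3, e3⟩ := inner_pp H hp hw hF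
  have e2' := mixed_eq H Hs hp hw hF
  obtain ⟨I, hI0, hI⟩ := inner_one_real w hw.nonneg F
  have hac : ν ≪ (volume : Measure Frm) := withDensity_absolutelyContinuous _ _
  -- pointwise
  have hpt : ∀ᵐ M ∂ν, ((w ‖det2 M‖ * ‖EC (coefK (ker (psiP p))) F M‖ ^ 2 : ℝ) : ℂ) =
      wC' w (det2 M) * EC (bco (DelP p)) F M * conj (EC (bco (DelP p)) F M) -
      LL p * (wC' w (det2 M) * EC (bco ⊤) F M * conj (EC (bco (DelP p)) F M)) -
      LL p * conj (wC' w (det2 M) * EC (bco ⊤) F M * conj (EC (bco (DelP p)) F M)) +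
      LL p ^ 2 * (wC' w (det2 M) * EC (bco ⊤) F M * conj (EC (bco ⊤) F M)) := by
    filter_upwards [hac.ae_le ae_det_ne] with M hM
    have h1 : EC (coefK (ker (psiP p))) F M = EC (bco (DelP p)) F M - LL p * EC (bco ⊤) F M := by
      unfold EC
      rw [← tsum_mul_left, ← (summable_EC hF hM).tsum_sub ((summable_EC hF hM).mul_left _)]
      refine tsum_congr fun r => ?_
      rw [coef_eq Hs hp]
      ring
    rw [← normsq_real, h1]
    have hL : conj (LL p) = LL p := by rw [LL_real, Complex.conj_ofReal]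
    have hwr : conj (wC' w (det2 M)) = wC' w (det2 M) := by
      unfold wC'; rw [Complex.conj_ofReal]
    simp only [map_sub, map_mul, Complex.conj_conj, hL, hwr]
    ring
  have hic : Integrable (fun M => conj (wC' w (det2 M) * EC (bco ⊤) F M *
      conj (EC (bco (DelP p)) F M))) ν :=
    Complex.conjCLE.toContinuousLinearMap.integrable_comp hi2
  have hitot := ((hi3.sub (hi2.const_mul (LL p))).sub (hic.const_mul (LL p))).add
    (hi1.const_mul (LL p ^ 2))
  have hintC : Integrable (fun M => ((w ‖det2 M‖ *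
      ‖EC (coefK (ker (psiP p))) F M‖ ^ 2 : ℝ) : ℂ)) ν := by
    refine hitot.congr ?_
    filter_upwards [hpt] with M hM
    rw [hM]
    rfl
  have hintR : Integrable (fun M => w ‖det2 M‖ * ‖EC (coefK (ker (psiP p))) F M‖ ^ 2) ν := by
    have := hintC.re
    refine this.congr (Filter.Eventually.of_forall fun M => ?_)
    simp only [RCLike.re_to_complex, Complex.ofReal_re]
  refine ⟨hintR, ?_⟩
  have hval : ((∫ M, w ‖det2 M‖ * ‖EC (coefK (ker (psiP p))) F M‖ ^ 2 ∂ν : ℝ) : ℂ) =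
      DD w F p + ((((nm p : ℝ) / ((nm p : ℝ) + 1)) * I *
        (((nm p : ℝ) / ((nm p : ℝ) + 1)) * ((DelP p).relIndex ⊤ : ℝ) - nm p) : ℝ) : ℂ) := by
    have j1 := integral_add ((hi3.sub (hi2.const_mul (LL p))).sub (hic.const_mul (LL p)))
      (hi1.const_mul (LL p ^ 2))
    have j2 := integral_sub (hi3.sub (hi2.const_mul (LL p))) (hic.const_mul (LL p))
    have j3 := integral_sub hi3 (hi2.const_mul (LL p))
    simp only [Pi.sub_apply] at j1 j2 j3
    rw [← integral_complex_ofReal, integral_congr_ae hpt, j1, j2, j3, integral_const_mul,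
      integral_const_mul, integral_const_mul, integral_conj]
    have hDD : (∫ M, wC' w (det2 M) * EC (bco (DelP p)) F M *
          conj (EC (bco (DelP p)) F M) ∂ν) -
        LL p * ∫ M, wC' w (det2 M) * EC (bco ⊤) F M * conj (EC (bco (DelP p)) F M) ∂ν =
        DD w F p := by
      rw [hν, e3, e2, bco_zero_one H _ (row01 _), bco_zero_one H _ (row01 _),
        hw.slab_eq hF hp.ne_zero]
      unfold DD
      rw [(summable_gterm hw.cut hF hF p (bco (DelP p))).tsum_sub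
        ((summable_gterm hw.cut hF hF p (bco ⊤)).mul_left (LL p)), tsum_mul_left]
      unfold LL
      have hN := nmC_add_ne p
      field_simp
      ring
    rw [← hν] at e1 e2'
    rw [e1, e2', hI, map_mul, Complex.conj_natCast, Complex.conj_ofReal]
    rw [e2', hI] at hDD
    have hL := LL_real p
    push_cast at hL ⊢
    rw [← hL]
    linear_combination hDD
  have hre := congrArg Complex.re hval
  rw [Complex.ofReal_re, Complex.add_re, Complex.ofReal_re] at hre
  rw [hre]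
  have hidx : ((DelP p).relIndex ⊤ : ℝ) ≤ (nm p : ℝ) + 1 := by
    exact_mod_cast (relIndex_DelP hp hpp).2
  have hneg : ((nm p : ℝ) / ((nm p : ℝ) + 1)) * ((DelP p).relIndex ⊤ : ℝ) - nm p ≤ 0 := by
    have h0 : (0 : ℝ) < (nm p : ℝ) + 1 := by positivity
    have : ((nm p : ℝ) / ((nm p : ℝ) + 1)) * ((DelP p).relIndex ⊤ : ℝ) ≤
        ((nm p : ℝ) / ((nm p : ℝ) + 1)) * ((nm p : ℝ) + 1) := by gcongr
    rw [div_mul_cancel₀ _ h0.ne'] at this
    linarith
  have h2 : ((nm p : ℝ) / ((nm p : ℝ) + 1)) * I *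
      (((nm p : ℝ) / ((nm p : ℝ) + 1)) * ((DelP p).relIndex ⊤ : ℝ) - nm p) ≤ 0 :=
    mul_nonpos_of_nonneg_of_nonpos (by positivity) hneg
  have h3 := Complex.re_le_norm (DD w F p)
  linarith

end Inner

end Crest.Agent.R012.K695.GramP988
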