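import Crest.Agent.R012.SpecK_384
import Crest.Agent.R012.StripIneq_813

/-!
# Row 12, (ML/MSL): the quadratic form `NN` and the norms of the orbit derivatives

`NN w F = ∫ w(det) |E_F|² dν` for the level one quotient measure `ν = nu ⊤ 1`.
-/

set_option autoImplicit false

noncomputable section

open MeasureTheory Set Filter Complex
open scoped ENNReal Topology ContDiff

namespace Crest.Agent.R012.ML384

open Crest.Agent.R012 Crest.Agent.R012.Parseval499 Crest.Agent.R012.StripCo813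
open Crest.Agent.R012.Four813 Crest.Agent.R012.K695 Crest.Agent.R012.TestFn286

/-- the quadratic form. -/
def NN (w : ℂ → ℝ≥0∞) (F : Vec → ℂ) : ℝ≥0∞ :=
  ∫⁻ M, w (det2 M) * ‖EC (bco ⊤) F M‖ₑ ^ 2 ∂(nu ⊤ 1)

lemma enorm_sq_add_le (x y : ℂ) : ‖x + y‖ₑ ^ 2 ≤ 2 * (‖x‖ₑ ^ 2 + ‖y‖ₑ ^ 2) := by
  have h : ∀ z : ℂ, ‖z‖ₑ ^ 2 = ENNReal.ofReal (‖z‖ ^ 2) := by
    intro z
    rw [ENNReal.ofReal_pow (norm_nonneg z), ofReal_norm]
  rw [h, h, h, ← ENNReal.ofReal_add (by positivity) (by positivity),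
    show (2 : ℝ≥0∞) = ENNReal.ofReal 2 by simp, ← ENNReal.ofReal_mul (by norm_num)]
  apply ENNReal.ofReal_le_ofReal
  have h1 := norm_add_le x y
  nlinarith [norm_nonneg (x + y), norm_nonneg x, norm_nonneg y, sq_nonneg (‖x‖ - ‖y‖)]

lemma enorm_sq_add3_le (x y z : ℂ) :
    ‖x + y + z‖ₑ ^ 2 ≤ 3 * (‖x‖ₑ ^ 2 + ‖y‖ₑ ^ 2 + ‖z‖ₑ ^ 2) := by
  have h : ∀ z : ℂ, ‖z‖ₑ ^ 2 = ENNReal.ofReal (‖z‖ ^ 2) := by
    intro z
    rw [ENNReal.ofReal_pow (norm_nonneg z), ofReal_norm]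
  rw [h, h, h, h, ← ENNReal.ofReal_add (by positivity) (by positivity),
    ← ENNReal.ofReal_add (by positivity) (by positivity),
    show (3 : ℝ≥0∞) = ENNReal.ofReal 3 by simp, ← ENNReal.ofReal_mul (by norm_num)]
  apply ENNReal.ofReal_le_ofReal
  have h1 := norm_add_le (x + y) z
  have h2 := norm_add_le x y
  have h3 : ‖x + y + z‖ ≤ ‖x‖ + ‖y‖ + ‖z‖ := by linarith
  nlinarith [norm_nonneg (x + y + z), norm_nonneg x, norm_nonneg y, norm_nonneg z,
    sq_nonneg (‖x‖ - ‖y‖), sq_nonneg (‖x‖ - ‖z‖), sq_nonneg (‖y‖ - ‖z‖)]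

lemma EC_add {a : Eis × Eis → ℂ} {F G : Vec → ℂ} (hF : BS F) (hG : BS G) {M : K695.Frm}
    (hM : det2 M ≠ 0) : EC a (fun u => F u + G u) M = EC a F M + EC a G M := by
  unfold EC
  rw [← (summable_EC (a := a) hF hM).tsum_add (summable_EC hG hM)]
  exact tsum_congr fun r => by ring

lemma EC_smul {a : Eis × Eis → ℂ} {F : Vec → ℂ} (c : ℂ) (M : K695.Frm) :
    EC a (fun u => c * F u) M = c * EC a F M := by
  unfold EC
  rw [← tsum_mul_left]
  exact tsum_congr fun r => by ring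

lemma BS.add {F G : Vec → ℂ} (hF : BS F) (hG : BS G) : BS (fun u => F u + G u) where
  meas := hF.meas.add hG.meas
  bdd := by
    obtain ⟨C, hC⟩ := hF.bdd
    obtain ⟨D, hD⟩ := hG.bdd
    exact ⟨C + D, fun u => (norm_add_le _ _).trans (add_le_add (hC u) (hD u))⟩
  supp := by
    obtain ⟨R, hR⟩ := hF.supp
    obtain ⟨R', hR'⟩ := hG.supp
    refine ⟨max R R', fun u hu => ?_⟩
    rw [hR u (lt_of_le_of_lt (le_max_left _ _) hu), hR' u (lt_of_le_of_lt (le_max_right _ _) hu),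
      add_zero]

lemma measurable_NN_int {w : ℂ → ℝ≥0∞} (hw : Measurable w) {F : Vec → ℂ} (hF : Measurable F) :
    Measurable fun M : K695.Frm => w (det2 M) * ‖EC (bco ⊤) F M‖ₑ ^ 2 :=
  (hw.comp measurable_det2).mul ((measurable_EC hF).enorm.pow_const 2)

lemma NN_add {w : ℂ → ℝ≥0∞} (hw : Measurable w) (hw0 : w 0 = 0) {F G : Vec → ℂ} (hF : BS F)
    (hG : BS G) :
    NN w (fun u => F u + G u) ≤ 2 * (NN w F + NN w G) := by
  unfold NN
  rw [← lintegral_add_right _ (measurable_NN_int hw hG.meas),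
    ← lintegral_const_mul' _ _ (by norm_num)]
  refine lintegral_mono fun M => ?_
  by_cases hM : det2 M = 0
  · simp [hM, hw0]
  · simp only
    rw [EC_add hF hG hM]
    calc w (det2 M) * ‖EC (bco ⊤) F M + EC (bco ⊤) G M‖ₑ ^ 2
        ≤ w (det2 M) * (2 * (‖EC (bco ⊤) F M‖ₑ ^ 2 + ‖EC (bco ⊤) G M‖ₑ ^ 2)) := by
          gcongr
          exact enorm_sq_add_le _ _
      _ = _ := by ring

lemma BS_zero : BS (fun _ : Vec => (0 : ℂ)) where
  meas := measurable_const
  bdd := ⟨0, fun _ => by simp⟩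
  supp := ⟨0, fun _ _ => rfl⟩

/-- sum of a list of functions. -/
def lsum (L : List (Vec → ℂ)) (u : Vec) : ℂ := (L.map (fun F => F u)).sum

lemma lsum_cons (F : Vec → ℂ) (L : List (Vec → ℂ)) :
    lsum (F :: L) = fun u => F u + lsum L u := by
  funext u; simp [lsum]

lemma BS_lsum {L : List (Vec → ℂ)} (hL : ∀ F ∈ L, BS F) : BS (lsum L) := by
  induction L with
  | nil => exact BS_zero
  | cons F L ih =>
    rw [lsum_cons]
    exact BS.add (hL F (by simp)) (ih fun G hG => hL G (by simp [hG]))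

lemma NN_zero (w : ℂ → ℝ≥0∞) : NN w (fun _ => 0) = 0 := by
  unfold NN EC; simp

lemma NN_lsum {w : ℂ → ℝ≥0∞} (hw : Measurable w) (hw0 : w 0 = 0) {E : ℝ≥0∞}
    {L : List (Vec → ℂ)} (hL : ∀ F ∈ L, BS F) (hE : ∀ F ∈ L, NN w F ≤ E) :
    NN w (lsum L) ≤ 4 ^ L.length * E := by
  induction L with
  | nil =>
    have : lsum [] = fun _ => 0 := by funext u; simp [lsum]
    rw [this, NN_zero]; simp
  | cons F L ih =>
    rw [lsum_cons]
    have hL' : ∀ G ∈ L, BS G := fun G hG => hL G (List.mem_cons_of_mem _ hG)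
    have h1 := NN_add hw hw0 (hL F (by simp)) (BS_lsum hL')
    have h2 := ih hL' (fun G hG => hE G (List.mem_cons_of_mem _ hG))
    refine h1.trans ?_
    calc 2 * (NN w F + NN w (lsum L)) ≤ 2 * (E + 4 ^ L.length * E) := by
          gcongr
          exact hE F (by simp)
      _ = 2 * E + 2 * (4 ^ L.length * E) := by ring
      _ ≤ 2 * (4 ^ L.length * E) + 2 * (4 ^ L.length * E) := by
          gcongr
          calc E = 1 * E := (one_mul E).symm
            _ ≤ 4 ^ L.length * E := by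
              gcongr
              exact one_le_pow₀ (by norm_num)
      _ = 4 ^ (F :: L).length * E := by
          rw [List.length_cons, pow_succ]; ring

lemma NN_smul {w : ℂ → ℝ≥0∞} (hw : Measurable w) {F : Vec → ℂ} (hF : Measurable F) (c : ℂ) :
    NN w (fun u => c * F u) = ‖c‖ₑ ^ 2 * NN w F := by
  unfold NN
  rw [← lintegral_const_mul _ (measurable_NN_int hw hF)]
  refine lintegral_congr fun M => ?_
  rw [EC_smul, enorm_mul]
  ring

end Crest.Agent.R012.ML384
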