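import Crest.Agent.R012.TestFn_286

/-!
# Row 12, (MSL): the test functions `Wf w t l B z = w(|z|²/B) |z|^{2it} (z/|z|)^l`

Radial and angular derivatives, uniform bounds.
-/

set_option autoImplicit false

noncomputable section

open MeasureTheory Set Filter Complex
open scoped ENNReal Topology ContDiff

namespace Crest.Agent.R012.TestFn286

/-- smooth functions on `ℝ` supported in `[a, b]`. -/
structure SW (a b : ℝ) (w : ℝ → ℂ) : Prop where
  cd : ContDiff ℝ ∞ w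
  supp : ∀ x, x < a ∨ b < x → w x = 0

/-- `z ↦ w(|z|²/B) |z|^{2it} (z/|z|)^l`. -/
def Wf (w : ℝ → ℂ) (t : ℝ) (l : ℤ) (B : ℝ) (z : ℂ) : ℂ :=
  w (‖z‖ ^ 2 / B) * ((‖z‖ : ℝ) : ℂ) ^ (2 * (t : ℂ) * I) * (z / ((‖z‖ : ℝ) : ℂ)) ^ l

/-- `x ↦ 2 x w'(x)`. -/
def Aw (w : ℝ → ℂ) (x : ℝ) : ℂ := 2 * (x : ℂ) * deriv w x

/-- `x ↦ 2 x w'(x) + 2 i t w(x)`. -/
def rw' (t : ℝ) (w : ℝ → ℂ) (x : ℝ) : ℂ := Aw w x + 2 * (t : ℂ) * I * w x

section SWclosure

variable {a b : ℝ} {w w₁ w₂ : ℝ → ℂ}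

lemma SW.eventually_zero (h : SW a b w) {x : ℝ} (hx : x < a ∨ b < x) :
    w =ᶠ[𝓝 x] fun _ => 0 := by
  rcases hx with hx | hx
  · filter_upwards [gt_mem_nhds hx] with y hy
    exact h.supp y (Or.inl hy)
  · filter_upwards [lt_mem_nhds hx] with y hy
    exact h.supp y (Or.inr hy)

lemma SW.deriv_zero (h : SW a b w) {x : ℝ} (hx : x < a ∨ b < x) : deriv w x = 0 := by
  rw [(h.eventually_zero hx).deriv_eq]; simp

lemma SW.differentiable (h : SW a b w) : Differentiable ℝ w := h.cd.differentiable (by simp)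

lemma SW.contDiff_deriv (h : SW a b w) : ContDiff ℝ ∞ (deriv w) :=
  (contDiff_infty_iff_deriv.mp h.cd).2

lemma SW.Aw (h : SW a b w) : SW a b (Aw w) where
  cd := by
    unfold TestFn286.Aw
    exact (contDiff_const.mul Complex.ofRealCLM.contDiff).mul h.contDiff_deriv
  supp x hx := by unfold TestFn286.Aw; rw [h.deriv_zero hx, mul_zero]

lemma SW.const_mul (h : SW a b w) (c : ℂ) : SW a b (fun x => c * w x) where
  cd := contDiff_const.mul h.cd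
  supp x hx := by rw [h.supp x hx, mul_zero]

lemma SW.add (h₁ : SW a b w₁) (h₂ : SW a b w₂) : SW a b (fun x => w₁ x + w₂ x) where
  cd := h₁.cd.add h₂.cd
  supp x hx := by rw [h₁.supp x hx, h₂.supp x hx, add_zero]

lemma SW.rw' (h : SW a b w) (t : ℝ) : SW a b (rw' t w) :=
  h.Aw.add (h.const_mul (2 * (t : ℂ) * I))

lemma SW.bdd (h : SW a b w) : ∃ C, 0 ≤ C ∧ ∀ x, ‖w x‖ ≤ C := by
  have hc : HasCompactSupport w := by
    refine HasCompactSupport.intro (isCompact_Icc (a := a) (b := b)) fun x hx => ?_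
    rw [Set.mem_Icc, not_and_or, not_le, not_le] at hx
    exact h.supp x hx
  obtain ⟨C, hC⟩ := h.cd.continuous.bounded_above_of_compact_support hc
  exact ⟨C, (norm_nonneg _).trans (hC 0), hC⟩

end SWclosure

lemma SP.bdd {R : ℝ} {φ : ℂ → ℂ} (h : SP R φ) : ∃ C, 0 ≤ C ∧ ∀ x, ‖φ x‖ ≤ C := by
  have hc : HasCompactSupport φ := by
    refine HasCompactSupport.intro (isCompact_closedBall (0 : ℂ) R) fun x hx => ?_
    rw [mem_closedBall_zero_iff, not_le] at hx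
    exact h.supp x hx
  obtain ⟨C, hC⟩ := h.cd.continuous.bounded_above_of_compact_support hc
  exact ⟨C, (norm_nonneg _).trans (hC 0), hC⟩

/-! ### smoothness of `Wf` -/

lemma Wf_zero_of {a b B : ℝ} (hB : 0 < B) {w : ℝ → ℂ} (h : SW a b w) (t : ℝ)
    (l : ℤ) (z : ℂ) (hz : ‖z‖ < Real.sqrt (a * B) ∨ Real.sqrt (b * B) < ‖z‖) :
    Wf w t l B z = 0 := by
  unfold Wf
  have : ‖z‖ ^ 2 / B < a ∨ b < ‖z‖ ^ 2 / B := by
    rcases hz with hz | hz
    · left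
      rw [div_lt_iff₀ hB]
      have := Real.lt_sqrt (norm_nonneg z) |>.mp hz
      exact this
    · right
      rw [lt_div_iff₀ hB]
      exact (Real.sqrt_lt' (lt_of_le_of_lt (Real.sqrt_nonneg _) hz)).mp hz
  rw [h.supp _ this]
  simp

lemma contDiffAt_zpow' {f : ℂ → ℂ} {z : ℂ} (hf : ContDiffAt ℝ ∞ f z) (h0 : f z ≠ 0) (l : ℤ) :
    ContDiffAt ℝ ∞ (fun z => f z ^ l) z := by
  obtain ⟨n, rfl | rfl⟩ := l.eq_nat_or_neg
  · simp only [zpow_natCast]
    exact hf.pow n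
  · simp only [zpow_neg, zpow_natCast]
    exact (hf.pow n).inv (pow_ne_zero n h0)

lemma SW.SU {a b B : ℝ} (hB : 0 < B) (ha : 0 < a) {w : ℝ → ℂ} (h : SW a b w) (t : ℝ) (l : ℤ) :
    SU (Real.sqrt (a * B)) (Real.sqrt (b * B)) (Wf w t l B) where
  supp z hz := Wf_zero_of hB h t l z hz
  cd := by
    rw [contDiff_iff_contDiffAt]
    intro z
    by_cases hz : z = 0
    · have hpos : 0 < Real.sqrt (a * B) := Real.sqrt_pos.mpr (by positivity)
      have : Wf w t l B =ᶠ[𝓝 z] fun _ => 0 := by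
        have hm : {y : ℂ | ‖y‖ < Real.sqrt (a * B)} ∈ 𝓝 z :=
          (isOpen_lt continuous_norm continuous_const).mem_nhds (by simpa [hz] using hpos)
        filter_upwards [hm] with y hy
        exact Wf_zero_of hB h t l y (Or.inl hy)
      exact contDiffAt_const.congr_of_eventuallyEq this
    · have hn : ‖z‖ ≠ 0 := norm_ne_zero_iff.mpr hz
      have hnorm : ContDiffAt ℝ ∞ (fun y : ℂ => ‖y‖) z := contDiffAt_norm ℝ hz
      have hnormC : ContDiffAt ℝ ∞ (fun y : ℂ => ((‖y‖ : ℝ) : ℂ)) z :=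
        Complex.ofRealCLM.contDiff.contDiffAt.comp z hnorm
      have h1 : ContDiffAt ℝ ∞ (fun y : ℂ => w (‖y‖ ^ 2 / B)) z :=
        h.cd.contDiffAt.comp z ((contDiff_norm_sq ℝ).contDiffAt.div_const B)
      have h2 : ContDiffAt ℝ ∞ (fun y : ℂ => ((‖y‖ : ℝ) : ℂ) ^ (2 * (t : ℂ) * I)) z := by
        have e : (fun y : ℂ => ((‖y‖ : ℝ) : ℂ) ^ (2 * (t : ℂ) * I)) =ᶠ[𝓝 z]
            fun y : ℂ => Complex.exp (((Real.log ‖y‖ : ℝ) : ℂ) * (2 * (t : ℂ) * I)) := by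
          filter_upwards [isOpen_ne.mem_nhds hz] with y hy
          rw [Complex.cpow_def_of_ne_zero (by simpa using hy), ← Complex.ofReal_log (norm_nonneg _)]
        refine ContDiffAt.congr_of_eventuallyEq ?_ e
        refine ContDiffAt.cexp ?_
        exact (Complex.ofRealCLM.contDiff.contDiffAt.comp z (hnorm.log hn)).mul contDiffAt_const
      have h3 : ContDiffAt ℝ ∞ (fun y : ℂ => (y / ((‖y‖ : ℝ) : ℂ)) ^ l) z := by
        refine contDiffAt_zpow' (f := fun y : ℂ => y / ((‖y‖ : ℝ) : ℂ)) ?_ ?_ l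
        · exact contDiffAt_id.mul (hnormC.inv (by simpa using hn))
        · exact div_ne_zero hz (by simpa using hn)
      exact (h1.mul h2).mul h3

/-! ### radial and angular derivatives -/

lemma Wf_exp_mul {B : ℝ} {w : ℝ → ℂ} (t : ℝ) (l : ℤ) (z : ℂ) (r : ℝ) :
    Wf w t l B (((Real.exp r : ℝ) : ℂ) * z) = w (Real.exp (2 * r) * (‖z‖ ^ 2 / B)) *
      Complex.exp (2 * (t : ℂ) * I * r) *
      (((‖z‖ : ℝ) : ℂ) ^ (2 * (t : ℂ) * I) * (z / ((‖z‖ : ℝ) : ℂ)) ^ l) := by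
  unfold Wf
  have hn : ‖((Real.exp r : ℝ) : ℂ) * z‖ = Real.exp r * ‖z‖ := by
    rw [norm_mul, Complex.norm_real, Real.norm_eq_abs, abs_of_pos (Real.exp_pos r)]
  have he : ((Real.exp r : ℝ) : ℂ) ≠ 0 := by
    simp [Complex.exp_ne_zero]
  rw [hn]
  have h1 : (Real.exp r * ‖z‖) ^ 2 / B = Real.exp (2 * r) * (‖z‖ ^ 2 / B) := by
    rw [mul_pow, ← Real.exp_nat_mul]; push_cast; ring
  have h2 : ((Real.exp r * ‖z‖ : ℝ) : ℂ) ^ (2 * (t : ℂ) * I)
      = Complex.exp (2 * (t : ℂ) * I * r) * ((‖z‖ : ℝ) : ℂ) ^ (2 * (t : ℂ) * I) := by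
    rw [Complex.ofReal_mul, Complex.mul_cpow_ofReal_nonneg (Real.exp_pos r).le (norm_nonneg z)]
    congr 1
    rw [Complex.cpow_def_of_ne_zero he, ← Complex.ofReal_log (Real.exp_pos r).le, Real.log_exp]
    ring_nf
  have h3 : ((Real.exp r : ℝ) : ℂ) * z / ((Real.exp r * ‖z‖ : ℝ) : ℂ) = z / ((‖z‖ : ℝ) : ℂ) := by
    rw [Complex.ofReal_mul, mul_div_mul_left _ _ he]
  rw [h1, h2, h3]
  ring

lemma Wf_rot {B : ℝ} {w : ℝ → ℂ} (t : ℝ) (l : ℤ) (z : ℂ) (u : ℂ) (hu : ‖u‖ = 1) :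
    Wf w t l B (u * z) = u ^ l * Wf w t l B z := by
  unfold Wf
  rw [norm_mul, hu, one_mul, mul_div_assoc, mul_zpow]
  ring

theorem DrU_Wf {a b B : ℝ} (hB : 0 < B) (ha : 0 < a) {w : ℝ → ℂ} (h : SW a b w) (t : ℝ)
    (l : ℤ) : DrU (Wf w t l B) = Wf (rw' t w) t l B := by
  funext z
  have hU := h.SU hB ha t l
  by_cases hz : z = 0
  · have hpos : 0 < Real.sqrt (a * B) := Real.sqrt_pos.mpr (by positivity)
    rw [hU.DrU.supp z (Or.inl (by simpa [hz] using hpos)),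
      ((h.rw' t).SU hB ha t l).supp z (Or.inl (by simpa [hz] using hpos))]
  · have hd : HasDerivAt (fun r : ℝ => ((Real.exp r : ℝ) : ℂ) * z) z 0 := by
      have h1 : HasDerivAt (fun r : ℝ => ((Real.exp r : ℝ) : ℂ)) 1 0 := by
        have := (Real.hasDerivAt_exp 0).ofReal_comp
        simpa using this
      simpa using h1.mul_const z
    have hUd : Differentiable ℝ (Wf w t l B) := hU.cd.differentiable (by simp)
    have e0 : ((Real.exp 0 : ℝ) : ℂ) * z = z := by simp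
    have hA : HasDerivAt (fun r : ℝ => Wf w t l B (((Real.exp r : ℝ) : ℂ) * z))
        (DrU (Wf w t l B) z) 0 := by
      have := (hUd (((Real.exp 0 : ℝ) : ℂ) * z)).hasFDerivAt.comp_hasDerivAt (0 : ℝ) hd
      rw [e0] at this
      exact this
    have hB' : HasDerivAt (fun r : ℝ => Wf w t l B (((Real.exp r : ℝ) : ℂ) * z))
        (Wf (rw' t w) t l B z) 0 := by
      simp_rw [Wf_exp_mul t l z]
      have h1 : HasDerivAt (fun r : ℝ => Real.exp (2 * r) * (‖z‖ ^ 2 / B))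
          (2 * (‖z‖ ^ 2 / B)) 0 := by
        have := (((hasDerivAt_id (0 : ℝ)).const_mul 2).exp).mul_const (‖z‖ ^ 2 / B)
        simpa using this
      have h2 : HasDerivAt (fun r : ℝ => w (Real.exp (2 * r) * (‖z‖ ^ 2 / B)))
          ((2 * (‖z‖ ^ 2 / B) : ℝ) • deriv w (‖z‖ ^ 2 / B)) 0 := by
        have h3 := (h.differentiable (Real.exp (2 * 0) * (‖z‖ ^ 2 / B))).hasDerivAt
        have h4 := h3.scomp (0 : ℝ) h1
        simpa [Function.comp_def] using h4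
      have h5 : HasDerivAt (fun r : ℝ => Complex.exp (2 * (t : ℂ) * I * r))
          (2 * (t : ℂ) * I) 0 := by
        have h6 : HasDerivAt (fun r : ℝ => 2 * (t : ℂ) * I * (r : ℂ)) (2 * (t : ℂ) * I) 0 := by
          have := (Complex.ofRealCLM.hasDerivAt (x := (0 : ℝ))).const_mul (2 * (t : ℂ) * I)
          simpa using this
        have := h6.cexp
        simpa using this
      have h7 := (h2.mul h5).mul_const
        (((‖z‖ : ℝ) : ℂ) ^ (2 * (t : ℂ) * I) * (z / ((‖z‖ : ℝ) : ℂ)) ^ l)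
      refine h7.congr_deriv ?_
      unfold Wf rw' Aw
      simp only [Complex.real_smul, mul_zero, Real.exp_zero, one_mul, Complex.ofReal_zero,
        Complex.exp_zero, mul_one, Complex.ofReal_mul, Complex.ofReal_ofNat]
      ring
    exact hA.unique hB'

theorem DtU_Wf {a b B : ℝ} (hB : 0 < B) (ha : 0 < a) {w : ℝ → ℂ} (h : SW a b w) (t : ℝ)
    (l : ℤ) : DtU (Wf w t l B) = Wf (fun x => ((l : ℂ) * I) * w x) t l B := by
  funext z
  have hU := h.SU hB ha t l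
  have hd : HasDerivAt (fun r : ℝ => Complex.exp (I * r) * z) (I * z) 0 := by
    have h6 : HasDerivAt (fun r : ℝ => I * (r : ℂ)) I 0 := by
      have := (Complex.ofRealCLM.hasDerivAt (x := (0 : ℝ))).const_mul I
      simpa using this
    have := h6.cexp.mul_const z
    simpa using this
  have hUd : Differentiable ℝ (Wf w t l B) := hU.cd.differentiable (by simp)
  have e0 : Complex.exp (I * ((0 : ℝ) : ℂ)) * z = z := by simp
  have hA : HasDerivAt (fun r : ℝ => Wf w t l B (Complex.exp (I * r) * z))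
      (DtU (Wf w t l B) z) 0 := by
    have := (hUd (Complex.exp (I * ((0 : ℝ) : ℂ)) * z)).hasFDerivAt.comp_hasDerivAt (0 : ℝ) hd
    rw [e0] at this
    exact this
  have hB' : HasDerivAt (fun r : ℝ => Wf w t l B (Complex.exp (I * r) * z))
      ((l : ℂ) * I * Wf w t l B z) 0 := by
    have e1 : (fun r : ℝ => Wf w t l B (Complex.exp (I * r) * z))
        = fun r : ℝ => Complex.exp ((l : ℂ) * I * r) * Wf w t l B z := by
      funext r
      rw [Wf_rot t l z _ (by rw [mul_comm]; exact Complex.norm_exp_ofReal_mul_I r),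
        ← Complex.exp_int_mul]
      ring_nf
    rw [e1]
    have h6 : HasDerivAt (fun r : ℝ => (l : ℂ) * I * (r : ℂ)) ((l : ℂ) * I) 0 := by
      have := (Complex.ofRealCLM.hasDerivAt (x := (0 : ℝ))).const_mul ((l : ℂ) * I)
      simpa using this
    have := h6.cexp.mul_const (Wf w t l B z)
    simpa using this
  rw [hA.unique hB']
  unfold Wf
  ring

/-! ### uniform bounds -/

lemma norm_Wf_le {B : ℝ} (w : ℝ → ℂ) (t : ℝ) (l : ℤ) (z : ℂ) :
    ‖Wf w t l B z‖ ≤ ‖w (‖z‖ ^ 2 / B)‖ := by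
  unfold Wf
  rw [norm_mul, norm_mul]
  have h1 : ‖((‖z‖ : ℝ) : ℂ) ^ (2 * (t : ℂ) * I)‖ ≤ 1 := by
    by_cases hz : z = 0
    · subst hz
      simp only [norm_zero, Complex.ofReal_zero]
      by_cases ht : 2 * (t : ℂ) * I = 0
      · rw [ht]; simp
      · rw [Complex.zero_cpow ht]; simp
    · have hn : 0 < ‖z‖ := norm_pos_iff.mpr hz
      rw [Complex.norm_cpow_eq_rpow_re_of_pos hn]
      simp
  have h2 : ‖(z / ((‖z‖ : ℝ) : ℂ)) ^ l‖ ≤ 1 := by
    rw [norm_zpow, norm_div, Complex.norm_real, norm_norm]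
    by_cases hz : z = 0
    · subst hz
      simp only [norm_zero, div_zero]
      by_cases hl : l = 0
      · subst hl; simp
      · rw [zero_zpow _ hl]; exact zero_le_one
    · rw [div_self (norm_ne_zero_iff.mpr hz), one_zpow]
  calc ‖w (‖z‖ ^ 2 / B)‖ * ‖((‖z‖ : ℝ) : ℂ) ^ (2 * (t : ℂ) * I)‖ * ‖(z / ((‖z‖ : ℝ) : ℂ)) ^ l‖
      ≤ ‖w (‖z‖ ^ 2 / B)‖ * 1 * 1 := by gcongr
    _ = ‖w (‖z‖ ^ 2 / B)‖ := by ring

lemma rw'_bd1 {a b : ℝ} {w : ℝ → ℂ} (h : SW a b w) :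
    ∃ C, 0 ≤ C ∧ ∀ t x, ‖rw' t w x‖ ≤ C * (1 + |t|) := by
  obtain ⟨C0, h0, hC0⟩ := h.bdd
  obtain ⟨C1, h1, hC1⟩ := h.Aw.bdd
  refine ⟨C1 + 2 * C0, by positivity, fun t x => ?_⟩
  unfold rw'
  have e : ‖2 * (t : ℂ) * I * w x‖ = 2 * |t| * ‖w x‖ := by
    simp
  calc ‖Aw w x + 2 * (t : ℂ) * I * w x‖ ≤ ‖Aw w x‖ + 2 * |t| * ‖w x‖ := by
        rw [← e]; exact norm_add_le _ _
    _ ≤ C1 + 2 * |t| * C0 := by gcongr; exacts [hC1 x, hC0 x]
    _ ≤ (C1 + 2 * C0) * (1 + |t|) := by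
        have := abs_nonneg t
        nlinarith [mul_nonneg h1 this]

lemma Aw_rw' {a b : ℝ} {w : ℝ → ℂ} (h : SW a b w) (t x : ℝ) :
    Aw (rw' t w) x = Aw (Aw w) x + 2 * (t : ℂ) * I * Aw w x := by
  have h1 : HasDerivAt (rw' t w) (deriv (Aw w) x + 2 * (t : ℂ) * I * deriv w x) x := by
    unfold rw'
    exact (h.Aw.differentiable x).hasDerivAt.add
      ((h.differentiable x).hasDerivAt.const_mul (2 * (t : ℂ) * I))
  have e1 : Aw (rw' t w) x = 2 * (x : ℂ) * deriv (rw' t w) x := rfl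
  have e2 : Aw (Aw w) x = 2 * (x : ℂ) * deriv (Aw w) x := rfl
  have e3 : Aw w x = 2 * (x : ℂ) * deriv w x := rfl
  rw [e1, h1.deriv, e2, e3]
  ring

lemma rw'_bd2 {a b : ℝ} {w : ℝ → ℂ} (h : SW a b w) :
    ∃ C, 0 ≤ C ∧ ∀ t x, ‖rw' t (rw' t w) x‖ ≤ C * (1 + |t|) ^ 2 := by
  obtain ⟨C0, h0, hC0⟩ := h.Aw.Aw.bdd
  obtain ⟨C1, h1, hC1⟩ := h.Aw.bdd
  obtain ⟨C2, h2, hC2⟩ := rw'_bd1 h
  refine ⟨C0 + 2 * C1 + 2 * C2, by positivity, fun t x => ?_⟩
  have e : rw' t (rw' t w) x = (Aw (Aw w) x + 2 * (t : ℂ) * I * Aw w x)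
      + 2 * (t : ℂ) * I * rw' t w x := by
    rw [← Aw_rw' h]; rfl
  have e1 : ∀ y : ℂ, ‖2 * (t : ℂ) * I * y‖ = 2 * |t| * ‖y‖ := fun y => by simp
  rw [e]
  calc ‖(Aw (Aw w) x + 2 * (t : ℂ) * I * Aw w x) + 2 * (t : ℂ) * I * rw' t w x‖
      ≤ (‖Aw (Aw w) x‖ + 2 * |t| * ‖Aw w x‖) + 2 * |t| * ‖rw' t w x‖ := by
        rw [← e1, ← e1]
        exact (norm_add_le _ _).trans (add_le_add (norm_add_le _ _) le_rfl)
    _ ≤ (C0 + 2 * |t| * C1) + 2 * |t| * (C2 * (1 + |t|)) := by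
        gcongr; exacts [hC0 x, hC1 x, hC2 t x]
    _ ≤ (C0 + 2 * C1 + 2 * C2) * (1 + |t|) ^ 2 := by
        have := abs_nonneg t
        nlinarith [mul_nonneg h0 this, mul_nonneg h1 this, mul_nonneg h2 this,
          mul_nonneg (mul_nonneg h0 this) this, mul_nonneg (mul_nonneg h1 this) this]

/-- `x ↦ s^k ψ(x/s)`. -/
def scp (s : ℝ) (k : ℕ) (ψ : ℂ → ℂ) (x : ℂ) : ℂ := (s : ℂ) ^ k * ψ (x / s)

lemma Rm_scp {s : ℝ} (hs : s ≠ 0) (k : ℕ) (c : ℂ) (ψ : ℂ → ℂ) :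
    Rm c (scp s k ψ) = scp s (k + 1) (Rm c ψ) := by
  funext x
  unfold Rm scp
  have hs' : (s : ℂ) ≠ 0 := by exact_mod_cast hs
  have e : ((c * x).re : ℂ) = s * ((c * (x / s)).re : ℂ) := by
    have : c * x = (s : ℂ) * (c * (x / s)) := by field_simp
    rw [this, Complex.re_ofReal_mul]; push_cast; ring_nf
  rw [e]; ring

lemma Im'_scp {s : ℝ} (hs : s ≠ 0) (k : ℕ) (c : ℂ) (ψ : ℂ → ℂ) :
    Im' c (scp s k ψ) = scp s (k + 1) (Im' c ψ) := by
  funext x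
  unfold Im' scp
  have hs' : (s : ℂ) ≠ 0 := by exact_mod_cast hs
  have e : ((c * x).im : ℂ) = s * ((c * (x / s)).im : ℂ) := by
    have : c * x = (s : ℂ) * (c * (x / s)) := by field_simp
    rw [this, Complex.im_ofReal_mul]; push_cast; ring_nf
  rw [e]; ring

lemma Dm_scp {s : ℝ} (hs : s ≠ 0) (k : ℕ) (c : ℂ) {ψ : ℂ → ℂ} (hψ : Differentiable ℝ ψ) :
    Dm c (scp s k ψ) = scp s (k + 1) (Dm c ψ) := by
  funext x
  unfold Dm
  have hs' : (s : ℂ) ≠ 0 := by exact_mod_cast hs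
  have h1 : HasFDerivAt (fun y : ℂ => y / (s : ℂ)) ((s⁻¹ : ℝ) • ContinuousLinearMap.id ℝ ℂ) x := by
    have : (fun y : ℂ => y / (s : ℂ)) = fun y : ℂ => (s⁻¹ : ℝ) • (ContinuousLinearMap.id ℝ ℂ y) := by
      funext y
      simp [div_eq_inv_mul]
    rw [this]
    exact (ContinuousLinearMap.id ℝ ℂ).hasFDerivAt.const_smul (s⁻¹ : ℝ)
  have h2 : HasFDerivAt (fun y : ℂ => ψ (y / s))
      ((fderiv ℝ ψ (x / s)).comp ((s⁻¹ : ℝ) • ContinuousLinearMap.id ℝ ℂ)) x :=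
    (hψ (x / s)).hasFDerivAt.comp x h1
  have h3 : HasFDerivAt (scp s k ψ)
      ((s : ℂ) ^ k • ((fderiv ℝ ψ (x / s)).comp ((s⁻¹ : ℝ) • ContinuousLinearMap.id ℝ ℂ))) x :=
    h2.const_mul ((s : ℂ) ^ k)
  rw [h3.fderiv]
  simp only [_root_.smul_apply, ContinuousLinearMap.comp_apply,
    ContinuousLinearMap.id_apply, scp, smul_eq_mul]
  have e : (s⁻¹ : ℝ) • (-(c * x ^ 2)) = (s : ℝ) • (-(c * (x / s) ^ 2)) := by
    rw [Complex.real_smul, Complex.real_smul]; push_cast; field_simp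
  rw [e, map_smul, Complex.real_smul]
  ring

lemma SP.scp {R s : ℝ} (hs : 0 < s) {ψ : ℂ → ℂ} (h : SP R ψ) (k : ℕ) :
    SP (R * s) (scp s k ψ) where
  cd := by
    unfold TestFn286.scp
    exact contDiff_const.mul (h.cd.comp (contDiff_id.div_const _))
  supp z hz := by
    unfold TestFn286.scp
    rw [h.supp _ ?_, mul_zero]
    rw [norm_div, Complex.norm_real, Real.norm_eq_abs, abs_of_pos hs, lt_div_iff₀ hs]
    exact hz

lemma norm_scp_le {s : ℝ} (hs : 0 < s) {ψ : ℂ → ℂ} {C : ℝ} (h : ∀ x, ‖ψ x‖ ≤ C) (k : ℕ) (x : ℂ) :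
    ‖scp s k ψ x‖ ≤ C * s ^ k := by
  unfold scp
  rw [norm_mul, norm_pow, Complex.norm_real, Real.norm_eq_abs, abs_of_pos hs, mul_comm]
  gcongr
  exact h _

/-- the three pairs occurring in `D1 c`. -/
def step (c : ℂ) (p : (ℂ → ℂ) × (ℂ → ℂ)) : List ((ℂ → ℂ) × (ℂ → ℂ)) :=
  [(DrU p.1, Rm c p.2), (DtU p.1, Im' c p.2), (p.1, Dm c p.2)]

/-- all the pairs occurring in `F, F₁, F₂, F₁₂`. -/
def terms (p : (ℂ → ℂ) × (ℂ → ℂ)) : List ((ℂ → ℂ) × (ℂ → ℂ)) :=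
  [p] ++ step 1 p ++ step I p ++ (step 1 p).flatMap (step I)

lemma D1_eq_sum (c : ℂ) (U φ : ℂ → ℂ) (u : ℂ × ℂ) :
    D1 c U φ u = ((step c (U, φ)).map (fun p => prodF p.1 p.2 u)).sum := by
  simp [D1, step]; ring

lemma D12_eq_sum (c c' : ℂ) (U φ : ℂ → ℂ) (u : ℂ × ℂ) :
    D12 c c' U φ u =
      (((step c (U, φ)).flatMap (step c')).map (fun p => prodF p.1 p.2 u)).sum := by
  simp [D12, D1, step]; ring

/-- closure of the classes under the operators. -/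
lemma SU_SP_terms {a b R : ℝ} {U φ : ℂ → ℂ} (hU : SU a b U) (hφ : SP R φ) :
    ∀ p ∈ terms (U, φ), SU a b p.1 ∧ SP R p.2 := by
  have hstep : ∀ (c : ℂ) (q : (ℂ → ℂ) × (ℂ → ℂ)), SU a b q.1 ∧ SP R q.2 →
      ∀ p ∈ step c q, SU a b p.1 ∧ SP R p.2 := by
    intro c q hq p hp
    simp only [step, List.mem_cons, List.not_mem_nil, or_false] at hp
    rcases hp with rfl | rfl | rfl
    · exact ⟨hq.1.DrU, hq.2.Rm c⟩
    · exact ⟨hq.1.DtU, hq.2.Im' c⟩
    · exact ⟨hq.1, hq.2.Dm c⟩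
  intro p hp
  simp only [terms, List.mem_append, List.mem_singleton, List.mem_flatMap] at hp
  rcases hp with ((hp | hp) | hp) | ⟨q, hq, hp⟩
  · subst hp; exact ⟨hU, hφ⟩
  · exact hstep _ _ ⟨hU, hφ⟩ p hp
  · exact hstep _ _ ⟨hU, hφ⟩ p hp
  · exact hstep _ _ (hstep _ _ ⟨hU, hφ⟩ q hq) p hp

/-! ### uniform bounds for all terms -/

lemma Aw_const_mul {a b : ℝ} {w : ℝ → ℂ} (h : SW a b w) (c : ℂ) :
    Aw (fun x => c * w x) = fun x => c * Aw w x := by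
  funext x
  have h1 : HasDerivAt (fun x => c * w x) (c * deriv w x) x :=
    (h.differentiable x).hasDerivAt.const_mul c
  have e1 : Aw (fun x => c * w x) x = 2 * (x : ℂ) * deriv (fun x => c * w x) x := rfl
  rw [e1, h1.deriv]
  unfold Aw
  ring

lemma SW.iter {a b : ℝ} {w : ℝ → ℂ} (h : SW a b w) (i : ℕ) : SW a b (TestFn286.Aw^[i] w) := by
  induction i with
  | zero => exact h
  | succ i ih => rw [Function.iterate_succ_apply']; exact ih.Aw

lemma iter_rw' {a b : ℝ} {w : ℝ → ℂ} (h : SW a b w) (t : ℝ) (i : ℕ) :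
    Aw^[i] (rw' t w) = rw' t (Aw^[i] w) := by
  induction i with
  | zero => rfl
  | succ i ih =>
    rw [Function.iterate_succ_apply', Function.iterate_succ_apply', ih]
    funext x
    exact Aw_rw' (h.iter i) t x

lemma iter_const_mul {a b : ℝ} {w : ℝ → ℂ} (h : SW a b w) (c : ℂ) (i : ℕ) :
    Aw^[i] (fun x => c * w x) = fun x => c * Aw^[i] w x := by
  induction i with
  | zero => rfl
  | succ i ih =>
    rw [Function.iterate_succ_apply', Function.iterate_succ_apply', ih]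
    exact Aw_const_mul (h.iter i) c

/-- families of pairs of functions, depending on `t, s, B`. -/
abbrev Fam := ℝ → ℝ → ℝ → (ℂ → ℂ) × (ℂ → ℂ)

/-- `U` is `Wf` of a family of weights growing like `(1+|t|)^k` (with `n` derivatives), `φ` is
`s^k ψ(·/s)`. -/
def Good (a b R : ℝ) (l : ℤ) (k n : ℕ) (P : Fam) : Prop :=
  ∃ (W : ℝ → ℝ → ℂ) (ψ : ℂ → ℂ), (∀ t, SW a b (W t)) ∧ SP R ψ ∧
    (∃ C, 0 ≤ C ∧ ∀ i ≤ n, ∀ t x, ‖(Aw^[i]) (W t) x‖ ≤ C * (1 + |t|) ^ k) ∧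
    ∀ t s B, 0 < s → 0 < B → P t s B = (Wf (W t) t l B, scp s k ψ)

/-- the three families occurring in `D1 c`. -/
def stepF (c : ℂ) (P : Fam) : List Fam :=
  [fun t s B => (DrU (P t s B).1, Rm c (P t s B).2),
   fun t s B => (DtU (P t s B).1, Im' c (P t s B).2),
   fun t s B => ((P t s B).1, Dm c (P t s B).2)]

/-- all families. -/
def termsF (P : Fam) : List Fam :=
  [P] ++ stepF 1 P ++ stepF I P ++ (stepF 1 P).flatMap (stepF I)

lemma terms_eq (P : Fam) (t s B : ℝ) :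
    terms (P t s B) = (termsF P).map (fun Q => Q t s B) := by
  simp [terms, termsF, step, stepF]

lemma Good.step {a b R : ℝ} (ha : 0 < a) {l : ℤ} {k n : ℕ} {P : Fam}
    (h : Good a b R l k (n + 1) P) (c : ℂ) : ∀ Q ∈ stepF c P, Good a b R l (k + 1) n Q := by
  obtain ⟨W, ψ, hW, hψ, ⟨C, hC0, hC⟩, hP⟩ := h
  have h1t : ∀ t : ℝ, 1 ≤ 1 + |t| := fun t => by linarith [abs_nonneg t]
  intro Q hQ
  simp only [stepF, List.mem_cons, List.not_mem_nil, or_false] at hQ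
  rcases hQ with rfl | rfl | rfl
  · refine ⟨fun t => rw' t (W t), Rm c ψ, fun t => (hW t).rw' t, hψ.Rm c, ⟨3 * C, by positivity,
      fun i hi t x => ?_⟩, fun t s B hs hB => ?_⟩
    · rw [iter_rw' (hW t)]
      have e1 : rw' t (Aw^[i] (W t)) x = Aw^[i + 1] (W t) x + 2 * (t : ℂ) * I * Aw^[i] (W t) x := by
        rw [Function.iterate_succ_apply']; rfl
      have e2 : ‖2 * (t : ℂ) * I * Aw^[i] (W t) x‖ = 2 * |t| * ‖Aw^[i] (W t) x‖ := by simp
      rw [e1]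
      calc ‖Aw^[i + 1] (W t) x + 2 * (t : ℂ) * I * Aw^[i] (W t) x‖
          ≤ ‖Aw^[i + 1] (W t) x‖ + 2 * |t| * ‖Aw^[i] (W t) x‖ := by
            rw [← e2]; exact norm_add_le _ _
        _ ≤ C * (1 + |t|) ^ k + 2 * |t| * (C * (1 + |t|) ^ k) := by
            gcongr
            · exact hC (i + 1) (by omega) t x
            · exact hC i (by omega) t x
        _ ≤ 3 * C * (1 + |t|) ^ (k + 1) := by
            have h2 : 0 ≤ C * (1 + |t|) ^ k := by positivity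
            have := abs_nonneg t
            rw [pow_succ]
            nlinarith
    · simp only [hP t s B hs hB]
      rw [DrU_Wf hB ha (hW t), Rm_scp hs.ne']
  · refine ⟨fun t x => ((l : ℂ) * I) * W t x, Im' c ψ, fun t => (hW t).const_mul _, hψ.Im' c,
      ⟨|(l : ℝ)| * C, by positivity, fun i hi t x => ?_⟩, fun t s B hs hB => ?_⟩
    · rw [iter_const_mul (hW t)]
      have e2 : ‖(l : ℂ) * I * Aw^[i] (W t) x‖ = |(l : ℝ)| * ‖Aw^[i] (W t) x‖ := by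
        rw [norm_mul, norm_mul, Complex.norm_I, mul_one]
        congr 1
        rw [← Complex.ofReal_intCast, Complex.norm_real, Real.norm_eq_abs]
      rw [e2, mul_assoc]
      gcongr
      refine (hC i (by omega) t x).trans ?_
      gcongr
      · exact h1t t
      · omega
    · simp only [hP t s B hs hB]
      rw [DtU_Wf hB ha (hW t), Im'_scp hs.ne']
  · refine ⟨W, Dm c ψ, hW, hψ.Dm c, ⟨C, hC0, fun i hi t x => ?_⟩, fun t s B hs hB => ?_⟩
    · refine (hC i (by omega) t x).trans ?_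
      gcongr
      · exact h1t t
      · omega
    · simp only [hP t s B hs hB]
      rw [Dm_scp hs.ne' _ _ (hψ.cd.differentiable (by simp))]

lemma Good.bound {a b R : ℝ} {l : ℤ} {k n : ℕ} {P : Fam} (h : Good a b R l k n P) :
    ∃ K, 0 ≤ K ∧ ∀ t s B, 0 < s → s ≤ 1 → |t| * s ≤ 1 → 0 < B → ∀ z x,
      ‖(P t s B).1 z‖ * ‖(P t s B).2 x‖ ≤ K := by
  obtain ⟨W, ψ, hW, hψ, ⟨C, hC0, hC⟩, hP⟩ := h
  obtain ⟨C', hC'0, hC'⟩ := hψ.bdd
  refine ⟨C * C' * 2 ^ k, by positivity, fun t s B hs hs1 hts hB z x => ?_⟩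
  rw [hP t s B hs hB]
  have h1 : ‖Wf (W t) t l B z‖ ≤ C * (1 + |t|) ^ k :=
    (norm_Wf_le _ _ _ _).trans (hC 0 (Nat.zero_le _) t _)
  have h2 : ‖scp s k ψ x‖ ≤ C' * s ^ k := norm_scp_le hs hC' k x
  calc ‖Wf (W t) t l B z‖ * ‖scp s k ψ x‖ ≤ (C * (1 + |t|) ^ k) * (C' * s ^ k) := by
        gcongr
    _ = C * C' * ((1 + |t|) * s) ^ k := by rw [mul_pow]; ring
    _ ≤ C * C' * 2 ^ k := by
        gcongr
        nlinarith

lemma good_zero {a b R : ℝ} {w : ℝ → ℂ} {ψ : ℂ → ℂ} (hw : SW a b w) (hψ : SP R ψ) (l : ℤ)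
    (n : ℕ) : Good a b R l 0 n (fun t s B => (Wf w t l B, scp s 0 ψ)) := by
  refine ⟨fun _ => w, ψ, fun _ => hw, hψ, ?_, fun t s B _ _ => rfl⟩
  induction n with
  | zero =>
    obtain ⟨C, h0, hC⟩ := hw.bdd
    refine ⟨C, h0, fun i hi t x => ?_⟩
    obtain rfl : i = 0 := by omega
    simpa using hC x
  | succ n ih =>
    obtain ⟨C, h0, hC⟩ := ih
    obtain ⟨C', h0', hC'⟩ := (hw.iter (n + 1)).bdd
    refine ⟨C + C', by positivity, fun i hi t x => ?_⟩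
    rcases Nat.lt_or_ge i (n + 1) with h | h
    · have := hC i (by omega) t x
      simp only [pow_zero, mul_one] at this ⊢
      linarith
    · obtain rfl : i = n + 1 := by omega
      have := hC' x
      simp only [pow_zero, mul_one]
      linarith

/-- **Uniform bound** for all sixteen terms. -/
theorem terms_bound {a b R : ℝ} (ha : 0 < a) {w : ℝ → ℂ} {ψ : ℂ → ℂ} (hw : SW a b w)
    (hψ : SP R ψ) (l : ℤ) :
    ∃ K, 0 ≤ K ∧ ∀ t s B, 0 < s → s ≤ 1 → |t| * s ≤ 1 → 0 < B →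
      ∀ p ∈ terms (Wf w t l B, scp s 0 ψ), ∀ z x, ‖p.1 z‖ * ‖p.2 x‖ ≤ K := by
  set P : Fam := fun t s B => (Wf w t l B, scp s 0 ψ) with hP
  have hgood : ∀ Q ∈ termsF P, ∃ k, Good a b R l k 0 Q := by
    intro Q hQ
    simp only [termsF, List.mem_append, List.mem_singleton, List.mem_flatMap] at hQ
    rcases hQ with ((hQ | hQ) | hQ) | ⟨Q', hQ', hQ⟩
    · subst hQ; exact ⟨0, good_zero hw hψ l 0⟩
    · exact ⟨1, (good_zero hw hψ l 1).step ha 1 Q hQ⟩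
    · exact ⟨1, (good_zero hw hψ l 1).step ha I Q hQ⟩
    · exact ⟨2, ((good_zero hw hψ l 2).step ha 1 Q' hQ').step ha I Q hQ⟩
  have hlist : ∀ L : List Fam, (∀ Q ∈ L, ∃ k, Good a b R l k 0 Q) →
      ∃ K, 0 ≤ K ∧ ∀ Q ∈ L, ∀ t s B, 0 < s → s ≤ 1 → |t| * s ≤ 1 → 0 < B → ∀ z x,
        ‖(Q t s B).1 z‖ * ‖(Q t s B).2 x‖ ≤ K := by
    intro L
    induction L with
    | nil => intro _; exact ⟨0, le_rfl, by simp⟩
    | cons Q L ih =>
      intro hL
      obtain ⟨K1, h1, hK1⟩ := ih (fun Q' hQ' => hL Q' (List.mem_cons_of_mem _ hQ'))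
      obtain ⟨k, hk⟩ := hL Q List.mem_cons_self
      obtain ⟨K2, h2, hK2⟩ := hk.bound
      refine ⟨K1 + K2, by positivity, fun Q' hQ' t s B hs hs1 hts hB z x => ?_⟩
      rcases List.mem_cons.mp hQ' with rfl | hQ'
      · have := hK2 t s B hs hs1 hts hB z x
        linarith
      · have := hK1 Q' hQ' t s B hs hs1 hts hB z x
        linarith
  obtain ⟨K, hK0, hK⟩ := hlist (termsF P) hgood
  refine ⟨K, hK0, fun t s B hs hs1 hts hB p hp z x => ?_⟩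
  have e : terms (Wf w t l B, scp s 0 ψ) = terms (P t s B) := rfl
  rw [e, terms_eq, List.mem_map] at hp
  obtain ⟨Q, hQ, rfl⟩ := hp
  exact hK Q hQ t s B hs hs1 hts hB z x

end Crest.Agent.R012.TestFn286
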