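import Crest.Agent.R012.SpecK_384
import Crest.Agent.R012.TestFn2_286

/-!
# Row 12, (MSL): the derivatives of `prodF (Uf om l B) (φ0(T ·))` as explicit finite sums

`orb_Uf` : the functions `F1, F2, F12` of `OrbDeriv` are sums of at most `3, 3, 9` functions
`prodF (Uf om_k l B) (ψ_k(T ·))` with `‖om_k‖ ≤ C K`, `mom om_k = 0` if `mom om = 0`, and `ψ_k` in a
fixed finite list depending only on `φ0`.
-/

set_option autoImplicit false

noncomputable section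

open MeasureTheory Set Filter Complex
open scoped ENNReal Topology ContDiff

namespace Crest.Agent.R012.TestFn286

open Crest.Agent.R012.Trace384 Crest.Agent.R012.ML384

lemma Uf_eq_Wf (om : ℝ → ℂ) (l : ℤ) (B : ℝ) : Uf om l B = Wf om 0 l B := by
  funext z
  unfold Uf Wf
  simp

/-! ### moments -/

lemma mom_Aw {a b : ℝ} (_ha : 0 < a) {om : ℝ → ℂ} (h : SW a b om) :
    mom (Aw om) = -(8 / 3) * mom om := by
  unfold mom
  -- `G x = om x * x^{4/3}`
  have hd : ∀ x ∈ Ioi (0 : ℝ), HasDerivAt (fun x : ℝ => om x * ((x ^ ((4 : ℝ) / 3) : ℝ) : ℂ))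
      (deriv om x * ((x ^ ((4 : ℝ) / 3) : ℝ) : ℂ) +
        om x * (((4 : ℝ) / 3 * x ^ ((1 : ℝ) / 3) : ℝ) : ℂ)) x := by
    intro x hx
    have h1 := (h.differentiable x).hasDerivAt
    have h2 : HasDerivAt (fun x : ℝ => x ^ ((4 : ℝ) / 3)) ((4 : ℝ) / 3 * x ^ ((1 : ℝ) / 3)) x := by
      have := Real.hasDerivAt_rpow_const (x := x) (p := (4 : ℝ) / 3) (Or.inl (ne_of_gt hx))
      convert this using 2
      norm_num
    exact h1.mul h2.ofReal_comp
  have hsupp : ∀ g : ℝ → ℂ, (∀ x, x < a ∨ b < x → g x = 0) → Continuous g →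
      IntegrableOn (fun x => g x * ((x ^ ((1 : ℝ) / 3) : ℝ) : ℂ)) (Ioi 0) := by
    intro g hg hgc
    have hc : Continuous (fun x : ℝ => g x * ((x ^ ((1 : ℝ) / 3) : ℝ) : ℂ)) :=
      hgc.mul (Complex.continuous_ofReal.comp (Real.continuous_rpow_const (by norm_num)))
    refine (hc.integrable_of_hasCompactSupport ?_).integrableOn
    refine HasCompactSupport.intro (isCompact_Icc (a := a) (b := b)) fun x hx => ?_
    rw [Set.mem_Icc, not_and_or, not_le, not_le] at hx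
    rw [hg x hx, zero_mul]
  have hG : Continuous (fun x : ℝ => om x * ((x ^ ((4 : ℝ) / 3) : ℝ) : ℂ)) :=
    h.cd.continuous.mul (Complex.continuous_ofReal.comp (Real.continuous_rpow_const (by norm_num)))
  have i1 : IntegrableOn (fun x => Aw om x * ((x ^ ((1 : ℝ) / 3) : ℝ) : ℂ)) (Ioi 0) :=
    hsupp _ h.Aw.supp h.Aw.cd.continuous
  have i2 : IntegrableOn (fun x => om x * ((x ^ ((1 : ℝ) / 3) : ℝ) : ℂ)) (Ioi 0) :=
    hsupp _ h.supp h.cd.continuous
  have e : ∀ x ∈ Ioi (0 : ℝ), deriv om x * ((x ^ ((4 : ℝ) / 3) : ℝ) : ℂ) +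
        om x * (((4 : ℝ) / 3 * x ^ ((1 : ℝ) / 3) : ℝ) : ℂ) =
      (1 / 2 : ℂ) * (Aw om x * ((x ^ ((1 : ℝ) / 3) : ℝ) : ℂ)) +
        (4 / 3 : ℂ) * (om x * ((x ^ ((1 : ℝ) / 3) : ℝ) : ℂ)) := by
    intro x hx
    have h3 : x ^ ((4 : ℝ) / 3) = x * x ^ ((1 : ℝ) / 3) := by
      rw [show (4 : ℝ) / 3 = 1 + 1 / 3 by norm_num, Real.rpow_add hx, Real.rpow_one]
    unfold Aw
    rw [h3]
    push_cast
    ring
  have key := integral_Ioi_of_hasDerivAt_of_tendsto (a := 0) (m := 0)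
    (f := fun x : ℝ => om x * ((x ^ ((4 : ℝ) / 3) : ℝ) : ℂ))
    (f' := fun x => deriv om x * ((x ^ ((4 : ℝ) / 3) : ℝ) : ℂ) +
        om x * (((4 : ℝ) / 3 * x ^ ((1 : ℝ) / 3) : ℝ) : ℂ))
    hG.continuousWithinAt hd ?_ ?_
  · rw [setIntegral_congr_fun measurableSet_Ioi e, integral_add (i1.const_mul _) (i2.const_mul _),
      integral_const_mul, integral_const_mul] at key
    have h0 : (0 : ℝ) ^ ((4 : ℝ) / 3) = 0 := Real.zero_rpow (by norm_num)
    rw [h0] at key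
    simp only [Complex.ofReal_zero, mul_zero, sub_zero] at key
    linear_combination 2 * key
  · have i3 : IntegrableOn (fun x => (1 / 2 : ℂ) * (Aw om x * ((x ^ ((1 : ℝ) / 3) : ℝ) : ℂ)) +
        (4 / 3 : ℂ) * (om x * ((x ^ ((1 : ℝ) / 3) : ℝ) : ℂ))) (Ioi 0) :=
      (i1.const_mul (1 / 2 : ℂ)).add (i2.const_mul (4 / 3 : ℂ))
    exact i3.congr_fun (fun x hx => (e x hx).symm) measurableSet_Ioi
  · refine tendsto_const_nhds.congr' ?_
    filter_upwards [eventually_gt_atTop b] with x hx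
    rw [h.supp x (Or.inr hx), zero_mul]

lemma mom_const_mul (c : ℂ) (om : ℝ → ℂ) : mom (fun x => c * om x) = c * mom om := by
  unfold mom
  rw [← integral_const_mul]
  congr 1
  funext x
  ring

/-! ### lists of pairs -/

/-- `Σ_q prodF (Uf q.1 l B) (q.2(T ·))`. -/
def sumL (l : ℤ) (B T : ℝ) (L : List ((ℝ → ℂ) × (ℂ → ℂ))) (u : ℂ × ℂ) : ℂ :=
  (L.map fun q => prodF (Uf q.1 l B) (fun p => q.2 ((T : ℂ) * p)) u).sum

/-- the three pairs in the derivative of `prodF (Uf om l B) (ψ(T ·))` in direction `c`. -/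
def stepL (T : ℝ) (l : ℤ) (c : ℂ) (q : (ℝ → ℂ) × (ℂ → ℂ)) : List ((ℝ → ℂ) × (ℂ → ℂ)) :=
  [(fun x => (T : ℂ)⁻¹ * Aw q.1 x, Rm c q.2),
   (fun x => (T : ℂ)⁻¹ * (((l : ℂ) * I) * q.1 x), Im' c q.2),
   (fun x => (T : ℂ)⁻¹ * q.1 x, Dm c q.2)]

/-- the functions `ψ` produced by one derivative. -/
def stepP (c : ℂ) (ψ : ℂ → ℂ) : List (ℂ → ℂ) := [Rm c ψ, Im' c ψ, Dm c ψ]

/-- the fixed list of functions `ψ`. -/
def PsiL (ψ : ℂ → ℂ) : List (ℂ → ℂ) :=
  stepP 1 ψ ++ stepP I ψ ++ (stepP 1 ψ).flatMap (stepP I)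

lemma rw'_zero (om : ℝ → ℂ) : rw' 0 om = Aw om := by
  funext x; simp [rw']

lemma scp_inv {T : ℝ} (hT : 0 < T) (k : ℕ) (ψ : ℂ → ℂ) :
    scp T⁻¹ k ψ = fun p => ((T : ℂ)⁻¹) ^ k * ψ ((T : ℂ) * p) := by
  funext p
  unfold scp
  have : (T : ℂ) ≠ 0 := by exact_mod_cast hT.ne'
  push_cast
  congr 2
  field_simp

lemma prodF_const_mul (c : ℂ) (om : ℝ → ℂ) (l : ℤ) (B : ℝ) (φ : ℂ → ℂ) (u : ℂ × ℂ) :
    prodF (Uf om l B) (fun p => c * φ p) u = prodF (Uf (fun x => c * om x) l B) φ u := by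
  simp only [prodF, Uf]; ring

lemma D1_Uf {a b T B : ℝ} (ha : 0 < a) (hT : 0 < T) (hB : 0 < B) (l : ℤ) (c : ℂ)
    {q : (ℝ → ℂ) × (ℂ → ℂ)} (h1 : SW a b q.1) (h2 : Differentiable ℝ q.2) (u : ℂ × ℂ) :
    D1 c (Uf q.1 l B) (fun p => q.2 ((T : ℂ) * p)) u = sumL l B T (stepL T l c q) u := by
  have e0 : (fun p => q.2 ((T : ℂ) * p)) = scp T⁻¹ 0 q.2 := by
    rw [scp_inv hT]; simp
  have hs : (T⁻¹ : ℝ) ≠ 0 := (inv_pos.mpr hT).ne'
  rw [e0]
  unfold D1
  rw [Rm_scp hs, Im'_scp hs, Dm_scp hs _ _ h2]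
  simp only [scp_inv hT, zero_add, pow_one]
  rw [Uf_eq_Wf, DrU_Wf hB ha h1, DtU_Wf hB ha h1, rw'_zero]
  simp only [← Uf_eq_Wf, prodF_const_mul]
  simp only [sumL, stepL, List.map_cons, List.map_nil, List.sum_cons, List.sum_nil, add_zero]
  ring

/-- uniform class: `‖Aw^i om‖ ≤ M T^i` for `i ≤ n`. -/
def Gd (a b T : ℝ) (n : ℕ) (M : ℝ) (om : ℝ → ℂ) : Prop :=
  SW a b om ∧ ∀ i ≤ n, ∀ x, ‖Aw^[i] om x‖ ≤ M * T ^ i

lemma Gd.step {a b T : ℝ} (hT : 1 ≤ T) {n : ℕ} {M : ℝ} (hM : 0 ≤ M) {q : (ℝ → ℂ) × (ℂ → ℂ)}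
    (h : Gd a b T (n + 1) M q.1) (l : ℤ) (c : ℂ) :
    ∀ q' ∈ stepL T l c q, Gd a b T n ((1 + |(l : ℝ)|) * M) q'.1 := by
  have hT0 : 0 < T := by linarith
  have hTi : T⁻¹ ≤ 1 := inv_le_one_of_one_le₀ hT
  have hTi0 : 0 < T⁻¹ := inv_pos.mpr hT0
  have hl : 0 ≤ |(l : ℝ)| := abs_nonneg _
  have hn : ‖(T : ℂ)⁻¹‖ = T⁻¹ := by
    rw [norm_inv, Complex.norm_real, Real.norm_eq_abs, abs_of_pos hT0]
  intro q' hq'
  simp only [stepL, List.mem_cons, List.not_mem_nil, or_false] at hq'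
  rcases hq' with rfl | rfl | rfl
  · refine ⟨h.1.Aw.const_mul _, fun i hi x => ?_⟩
    simp only
    rw [iter_const_mul h.1.Aw, norm_mul, hn]
    have h1 := h.2 (i + 1) (by omega) x
    rw [Function.iterate_succ_apply] at h1
    calc T⁻¹ * ‖Aw^[i] (Aw q.1) x‖ ≤ T⁻¹ * (M * T ^ (i + 1)) := by gcongr
      _ = M * T ^ i := by rw [pow_succ]; field_simp
      _ ≤ (1 + |(l : ℝ)|) * M * T ^ i := by
        have : 0 ≤ M * T ^ i := by positivity
        nlinarith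
  · refine ⟨(h.1.const_mul ((l : ℂ) * I)).const_mul _, fun i hi x => ?_⟩
    simp only
    rw [iter_const_mul (h.1.const_mul ((l : ℂ) * I)), norm_mul, hn, iter_const_mul h.1]
    have e2 : ‖(l : ℂ) * I * Aw^[i] q.1 x‖ = |(l : ℝ)| * ‖Aw^[i] q.1 x‖ := by
      rw [norm_mul, norm_mul, Complex.norm_I, mul_one]
      congr 1
      rw [← Complex.ofReal_intCast, Complex.norm_real, Real.norm_eq_abs]
    rw [e2]
    have h1 := h.2 i (by omega) x
    calc T⁻¹ * (|(l : ℝ)| * ‖Aw^[i] q.1 x‖) ≤ 1 * (|(l : ℝ)| * (M * T ^ i)) := by gcongr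
      _ ≤ (1 + |(l : ℝ)|) * M * T ^ i := by
        have : 0 ≤ M * T ^ i := by positivity
        nlinarith
  · refine ⟨h.1.const_mul _, fun i hi x => ?_⟩
    simp only
    rw [iter_const_mul h.1, norm_mul, hn]
    have h1 := h.2 i (by omega) x
    calc T⁻¹ * ‖Aw^[i] q.1 x‖ ≤ 1 * (M * T ^ i) := by gcongr
      _ ≤ (1 + |(l : ℝ)|) * M * T ^ i := by
        have : 0 ≤ M * T ^ i := by positivity
        nlinarith

lemma Gd_of_Cls {a b K T : ℝ} (ha : 0 < a) (hab : a ≤ b) (hK : 0 ≤ K) (hT : 1 ≤ T) {om : ℝ → ℂ}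
    (h : Cls a b K T om) : Gd a b T 2 ((1 + 6 * b + 4 * b ^ 2) * K) om := by
  have hb : 0 < b := by linarith
  have hsw : SW a b om := ⟨h.cd, h.supp⟩
  refine ⟨hsw, fun i hi x => ?_⟩
  have h0 := h.bd 0 (by norm_num) x
  have h1 := h.bd 1 (by norm_num) x
  have h2 := h.bd 2 (by norm_num) x
  simp only [iteratedDeriv_zero, pow_zero, mul_one] at h0
  rw [iteratedDeriv_one, pow_one] at h1
  rw [iteratedDeriv_succ, iteratedDeriv_one] at h2
  have hTT : T ≤ T ^ 2 := by nlinarith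
  have hx : x < a ∨ b < x ∨ (0 < x ∧ x ≤ b) := by
    rcases lt_or_ge x a with h | h
    · exact Or.inl h
    · rcases lt_or_ge b x with h' | h'
      · exact Or.inr (Or.inl h')
      · exact Or.inr (Or.inr ⟨by linarith, h'⟩)
  have hM : 0 ≤ (1 + 6 * b + 4 * b ^ 2) * K := by positivity
  by_cases hxx : x < a ∨ b < x
  · rw [(hsw.iter i).supp x hxx, norm_zero]
    positivity
  · have hx0 : 0 < x ∧ x ≤ b := by
      rcases hx with h' | h' | h'
      · exact absurd (Or.inl h') hxx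
      · exact absurd (Or.inr h') hxx
      · exact h'
    obtain ⟨hx1, hx2⟩ := hx0
    have hnx : ‖(x : ℂ)‖ = x := by rw [Complex.norm_real, Real.norm_eq_abs, abs_of_pos hx1]
    have hA1 : Aw om x = 2 * (x : ℂ) * deriv om x := rfl
    interval_cases i
    · simp only [Function.iterate_zero, id_eq, pow_zero, mul_one]
      nlinarith
    · simp only [Function.iterate_one, pow_one]
      rw [hA1, norm_mul, norm_mul, hnx]
      have : ‖(2 : ℂ)‖ = 2 := by simp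
      rw [this]
      calc 2 * x * ‖deriv om x‖ ≤ 2 * b * (K * T) := by gcongr
        _ ≤ (1 + 6 * b + 4 * b ^ 2) * K * T := by
          have : 0 ≤ K * T := by positivity
          nlinarith [mul_nonneg this hb.le, mul_nonneg this (sq_nonneg b)]
    · have e2 : Aw^[2] om x = 4 * (x : ℂ) * deriv om x + 4 * (x : ℂ) ^ 2 * deriv (deriv om) x := by
        have hd : HasDerivAt (Aw om) (2 * deriv om x + 2 * (x : ℂ) * deriv (deriv om) x) x := by
          have h3 : HasDerivAt (fun y : ℝ => 2 * (y : ℂ)) 2 x := by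
            simpa using (Complex.ofRealCLM.hasDerivAt (x := x)).const_mul (2 : ℂ)
          have h4 : HasDerivAt (deriv om) (deriv (deriv om) x) x :=
            (hsw.contDiff_deriv.differentiable (by simp) x).hasDerivAt
          exact h3.mul h4
        have : Aw^[2] om x = 2 * (x : ℂ) * deriv (Aw om) x := rfl
        rw [this, hd.deriv]
        ring
      rw [e2]
      calc ‖4 * (x : ℂ) * deriv om x + 4 * (x : ℂ) ^ 2 * deriv (deriv om) x‖
          ≤ 4 * x * ‖deriv om x‖ + 4 * x ^ 2 * ‖deriv (deriv om) x‖ := by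
            refine (norm_add_le _ _).trans (le_of_eq ?_)
            rw [norm_mul, norm_mul, norm_mul, norm_mul, norm_pow, hnx]
            simp
        _ ≤ 4 * b * (K * T) + 4 * b ^ 2 * (K * T ^ 2) := by gcongr
        _ ≤ (1 + 6 * b + 4 * b ^ 2) * K * T ^ 2 := by
          have h5 : K * T ≤ K * T ^ 2 := by gcongr
          have h6 : 0 ≤ K * T ^ 2 := by positivity
          nlinarith [mul_le_mul_of_nonneg_left h5 hb.le, mul_nonneg h6 hb.le]

lemma mom_step {a b T : ℝ} (ha : 0 < a) {q : (ℝ → ℂ) × (ℂ → ℂ)} (h : SW a b q.1)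
    (h0 : mom q.1 = 0) (l : ℤ) (c : ℂ) : ∀ q' ∈ stepL T l c q, mom q'.1 = 0 := by
  intro q' hq'
  simp only [stepL, List.mem_cons, List.not_mem_nil, or_false] at hq'
  rcases hq' with rfl | rfl | rfl
  · simp only [mom_const_mul, mom_Aw ha h, h0, mul_zero]
  · simp only [mom_const_mul, h0, mul_zero]
  · simp only [mom_const_mul, h0, mul_zero]

lemma stepL_snd {T : ℝ} {l : ℤ} {c : ℂ} {q q' : (ℝ → ℂ) × (ℂ → ℂ)} (h : q' ∈ stepL T l c q) :
    q'.2 ∈ stepP c q.2 := by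
  simp only [stepL, List.mem_cons, List.not_mem_nil, or_false] at h
  rcases h with rfl | rfl | rfl <;> simp [stepP]

lemma SP_stepP {R : ℝ} {ψ ψ' : ℂ → ℂ} {c : ℂ} (h : SP R ψ) (h' : ψ' ∈ stepP c ψ) : SP R ψ' := by
  simp only [stepP, List.mem_cons, List.not_mem_nil, or_false] at h'
  rcases h' with rfl | rfl | rfl
  · exact h.Rm c
  · exact h.Im' c
  · exact h.Dm c

lemma SP_PsiL {R : ℝ} {ψ ψ' : ℂ → ℂ} (h : SP R ψ) (h' : ψ' ∈ PsiL ψ) : SP R ψ' := by
  simp only [PsiL, List.mem_append, List.mem_flatMap] at h'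
  rcases h' with (h' | h') | ⟨χ, hχ, h'⟩
  · exact SP_stepP h h'
  · exact SP_stepP h h'
  · exact SP_stepP (SP_stepP h hχ) h'

/-- the lists for `F1`, `F2`, `F12`. -/
def L1 (T : ℝ) (l : ℤ) (om : ℝ → ℂ) (φ0 : ℂ → ℂ) : List ((ℝ → ℂ) × (ℂ → ℂ)) :=
  stepL T l 1 (om, φ0)

def L2 (T : ℝ) (l : ℤ) (om : ℝ → ℂ) (φ0 : ℂ → ℂ) : List ((ℝ → ℂ) × (ℂ → ℂ)) :=
  stepL T l I (om, φ0)

def L12 (T : ℝ) (l : ℤ) (om : ℝ → ℂ) (φ0 : ℂ → ℂ) : List ((ℝ → ℂ) × (ℂ → ℂ)) :=
  (stepL T l 1 (om, φ0)).flatMap (stepL T l I)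

lemma length_L1 (T : ℝ) (l : ℤ) (om : ℝ → ℂ) (φ0 : ℂ → ℂ) : (L1 T l om φ0).length = 3 := rfl
lemma length_L2 (T : ℝ) (l : ℤ) (om : ℝ → ℂ) (φ0 : ℂ → ℂ) : (L2 T l om φ0).length = 3 := rfl
lemma length_L12 (T : ℝ) (l : ℤ) (om : ℝ → ℂ) (φ0 : ℂ → ℂ) : (L12 T l om φ0).length = 9 := rfl

/-- the derivatives of the test function `prodF (Uf om l B) (φ0(T ·))`. -/
theorem orb_Uf {a b R T B : ℝ} (ha : 0 < a) (hT : 0 < T) (hB : 0 < B) (l : ℤ) {om : ℝ → ℂ}
    {φ0 : ℂ → ℂ} (hom : SW a b om) (hφ : SP R φ0) :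
    OrbDeriv (prodF (Uf om l B) (fun p => φ0 ((T : ℂ) * p)))
      (sumL l B T (L1 T l om φ0)) (sumL l B T (L2 T l om φ0)) (sumL l B T (L12 T l om φ0)) := by
  have hU : SU (Real.sqrt (a * B)) (Real.sqrt (b * B)) (Uf om l B) := by
    rw [Uf_eq_Wf]; exact hom.SU hB ha 0 l
  have hP : SP (R * T⁻¹) (fun p => φ0 ((T : ℂ) * p)) := by
    have := hφ.scp (inv_pos.mpr hT) 0
    rw [scp_inv hT] at this
    simpa using this
  have key := orbDeriv_prodF (Real.sqrt_pos.mpr (by positivity)) hU hP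
  have hd : Differentiable ℝ φ0 := hφ.cd.differentiable (by simp)
  have e1 : D1 1 (Uf om l B) (fun p => φ0 ((T : ℂ) * p)) = sumL l B T (L1 T l om φ0) := by
    funext u
    exact D1_Uf ha hT hB l 1 (q := (om, φ0)) hom hd u
  have e2 : D1 I (Uf om l B) (fun p => φ0 ((T : ℂ) * p)) = sumL l B T (L2 T l om φ0) := by
    funext u
    exact D1_Uf ha hT hB l I (q := (om, φ0)) hom hd u
  -- the mixed derivative
  have e0 : (fun p => φ0 ((T : ℂ) * p)) = scp T⁻¹ 0 φ0 := by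
    rw [scp_inv hT]; simp
  have hs : (T⁻¹ : ℝ) ≠ 0 := (inv_pos.mpr hT).ne'
  have e3 : D12 1 I (Uf om l B) (fun p => φ0 ((T : ℂ) * p)) = sumL l B T (L12 T l om φ0) := by
    funext u
    have hgen : ∀ q ∈ stepL T l 1 (om, φ0), D1 I (Uf q.1 l B) (fun p => q.2 ((T : ℂ) * p)) u =
        sumL l B T (stepL T l I q) u := by
      intro q hq
      refine D1_Uf (a := a) (b := b) ha hT hB l I (q := q) ?_ ?_ u
      · simp only [stepL, List.mem_cons, List.not_mem_nil, or_false] at hq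
        rcases hq with rfl | rfl | rfl
        · exact hom.Aw.const_mul _
        · exact (hom.const_mul _).const_mul _
        · exact hom.const_mul _
      · exact (SP_stepP hφ (stepL_snd hq)).cd.differentiable (by simp)
    have hscal : ∀ (c' : ℂ) (om' : ℝ → ℂ) (φ : ℂ → ℂ), SW a b om' → Differentiable ℝ φ →
        D1 I (Uf om' l B) (fun p => c' * φ p) u = D1 I (Uf (fun x => c' * om' x) l B) φ u := by
      intro c' om' φ h1 h2
      have hc : Uf (fun x => c' * om' x) l B = fun z => c' * Uf om' l B z := by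
        funext z; simp only [Uf]; ring
      have hR : Rm I (fun p => c' * φ p) = fun p => c' * Rm I φ p := by
        funext p; simp only [Rm]; ring
      have hI : Im' I (fun p => c' * φ p) = fun p => c' * Im' I φ p := by
        funext p; simp only [Im']; ring
      have hD : Dm I (fun p => c' * φ p) = fun p => c' * Dm I φ p := by
        funext p
        have := (h2 p).hasFDerivAt.const_mul c'
        simp only [Dm, this.fderiv, _root_.smul_apply, smul_eq_mul]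
      have hU' : Differentiable ℝ (Uf om' l B) := by
        rw [Uf_eq_Wf]
        exact (h1.SU hB ha 0 l).cd.differentiable (by simp)
      have hDr : DrU (fun z => c' * Uf om' l B z) = fun z => c' * DrU (Uf om' l B) z := by
        funext z
        have := (hU' z).hasFDerivAt.const_mul c'
        simp only [DrU, this.fderiv, _root_.smul_apply, smul_eq_mul]
      have hDt : DtU (fun z => c' * Uf om' l B z) = fun z => c' * DtU (Uf om' l B) z := by
        funext z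
        have := (hU' z).hasFDerivAt.const_mul c'
        simp only [DtU, this.fderiv, _root_.smul_apply, smul_eq_mul]
      rw [hc]
      simp only [D1, hR, hI, hD, hDr, hDt, prodF]
      ring
    unfold D12
    have hRd : Differentiable ℝ (fun p => Rm 1 φ0 ((T : ℂ) * p)) :=
      ((hφ.Rm 1).cd.differentiable (by simp)).comp (by fun_prop)
    have hId : Differentiable ℝ (fun p => Im' 1 φ0 ((T : ℂ) * p)) :=
      ((hφ.Im' 1).cd.differentiable (by simp)).comp (by fun_prop)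
    have hDd : Differentiable ℝ (fun p => Dm 1 φ0 ((T : ℂ) * p)) :=
      ((hφ.Dm 1).cd.differentiable (by simp)).comp (by fun_prop)
    rw [e0, Rm_scp hs, Im'_scp hs, Dm_scp hs _ _ hd]
    simp only [scp_inv hT, zero_add, pow_one]
    rw [Uf_eq_Wf, DrU_Wf hB ha hom, DtU_Wf hB ha hom, rw'_zero]
    simp only [← Uf_eq_Wf]
    rw [hscal _ _ _ hom.Aw hRd, hscal _ _ _ (hom.const_mul _) hId, hscal _ _ _ hom hDd]
    have g1 := hgen (fun x => (T : ℂ)⁻¹ * Aw om x, Rm 1 φ0) (by simp [stepL])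
    have g2 := hgen (fun x => (T : ℂ)⁻¹ * (((l : ℂ) * I) * om x), Im' 1 φ0) (by simp [stepL])
    have g3 := hgen (fun x => (T : ℂ)⁻¹ * om x, Dm 1 φ0) (by simp [stepL])
    simp only at g1 g2 g3
    rw [g1, g2, g3]
    simp only [sumL, L12, stepL, List.flatMap_cons, List.flatMap_nil, List.append_nil,
      List.map_append, List.sum_append]
    ring
  rw [e1, e2, e3] at key
  exact key

/-- **Uniform properties** of all the pairs in the lists. -/
theorem lists_props (a b : ℝ) (l : ℤ) (ha : 0 < a) (hab : a ≤ b) {R : ℝ} {φ0 : ℂ → ℂ}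
    (hφ : SP R φ0) : ∃ C, 0 ≤ C ∧ ∀ (K T : ℝ) (om : ℝ → ℂ), Cls a b K T om → 0 ≤ K → 1 ≤ T →
      ∀ q ∈ L1 T l om φ0 ++ L2 T l om φ0 ++ L12 T l om φ0,
        SW a b q.1 ∧ q.2 ∈ PsiL φ0 ∧ SP R q.2 ∧ (∀ x, ‖q.1 x‖ ≤ C * K) ∧
          (mom om = 0 → mom q.1 = 0) := by
  refine ⟨(1 + |(l : ℝ)|) * ((1 + |(l : ℝ)|) * (1 + 6 * b + 4 * b ^ 2)), by
    have : 0 < b := by linarith
    positivity, ?_⟩
  intro K T om h hK hT q hq
  have hb : 0 < b := by linarith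
  have hsw : SW a b om := ⟨h.cd, h.supp⟩
  have hG := Gd_of_Cls ha hab hK hT h
  set M := (1 + 6 * b + 4 * b ^ 2) * K with hM
  have hM0 : 0 ≤ M := by positivity
  have hM1 : 0 ≤ (1 + |(l : ℝ)|) * M := by positivity
  have hlow : Gd a b T 1 M om := ⟨hG.1, fun i hi x => hG.2 i (by omega) x⟩
  have hfin : ∀ q : (ℝ → ℂ) × (ℂ → ℂ), Gd a b T 0 ((1 + |(l : ℝ)|) * M) q.1 → ∀ x,
      ‖q.1 x‖ ≤ (1 + |(l : ℝ)|) * ((1 + |(l : ℝ)|) * (1 + 6 * b + 4 * b ^ 2)) * K := by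
    intro q hq x
    have h1 := hq.2 0 le_rfl x
    simp only [Function.iterate_zero, id_eq, pow_zero, mul_one] at h1
    refine h1.trans ?_
    have h2 : 0 ≤ |(l : ℝ)| := abs_nonneg _
    have e : (1 + |(l : ℝ)|) * ((1 + |(l : ℝ)|) * (1 + 6 * b + 4 * b ^ 2)) * K
        = (1 + |(l : ℝ)|) * ((1 + |(l : ℝ)|) * M) := by rw [hM]; ring
    rw [e]
    nlinarith [mul_nonneg h2 hM1]
  have hfin2 : ∀ q : (ℝ → ℂ) × (ℂ → ℂ),
      Gd a b T 0 ((1 + |(l : ℝ)|) * ((1 + |(l : ℝ)|) * M)) q.1 → ∀ x,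
      ‖q.1 x‖ ≤ (1 + |(l : ℝ)|) * ((1 + |(l : ℝ)|) * (1 + 6 * b + 4 * b ^ 2)) * K := by
    intro q hq x
    have h1 := hq.2 0 le_rfl x
    simp only [Function.iterate_zero, id_eq, pow_zero, mul_one] at h1
    refine h1.trans (le_of_eq ?_)
    rw [hM]; ring
  have h0 : Gd a b T (0 + 1) M om := by simpa using hlow
  rw [List.mem_append, List.mem_append] at hq
  rcases hq with (hq | hq) | hq
  · have hg := Gd.step (q := (om, φ0)) hT hM0 h0 l 1 q hq
    have hm : q.2 ∈ stepP 1 φ0 := stepL_snd hq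
    refine ⟨hg.1, by simp only [PsiL, List.mem_append]; exact Or.inl (Or.inl hm),
      SP_stepP hφ hm, hfin q hg, fun hmo => mom_step ha (q := (om, φ0)) hsw hmo l 1 q hq⟩
  · have hg := Gd.step (q := (om, φ0)) hT hM0 h0 l I q hq
    have hm : q.2 ∈ stepP I φ0 := stepL_snd hq
    refine ⟨hg.1, by simp only [PsiL, List.mem_append]; exact Or.inl (Or.inr hm),
      SP_stepP hφ hm, hfin q hg, fun hmo => mom_step ha (q := (om, φ0)) hsw hmo l I q hq⟩
  · simp only [L12, List.mem_flatMap] at hq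
    obtain ⟨q1, hq1, hq⟩ := hq
    have hg1 := Gd.step (q := (om, φ0)) (n := 1) hT hM0 (by simpa using hG) l 1 q1 hq1
    have hg := Gd.step (q := q1) (n := 0) hT hM1 (by simpa using hg1) l I q hq
    have hm1 : q1.2 ∈ stepP 1 φ0 := stepL_snd hq1
    have hm : q.2 ∈ stepP I q1.2 := stepL_snd hq
    refine ⟨hg.1, ?_, SP_stepP (SP_stepP hφ hm1) hm, hfin2 q hg, fun hmo =>
      mom_step ha (q := q1) hg1.1 (mom_step ha (q := (om, φ0)) hsw hmo l 1 q1 hq1) l I q hq⟩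
    simp only [PsiL, List.mem_append, List.mem_flatMap]
    exact Or.inr ⟨q1.2, hm1, hm⟩

end Crest.Agent.R012.TestFn286
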