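import Crest.Agent.R012.K1A_384
import Crest.Agent.R012.TestFn3_286

/-!
# Row 12, (ML): K1 from the slice inequality (`SliceP`), the norm bound (`NB`), and the orbit
derivatives (`OrbP`).
-/

set_option autoImplicit false

noncomputable section

open MeasureTheory Set Filter Complex
open scoped ENNReal Topology ContDiff

namespace Crest.Agent.R012.ML384

open Crest.Agent.R012 Crest.Agent.R012.Parseval499 Crest.Agent.R012.StripCo813
open Crest.Agent.R012.Four813 Crest.Agent.R012.K695 Crest.Agent.R012.TestFn286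
open Crest.Agent.R012.Trace384

/-- supports and sup norm only. -/
structure SB (a b K : ℝ) (om : ℝ → ℂ) : Prop where
  cont : Continuous om
  supp : ∀ x, x < a ∨ b < x → om x = 0
  bd : ∀ x, ‖om x‖ ≤ K

/-- **(N)**: the norm bound for one product function. -/
def NB (w : ℂ → ℝ≥0∞) : Prop :=
  ∀ (a b : ℝ) (l : ℤ) (τ : ℝ), 0 < a → a ≤ b → 0 < τ → ∃ C : ℝ, 0 ≤ C ∧
    ∀ (K L T : ℝ) (om : ℝ → ℂ) (B : ℝ) (φ : ℂ → ℂ), 0 ≤ K → 0 ≤ L → 1 ≤ T → 0 < B →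
      SB a b K om → Continuous φ → (∀ p, 1 / (4 * T) < ‖p‖ → φ p = 0) → (∀ p, ‖φ p‖ ≤ L) →
      (l ≠ 0 ∨ mom om = 0) →
      NN w (prodF (Uf om l B) φ) ≤
        ENNReal.ofReal (C * (K ^ 2 * L ^ 2 * B ^ 2 * (T ^ 2)⁻¹ * (1 + B) ^ τ))

/-- the slice + Bessel inequality. -/
def SliceP (w : ℂ → ℝ≥0∞) : Prop :=
  ∃ c : ℝ, 0 ≤ c ∧ ∀ (a b r T : ℝ) (U φ0 : ℂ → ℂ) (F1 F2 F12 : Vec → ℂ) (S : Finset Eis),
    0 < a → SU a b U → SP (1 / 4) φ0 → 1 ≤ T → 0 < r →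
    OrbDeriv (prodF U (fun p => φ0 (T * p))) F1 F2 F12 →
    BS F1 → BS F2 → BS F12 →
    BX r T φ0 S (fun u e => Sg (fun _ => 1) U u e) ≤
      ENNReal.ofReal (c * ((1 + r ^ 4) * (r ^ 4)⁻¹)) *
        (NN w (prodF U (fun p => φ0 (T * p))) + NN w F1 + NN w F2 + NN w F12)

/-- the list of product functions. -/
def Tms (l : ℤ) (B T : ℝ) (L : List ((ℝ → ℂ) × (ℂ → ℂ))) : List (Vec → ℂ) :=
  L.map fun q => prodF (Uf q.1 l B) (fun p => q.2 (T * p))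

/-- the orbit derivatives of the product functions (helper286). -/
def OrbP : Prop :=
  ∀ (a b : ℝ) (l : ℤ) (φ0 : ℂ → ℂ), 0 < a → a ≤ b → SP (1 / 4) φ0 →
    ∃ (Ψ : List (ℂ → ℂ)) (C : ℝ), 0 ≤ C ∧ (∀ ψ ∈ Ψ, SP (1 / 4) ψ) ∧
      ∀ (K T : ℝ) (om : ℝ → ℂ), Cls a b K T om → 0 ≤ K → 1 ≤ T →
        ∃ L1 L2 L12 : List ((ℝ → ℂ) × (ℂ → ℂ)),
          (∀ q ∈ L1 ++ L2 ++ L12, SB a b (C * K) q.1 ∧ q.2 ∈ Ψ ∧
            (mom om = 0 → mom q.1 = 0)) ∧
          L1.length ≤ 3 ∧ L2.length ≤ 3 ∧ L12.length ≤ 9 ∧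
          ∀ B : ℝ, 0 < B → OrbDeriv (prodF (Uf om l B) (fun p => φ0 (T * p)))
            (lsum (Tms l B T L1)) (lsum (Tms l B T L2)) (lsum (Tms l B T L12))

/-! ### product functions are `BS` -/

lemma bdd_of_cont {φ : ℂ → ℂ} {R : ℝ} (hc : Continuous φ) (hs : ∀ z, R < ‖z‖ → φ z = 0) :
    ∃ C : ℝ, 0 ≤ C ∧ ∀ z, ‖φ z‖ ≤ C := by
  have hcs : HasCompactSupport φ := by
    apply HasCompactSupport.of_support_subset_isCompact (isCompact_closedBall (0 : ℂ) R)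
    intro z hz
    rw [Function.mem_support] at hz
    rw [mem_closedBall_zero_iff]
    by_contra h
    exact hz (hs z (not_le.mp h))
  obtain ⟨C, hC⟩ := hcs.exists_bound_of_continuous hc
  exact ⟨C, (norm_nonneg _).trans (hC 0), hC⟩

lemma BS_prodF {a b R : ℝ} (ha : 0 < a) {U φ : ℂ → ℂ} (hU : Continuous U)
    (hs : ∀ z, ‖z‖ < a ∨ b < ‖z‖ → U z = 0) (hφ : Continuous φ)
    (hφs : ∀ z, R < ‖z‖ → φ z = 0) : BS (prodF U φ) where
  meas := (continuous_prodF ha hU hs hφ).measurable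
  bdd := by
    obtain ⟨C, hC0, hC⟩ := bdd_of_cont hU (fun z hz => hs z (Or.inr hz))
    obtain ⟨D, hD0, hD⟩ := bdd_of_cont hφ hφs
    refine ⟨C * D, fun u => ?_⟩
    unfold prodF
    rw [norm_mul]
    exact mul_le_mul (hC _) (hD _) (norm_nonneg _) hC0
  supp := by
    refine ⟨(|b| + |R| * |b|) ^ 2 + (|b| + |R| * |b|) ^ 2, fun u hu => ?_⟩
    by_contra h
    have h1 : U u.1 ≠ 0 := fun h0 => h (by simp [prodF, h0])
    have h2 : φ (u.2 / u.1) ≠ 0 := fun h0 => h (by simp [prodF, h0])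
    have h3 : ‖u.1‖ ≤ b := by
      by_contra h3; exact h1 (hs _ (Or.inr (not_le.mp h3)))
    have h4 : a ≤ ‖u.1‖ := by
      by_contra h3; exact h1 (hs _ (Or.inl (not_le.mp h3)))
    have h5 : ‖u.2 / u.1‖ ≤ R := by
      by_contra h3; exact h2 (hφs _ (not_le.mp h3))
    have h6 : 0 < ‖u.1‖ := lt_of_lt_of_le ha h4
    rw [norm_div, div_le_iff₀ h6] at h5
    have h7 : ‖u.2‖ ≤ |R| * |b| := by
      refine h5.trans ?_
      have : R ≤ |R| := le_abs_self R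
      have : b ≤ |b| := le_abs_self b
      have h8 : ‖u.1‖ ≤ |b| := by linarith
      calc R * ‖u.1‖ ≤ |R| * ‖u.1‖ := by gcongr
        _ ≤ |R| * |b| := by gcongr
    have h8 : ‖u.1‖ ≤ |b| := h3.trans (le_abs_self b)
    have h9 : n2 u ≤ (|b| + |R| * |b|) ^ 2 + (|b| + |R| * |b|) ^ 2 := by
      unfold n2
      have : 0 ≤ |R| * |b| := by positivity
      have hb : 0 ≤ |b| := abs_nonneg b
      gcongr
      · linarith
      · linarith
    linarith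

lemma continuous_Uf {a b K : ℝ} (ha : 0 < a) {om : ℝ → ℂ} (h : SB a b K om) (l : ℤ) (B : ℝ) : Continuous (Uf om l B) := by
  rw [continuous_iff_continuousAt]
  intro z
  by_cases hz : z = 0
  · have hev : Uf om l B =ᶠ[𝓝 z] fun _ => 0 := by
      have hmem : {y : ℂ | ‖y‖ ^ 2 / B < a} ∈ 𝓝 z :=
        (isOpen_lt (by fun_prop) continuous_const).mem_nhds (by simp [hz, ha])
      filter_upwards [hmem] with y hy
      unfold Uf
      rw [h.supp _ (Or.inl hy), zero_mul]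
    exact continuousAt_const.congr hev.symm
  · unfold Uf
    have h1 : ContinuousAt (fun z : ℂ => om (‖z‖ ^ 2 / B)) z :=
      h.cont.continuousAt.comp (by fun_prop)
    have h0 : (‖z‖ : ℂ) ≠ 0 := by simpa using hz
    have h2 : ContinuousAt (fun z : ℂ => z / (‖z‖ : ℂ)) z :=
      continuousAt_id.div (by fun_prop) h0
    have h3 : ContinuousAt (fun z : ℂ => (z / (‖z‖ : ℂ)) ^ l) z :=
      h2.zpow₀ l (Or.inl (div_ne_zero hz h0))
    exact h1.mul h3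

lemma Uf_supp {a b K : ℝ} {om : ℝ → ℂ} (h : SB a b K om) (l : ℤ) {B : ℝ}
    (hB : 0 < B) (z : ℂ) (hz : ‖z‖ < Real.sqrt (a * B) ∨ Real.sqrt (b * B) < ‖z‖) :
    Uf om l B z = 0 := by
  unfold Uf
  rw [h.supp, zero_mul]
  rcases hz with hz | hz
  · left
    rw [Real.lt_sqrt (norm_nonneg z)] at hz
    rw [div_lt_iff₀ hB]; exact hz
  · right
    rw [Real.sqrt_lt' (lt_of_le_of_lt (Real.sqrt_nonneg _) hz)] at hz
    rw [lt_div_iff₀ hB]; exact hz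

lemma SP_dil_supp {φ : ℂ → ℂ} (h : SP (1 / 4) φ) {T : ℝ} (hT : 1 ≤ T) (p : ℂ)
    (hp : 1 / (4 * T) < ‖p‖) : φ (T * p) = 0 := by
  apply h.supp
  rw [norm_mul, Complex.norm_real, Real.norm_of_nonneg (by linarith)]
  have hT0 : 0 < T := by linarith
  rw [div_lt_iff₀ (by positivity)] at hp
  linarith

lemma SP_dil_cont {φ : ℂ → ℂ} {R : ℝ} (h : SP R φ) (T : ℝ) :
    Continuous (fun p : ℂ => φ (T * p)) :=
  h.cd.continuous.comp (by fun_prop)

lemma exists_common_bound {Ψ : List (ℂ → ℂ)} (hΨ : ∀ ψ ∈ Ψ, SP (1 / 4) ψ) :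
    ∃ L : ℝ, 0 ≤ L ∧ ∀ ψ ∈ Ψ, ∀ z, ‖ψ z‖ ≤ L := by
  induction Ψ with
  | nil => exact ⟨0, le_rfl, by simp⟩
  | cons ψ Ψ ih =>
    obtain ⟨L, hL0, hL⟩ := ih fun χ hχ => hΨ χ (List.mem_cons_of_mem _ hχ)
    have hψ := hΨ ψ (by simp)
    obtain ⟨M, hM0, hM⟩ := bdd_of_cont hψ.cd.continuous hψ.supp
    refine ⟨L + M, by positivity, fun χ hχ z => ?_⟩
    rcases List.mem_cons.mp hχ with h | h
    · rw [h]; linarith [hM z]
    · linarith [hL χ h z]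

/-! ### the orbit derivatives -/

lemma sumL_eq (l : ℤ) (B T : ℝ) (L : List ((ℝ → ℂ) × (ℂ → ℂ))) :
    sumL l B T L = lsum (Tms l B T L) := by
  funext u
  simp [sumL, lsum, Tms, List.map_map, Function.comp_def]

theorem orbP : OrbP := by
  intro a b l φ0 ha hab hφ
  obtain ⟨C, hC0, hC⟩ := lists_props a b l ha hab hφ
  refine ⟨PsiL φ0, C, hC0, fun ψ hψ => SP_PsiL hφ hψ, ?_⟩
  intro K T om hom hK hT
  have hT0 : 0 < T := by linarith
  refine ⟨L1 T l om φ0, L2 T l om φ0, L12 T l om φ0, ?_, (length_L1 T l om φ0).le,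
    (length_L2 T l om φ0).le, (length_L12 T l om φ0).le, ?_⟩
  · intro q hq
    obtain ⟨h1, h2, _, h4, h5⟩ := hC K T om hom hK hT q hq
    exact ⟨⟨h1.cd.continuous, h1.supp, h4⟩, h2, h5⟩
  · intro B hB
    rw [← sumL_eq, ← sumL_eq, ← sumL_eq]
    exact orb_Uf ha hT0 hB l ⟨hom.cd, hom.supp⟩ hφ

theorem SU_Uf {a b K T : ℝ} (l : ℤ) {om : ℝ → ℂ} {B : ℝ} (ha : 0 < a) (hB : 0 < B)
    (h : Cls a b K T om) : SU (Real.sqrt (a * B)) (Real.sqrt (b * B)) (Uf om l B) := by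
  rw [Uf_eq_Wf]
  have h' : TestFn286.SW a b om := ⟨h.cd, h.supp⟩
  exact h'.SU hB ha 0 l

/-- **K1 from the three inputs.** -/
theorem K1_of {w : ℂ → ℝ≥0∞} (hw : Measurable w) (hw0 : w 0 = 0) (hS : SliceP w) (hN : NB w)
    : K1_Prop := by
  intro a b l φ0 τ ha hab hφ hτ
  obtain ⟨c, hc0, hc⟩ := hS
  obtain ⟨C1, hC10, hC1⟩ := hN a b l τ ha hab hτ
  obtain ⟨Ψ, C2, hC20, hΨ, hO'⟩ := orbP a b l φ0 ha hab hφ
  obtain ⟨L, hL0, hL⟩ := exists_common_bound (Ψ := φ0 :: Ψ) (by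
    intro ψ hψ
    rcases List.mem_cons.mp hψ with h | h
    · rw [h]; exact hφ
    · exact hΨ ψ h)
  refine ⟨c * ((1 + 3 * 4 ^ 9) * (C1 * ((1 + C2) ^ 2 * L ^ 2))), by positivity, ?_⟩
  intro K T om B r S hom hK hT hB hr hcase
  obtain ⟨L1, L2, L12, hq, hl1, hl2, hl12, hD⟩ := hO' K T om hom hK hT
  have hD := hD B hB
  have hT0 : 0 < T := by linarith
  have haB : 0 < Real.sqrt (a * B) := Real.sqrt_pos.mpr (by positivity)
  set E : ℝ := C1 * (((1 + C2) * K) ^ 2 * L ^ 2 * B ^ 2 * (T ^ 2)⁻¹ * (1 + B) ^ τ) with hE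
  have hE0 : 0 ≤ E := by rw [hE]; positivity
  -- the undifferentiated function
  have hSW : SB a b ((1 + C2) * K) om := by
    refine ⟨hom.cd.continuous, hom.supp, fun x => ?_⟩
    have := hom.bd 0 (by norm_num) x
    simp only [iteratedDeriv_zero, pow_zero, mul_one] at this
    nlinarith [mul_nonneg hC20 hK]
  have hN0 : NN w (prodF (Uf om l B) (fun p => φ0 (T * p))) ≤ ENNReal.ofReal E :=
    hC1 _ L T om B _ (by positivity) hL0 hT hB hSW (SP_dil_cont hφ T)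
      (SP_dil_supp hφ hT) (fun p => hL φ0 (by simp) _) hcase
  -- the terms
  have key : ∀ Λ : List ((ℝ → ℂ) × (ℂ → ℂ)), (∀ q ∈ Λ, q ∈ L1 ++ L2 ++ L12) →
      (∀ F ∈ Tms l B T Λ, BS F) ∧ (∀ F ∈ Tms l B T Λ, NN w F ≤ ENNReal.ofReal E) := by
    intro Λ hΛ
    constructor
    · intro F hF
      obtain ⟨q, hqΛ, rfl⟩ := List.mem_map.mp hF
      obtain ⟨h1, h2, h3⟩ := hq q (hΛ q hqΛ)
      exact BS_prodF haB (continuous_Uf ha h1 l B) (Uf_supp h1 l hB)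
        (SP_dil_cont (hΨ _ h2) T) (SP_dil_supp (hΨ _ h2) hT)
    · intro F hF
      obtain ⟨q, hqΛ, rfl⟩ := List.mem_map.mp hF
      obtain ⟨h1, h2, h3⟩ := hq q (hΛ q hqΛ)
      refine hC1 _ L T q.1 B _ (by positivity) hL0 hT hB ?_ (SP_dil_cont (hΨ _ h2) T)
        (SP_dil_supp (hΨ _ h2) hT) (fun p => hL q.2 (List.mem_cons_of_mem _ h2) _) ?_
      · refine ⟨h1.cont, h1.supp, fun x => (h1.bd x).trans ?_⟩
        nlinarith
      · rcases hcase with h | h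
        · exact Or.inl h
        · exact Or.inr (h3 h)
  have hlist : ∀ Λ : List ((ℝ → ℂ) × (ℂ → ℂ)), (∀ q ∈ Λ, q ∈ L1 ++ L2 ++ L12) →
      Λ.length ≤ 9 → BS (lsum (Tms l B T Λ)) ∧
        NN w (lsum (Tms l B T Λ)) ≤ 4 ^ 9 * ENNReal.ofReal E := by
    intro Λ hΛ hlen
    obtain ⟨h1, h2⟩ := key Λ hΛ
    refine ⟨BS_lsum h1, (NN_lsum hw hw0 h1 h2).trans ?_⟩
    gcongr
    · norm_num
    · simpa [Tms] using hlen
  obtain ⟨b1, n1⟩ := hlist L1 (fun q h => by simp [h]) (by omega)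
  obtain ⟨b2, n2⟩ := hlist L2 (fun q h => by simp [h]) (by omega)
  obtain ⟨b3, n3⟩ := hlist L12 (fun q h => by simp [h]) hl12
  have main := hc _ _ r T (Uf om l B) φ0 _ _ _ S haB (SU_Uf l ha hB hom) hφ hT hr hD
    b1 b2 b3
  refine main.trans ?_
  have h4 : NN w (prodF (Uf om l B) (fun p => φ0 (T * p))) + NN w (lsum (Tms l B T L1)) +
      NN w (lsum (Tms l B T L2)) + NN w (lsum (Tms l B T L12)) ≤
      ENNReal.ofReal ((1 + 3 * 4 ^ 9) * E) := by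
    have e1 : (4 : ℝ≥0∞) ^ 9 * ENNReal.ofReal E = ENNReal.ofReal (4 ^ 9 * E) := by
      rw [ENNReal.ofReal_mul (by norm_num : (0 : ℝ) ≤ 4 ^ 9), ENNReal.ofReal_pow (by norm_num)]
      simp
    calc _ ≤ ENNReal.ofReal E + 4 ^ 9 * ENNReal.ofReal E + 4 ^ 9 * ENNReal.ofReal E
          + 4 ^ 9 * ENNReal.ofReal E := by gcongr
      _ = ENNReal.ofReal (E + 4 ^ 9 * E + 4 ^ 9 * E + 4 ^ 9 * E) := by
        rw [e1, ENNReal.ofReal_add (by positivity) (by positivity),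
          ENNReal.ofReal_add (by positivity) (by positivity),
          ENNReal.ofReal_add (by positivity) (by positivity)]
      _ = ENNReal.ofReal ((1 + 3 * 4 ^ 9) * E) := by congr 1; ring
  calc ENNReal.ofReal (c * ((1 + r ^ 4) * (r ^ 4)⁻¹)) * _
      ≤ ENNReal.ofReal (c * ((1 + r ^ 4) * (r ^ 4)⁻¹)) *
        ENNReal.ofReal ((1 + 3 * 4 ^ 9) * E) := by gcongr
    _ = ENNReal.ofReal ((c * ((1 + r ^ 4) * (r ^ 4)⁻¹)) * ((1 + 3 * 4 ^ 9) * E)) :=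
        (ENNReal.ofReal_mul (by positivity)).symm
    _ = _ := by
        congr 1
        rw [hE]
        unfold RH
        ring

end Crest.Agent.R012.ML384
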