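import Crest.Agent.R012.K1_384
import Crest.Agent.R012.NormB_858

/-!
# Row 12, (ML): **K1** (unconditional)
-/

set_option autoImplicit false

noncomputable section

open MeasureTheory Set Filter Complex
open scoped ENNReal Topology ContDiff

namespace Crest.Agent.R012.ML384

open Crest.Agent.R012 Crest.Agent.R012.K695

theorem nb_cutE : NB cutE := by
  intro a b l τ ha hab hτ
  obtain ⟨C, hC0, hC⟩ := Gram858.norm_bound Sym645.syAPI Sym645.syFacts
    (by exact_mod_cast contDiff_infty.mp cut_contDiff 2) (α := 1 / 2) (β := 9 / 2) (by norm_num)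
    (by norm_num) (fun x hx => cut_supp hx) cut_nonneg ha hab hτ
  refine ⟨C, hC0, ?_⟩
  intro K L T om B φ hK hL hT hB hom hφc hφs hφb hcase
  have hT0 : 0 < T := by linarith
  have h := hC l K L (1 / (4 * T)) B om φ hom.cont.measurable hom.bd hom.supp hcase
    hφc.measurable hφb hφs hB (by positivity)
    (by rw [div_le_one (by positivity)]; linarith)
  refine h.trans (ENNReal.ofReal_le_ofReal ?_)
  have e : (1 / (4 * T)) ^ 2 = (1 / 16) * (T ^ 2)⁻¹ := by
    field_simp; norm_num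
  rw [e]
  have h0 : 0 ≤ K ^ 2 * L ^ 2 * B ^ 2 * (T ^ 2)⁻¹ * (1 + B) ^ τ := by positivity
  calc C * (K ^ 2 * L ^ 2 * B ^ 2 * (1 / 16 * (T ^ 2)⁻¹) * (1 + B) ^ τ)
      = (1 / 16) * (C * (K ^ 2 * L ^ 2 * B ^ 2 * (T ^ 2)⁻¹ * (1 + B) ^ τ)) := by ring
    _ ≤ 1 * (C * (K ^ 2 * L ^ 2 * B ^ 2 * (T ^ 2)⁻¹ * (1 + B) ^ τ)) := by
        gcongr
        norm_num
    _ = _ := one_mul _

/-- **K1.** -/
theorem k1 : K1_Prop := K1_of_NB nb_cutE

end Crest.Agent.R012.ML384
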