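import Crest.Agent.R012.SliceP_384

/-!
# Row 12, (ML): the cut-off in the determinant
-/

set_option autoImplicit false

noncomputable section

open MeasureTheory Set Filter Complex
open scoped ENNReal Topology ContDiff

namespace Crest.Agent.R012.ML384

/-- the bump function, `= 1` on `[1,4]`, supported in `[1/2, 9/2]`. -/
def bmp : ContDiffBump (5 / 2 : ℝ) where
  rIn := 3 / 2
  rOut := 2
  rIn_pos := by norm_num
  rIn_lt_rOut := by norm_num

/-- the real cut-off. -/
def cut (x : ℝ) : ℝ := bmp x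

lemma cut_contDiff : ContDiff ℝ ∞ cut := bmp.contDiff

lemma cut_nonneg (x : ℝ) : 0 ≤ cut x := bmp.nonneg

lemma cut_le_one (x : ℝ) : cut x ≤ 1 := bmp.le_one

lemma cut_one {x : ℝ} (h1 : 1 ≤ x) (h4 : x ≤ 4) : cut x = 1 := by
  apply bmp.one_of_mem_closedBall
  rw [Metric.mem_closedBall, Real.dist_eq, abs_le]
  simp only [bmp]
  constructor <;> linarith

lemma cut_supp {x : ℝ} (h : cut x ≠ 0) : 1 / 2 ≤ x ∧ x ≤ 9 / 2 := by
  by_contra hc
  apply h
  apply bmp.zero_of_le_dist
  rw [Real.dist_eq]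
  simp only [bmp]
  rw [not_and_or, not_le, not_le] at hc
  rcases hc with hc | hc
  · rw [abs_of_neg (by linarith)]; linarith
  · rw [abs_of_pos (by linarith)]; linarith

/-- the cut-off on `ℂ` with values in `[0,∞]`. -/
def cutE (z : ℂ) : ℝ≥0∞ := ENNReal.ofReal (cut ‖z‖)

lemma measurable_cutE : Measurable cutE :=
  (cut_contDiff.continuous.measurable.comp measurable_norm).ennreal_ofReal

lemma cutE_zero : cutE 0 = 0 := by
  unfold cutE
  rw [norm_zero]
  have : cut 0 = 0 := by
    by_contra h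
    have := (cut_supp h).1
    linarith
  rw [this, ENNReal.ofReal_zero]

lemma one_le_cutE {z : ℂ} (h1 : 1 ≤ ‖z‖) (h4 : ‖z‖ ≤ 4) : 1 ≤ cutE z := by
  unfold cutE
  rw [cut_one h1 h4, ENNReal.ofReal_one]

/-- **K1**, given the norm bound for the cut-off `cutE`. -/
theorem K1_of_NB (hN : NB cutE) : K1_Prop :=
  K1_of measurable_cutE cutE_zero (sliceP measurable_cutE fun _ h1 h4 => one_le_cutE h1 h4) hN

end Crest.Agent.R012.ML384
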