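import Crest.Agent.R012.SpecK_384
import Crest.Agent.R012.AddChar_666

/-!
# Row 12, (ML): K1 implies K3

The sums `S_u(om;Y) = Σ_{d ≡ 1} conj g(u,d) om(N d / Y)` satisfy
`d/dY (Y^{-4/3} S_u(om;Y)) = Y^{-7/3} S_u(om1;Y)` with `om1 = -(4/3) om - x om'`, and `om1` has
`∫ om1 x^{1/3} = 0`.  Hence K1 shows that `Y^{-4/3} S_u(om;Y)` has a limit `ρ_u` and it gives the
mean-square bound of the difference.
-/

set_option autoImplicit false

noncomputable section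

open MeasureTheory Set Filter Complex
open scoped ENNReal Topology ContDiff ComplexConjugate

namespace Crest.Agent.R012.KRho813

open Crest.Agent.R012 Crest.Agent.R012.Eis Crest.Agent.R012.Parseval499
open Crest.Agent.R012.StripCo813 Crest.Agent.R012.Four813 Crest.Agent.R012.ML384

open Classical in
/-- `Σ_{d ≡ 1} conj g(u,d) om(N d / Y)`. -/
def St (om : ℝ → ℂ) (u : Eis) (Y : ℝ) : ℂ :=
  ∑' d : Eis, if IsPrim d then conj (gs u d) * om ((nm d : ℝ) / Y) else 0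

lemma Sg_Uf_zero (om : ℝ → ℂ) (u : Eis) (B : ℝ) (e : ℂ) :
    Sg (fun _ => 1) (Uf om 0 B) u e = St om u (B / ‖e‖ ^ 2) := by
  unfold Sg St Uf
  refine tsum_congr fun d => ?_
  by_cases hd : IsPrim d
  · simp only [hd, if_true, one_mul, zpow_zero, mul_one]
    congr 2
    rw [norm_mul, mul_pow, norm_toC_sq, div_div_eq_mul_div]
  · simp [hd]

open Classical in
lemma St_eq_sum {om : ℝ → ℂ} {b : ℝ} (hs : ∀ x, b < x → om x = 0) (u : Eis) {Y : ℝ} (hY : 0 < Y)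
    {N : ℕ} (hN : b * Y ≤ N) :
    St om u Y = ∑ d ∈ ball N, if IsPrim d then conj (gs u d) * om ((nm d : ℝ) / Y) else 0 := by
  unfold St
  refine tsum_eq_sum fun d hd => ?_
  rw [mem_ball, not_le] at hd
  split_ifs
  · rw [hs _ ?_, mul_zero]
    rw [lt_div_iff₀ hY]
    exact hN.trans_lt (by exact_mod_cast hd)
  · rfl

/-- `-(4/3) om - x om'`. -/
def om1 (om : ℝ → ℂ) (x : ℝ) : ℂ := -(4 / 3 : ℂ) * om x - (x : ℂ) * deriv om x

lemma deriv_zero_of_supp {om : ℝ → ℂ} {b : ℝ} (hs : ∀ x, b < x → om x = 0) {x : ℝ} (hx : b < x) :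
    deriv om x = 0 := by
  have h : om =ᶠ[𝓝 x] fun _ => 0 := by
    filter_upwards [lt_mem_nhds hx] with y hy using hs y hy
  rw [h.deriv_eq]; simp

lemma deriv_zero_of_supp' {om : ℝ → ℂ} {a : ℝ} (hs : ∀ x, x < a → om x = 0) {x : ℝ} (hx : x < a) :
    deriv om x = 0 := by
  have h : om =ᶠ[𝓝 x] fun _ => 0 := by
    filter_upwards [gt_mem_nhds hx] with y hy using hs y hy
  rw [h.deriv_eq]; simp

lemma om1_supp {om : ℝ → ℂ} {b : ℝ} (hs : ∀ x, b < x → om x = 0) : ∀ x, b < x → om1 om x = 0 := by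
  intro x hx
  simp [om1, hs x hx, deriv_zero_of_supp hs hx]

lemma om1_supp' {om : ℝ → ℂ} {a : ℝ} (hs : ∀ x, x < a → om x = 0) : ∀ x, x < a → om1 om x = 0 := by
  intro x hx
  simp [om1, hs x hx, deriv_zero_of_supp' hs hx]

lemma hasDerivAt_term {om : ℝ → ℂ} (hd : Differentiable ℝ om) (n : ℝ) {Y : ℝ} (hY : 0 < Y) :
    HasDerivAt (fun y : ℝ => ((y ^ (-(4 : ℝ) / 3) : ℝ) : ℂ) * om (n / y))
      (((Y ^ (-(7 : ℝ) / 3) : ℝ) : ℂ) * om1 om (n / Y)) Y := by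
  have h1 : HasDerivAt (fun y : ℝ => y ^ (-(4 : ℝ) / 3)) ((-(4 : ℝ) / 3) * Y ^ (-(4 : ℝ) / 3 - 1)) Y :=
    Real.hasDerivAt_rpow_const (Or.inl hY.ne')
  have h2 : HasDerivAt (fun y : ℝ => n / y) (-(n / Y ^ 2)) Y := by
    refine ((hasDerivAt_inv hY.ne').const_mul n).congr_deriv ?_
    ring
  have h3 : HasDerivAt (fun y : ℝ => om (n / y)) ((-(n / Y ^ 2)) • deriv om (n / Y)) Y :=
    HasDerivAt.scomp Y (hd _).hasDerivAt h2
  refine (h1.ofReal_comp.fun_mul h3).congr_deriv ?_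
  have e1 : (-(4 : ℝ) / 3 - 1) = -(7 : ℝ) / 3 := by norm_num
  have e2 : Y ^ (-(4 : ℝ) / 3) = Y * Y ^ (-(7 : ℝ) / 3) := by
    rw [← Real.rpow_one_add' hY.le (by norm_num)]
    norm_num
  rw [e1, e2]
  unfold om1
  have hY' : (Y : ℂ) ≠ 0 := by exact_mod_cast hY.ne'
  rw [Complex.real_smul]
  push_cast
  field_simp
  ring

open Classical in
theorem hasDerivAt_St {om : ℝ → ℂ} (hd : Differentiable ℝ om) {b : ℝ}
    (hs : ∀ x, b < x → om x = 0) (hb : 0 ≤ b) (u : Eis) {Y : ℝ} (hY : 0 < Y) :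
    HasDerivAt (fun y : ℝ => ((y ^ (-(4 : ℝ) / 3) : ℝ) : ℂ) * St om u y)
      (((Y ^ (-(7 : ℝ) / 3) : ℝ) : ℂ) * St (om1 om) u Y) Y := by
  obtain ⟨N, hN⟩ := exists_nat_ge (b * (Y + 1))
  have h1 : (fun y : ℝ => ((y ^ (-(4 : ℝ) / 3) : ℝ) : ℂ) * St om u y) =ᶠ[𝓝 Y]
      fun y => ∑ d ∈ ball N, if IsPrim d then
        conj (gs u d) * (((y ^ (-(4 : ℝ) / 3) : ℝ) : ℂ) * om ((nm d : ℝ) / y)) else 0 := by
    filter_upwards [lt_mem_nhds hY, gt_mem_nhds (lt_add_one Y)] with y h2 h3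
    rw [St_eq_sum hs u h2 (N := N) (le_trans (by gcongr) hN), Finset.mul_sum]
    refine Finset.sum_congr rfl fun d _ => ?_
    split_ifs
    · ring
    · simp
  refine HasDerivAt.congr_of_eventuallyEq ?_ h1
  rw [St_eq_sum (om1_supp hs) u hY (N := N) (le_trans (by gcongr; linarith) hN), Finset.mul_sum]
  refine HasDerivAt.fun_sum fun d _ => ?_
  split_ifs
  · refine ((hasDerivAt_term hd (nm d : ℝ) hY).const_mul (conj (gs u d))).congr_deriv ?_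
    ring
  · simpa using hasDerivAt_const Y (0 : ℂ)

open Classical in
theorem continuousOn_St {om : ℝ → ℂ} (hc : Continuous om) {b : ℝ}
    (hs : ∀ x, b < x → om x = 0) (hb : 0 ≤ b) (u : Eis) : ContinuousOn (St om u) (Ioi 0) := by
  intro Y hY
  have hY : 0 < Y := hY
  refine ContinuousAt.continuousWithinAt ?_
  obtain ⟨N, hN⟩ := exists_nat_ge (b * (Y + 1))
  have h1 : St om u =ᶠ[𝓝 Y]
      fun y => ∑ d ∈ ball N, if IsPrim d then conj (gs u d) * om ((nm d : ℝ) / y) else 0 := by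
    filter_upwards [lt_mem_nhds hY, gt_mem_nhds (lt_add_one Y)] with y h2 h3
    exact St_eq_sum hs u h2 (N := N) (le_trans (by gcongr) hN)
  refine ContinuousAt.congr ?_ h1.symm
  refine tendsto_finsetSum _ fun d _ => ?_
  split_ifs
  · refine ContinuousAt.mul continuousAt_const ?_
    refine ContinuousAt.comp (f := fun y : ℝ => (nm d : ℝ) / y) hc.continuousAt ?_
    exact continuousAt_const.div continuousAt_id hY.ne'
  · exact tendsto_const_nhds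

/-- a measurable version of `St`. -/
def Sm (om : ℝ → ℂ) (u : Eis) : ℝ → ℂ := (Ioi (0 : ℝ)).indicator (St om u)

lemma measurable_Sm {om : ℝ → ℂ} (hc : Continuous om) {b : ℝ}
    (hs : ∀ x, b < x → om x = 0) (hb : 0 ≤ b) (u : Eis) : Measurable (Sm om u) := by
  classical
  have := (continuousOn_St hc hs hb u).measurable_piecewise (g := (0 : ℝ → ℂ))
    continuousOn_const measurableSet_Ioi
  rwa [Set.piecewise_eq_indicator] at this

lemma Sm_eq (om : ℝ → ℂ) (u : Eis) {Y : ℝ} (hY : 0 < Y) : Sm om u Y = St om u Y :=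
  indicator_of_mem (show Y ∈ Ioi (0 : ℝ) from hY) _

/-! ### tools -/

lemma cs {f g : ℝ → ℝ≥0∞} {μ : Measure ℝ} (hf : AEMeasurable f μ) (hg : AEMeasurable g μ) :
    (∫⁻ x, f x * g x ∂μ) ^ 2 ≤ (∫⁻ x, f x ^ 2 ∂μ) * ∫⁻ x, g x ^ 2 ∂μ := by
  have h := ENNReal.lintegral_mul_le_Lp_mul_Lq μ (Real.HolderConjugate.two_two) hf hg
  have e : ∀ x : ℝ≥0∞, (x ^ ((1 : ℝ) / 2)) ^ 2 = x := by
    intro x
    rw [← ENNReal.rpow_natCast, ← ENNReal.rpow_mul]
    norm_num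
  calc (∫⁻ x, f x * g x ∂μ) ^ 2 ≤ ((∫⁻ x, f x ^ (2 : ℝ) ∂μ) ^ ((1 : ℝ) / 2) *
        (∫⁻ x, g x ^ (2 : ℝ) ∂μ) ^ ((1 : ℝ) / 2)) ^ 2 := by
        gcongr
        exact h
    _ = _ := by
        rw [mul_pow, e, e]
        simp only [ENNReal.rpow_two]

lemma lint_scale {Y : ℝ} (hY : 0 < Y) (F : ℝ → ℝ≥0∞) (c : ℝ) :
    ∫⁻ y in Ioi (c * Y), F y = ENNReal.ofReal Y * ∫⁻ k in Ioi c, F (k * Y) := by
  have h1 : Ioi (c * Y) = (fun k : ℝ => k * Y) '' Ioi c := by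
    ext y
    simp only [mem_Ioi, mem_image]
    constructor
    · intro h
      exact ⟨y / Y, by rwa [lt_div_iff₀ hY], by field_simp⟩
    · rintro ⟨k, hk, rfl⟩
      gcongr
  rw [h1, lintegral_image_eq_lintegral_abs_deriv_mul measurableSet_Ioi (f' := fun _ => Y)
    (fun x _ => by simpa using ((hasDerivAt_id x).mul_const Y).hasDerivWithinAt)
    (fun x _ y _ h => by simpa [hY.ne'] using h), abs_of_pos hY,
    lintegral_const_mul' _ _ ENNReal.ofReal_ne_top]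

lemma lint_rpow {a : ℝ} (ha : a < -1) {c : ℝ} (hc : 0 < c) :
    ∫⁻ t in Ioi c, ENNReal.ofReal (t ^ a) = ENNReal.ofReal (-c ^ (a + 1) / (a + 1)) := by
  rw [← ofReal_integral_eq_lintegral_ofReal, integral_Ioi_rpow_of_lt ha hc]
  · exact integrableOn_Ioi_rpow_of_lt ha hc
  · refine (ae_restrict_iff' measurableSet_Ioi).mpr (Eventually.of_forall fun t ht => ?_)
    have : 0 < t := hc.trans ht
    positivity

/-! ### the limit -/

/-- If `A' = y^{-7/3} g` and `∫^∞ y^{-10/3} |g|² < ∞` then `A` has a limit, with a bound. -/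
theorem exists_limit {A g : ℝ → ℂ} (hg : ContinuousOn g (Ioi 0))
    (hA : ∀ y, 0 < y → HasDerivAt A (((y ^ (-(7 : ℝ) / 3) : ℝ) : ℂ) * g y) y)
    {Y0 : ℝ} (hY0 : 0 < Y0)
    (hfin : ∫⁻ y in Ioi Y0, ENNReal.ofReal (y ^ (-(10 : ℝ) / 3)) * ‖g y‖ₑ ^ 2 ≠ ⊤) :
    ∃ ρ : ℂ, ∀ Y, 0 < Y → ‖A Y - ρ‖ₑ ^ 2 ≤ ENNReal.ofReal (3 * Y ^ (-(1 : ℝ) / 3)) *
      ∫⁻ y in Ioi Y, ENNReal.ofReal (y ^ (-(10 : ℝ) / 3)) * ‖g y‖ₑ ^ 2 := by
  have hmono : ∀ {Y : ℝ}, 0 < Y → Ioi Y ⊆ Ioi (0 : ℝ) := fun hY => Ioi_subset_Ioi hY.le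
  have hcont : ContinuousOn (fun y : ℝ => ((y ^ (-(7 : ℝ) / 3) : ℝ) : ℂ) * g y) (Ioi 0) := by
    refine ContinuousOn.mul ?_ hg
    refine Complex.continuous_ofReal.comp_continuousOn ?_
    exact ContinuousOn.rpow_const continuousOn_id fun x hx => Or.inl (ne_of_gt hx)
  have hcs : ∀ Y, 0 < Y → (∫⁻ y in Ioi Y, ‖((y ^ (-(7 : ℝ) / 3) : ℝ) : ℂ) * g y‖ₑ) ^ 2 ≤
      ENNReal.ofReal (3 * Y ^ (-(1 : ℝ) / 3)) *
      ∫⁻ y in Ioi Y, ENNReal.ofReal (y ^ (-(10 : ℝ) / 3)) * ‖g y‖ₑ ^ 2 := by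
    intro Y hY
    have hm1 : AEMeasurable (fun y : ℝ => ENNReal.ofReal (y ^ (-(2 : ℝ) / 3)))
        (volume.restrict (Ioi Y)) := by fun_prop
    have hm2 : AEMeasurable (fun y : ℝ => ENNReal.ofReal (y ^ (-(5 : ℝ) / 3)) * ‖g y‖ₑ)
        (volume.restrict (Ioi Y)) := by
      refine AEMeasurable.mul
        (by fun_prop : AEMeasurable (fun y : ℝ => ENNReal.ofReal (y ^ (-(5 : ℝ) / 3)))
          (volume.restrict (Ioi Y))) ?_
      exact ((hg.mono (hmono hY)).aemeasurable measurableSet_Ioi).enorm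
    have h := cs hm1 hm2
    calc (∫⁻ y in Ioi Y, ‖((y ^ (-(7 : ℝ) / 3) : ℝ) : ℂ) * g y‖ₑ) ^ 2
        = (∫⁻ y in Ioi Y, ENNReal.ofReal (y ^ (-(2 : ℝ) / 3)) *
            (ENNReal.ofReal (y ^ (-(5 : ℝ) / 3)) * ‖g y‖ₑ)) ^ 2 := by
          congr 1
          refine setLIntegral_congr_fun measurableSet_Ioi fun y hy => ?_
          have hy0 : 0 < y := hY.trans hy
          rw [enorm_mul, ← mul_assoc, ← ENNReal.ofReal_mul (by positivity), ← Real.rpow_add hy0]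
          congr 1
          rw [← ofReal_norm, Complex.norm_real, Real.norm_of_nonneg (by positivity)]
          norm_num
      _ ≤ _ := h
      _ = (∫⁻ y in Ioi Y, ENNReal.ofReal (y ^ (-(4 : ℝ) / 3))) *
          ∫⁻ y in Ioi Y, ENNReal.ofReal (y ^ (-(10 : ℝ) / 3)) * ‖g y‖ₑ ^ 2 := by
          congr 1
          · refine setLIntegral_congr_fun measurableSet_Ioi fun y hy => ?_
            have hy0 : 0 < y := hY.trans hy
            rw [← ENNReal.ofReal_pow (by positivity), ← Real.rpow_mul_natCast hy0.le]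
            norm_num
          · refine setLIntegral_congr_fun measurableSet_Ioi fun y hy => ?_
            have hy0 : 0 < y := hY.trans hy
            rw [mul_pow, ← ENNReal.ofReal_pow (by positivity), ← Real.rpow_mul_natCast hy0.le]
            norm_num
      _ = _ := by
          rw [lint_rpow (by norm_num) hY]
          congr 2
          norm_num
          ring
  -- integrability
  have hint0 : IntegrableOn (fun y : ℝ => ((y ^ (-(7 : ℝ) / 3) : ℝ) : ℂ) * g y) (Ioi Y0) := by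
    refine ⟨(hcont.mono (hmono hY0)).aestronglyMeasurable measurableSet_Ioi, ?_⟩
    have h1 := hcs Y0 hY0
    have h2 : (∫⁻ y in Ioi Y0, ‖((y ^ (-(7 : ℝ) / 3) : ℝ) : ℂ) * g y‖ₑ) ^ 2 < ⊤ :=
      h1.trans_lt (ENNReal.mul_lt_top ENNReal.ofReal_lt_top (lt_top_iff_ne_top.mpr hfin))
    exact (ENNReal.pow_lt_top_iff.mp h2).resolve_right (by norm_num)
  have hint : ∀ Y, 0 < Y →
      IntegrableOn (fun y : ℝ => ((y ^ (-(7 : ℝ) / 3) : ℝ) : ℂ) * g y) (Ioi Y) := by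
    intro Y hY
    have h1 : IntegrableOn (fun y : ℝ => ((y ^ (-(7 : ℝ) / 3) : ℝ) : ℂ) * g y) (Icc Y Y0) := by
      refine ContinuousOn.integrableOn_compact isCompact_Icc (hcont.mono ?_)
      intro y hy
      exact hY.trans_le hy.1
    refine (h1.union hint0).mono_set ?_
    intro y hy
    rcases le_or_gt y Y0 with h | h
    · exact Or.inl ⟨(mem_Ioi.mp hy).le, h⟩
    · exact Or.inr h
  refine ⟨limUnder atTop A, fun Y hY => ?_⟩
  have hlim : Tendsto A atTop (𝓝 (limUnder atTop A)) :=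
    tendsto_limUnder_of_hasDerivAt_of_integrableOn_Ioi
      (fun y hy => hA y (hY.trans hy)) (hint Y hY)
  have h3 := integral_Ioi_of_hasDerivAt_of_tendsto' (a := Y)
    (fun y hy => hA y (hY.trans_le hy)) (hint Y hY) hlim
  have h4 : ‖A Y - limUnder atTop A‖ₑ =
      ‖∫ y in Ioi Y, ((y ^ (-(7 : ℝ) / 3) : ℝ) : ℂ) * g y‖ₑ := by
    rw [h3, ← enorm_neg, neg_sub]
  rw [h4]
  refine le_trans ?_ (hcs Y hY)
  gcongr
  exact enorm_integral_le_lintegral_enorm _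

/-- The bound in scale-invariant form. -/
theorem St_bound {om : ℝ → ℂ} (hd : Differentiable ℝ om) (hc : Continuous (om1 om)) {b : ℝ}
    (hs : ∀ x, b < x → om x = 0) (hb : 0 ≤ b) (u : Eis) {Y0 : ℝ} (hY0 : 0 < Y0)
    (hfin : ∫⁻ y in Ioi Y0, ENNReal.ofReal (y ^ (-(10 : ℝ) / 3)) * ‖St (om1 om) u y‖ₑ ^ 2 ≠ ⊤) :
    ∃ ρ : ℂ, ∀ Y, 0 < Y → ‖St om u Y - ((Y ^ ((4 : ℝ) / 3) : ℝ) : ℂ) * ρ‖ₑ ^ 2 ≤
      3 * ∫⁻ k in Ioi (1 : ℝ), ENNReal.ofReal (k ^ (-(10 : ℝ) / 3)) *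
        ‖St (om1 om) u (k * Y)‖ₑ ^ 2 := by
  obtain ⟨ρ, hρ⟩ := exists_limit (A := fun y : ℝ => ((y ^ (-(4 : ℝ) / 3) : ℝ) : ℂ) * St om u y)
    (continuousOn_St hc (om1_supp hs) hb u)
    (fun y hy => hasDerivAt_St hd hs hb u hy) hY0 hfin
  refine ⟨ρ, fun Y hY => ?_⟩
  have h1 := hρ Y hY
  have e1 : St om u Y - ((Y ^ ((4 : ℝ) / 3) : ℝ) : ℂ) * ρ =
      ((Y ^ ((4 : ℝ) / 3) : ℝ) : ℂ) * (((Y ^ (-(4 : ℝ) / 3) : ℝ) : ℂ) * St om u Y - ρ) := by
    rw [mul_sub, ← mul_assoc, ← Complex.ofReal_mul, ← Real.rpow_add hY]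
    norm_num
  have e2 : ‖((Y ^ ((4 : ℝ) / 3) : ℝ) : ℂ)‖ₑ ^ 2 = ENNReal.ofReal (Y ^ ((8 : ℝ) / 3)) := by
    rw [← ofReal_norm, Complex.norm_real, Real.norm_of_nonneg (by positivity),
      ← ENNReal.ofReal_pow (by positivity), ← Real.rpow_mul_natCast hY.le]
    norm_num
  rw [e1, enorm_mul, mul_pow, e2]
  refine (mul_le_mul_right h1 _).trans (le_of_eq ?_)
  have h2 := lint_scale hY (fun y => ENNReal.ofReal (y ^ (-(10 : ℝ) / 3)) *
    ‖St (om1 om) u y‖ₑ ^ 2) 1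
  rw [one_mul] at h2
  have h3 : ∫⁻ k in Ioi (1 : ℝ), ENNReal.ofReal ((k * Y) ^ (-(10 : ℝ) / 3)) *
      ‖St (om1 om) u (k * Y)‖ₑ ^ 2 = ENNReal.ofReal (Y ^ (-(10 : ℝ) / 3)) *
      ∫⁻ k in Ioi (1 : ℝ), ENNReal.ofReal (k ^ (-(10 : ℝ) / 3)) *
        ‖St (om1 om) u (k * Y)‖ₑ ^ 2 := by
    rw [← lintegral_const_mul' _ _ ENNReal.ofReal_ne_top]
    refine setLIntegral_congr_fun measurableSet_Ioi fun k hk => ?_
    have hk0 : (0 : ℝ) < k := zero_lt_one.trans hk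
    rw [Real.mul_rpow hk0.le hY.le, ENNReal.ofReal_mul (by positivity)]
    ring
  rw [h2, h3, ← mul_assoc, ← mul_assoc, ← mul_assoc, ← ENNReal.ofReal_mul (by positivity),
    ← ENNReal.ofReal_mul (by positivity), ← ENNReal.ofReal_mul (by positivity)]
  congr 1
  have e3 : Y ^ ((8 : ℝ) / 3) * (3 * Y ^ (-(1 : ℝ) / 3)) * Y * Y ^ (-(10 : ℝ) / 3) = 3 := by
    have h5 : Y ^ ((8 : ℝ) / 3) * Y ^ (-(1 : ℝ) / 3) * Y * Y ^ (-(10 : ℝ) / 3) = 1 := by
      rw [← Real.rpow_add hY, ← Real.rpow_add_one hY.ne', ← Real.rpow_add hY]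
      norm_num
    linarith
  rw [e3]
  norm_num

/-! ### measurability and Tonelli -/

lemma continuous_phat {φ : ℂ → ℂ} (hφ : Integrable φ) : Continuous (phat φ) := by
  unfold phat
  refine continuous_of_dominated (F := fun ξ s => φ s * eC (-(ξ * s)))
    (bound := fun s => ‖φ s‖) ?_ ?_ hφ.norm ?_
  · intro ξ
    refine hφ.aestronglyMeasurable.mul (Continuous.aestronglyMeasurable ?_)
    unfold eC; fun_prop
  · intro ξ
    exact Eventually.of_forall fun s => by rw [norm_mul, norm_eC, mul_one]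
  · exact Eventually.of_forall fun s => by unfold eC; fun_prop

lemma integrable_dil {φ0 : ℂ → ℂ} (hφ : TestFn286.SP (1 / 4) φ0) {T : ℝ} (hT : 0 < T) :
    Integrable fun p : ℂ => φ0 ((T : ℂ) * p) := by
  refine Continuous.integrable_of_hasCompactSupport ?_ ?_
  · exact hφ.cd.continuous.comp (by fun_prop)
  · refine HasCompactSupport.intro (isCompact_closedBall (0 : ℂ) (1 / 4 / T)) fun x hx => ?_
    refine hφ.supp _ ?_
    rw [Metric.mem_closedBall, dist_zero_right, not_le, div_lt_iff₀ hT] at hx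
    rw [norm_mul, Complex.norm_real, Real.norm_of_nonneg hT.le]
    linarith

lemma measurable_wtB {φ0 : ℂ → ℂ} (hφ : TestFn286.SP (1 / 4) φ0) {T : ℝ} (hT : 0 < T) (u : Eis) :
    Measurable fun p : ℂ × ℂ => wtB T φ0 u p.1 p.2 := by
  unfold wtB
  have h := (continuous_phat (integrable_dil hφ hT)).measurable
  have h2 : Measurable fun p : ℂ × ℂ =>
      phat (fun q => φ0 ((T : ℂ) * q)) (frq 3 u * p.2 / p.1) := h.comp (by fun_prop)
  fun_prop

theorem tonelli {om : ℝ → ℂ} (hc : Continuous om) {b : ℝ} (hs : ∀ x, b < x → om x = 0)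
    (hb : 0 ≤ b) {φ0 : ℂ → ℂ} (hφ : TestFn286.SP (1 / 4) φ0) {T : ℝ} (hT : 0 < T) {r B : ℝ}
    (hr : 0 < r) (hB : 0 < B) (S : Finset Eis) :
    ∫⁻ v in ann r (2 * r), ∫⁻ e in ann (1 / r) (2 / r), ∑ u ∈ S,
      (∫⁻ k in Ioi (1 : ℝ), ENNReal.ofReal (k ^ (-(10 : ℝ) / 3)) *
        ‖St om u (k * (B / ‖e‖ ^ 2))‖ₑ ^ 2) * ENNReal.ofReal (wtB T φ0 u v e) =
    ∫⁻ k in Ioi (1 : ℝ), ENNReal.ofReal (k ^ (-(10 : ℝ) / 3)) *
      BX r T φ0 S (fun u e => Sg (fun _ => 1) (Uf om 0 (k * B)) u e) := by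
  set P : ℝ × (ℂ × ℂ) → ℝ≥0∞ := fun p => ENNReal.ofReal (p.1 ^ (-(10 : ℝ) / 3)) *
    ∑ u ∈ S, ‖Sm om u (p.1 * (B / ‖p.2.2‖ ^ 2))‖ₑ ^ 2 * ENNReal.ofReal (wtB T φ0 u p.2.1 p.2.2)
    with hP
  have hSm : ∀ u, Measurable (Sm om u) := measurable_Sm hc hs hb
  have hPm : Measurable P := by
    rw [hP]
    have hk : Measurable fun p : ℝ × (ℂ × ℂ) => ENNReal.ofReal (p.1 ^ (-(10 : ℝ) / 3)) := by
      fun_prop
    refine hk.mul ?_
    refine Finset.measurable_fun_sum _ fun u _ => ?_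
    have hA : Measurable fun p : ℝ × (ℂ × ℂ) => ‖Sm om u (p.1 * (B / ‖p.2.2‖ ^ 2))‖ₑ ^ 2 :=
      ((hSm u).comp (by fun_prop)).enorm.pow_const 2
    have hB : Measurable fun p : ℝ × (ℂ × ℂ) => ENNReal.ofReal (wtB T φ0 u p.2.1 p.2.2) :=
      ((measurable_wtB hφ hT u).comp measurable_snd).ennreal_ofReal
    exact hA.mul hB
  have he0 : ∀ e ∈ ann (1 / r) (2 / r), 0 < ‖e‖ := by
    intro e he
    exact lt_of_lt_of_le (by positivity) he.1
  have h1 : ∀ v : ℂ, ∀ e ∈ ann (1 / r) (2 / r), ∑ u ∈ S,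
      (∫⁻ k in Ioi (1 : ℝ), ENNReal.ofReal (k ^ (-(10 : ℝ) / 3)) *
        ‖St om u (k * (B / ‖e‖ ^ 2))‖ₑ ^ 2) * ENNReal.ofReal (wtB T φ0 u v e) =
      ∫⁻ k in Ioi (1 : ℝ), P (k, (v, e)) := by
    intro v e he
    have he' := he0 e he
    have h2 : ∀ u ∈ S, (∫⁻ k in Ioi (1 : ℝ), ENNReal.ofReal (k ^ (-(10 : ℝ) / 3)) *
        ‖St om u (k * (B / ‖e‖ ^ 2))‖ₑ ^ 2) * ENNReal.ofReal (wtB T φ0 u v e) =
        ∫⁻ k in Ioi (1 : ℝ), ENNReal.ofReal (k ^ (-(10 : ℝ) / 3)) *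
        (‖Sm om u (k * (B / ‖e‖ ^ 2))‖ₑ ^ 2 * ENNReal.ofReal (wtB T φ0 u v e)) := by
      intro u _
      rw [← lintegral_mul_const' _ _ ENNReal.ofReal_ne_top]
      refine setLIntegral_congr_fun measurableSet_Ioi fun k hk => ?_
      have hk0 : (0 : ℝ) < k := zero_lt_one.trans hk
      rw [Sm_eq _ _ (by positivity), mul_assoc]
    rw [Finset.sum_congr rfl h2, ← lintegral_finsetSum' _ ?_]
    · refine lintegral_congr fun k => ?_
      rw [hP]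
      simp only
      rw [Finset.mul_sum]
    · intro u _
      refine Measurable.aemeasurable ?_
      have hk : Measurable fun k : ℝ => ENNReal.ofReal (k ^ (-(10 : ℝ) / 3)) := by fun_prop
      refine hk.mul ?_
      have hA : Measurable fun k : ℝ => ‖Sm om u (k * (B / ‖e‖ ^ 2))‖ₑ ^ 2 :=
        ((hSm u).comp (by fun_prop)).enorm.pow_const 2
      exact hA.mul_const _
  have h3 : ∀ k ∈ Ioi (1 : ℝ), ENNReal.ofReal (k ^ (-(10 : ℝ) / 3)) *
      BX r T φ0 S (fun u e => Sg (fun _ => 1) (Uf om 0 (k * B)) u e) =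
      ∫⁻ v in ann r (2 * r), ∫⁻ e in ann (1 / r) (2 / r), P (k, (v, e)) := by
    intro k hk
    have hk0 : (0 : ℝ) < k := zero_lt_one.trans hk
    unfold BX
    rw [← lintegral_const_mul' _ _ ENNReal.ofReal_ne_top]
    refine lintegral_congr fun v => ?_
    rw [← lintegral_const_mul' _ _ ENNReal.ofReal_ne_top]
    refine setLIntegral_congr_fun (measurableSet_ann _ _) fun e he => ?_
    have he' := he0 e he
    rw [hP]
    simp only
    congr 1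
    refine Finset.sum_congr rfl fun u _ => ?_
    rw [Sg_Uf_zero, Sm_eq _ _ (by positivity), mul_div_assoc]
  calc ∫⁻ v in ann r (2 * r), ∫⁻ e in ann (1 / r) (2 / r), ∑ u ∈ S,
      (∫⁻ k in Ioi (1 : ℝ), ENNReal.ofReal (k ^ (-(10 : ℝ) / 3)) *
        ‖St om u (k * (B / ‖e‖ ^ 2))‖ₑ ^ 2) * ENNReal.ofReal (wtB T φ0 u v e)
      = ∫⁻ v in ann r (2 * r), ∫⁻ e in ann (1 / r) (2 / r), ∫⁻ k in Ioi (1 : ℝ),
          P (k, (v, e)) := by
        refine lintegral_congr fun v => ?_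
        exact setLIntegral_congr_fun (measurableSet_ann _ _) fun e he => h1 v e he
    _ = ∫⁻ v in ann r (2 * r), ∫⁻ k in Ioi (1 : ℝ), ∫⁻ e in ann (1 / r) (2 / r),
          P (k, (v, e)) := by
        refine lintegral_congr fun v => ?_
        refine lintegral_lintegral_swap (f := fun e k => P (k, (v, e))) ?_
        refine Measurable.aemeasurable ?_
        exact hPm.comp (by fun_prop : Measurable fun p : ℂ × ℝ => (p.2, (v, p.1)))
    _ = ∫⁻ k in Ioi (1 : ℝ), ∫⁻ v in ann r (2 * r), ∫⁻ e in ann (1 / r) (2 / r),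
          P (k, (v, e)) := by
        refine lintegral_lintegral_swap
          (f := fun v k => ∫⁻ e in ann (1 / r) (2 / r), P (k, (v, e))) ?_
        refine Measurable.aemeasurable ?_
        refine Measurable.lintegral_prod_right' (f := fun p : (ℂ × ℝ) × ℂ => P (p.1.2, (p.1.1, p.2)))
          ?_
        exact hPm.comp
          (by fun_prop : Measurable fun p : (ℂ × ℝ) × ℂ => (p.1.2, (p.1.1, p.2)))
    _ = _ := (setLIntegral_congr_fun measurableSet_Ioi h3).symm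

end Crest.Agent.R012.KRho813
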