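import Crest.Agent.R012.Weight_600

/-!
# Row 12 (T1d/T8): separation of variables in `exp (-λ y₁ y₂)` without loss

* `sepKer` : for `u ∈ [-2, 0]`, `e^{cu} exp (-λ e^u) = ∫ κ(t) e^{itu} dt` with
  `|κ(t)| ≤ C (1+λ)^{-N} (1+|t|)^{-k}` uniformly in `λ ≥ 0`
* `norm_bilin_le` : `|∑∑ γ_i conj γ_j e^{c(x_i+x_j)} exp (-λ e^{x_i+x_j})|
   ≤ C (1+λ)^{-N} ∫ (1+|t|)^{-k} |∑ γ_i e^{itx_i}|² dt` for `x_i ∈ [-1, 0]`
-/

set_option autoImplicit false

noncomputable section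

open MeasureTheory Real Complex Set Filter Topology
open scoped ContDiff

namespace Crest.Agent.R012.KerSep671

open Weight600

/-- `χ(u) (λ e^u)^j e^{cu} exp (-λ e^u)` -/
def wf (χ : ℝ → ℂ) (c : ℝ) (j : ℕ) (l : ℝ) (u : ℝ) : ℂ :=
  χ u * (((l * Real.exp u) ^ j * Real.exp (c * u - l * Real.exp u) : ℝ) : ℂ)

lemma contDiff_wf {χ : ℝ → ℂ} (h1 : ContDiff ℝ ∞ χ) (c : ℝ) (j : ℕ) (l : ℝ) :
    ContDiff ℝ ∞ (wf χ c j l) := by
  unfold wf
  have h : ContDiff ℝ ∞ (fun u : ℝ => (l * Real.exp u) ^ j *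
      Real.exp (c * u - l * Real.exp u)) := by fun_prop
  exact h1.mul (Complex.ofRealCLM.contDiff.comp h)

lemma hasCompactSupport_wf {χ : ℝ → ℂ} (h2 : HasCompactSupport χ) (c : ℝ) (j : ℕ) (l : ℝ) :
    HasCompactSupport (wf χ c j l) := by
  unfold wf
  exact h2.mul_right

lemma hasDerivAt_aux (c : ℝ) (j : ℕ) (l u : ℝ) :
    HasDerivAt (fun u : ℝ => (l * Real.exp u) ^ j * Real.exp (c * u - l * Real.exp u))
      ((j + c) * ((l * Real.exp u) ^ j * Real.exp (c * u - l * Real.exp u)) -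
        (l * Real.exp u) ^ (j + 1) * Real.exp (c * u - l * Real.exp u)) u := by
  have h1 : HasDerivAt (fun u : ℝ => l * Real.exp u) (l * Real.exp u) u :=
    (Real.hasDerivAt_exp u).const_mul l
  have h2 : HasDerivAt (fun u : ℝ => (l * Real.exp u) ^ j)
      ((j : ℝ) * (l * Real.exp u) ^ (j - 1) * (l * Real.exp u)) u := h1.fun_pow j
  have h3 : HasDerivAt (fun u : ℝ => Real.exp (c * u - l * Real.exp u))
      (Real.exp (c * u - l * Real.exp u) * (c - l * Real.exp u)) u := by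
    have h4 : HasDerivAt (fun u : ℝ => c * u - l * Real.exp u) (c - l * Real.exp u) u := by
      have := (hasDerivAt_id u).const_mul c
      simp only [id, mul_one] at this
      exact this.sub h1
    exact h4.exp
  refine (h2.mul h3).congr_deriv ?_
  have h5 : (j : ℝ) * (l * Real.exp u) ^ (j - 1) * (l * Real.exp u) =
      (j : ℝ) * (l * Real.exp u) ^ j := by
    rcases Nat.eq_zero_or_pos j with hj | hj
    · subst hj; simp
    · rw [mul_assoc, ← pow_succ, Nat.sub_add_cancel hj]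
  rw [h5]
  ring

lemma deriv_wf {χ : ℝ → ℂ} (h1 : ContDiff ℝ ∞ χ) (c : ℝ) (j : ℕ) (l : ℝ) :
    deriv (wf χ c j l) = fun u => wf (fun u => deriv χ u + ((j + c : ℝ) : ℂ) * χ u) c j l u -
      wf χ c (j + 1) l u := by
  funext u
  have hχ : HasDerivAt χ (deriv χ u) u :=
    (h1.differentiable (by simp) u).hasDerivAt
  have h := (hasDerivAt_aux c j l u).ofReal_comp
  have h3 := hχ.mul h
  have h4 : HasDerivAt (wf χ c j l) _ u := h3
  rw [h4.deriv]
  unfold wf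
  push_cast
  ring

lemma contDiff_deriv' {χ : ℝ → ℂ} (h1 : ContDiff ℝ ∞ χ) : ContDiff ℝ ∞ (deriv χ) := by
  have := h1.iterate_deriv 1
  simpa using this

/-- `sup_{l ≥ 0} (1+l)^N (l e^u)^j exp (-l e^u) < ∞` locally uniformly in `u`. -/
lemma exists_sup (N j : ℕ) (c R : ℝ) : ∃ C : ℝ, 0 < C ∧ ∀ l : ℝ, 0 ≤ l → ∀ u : ℝ, |u| ≤ R →
    (l * Real.exp u) ^ j * Real.exp (c * u - l * Real.exp u) ≤ C * ((1 + l) ^ N)⁻¹ := by
  -- `y^M e^{-y} ≤ M!`
  have hy : ∀ (M : ℕ) (y : ℝ), 0 ≤ y → y ^ M * Real.exp (-y) ≤ M.factorial := by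
    intro M y hy
    have h := Real.pow_div_factorial_le_exp y hy M
    rw [div_le_iff₀ (by positivity)] at h
    calc y ^ M * Real.exp (-y) ≤ (Real.exp y * M.factorial) * Real.exp (-y) := by gcongr
      _ = M.factorial := by
        rw [mul_assoc, mul_comm (M.factorial : ℝ), ← mul_assoc, ← Real.exp_add]; simp
  refine ⟨Real.exp (|c| * R) * (2 ^ N * (j.factorial + Real.exp (N * R) * (N + j).factorial)),
    by positivity, fun l hl u hu => ?_⟩
  set y := l * Real.exp u with hy'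
  have hy0 : 0 ≤ y := by positivity
  have hR : 0 ≤ R := (abs_nonneg u).trans hu
  have hl' : l ≤ Real.exp R * y := by
    have : (1 : ℝ) ≤ Real.exp (R + u) := by
      apply Real.one_le_exp
      have := neg_abs_le u
      linarith
    rw [hy']
    calc l = l * 1 := (mul_one l).symm
      _ ≤ l * Real.exp (R + u) := by gcongr
      _ = Real.exp R * (l * Real.exp u) := by rw [Real.exp_add]; ring
  have hc : Real.exp (c * u) ≤ Real.exp (|c| * R) := by
    apply Real.exp_le_exp.mpr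
    calc c * u ≤ |c * u| := le_abs_self _
      _ = |c| * |u| := abs_mul _ _
      _ ≤ |c| * R := by gcongr
  rw [le_mul_inv_iff₀ (by positivity), sub_eq_add_neg, Real.exp_add]
  have h1 : (1 + l) ^ N ≤ 2 ^ N * (1 + (Real.exp R * y) ^ N) := by
    have h2 : 1 + l ≤ 2 * max 1 l := by
      have := le_max_left 1 l
      have := le_max_right 1 l
      linarith
    calc (1 + l) ^ N ≤ (2 * max 1 l) ^ N := by gcongr
      _ = 2 ^ N * (max 1 l) ^ N := mul_pow _ _ _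
      _ ≤ 2 ^ N * (1 + l ^ N) := by
        gcongr
        rcases max_cases 1 l with ⟨h, _⟩ | ⟨h, _⟩
        · rw [h, one_pow]; linarith [pow_nonneg hl N]
        · rw [h]; linarith [pow_nonneg hl N]
      _ ≤ 2 ^ N * (1 + (Real.exp R * y) ^ N) := by gcongr
  calc y ^ j * (Real.exp (c * u) * Real.exp (-y)) * (1 + l) ^ N
      ≤ y ^ j * (Real.exp (|c| * R) * Real.exp (-y)) * (2 ^ N * (1 + (Real.exp R * y) ^ N)) := by
        gcongr
    _ = Real.exp (|c| * R) * (2 ^ N * (y ^ j * Real.exp (-y) +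
          Real.exp R ^ N * (y ^ (N + j) * Real.exp (-y)))) := by
        rw [mul_pow, pow_add]; ring
    _ ≤ Real.exp (|c| * R) * (2 ^ N * (j.factorial + Real.exp (N * R) *
          (N + j).factorial)) := by
        rw [← Real.exp_nat_mul]
        gcongr
        · exact hy j y hy0
        · exact hy (N + j) y hy0

/-- Uniform decay of the kernels. -/
theorem ker_wf_bound (N k : ℕ) : ∀ (χ : ℝ → ℂ), ContDiff ℝ ∞ χ → HasCompactSupport χ →
    ∀ (c : ℝ) (j : ℕ), ∃ C : ℝ, 0 < C ∧ ∀ l : ℝ, 0 ≤ l → ∀ t : ℝ,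
      |t| ^ k * ‖ker (wf χ c j l) t‖ ≤ C * ((1 + l) ^ N)⁻¹ := by
  induction k with
  | zero =>
    intro χ h1 h2 c j
    obtain ⟨R, hR0, hR⟩ : ∃ R : ℝ, 0 ≤ R ∧ ∀ u, χ u ≠ 0 → |u| ≤ R := by
      obtain ⟨R, hR⟩ := h2.isCompact.isBounded.subset_closedBall 0
      refine ⟨max R 0, le_max_right _ _, fun u hu => ?_⟩
      have := hR (subset_tsupport _ (Function.mem_support.mpr hu))
      rw [Metric.mem_closedBall, dist_zero_right, Real.norm_eq_abs] at this
      exact this.trans (le_max_left _ _)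
    obtain ⟨C, hC, hC'⟩ := exists_sup N j c R
    have hχi : Integrable χ := h1.continuous.integrable_of_hasCompactSupport h2
    refine ⟨(1 / (2 * π)) * ((∫ u, ‖χ u‖) * C) + 1, ?_, fun l hl t => ?_⟩
    · have : 0 ≤ ∫ u, ‖χ u‖ := integral_nonneg fun _ => norm_nonneg _
      positivity
    rw [pow_zero, one_mul]
    have h4 : ∫ u, ‖wf χ c j l u‖ ≤ (∫ u, ‖χ u‖) * (C * ((1 + l) ^ N)⁻¹) := by
      rw [← integral_mul_const]
      apply integral_mono
      · exact ((contDiff_wf h1 c j l).continuous.integrable_of_hasCompactSupport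
          (hasCompactSupport_wf h2 c j l)).norm
      · exact hχi.norm.mul_const _
      · intro u
        beta_reduce
        unfold wf
        rw [norm_mul]
        by_cases hu : χ u = 0
        · rw [hu, norm_zero, zero_mul, zero_mul]
        · refine mul_le_mul_of_nonneg_left ?_ (norm_nonneg _)
          rw [Complex.norm_real, Real.norm_of_nonneg (by positivity)]
          exact hC' l hl u (hR u hu)
    calc ‖ker (wf χ c j l) t‖ ≤ (1 / (2 * π)) * ∫ u, ‖wf χ c j l u‖ := norm_ker_le _ _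
      _ ≤ (1 / (2 * π)) * ((∫ u, ‖χ u‖) * (C * ((1 + l) ^ N)⁻¹)) := by gcongr
      _ = ((1 / (2 * π)) * ((∫ u, ‖χ u‖) * C)) * ((1 + l) ^ N)⁻¹ := by ring
      _ ≤ _ := by
        gcongr
        linarith
  | succ k ih =>
    intro χ h1 h2 c j
    have hd : ContDiff ℝ ∞ (deriv χ) := contDiff_deriv' h1
    have h3 : ContDiff ℝ ∞ (fun u => deriv χ u + ((j + c : ℝ) : ℂ) * χ u) :=
      hd.add (contDiff_const.mul h1)
    have h4 : HasCompactSupport (fun u => deriv χ u + ((j + c : ℝ) : ℂ) * χ u) :=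
      h2.deriv.add (h2.mul_left (f := fun _ => ((j + c : ℝ) : ℂ)))
    obtain ⟨C1, hC1, hC1'⟩ := ih _ h3 h4 c j
    obtain ⟨C2, hC2, hC2'⟩ := ih _ h1 h2 c (j + 1)
    refine ⟨C1 + C2, by positivity, fun l hl t => ?_⟩
    have hw := contDiff_wf h1 c j l
    have hws := hasCompactSupport_wf h2 c j l
    have hk := ker_deriv (hw.continuous.integrable_of_hasCompactSupport hws)
      (hw.differentiable (by simp))
      ((contDiff_deriv' hw).continuous.integrable_of_hasCompactSupport hws.deriv) t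
    rw [deriv_wf h1, ker_sub] at hk
    · have e : |t| ^ (k + 1) * ‖ker (wf χ c j l) t‖ =
          |t| ^ k * ‖I * t * ker (wf χ c j l) t‖ := by
        rw [norm_mul, norm_mul, norm_I, Complex.norm_real, Real.norm_eq_abs]; ring
      rw [e, ← hk]
      calc |t| ^ k * ‖ker (wf (fun u => deriv χ u + ((j + c : ℝ) : ℂ) * χ u) c j l) t -
            ker (wf χ c (j + 1) l) t‖
          ≤ |t| ^ k * (‖ker (wf (fun u => deriv χ u + ((j + c : ℝ) : ℂ) * χ u) c j l) t‖ +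
            ‖ker (wf χ c (j + 1) l) t‖) := by
            gcongr
            exact norm_sub_le _ _
        _ = |t| ^ k * ‖ker (wf (fun u => deriv χ u + ((j + c : ℝ) : ℂ) * χ u) c j l) t‖ +
            |t| ^ k * ‖ker (wf χ c (j + 1) l) t‖ := by ring
        _ ≤ C1 * ((1 + l) ^ N)⁻¹ + C2 * ((1 + l) ^ N)⁻¹ := add_le_add (hC1' l hl t) (hC2' l hl t)
        _ = _ := by ring
    · exact (contDiff_wf h3 c j l).continuous.integrable_of_hasCompactSupport
        (hasCompactSupport_wf h4 c j l)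
    · exact (contDiff_wf h1 c (j + 1) l).continuous.integrable_of_hasCompactSupport
        (hasCompactSupport_wf h2 c (j + 1) l)

/-- **Separation kernel.** -/
theorem sepKer (c : ℝ) (k N : ℕ) : ∃ C : ℝ, 0 < C ∧ ∀ l : ℝ, 0 ≤ l → ∃ κ : ℝ → ℂ,
    Continuous κ ∧ Integrable κ ∧
    (∀ t : ℝ, ‖κ t‖ ≤ C * ((1 + l) ^ N)⁻¹ * ((1 + |t|) ^ k)⁻¹) ∧
    ∀ u : ℝ, -2 ≤ u → u ≤ 0 →
      ∫ t, κ t * osc t u = ((Real.exp (c * u) * Real.exp (-(l * Real.exp u)) : ℝ) : ℂ) := by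
  have h1 : ContDiff ℝ ∞ (cutC (-3) 1 1) := contDiff_cutC
  have h2 : HasCompactSupport (cutC (-3) 1 1) := hasCompactSupport_cutC (by norm_num) (by norm_num)
  obtain ⟨C1, hC1, hC1'⟩ := ker_wf_bound N 0 _ h1 h2 c 0
  obtain ⟨C2, hC2, hC2'⟩ := ker_wf_bound N k _ h1 h2 c 0
  refine ⟨2 ^ k * (C1 + C2), by positivity, fun l hl => ⟨ker (wf (cutC (-3) 1 1) c 0 l), ?_, ?_,
    fun t => ?_, fun u hu1 hu2 => ?_⟩⟩
  · exact continuous_ker ((contDiff_wf h1 c 0 l).continuous.integrable_of_hasCompactSupport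
      (hasCompactSupport_wf h2 c 0 l))
  · exact ker_integrable (contDiff_wf h1 c 0 l) (hasCompactSupport_wf h2 c 0 l)
  · rw [le_mul_inv_iff₀ (by positivity)]
    have h3 := hC1' l hl t
    have h4 := hC2' l hl t
    rw [pow_zero, one_mul] at h3
    have h5 : (1 + |t|) ^ k ≤ 2 ^ k * (1 + |t| ^ k) := by
      calc (1 + |t|) ^ k ≤ (2 * max 1 |t|) ^ k := by
            gcongr
            have := le_max_left 1 |t|
            have := le_max_right 1 |t|
            linarith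
        _ = 2 ^ k * (max 1 |t|) ^ k := mul_pow _ _ _
        _ ≤ 2 ^ k * (1 + |t| ^ k) := by
          gcongr
          rcases max_cases 1 |t| with ⟨h, _⟩ | ⟨h, _⟩
          · rw [h, one_pow]; linarith [pow_nonneg (abs_nonneg t) k]
          · rw [h]; linarith [pow_nonneg (abs_nonneg t) k]
    calc ‖ker (wf (cutC (-3) 1 1) c 0 l) t‖ * (1 + |t|) ^ k
        ≤ ‖ker (wf (cutC (-3) 1 1) c 0 l) t‖ * (2 ^ k * (1 + |t| ^ k)) := by gcongr
      _ = 2 ^ k * (‖ker (wf (cutC (-3) 1 1) c 0 l) t‖ +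
          |t| ^ k * ‖ker (wf (cutC (-3) 1 1) c 0 l) t‖) := by ring
      _ ≤ 2 ^ k * (C1 * ((1 + l) ^ N)⁻¹ + C2 * ((1 + l) ^ N)⁻¹) := by gcongr
      _ = _ := by ring
  · rw [inversion_smooth (contDiff_wf h1 c 0 l) (hasCompactSupport_wf h2 c 0 l)]
    unfold wf cutC
    rw [cutL_eq_one (by norm_num) (by linarith) (by linarith), pow_zero, one_mul,
      sub_eq_add_neg, Real.exp_add]
    push_cast
    ring

lemma integrable_wt {k : ℕ} (hk : 2 ≤ k) : Integrable (fun t : ℝ => ((1 + |t|) ^ k)⁻¹) := by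
  have h := integrable_inv_one_add_sq
  refine h.mono' ?_ (Eventually.of_forall fun t => ?_)
  · refine Continuous.aestronglyMeasurable ?_
    refine Continuous.inv₀ (by fun_prop) (fun t => by positivity)
  · rw [Real.norm_of_nonneg (by positivity)]
    apply inv_anti₀ (by positivity)
    have h1 : (1 : ℝ) ≤ 1 + |t| := by linarith [abs_nonneg t]
    calc 1 + t ^ 2 ≤ (1 + |t|) ^ 2 := by
          rw [← sq_abs t]; nlinarith [abs_nonneg t]
      _ ≤ (1 + |t|) ^ k := pow_le_pow_right₀ h1 hk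

/-- the weighted quadratic form -/
lemma integrable_wt_mul {ι : Type*} (s : Finset ι) (γ : ι → ℂ) (x : ι → ℝ) {k : ℕ} (hk : 2 ≤ k) :
    Integrable (fun t : ℝ => ((1 + |t|) ^ k)⁻¹ * ‖∑ i ∈ s, γ i * osc t (x i)‖ ^ 2) := by
  have hD : Continuous fun t => ∑ i ∈ s, γ i * osc t (x i) := continuous_sum_osc s γ x
  refine (integrable_wt hk).mul_bdd (c := (∑ i ∈ s, ‖γ i‖) ^ 2)
    (hD.norm.pow 2).aestronglyMeasurable (Eventually.of_forall fun t => ?_)
  rw [Real.norm_of_nonneg (by positivity)]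
  gcongr
  exact norm_sum_osc_le s γ x t

/-- **Bilinear separation**, no loss, arbitrary decay. -/
theorem norm_bilin_le (c : ℝ) {k : ℕ} (hk : 2 ≤ k) (N : ℕ) : ∃ C : ℝ, 0 < C ∧
    ∀ l : ℝ, 0 ≤ l → ∀ (ι : Type) (s : Finset ι) (γ : ι → ℂ) (x : ι → ℝ),
      (∀ i ∈ s, -1 ≤ x i ∧ x i ≤ 0) →
      ‖∑ i ∈ s, ∑ j ∈ s, γ i * (starRingEnd ℂ) (γ j) *
        ((Real.exp (c * (x i + x j)) * Real.exp (-(l * Real.exp (x i + x j))) : ℝ) : ℂ)‖ ≤
      C * ((1 + l) ^ N)⁻¹ * ∫ t : ℝ, ((1 + |t|) ^ k)⁻¹ * ‖∑ i ∈ s, γ i * osc t (x i)‖ ^ 2 := by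
  obtain ⟨C, hC, h⟩ := sepKer c k N
  refine ⟨C, hC, fun l hl ι s γ x hx => ?_⟩
  obtain ⟨κ, hκc, hκi, hκ, hκ'⟩ := h l hl
  set Q : ℝ → ℂ := fun t => ∑ i ∈ s, γ i * osc t (x i) with hQ
  have hQc : Continuous Q := continuous_sum_osc s γ x
  have e1 : ∑ i ∈ s, ∑ j ∈ s, γ i * (starRingEnd ℂ) (γ j) *
        ((Real.exp (c * (x i + x j)) * Real.exp (-(l * Real.exp (x i + x j))) : ℝ) : ℂ) =
      ∫ t, κ t * (Q t * (starRingEnd ℂ) (Q (-t))) := by
    have e2 := sum_eq_integral (s ×ˢ s) (fun p => γ p.1 * (starRingEnd ℂ) (γ p.2))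
      (fun p => x p.1 + x p.2) hκi (w := fun p => ((Real.exp (c * (x p.1 + x p.2)) *
        Real.exp (-(l * Real.exp (x p.1 + x p.2))) : ℝ) : ℂ)) (by
        intro p hp
        rw [Finset.mem_product] at hp
        have h1 := hx _ hp.1
        have h2 := hx _ hp.2
        exact hκ' _ (by linarith [h1.1, h2.1]) (by linarith [h1.2, h2.2]))
    rw [Finset.sum_product] at e2
    rw [e2]
    congr 1
    funext t
    congr 1
    rw [Finset.sum_product, hQ]
    beta_reduce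
    rw [map_sum, Finset.sum_mul_sum]
    refine Finset.sum_congr rfl fun i _ => Finset.sum_congr rfl fun j _ => ?_
    rw [map_mul, osc_neg_left, Complex.conj_conj, osc_add_right]
    ring
  rw [e1]
  have hI := integrable_wt_mul s γ x hk
  have hI' : Integrable (fun t : ℝ => ((1 + |t|) ^ k)⁻¹ * ‖Q (-t)‖ ^ 2) := by
    have := hI.comp_neg
    simpa using this
  have hneg : ∫ t : ℝ, ((1 + |t|) ^ k)⁻¹ * ‖Q (-t)‖ ^ 2 =
      ∫ t : ℝ, ((1 + |t|) ^ k)⁻¹ * ‖Q t‖ ^ 2 := by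
    have := integral_neg_eq_self (fun t : ℝ => ((1 + |t|) ^ k)⁻¹ * ‖Q t‖ ^ 2) volume
    rw [← this]
    simp only [abs_neg]
  calc ‖∫ t, κ t * (Q t * (starRingEnd ℂ) (Q (-t)))‖
      ≤ ∫ t : ℝ, C * ((1 + l) ^ N)⁻¹ * ((((1 + |t|) ^ k)⁻¹ * ‖Q t‖ ^ 2 +
          ((1 + |t|) ^ k)⁻¹ * ‖Q (-t)‖ ^ 2) / 2) := by
        refine norm_integral_le_of_norm_le (((hI.add hI').div_const 2).const_mul _) ?_
        refine Eventually.of_forall fun t => ?_
        rw [norm_mul, norm_mul, RCLike.norm_conj]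
        have h1 : ‖Q t‖ * ‖Q (-t)‖ ≤ (‖Q t‖ ^ 2 + ‖Q (-t)‖ ^ 2) / 2 := by
          nlinarith [sq_nonneg (‖Q t‖ - ‖Q (-t)‖)]
        calc ‖κ t‖ * (‖Q t‖ * ‖Q (-t)‖)
            ≤ (C * ((1 + l) ^ N)⁻¹ * ((1 + |t|) ^ k)⁻¹) * ((‖Q t‖ ^ 2 + ‖Q (-t)‖ ^ 2) / 2) := by
              gcongr
              exact hκ t
          _ = _ := by ring
    _ = C * ((1 + l) ^ N)⁻¹ * (((∫ t : ℝ, ((1 + |t|) ^ k)⁻¹ * ‖Q t‖ ^ 2) +
          ∫ t : ℝ, ((1 + |t|) ^ k)⁻¹ * ‖Q (-t)‖ ^ 2) / 2) := by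
        rw [integral_const_mul, integral_div, integral_add hI hI']
    _ = _ := by
        rw [hneg]; ring

end Crest.Agent.R012.KerSep671
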