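import Crest.Agent.R012.LS2Pair_381
import Crest.Agent.R012.Mob_705

/-!
# Row 12 (L2): the exact dual identity, element form

`dual_identity_elt` : for `w : Eis → ℂ`, `X, Z > 0`,
`∑' n, exp(-nm n/Z) ‖∑ h ∈ S X, w h sy n h‖² = ∑ d ∈ S X, ∑ e ∈ pdiv d, ∑ f ∈ S X,
  mu e mu f (2πZ/(√3 nm e)) ∑' l, qf ...`.
-/

set_option autoImplicit false

noncomputable section

namespace Crest.Agent.R012.LS2

open Eis CharSum852 Gauss880 Tau671 Mob705
open Poisson381 (gau norm_gau summable_gau_one summable_gau poisson_gau_periodic s3 s3_eq_toC)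

open Classical in
/-- primary primes of norm at most `X` -/
def PX (X : ℝ) : Finset Eis := (primBall ⌊X⌋₊).filter Prime

lemma mem_PX {X : ℝ} (hX : 0 ≤ X) {p : Eis} : p ∈ PX X ↔ (nm p : ℝ) ≤ X ∧ IsPrim p ∧ Prime p := by
  classical
  unfold PX
  rw [Finset.mem_filter, mem_primBall, Nat.le_floor_iff hX]
  tauto

lemma isPS_PX {X : ℝ} (hX : 0 ≤ X) : IsPS (PX X) := fun _ hp => ((mem_PX hX).1 hp).2

lemma isPS_pp (h : Eis) : IsPS (pp h) := fun _ hp => isPP_of_mem_pp hp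

lemma pp_subset_PX {X : ℝ} (hX : 0 ≤ X) {h : Eis} (hh : h ∈ S X) : pp h ⊆ PX X := by
  intro p hp
  rw [mem_S hX] at hh
  rw [mem_PX hX]
  refine ⟨le_trans ?_ hh.1, isPP_of_mem_pp hp⟩
  exact_mod_cast Div277.nm_le_of_dvd hh.2.1.ne_zero (dvd_of_mem_pp hp)

lemma pr_pp {X : ℝ} (hX : 0 ≤ X) {h : Eis} (hh : h ∈ S X) : pr (pp h) = h := by
  rw [mem_S hX] at hh
  exact prod_pp hh.2.1 hh.2.2

lemma pr_pp' {h : Eis} (h1 : IsPrim h) (h2 : Squarefree h) : pr (pp h) = h := prod_pp h1 h2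

lemma pp_pr {P : Finset Eis} (hP : IsPS P) : pp (pr P) = P := PPSet.pp_prod (S := P) hP

lemma pr_mem_S {X : ℝ} (hX : 0 ≤ X) {P : Finset Eis} (hP : IsPS P) :
    pr P ∈ S X ↔ (nm (pr P) : ℝ) ≤ X := by
  rw [mem_S hX]
  exact ⟨fun h => h.1, fun h => ⟨h, hP.prim, hP.squarefree⟩⟩

/-- sums over prime sets as sums over squarefree primary elements -/
lemma sum_powerset_S {X : ℝ} (hX : 0 ≤ X) (g : Finset Eis → ℂ)
    (hg : ∀ P ⊆ PX X, X < (nm (pr P) : ℝ) → g P = 0) :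
    ∑ P ∈ (PX X).powerset, g P = ∑ h ∈ S X, g (pp h) := by
  classical
  have h1 : ∑ P ∈ (PX X).powerset, g P =
      ∑ P ∈ (PX X).powerset.filter (fun P => pr P ∈ S X), g P := by
    symm
    apply Finset.sum_filter_of_ne
    intro P hP hne
    rw [Finset.mem_powerset] at hP
    rw [pr_mem_S hX ((isPS_PX hX).mono hP)]
    by_contra hc
    exact hne (hg P hP (not_le.1 hc))
  rw [h1]
  refine Finset.sum_nbij' (fun P => pr P) (fun h => pp h) ?_ ?_ ?_ ?_ ?_
  · intro P hP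
    exact (Finset.mem_filter.1 hP).2
  · intro h hh
    rw [Finset.mem_filter, Finset.mem_powerset]
    exact ⟨pp_subset_PX hX hh, by rw [pr_pp hX hh]; exact hh⟩
  · intro P hP
    rw [Finset.mem_filter, Finset.mem_powerset] at hP
    exact pp_pr ((isPS_PX hX).mono hP.1)
  · intro h hh
    exact pr_pp hX hh
  · intro P hP
    rw [Finset.mem_filter, Finset.mem_powerset] at hP
    rw [pp_pr ((isPS_PX hX).mono hP.1)]

open Classical in
/-- `w` restricted to `S X` -/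
def ws (w : Eis → ℂ) (X : ℝ) (h : Eis) : ℂ := if h ∈ S X then w h else 0

/-- element form of the dual coefficient -/
def Ue (e l k : Eis) : ℂ :=
  sy (e * sq3) k * (starRingEnd ℂ) (sy l k) * G k * (nm k : ℂ) ^ (-(1 / 2) : ℂ)

lemma Ue_eq (H : SyG) {k : Eis} (hk : IsPrim k) (e l : Eis) : Ue e l k = U e l k := by
  unfold Ue U
  have hn : 0 < (nm k : ℝ) := by exact_mod_cast nm_pos.2 hk.ne_zero
  rw [H.mul_left _ _ _ hk, gs_one_eq hk]
  have h1 : ((nm k : ℕ) : ℂ) ^ (-(1 / 2) : ℂ) = ((Real.sqrt (nm k) : ℝ) : ℂ) / (nm k : ℂ) := by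
    have e1 : ((nm k : ℕ) : ℂ) = (((nm k : ℕ) : ℝ) : ℂ) := by push_cast; rfl
    rw [e1]
    have e2 : (-(1 / 2) : ℂ) = ((-(1 / 2) : ℝ) : ℂ) := by push_cast; rfl
    rw [e2, ← Complex.ofReal_cpow hn.le, ← Complex.ofReal_div]
    congr 1
    rw [Real.rpow_neg hn.le, ← Real.sqrt_eq_rpow]
    have h3 : Real.sqrt (nm k) * Real.sqrt (nm k) = nm k := Real.mul_self_sqrt hn.le
    have h4 : 0 < Real.sqrt (nm k) := Real.sqrt_pos.2 hn
    rw [inv_eq_one_div, div_eq_div_iff h4.ne' hn.ne', one_mul, h3]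
  rw [h1]
  ring

open Classical in
/-- the dual quadratic form -/
def qf (w : Eis → ℂ) (X Z : ℝ) (d e f l : Eis) : ℂ :=
  ∑ k1 ∈ S X, ∑ k2 ∈ S X, ws w X (d * f * k1) * (starRingEnd ℂ) (ws w X (d * f * k2)) *
    (Ue e l (f * k1) * (starRingEnd ℂ) (Ue e l (f * k2))) *
    ((Real.exp (-(4 * Real.pi ^ 2 * Z * nm l) / (3 * nm e * nm (f * k1) * nm (f * k2))) : ℝ) : ℂ)

lemma sum_AA {X : ℝ} (hX : 0 ≤ X) {d f : Eis} (hd : d ∈ S X) (hf : f ∈ S X)
    (hdf : Disjoint (pp d) (pp f)) (g : Finset Eis → ℂ)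
    (hg : ∀ P ⊆ PX X, X < (nm (pr P) : ℝ) → g P = 0) [DecidablePred fun k => d * f * k ∈ S X] :
    ∑ P ∈ AA (PX X) (pp d) (pp f), g P =
      ∑ k ∈ S X, if d * f * k ∈ S X then g (pp (d * f * k)) else 0 := by
  classical
  unfold AA
  rw [Finset.sum_filter, sum_powerset_S hX]
  swap
  · intro P hP h
    split_ifs
    · exact hg P hP h
    · rfl
  rw [← Finset.sum_filter, ← Finset.sum_filter]
  symm
  have hd' := (mem_S hX).1 hd
  have hf' := (mem_S hX).1 hf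
  have hdf0 : d * f ≠ 0 := mul_ne_zero hd'.2.1.ne_zero hf'.2.1.ne_zero
  refine Finset.sum_bij (fun k _ => d * f * k) ?_ ?_ ?_ ?_
  · intro k hk
    rw [Finset.mem_filter] at hk ⊢
    refine ⟨hk.2, ?_⟩
    have h0 := ((mem_S hX).1 hk.2).2.1.ne_zero
    apply Finset.union_subset
    · exact pp_mono h0 ⟨f * k, by ring⟩
    · exact pp_mono h0 ⟨d * k, by ring⟩
  · intro a _ b _ hab
    exact mul_left_cancel₀ hdf0 hab
  · intro h hh
    rw [Finset.mem_filter] at hh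
    have hh' := (mem_S hX).1 hh.1
    have hdvd : d * f ∣ h := by
      have e1 : d * f = pr (pp d ∪ pp f) := by
        rw [pr_union hdf, pr_pp hX hd, pr_pp hX hf]
      have e2 : pr (pp h) = h := pr_pp hX hh.1
      rw [e1, ← e2]
      exact Finset.prod_dvd_prod_of_subset _ _ _ hh.2
    obtain ⟨k, hk⟩ := hdvd
    refine ⟨k, ?_, hk.symm⟩
    rw [Finset.mem_filter, ← hk]
    refine ⟨?_, hh.1⟩
    rw [mem_S hX]
    have hkp : IsPrim k := IsPrim.of_mul_left (hk ▸ hh'.2.1) (hd'.2.1.mul hf'.2.1)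
    refine ⟨le_trans ?_ hh'.1, hkp, hh'.2.2.squarefree_of_dvd ⟨d * f, by rw [hk]; ring⟩⟩
    exact_mod_cast Div277.nm_le_of_dvd hh'.2.1.ne_zero ⟨d * f, by rw [hk]; ring⟩
  · intro k _
    rfl

lemma pr_sdiff_pp {X : ℝ} (hX : 0 ≤ X) {d m : Eis} (h : d * m ∈ S X) (hd : IsPrim d)
    (hm : IsPrim m) : pr (pp (d * m) \ pp d) = m := by
  have hh := (mem_S hX).1 h
  have hs := squarefree_mul_iff.1 hh.2.2
  have hcop : IsCoprime d m := by
    rw [isCoprime_iff_pp hd]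
    intro p hp h1 h2
    exact hp.2.not_isUnit (hs.1 h1 h2)
  have e1 : pp (d * m) \ pp d = pp m := by
    rw [pp_mul hd.ne_zero hm.ne_zero, Finset.union_sdiff_left, Finset.sdiff_eq_self_of_disjoint]
    exact (pp_disjoint hcop).symm
  rw [e1]
  exact pr_pp' hm hs.2.2

lemma ws_of_not_mem {w : Eis → ℂ} {X : ℝ} {h : Eis} (hh : h ∉ S X) : ws w X h = 0 := if_neg hh

lemma gau_eq_exp (t : ℝ) (m : Eis) : gau t (toC m) = ((Real.exp (-(Real.pi * t * nm m)) : ℝ) : ℂ) := by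
  unfold Poisson381.gau
  rw [norm_toC_sq]

/-- translation of the quadratic form -/
lemma QQ_eq_qf (H : SyG) {X Z : ℝ} (hX : 0 ≤ X) (hZ : 0 < Z) (w : Eis → ℂ) {d f : Eis}
    (hd : d ∈ S X) (hf : f ∈ S X) (hdf : Disjoint (pp d) (pp f)) {E : Finset Eis} (hE : IsPS E)
    (l : Eis) :
    QQ (1 / (Real.pi * Z)) (PX X) (fun P => ws w X (pr P)) (pp d) (pp f) E l =
      qf w X Z d (pr E) f l := by
  classical
  have hd' := (mem_S hX).1 hd
  have hf' := (mem_S hX).1 hf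
  have hc0 : ∀ P ⊆ PX X, X < (nm (pr P) : ℝ) → ws w X (pr P) = 0 := by
    intro P hP h
    apply ws_of_not_mem
    rw [pr_mem_S hX ((isPS_PX hX).mono hP)]
    exact not_le.2 h
  unfold QQ qf
  rw [sum_AA hX hd hf hdf]
  swap
  · intro P hP h
    apply Finset.sum_eq_zero
    intro P2 _
    unfold VV
    beta_reduce
    rw [hc0 P hP h]; ring
  refine Finset.sum_congr rfl fun k1 hk1 => ?_
  have hk1' := (mem_S hX).1 hk1
  by_cases h1 : d * f * k1 ∈ S X
  swap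
  · rw [if_neg h1, ws_of_not_mem h1]
    simp
  rw [if_pos h1, sum_AA hX hd hf hdf]
  swap
  · intro P hP h
    unfold VV
    beta_reduce
    rw [hc0 P hP h]; simp
  refine Finset.sum_congr rfl fun k2 hk2 => ?_
  have hk2' := (mem_S hX).1 hk2
  by_cases h2 : d * f * k2 ∈ S X
  swap
  · rw [if_neg h2, ws_of_not_mem h2]
    simp
  rw [if_pos h2]
  have q1 : pr (pp (d * f * k1) \ pp d) = f * k1 := by
    rw [mul_assoc]; rw [mul_assoc] at h1
    exact pr_sdiff_pp hX h1 hd'.2.1 (hf'.2.1.mul hk1'.2.1)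
  have q2 : pr (pp (d * f * k2) \ pp d) = f * k2 := by
    rw [mul_assoc]; rw [mul_assoc] at h2
    exact pr_sdiff_pp hX h2 hd'.2.1 (hf'.2.1.mul hk2'.2.1)
  unfold VV
  beta_reduce
  rw [q1, q2, pr_pp hX h1, pr_pp hX h2, Ue_eq H (hf'.2.1.mul hk1'.2.1),
    Ue_eq H (hf'.2.1.mul hk2'.2.1), gau_eq_exp]
  have n1 : 0 < (nm (f * k1) : ℝ) := by exact_mod_cast nm_pos.2 (hf'.2.1.mul hk1'.2.1).ne_zero
  have n2 : 0 < (nm (f * k2) : ℝ) := by exact_mod_cast nm_pos.2 (hf'.2.1.mul hk2'.2.1).ne_zero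
  have n3 : 0 < (nm (pr E) : ℝ) := by exact_mod_cast nm_pos.2 hE.ne_zero
  have e1 : -(Real.pi * (4 / (3 * (1 / (Real.pi * Z) * nm (pr E) *
      (nm (f * k1) * nm (f * k2))))) * nm l) =
      -(4 * Real.pi ^ 2 * Z * nm l) / (3 * nm (pr E) * nm (f * k1) * nm (f * k2)) := by
    have hpi := Real.pi_pos
    field_simp
  rw [e1, map_mul]
  ring

lemma qf_eq_zero {X Z : ℝ} (w : Eis → ℂ) {d e f l : Eis}
    (h : ∀ k, d * f * k ∉ S X) : qf w X Z d e f l = 0 := by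
  unfold qf
  apply Finset.sum_eq_zero
  intro k1 _
  apply Finset.sum_eq_zero
  intro k2 _
  rw [ws_of_not_mem (h k1)]
  ring

lemma mu_eq_of_mem_S {X : ℝ} (hX : 0 ≤ X) {f : Eis} (hf : f ∈ S X) :
    ((mu f : ℤ) : ℂ) = (-1) ^ (pp f).card := by
  rw [show mu f = _ from muE_eq ((mem_S hX).1 hf).2.1 ((mem_S hX).1 hf).2.2]
  push_cast
  rfl

/-- **the exact dual identity, element form** -/
theorem dual_identity_elt (H : SyFacts) (H' : SyG) {X Z : ℝ} (hX : 0 ≤ X) (hZ : 0 < Z)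
    (w : Eis → ℂ) :
    ∑' n : Eis, ((Real.exp (-(nm n : ℝ) / Z) : ℝ) : ℂ) *
        ((‖∑ h ∈ S X, w h * sy n h‖ ^ 2 : ℝ) : ℂ) =
      ∑ d ∈ S X, ∑ e ∈ pdiv d, ∑ f ∈ S X, (mu e : ℂ) * (mu f : ℂ) *
        ((2 * Real.pi * Z / (Real.sqrt 3 * nm e) : ℝ) : ℂ) * ∑' l : Eis, qf w X Z d e f l := by
  classical
  set c : Finset Eis → ℂ := fun P => ws w X (pr P) with hc
  set t : ℝ := 1 / (Real.pi * Z) with ht
  have htpos : 0 < t := by rw [ht]; positivity
  have hPS := isPS_PX hX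
  have hc0 : ∀ P ⊆ PX X, X < (nm (pr P) : ℝ) → c P = 0 := by
    intro P hP h
    apply ws_of_not_mem
    rw [pr_mem_S hX (hPS.mono hP)]
    exact not_le.2 h
  have key := dual_identity H H' htpos hPS c
  have hL : ∀ m : Eis, ((‖lin1 (PX X) c m‖ ^ 2 : ℝ) : ℂ) * gau t (toC m) =
      ((Real.exp (-(nm m : ℝ) / Z) : ℝ) : ℂ) * ((‖∑ h ∈ S X, w h * sy m h‖ ^ 2 : ℝ) : ℂ) := by
    intro m
    have e1 : lin1 (PX X) c m = ∑ h ∈ S X, w h * sy m h := by
      unfold lin1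
      rw [sum_powerset_S hX]
      · refine Finset.sum_congr rfl fun h hh => ?_
        rw [hc]
        simp only
        rw [pr_pp hX hh]
        unfold ws
        rw [if_pos hh]
      · intro P hP h
        rw [hc0 P hP h, zero_mul]
    rw [e1, gau_eq_exp, mul_comm]
    congr 3
    rw [ht]
    have hpi := Real.pi_pos
    field_simp
  simp_rw [hL] at key
  rw [key]
  -- vanishing of `QQ` when `pr D` or `pr F` is large
  have hQ0 : ∀ D F E : Finset Eis, ∀ l, (∀ P ∈ AA (PX X) D F, c P = 0) →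
      QQ t (PX X) c D F E l = 0 := by
    intro D F E l h
    unfold QQ
    apply Finset.sum_eq_zero
    intro P hP
    apply Finset.sum_eq_zero
    intro P2 _
    unfold VV
    rw [h P hP]; ring
  have hbig : ∀ D F : Finset Eis, ∀ Q : Finset Eis, Q ⊆ D ∪ F → X < (nm (pr Q) : ℝ) →
      ∀ P ∈ AA (PX X) D F, c P = 0 := by
    intro D F Q hQ hX' P hP
    rw [mem_AA] at hP
    apply hc0 P hP.1
    refine lt_of_lt_of_le hX' ?_
    have hd : pr Q ∣ pr P := Finset.prod_dvd_prod_of_subset _ _ _ (hQ.trans hP.2)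
    exact_mod_cast Div277.nm_le_of_dvd (hPS.mono hP.1).ne_zero hd
  rw [sum_powerset_S hX]
  swap
  · intro D hD hDX
    apply Finset.sum_eq_zero
    intro F _
    apply Finset.sum_eq_zero
    intro E _
    have : ∀ h, QQ t (PX X) c D F E h = 0 := fun h =>
      hQ0 D F E h (hbig D F D Finset.subset_union_left hDX)
    simp [this]
  refine Finset.sum_congr rfl fun d hd => ?_
  have hd' := (mem_S hX).1 hd
  rw [Finset.sum_comm (s := pdiv d) (t := S X)]
  -- the sum over `F`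
  have e2 : ∑ F ∈ (PX X \ pp d).powerset, ∑ E ∈ (pp d).powerset,
      (-1) ^ F.card * ((-1) ^ E.card * (((2 / Real.sqrt 3 * (t * nm (pr E))⁻¹ : ℝ) : ℂ) *
          ∑' h : Eis, QQ t (PX X) c (pp d) F E h)) =
      ∑ F ∈ (PX X).powerset, if Disjoint F (pp d) then ∑ E ∈ (pp d).powerset,
      (-1) ^ F.card * ((-1) ^ E.card * (((2 / Real.sqrt 3 * (t * nm (pr E))⁻¹ : ℝ) : ℂ) *
          ∑' h : Eis, QQ t (PX X) c (pp d) F E h)) else 0 := by
    rw [← Finset.sum_filter]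
    apply Finset.sum_congr _ fun _ _ => rfl
    ext F
    rw [Finset.mem_filter, Finset.mem_powerset, Finset.mem_powerset, Finset.subset_sdiff]
  rw [e2, sum_powerset_S hX]
  swap
  · intro F hF hFX
    split_ifs
    · apply Finset.sum_eq_zero
      intro E _
      have : ∀ h, QQ t (PX X) c (pp d) F E h = 0 := fun h =>
        hQ0 (pp d) F E h (hbig (pp d) F F Finset.subset_union_right hFX)
      simp [this]
    · rfl
  refine Finset.sum_congr rfl fun f hf => ?_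
  have hf' := (mem_S hX).1 hf
  by_cases hdf : Disjoint (pp f) (pp d)
  · rw [if_pos hdf]
    have e3 : ∀ e : Eis, (mu e : ℂ) * (mu f : ℂ) *
        ((2 * Real.pi * Z / (Real.sqrt 3 * nm e) : ℝ) : ℂ) * ∑' l : Eis, qf w X Z d e f l =
        (mu e : ℂ) * ((mu f : ℂ) *
        (((2 * Real.pi * Z / (Real.sqrt 3 * nm e) : ℝ) : ℂ) * ∑' l : Eis, qf w X Z d e f l)) := by
      intro e; ring
    rw [Finset.sum_congr rfl fun e _ => e3 e]
    rw [sum_pdiv_mu hd'.2.1.ne_zero]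
    refine Finset.sum_congr rfl fun E hE => ?_
    have hES : IsPS E := (isPS_pp d).mono (Finset.mem_powerset.1 hE)
    rw [mu_eq_of_mem_S hX hf]
    have e4 : ∀ l, QQ t (PX X) c (pp d) (pp f) E l = qf w X Z d (pr E) f l := fun l =>
      QQ_eq_qf H' hX hZ w hd hf hdf.symm hES l
    simp_rw [e4]
    have n3 : 0 < (nm (pr E) : ℝ) := by exact_mod_cast nm_pos.2 hES.ne_zero
    have e5 : (2 / Real.sqrt 3 * (t * nm (pr E))⁻¹ : ℝ) =
        2 * Real.pi * Z / (Real.sqrt 3 * nm (pr E)) := by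
      rw [ht]
      have hpi := Real.pi_pos
      have h3 : 0 < Real.sqrt 3 := Real.sqrt_pos.2 (by norm_num)
      field_simp
    rw [e5]
    unfold pr
    ring
  · rw [if_neg hdf]
    symm
    apply Finset.sum_eq_zero
    intro e _
    have hno : ∀ k, d * f * k ∉ S X := by
      intro k hk
      rw [mem_S hX] at hk
      apply hdf
      rw [Finset.disjoint_left]
      intro p hp1 hp2
      have hp := isPP_of_mem_pp hp1
      have hsq : p * p ∣ d * f * k :=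
        (mul_dvd_mul (dvd_of_mem_pp hp2) (dvd_of_mem_pp hp1)).trans (dvd_mul_right _ _)
      exact hp.2.not_isUnit (hk.2.2 p hsq)
    have : ∀ l, qf w X Z d e f l = 0 := fun l => qf_eq_zero w hno
    simp [this]

end Crest.Agent.R012.LS2
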