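import Crest.Agent.R012.LS2final_448
import Crest.Agent.R012.CR2Spec_180
import Crest.Agent.R012.PoissonG_381
import Crest.Agent.R012.GaussInst_880

/-!
# Row 12 (L2): the dual inequality implies the Poisson step

`step2_of_dualIneq : CR2.DualIneq → LS2.Step2`, hence `final_of_dualIneq : CR2.DualIneq → LS2.Final`.
-/

set_option autoImplicit false

noncomputable section

open Finset

namespace Crest.Agent.R012.LS448

open Crest.Agent.R012 Crest.Agent.R012.Eis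

/-! ### Preliminaries -/

lemma summable_exp_nm {Z : ℝ} (hZ : 0 < Z) :
    Summable fun n : Eis => Real.exp (-(nm n : ℝ) / Z) := by
  have h := (Poisson381.summable_gau_one (t := 1 / (Real.pi * Z)) (by positivity)).norm
  refine h.congr fun n => ?_
  rw [Poisson381.norm_gau]
  congr 1
  rw [norm_toC_sq]
  have := Real.pi_pos
  field_simp

open Classical in
/-- Sums over multiples. -/
lemma sum_mul_le {W : Eis → ℝ} (hW : ∀ n, 0 ≤ W n) {N : ℝ} (hsupp : ∀ n, W n ≠ 0 → n ∈ SF N)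
    {g : Eis} (hg : g ≠ 0) :
    ∑ k ∈ SF N, W (g * k) ≤ ∑ n ∈ SF N, if g ∣ n then W n else 0 := by
  have hinj : Set.InjOn (fun k => g * k) (SF N : Set Eis) := fun a _ b _ h =>
    mul_left_cancel₀ hg h
  have hnn : ∀ m, 0 ≤ (if g ∣ m then W m else 0) := fun m => by
    split_ifs
    · exact hW m
    · exact le_rfl
  calc ∑ k ∈ SF N, W (g * k) = ∑ m ∈ (SF N).image (fun k => g * k), W m := by
        rw [sum_image hinj]
    _ = ∑ m ∈ (SF N).image (fun k => g * k), (if g ∣ m then W m else 0) := by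
        refine sum_congr rfl fun m hm => ?_
        rw [mem_image] at hm
        obtain ⟨k, _, rfl⟩ := hm
        rw [if_pos (dvd_mul_right g k)]
    _ = ∑ m ∈ ((SF N).image (fun k => g * k)).filter (fun m => W m ≠ 0),
          (if g ∣ m then W m else 0) := by
        rw [sum_filter_of_ne]
        intro m _ hm h0
        rw [h0] at hm
        simp at hm
    _ ≤ ∑ n ∈ SF N, if g ∣ n then W n else 0 := by
        refine sum_le_sum_of_subset_of_nonneg ?_ fun m _ _ => hnn m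
        intro m hm
        rw [mem_filter] at hm
        exact hsupp m hm.2

open Classical in
/-- The divisor-weighted sum over `(d, e, f, k)`. -/
lemma sum_defk_le {W : Eis → ℝ} (hW : ∀ n, 0 ≤ W n) {N : ℝ}
    (hsupp : ∀ n, W n ≠ 0 → n ∈ SF N) {T : ℝ} (hT : 0 ≤ T)
    (htau : ∀ n ∈ SF N, (Div277.tau n : ℝ) ≤ T) :
    ∑ d ∈ SF N, ∑ _e ∈ (SF N).filter (· ∣ d), ∑ f ∈ SF N, ∑ k ∈ SF N,
      W (d * f * k) ≤ T ^ 3 * ∑ n ∈ SF N, W n := by
  have hcard : ∀ n ∈ SF N, (#((SF N).filter (· ∣ n)) : ℝ) ≤ T := by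
    intro n hn
    refine le_trans ?_ (htau n hn)
    unfold Div277.tau
    have hn' := hn
    rw [mem_SF] at hn'
    exact_mod_cast card_le_card fun d hd => by
      rw [mem_filter, mem_SF] at hd
      rw [Div277.mem_dvs hn'.2.1.ne_zero]
      exact ⟨hd.1.2.1, hd.2⟩
  have hnn : ∀ d f n, 0 ≤ (if d ∣ n then (if f ∣ n then W n else 0) else 0) := fun d f n => by
    split_ifs
    · exact hW n
    · exact le_rfl
    · exact le_rfl
  have h1 : ∀ d ∈ SF N, ∀ f ∈ SF N, ∑ k ∈ SF N, W (d * f * k) ≤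
      ∑ n ∈ SF N, if d ∣ n then (if f ∣ n then W n else 0) else 0 := by
    intro d hd f hf
    rw [mem_SF] at hd hf
    refine (sum_mul_le hW hsupp (mul_ne_zero hd.2.1.ne_zero hf.2.1.ne_zero)).trans ?_
    refine sum_le_sum fun n _ => ?_
    by_cases h : d * f ∣ n
    · rw [if_pos h, if_pos ((dvd_mul_right d f).trans h), if_pos ((dvd_mul_left f d).trans h)]
    · rw [if_neg h]
      exact hnn d f n
  calc ∑ d ∈ SF N, ∑ _e ∈ (SF N).filter (· ∣ d), ∑ f ∈ SF N, ∑ k ∈ SF N, W (d * f * k)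
      ≤ ∑ d ∈ SF N, ∑ _e ∈ (SF N).filter (· ∣ d), ∑ f ∈ SF N,
          ∑ n ∈ SF N, (if d ∣ n then (if f ∣ n then W n else 0) else 0) :=
        sum_le_sum fun d hd => sum_le_sum fun e _ => sum_le_sum fun f hf => h1 d hd f hf
    _ = ∑ d ∈ SF N, (#((SF N).filter (· ∣ d)) : ℝ) * ∑ f ∈ SF N,
          ∑ n ∈ SF N, (if d ∣ n then (if f ∣ n then W n else 0) else 0) := by
        refine sum_congr rfl fun d _ => ?_
        rw [sum_const, nsmul_eq_mul]
    _ ≤ ∑ d ∈ SF N, T * ∑ f ∈ SF N,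
          ∑ n ∈ SF N, (if d ∣ n then (if f ∣ n then W n else 0) else 0) := by
        refine sum_le_sum fun d hd => ?_
        refine mul_le_mul_of_nonneg_right (hcard d hd) ?_
        exact sum_nonneg fun f _ => sum_nonneg fun n _ => hnn d f n
    _ = T * ∑ n ∈ SF N, ∑ d ∈ SF N, ∑ f ∈ SF N,
          (if d ∣ n then (if f ∣ n then W n else 0) else 0) := by
        rw [← mul_sum]
        congr 1
        rw [sum_comm]
        have : ∀ d ∈ SF N, ∑ f ∈ SF N, ∑ n ∈ SF N,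
          (if d ∣ n then (if f ∣ n then W n else 0) else 0) = ∑ n ∈ SF N, ∑ f ∈ SF N,
          (if d ∣ n then (if f ∣ n then W n else 0) else 0) := fun d _ => sum_comm
        rw [sum_comm, sum_congr rfl this, sum_comm]
    _ ≤ T * ∑ n ∈ SF N, T * (T * W n) := by
        refine mul_le_mul_of_nonneg_left (sum_le_sum fun n hn => ?_) hT
        have h2 : ∀ d ∈ SF N, ∑ f ∈ SF N, (if d ∣ n then (if f ∣ n then W n else 0) else 0) =
            (if d ∣ n then (#((SF N).filter (· ∣ n)) : ℝ) * W n else 0) := by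
          intro d _
          split_ifs
          · rw [← sum_filter, sum_const, nsmul_eq_mul]
          · rw [sum_const_zero]
        rw [sum_congr rfl h2, ← sum_filter, sum_const, nsmul_eq_mul]
        have h3 := hcard n hn
        have h4 := hW n
        gcongr
    _ = _ := by
        simp only [mul_sum]
        refine sum_congr rfl fun n _ => ?_
        ring

/-! ### The dual sums -/

/-- The factor in front of the dual form. -/
lemma dsum_form_le {N : ℝ} (hN : 1 ≤ N) {w : Eis → ℂ} (hw : ∀ h, w h ≠ 0 → h ∈ SFdy N)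
    {d e f : Eis} (hd : d ∈ SF N) (hf : f ∈ SF N) {L D₁ σ : ℝ} (hD : 0 ≤ D₁)
    (hA : Adm (nz L) (SF (N / nm d)) sy D₁) (hσ0 : 0 < σ) (hσ : σ ≤ 1 / 2) (t : ℝ) :
    ∑ l ∈ nz L, (nm l : ℝ) ^ (-σ) * ‖CR2.dsum w N d e f l (σ + t * Complex.I)‖ ^ 2 ≤
      D₁ * (2 * (N / (nm d * nm f)) ^ (2 * σ - 1) * ∑ k ∈ SF N, ‖w (d * f * k)‖ ^ 2) := by
  have hN0 : 0 < N := by linarith
  rw [mem_SF] at hd hf
  have d1 := one_le_nm' hd.2.1.ne_zero
  have f1 := one_le_nm' hf.2.1.ne_zero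
  have d0 : (0 : ℝ) < nm d := by linarith
  have f0 : (0 : ℝ) < nm f := by linarith
  set s : ℂ := σ + t * Complex.I with hs
  set a : Eis → ℂ := fun k => w (d * f * k) * (sy (e * sq3) k * (starRingEnd ℂ) (sy f k) * G k) *
    (nm k : ℂ) ^ (s - 1 / 2) with ha
  have hsupp : ∀ k, w (d * f * k) ≠ 0 → k ∈ SF N → k ∈ SF (N / nm d) ∧
      N / (nm d * nm f) / 2 < nm k := by
    intro k hk hkN
    have h1 := hw _ hk
    rw [mem_SFdy, nm_mul, nm_mul] at h1
    rw [mem_SF] at hkN ⊢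
    have k1 := one_le_nm' hkN.2.1.ne_zero
    push_cast at h1
    refine ⟨⟨?_, hkN.2⟩, ?_⟩
    · rw [le_div_iff₀ d0]
      calc (nm k : ℝ) * nm d = nm d * 1 * nm k := by ring
        _ ≤ nm d * nm f * nm k := by gcongr
        _ ≤ N := h1.2.1
    · rw [div_div, div_lt_iff₀ (by positivity)]
      have := h1.1
      rw [div_lt_iff₀ (by norm_num)] at this
      linarith
  have hds : ∀ l, CR2.dsum w N d e f l s =
      ∑ k ∈ SF (N / nm d), a k * (starRingEnd ℂ) (sy l k) := by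
    intro l
    unfold CR2.dsum
    rw [S_eq N hN0.le]
    have hsub : SF (N / nm d) ⊆ SF N := SF_mono (div_le_self hN0.le d1)
    have h2 : ∀ k ∈ SF N, w (d * f * k) *
        (sy (e * sq3) k * (starRingEnd ℂ) (sy (f * l) k) * G k) * (nm k : ℂ) ^ (s - 1 / 2) =
        a k * (starRingEnd ℂ) (sy l k) := by
      intro k hk
      rw [mem_SF] at hk
      rw [symLike_sy.mul f l k hk.2.1, ha, map_mul]
      ring
    rw [sum_congr rfl h2]
    refine (sum_subset hsub fun k hk hk' => ?_).symm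
    have h3 : w (d * f * k) = 0 := by
      by_contra h0
      exact hk' (hsupp k h0 hk).1
    rw [ha]
    simp only [h3, zero_mul]
  have hterm : ∀ k ∈ SF (N / nm d), ‖a k‖ ^ 2 ≤
      2 * (N / (nm d * nm f)) ^ (2 * σ - 1) * ‖w (d * f * k)‖ ^ 2 := by
    intro k hk
    have hkN : k ∈ SF N := SF_mono (div_le_self hN0.le d1) hk
    by_cases h0 : w (d * f * k) = 0
    · rw [ha]; simp [h0]
    · have h1 := (hsupp k h0 hkN).2
      rw [mem_SF] at hk
      have k1 := one_le_nm' hk.2.1.ne_zero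
      have k0 : (0 : ℝ) < nm k := by linarith
      have h2 : ‖sy (e * sq3) k * (starRingEnd ℂ) (sy f k) * G k‖ ≤ 1 := by
        rw [norm_mul, norm_mul, Complex.norm_conj]
        exact mul_le_one₀ (mul_le_one₀ (symLike_sy.norm_le _ hk.2.1) (norm_nonneg _)
          (symLike_sy.norm_le _ hk.2.1)) (norm_nonneg _)
          (Gauss880.norm_G_le Gauss880.syG hk.2.1)
      have h3 : ‖(nm k : ℂ) ^ (s - 1 / 2)‖ = (nm k : ℝ) ^ (σ - 1 / 2) := by
        have : (nm k : ℂ) = ((nm k : ℝ) : ℂ) := by push_cast; rfl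
        rw [this, Complex.norm_cpow_eq_rpow_re_of_pos k0]
        congr 1
        rw [hs]; simp
      have h4 : ((nm k : ℝ) ^ (σ - 1 / 2)) ^ 2 = (nm k : ℝ) ^ (2 * σ - 1) := by
        rw [← Real.rpow_natCast, ← Real.rpow_mul k0.le]; congr 1; push_cast; ring
      have hy0 : 0 < N / (nm d * nm f : ℝ) := by positivity
      have h5 : (nm k : ℝ) ^ (2 * σ - 1) ≤ 2 * (N / (nm d * nm f)) ^ (2 * σ - 1) := by
        calc (nm k : ℝ) ^ (2 * σ - 1) ≤ (N / (nm d * nm f) / 2) ^ (2 * σ - 1) :=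
              Real.rpow_le_rpow_of_nonpos (by positivity) h1.le (by linarith)
          _ = (N / (nm d * nm f)) ^ (2 * σ - 1) * (2 ^ (2 * σ - 1))⁻¹ := by
              rw [Real.div_rpow hy0.le (by norm_num), div_eq_mul_inv]
          _ ≤ (N / (nm d * nm f)) ^ (2 * σ - 1) * 2 := by
              gcongr
              rw [← Real.rpow_neg (by norm_num)]
              calc (2 : ℝ) ^ (-(2 * σ - 1)) ≤ (2 : ℝ) ^ (1 : ℝ) :=
                    Real.rpow_le_rpow_of_exponent_le (by norm_num) (by linarith)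
                _ = 2 := Real.rpow_one 2
          _ = _ := by ring
      calc ‖a k‖ ^ 2 = ‖w (d * f * k)‖ ^ 2 *
            ‖sy (e * sq3) k * (starRingEnd ℂ) (sy f k) * G k‖ ^ 2 * (nm k : ℝ) ^ (2 * σ - 1) := by
            rw [ha]
            simp only [norm_mul (w (d * f * k) * _), norm_mul (w (d * f * k)), h3]
            rw [← h4]; ring
        _ ≤ ‖w (d * f * k)‖ ^ 2 * 1 * (2 * (N / (nm d * nm f)) ^ (2 * σ - 1)) := by
            gcongr
            exact pow_le_one₀ (norm_nonneg _) h2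
        _ = _ := by ring
  calc ∑ l ∈ nz L, (nm l : ℝ) ^ (-σ) * ‖CR2.dsum w N d e f l s‖ ^ 2
      ≤ ∑ l ∈ nz L, ‖∑ k ∈ SF (N / nm d), a k * (starRingEnd ℂ) (sy l k)‖ ^ 2 := by
        refine sum_le_sum fun l hl => ?_
        rw [mem_nz] at hl
        rw [hds l]
        refine mul_le_of_le_one_left (by positivity) ?_
        exact Real.rpow_le_one_of_one_le_of_nonpos (one_le_nm' hl.1) (by linarith)
    _ ≤ D₁ * ∑ k ∈ SF (N / nm d), ‖a k‖ ^ 2 := hA.conj a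
    _ ≤ D₁ * ∑ k ∈ SF (N / nm d),
          2 * (N / (nm d * nm f)) ^ (2 * σ - 1) * ‖w (d * f * k)‖ ^ 2 := by
        gcongr with k hk
        exact hterm k hk
    _ ≤ D₁ * ∑ k ∈ SF N, 2 * (N / (nm d * nm f)) ^ (2 * σ - 1) * ‖w (d * f * k)‖ ^ 2 := by
        refine mul_le_mul_of_nonneg_left ?_ hD
        exact sum_le_sum_of_subset_of_nonneg (SF_mono (div_le_self hN0.le d1))
          fun _ _ _ => by positivity
    _ = _ := by rw [← mul_sum]

/-- `(M/(ef)) (e f²/M)^σ · 2 (N/(df))^(2σ-1) = 2 (M d/(e N)) (e N²/(d² M))^σ`. -/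
lemma factor_eq {M N d e f σ : ℝ} (hM : 0 < M) (hN : 0 < N) (hd : 0 < d) (he : 0 < e)
    (hf : 0 < f) :
    M / (e * f) * (e * f ^ 2 / M) ^ σ * (2 * (N / (d * f)) ^ (2 * σ - 1)) =
      2 * (M * d / (e * N)) * (e * N ^ 2 / (d ^ 2 * M)) ^ σ := by
  have h1 : (N / (d * f)) ^ (2 * σ - 1) = ((N / (d * f)) ^ 2) ^ σ * (d * f / N) := by
    rw [Real.rpow_sub (by positivity), Real.rpow_one, Real.rpow_mul (by positivity),
      Real.rpow_two]
    field_simp
  rw [h1]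
  have h2 : (e * f ^ 2 / M) ^ σ * ((N / (d * f)) ^ 2) ^ σ = (e * N ^ 2 / (d ^ 2 * M)) ^ σ := by
    rw [← Real.mul_rpow (by positivity) (by positivity)]
    congr 1
    field_simp
  calc M / (e * f) * (e * f ^ 2 / M) ^ σ * (2 * (((N / (d * f)) ^ 2) ^ σ * (d * f / N)))
      = (M / (e * f) * 2 * (d * f / N)) * ((e * f ^ 2 / M) ^ σ * ((N / (d * f)) ^ 2) ^ σ) := by
        ring
    _ = _ := by
        rw [h2]
        congr 1
        field_simp

/-- Comparison of the sharp sum with the smooth one. -/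
lemma sharp_le_smooth {M N : ℝ} (hM : 1 ≤ M) (w : Eis → ℂ) :
    ∑ m ∈ SF M, ‖∑ n ∈ SF N, w n * sy m n‖ ^ 2 ≤
      Real.exp 1 * ∑' m : Eis, Real.exp (-(nm m : ℝ) / M) * ‖∑ n ∈ SF N, w n * sy m n‖ ^ 2 := by
  have hM0 : 0 < M := by linarith
  have hb : ∀ m : Eis, ‖∑ n ∈ SF N, w n * sy m n‖ ^ 2 ≤ (∑ n ∈ SF N, ‖w n‖) ^ 2 := by
    intro m
    gcongr
    refine (norm_sum_le _ _).trans (sum_le_sum fun n hn => ?_)
    rw [mem_SF] at hn
    rw [norm_mul]
    exact mul_le_of_le_one_right (norm_nonneg _) (symLike_sy.norm_le _ hn.2.1)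
  have hsum : Summable fun m : Eis =>
      Real.exp (-(nm m : ℝ) / M) * ‖∑ n ∈ SF N, w n * sy m n‖ ^ 2 := by
    refine Summable.of_nonneg_of_le (fun m => by positivity) (fun m => ?_)
      ((summable_exp_nm hM0).mul_right ((∑ n ∈ SF N, ‖w n‖) ^ 2))
    exact mul_le_mul_of_nonneg_left (hb m) (Real.exp_pos _).le
  calc ∑ m ∈ SF M, ‖∑ n ∈ SF N, w n * sy m n‖ ^ 2
      ≤ ∑ m ∈ SF M, Real.exp 1 *
          (Real.exp (-(nm m : ℝ) / M) * ‖∑ n ∈ SF N, w n * sy m n‖ ^ 2) := by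
        refine sum_le_sum fun m hm => ?_
        rw [mem_SF] at hm
        rw [← mul_assoc, ← Real.exp_add]
        refine le_mul_of_one_le_left (by positivity) ?_
        refine Real.one_le_exp ?_
        have h1 : (nm m : ℝ) / M ≤ 1 := by rw [div_le_one hM0]; exact hm.1
        rw [neg_div]; linarith
    _ = Real.exp 1 * ∑ m ∈ SF M,
          (Real.exp (-(nm m : ℝ) / M) * ‖∑ n ∈ SF N, w n * sy m n‖ ^ 2) := by rw [mul_sum]
    _ ≤ _ := by
        refine mul_le_mul_of_nonneg_left ?_ (Real.exp_pos _).le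
        exact hsum.sum_le_tsum _ fun m _ => by positivity

/-- The admissible constant in the dual sum, `K < 1` (trivial bound). -/
lemma adm_small {M N K p η CL : ℝ} (hN : 1 ≤ N) (hNP : N ≤ M * N) (hp : p = (M * N) ^ η)
    (hp1 : 1 ≤ p) (hη1 : η ≤ 1) (hCL : 0 < CL)
    (hL : ∀ X : ℝ, 1 ≤ X → LL X ≤ CL * X ^ η) {d : ℝ} (hd : 1 ≤ d)
    (hK0 : 0 < K) (hK1 : K < 1) :
    Adm (nz (p * (1 + K))) (SF (N / d)) sy (4 * CL ^ 2 * p ^ 3 * (N / d)) := by
  have hN0 : 0 < N := by linarith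
  have hp0 : 0 < p := by linarith
  have hd0 : 0 < d := by linarith
  have hMN : 1 ≤ M * N := hN.trans hNP
  have hLsmall : p * (1 + K) ≤ 2 * p := by nlinarith
  refine adm_of_bc_le ?_
  have h3 := B2f_trivial symLike_sy (p * (1 + K)) (N / d) (by positivity)
  have h2p : (1 : ℝ) ≤ 2 * p := by linarith
  have h4 : LL (p * (1 + K)) ≤ CL * (2 * p) := by
    calc LL (p * (1 + K)) ≤ LL (2 * p) := LL_mono hLsmall
      _ ≤ CL * (2 * p) ^ η := hL _ h2p
      _ ≤ CL * (2 * p) ^ (1 : ℝ) := by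
          refine mul_le_mul_of_nonneg_left ?_ hCL.le
          exact Real.rpow_le_rpow_of_exponent_le h2p hη1
      _ = CL * (2 * p) := by rw [Real.rpow_one]
  have h5 : LL (N / d) ≤ CL * p := by
    rw [hp]
    refine (LL_mono ?_).trans (hL _ hMN)
    exact (div_le_self hN0.le hd).trans hNP
  calc bc (nz (p * (1 + K))) (SF (N / d)) sy
      ≤ (p * (1 + K) * LL (p * (1 + K))) * (N / d * LL (N / d)) := h3
    _ ≤ (2 * p * (CL * (2 * p))) * (N / d * (CL * p)) := by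
        have := LL_nonneg (p * (1 + K))
        have := LL_nonneg (N / d)
        gcongr
    _ = _ := by ring

lemma integral_inv_le {F : ℝ → ℝ} {Q : ℝ} (h0 : ∀ t, 0 ≤ F t) (h1 : ∀ t, F t ≤ Q) :
    ∫ t : ℝ, (1 + t ^ 2)⁻¹ * F t ≤ Real.pi * Q := by
  calc ∫ t : ℝ, (1 + t ^ 2)⁻¹ * F t ≤ ∫ t : ℝ, (1 + t ^ 2)⁻¹ * Q := by
        refine MeasureTheory.integral_mono_of_nonneg
          (Filter.Eventually.of_forall fun t => ?_)
          (integrable_inv_one_add_sq.mul_const Q)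
          (Filter.Eventually.of_forall fun t => ?_)
        · exact mul_nonneg (by positivity) (h0 t)
        · exact mul_le_mul_of_nonneg_left (h1 t) (by positivity)
    _ = Real.pi * Q := by
        rw [MeasureTheory.integral_mul_const, integral_univ_inv_one_add_sq]

/-- One dual term. -/
lemma term_le {M N : ℝ} (hM : 1 ≤ M) (hN : 1 ≤ N) {w : Eis → ℂ}
    (hws : ∀ h, w h ≠ 0 → h ∈ SFdy N)
    {d e f : Eis} (hd : d ∈ SF N) (he : e ∈ SF N) (hf : f ∈ SF N) {L D₁ η R P2 : ℝ}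
    (hD₁0 : 0 ≤ D₁) (hA : Adm (nz L) (SF (N / nm d)) sy D₁) (hη0 : 0 < η) (hη : η ≤ 1 / 2)
    (hD₁ : M * nm d / (nm e * N) * D₁ ≤ R)
    (hK : (nm e * N ^ 2 / ((nm d : ℝ) ^ 2 * M)) ^ η ≤ P2) :
    M / (nm e * nm f) * (nm e * (nm f : ℝ) ^ 2 / M) ^ η *
          ∫ t : ℝ, (1 + t ^ 2)⁻¹ * ∑ l ∈ nz L,
            (nm l : ℝ) ^ (-η) * ‖CR2.dsum w N d e f l (η + t * Complex.I)‖ ^ 2 ≤
        2 * Real.pi * (R * P2) * ∑ k ∈ SF N, ‖w (d * f * k)‖ ^ 2 := by
  have hM0 : 0 < M := by linarith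
  have hN0 : 0 < N := by linarith
  have hd' := hd
  have he' := he
  have hf' := hf
  rw [mem_SF] at hd' he' hf'
  have d1 := one_le_nm' hd'.2.1.ne_zero
  have e1 := one_le_nm' he'.2.1.ne_zero
  have f1 := one_le_nm' hf'.2.1.ne_zero
  have d0 : (0 : ℝ) < nm d := by linarith
  have e0 : (0 : ℝ) < nm e := by linarith
  have f0 : (0 : ℝ) < nm f := by linarith
  set S2 : ℝ := ∑ k ∈ SF N, ‖w (d * f * k)‖ ^ 2 with hS2
  have hS20 : 0 ≤ S2 := by positivity
  set Q : ℝ := D₁ * (2 * (N / (nm d * nm f)) ^ (2 * η - 1) * S2) with hQ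
  have hint : ∫ t : ℝ, (1 + t ^ 2)⁻¹ * ∑ l ∈ nz L,
        (nm l : ℝ) ^ (-η) * ‖CR2.dsum w N d e f l (η + t * Complex.I)‖ ^ 2 ≤
      Real.pi * Q :=
    integral_inv_le
      (fun t => sum_nonneg fun l _ => mul_nonneg (Real.rpow_nonneg (Nat.cast_nonneg _) _)
        (sq_nonneg _))
      (fun t => dsum_form_le hN hws hd hf hD₁0 hA hη0 hη t)
  have hR0 : 0 ≤ M * nm d / (nm e * N) * D₁ := by positivity
  have hR : 0 ≤ R := hR0.trans hD₁
  refine (mul_le_mul_of_nonneg_left hint (by positivity)).trans ?_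
  calc M / (nm e * nm f) * (nm e * (nm f : ℝ) ^ 2 / M) ^ η * (Real.pi * Q) = Real.pi * D₁ * S2 * (M / (nm e * nm f) * (nm e * (nm f : ℝ) ^ 2 / M) ^ η *
          (2 * (N / (nm d * nm f)) ^ (2 * η - 1))) := by rw [hQ]; ring
    _ = Real.pi * D₁ * S2 * (2 * (M * nm d / (nm e * N)) *
          (nm e * N ^ 2 / ((nm d : ℝ) ^ 2 * M)) ^ η) := by
        rw [factor_eq hM0 hN0 d0 e0 f0]
    _ = 2 * Real.pi * ((M * nm d / (nm e * N) * D₁) *
          (nm e * N ^ 2 / ((nm d : ℝ) ^ 2 * M)) ^ η) * S2 := by ring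
    _ ≤ 2 * Real.pi * (R * P2) * S2 := by gcongr

set_option maxHeartbeats 1000000 in
/-- The main range of the Poisson step. -/
lemma step2_main {ε η C₀ CL Cτ : ℝ} (hη0 : 0 < η) (hη1 : 8 * η ≤ 1) (hηε : 8 * η ≤ ε)
    (hC₀ : 0 < C₀)
    (hD : open Classical in ∀ (X Z : ℝ), 1 ≤ X → 1 ≤ Z → ∀ (w : Eis → ℂ),
      (∀ (h : Eis), w h ≠ 0 → h ∈ LS2.S X) →
      ∑' n : Eis, Real.exp (-(nm n : ℝ) / Z) * ‖∑ h ∈ LS2.S X, w h * sy n h‖ ^ 2 ≤
      C₀ * Z * ∑ h ∈ LS2.S X, ‖w h‖ ^ 2 +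
      C₀ * ∑ d ∈ LS2.S X, ∑ e ∈ (LS2.S X).filter (· ∣ d), ∑ f ∈ LS2.S X,
        Z / (nm e * nm f) * (nm e * (nm f : ℝ) ^ 2 / Z) ^ η *
          ∫ t : ℝ, (1 + t ^ 2)⁻¹ * ∑ l ∈ LS2.bl (CR2.Lde X Z η d e),
            (nm l : ℝ) ^ (-η) * ‖CR2.dsum w X d e f l (η + t * Complex.I)‖ ^ 2)
    (hCL : 0 < CL) (hL : ∀ X : ℝ, 1 ≤ X → LL X ≤ CL * X ^ η)
    (hCτ : 1 ≤ Cτ) (hτ : ∀ n : Eis, n ≠ 0 → (Div277.tau n : ℝ) ≤ Cτ * (nm n : ℝ) ^ η)
    {M N D : ℝ} (hM : 1 ≤ M) (hN : 1 ≤ N) (hD0 : 0 ≤ D)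
    (hH : ∀ d e : ℝ, 1 ≤ e → e ≤ d → d ≤ N → ∃ D1 : ℝ, 0 ≤ D1 ∧
      LS2.HB2 (e * N ^ 2 / (d ^ 2 * M) * (M * N) ^ ε) (N / d) D1 ∧ M * d / (e * N) * D1 ≤ D)
    (hbig : 2 ≤ (M * N) ^ (ε / 2)) :
    Bdy sy M N ≤ Real.exp 1 * (C₀ + C₀ * (2 * Real.pi * (1 + 4 * CL ^ 2) * Cτ ^ 3)) *
      (M * N) ^ ε * (M + D) := by
  classical
  set C1 : ℝ := Real.exp 1 * (C₀ + C₀ * (2 * Real.pi * (1 + 4 * CL ^ 2) * Cτ ^ 3)) with hC1
  have hCτ0 : 0 < Cτ := by linarith
  have hC10 : 0 < C1 := by positivity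
  have hM0 : 0 < M := by linarith
  have hN0 : 0 < N := by linarith
  have hMN : 1 ≤ M * N := one_le_mul_of_one_le_of_one_le hM hN
  have hNP : N ≤ M * N := le_mul_of_one_le_left hN0.le hM
  set p : ℝ := (M * N) ^ η with hp
  have hp1 : 1 ≤ p := Real.one_le_rpow hMN hη0.le
  have hp0 : 0 < p := by linarith
  have hp8 : p ^ 8 ≤ (M * N) ^ ε := by
    rw [hp, ← Real.rpow_natCast, ← Real.rpow_mul (by positivity)]
    refine Real.rpow_le_rpow_of_exponent_le hMN ?_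
    push_cast; linarith
  have hp' : 2 * p ≤ (M * N) ^ ε := by
    calc 2 * p ≤ (M * N) ^ (ε / 2) * (M * N) ^ (ε / 2) := by
          refine mul_le_mul hbig ?_ hp0.le (by positivity)
          rw [hp]
          exact Real.rpow_le_rpow_of_exponent_le hMN (by linarith)
      _ = (M * N) ^ ε := by
          rw [← Real.rpow_add (by positivity)]; congr 1; ring
  refine bc_le (by positivity) fun c => ?_
  obtain ⟨w, hws, hsumw, hnw⟩ : ∃ w : Eis → ℂ, (∀ n, w n ≠ 0 → n ∈ SFdy N) ∧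
      (∀ m : Eis, ∑ n ∈ SFdy N, c n * sy m n = ∑ n ∈ SF N, w n * sy m n) ∧
      ∑ n ∈ SF N, ‖w n‖ ^ 2 = ∑ n ∈ SFdy N, ‖c n‖ ^ 2 := by
    refine ⟨fun n => if n ∈ SFdy N then c n else 0, ?_, ?_, ?_⟩
    · intro n hn
      by_contra h0
      simp [h0] at hn
    · intro m
      rw [← sum_subset (SFdy_subset N)
        (f := fun n => (if n ∈ SFdy N then c n else 0) * sy m n)]
      · exact sum_congr rfl fun n hn => by simp [hn]
      · intro n _ hn
        simp [hn]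
    · rw [← sum_subset (SFdy_subset N)
        (f := fun n => ‖(if n ∈ SFdy N then c n else 0)‖ ^ 2)]
      · exact sum_congr rfl fun n hn => by simp [hn]
      · intro n _ hn
        simp [hn]
  simp_rw [hsumw]
  rw [← hnw]
  set W2 : ℝ := ∑ n ∈ SF N, ‖w n‖ ^ 2 with hW2
  have hW20 : 0 ≤ W2 := by positivity
  refine (sharp_le_smooth hM w).trans ?_
  have hdual := hD N M hN hM w (fun n hn => by
    rw [S_eq N hN0.le]; exact SFdy_subset N (hws n hn))
  rw [S_eq N hN0.le] at hdual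
  -- the dual terms
  set R : ℝ := D + 4 * CL ^ 2 * p ^ 3 * M with hR
  have hR0 : 0 ≤ R := by positivity
  set Y : ℝ := 2 * Real.pi * (R * p ^ 2) with hY
  have hY0 : 0 ≤ Y := by positivity
  have hterm : ∀ d ∈ SF N, ∀ e ∈ (SF N).filter (· ∣ d), ∀ f ∈ SF N,
      M / (nm e * nm f) * (nm e * (nm f : ℝ) ^ 2 / M) ^ η *
        ∫ t : ℝ, (1 + t ^ 2)⁻¹ * ∑ l ∈ LS2.bl (CR2.Lde N M η d e),
          (nm l : ℝ) ^ (-η) * ‖CR2.dsum w N d e f l (η + t * Complex.I)‖ ^ 2 ≤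
      Y * ∑ k ∈ SF N, ‖w (d * f * k)‖ ^ 2 := by
    intro d hd e he f hf
    rw [mem_filter] at he
    have hd' := hd
    have he' := he.1
    rw [mem_SF] at hd' he'
    have d1 := one_le_nm' hd'.2.1.ne_zero
    have e1 := one_le_nm' he'.2.1.ne_zero
    have d0 : (0 : ℝ) < nm d := by linarith
    have e0 : (0 : ℝ) < nm e := by linarith
    have hed : (nm e : ℝ) ≤ nm d := by
      exact_mod_cast nm_le_of_dvd he.2 hd'.2.1.ne_zero
    set K : ℝ := nm e * N ^ 2 / ((nm d : ℝ) ^ 2 * M) with hK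
    have hK0 : 0 < K := by positivity
    have hKN : K ≤ N ^ 2 := by
      rw [hK, div_le_iff₀ (by positivity)]
      have : (nm e : ℝ) ≤ (nm d : ℝ) ^ 2 * M := by
        calc (nm e : ℝ) ≤ nm d := hed
          _ ≤ (nm d : ℝ) ^ 2 := le_self_pow₀ d1 (by norm_num)
          _ ≤ (nm d : ℝ) ^ 2 * M := le_mul_of_one_le_right (by positivity) hM
      calc (nm e : ℝ) * N ^ 2 ≤ ((nm d : ℝ) ^ 2 * M) * N ^ 2 := by gcongr
        _ = _ := by ring
    have hKη : K ^ η ≤ p ^ 2 := by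
      calc K ^ η ≤ (N ^ 2) ^ η := by gcongr
        _ = (N ^ η) ^ 2 := by
            rw [← Real.rpow_natCast, ← Real.rpow_mul hN0.le, ← Real.rpow_natCast,
              ← Real.rpow_mul hN0.le, mul_comm]
        _ ≤ p ^ 2 := by rw [hp]; gcongr
    have hLde : CR2.Lde N M η d e = p * (1 + K) := by
      rw [CR2.Lde, hp, hK, mul_comm N M]
    rw [bl_eq, hLde]
    rcases lt_or_ge K 1 with hK1 | hK1
    · refine term_le hM hN hws hd he.1 hf (by positivity)
        (adm_small hN hNP hp hp1 (by linarith) hCL hL d1 hK0 hK1) hη0 (by linarith) ?_ hKη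
      have : M * nm d / (nm e * N) * (4 * CL ^ 2 * p ^ 3 * (N / nm d)) =
          4 * CL ^ 2 * p ^ 3 * M / nm e := by field_simp
      rw [this]
      have h6 : 4 * CL ^ 2 * p ^ 3 * M / nm e ≤ 4 * CL ^ 2 * p ^ 3 * M :=
        div_le_self (by positivity) e1
      linarith
    · obtain ⟨D₁, h1, h2, h3⟩ := hH (nm d) (nm e) e1 hed hd'.1
      rw [HB2_iff (by positivity)] at h2
      refine term_le hM hN hws hd he.1 hf h1 ?_ hη0 (by linarith)
        (h3.trans ?_) hKη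
      · intro x
        refine le_trans ?_ (h2 x)
        refine sum_le_sum_of_subset_of_nonneg (nz_mono ?_) fun _ _ _ => by positivity
        calc p * (1 + K) ≤ p * (K + K) := by gcongr
          _ = K * (2 * p) := by ring
          _ ≤ K * (M * N) ^ ε := by gcongr
      · have : 0 ≤ 4 * CL ^ 2 * p ^ 3 * M := by positivity
        linarith
  have htau : ∀ n ∈ SF N, (Div277.tau n : ℝ) ≤ Cτ * p := by
    intro n hn
    rw [mem_SF] at hn
    refine (hτ n hn.2.1.ne_zero).trans ?_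
    rw [hp]
    gcongr
    exact hn.1.trans hNP
  have hall : ∑ d ∈ SF N, ∑ e ∈ (SF N).filter (· ∣ d), ∑ f ∈ SF N,
      M / (nm e * nm f) * (nm e * (nm f : ℝ) ^ 2 / M) ^ η *
        ∫ t : ℝ, (1 + t ^ 2)⁻¹ * ∑ l ∈ LS2.bl (CR2.Lde N M η d e),
          (nm l : ℝ) ^ (-η) * ‖CR2.dsum w N d e f l (η + t * Complex.I)‖ ^ 2 ≤
      Y * ((Cτ * p) ^ 3 * W2) := by
    refine (sum_le_sum fun d hd => sum_le_sum fun e he => sum_le_sum fun f hf =>
      hterm d hd e he f hf).trans ?_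
    have e3 : ∑ d ∈ SF N, ∑ e ∈ (SF N).filter (· ∣ d), ∑ f ∈ SF N,
          Y * ∑ k ∈ SF N, ‖w (d * f * k)‖ ^ 2 = Y * ∑ d ∈ SF N, ∑ e ∈ (SF N).filter (· ∣ d),
          ∑ f ∈ SF N, ∑ k ∈ SF N, ‖w (d * f * k)‖ ^ 2 := by simp only [mul_sum]
    rw [e3]
    refine mul_le_mul_of_nonneg_left ?_ hY0
    refine sum_defk_le (W := fun n => ‖w n‖ ^ 2) (fun n => by positivity) ?_
      (by positivity) htau
    intro n hn
    refine SFdy_subset N (hws n ?_)
    intro h0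
    simp [h0] at hn
  have hp3 : 1 ≤ p ^ 3 := one_le_pow₀ hp1
  have hp8' : 1 ≤ p ^ 8 := one_le_pow₀ hp1
  have t1 : M ≤ p ^ 8 * (M + D) := by nlinarith
  have t2 : R ≤ (1 + 4 * CL ^ 2) * p ^ 3 * (M + D) := by
    have e2 : (1 + 4 * CL ^ 2) * p ^ 3 * (M + D) = D * p ^ 3 + M * p ^ 3 +
      4 * CL ^ 2 * p ^ 3 * M + 4 * CL ^ 2 * p ^ 3 * D := by ring
    rw [e2, hR]
    have t3 : D ≤ D * p ^ 3 := le_mul_of_one_le_right hD0 hp3
    have t4 : 0 ≤ M * p ^ 3 := by positivity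
    have t5 : 0 ≤ 4 * CL ^ 2 * p ^ 3 * D := by positivity
    linarith
  calc Real.exp 1 * ∑' m : Eis, Real.exp (-(nm m : ℝ) / M) *
        ‖∑ n ∈ SF N, w n * sy m n‖ ^ 2
      ≤ Real.exp 1 * (C₀ * M * W2 + C₀ * (Y * ((Cτ * p) ^ 3 * W2))) := by
        refine mul_le_mul_of_nonneg_left (hdual.trans ?_) (Real.exp_pos _).le
        exact add_le_add le_rfl (mul_le_mul_of_nonneg_left hall hC₀.le)
    _ = Real.exp 1 * (C₀ * M + C₀ * (2 * Real.pi * R * Cτ ^ 3 * p ^ 5)) * W2 := by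
        rw [hY]; ring
    _ ≤ Real.exp 1 * (C₀ * (p ^ 8 * (M + D)) + C₀ * (2 * Real.pi *
          ((1 + 4 * CL ^ 2) * p ^ 3 * (M + D)) * Cτ ^ 3 * p ^ 5)) * W2 := by
        gcongr
    _ = C1 * p ^ 8 * (M + D) * W2 := by rw [hC1]; ring
    _ ≤ C1 * (M * N) ^ ε * (M + D) * W2 := by gcongr

/-- The trivial range of the Poisson step. -/
lemma step2_trivial {ε η CL : ℝ} (hε : 0 < ε) (hη0 : 0 < η) (hη1 : 8 * η ≤ 1)
    (hCL : 0 < CL) (hL : ∀ X : ℝ, 1 ≤ X → LL X ≤ CL * X ^ η)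
    {M N D : ℝ} (hM : 1 ≤ M) (hN : 1 ≤ N) (hD0 : 0 ≤ D)
    (hsmall : (M * N) ^ (ε / 2) < 2) :
    Bdy sy M N ≤ (2 : ℝ) ^ (2 / ε * 2) * CL ^ 2 * (M * N) ^ ε * (M + D) := by
  have hM0 : 0 < M := by linarith
  have hN0 : 0 < N := by linarith
  have hMN : 1 ≤ M * N := one_le_mul_of_one_le_of_one_le hM hN
  have hNP : N ≤ M * N := le_mul_of_one_le_left hN0.le hM
  have hMP : M ≤ M * N := le_mul_of_one_le_right hM0.le hN
  have hPε1 : 1 ≤ (M * N) ^ ε := Real.one_le_rpow hMN hε.le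
  have hPs : M * N ≤ (2 : ℝ) ^ (2 / ε) := by
    calc M * N = ((M * N) ^ (ε / 2)) ^ (2 / ε) := by
          rw [← Real.rpow_mul (by positivity)]
          rw [show ε / 2 * (2 / ε) = 1 by field_simp, Real.rpow_one]
      _ ≤ _ := by gcongr
  have hLM : LL M ≤ CL * (M * N) ^ η := (LL_mono hMP).trans (hL _ hMN)
  have hLN : LL N ≤ CL * (M * N) ^ η := (LL_mono hNP).trans (hL _ hMN)
  have htriv : Bdy sy M N ≤ (M * LL M) * (N * LL N) := by
    refine (bc_le_card _ _ fun a _ b hb => ?_).trans ?_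
    · rw [mem_SFdy] at hb; exact symLike_sy.norm_le a hb.2.2.1
    · refine mul_le_mul ?_ ?_ (by positivity) (mul_nonneg hM0.le (LL_nonneg M))
      · have h3 : (#(SF M) : ℝ) ≤ #(nz M) := by exact_mod_cast card_le_card (SF_subset_nz M)
        exact h3.trans (card_nz_le M)
      · have h4 := card_le_card ((SFdy_subset N).trans (SF_subset_nz N))
        have h3 : (#(SFdy N) : ℝ) ≤ #(nz N) := by exact_mod_cast h4
        exact h3.trans (card_nz_le N)
  have h2pos : (1 : ℝ) ≤ (2 : ℝ) ^ (2 / ε) := Real.one_le_rpow (by norm_num) (by positivity)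
  have h2η : ((M * N) ^ η) ^ 2 ≤ (2 : ℝ) ^ (2 / ε) := by
    calc ((M * N) ^ η) ^ 2 = (M * N) ^ (η * 2) := by
            rw [← Real.rpow_natCast, ← Real.rpow_mul (by positivity)]; norm_num
        _ ≤ (M * N) ^ (1 : ℝ) := Real.rpow_le_rpow_of_exponent_le hMN (by linarith)
        _ = M * N := Real.rpow_one _
        _ ≤ _ := hPs
  calc Bdy sy M N ≤ (M * LL M) * (N * LL N) := htriv
    _ ≤ (M * (CL * (M * N) ^ η)) * (N * (CL * (M * N) ^ η)) := by
        have := LL_nonneg N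
        have := LL_nonneg M
        gcongr
    _ = M * N * ((M * N) ^ η) ^ 2 * CL ^ 2 := by ring
    _ ≤ M * (2 : ℝ) ^ (2 / ε) * ((2 : ℝ) ^ (2 / ε)) * CL ^ 2 := by
        gcongr
        exact hNP.trans hPs
    _ = (2 : ℝ) ^ (2 / ε * 2) * CL ^ 2 * 1 * M := by
        rw [Real.rpow_mul (by norm_num), Real.rpow_two]; ring
    _ ≤ (2 : ℝ) ^ (2 / ε * 2) * CL ^ 2 * (M * N) ^ ε * (M + D) := by
        gcongr
        linarith

/-- **The dual inequality implies the Poisson step.** -/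
theorem step2_of_dualIneq (h : CR2.DualIneq) : LS2.Step2 := by
  intro ε hε
  set η : ℝ := min ε 1 / 8 with hη
  have hη0 : 0 < η := by positivity
  have hη1 : 8 * η ≤ 1 := by have := min_le_right ε 1; rw [hη]; linarith
  have hηε : 8 * η ≤ ε := by have := min_le_left ε 1; rw [hη]; linarith
  obtain ⟨C₀, hC₀, hD⟩ := h η η hη0 (by linarith) hη0
  obtain ⟨CL, hCL, hL⟩ := LL_le hη0
  obtain ⟨Cτ, hCτ, hτ⟩ := Div277.tau_le_rpow hη0
  have hCτ0 : 0 < Cτ := by linarith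
  set C1 : ℝ := Real.exp 1 * (C₀ + C₀ * (2 * Real.pi * (1 + 4 * CL ^ 2) * Cτ ^ 3)) with hC1
  set C2 : ℝ := (2 : ℝ) ^ (2 / ε * 2) * CL ^ 2 with hC2
  have hC10 : 0 < C1 := by positivity
  have hC20 : 0 < C2 := by positivity
  refine ⟨C1 + C2, by positivity, fun M N hM hN D hD0 hH => ?_⟩
  have hM0 : 0 < M := by linarith
  have hN0 : 0 < N := by linarith
  have hPε0 : 0 < (M * N) ^ ε := by positivity
  rw [HBd_iff hM0.le hN0.le]
  refine adm_of_bc_le ?_
  rcases lt_or_ge ((M * N) ^ (ε / 2)) 2 with hsmall | hbig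
  · refine (step2_trivial hε hη0 hη1 hCL hL hM hN hD0 hsmall).trans ?_
    rw [← hC2]
    gcongr
    linarith
  · refine (step2_main hη0 hη1 hηε hC₀ hD hCL hL hCτ hτ hM hN hD0 hH hbig).trans ?_
    rw [← hC1]
    gcongr
    linarith

/-- Heath-Brown's cubic large sieve from the dual inequality. -/
theorem final_of_dualIneq (h : CR2.DualIneq) : LS2.Final := final_of_step2 (step2_of_dualIneq h)

end Crest.Agent.R012.LS448
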