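import Crest.Agent.R012.LS2Tail_381
import Crest.Agent.R012.DualIneq_811
import Crest.Agent.R012.LS2fromDual_448
import Crest.Agent.R012.Sym6_645

/-!
# Row 12 (L2): Heath-Brown's cubic large sieve, unconditional

* `dualIneq : CR2.DualIneq`
* `step2 : LS2.Step2`
* `hb_final : LS2.Final` : for all `ε > 0` there is `C` with
  `∑ m ∈ S M, ‖∑ n ∈ S N, c n * sy m n‖² ≤ C (MN)^ε (M + N + (MN)^(2/3)) ∑ ‖c n‖²`.
-/

set_option autoImplicit false

noncomputable section

namespace Crest.Agent.R012.LS2

open Eis CR2

theorem tailLe : DualIneq811.TailLe := fun _ hε => tail_le hε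

theorem dualIneq : CR2.DualIneq := DualIneq811.dualIneq_of Sym645.syFacts tailLe

theorem step2 : Step2 := LS448.step2_of_dualIneq dualIneq

/-- **The cubic large sieve** -/
theorem hb_final : Final := LS448.final_of_dualIneq dualIneq

end Crest.Agent.R012.LS2
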