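import Crest.Agent.R012.Tau_671
import Crest.Agent.R012.Gauss_880
import Crest.Agent.R012.LS2Spec_381

/-!
# Row 12 (L2): finite sets of primary primes

* `IsPS P` : every element of `P` is a primary prime
* `pr P = ∏ p ∈ P, p`
* `sum_inclexcl` : the inclusion-exclusion identity used in the Poisson step
-/

set_option autoImplicit false

noncomputable section

namespace Crest.Agent.R012.LS2

open Eis

/-- finite set of primary primes -/
def IsPS (P : Finset Eis) : Prop := ∀ p ∈ P, IsPrim p ∧ Prime p

/-- the product of the elements -/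
def pr (P : Finset Eis) : Eis := ∏ p ∈ P, p

lemma IsPS.mono {P Q : Finset Eis} (hQ : IsPS Q) (h : P ⊆ Q) : IsPS P := fun p hp => hQ p (h hp)

@[simp] lemma pr_empty : pr ∅ = 1 := rfl

lemma isPS_empty : IsPS ∅ := fun p hp => absurd hp (Finset.notMem_empty p)

lemma IsPS.prim {P : Finset Eis} (hP : IsPS P) : IsPrim (pr P) := by
  classical
  induction P using Finset.induction_on with
  | empty => exact isPrim_one
  | insert a s ha ih =>
    rw [pr, Finset.prod_insert ha]
    exact (hP a (Finset.mem_insert_self a s)).1.mul (ih (hP.mono (Finset.subset_insert a s)))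

lemma IsPS.ne_zero {P : Finset Eis} (hP : IsPS P) : pr P ≠ 0 := hP.prim.ne_zero

lemma nm_pr (P : Finset Eis) : nm (pr P) = ∏ p ∈ P, nm p := by
  unfold pr
  exact map_prod nmHom (fun p => p) P

lemma pr_union {P Q : Finset Eis} [DecidableEq Eis] (h : Disjoint P Q) :
    pr (P ∪ Q) = pr P * pr Q := by
  unfold pr
  exact Finset.prod_union h

lemma isCoprime_of_ne {p q : Eis} (hp : IsPrim p ∧ Prime p) (hq : IsPrim q ∧ Prime q)
    (h : p ≠ q) : IsCoprime p q := by
  rw [hp.2.coprime_iff_not_dvd]
  intro hd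
  have := (hp.2.dvd_prime_iff_associated hq.2).1 hd
  exact h (hp.1.eq_of_associated hq.1 this)

lemma IsPS.coprime {P Q : Finset Eis} (hP : IsPS P) (hQ : IsPS Q) (h : Disjoint P Q) :
    IsCoprime (pr P) (pr Q) := by
  unfold pr
  apply IsCoprime.prod_left
  intro p hp
  apply IsCoprime.prod_right
  intro q hq
  exact isCoprime_of_ne (hP p hp) (hQ q hq) (fun e => Finset.disjoint_left.1 h hp (e ▸ hq))

lemma IsPS.dvd_iff {P : Finset Eis} (hP : IsPS P) {p : Eis} (hp : IsPrim p ∧ Prime p) :
    p ∣ pr P ↔ p ∈ P := by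
  constructor
  · intro h
    obtain ⟨q, hq, hd⟩ := (Prime.dvd_finsetProd_iff hp.2 (fun q => q)).1 h
    have := (hp.2.dvd_prime_iff_associated (hP q hq).2).1 hd
    rw [hp.1.eq_of_associated (hP q hq).1 this]
    exact hq
  · intro h
    exact Finset.dvd_prod_of_mem (fun q => q) h

lemma pr_injOn {P Q : Finset Eis} (hP : IsPS P) (hQ : IsPS Q) (h : pr P = pr Q) : P = Q := by
  ext p
  constructor
  · intro hp
    exact (hQ.dvd_iff (hP p hp)).1 (h ▸ (hP.dvd_iff (hP p hp)).2 hp)
  · intro hp
    exact (hP.dvd_iff (hQ p hp)).1 (h ▸ (hQ.dvd_iff (hQ p hp)).2 hp)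

lemma IsPS.squarefree {P : Finset Eis} (hP : IsPS P) : Squarefree (pr P) := by
  classical
  induction P using Finset.induction_on with
  | empty => exact squarefree_one
  | insert a s ha ih =>
    have h1 := hP a (Finset.mem_insert_self a s)
    have h2 := ih (hP.mono (Finset.subset_insert a s))
    rw [pr, Finset.prod_insert ha]
    have h3 : IsCoprime a (pr s) := by
      rw [h1.2.coprime_iff_not_dvd]
      intro hd
      exact ha (((hP.mono (Finset.subset_insert a s)).dvd_iff h1).1 hd)
    exact (squarefree_mul_iff).2 ⟨h3.isRelPrime, h1.2.squarefree, h2⟩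

/-- `pr E ∣ m` iff every element of `E` divides `m`. -/
lemma IsPS.pr_dvd_iff {E : Finset Eis} (hE : IsPS E) (m : Eis) :
    pr E ∣ m ↔ ∀ p ∈ E, p ∣ m := by
  constructor
  · intro h p hp
    exact ((hE.dvd_iff (hE p hp)).2 hp).trans h
  · intro h
    unfold pr
    apply Finset.prod_dvd_of_coprime
    · intro p hp q hq hne
      exact isCoprime_of_ne (hE p hp) (hE q hq) hne
    · exact h

lemma IsPS.isCoprime_iff {D : Finset Eis} (hD : IsPS D) (m : Eis) :
    IsCoprime m (pr D) ↔ ∀ p ∈ D, ¬ p ∣ m := by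
  unfold pr
  rw [IsCoprime.prod_right_iff]
  constructor
  · intro h p hp hd
    exact ((hD p hp).2.coprime_iff_not_dvd.1 (h p hp).symm) hd
  · intro h p hp
    exact ((hD p hp).2.coprime_iff_not_dvd.2 (h p hp)).symm

open Classical in
/-- the indicator of coprimality by inclusion-exclusion -/
lemma IsPS.indicator {D : Finset Eis} (hD : IsPS D) (m : Eis) :
    (if IsCoprime m (pr D) then (1 : ℂ) else 0) =
      ∑ E ∈ D.powerset, (-1) ^ E.card * (if pr E ∣ m then 1 else 0) := by
  have h1 : (if IsCoprime m (pr D) then (1 : ℂ) else 0) =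
      ∏ p ∈ D, ((-(if p ∣ m then (1 : ℂ) else 0)) + 1) := by
    by_cases h : IsCoprime m (pr D)
    · rw [if_pos h]
      symm
      apply Finset.prod_eq_one
      intro p hp
      rw [if_neg ((hD.isCoprime_iff m).1 h p hp)]
      simp
    · rw [if_neg h]
      rw [hD.isCoprime_iff] at h
      push Not at h
      obtain ⟨p, hp, hd⟩ := h
      symm
      apply Finset.prod_eq_zero hp
      rw [if_pos hd]; simp
  rw [h1, Finset.prod_add]
  refine Finset.sum_congr rfl fun E hE => ?_
  rw [Finset.prod_const_one, mul_one, Finset.prod_neg]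
  congr 1
  have hES := hD.mono (Finset.mem_powerset.1 hE)
  by_cases h : pr E ∣ m
  · rw [if_pos h]
    apply Finset.prod_eq_one
    intro p hp
    rw [if_pos ((hES.pr_dvd_iff m).1 h p hp)]
  · rw [if_neg h]
    rw [hES.pr_dvd_iff] at h
    push Not at h
    obtain ⟨p, hp, hd⟩ := h
    exact Finset.prod_eq_zero hp (if_neg hd)

open Classical in
/-- `∑_{D, F disjoint, D ∪ F ⊆ Q} (-1)^|F| X(D) = X(Q)`. -/
lemma sum_inclexcl {PS Q : Finset Eis} (hQ : Q ⊆ PS) (X : Finset Eis → ℂ) :
    ∑ D ∈ PS.powerset, ∑ F ∈ (PS \ D).powerset,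
      (-1) ^ F.card * (if D ∪ F ⊆ Q then X D else 0) = X Q := by
  have h1 : ∀ D ∈ PS.powerset, ∑ F ∈ (PS \ D).powerset,
      (-1) ^ F.card * (if D ∪ F ⊆ Q then X D else 0) = if D = Q then X Q else 0 := by
    intro D _
    by_cases hD : D ⊆ Q
    · have h2 : ∑ F ∈ (PS \ D).powerset, (-1) ^ F.card * (if D ∪ F ⊆ Q then X D else 0) =
          ∑ F ∈ (Q \ D).powerset, (-1) ^ F.card * X D := by
        symm
        apply Finset.sum_subset_zero_on_sdiff
        · exact Finset.powerset_mono.2 (Finset.sdiff_subset_sdiff hQ (Finset.Subset.refl D))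
        · intro F hF
          rw [Finset.mem_sdiff, Finset.mem_powerset, Finset.mem_powerset] at hF
          rw [if_neg, mul_zero]
          intro hu
          apply hF.2
          intro x hx
          rw [Finset.mem_sdiff]
          exact ⟨hu (Finset.mem_union_right D hx), (Finset.mem_sdiff.1 (hF.1 hx)).2⟩
        · intro F hF
          rw [Finset.mem_powerset] at hF
          rw [if_pos]
          exact Finset.union_subset hD (hF.trans Finset.sdiff_subset)
      rw [h2, ← Finset.sum_mul]
      have h3 := Finset.sum_powerset_neg_one_pow_card (x := Q \ D)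
      have h4 : (∑ F ∈ (Q \ D).powerset, (-1 : ℂ) ^ F.card) =
          ((∑ F ∈ (Q \ D).powerset, (-1 : ℤ) ^ F.card : ℤ) : ℂ) := by push_cast; rfl
      rw [h4, h3]
      by_cases hDQ : D = Q
      · subst hDQ; simp
      · rw [if_neg hDQ, if_neg]
        · simp
        · intro he
          apply hDQ
          exact Finset.Subset.antisymm hD (Finset.sdiff_eq_empty_iff_subset.1 he)
    · have hne : D ≠ Q := fun e => hD (e ▸ Finset.Subset.refl _)
      rw [if_neg hne]
      apply Finset.sum_eq_zero
      intro F _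
      rw [if_neg, mul_zero]
      exact fun hu => hD (Finset.union_subset_left hu)
  rw [Finset.sum_congr rfl h1, Finset.sum_ite_eq' PS.powerset Q (fun _ => X Q),
    if_pos (Finset.mem_powerset.2 hQ)]

end Crest.Agent.R012.LS2
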