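import Crest.Agent.R012.PoissonG_381
import Crest.Agent.R012.CharSum_852
import Crest.Agent.R012.LS2Pr_381

/-!
# Row 12 (L2): the exact dual identity (Gaussian weight, all numerators)

* `pair_coprime`  : two coprime squarefree primary moduli
* `pair_formula`  : two prime sets
* `dual_identity` : the full quadratic form
-/

set_option autoImplicit false

noncomputable section

namespace Crest.Agent.R012.LS2

open Eis CharSum852 Gauss880 Tau671
open Poisson381 (gau norm_gau summable_gau_one summable_gau poisson_gau_periodic s3 s3_eq_toC)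

/-- the dual coefficient -/
def U (e h k : Eis) : ℂ :=
  sy e k * sy sq3 k * (starRingEnd ℂ) (sy h k) * gs 1 k / (nm k : ℂ)

lemma toC_sq3 : toC sq3 = s3 := by
  rw [s3_eq_toC]
  congr 1

/-- `|sy m c|^2` -/
lemma sy_mul_conj_ite (H : SyFacts) {c : Eis} (hc : IsPrim c)
    (m : Eis) [Decidable (IsCoprime m c)] :
    sy m c * (starRingEnd ℂ) (sy m c) = if IsCoprime m c then 1 else 0 := by
  by_cases h : IsCoprime m c
  · rw [if_pos h]
    exact sy_mul_star hc h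
  · rw [if_neg h, Tau671.sy_eq_zero hc h, zero_mul]

theorem pair_coprime (H : SyFacts) (H' : SyG) {t : ℝ} (ht : 0 < t) {k1 k2 : Eis}
    (h1 : IsPrim k1) (h2 : IsPrim k2) (s1 : Squarefree k1) (s2 : Squarefree k2)
    (hcop : IsCoprime k1 k2) :
    HasSum (fun h : Eis => ((2 / Real.sqrt 3 * t⁻¹ : ℝ) : ℂ) *
      (gau (4 / (3 * (t * (nm k1 * nm k2)))) (toC h) * (U 1 h k1 * (starRingEnd ℂ) (U 1 h k2))))
      (∑' m : Eis, (sy m k1 * (starRingEnd ℂ) (sy m k2)) * gau t (toC m)) := by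
  have hq : k1 * k2 ≠ 0 := mul_ne_zero h1.ne_zero h2.ne_zero
  have hp : PMod (k1 * k2) (fun a => sy a k1 * (starRingEnd ℂ) (sy a k2)) :=
    ((pmod_sy h1).mono (dvd_mul_right _ _)).mul
      (((pmod_sy h2).comp (starRingEnd ℂ)).mono (dvd_mul_left _ _))
  have h := poisson_gau_periodic ht hq hp
  refine h.congr_fun ?_ |> fun h => h
  intro m
  have e1 : sumMod (k1 * k2) (fun a => sy a k1 * (starRingEnd ℂ) (sy a k2) *
      eC (toC a * toC m / (toC (k1 * k2) * s3))) =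
      sy sq3 k1 * (starRingEnd ℂ) (sy sq3 k2) * (gs m k1 * (starRingEnd ℂ) (gs m k2)) := by
    rw [← tau2_sq3 h1 h2 hcop m]
    refine sumMod_congr fun a => ?_
    rw [toC_sq3, mul_comm (toC a) (toC m), mul_comm (toC (k1 * k2)) s3]
  rw [e1, gs_squarefree H' h1 s1, gs_squarefree H' h2 s2]
  have n1 : (nm k1 : ℂ) ≠ 0 := by exact_mod_cast (nm_pos.2 h1.ne_zero).ne'
  have n2 : (nm k2 : ℂ) ≠ 0 := by exact_mod_cast (nm_pos.2 h2.ne_zero).ne'
  have ht' : (t : ℂ) ≠ 0 := by exact_mod_cast ht.ne'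
  have e2 : ((nm (k1 * k2) : ℕ) : ℝ) = (nm k1 : ℝ) * nm k2 := by rw [nm_mul]; push_cast; rfl
  rw [e2]
  unfold U
  rw [Gauss880.sy_one_left H' h1, Gauss880.sy_one_left H' h2]
  simp only [map_mul, map_div₀, Complex.conj_conj, map_natCast, one_mul]
  push_cast
  have h3 : ((Real.sqrt 3 : ℝ) : ℂ) ≠ 0 := by
    exact_mod_cast (Real.sqrt_pos.2 (by norm_num : (0:ℝ) < 3)).ne'
  field_simp

lemma U_eq (H' : SyG) {k : Eis} (hk : IsPrim k) (e h : Eis) : U e h k = sy e k * U 1 h k := by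
  unfold U
  rw [Gauss880.sy_one_left H' hk]
  ring

lemma gau_mul (t : ℝ) (e m : Eis) : gau t (toC (e * m)) = gau (t * nm e) (toC m) := by
  unfold Poisson381.gau
  congr 3
  rw [map_mul, norm_mul, mul_pow, norm_toC_sq]
  ring

lemma sy_bdd (H : SyFacts) {k1 k2 : Eis} (h1 : IsPrim k1) (h2 : IsPrim k2) (m : Eis) :
    ‖sy m k1 * (starRingEnd ℂ) (sy m k2)‖ ≤ 1 := by
  rw [norm_mul, RCLike.norm_conj]
  exact mul_le_one₀ (Tau671.norm_sy_le h1) (norm_nonneg _) (Tau671.norm_sy_le h2)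

lemma summable_pair (H : SyFacts) {t : ℝ} (ht : 0 < t) {k1 k2 : Eis}
    (h1 : IsPrim k1) (h2 : IsPrim k2) :
    Summable fun m : Eis => (sy m k1 * (starRingEnd ℂ) (sy m k2)) * gau t (toC m) := by
  refine Summable.of_norm_bounded (summable_gau_one ht).norm (fun m => ?_)
  rw [norm_mul]
  exact mul_le_of_le_one_left (norm_nonneg _) (sy_bdd H h1 h2 m)

open Classical in
theorem pair_dvd (H : SyFacts) (H' : SyG) {t : ℝ} (ht : 0 < t) {k1 k2 e : Eis}
    (h1 : IsPrim k1) (h2 : IsPrim k2) (s1 : Squarefree k1) (s2 : Squarefree k2)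
    (hcop : IsCoprime k1 k2) (he : e ≠ 0) :
    HasSum (fun h : Eis => ((2 / Real.sqrt 3 * (t * nm e)⁻¹ : ℝ) : ℂ) *
      (gau (4 / (3 * (t * nm e * (nm k1 * nm k2)))) (toC h) *
        (U e h k1 * (starRingEnd ℂ) (U e h k2))))
      (∑' m : Eis, (if e ∣ m then (1 : ℂ) else 0) *
        ((sy m k1 * (starRingEnd ℂ) (sy m k2)) * gau t (toC m))) := by
  have hne : 0 < (nm e : ℝ) := by exact_mod_cast nm_pos.2 he
  have h := (pair_coprime H H' (t := t * nm e) (by positivity) h1 h2 s1 s2 hcop).mul_left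
    (sy e k1 * (starRingEnd ℂ) (sy e k2))
  have e1 : (∑' m : Eis, (if e ∣ m then (1 : ℂ) else 0) *
        ((sy m k1 * (starRingEnd ℂ) (sy m k2)) * gau t (toC m))) =
      (sy e k1 * (starRingEnd ℂ) (sy e k2)) *
        ∑' m : Eis, (sy m k1 * (starRingEnd ℂ) (sy m k2)) * gau (t * nm e) (toC m) := by
    rw [← tsum_mul_left]
    have hinj : Function.Injective (fun m : Eis => e * m) := fun a b hab =>
      mul_left_cancel₀ he hab
    rw [← hinj.tsum_eq]
    · apply tsum_congr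
      intro m
      rw [if_pos (dvd_mul_right e m), one_mul, gau_mul, H.mul_left _ _ _ h1, H.mul_left _ _ _ h2,
        map_mul]
      ring
    · intro m hm
      by_contra hc
      apply hm
      beta_reduce
      rw [if_neg, zero_mul]
      rintro ⟨x, rfl⟩
      exact hc ⟨x, rfl⟩
  rw [e1]
  refine h.congr_fun ?_ |> fun h => h
  intro m
  rw [U_eq H' h1 e m, U_eq H' h2 e m, map_mul]
  ring

open Classical in
/-- **the pair formula** for two prime sets -/
theorem pair_formula (H : SyFacts) (H' : SyG) {t : ℝ} (ht : 0 < t) {P1 P2 : Finset Eis}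
    (hP1 : IsPS P1) (hP2 : IsPS P2) :
    ∑' m : Eis, (sy m (pr P1) * (starRingEnd ℂ) (sy m (pr P2))) * gau t (toC m) =
      ∑ E ∈ (P1 ∩ P2).powerset, (-1) ^ E.card *
        (((2 / Real.sqrt 3 * (t * nm (pr E))⁻¹ : ℝ) : ℂ) *
          ∑' h : Eis, gau (4 / (3 * (t * nm (pr E) *
              (nm (pr (P1 \ (P1 ∩ P2))) * nm (pr (P2 \ (P1 ∩ P2))))))) (toC h) *
            (U (pr E) h (pr (P1 \ (P1 ∩ P2))) *
              (starRingEnd ℂ) (U (pr E) h (pr (P2 \ (P1 ∩ P2)))))) := by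
  set D := P1 ∩ P2 with hD
  have hDS : IsPS D := hP1.mono Finset.inter_subset_left
  have hK1 : IsPS (P1 \ D) := hP1.mono Finset.sdiff_subset
  have hK2 : IsPS (P2 \ D) := hP2.mono Finset.sdiff_subset
  have hd1 : Disjoint D (P1 \ D) := Finset.disjoint_sdiff
  have hd2 : Disjoint D (P2 \ D) := Finset.disjoint_sdiff
  have hu1 : D ∪ (P1 \ D) = P1 := Finset.union_sdiff_of_subset Finset.inter_subset_left
  have hu2 : D ∪ (P2 \ D) = P2 := Finset.union_sdiff_of_subset Finset.inter_subset_right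
  have h12 : Disjoint (P1 \ D) (P2 \ D) := by
    rw [Finset.disjoint_left]
    intro p hp1 hp2
    rw [Finset.mem_sdiff] at hp1 hp2
    exact hp1.2 (Finset.mem_inter.2 ⟨hp1.1, hp2.1⟩)
  have e1 : ∀ m : Eis, (sy m (pr P1) * (starRingEnd ℂ) (sy m (pr P2))) * gau t (toC m) =
      ∑ E ∈ D.powerset, (-1) ^ E.card * ((if pr E ∣ m then (1 : ℂ) else 0) *
        ((sy m (pr (P1 \ D)) * (starRingEnd ℂ) (sy m (pr (P2 \ D)))) * gau t (toC m))) := by
    intro m
    have e2 := hDS.indicator m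
    rw [← sy_mul_conj_ite H hDS.prim m] at e2
    have e3 : sy m (pr P1) = sy m (pr D) * sy m (pr (P1 \ D)) := by
      rw [← H.mul_right _ _ _ hDS.prim hK1.prim, ← pr_union hd1, hu1]
    have e4 : sy m (pr P2) = sy m (pr D) * sy m (pr (P2 \ D)) := by
      rw [← H.mul_right _ _ _ hDS.prim hK2.prim, ← pr_union hd2, hu2]
    rw [e3, e4, map_mul]
    calc _ = (sy m (pr D) * (starRingEnd ℂ) (sy m (pr D))) *
          ((sy m (pr (P1 \ D)) * (starRingEnd ℂ) (sy m (pr (P2 \ D)))) * gau t (toC m)) := by ring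
      _ = _ := by
        rw [e2, Finset.sum_mul]
        refine Finset.sum_congr rfl fun E _ => by ring
  simp_rw [e1]
  have hsum : ∀ E : Finset Eis, Summable fun m : Eis => (-1 : ℂ) ^ E.card *
      ((if pr E ∣ m then (1 : ℂ) else 0) *
        ((sy m (pr (P1 \ D)) * (starRingEnd ℂ) (sy m (pr (P2 \ D)))) * gau t (toC m))) := by
    intro E
    refine Summable.of_norm_bounded (summable_gau_one ht).norm (fun m => ?_)
    rw [norm_mul, norm_mul, norm_mul, norm_pow, norm_neg, norm_one, one_pow, one_mul]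
    have b1 : ‖(if pr E ∣ m then (1 : ℂ) else 0)‖ ≤ 1 := by split_ifs <;> simp
    have b2 := sy_bdd H hK1.prim hK2.prim m
    calc _ ≤ 1 * (1 * ‖gau t (toC m)‖) := by gcongr
      _ = _ := by ring
  rw [Summable.tsum_finsetSum (fun E _ => hsum E)]
  refine Finset.sum_congr rfl fun E hE => ?_
  have hES : IsPS E := hDS.mono (Finset.mem_powerset.1 hE)
  rw [tsum_mul_left]
  congr 1
  rw [← (pair_dvd H H' ht hK1.prim hK2.prim hK1.squarefree hK2.squarefree
    (hK1.coprime hK2 h12) hES.ne_zero).tsum_eq, tsum_mul_left]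

/-- `∑ c_P sy m (pr P)` -/
def lin1 (PS : Finset Eis) (c : Finset Eis → ℂ) (m : Eis) : ℂ :=
  ∑ P ∈ PS.powerset, c P * sy m (pr P)

open Classical in
/-- the prime sets `P ⊆ PS` containing `D ∪ F` -/
def AA (PS D F : Finset Eis) : Finset (Finset Eis) := PS.powerset.filter (fun P => D ∪ F ⊆ P)

open Classical in
/-- the dual vector -/
def VV (c : Finset Eis → ℂ) (D E : Finset Eis) (h : Eis) (P : Finset Eis) : ℂ :=
  c P * U (pr E) h (pr (P \ D))

open Classical in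
/-- the dual quadratic form at the frequency `h` -/
def QQ (t : ℝ) (PS : Finset Eis) (c : Finset Eis → ℂ) (D F E : Finset Eis) (h : Eis) : ℂ :=
  ∑ P1 ∈ AA PS D F, ∑ P2 ∈ AA PS D F,
    gau (4 / (3 * (t * nm (pr E) * (nm (pr (P1 \ D)) * nm (pr (P2 \ D)))))) (toC h) *
      (VV c D E h P1 * (starRingEnd ℂ) (VV c D E h P2))

lemma norm_U_le (H : SyFacts) (H' : SyG) {k : Eis} (hk : IsPrim k) (hs : Squarefree k) (e h : Eis) :
    ‖U e h k‖ ≤ 1 / Real.sqrt (nm k) := by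
  unfold U
  have hk0 : 0 < (nm k : ℝ) := by exact_mod_cast nm_pos.2 hk.ne_zero
  rw [norm_div, norm_mul, norm_mul, norm_mul, RCLike.norm_conj,
    norm_gs H' hk hs isCoprime_one_left, Complex.norm_natCast]
  have b1 := Tau671.norm_sy_le hk (x := e)
  have b2 := Tau671.norm_sy_le hk (x := sq3)
  have b3 := Tau671.norm_sy_le hk (x := h)
  have hsq : Real.sqrt (nm k) * Real.sqrt (nm k) = nm k := Real.mul_self_sqrt hk0.le
  have hsp : 0 < Real.sqrt (nm k) := Real.sqrt_pos.2 hk0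
  rw [div_le_div_iff₀ hk0 hsp, one_mul]
  have : ‖sy e k‖ * ‖sy sq3 k‖ * ‖sy h k‖ ≤ 1 := by
    have := mul_le_one₀ b1 (norm_nonneg _) b2
    exact mul_le_one₀ this (norm_nonneg _) b3
  calc ‖sy e k‖ * ‖sy sq3 k‖ * ‖sy h k‖ * Real.sqrt (nm k) * Real.sqrt (nm k)
      = (‖sy e k‖ * ‖sy sq3 k‖ * ‖sy h k‖) * (Real.sqrt (nm k) * Real.sqrt (nm k)) := by ring
    _ = (‖sy e k‖ * ‖sy sq3 k‖ * ‖sy h k‖) * (nm k : ℝ) := by rw [hsq]
    _ ≤ 1 * (nm k : ℝ) := by gcongr
    _ = _ := one_mul _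

lemma norm_U_le_one (H : SyFacts) (H' : SyG) {k : Eis} (hk : IsPrim k) (hs : Squarefree k)
    (e h : Eis) : ‖U e h k‖ ≤ 1 := by
  refine (norm_U_le H H' hk hs e h).trans ?_
  have hk1 : (1 : ℝ) ≤ nm k := by exact_mod_cast nm_pos.2 hk.ne_zero
  rw [div_le_one (Real.sqrt_pos.2 (by linarith))]
  exact Real.one_le_sqrt.2 hk1

lemma summable_term (H : SyFacts) (H' : SyG) {t : ℝ} (ht : 0 < t) {k1 k2 : Eis}
    (h1 : IsPrim k1) (h2 : IsPrim k2) (s1 : Squarefree k1) (s2 : Squarefree k2) (e : Eis) (a b : ℂ) :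
    Summable fun h : Eis => gau t (toC h) * ((a * U e h k1) * (starRingEnd ℂ) (b * U e h k2)) := by
  refine Summable.of_norm_bounded ((summable_gau_one ht).norm.mul_right (‖a‖ * ‖b‖)) (fun m => ?_)
  rw [norm_mul, norm_mul, norm_mul, RCLike.norm_conj, norm_mul]
  have b1 := norm_U_le_one H H' h1 s1 e m
  have b2 := norm_U_le_one H H' h2 s2 e m
  have : ‖a‖ * ‖U e m k1‖ * (‖b‖ * ‖U e m k2‖) ≤ ‖a‖ * 1 * (‖b‖ * 1) := by gcongr
  calc _ ≤ ‖gau t (toC m)‖ * (‖a‖ * 1 * (‖b‖ * 1)) := by gcongr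
    _ = _ := by ring

open Classical in
lemma mem_AA {PS D F P : Finset Eis} : P ∈ AA PS D F ↔ P ⊆ PS ∧ D ∪ F ⊆ P := by
  unfold AA
  rw [Finset.mem_filter, Finset.mem_powerset]

lemma summable_QQ (H : SyFacts) (H' : SyG) {t : ℝ} (ht : 0 < t) {PS : Finset Eis} (hPS : IsPS PS)
    (c : Finset Eis → ℂ) {D F E : Finset Eis} (hE : IsPS E) :
    Summable fun h : Eis => QQ t PS c D F E h := by
  classical
  unfold QQ
  refine summable_sum fun P1 h1 => summable_sum fun P2 h2 => ?_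
  have hk1 : IsPS (P1 \ D) := hPS.mono (Finset.sdiff_subset.trans (mem_AA.1 h1).1)
  have hk2 : IsPS (P2 \ D) := hPS.mono (Finset.sdiff_subset.trans (mem_AA.1 h2).1)
  have n1 : 0 < (nm (pr (P1 \ D)) : ℝ) := by exact_mod_cast nm_pos.2 hk1.ne_zero
  have n2 : 0 < (nm (pr (P2 \ D)) : ℝ) := by exact_mod_cast nm_pos.2 hk2.ne_zero
  have n3 : 0 < (nm (pr E) : ℝ) := by exact_mod_cast nm_pos.2 hE.ne_zero
  exact summable_term H H' (by positivity) hk1.prim hk2.prim hk1.squarefree hk2.squarefree _ _ _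

open Classical in
/-- **the exact dual identity** -/
theorem dual_identity (H : SyFacts) (H' : SyG) {t : ℝ} (ht : 0 < t) {PS : Finset Eis}
    (hPS : IsPS PS) (c : Finset Eis → ℂ) :
    ∑' m : Eis, ((‖lin1 PS c m‖ ^ 2 : ℝ) : ℂ) * gau t (toC m) =
      ∑ D ∈ PS.powerset, ∑ F ∈ (PS \ D).powerset, ∑ E ∈ D.powerset,
        (-1) ^ F.card * ((-1) ^ E.card * (((2 / Real.sqrt 3 * (t * nm (pr E))⁻¹ : ℝ) : ℂ) *
          ∑' h : Eis, QQ t PS c D F E h)) := by
  -- the summand for fixed `D, E, P1, P2`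
  set Φ : Finset Eis → Finset Eis → Finset Eis → Finset Eis → ℂ := fun D E P1 P2 =>
    ((2 / Real.sqrt 3 * (t * nm (pr E))⁻¹ : ℝ) : ℂ) *
      ∑' h : Eis, gau (4 / (3 * (t * nm (pr E) * (nm (pr (P1 \ D)) * nm (pr (P2 \ D)))))) (toC h) *
        (VV c D E h P1 * (starRingEnd ℂ) (VV c D E h P2)) with hΦ
  have hsq : ∀ m : Eis, ((‖lin1 PS c m‖ ^ 2 : ℝ) : ℂ) * gau t (toC m) =
      ∑ P1 ∈ PS.powerset, ∑ P2 ∈ PS.powerset, (c P1 * (starRingEnd ℂ) (c P2)) *
        ((sy m (pr P1) * (starRingEnd ℂ) (sy m (pr P2))) * gau t (toC m)) := by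
    intro m
    have : ((‖lin1 PS c m‖ ^ 2 : ℝ) : ℂ) = lin1 PS c m * (starRingEnd ℂ) (lin1 PS c m) := by
      rw [Complex.mul_conj, Complex.normSq_eq_norm_sq]
    rw [this]
    unfold lin1
    rw [map_sum, Finset.sum_mul_sum, Finset.sum_mul]
    refine Finset.sum_congr rfl fun P1 _ => ?_
    rw [Finset.sum_mul]
    refine Finset.sum_congr rfl fun P2 _ => ?_
    rw [map_mul]; ring
  simp_rw [hsq]
  have hs : ∀ P1 ∈ PS.powerset, ∀ P2 ∈ PS.powerset, Summable fun m : Eis =>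
      (c P1 * (starRingEnd ℂ) (c P2)) *
        ((sy m (pr P1) * (starRingEnd ℂ) (sy m (pr P2))) * gau t (toC m)) := by
    intro P1 h1 P2 h2
    exact (summable_pair H ht (hPS.mono (Finset.mem_powerset.1 h1)).prim
      (hPS.mono (Finset.mem_powerset.1 h2)).prim).mul_left _
  rw [Summable.tsum_finsetSum (fun P1 h1 => summable_sum fun P2 h2 => hs P1 h1 P2 h2)]
  have e1 : ∀ P1 ∈ PS.powerset, ∑' m : Eis, ∑ P2 ∈ PS.powerset,
      (c P1 * (starRingEnd ℂ) (c P2)) *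
        ((sy m (pr P1) * (starRingEnd ℂ) (sy m (pr P2))) * gau t (toC m)) =
      ∑ P2 ∈ PS.powerset, ∑ E ∈ (P1 ∩ P2).powerset, (-1) ^ E.card * Φ (P1 ∩ P2) E P1 P2 := by
    intro P1 h1
    rw [Summable.tsum_finsetSum (fun P2 h2 => hs P1 h1 P2 h2)]
    refine Finset.sum_congr rfl fun P2 h2 => ?_
    rw [tsum_mul_left, pair_formula H H' ht (hPS.mono (Finset.mem_powerset.1 h1))
      (hPS.mono (Finset.mem_powerset.1 h2)), Finset.mul_sum]
    refine Finset.sum_congr rfl fun E hE => ?_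
    rw [hΦ]
    simp only
    rw [← tsum_mul_left, ← tsum_mul_left, ← tsum_mul_left, ← tsum_mul_left, ← tsum_mul_left]
    apply tsum_congr
    intro m
    unfold VV
    rw [map_mul]
    ring
  rw [Finset.sum_congr rfl e1]
  -- inclusion-exclusion
  have e2 : ∀ P1 ∈ PS.powerset, ∀ P2 ∈ PS.powerset,
      ∑ E ∈ (P1 ∩ P2).powerset, (-1) ^ E.card * Φ (P1 ∩ P2) E P1 P2 =
      ∑ D ∈ PS.powerset, ∑ F ∈ (PS \ D).powerset,
        (-1) ^ F.card * (if D ∪ F ⊆ P1 ∩ P2 then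
          ∑ E ∈ D.powerset, (-1) ^ E.card * Φ D E P1 P2 else 0) := by
    intro P1 h1 P2 h2
    rw [sum_inclexcl (Q := P1 ∩ P2)
      (Finset.inter_subset_left.trans (Finset.mem_powerset.1 h1))
      (fun D => ∑ E ∈ D.powerset, (-1) ^ E.card * Φ D E P1 P2)]
  rw [Finset.sum_congr rfl fun P1 h1 => Finset.sum_congr rfl fun P2 h2 => e2 P1 h1 P2 h2]
  rw [Finset.sum_congr rfl fun P1 _ => Finset.sum_comm]
  rw [Finset.sum_comm]
  refine Finset.sum_congr rfl fun D hD => ?_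
  rw [Finset.sum_congr rfl fun P1 _ => Finset.sum_comm]
  rw [Finset.sum_comm]
  refine Finset.sum_congr rfl fun F hF => ?_
  -- both sides
  have e3 : ∀ E ∈ D.powerset, ∑' h : Eis, QQ t PS c D F E h =
      ∑ P1 ∈ AA PS D F, ∑ P2 ∈ AA PS D F, ∑' h : Eis,
        gau (4 / (3 * (t * nm (pr E) * (nm (pr (P1 \ D)) * nm (pr (P2 \ D)))))) (toC h) *
          (VV c D E h P1 * (starRingEnd ℂ) (VV c D E h P2)) := by
    intro E hE
    have hES : IsPS E := hPS.mono ((Finset.mem_powerset.1 hE).trans (Finset.mem_powerset.1 hD))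
    unfold QQ
    have hs2 : ∀ P1 ∈ AA PS D F, ∀ P2 ∈ AA PS D F, Summable fun h : Eis =>
        gau (4 / (3 * (t * nm (pr E) * (nm (pr (P1 \ D)) * nm (pr (P2 \ D)))))) (toC h) *
          (VV c D E h P1 * (starRingEnd ℂ) (VV c D E h P2)) := by
      intro P1 h1 P2 h2
      have hk1 : IsPS (P1 \ D) := hPS.mono (Finset.sdiff_subset.trans (mem_AA.1 h1).1)
      have hk2 : IsPS (P2 \ D) := hPS.mono (Finset.sdiff_subset.trans (mem_AA.1 h2).1)
      have n1 : 0 < (nm (pr (P1 \ D)) : ℝ) := by exact_mod_cast nm_pos.2 hk1.ne_zero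
      have n2 : 0 < (nm (pr (P2 \ D)) : ℝ) := by exact_mod_cast nm_pos.2 hk2.ne_zero
      have n3 : 0 < (nm (pr E) : ℝ) := by exact_mod_cast nm_pos.2 hES.ne_zero
      exact summable_term H H' (by positivity) hk1.prim hk2.prim hk1.squarefree hk2.squarefree
        _ _ _
    rw [Summable.tsum_finsetSum (fun P1 h1 => summable_sum fun P2 h2 => hs2 P1 h1 P2 h2)]
    refine Finset.sum_congr rfl fun P1 h1 => ?_
    rw [Summable.tsum_finsetSum (fun P2 h2 => hs2 P1 h1 P2 h2)]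
  have e4 : ∀ P1 P2 : Finset Eis, (D ∪ F ⊆ P1 ∩ P2) ↔ (D ∪ F ⊆ P1 ∧ D ∪ F ⊆ P2) := fun P1 P2 =>
    Finset.subset_inter_iff
  calc ∑ P1 ∈ PS.powerset, ∑ P2 ∈ PS.powerset, (-1) ^ F.card * (if D ∪ F ⊆ P1 ∩ P2 then
          ∑ E ∈ D.powerset, (-1) ^ E.card * Φ D E P1 P2 else 0)
      = ∑ P1 ∈ AA PS D F, ∑ P2 ∈ AA PS D F, (-1) ^ F.card *
          ∑ E ∈ D.powerset, (-1) ^ E.card * Φ D E P1 P2 := by
        unfold AA
        rw [Finset.sum_filter]
        refine Finset.sum_congr rfl fun P1 _ => ?_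
        by_cases h1 : D ∪ F ⊆ P1
        · rw [if_pos h1, Finset.sum_filter]
          refine Finset.sum_congr rfl fun P2 _ => ?_
          by_cases h2 : D ∪ F ⊆ P2
          · rw [if_pos h2, if_pos ((e4 P1 P2).2 ⟨h1, h2⟩)]
          · rw [if_neg h2, if_neg (fun h => h2 ((e4 P1 P2).1 h).2), mul_zero]
        · rw [if_neg h1]
          apply Finset.sum_eq_zero
          intro P2 _
          rw [if_neg (fun h => h1 ((e4 P1 P2).1 h).1), mul_zero]
    _ = ∑ E ∈ D.powerset, ∑ P1 ∈ AA PS D F, ∑ P2 ∈ AA PS D F, (-1) ^ F.card *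
          ((-1) ^ E.card * Φ D E P1 P2) := by
        rw [Finset.sum_comm' (s := D.powerset) (t := fun _ => AA PS D F)
          (t' := AA PS D F) (s' := fun _ => D.powerset) (by intros; tauto)]
        refine Finset.sum_congr rfl fun P1 _ => ?_
        rw [Finset.sum_comm]
        refine Finset.sum_congr rfl fun P2 _ => ?_
        rw [Finset.mul_sum]
    _ = _ := by
        refine Finset.sum_congr rfl fun E hE => ?_
        rw [e3 E hE, Finset.mul_sum, Finset.mul_sum, Finset.mul_sum]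
        refine Finset.sum_congr rfl fun P1 _ => ?_
        rw [Finset.mul_sum, Finset.mul_sum, Finset.mul_sum]

end Crest.Agent.R012.LS2
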