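import Crest.Agent.R012.LS2ind_448
import Crest.Agent.R012.LS2Spec_381
import Crest.Agent.R012.Sym4_645

/-!
# Row 12 (L2): `LS2.Step2 → LS2.Final`

* `symLike_sy : SymLike sy`
* `final_of_step2 : LS2.Step2 → LS2.Final`
-/

set_option autoImplicit false

noncomputable section

open Finset

namespace Crest.Agent.R012.LS448

open Crest.Agent.R012 Crest.Agent.R012.Eis

lemma symLike_sy : SymLike sy where
  mul x y n hn := Sym645.sy_mul_left (Sym645.prim_nm_mod hn) x y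
  val x n hn := by
    by_cases h : IsCoprime x n
    · exact Or.inr (Sym645.sy_cube (Sym645.prim_nm_mod hn) h)
    · exact Or.inl ((Sym645.sy_eq_zero_iff (Sym645.prim_nm_mod hn)).mpr h)
  symm m n hm hn := Sym645.sy_reciprocity hm hn

lemma S_eq (X : ℝ) (hX : 0 ≤ X) : LS2.S X = SF X := by
  ext n
  rw [LS2.mem_S hX, mem_SF]

lemma Sd_eq (X : ℝ) (hX : 0 ≤ X) : LS2.Sd X = SFdy X := by
  ext n
  rw [LS2.mem_Sd hX, mem_SFdy]

lemma bl_eq (X : ℝ) : LS2.bl X = nz X := rfl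

lemma HB_iff {M N C : ℝ} (hM : 0 ≤ M) (hN : 0 ≤ N) :
    LS2.HB M N C ↔ Adm (SF M) (SF N) sy C := by
  unfold LS2.HB Adm
  rw [S_eq M hM, S_eq N hN]

lemma HBd_iff {M N C : ℝ} (hM : 0 ≤ M) (hN : 0 ≤ N) :
    LS2.HBd M N C ↔ Adm (SF M) (SFdy N) sy C := by
  unfold LS2.HBd Adm
  rw [S_eq M hM, Sd_eq N hN]

lemma HB2_iff {K N C : ℝ} (hN : 0 ≤ N) :
    LS2.HB2 K N C ↔ Adm (nz K) (SF N) sy C := by
  unfold LS2.HB2 Adm
  rw [S_eq N hN, bl_eq]

/-- The two formulations of STEP 2. -/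
lemma step2_of (h : LS2.Step2) : Step2 sy := by
  intro ε hε
  obtain ⟨C, hC, hs⟩ := h ε hε
  refine ⟨C, hC, fun M N G hM hN hG hd => ?_⟩
  have hM0 : 0 < M := by linarith
  have hN0 : 0 < N := by linarith
  refine bc_le (by positivity) ?_
  rw [← HBd_iff hM0.le hN0.le]
  refine hs M N hM hN G hG fun d e he hed hdN => ?_
  have he0 : 0 < e := by linarith
  have hd0 : 0 < d := by linarith
  refine ⟨B2f sy (e * N ^ 2 * (M * N) ^ ε / (d ^ 2 * M)) (N / d), B2f_nonneg _ _, ?_,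
    hd d e he hed hdN⟩
  rw [HB2_iff (by positivity)]
  have e1 : e * N ^ 2 / (d ^ 2 * M) * (M * N) ^ ε = e * N ^ 2 * (M * N) ^ ε / (d ^ 2 * M) := by
    ring
  rw [e1]
  exact bc_spec _ _ _

/-- Heath-Brown's cubic large sieve from the Poisson step. -/
theorem final_of_step2 (h : LS2.Step2) : LS2.Final := by
  intro ε hε
  obtain ⟨C, hC, hb⟩ := hbLS_of_step2 symLike_sy (step2_of h) hε
  refine ⟨C, hC, fun M N hM hN => ?_⟩
  rw [HB_iff (by linarith) (by linarith)]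
  exact adm_of_bc_le (hb M N hM hN)

end Crest.Agent.R012.LS448
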