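import Crest.Agent.R012.LSnum_448

/-!
# Row 12: the induction in Heath-Brown's cubic large sieve (STEP 3 and STEP 4 of (L2))

`hbLS_of_step2` : from the output `Step2 φ` of the Poisson step,
`Bf φ M N ≤ C (MN)^ε (M + N + (MN)^(2/3))`.
-/

set_option autoImplicit false

noncomputable section

open Finset

namespace Crest.Agent.R012.LS448

open Crest.Agent.R012 Crest.Agent.R012.Eis

variable {φ : Eis → Eis → ℂ}

/-- The output of the Poisson step. -/
def Step2 (φ : Eis → Eis → ℂ) : Prop :=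
  ∀ ε : ℝ, 0 < ε → ∃ C : ℝ, 0 < C ∧ ∀ M N G : ℝ, 1 ≤ M → 1 ≤ N → 0 ≤ G →
    (∀ d e : ℝ, 1 ≤ e → e ≤ d → d ≤ N →
      M * d / (e * N) * B2f φ (e * N ^ 2 * (M * N) ^ ε / (d ^ 2 * M)) (N / d) ≤ G) →
    Bdy φ M N ≤ C * (M * N) ^ ε * (M + G)

/-- The statement `Q_j` for `x = x_j`. -/
def PP (φ : Eis → Eis → ℂ) (x : ℝ) : Prop :=
  ∀ ε : ℝ, 0 < ε → ∃ C : ℝ, 0 < C ∧ ∀ M N : ℝ, 1 ≤ M → 1 ≤ N → N ^ x ≤ M →
    Bf φ M N ≤ C * (M * N) ^ ε * (M + (M * N) ^ ((2 : ℝ) / 3))

/-- Dyadic decomposition of the columns. -/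
lemma Bf_le_of_Bdy {M N Y : ℝ} (hN : 1 ≤ N) (hY : 0 ≤ Y)
    (h : ∀ N' : ℝ, 1 ≤ N' → N' ≤ N → Bdy φ M N' ≤ Y) :
    Bf φ M N ≤ ((Nat.log 2 ⌊N⌋₊ : ℝ) + 1) * Y := by
  classical
  set L := Nat.log 2 ⌊N⌋₊ with hL
  have hN0 : 0 < N := by linarith
  have hpow : (2 : ℝ) ^ L ≤ N := by
    have h2 : 2 ^ L ≤ ⌊N⌋₊ := Nat.pow_log_le_self 2 (Nat.floor_pos.mpr hN).ne'
    calc (2 : ℝ) ^ L ≤ (⌊N⌋₊ : ℝ) := by exact_mod_cast h2
      _ ≤ N := Nat.floor_le hN0.le
  have hsub : SF N ⊆ (range (L + 1)).biUnion (fun i => SFdy (N / 2 ^ i)) := by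
    intro n hn
    rw [mem_SF] at hn
    have n1 := one_le_nm' hn.2.1.ne_zero
    have n0 : (0 : ℝ) < nm n := by linarith
    rw [mem_biUnion]
    set i := Nat.log 2 ⌊N / nm n⌋₊ with hi
    have hfl : 0 < ⌊N / nm n⌋₊ := Nat.floor_pos.mpr (by rw [le_div_iff₀ n0]; linarith [hn.1])
    have h1 : 2 ^ i ≤ ⌊N / nm n⌋₊ := Nat.pow_log_le_self 2 hfl.ne'
    have h2 : ⌊N / nm n⌋₊ < 2 ^ (i + 1) := Nat.lt_pow_succ_log_self (by norm_num) _
    have h1' : (2 : ℝ) ^ i ≤ N / nm n := by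
      calc (2 : ℝ) ^ i ≤ (⌊N / nm n⌋₊ : ℝ) := by exact_mod_cast h1
        _ ≤ _ := Nat.floor_le (by positivity)
    have h2' : N / nm n < (2 : ℝ) ^ (i + 1) := by
      have := (Nat.floor_lt (by positivity)).mp h2
      exact_mod_cast this
    refine ⟨i, ?_, ?_⟩
    · rw [mem_range, Nat.lt_succ_iff]
      exact Nat.log_mono_right (Nat.floor_le_floor (div_le_self hN0.le n1))
    · rw [mem_SFdy]
      refine ⟨?_, ?_, hn.2⟩
      · rw [div_div, ← pow_succ, div_lt_iff₀ (by positivity)]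
        rw [div_lt_iff₀ n0] at h2'
        linarith
      · rw [le_div_iff₀ (by positivity)]
        rw [le_div_iff₀ n0] at h1'
        linarith
  have hdisj : ((range (L + 1) : Finset ℕ) : Set ℕ).PairwiseDisjoint
      (fun i => SFdy (N / 2 ^ i)) := by
    have key : ∀ i j : ℕ, i < j → Disjoint (SFdy (N / 2 ^ i)) (SFdy (N / 2 ^ j)) := by
      intro i j hij
      rw [Finset.disjoint_left]
      intro n hn hn'
      rw [mem_SFdy] at hn hn'
      have h1 := hn.1
      have h2 := hn'.2.1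
      rw [div_div, ← pow_succ] at h1
      have h3 : N / 2 ^ j ≤ N / 2 ^ (i + 1) := by
        apply div_le_div_of_nonneg_left hN0.le (by positivity)
        exact pow_le_pow_right₀ (by norm_num) hij
      linarith
    intro i _ j _ hij
    rcases lt_or_gt_of_ne hij with h | h
    · exact key i j h
    · exact (key j i h).symm
  calc Bf φ M N ≤ bc (SF M) ((range (L + 1)).biUnion (fun i => SFdy (N / 2 ^ i))) φ :=
        bc_mono_right _ hsub _
    _ ≤ #(range (L + 1)) * Y := by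
        refine bc_biUnion_right_le _ _ _ hdisj _ hY fun i hi => ?_
        rw [mem_range, Nat.lt_succ_iff] at hi
        refine h _ ?_ (div_le_self hN0.le (one_le_pow₀ (by norm_num)))
        rw [le_div_iff₀ (by positivity), one_mul]
        exact (pow_le_pow_right₀ (by norm_num) hi).trans hpow
    _ = _ := by rw [card_range]; push_cast; ring

/-- From dyadic columns to all columns. -/
lemma PP_of_dy {x : ℝ} (hx : 0 ≤ x)
    (h : ∀ ε : ℝ, 0 < ε → ∃ C : ℝ, 0 < C ∧ ∀ M N : ℝ, 1 ≤ M → 1 ≤ N → N ^ x ≤ M →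
      Bdy φ M N ≤ C * (M * N) ^ ε * (M + (M * N) ^ ((2 : ℝ) / 3))) : PP φ x := by
  intro ε hε
  obtain ⟨C, hC, hb⟩ := h (ε / 2) (by positivity)
  obtain ⟨C', hC', hl⟩ := log2_floor_le (ε := ε / 2) (by positivity)
  refine ⟨C' * C, by positivity, fun M N hM hN hx' => ?_⟩
  have hM0 : 0 < M := by linarith
  have hN0 : 0 < N := by linarith
  set Y : ℝ := C * (M * N) ^ (ε / 2) * (M + (M * N) ^ ((2 : ℝ) / 3)) with hY
  have hY0 : 0 ≤ Y := by positivity
  have h1 : ∀ N' : ℝ, 1 ≤ N' → N' ≤ N → Bdy φ M N' ≤ Y := by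
    intro N' h1' h2'
    have h0' : 0 < N' := by linarith
    refine (hb M N' hM h1' ((Real.rpow_le_rpow h0'.le h2' hx).trans hx')).trans ?_
    rw [hY]; gcongr
  refine (Bf_le_of_Bdy hN hY0 h1).trans ?_
  calc ((Nat.log 2 ⌊N⌋₊ : ℝ) + 1) * Y ≤ (C' * N ^ (ε / 2)) * Y := by gcongr; exact hl N hN
    _ ≤ (C' * (M * N) ^ (ε / 2)) * Y := by
        gcongr
        exact le_mul_of_one_le_left hN0.le hM
    _ = C' * C * ((M * N) ^ (ε / 2) * (M * N) ^ (ε / 2)) * (M + (M * N) ^ ((2 : ℝ) / 3)) := by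
        rw [hY]; ring
    _ = _ := by
        rw [← Real.rpow_add (by positivity)]; congr 3; ring

/-- Using `PP` slightly outside its range. -/
lemma PP.ext {x : ℝ} (h : PP φ x) {ε : ℝ} (hε : 0 < ε) :
    ∃ C : ℝ, 0 < C ∧ ∀ M N T : ℝ, 1 ≤ M → 1 ≤ N → 1 ≤ T → N ^ x ≤ M * T →
      Bf φ M N ≤ C * (M * N * T) ^ ε * T * (M + (M * N) ^ ((2 : ℝ) / 3)) := by
  obtain ⟨C, hC, hb⟩ := h ε hε
  refine ⟨C, hC, fun M N T hM hN hT hx => ?_⟩
  have hM0 : 0 < M := by linarith
  have hN0 : 0 < N := by linarith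
  have hT0 : 0 < T := by linarith
  have h1 := hb (M * T) N (one_le_mul_of_one_le_of_one_le hM hT) hN hx
  refine (Bf_mono (le_mul_of_one_le_right hM0.le hT) le_rfl).trans (h1.trans ?_)
  have e1 : M * T * N = M * N * T := by ring
  rw [e1]
  have h2 : (M * N * T) ^ ((2 : ℝ) / 3) ≤ T * (M * N) ^ ((2 : ℝ) / 3) := by
    rw [Real.mul_rpow (by positivity) hT0.le, mul_comm]
    gcongr
    calc T ^ ((2 : ℝ) / 3) ≤ T ^ (1 : ℝ) := Real.rpow_le_rpow_of_exponent_le hT (by norm_num)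
      _ = T := Real.rpow_one T
  calc C * (M * N * T) ^ ε * (M * T + (M * N * T) ^ ((2 : ℝ) / 3))
      ≤ C * (M * N * T) ^ ε * (M * T + T * (M * N) ^ ((2 : ℝ) / 3)) := by gcongr
    _ = _ := by ring

/-- `PP 2`. -/
lemma PP_two (hφ : SymLike φ) (h2 : Step2 φ) : PP φ 2 := by
  refine PP_of_dy (by norm_num) fun ε hε => ?_
  set δ : ℝ := min ε 1 / 4 with hδ
  have hδ0 : 0 < δ := by positivity
  have hδ1 : δ ≤ 1 := by have := min_le_right ε 1; rw [hδ]; linarith
  have hδε : 4 * δ ≤ ε := by have := min_le_left ε 1; rw [hδ]; linarith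
  obtain ⟨C, hC, hs⟩ := h2 δ hδ0
  obtain ⟨C', hC', hl⟩ := LL_le hδ0
  refine ⟨C * (1 + C' ^ 2), by positivity, fun M N hM hN hx => ?_⟩
  have hM0 : 0 < M := by linarith
  have hN0 : 0 < N := by linarith
  have hMN : 1 ≤ M * N := one_le_mul_of_one_le_of_one_le hM hN
  rw [Real.rpow_two] at hx
  set p : ℝ := (M * N) ^ δ with hp
  have hp1 : 1 ≤ p := Real.one_le_rpow hMN hδ0.le
  have hpP : p ≤ M * N := by
    calc p ≤ (M * N) ^ (1 : ℝ) := Real.rpow_le_rpow_of_exponent_le hMN hδ1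
      _ = _ := Real.rpow_one _
  have hp0 : 0 < p := by linarith
  have hG : ∀ d e : ℝ, 1 ≤ e → e ≤ d → d ≤ N →
      M * d / (e * N) * B2f φ (e * N ^ 2 * p / (d ^ 2 * M)) (N / d) ≤ M * C' ^ 2 * p ^ 3 := by
    intro d e he hed hdN
    have he0 : 0 < e := by linarith
    have hd1 : 1 ≤ d := he.trans hed
    have hd0 : 0 < d := by linarith
    have hK : e * N ^ 2 * p / (d ^ 2 * M) ≤ p := by
      rw [div_le_iff₀ (by positivity)]
      have h1 : e ≤ d ^ 2 := hed.trans (le_self_pow₀ hd1 (by norm_num))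
      calc e * N ^ 2 * p ≤ d ^ 2 * M * p := by gcongr
        _ = _ := by ring
    have hL1 : LL (e * N ^ 2 * p / (d ^ 2 * M)) ≤ C' * p :=
      (LL_mono (hK.trans hpP)).trans (hl _ hMN)
    have hL2 : LL (N / d) ≤ C' * p := by
      refine (LL_mono ?_).trans (hl _ hMN)
      exact (div_le_self hN0.le hd1).trans (le_mul_of_one_le_left hN0.le hM)
    have hKn : 0 ≤ e * N ^ 2 * p / (d ^ 2 * M) := by positivity
    have h3 := B2f_trivial hφ (e * N ^ 2 * p / (d ^ 2 * M)) (N / d) hKn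
    calc M * d / (e * N) * B2f φ (e * N ^ 2 * p / (d ^ 2 * M)) (N / d)
        ≤ M * d / (e * N) * ((e * N ^ 2 * p / (d ^ 2 * M) * (C' * p)) * (N / d * (C' * p))) := by
          refine mul_le_mul_of_nonneg_left (h3.trans ?_) (by positivity)
          have := LL_nonneg (N / d)
          gcongr
      _ = N ^ 2 / d ^ 2 * C' ^ 2 * p ^ 3 := by field_simp
      _ ≤ M * C' ^ 2 * p ^ 3 := by
          gcongr
          exact (div_le_self (by positivity) (one_le_pow₀ hd1)).trans hx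
  refine (hs M N (M * C' ^ 2 * p ^ 3) hM hN (by positivity) hG).trans ?_
  have hp4 : p ^ 4 ≤ (M * N) ^ ε := by
    rw [hp, ← Real.rpow_natCast, ← Real.rpow_mul (by positivity)]
    refine Real.rpow_le_rpow_of_exponent_le hMN ?_
    push_cast; linarith
  have hp3 : 1 ≤ p ^ 3 := one_le_pow₀ hp1
  calc C * p * (M + M * C' ^ 2 * p ^ 3)
      ≤ C * p * (M * p ^ 3 + M * C' ^ 2 * p ^ 3) := by
        gcongr
        exact le_mul_of_one_le_right hM0.le hp3
    _ = C * (1 + C' ^ 2) * p ^ 4 * M := by ring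
    _ ≤ C * (1 + C' ^ 2) * (M * N) ^ ε * (M + (M * N) ^ ((2 : ℝ) / 3)) := by
        gcongr
        have : 0 ≤ (M * N) ^ ((2 : ℝ) / 3) := by positivity
        linarith

/-- The induction step. -/
lemma PP_step (hφ : SymLike φ) (h2 : Step2 φ) {x : ℝ} (hx1 : 1 ≤ x) (hx2 : x ≤ 2)
    (hP : PP φ x) : PP φ (2 - 1 / x) := by
  have hx0 : 0 < x := by linarith
  have hxi : 1 / x ≤ 1 := by rw [div_le_one hx0]; exact hx1
  have hxi0 : 0 < 1 / x := by positivity
  have hx' : 1 ≤ 2 - 1 / x := by linarith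
  refine PP_of_dy (by linarith) fun ε hε => ?_
  set δ : ℝ := min ε 1 / 100 with hδ
  have hδ0 : 0 < δ := by positivity
  have hδ1 : 100 * δ ≤ 1 := by have := min_le_right ε 1; rw [hδ]; linarith
  have hδε : 100 * δ ≤ ε := by have := min_le_left ε 1; rw [hδ]; linarith
  obtain ⟨C₁, hC₁, hb⟩ := hP.ext hδ0
  obtain ⟨C₂, hC₂, hl⟩ := LL_le hδ0
  obtain ⟨C₃, hC₃, hs⟩ := h2 δ hδ0
  have hcT := cT_nonneg
  refine ⟨C₃ * (1 + cT * C₁ * C₂ ^ 2), by positivity, fun M N hM hN hxM => ?_⟩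
  have hM0 : 0 < M := by linarith
  have hN0 : 0 < N := by linarith
  have hMN : 1 ≤ M * N := one_le_mul_of_one_le_of_one_le hM hN
  have hpε : (M * N) ^ (26 * δ) ≤ (M * N) ^ ε :=
    Real.rpow_le_rpow_of_exponent_le hMN (by linarith)
  have hQ0 : 0 < (M * N) ^ ((2 : ℝ) / 3) := by positivity
  rcases lt_or_ge (N ^ 3) M with hbig | hsmall
  · -- M large: no dual terms
    have hM1 : 1 < M := lt_of_le_of_lt (one_le_pow₀ hN) hbig
    have hG : ∀ d e : ℝ, 1 ≤ e → e ≤ d → d ≤ N →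
        M * d / (e * N) * B2f φ (e * N ^ 2 * (M * N) ^ δ / (d ^ 2 * M)) (N / d) ≤ 0 := by
      intro d e he hed hdN
      have he0 : 0 < e := by linarith
      have hd1 : 1 ≤ d := he.trans hed
      have hd0 : 0 < d := by linarith
      rw [B2f_eq_zero, mul_zero]
      rw [div_lt_one (by positivity)]
      have h1 : e ≤ d ^ 2 := hed.trans (le_self_pow₀ hd1 (by norm_num))
      have h3 : N ≤ M ^ ((1 : ℝ) / 3) := by
        calc N = (N ^ 3) ^ ((1 : ℝ) / 3) := by
              rw [← Real.rpow_natCast, ← Real.rpow_mul hN0.le]; norm_num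
          _ ≤ M ^ ((1 : ℝ) / 3) := by gcongr
      have h4 : (M * N) ^ δ ≤ M ^ (2 * δ) := by
        calc (M * N) ^ δ ≤ (M * M) ^ δ := by
              have : N ≤ M := by
                calc N ≤ N ^ 3 := le_self_pow₀ hN (by norm_num)
                  _ ≤ M := hbig.le
              gcongr
          _ = M ^ (2 * δ) := by
              rw [Real.mul_rpow hM0.le hM0.le, ← Real.rpow_add hM0]; ring_nf
      have h5 : N ^ 2 * (M * N) ^ δ < M := by
        calc N ^ 2 * (M * N) ^ δ ≤ (M ^ ((1 : ℝ) / 3)) ^ 2 * M ^ (2 * δ) := by gcongr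
          _ = M ^ ((2 : ℝ) / 3 + 2 * δ) := by
              rw [← Real.rpow_natCast, ← Real.rpow_mul hM0.le, ← Real.rpow_add hM0]
              norm_num
          _ < M ^ (1 : ℝ) := Real.rpow_lt_rpow_of_exponent_lt hM1 (by linarith)
          _ = M := Real.rpow_one M
      calc e * N ^ 2 * (M * N) ^ δ ≤ d ^ 2 * (N ^ 2 * (M * N) ^ δ) := by
            rw [mul_assoc]; gcongr
        _ < d ^ 2 * M := by gcongr
    refine (hs M N 0 hM hN le_rfl hG).trans ?_
    have h6 : (M * N) ^ δ ≤ (M * N) ^ ε := Real.rpow_le_rpow_of_exponent_le hMN (by linarith)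
    calc C₃ * (M * N) ^ δ * (M + 0) ≤ C₃ * (M * N) ^ ε * (M + (M * N) ^ ((2 : ℝ) / 3)) := by
          gcongr
      _ ≤ _ := by
          gcongr
          have : 0 ≤ cT * C₁ * C₂ ^ 2 := by positivity
          nlinarith
  · -- M ≤ N³
    set y : ℝ := N ^ δ with hy
    have hy1 : 1 ≤ y := Real.one_le_rpow hN hδ0.le
    have hy0 : 0 < y := by linarith
    have hypow : ∀ k : ℕ, y ^ k = N ^ (k * δ) := by
      intro k
      rw [hy, ← Real.rpow_natCast, ← Real.rpow_mul hN0.le, mul_comm]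
    have hyk : ∀ k : ℕ, (k : ℝ) * δ ≤ 1 → (y ^ k) ^ δ ≤ y := by
      intro k hk
      rw [hypow, ← Real.rpow_mul hN0.le]
      exact Real.rpow_le_rpow_of_exponent_le hN (by nlinarith)
    have hMNδ : (M * N) ^ δ ≤ y ^ 4 := by
      rw [hypow]
      calc (M * N) ^ δ ≤ (N ^ 3 * N) ^ δ := by gcongr
        _ = (N ^ (4 : ℝ)) ^ δ := by
            congr 1
            rw [show N ^ 3 * N = N ^ (4 : ℕ) by ring, ← Real.rpow_natCast]; norm_num
        _ = N ^ (((4 : ℕ) : ℝ) * δ) := by rw [← Real.rpow_mul hN0.le]; norm_num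
    set T : ℝ := y ^ 8 with hT
    have hT1 : 1 ≤ T := one_le_pow₀ hy1
    have hT0 : 0 < T := by linarith
    -- N² ≤ N^{1/x} M
    have hN2 : N ^ 2 ≤ N ^ (1 / x) * M := by
      calc N ^ 2 = N ^ (1 / x) * N ^ (2 - 1 / x) := by
            rw [← Real.rpow_add hN0, ← Real.rpow_natCast]; norm_num
        _ ≤ N ^ (1 / x) * M := by gcongr
    have hG : ∀ d e : ℝ, 1 ≤ e → e ≤ d → d ≤ N →
        M * d / (e * N) * B2f φ (e * N ^ 2 * (M * N) ^ δ / (d ^ 2 * M)) (N / d) ≤
          cT * C₁ * C₂ ^ 2 * y ^ 25 * (M * N) ^ ((2 : ℝ) / 3) := by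
      intro d e he hed hdN
      have he0 : 0 < e := by linarith
      have hd1 : 1 ≤ d := he.trans hed
      have hd0 : 0 < d := by linarith
      set K : ℝ := e * N ^ 2 * (M * N) ^ δ / (d ^ 2 * M) with hK
      have hK0 : 0 ≤ K := by positivity
      rcases lt_or_ge K 1 with hK1 | hK1
      · rw [B2f_eq_zero _ hK1, mul_zero]; positivity
      have hKe : K ≤ e * N ^ 2 * y ^ 4 / (d ^ 2 * M) := by
        rw [hK]; gcongr
      have hKx : K ≤ N ^ (1 / x) * (y ^ 4 / d) := by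
        refine hKe.trans ?_
        rw [div_le_iff₀ (by positivity)]
        calc e * N ^ 2 * y ^ 4 ≤ d * (N ^ (1 / x) * M) * y ^ 4 := by gcongr
          _ = N ^ (1 / x) * (y ^ 4 / d) * (d ^ 2 * M) := by field_simp
      have hN' : 1 ≤ N / d := by rw [le_div_iff₀ hd0, one_mul]; exact hdN
      have hN'0 : 0 < N / d := by linarith
      have hKT : K ≤ N / d * T := by
        refine hKx.trans ?_
        calc N ^ (1 / x) * (y ^ 4 / d) ≤ N ^ (1 : ℝ) * (y ^ 4 / d) := by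
              gcongr
          _ ≤ N ^ (1 : ℝ) * (T / d) := by
              gcongr
              exact pow_le_pow_right₀ hy1 (by norm_num)
          _ = N / d * T := by rw [Real.rpow_one]; ring
      have hKNT : K ≤ N * T := hKT.trans (by gcongr; exact div_le_self hN0.le hd1)
      -- the induction hypothesis
      have hBA : ∀ A : ℝ, 1 ≤ A → A ≤ K →
          Bf φ A (N / d) ≤ C₁ * y ^ 11 * (N / d + (A * (N / d)) ^ ((2 : ℝ) / 3)) := by
        intro A hA hAK
        have hA0 : 0 < A := by linarith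
        have hAx : A ^ x ≤ N / d * T := by
          have h1 : A ^ x ≤ (N ^ (1 / x) * (y ^ 4 / d)) ^ x :=
            Real.rpow_le_rpow hA0.le (hAK.trans hKx) hx0.le
          refine h1.trans ?_
          rw [Real.mul_rpow (by positivity) (by positivity), ← Real.rpow_mul hN0.le,
            one_div_mul_cancel hx0.ne', Real.rpow_one,
            Real.div_rpow (by positivity) hd0.le]
          have h3 : (y ^ 4) ^ x ≤ T := by
            calc (y ^ 4) ^ x ≤ (y ^ 4) ^ (2 : ℝ) :=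
                  Real.rpow_le_rpow_of_exponent_le (one_le_pow₀ hy1) hx2
              _ = T := by rw [Real.rpow_two, hT]; ring
          have h4 : d ≤ d ^ x := by
            calc d = d ^ (1 : ℝ) := (Real.rpow_one d).symm
              _ ≤ d ^ x := Real.rpow_le_rpow_of_exponent_le hd1 hx1
          calc N * ((y ^ 4) ^ x / d ^ x) ≤ N * (T / d) := by gcongr
            _ = N / d * T := by ring
        have h5 := hb (N / d) A T hN' hA hT1 hAx
        rw [Bf_symm hφ]
        refine h5.trans ?_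
        have h6 : (N / d * A * T) ^ δ ≤ y ^ 3 := by
          have h7 : N / d * A * T ≤ N ^ 2 * y ^ 16 := by
            calc N / d * A * T ≤ N * (N * T) * T := by
                  gcongr
                  · exact div_le_self hN0.le hd1
                  · exact hAK.trans hKNT
              _ = N ^ 2 * y ^ 16 := by rw [hT]; ring
          calc (N / d * A * T) ^ δ ≤ (N ^ 2 * y ^ 16) ^ δ := by gcongr
            _ = (N ^ 2) ^ δ * (y ^ 16) ^ δ := Real.mul_rpow (by positivity) (by positivity)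
            _ ≤ y ^ 2 * y := by
                gcongr
                · rw [hypow, ← Real.rpow_natCast, ← Real.rpow_mul hN0.le]
                · exact hyk 16 (by push_cast; linarith)
            _ = y ^ 3 := by ring
        calc C₁ * (N / d * A * T) ^ δ * T * (N / d + (N / d * A) ^ ((2 : ℝ) / 3))
            ≤ C₁ * y ^ 3 * y ^ 8 * (N / d + (N / d * A) ^ ((2 : ℝ) / 3)) := by
              rw [hT] at h6 ⊢
              gcongr
          _ = _ := by rw [mul_comm (N / d) A]; ring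
      have hmain := B2f_le hφ hN' hT1 hK1 hKT (by positivity) hBA
      have hLL : LL K ≤ C₂ * y ^ 2 := by
        calc LL K ≤ LL (N * T) := LL_mono hKNT
          _ ≤ C₂ * (N * T) ^ δ := hl _ (one_le_mul_of_one_le_of_one_le hN hT1)
          _ = C₂ * (y * (y ^ 8) ^ δ) := by rw [Real.mul_rpow hN0.le hT0.le]
          _ ≤ C₂ * (y * y) := by
              gcongr
              exact hyk 8 (by push_cast; linarith)
          _ = C₂ * y ^ 2 := by ring
      have hK3 : M / e * K ^ ((1 : ℝ) / 3) ≤ y ^ 2 * (M * N) ^ ((2 : ℝ) / 3) := by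
        have hcube : (M / e) ^ 3 * K ≤ (y ^ 2) ^ 3 * (M * N) ^ 2 := by
          calc (M / e) ^ 3 * K ≤ (M / e) ^ 3 * (e * N ^ 2 * y ^ 4 / (d ^ 2 * M)) := by gcongr
            _ = (M * N) ^ 2 * y ^ 4 / (e ^ 2 * d ^ 2) := by field_simp
            _ ≤ (M * N) ^ 2 * y ^ 4 := by
                apply div_le_self (by positivity)
                exact one_le_mul_of_one_le_of_one_le (one_le_pow₀ he) (one_le_pow₀ hd1)
            _ ≤ (M * N) ^ 2 * y ^ 6 := by
                gcongr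
                norm_num
            _ = _ := by ring
        have hgen : ∀ z : ℝ, 0 ≤ z → z = (z ^ 3) ^ ((1 : ℝ) / 3) := fun z hz => by
          rw [← Real.rpow_natCast, ← Real.rpow_mul hz]; norm_num
        calc M / e * K ^ ((1 : ℝ) / 3) = ((M / e) ^ 3) ^ ((1 : ℝ) / 3) * K ^ ((1 : ℝ) / 3) := by
              rw [← hgen _ (by positivity)]
          _ = ((M / e) ^ 3 * K) ^ ((1 : ℝ) / 3) := by
              rw [Real.mul_rpow (by positivity) hK0]
          _ ≤ ((y ^ 2) ^ 3 * (M * N) ^ 2) ^ ((1 : ℝ) / 3) := by gcongr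
          _ = y ^ 2 * (M * N) ^ ((2 : ℝ) / 3) := by
              rw [Real.mul_rpow (by positivity) (by positivity), ← hgen _ (by positivity)]
              congr 1
              rw [← Real.rpow_natCast, ← Real.rpow_mul (by positivity)]; norm_num
      calc M * d / (e * N) * B2f φ K (N / d)
          ≤ M * d / (e * N) * (cT * T * (C₁ * y ^ 11) * K ^ ((1 : ℝ) / 3) * (N / d) *
              LL K ^ 2) := by gcongr
        _ ≤ M * d / (e * N) * (cT * T * (C₁ * y ^ 11) * K ^ ((1 : ℝ) / 3) * (N / d) *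
              (C₂ * y ^ 2) ^ 2) := by
            have := LL_nonneg K
            gcongr
        _ = cT * C₁ * C₂ ^ 2 * y ^ 23 * (M / e * K ^ ((1 : ℝ) / 3)) := by
            rw [hT]; field_simp
        _ ≤ cT * C₁ * C₂ ^ 2 * y ^ 23 * (y ^ 2 * (M * N) ^ ((2 : ℝ) / 3)) := by gcongr
        _ = _ := by ring
    refine (hs M N _ hM hN (by positivity) hG).trans ?_
    have hyMN : y ≤ (M * N) ^ δ := by
      rw [hy]; gcongr
      exact le_mul_of_one_le_left hN0.le hM
    have hy25 : 1 ≤ y ^ 25 := one_le_pow₀ hy1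
    calc C₃ * (M * N) ^ δ * (M + cT * C₁ * C₂ ^ 2 * y ^ 25 * (M * N) ^ ((2 : ℝ) / 3))
        ≤ C₃ * (M * N) ^ δ * ((1 + cT * C₁ * C₂ ^ 2) * y ^ 25 *
            (M + (M * N) ^ ((2 : ℝ) / 3))) := by
          gcongr
          have hc : 0 ≤ cT * C₁ * C₂ ^ 2 := by positivity
          have e1 : (1 + cT * C₁ * C₂ ^ 2) * y ^ 25 * (M + (M * N) ^ ((2 : ℝ) / 3)) =
            M * y ^ 25 + y ^ 25 * (M * N) ^ ((2 : ℝ) / 3) +
              cT * C₁ * C₂ ^ 2 * y ^ 25 * (M * N) ^ ((2 : ℝ) / 3) +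
              cT * C₁ * C₂ ^ 2 * y ^ 25 * M := by ring
          rw [e1]
          have t1 : M ≤ M * y ^ 25 := le_mul_of_one_le_right hM0.le hy25
          have t2 : 0 ≤ y ^ 25 * (M * N) ^ ((2 : ℝ) / 3) := by positivity
          have t3 : 0 ≤ cT * C₁ * C₂ ^ 2 * y ^ 25 * M := by positivity
          linarith
      _ ≤ C₃ * (M * N) ^ δ * ((1 + cT * C₁ * C₂ ^ 2) * ((M * N) ^ δ) ^ 25 *
            (M + (M * N) ^ ((2 : ℝ) / 3))) := by gcongr
      _ = C₃ * (1 + cT * C₁ * C₂ ^ 2) * ((M * N) ^ δ) ^ 26 * (M + (M * N) ^ ((2 : ℝ) / 3)) := by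
          ring
      _ ≤ _ := by
          gcongr
          rw [← Real.rpow_natCast, ← Real.rpow_mul (by positivity)]
          refine Real.rpow_le_rpow_of_exponent_le hMN ?_
          push_cast; linarith

/-- `Q_j` for all `j`. -/
lemma PP_all (hφ : SymLike φ) (h2 : Step2 φ) (j : ℕ) : PP φ (1 + 1 / ((j : ℝ) + 1)) := by
  induction j with
  | zero =>
    have : (1 + 1 / (((0 : ℕ) : ℝ) + 1)) = 2 := by norm_num
    rw [this]; exact PP_two hφ h2
  | succ j ih =>
    have hj : (0 : ℝ) ≤ j := Nat.cast_nonneg j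
    have h1 : 1 / ((j : ℝ) + 1) ≤ 1 := by
      rw [div_le_one (by linarith)]; linarith
    have h0 : 0 < 1 / ((j : ℝ) + 1) := by positivity
    have := PP_step hφ h2 (by linarith) (by linarith) ih
    have e : 2 - 1 / (1 + 1 / ((j : ℝ) + 1)) = 1 + 1 / (((j + 1 : ℕ) : ℝ) + 1) := by
      push_cast; field_simp; ring
    rwa [e] at this

/-- Heath-Brown's cubic large sieve, from the output of the Poisson step. -/
theorem hbLS_of_step2 (hφ : SymLike φ) (h2 : Step2 φ) {ε : ℝ} (hε : 0 < ε) :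
    ∃ C : ℝ, 0 < C ∧ ∀ M N : ℝ, 1 ≤ M → 1 ≤ N →
      Bf φ M N ≤ C * (M * N) ^ ε * (M + N + (M * N) ^ ((2 : ℝ) / 3)) := by
  set δ : ℝ := ε / 3 with hδ
  have hδ0 : 0 < δ := by positivity
  obtain ⟨j, hj⟩ := exists_nat_one_div_lt hδ0
  obtain ⟨C, hC, hb⟩ := (PP_all hφ h2 j).ext hδ0
  refine ⟨C, hC, ?_⟩
  have key : ∀ M N : ℝ, 1 ≤ M → 1 ≤ N → N ≤ M →
      Bf φ M N ≤ C * (M * N) ^ ε * (M + N + (M * N) ^ ((2 : ℝ) / 3)) := by
    intro M N hM hN hNM
    have hM0 : 0 < M := by linarith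
    have hN0 : 0 < N := by linarith
    have hMN : 1 ≤ M * N := one_le_mul_of_one_le_of_one_le hM hN
    set T : ℝ := N ^ (1 / ((j : ℝ) + 1)) with hT
    have hT1 : 1 ≤ T := Real.one_le_rpow hN (by positivity)
    have hT0 : 0 < T := by linarith
    have hTδ : T ≤ (M * N) ^ δ := by
      calc T ≤ N ^ δ := Real.rpow_le_rpow_of_exponent_le hN hj.le
        _ ≤ (M * N) ^ δ := by
            gcongr
            exact le_mul_of_one_le_left hN0.le hM
    have hTN : T ≤ N := by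
      calc T ≤ N ^ (1 : ℝ) := by
            refine Real.rpow_le_rpow_of_exponent_le hN ?_
            rw [div_le_one (by positivity)]
            linarith [(Nat.cast_nonneg j : (0 : ℝ) ≤ j)]
        _ = N := Real.rpow_one N
    have hcond : N ^ (1 + 1 / ((j : ℝ) + 1)) ≤ M * T := by
      rw [Real.rpow_add hN0, Real.rpow_one]
      gcongr
    refine (hb M N T hM hN hT1 hcond).trans ?_
    have hMNT : (M * N * T) ^ δ ≤ (M * N) ^ δ * (M * N) ^ δ := by
      rw [← Real.mul_rpow (by positivity) (by positivity)]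
      gcongr
      exact hTN.trans (le_mul_of_one_le_left hN0.le hM)
    calc C * (M * N * T) ^ δ * T * (M + (M * N) ^ ((2 : ℝ) / 3))
        ≤ C * ((M * N) ^ δ * (M * N) ^ δ) * (M * N) ^ δ * (M + (M * N) ^ ((2 : ℝ) / 3)) := by
          gcongr
      _ = C * (M * N) ^ ε * (M + (M * N) ^ ((2 : ℝ) / 3)) := by
          rw [mul_assoc C, ← Real.rpow_add (by positivity), ← Real.rpow_add (by positivity)]
          congr 3
          rw [hδ]; ring
      _ ≤ _ := by
          gcongr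
          linarith
  intro M N hM hN
  rcases le_total N M with h | h
  · exact key M N hM hN h
  · have := key N M hN hM h
    rw [Bf_symm hφ, mul_comm M N, add_comm M N]
    exact this

/-- The same, unfolded. -/
theorem hbLS_of_step2' (hφ : SymLike φ) (h2 : Step2 φ) {ε : ℝ} (hε : 0 < ε) :
    ∃ C : ℝ, 0 < C ∧ ∀ M N : ℝ, 1 ≤ M → 1 ≤ N → ∀ c : Eis → ℂ,
      ∑ m ∈ SF M, ‖∑ n ∈ SF N, c n * φ m n‖ ^ 2 ≤
        C * (M * N) ^ ε * (M + N + (M * N) ^ ((2 : ℝ) / 3)) * ∑ n ∈ SF N, ‖c n‖ ^ 2 := by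
  obtain ⟨C, hC, h⟩ := hbLS_of_step2 hφ h2 hε
  exact ⟨C, hC, fun M N hM hN c => adm_of_bc_le (h M N hM hN) c⟩

end Crest.Agent.R012.LS448
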