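import Crest.Agent.R012.LSAdd_879
import Crest.Agent.R012.Base_666

/-! R012, block L1: the additive large sieve over `ℤ[ω]` (fractions with primary denominators). -/

set_option autoImplicit false
set_option linter.unusedSimpArgs false

namespace Crest.Agent.R012.LS879

open Finset Crest.Agent.R012 Crest.Agent.R012.Eis

/-! ### The additive character -/

theorem eC_eq (z : ℂ) : eC z = e (2 * z.re) := by
  unfold eC e
  congr 1
  rw [Complex.add_conj]
  push_cast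
  ring

theorem eC_add (x y : ℂ) : eC (x + y) = eC x * eC y := by
  rw [eC_eq, eC_eq, eC_eq, ← e_add]
  congr 1
  simp
  ring

theorem eC_zero : eC 0 = 1 := by simp [eC_eq, e_zero]

theorem norm_eC (x : ℂ) : ‖eC x‖ = 1 := by rw [eC_eq, norm_e]

theorem eC_neg (x : ℂ) : eC (-x) = (starRingEnd ℂ) (eC x) := by
  rw [eC_eq, eC_eq, ← e_neg]
  congr 1
  simp

theorem eC_toC (z : Eis) : eC (toC z) = 1 := by
  rw [eC_eq, toC_re]
  have : (2 * ((z.re : ℝ) - z.im / 2) : ℝ) = ((2 * z.re - z.im : ℤ) : ℝ) := by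
    push_cast; ring
  rw [this, e_int]

theorem eC_add_toC (x : ℂ) (z : Eis) : eC (x + toC z) = eC x := by
  rw [eC_add, eC_toC, mul_one]

/-- First coordinate of a complex number with respect to the trace form. -/
noncomputable def cx (α : ℂ) : ℝ := 2 * α.re
/-- Second coordinate. -/
noncomputable def cy (α : ℂ) : ℝ := 2 * (wC * α).re

theorem cx_sub (a b : ℂ) : cx (a - b) = cx a - cx b := by
  unfold cx
  rw [Complex.sub_re]
  ring

theorem cy_sub (a b : ℂ) : cy (a - b) = cy a - cy b := by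
  unfold cy
  rw [mul_sub, Complex.sub_re]
  ring

theorem eC_mul_eq (b : Eis) (α : ℂ) : eC (toC b * α) = e (b.re * cx α + b.im * cy α) := by
  rw [eC_eq]
  congr 1
  rw [toC_apply]
  simp [cx, cy]
  ring

/-! ### `√-3` -/

/-- `√-3 = 1 + 2ω`. -/
def s3 : Eis := 1 + 2 * w

theorem s3_sq : s3 * s3 = -3 := by
  unfold s3
  have := w_sq
  linear_combination 4 * this

theorem toC_s3 : toC s3 = ⟨0, Real.sqrt 3⟩ := by
  apply Complex.ext
  · rw [toC_re]; simp [s3, re_mul', im_mul']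
  · rw [toC_im]; simp [s3, re_mul', im_mul']

theorem nm_s3 : nm s3 = 3 := by
  have : (nm s3 : ℤ) = 3 := by rw [nm_cast]; simp [s3, re_mul', im_mul']
  exact_mod_cast this

theorem s3_ne_zero : s3 ≠ 0 := by
  intro h
  have := nm_s3
  rw [h, nm_zero] at this
  omega

theorem toC_s3_ne_zero : toC s3 ≠ 0 := by
  rw [Ne, toC_eq_zero]; exact s3_ne_zero

theorem normSq_coord (δ : ℂ) :
    Complex.normSq δ = (cx δ ^ 2 + cx δ * cy δ + cy δ ^ 2) / 3 := by
  have h3 : Real.sqrt 3 ^ 2 = 3 := Real.sq_sqrt (by norm_num)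
  rw [Complex.normSq_apply]
  unfold cx cy
  simp only [Complex.mul_re]
  have hr : wC.re = -1 / 2 := rfl
  have hi : wC.im = Real.sqrt 3 / 2 := rfl
  rw [hr, hi]
  linear_combination (-(δ.im ^ 2) / 3) * h3

/-- The dual lattice: an element of `(1/√-3) Eis` with given coordinates. -/
theorem dual_coord (m₁ m₂ : ℤ) :
    cx (toC (⟨m₁ + m₂, m₁⟩ : Eis) / toC s3) = m₁ ∧ cy (toC (⟨m₁ + m₂, m₁⟩ : Eis) / toC s3) = m₂ := by
  have h3 : Real.sqrt 3 * Real.sqrt 3 = 3 := Real.mul_self_sqrt (by norm_num)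
  have hs : Real.sqrt 3 ≠ 0 := by positivity
  have hr : wC.re = -1 / 2 := rfl
  have hi : wC.im = Real.sqrt 3 / 2 := rfl
  have hdiv : ∀ z : ℂ, z / toC s3 = ⟨z.im / Real.sqrt 3, -(z.re / Real.sqrt 3)⟩ := by
    intro z
    rw [div_eq_iff toC_s3_ne_zero, toC_s3]
    apply Complex.ext
    · simp
    · simp
  constructor
  · rw [hdiv]
    unfold cx
    simp only
    rw [toC_im]
    field_simp
  · rw [hdiv]
    unfold cy
    rw [Complex.mul_re, hr, hi]
    simp only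
    rw [toC_im, toC_re]
    push_cast
    field_simp
    ring_nf

theorem not_sep {η t : ℝ} (hη : η ≤ 1 / 2) (h : ¬ Sep η t) : |t - round t| < η := by
  by_contra hc
  push Not at hc
  apply h
  have h1 := abs_sub_round t
  rcases le_or_gt 0 (t - round t) with h0 | h0
  · rw [abs_of_nonneg h0] at hc h1
    exact ⟨round t, hc, by linarith⟩
  · rw [abs_of_neg h0] at hc h1
    refine ⟨round t - 1, ?_, ?_⟩ <;> push_cast <;> linarith

/-- Distinct fractions with primary denominators are well separated. -/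
theorem sep_of_ne {a a' q q' : Eis} {Q η : ℝ} (hq : IsPrim q) (hq' : IsPrim q')
    (hQ1 : 1 ≤ Q) (hQ : (nm q : ℝ) ≤ Q) (hQ' : (nm q' : ℝ) ≤ Q) (hη0 : 0 < η)
    (hη : η * (2 * Q) ≤ 1) (hne : ¬ q * q' ∣ a * q' - a' * q) :
    Sep η (cx (toC a / toC q) - cx (toC a' / toC q')) ∨
      Sep η (cy (toC a / toC q) - cy (toC a' / toC q')) := by
  by_contra hcon
  push Not at hcon
  obtain ⟨h1, h2⟩ := hcon
  have hη2 : η ≤ 1 / 2 := by nlinarith
  have k1 := not_sep hη2 h1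
  have k2 := not_sep hη2 h2
  set m₁ := round (cx (toC a / toC q) - cx (toC a' / toC q')) with hm1
  set m₂ := round (cy (toC a / toC q) - cy (toC a' / toC q')) with hm2
  set z : Eis := ⟨m₁ + m₂, m₁⟩ with hz
  obtain ⟨d1, d2⟩ := dual_coord m₁ m₂
  rw [← hz] at d1 d2
  have hq0 : toC q ≠ 0 := by rw [Ne, toC_eq_zero]; exact hq.ne_zero
  have hq0' : toC q' ≠ 0 := by rw [Ne, toC_eq_zero]; exact hq'.ne_zero
  set δ : ℂ := toC a / toC q - toC a' / toC q' - toC z / toC s3 with hδ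
  set n : Eis := s3 * (a * q' - a' * q) - z * (q * q') with hn
  have hnδ : toC n = toC s3 * toC q * toC q' * δ := by
    rw [hn, hδ]
    simp only [map_sub, map_mul]
    have hs3 := toC_s3_ne_zero
    field_simp
  have c1 : |cx δ| < η := by
    rw [hδ, cx_sub, cx_sub, d1]; exact k1
  have c2 : |cy δ| < η := by
    rw [hδ, cy_sub, cy_sub, d2]; exact k2
  have hns : Complex.normSq δ < η ^ 2 := by
    rw [normSq_coord]
    obtain ⟨a1, a2⟩ := abs_lt.mp c1
    obtain ⟨b1, b2⟩ := abs_lt.mp c2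
    nlinarith [sq_nonneg (cx δ - cy δ), mul_pos (sub_pos.mpr a2) (by linarith : (0 : ℝ) < cx δ + η),
      mul_pos (sub_pos.mpr b2) (by linarith : (0 : ℝ) < cy δ + η)]
  have hnn : (nm n : ℝ) < 1 := by
    rw [← normSq_toC, hnδ]
    simp only [map_mul, normSq_toC, nm_s3]
    have hQ0 : (0 : ℝ) ≤ nm q := by positivity
    have hQ0' : (0 : ℝ) ≤ nm q' := by positivity
    have hprod : (nm q : ℝ) * nm q' ≤ Q * Q := mul_le_mul hQ hQ' hQ0' (by linarith)
    have hδ0 : 0 ≤ Complex.normSq δ := Complex.normSq_nonneg _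
    have hqq : (0 : ℝ) < nm q * nm q' := by
      have := nm_pos.mpr hq.ne_zero
      have := nm_pos.mpr hq'.ne_zero
      positivity
    calc ((3 : ℕ) : ℝ) * nm q * nm q' * Complex.normSq δ = 3 * ((nm q * nm q') * Complex.normSq δ) := by
          push_cast; ring
      _ < 3 * ((nm q * nm q') * η ^ 2) := by
          have := mul_lt_mul_of_pos_left hns hqq
          linarith
      _ ≤ 3 * ((Q * Q) * η ^ 2) := by
          have := mul_le_mul_of_nonneg_right hprod (sq_nonneg η)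
          linarith
      _ ≤ 1 := by
          have : (η * (2 * Q)) ^ 2 ≤ 1 := by
            have h0 : 0 ≤ η * (2 * Q) := by positivity
            nlinarith
          nlinarith
  have hn0 : n = 0 := by
    have : nm n < 1 := by exact_mod_cast hnn
    exact nm_eq_zero.mp (by omega)
  -- arithmetic conclusion
  apply hne
  have hqq : IsPrim (q * q') := hq.mul hq'
  obtain ⟨k, hk⟩ := hqq
  have e1 : s3 * (a * q' - a' * q) = z * (q * q') := by
    rw [hn] at hn0; exact sub_eq_zero.mp hn0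
  have e2 : q * q' = 1 + 3 * k := by linear_combination hk
  -- z = s3 * t
  have e3 : z = s3 * ((a * q' - a' * q) + s3 * (k * z)) := by
    have : z * (q * q') = z + 3 * k * z := by rw [e2]; ring
    have h3 := s3_sq
    linear_combination (-1 : Eis) * e1 - this - (k * z) * h3
  refine ⟨(a * q' - a' * q) + s3 * (k * z), ?_⟩
  have e4 : s3 * (a * q' - a' * q) = s3 * (q * q' * ((a * q' - a' * q) + s3 * (k * z))) := by
    rw [e1]
    nth_rewrite 1 [e3]
    ring
  exact mul_left_cancel₀ s3_ne_zero e4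

/-- **Additive large sieve over `ℤ[ω]`, dual form.** -/
theorem add_ls_dual {ι : Type*} [DecidableEq ι] (S : Finset ι) (a q : ι → Eis) (γ : ι → ℂ)
    {Q B : ℝ} (hQ1 : 1 ≤ Q) (hB : 0 ≤ B) (hq : ∀ r ∈ S, IsPrim (q r))
    (hQ : ∀ r ∈ S, (nm (q r) : ℝ) ≤ Q)
    (hne : ∀ r ∈ S, ∀ s ∈ S, r ≠ s → ¬ q r * q s ∣ a r * q s - a s * q r)
    (c : Eis) (Bx : Finset Eis) (hBx : ∀ b ∈ Bx, (nm (b - c) : ℝ) ≤ B) :
    ∑ b ∈ Bx, ‖∑ r ∈ S, γ r * eC (toC b * toC (a r) / toC (q r))‖ ^ 2 ≤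
      33 * (B + Q ^ 2) * ∑ r ∈ S, ‖γ r‖ ^ 2 := by
  set W : ℝ := Real.sqrt (4 * Q ^ 2 + 16 * B / 3) with hW
  have hWsq : W ^ 2 = 4 * Q ^ 2 + 16 * B / 3 := Real.sq_sqrt (by positivity)
  have hW0 : 0 < W := Real.sqrt_pos.mpr (by positivity)
  have hW2 : 2 * Q ≤ W := by
    apply Real.le_sqrt_of_sq_le
    nlinarith
  set η : ℝ := W⁻¹ with hη
  have hη0 : 0 < η := inv_pos.mpr hW0
  have hηQ : η * (2 * Q) ≤ 1 := by
    rw [hη, inv_mul_le_iff₀ hW0]
    linarith
  have hη1 : η ≤ 1 := by nlinarith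
  set emb : Eis → ℤ × ℤ := fun b => (b.re, b.im) with hemb
  have hinj : Function.Injective emb := by
    intro x y hxy
    simp only [hemb, Prod.mk.injEq] at hxy
    exact ext' hxy.1 hxy.2
  have hmain := ls2_dual S (fun r => cx (toC (a r) / toC (q r))) (fun r => cy (toC (a r) / toC (q r)))
    γ hη0 hη1 (fun r hr s hs hrs => sep_of_ne (hq r hr) (hq s hs) hQ1 (hQ r hr) (hQ s hs) hη0 hηQ
      (hne r hr s hs hrs)) c.re c.im (Bx.image emb) (by
      intro b hb
      obtain ⟨x, hx, rfl⟩ := Finset.mem_image.mp hb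
      have h1 := hBx x hx
      have hcast : ((nm (x - c) : ℕ) : ℝ) = ((x.re - c.re : ℤ) : ℝ) ^ 2 -
          ((x.re - c.re : ℤ) : ℝ) * ((x.im - c.im : ℤ) : ℝ) + ((x.im - c.im : ℤ) : ℝ) ^ 2 := by
        have : ((nm (x - c) : ℕ) : ℝ) = (((nm (x - c) : ℕ) : ℤ) : ℝ) := by norm_cast
        rw [this, nm_cast]
        simp only [QuadraticAlgebra.re_sub, QuadraticAlgebra.im_sub]
        push_cast
        ring
      rw [hcast] at h1
      simp only [hemb]
      set u : ℝ := ((x.re - c.re : ℤ) : ℝ) with hu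
      set v : ℝ := ((x.im - c.im : ℤ) : ℝ) with hv
      have hu2 : u ^ 2 * 4 ≤ W ^ 2 := by rw [hWsq]; nlinarith [sq_nonneg (u - 2 * v)]
      have hv2 : v ^ 2 * 4 ≤ W ^ 2 := by rw [hWsq]; nlinarith [sq_nonneg (v - 2 * u)]
      have hau : |u| ≤ W / 2 := abs_le_of_sq_le_sq (by nlinarith) (by positivity)
      have hav : |v| ≤ W / 2 := abs_le_of_sq_le_sq (by nlinarith) (by positivity)
      constructor
      · rw [hη, mul_inv_le_iff₀ hW0]; linarith
      · rw [hη, mul_inv_le_iff₀ hW0]; linarith)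
  rw [Finset.sum_image (fun x _ y _ h => hinj h)] at hmain
  have hterm : ∀ b ∈ Bx, ‖∑ r ∈ S, γ r * eC (toC b * toC (a r) / toC (q r))‖ ^ 2 =
      ‖∑ r ∈ S, γ r * e (((emb b).1 : ℝ) * cx (toC (a r) / toC (q r)) +
        ((emb b).2 : ℝ) * cy (toC (a r) / toC (q r)))‖ ^ 2 := by
    intro b _
    congr 2
    refine sum_congr rfl fun r _ => ?_
    rw [mul_div_assoc, eC_mul_eq]
  rw [sum_congr rfl hterm]
  refine hmain.trans ?_
  refine mul_le_mul_of_nonneg_right ?_ (sum_nonneg fun _ _ => by positivity)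
  rw [hη, inv_inv, hWsq]
  have hpi4 : Real.pi ^ 4 ≤ 98 := by
    have h1 := Real.pi_lt_d4
    have h0 := Real.pi_pos
    have h2 : Real.pi ^ 2 ≤ 9.87 := by nlinarith
    nlinarith [sq_nonneg (Real.pi ^ 2)]
  nlinarith [mul_nonneg hB (by linarith : (0 : ℝ) ≤ 98 - Real.pi ^ 4),
    mul_nonneg (sq_nonneg Q) (by linarith : (0 : ℝ) ≤ 98 - Real.pi ^ 4), sq_nonneg Q]

/-- **Additive large sieve over `ℤ[ω]`.** -/
theorem add_ls {ι : Type*} [DecidableEq ι] (S : Finset ι) (a q : ι → Eis) (β : Eis → ℂ)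
    {Q B : ℝ} (hQ1 : 1 ≤ Q) (hB : 0 ≤ B) (hq : ∀ r ∈ S, IsPrim (q r))
    (hQ : ∀ r ∈ S, (nm (q r) : ℝ) ≤ Q)
    (hne : ∀ r ∈ S, ∀ s ∈ S, r ≠ s → ¬ q r * q s ∣ a r * q s - a s * q r)
    (c : Eis) (Bx : Finset Eis) (hBx : ∀ b ∈ Bx, (nm (b - c) : ℝ) ≤ B) :
    ∑ r ∈ S, ‖∑ b ∈ Bx, β b * eC (toC b * toC (a r) / toC (q r))‖ ^ 2 ≤
      33 * (B + Q ^ 2) * ∑ b ∈ Bx, ‖β b‖ ^ 2 :=
  duality S Bx (fun r b => eC (toC b * toC (a r) / toC (q r))) (by positivity)
    (fun γ => add_ls_dual S a q γ hQ1 hB hq hQ hne c Bx hBx) β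

end Crest.Agent.R012.LS879
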