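import Crest.Agent.R012.LSArith_879

/-! R012, block L1: the multiplicative large sieve over `ℤ[ω]` for families of primitive
characters with primary conductors. -/

set_option autoImplicit false
set_option linter.unusedSimpArgs false

namespace Crest.Agent.R012.LS879

open Finset Crest.Agent.R012 Crest.Agent.R012.Eis

/-! ### Residue systems -/

/-- A canonical representative of `x` modulo `f`. -/
noncomputable def rp (f x : Eis) : Eis :=
  Quotient.out (Ideal.Quotient.mk (Ideal.span ({f} : Set Eis)) x)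

theorem mk_rp (f x : Eis) : Ideal.Quotient.mk (Ideal.span ({f} : Set Eis)) (rp f x) =
    Ideal.Quotient.mk (Ideal.span ({f} : Set Eis)) x := by
  unfold rp
  exact Quotient.out_eq _

theorem rp_eq_iff {f x y : Eis} : rp f x = rp f y ↔ f ∣ x - y := by
  constructor
  · intro h
    have h2 := congrArg (Ideal.Quotient.mk (Ideal.span ({f} : Set Eis))) h
    rw [mk_rp, mk_rp, Ideal.Quotient.eq, Ideal.mem_span_singleton] at h2
    exact h2
  · intro h
    unfold rp
    congr 1
    rw [Ideal.Quotient.eq, Ideal.mem_span_singleton]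
    exact h

theorem dvd_sub_rp (f x : Eis) : f ∣ x - rp f x := by
  have h := (mk_rp f x).symm
  rwa [Ideal.Quotient.eq, Ideal.mem_span_singleton] at h

theorem rp_rp (f x : Eis) : rp f (rp f x) = rp f x := by
  rw [rp_eq_iff, ← dvd_neg, neg_sub]
  exact dvd_sub_rp f x

theorem finite_range_rp {f : Eis} (hf : f ≠ 0) : (Set.range (rp f)).Finite := by
  have hfin : Finite (Eis ⧸ Ideal.span ({f} : Set Eis)) :=
    Ideal.finiteQuotientOfFreeOfNeBot _ (by
      rw [Ne, Ideal.span_singleton_eq_bot]; exact hf)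
  refine Set.Finite.subset (Set.finite_range
    (fun q : Eis ⧸ Ideal.span ({f} : Set Eis) => Quotient.out q)) ?_
  rintro _ ⟨x, rfl⟩
  exact ⟨_, rfl⟩

open Classical in
/-- A complete residue system modulo `f ≠ 0`. -/
noncomputable def Res (f : Eis) : Finset Eis :=
  if h : f ≠ 0 then (finite_range_rp h).toFinset else ∅

theorem mem_Res {f a : Eis} (hf : f ≠ 0) : a ∈ Res f ↔ rp f a = a := by
  rw [Res, dif_pos hf, Set.Finite.mem_toFinset]
  constructor
  · rintro ⟨x, rfl⟩; exact rp_rp f x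
  · intro h; exact ⟨a, h⟩

theorem rp_mem {f : Eis} (hf : f ≠ 0) (x : Eis) : rp f x ∈ Res f := by
  rw [mem_Res hf]; exact rp_rp f x

theorem eq_of_mem_Res {f a b : Eis} (hf : f ≠ 0) (ha : a ∈ Res f) (hb : b ∈ Res f)
    (h : f ∣ a - b) : a = b := by
  rw [mem_Res hf] at ha hb
  rw [← ha, ← hb, rp_eq_iff]
  exact h

theorem sum_Res_reindex {M : Type*} [AddCommMonoid M] {f : Eis} (hf : f ≠ 0) (F : Eis → M)
    (hF : ∀ x y, f ∣ x - y → F x = F y) (φ : Eis → Eis)
    (hφ : ∀ x y, f ∣ φ x - φ y → f ∣ x - y) :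
    ∑ a ∈ Res f, F (φ a) = ∑ a ∈ Res f, F a := by
  classical
  set i : Eis → Eis := fun a => rp f (φ a) with hi
  have hinj : Set.InjOn i (Res f : Set Eis) := by
    intro a ha b hb hab
    exact eq_of_mem_Res hf ha hb (hφ _ _ (rp_eq_iff.mp hab))
  have himg : (Res f).image i = Res f := by
    apply Finset.eq_of_subset_of_card_le
    · intro x hx
      obtain ⟨a, _, rfl⟩ := Finset.mem_image.mp hx
      exact rp_mem hf _
    · rw [Finset.card_image_of_injOn hinj]
  calc ∑ a ∈ Res f, F (φ a) = ∑ a ∈ Res f, F (i a) :=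
        sum_congr rfl fun a _ => hF _ _ (dvd_sub_rp f _)
    _ = ∑ a ∈ (Res f).image i, F a := (Finset.sum_image hinj).symm
    _ = _ := by rw [himg]

theorem Res_card_pos {f : Eis} (hf : f ≠ 0) : 0 < (Res f).card :=
  Finset.card_pos.mpr ⟨rp f 0, rp_mem hf 0⟩

/-! ### Additive orthogonality -/

theorem exists_int_of_e_eq_one {x : ℝ} (h : e x = 1) : ∃ n : ℤ, x = n := by
  unfold e at h
  rw [Complex.exp_eq_one_iff] at h
  obtain ⟨n, hn⟩ := h
  refine ⟨n, ?_⟩
  have h2 : (2 * Real.pi * Complex.I : ℂ) ≠ 0 := Complex.two_pi_I_ne_zero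
  have h3 : ((x : ℝ) : ℂ) = ((n : ℤ) : ℂ) := by
    apply mul_left_cancel₀ h2
    linear_combination hn
  exact_mod_cast h3

theorem exists_eC_ne_one {f z : Eis} (hf : IsPrim f) (hz : ¬ f ∣ z) :
    ∃ t : Eis, eC (toC t * toC z / toC f) ≠ 1 := by
  by_contra hcon
  push Not at hcon
  have h1 := hcon 1
  have h2 := hcon w
  rw [mul_div_assoc, eC_mul_eq] at h1 h2
  obtain ⟨m₁, hm1⟩ := exists_int_of_e_eq_one h1
  obtain ⟨m₂, hm2⟩ := exists_int_of_e_eq_one h2
  simp only [one_re', one_im', w_re, w_im, Int.cast_one, Int.cast_zero, one_mul, zero_mul,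
    add_zero, zero_add] at hm1 hm2
  obtain ⟨d1, d2⟩ := dual_coord m₁ m₂
  set z' : Eis := ⟨m₁ + m₂, m₁⟩ with hz'
  have hdiff : toC z / toC f - toC z' / toC s3 = 0 := by
    rw [← Complex.normSq_eq_zero, normSq_coord, cx_sub, cy_sub, d1, d2, hm1, hm2]
    ring
  have hf0 : toC f ≠ 0 := by rw [Ne, toC_eq_zero]; exact hf.ne_zero
  have hs := toC_s3_ne_zero
  have h3 : toC (z * s3) = toC (z' * f) := by
    rw [map_mul, map_mul]
    have := sub_eq_zero.mp hdiff
    rw [div_eq_div_iff hf0 hs] at this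
    exact this
  have h4 : z * s3 = z' * f := toC_injective h3
  obtain ⟨k, hk⟩ := hf
  apply hz
  have h5 := s3_sq
  refine ⟨z + s3 * k * z', ?_⟩
  have : f = 1 + 3 * k := by linear_combination hk
  linear_combination (s3 * k) * h4 - k * z * h5 - z * this

open Classical in
theorem sum_eC {f z : Eis} (hf : IsPrim f) :
    ∑ a ∈ Res f, eC (toC a * toC z / toC f) = if f ∣ z then ((Res f).card : ℂ) else 0 := by
  have hf0 : toC f ≠ 0 := by rw [Ne, toC_eq_zero]; exact hf.ne_zero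
  split_ifs with h
  · obtain ⟨k, rfl⟩ := h
    rw [sum_congr rfl (g := fun _ => (1 : ℂ))]
    · simp
    · intro a _
      have : toC a * toC (f * k) / toC f = toC (a * k) := by
        rw [map_mul, map_mul]
        field_simp
      rw [this, eC_toC]
  · obtain ⟨t, ht⟩ := exists_eC_ne_one hf h
    have hre := sum_Res_reindex hf.ne_zero (fun a => eC (toC a * toC z / toC f))
      (by
        rintro x y ⟨k, hk⟩
        have : x = y + f * k := by linear_combination hk
        rw [this]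
        have h2 : toC (y + f * k) * toC z / toC f = toC y * toC z / toC f + toC (k * z) := by
          simp only [map_add, map_mul]
          field_simp
        rw [h2, eC_add_toC]) (fun a => a + t) (by
        intro x y hxy
        simpa using hxy)
    have h3 : ∀ a ∈ Res f, eC (toC (a + t) * toC z / toC f) =
        eC (toC t * toC z / toC f) * eC (toC a * toC z / toC f) := by
      intro a _
      rw [← eC_add, map_add]
      congr 1
      ring
    rw [sum_congr rfl h3, ← mul_sum] at hre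
    have h4 : (eC (toC t * toC z / toC f) - 1) *
        ∑ a ∈ Res f, eC (toC a * toC z / toC f) = 0 := by
      rw [sub_mul, hre, one_mul, sub_self]
    rcases mul_eq_zero.mp h4 with h5 | h5
    · exact absurd (sub_eq_zero.mp h5) ht
    · exact h5

/-! ### Primitive characters -/

/-- `χ` is a primitive multiplicative character modulo the primary element `f`. -/
structure IsPrimChar (f : Eis) (χ : Eis → ℂ) : Prop where
  prim : IsPrim f
  one : χ 1 = 1
  mul : ∀ x y, χ (x * y) = χ x * χ y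
  per : ∀ x y, f ∣ x - y → χ x = χ y
  bd : ∀ x, ‖χ x‖ ≤ 1
  primitive : ∀ d k, f = d * k → ¬ IsUnit d → ∃ y, IsCoprime y f ∧ k ∣ y - 1 ∧ χ y ≠ 1

theorem IsPrimChar.norm_eq_one {f : Eis} {χ : Eis → ℂ} (h : IsPrimChar f χ) {x : Eis}
    (hx : IsCoprime x f) : ‖χ x‖ = 1 := by
  obtain ⟨u, v, huv⟩ := hx
  have h1 : χ (u * x) = 1 := by
    rw [← h.one]
    apply h.per
    exact ⟨-v, by linear_combination huv⟩
  rw [h.mul] at h1
  have h2 : ‖χ u‖ * ‖χ x‖ = 1 := by rw [← norm_mul, h1, norm_one]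
  have h3 := h.bd u
  have h4 := h.bd x
  have h5 := norm_nonneg (χ u)
  have h6 := norm_nonneg (χ x)
  nlinarith

theorem exists_common_factor {a f : Eis} (h : ¬ IsCoprime a f) :
    ∃ d k, f = d * k ∧ d ∣ a ∧ ¬ IsUnit d := by
  refine ⟨EuclideanDomain.gcd a f, ?_⟩
  obtain ⟨k, hk⟩ := EuclideanDomain.gcd_dvd_right a f
  refine ⟨k, hk, EuclideanDomain.gcd_dvd_left a f, ?_⟩
  rw [EuclideanDomain.gcd_isUnit_iff]
  exact h

theorem IsPrimChar.eq_zero {f : Eis} {χ : Eis → ℂ} (h : IsPrimChar f χ) {x : Eis}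
    (hx : ¬ IsCoprime x f) : χ x = 0 := by
  obtain ⟨d, k, hf, ⟨m, hm⟩, hd⟩ := exists_common_factor hx
  obtain ⟨y, _, ⟨n, hn⟩, hy1⟩ := h.primitive d k hf hd
  have h1 : χ (x * y) = χ x := by
    apply h.per
    refine ⟨m * n, ?_⟩
    rw [hf, hm]
    linear_combination (d * m) * hn
  rw [h.mul] at h1
  have h2 : χ x * (χ y - 1) = 0 := by linear_combination h1
  rcases mul_eq_zero.mp h2 with h3 | h3
  · exact h3
  · exact absurd (sub_eq_zero.mp h3) hy1

theorem dvd_of_dvd_mul_coprime {f y x x' : Eis} (hy : IsCoprime y f)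
    (h : f ∣ x * y - x' * y) : f ∣ x - x' := by
  rw [← sub_mul] at h
  exact hy.symm.dvd_of_dvd_mul_right h

theorem IsPrimChar.orth {f : Eis} {χ χ' : Eis → ℂ} (h : IsPrimChar f χ) (h' : IsPrimChar f χ')
    (hne : χ ≠ χ') : ∑ x ∈ Res f, χ x * (starRingEnd ℂ) (χ' x) = 0 := by
  have hex : ∃ y, χ y ≠ χ' y := by
    by_contra hcon
    push Not at hcon
    exact hne (funext hcon)
  obtain ⟨y, hy⟩ := hex
  have hyc : IsCoprime y f := by
    by_contra hcon
    rw [h.eq_zero hcon, h'.eq_zero hcon] at hy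
    exact hy rfl
  have hre := sum_Res_reindex h.prim.ne_zero (fun x => χ x * (starRingEnd ℂ) (χ' x))
    (fun x x' hxx => by rw [h.per x x' hxx, h'.per x x' hxx]) (fun x => x * y)
    (fun x x' hxx => dvd_of_dvd_mul_coprime hyc hxx)
  simp only [h.mul, h'.mul, map_mul] at hre
  have h3 : ∀ x ∈ Res f, χ x * χ y * ((starRingEnd ℂ) (χ' x) * (starRingEnd ℂ) (χ' y)) =
      (χ y * (starRingEnd ℂ) (χ' y)) * (χ x * (starRingEnd ℂ) (χ' x)) := by
    intro x _; ring
  rw [sum_congr rfl h3, ← mul_sum] at hre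
  have h4 : (χ y * (starRingEnd ℂ) (χ' y) - 1) *
      ∑ x ∈ Res f, χ x * (starRingEnd ℂ) (χ' x) = 0 := by
    rw [sub_mul, hre, one_mul, sub_self]
  rcases mul_eq_zero.mp h4 with h5 | h5
  · exfalso
    apply hy
    have h6 := sub_eq_zero.mp h5
    have h7 : (starRingEnd ℂ) (χ' y) * χ' y = 1 := by
      rw [mul_comm, Complex.mul_conj', h'.norm_eq_one hyc]
      norm_num
    calc χ y = χ y * ((starRingEnd ℂ) (χ' y) * χ' y) := by rw [h7, mul_one]
      _ = (χ y * (starRingEnd ℂ) (χ' y)) * χ' y := by ring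
      _ = χ' y := by rw [h6, one_mul]
  · exact h5

/-! ### Finite Fourier expansion -/

/-- Finite Fourier coefficient. -/
noncomputable def fc (f : Eis) (χ : Eis → ℂ) (a : Eis) : ℂ :=
  1 / ((Res f).card : ℂ) * ∑ x ∈ Res f, χ x * eC (-(toC x * toC a / toC f))

theorem card_ne_zero {f : Eis} (hf : f ≠ 0) : ((Res f).card : ℂ) ≠ 0 := by
  have := Res_card_pos hf
  exact_mod_cast this.ne'

theorem fc_eq_zero {f : Eis} {χ : Eis → ℂ} (h : IsPrimChar f χ) {a : Eis}
    (ha : ¬ IsCoprime a f) : fc f χ a = 0 := by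
  obtain ⟨d, k, hf, ⟨m, hm⟩, hd⟩ := exists_common_factor ha
  obtain ⟨y, hyc, ⟨n, hn⟩, hy1⟩ := h.primitive d k hf hd
  have hf0 : toC f ≠ 0 := by rw [Ne, toC_eq_zero]; exact h.prim.ne_zero
  have hre := sum_Res_reindex h.prim.ne_zero
    (fun x => χ x * eC (-(toC x * toC a / toC f)))
    (by
      intro x x' hxx
      rw [h.per x x' hxx]
      obtain ⟨j, hj⟩ := hxx
      have : x = x' + f * j := by linear_combination hj
      rw [this]
      have h2 : -(toC (x' + f * j) * toC a / toC f) =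
          -(toC x' * toC a / toC f) + toC (-(j * a)) := by
        simp only [map_add, map_mul, map_neg]
        field_simp
        ring
      rw [h2, eC_add_toC]) (fun x => x * y)
    (fun x x' hxx => dvd_of_dvd_mul_coprime hyc hxx)
  simp only [h.mul] at hre
  have h3 : ∀ x ∈ Res f, χ x * χ y * eC (-(toC (x * y) * toC a / toC f)) =
      χ y * (χ x * eC (-(toC x * toC a / toC f))) := by
    intro x _
    have h4 : -(toC (x * y) * toC a / toC f) = -(toC x * toC a / toC f) + toC (-(x * m * n)) := by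
      have hy2 : y = 1 + k * n := by linear_combination hn
      have h5 : toC f = toC d * toC k := by rw [hf, map_mul]
      have h6 : toC y = 1 + toC k * toC n := by rw [hy2, map_add, map_mul, map_one]
      have h7 : toC a = toC d * toC m := by rw [hm, map_mul]
      rw [h5] at hf0
      have hd0 := left_ne_zero_of_mul hf0
      have hk0 := right_ne_zero_of_mul hf0
      rw [map_mul, map_neg, map_mul, map_mul, h5, h6, h7]
      field_simp
      ring
    rw [h4, eC_add_toC]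
    ring
  rw [sum_congr rfl h3, ← mul_sum] at hre
  have h4 : (χ y - 1) * ∑ x ∈ Res f, χ x * eC (-(toC x * toC a / toC f)) = 0 := by
    rw [sub_mul, hre, one_mul, sub_self]
  rcases mul_eq_zero.mp h4 with h5 | h5
  · exact absurd (sub_eq_zero.mp h5) hy1
  · unfold fc
    rw [h5, mul_zero]

open Classical in
/-- Fourier inversion. -/
theorem fc_expand {f : Eis} {χ : Eis → ℂ} (h : IsPrimChar f χ) (b : Eis) :
    χ b = ∑ a ∈ Res f, fc f χ a * eC (toC b * toC a / toC f) := by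
  have hf0 : toC f ≠ 0 := by rw [Ne, toC_eq_zero]; exact h.prim.ne_zero
  have hc := card_ne_zero h.prim.ne_zero
  unfold fc
  have h1 : ∑ a ∈ Res f, 1 / ((Res f).card : ℂ) *
      (∑ x ∈ Res f, χ x * eC (-(toC x * toC a / toC f))) * eC (toC b * toC a / toC f) =
      1 / ((Res f).card : ℂ) * ∑ x ∈ Res f, χ x *
        ∑ a ∈ Res f, eC (toC a * toC (b - x) / toC f) := by
    rw [mul_sum]
    simp_rw [mul_sum, sum_mul]
    rw [sum_comm]
    refine sum_congr rfl fun x _ => sum_congr rfl fun a _ => ?_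
    have : eC (toC a * toC (b - x) / toC f) =
        eC (-(toC x * toC a / toC f)) * eC (toC b * toC a / toC f) := by
      rw [← eC_add]
      congr 1
      rw [map_sub]
      ring
    rw [this]
    ring
  rw [h1]
  simp_rw [sum_eC h.prim]
  have h2 : ∑ x ∈ Res f, χ x * (if f ∣ b - x then ((Res f).card : ℂ) else 0) =
      χ b * (Res f).card := by
    rw [Finset.sum_eq_single (rp f b)]
    · rw [if_pos (dvd_sub_rp f b)]
      congr 1
      exact (h.per _ _ (dvd_sub_rp f b)).symm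
    · intro x hx hne
      rw [if_neg, mul_zero]
      intro hdvd
      apply hne
      refine eq_of_mem_Res h.prim.ne_zero hx (rp_mem h.prim.ne_zero b) ?_
      have := dvd_sub (dvd_sub_rp f b) hdvd
      have e1 : b - rp f b - (b - x) = x - rp f b := by ring
      rwa [e1] at this
    · intro hn
      exact absurd (rp_mem h.prim.ne_zero b) hn
  rw [h2]
  field_simp

open Classical in
/-- Plancherel. -/
theorem fc_plancherel {f : Eis} (hf : IsPrim f) (χ χ' : Eis → ℂ) :
    ∑ a ∈ Res f, fc f χ a * (starRingEnd ℂ) (fc f χ' a) =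
      1 / ((Res f).card : ℂ) * ∑ x ∈ Res f, χ x * (starRingEnd ℂ) (χ' x) := by
  have hf0 : toC f ≠ 0 := by rw [Ne, toC_eq_zero]; exact hf.ne_zero
  have hc := card_ne_zero hf.ne_zero
  have h1 : ∀ a ∈ Res f, fc f χ a * (starRingEnd ℂ) (fc f χ' a) =
      (1 / ((Res f).card : ℂ)) ^ 2 * ∑ x ∈ Res f, ∑ x' ∈ Res f,
        χ x * (starRingEnd ℂ) (χ' x') * eC (toC a * toC (x' - x) / toC f) := by
    intro a _
    unfold fc
    rw [map_mul, map_sum, map_div₀, map_one, map_natCast]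
    have : (1 / ((Res f).card : ℂ) * ∑ x ∈ Res f, χ x * eC (-(toC x * toC a / toC f))) *
        (1 / ((Res f).card : ℂ) * ∑ x ∈ Res f, (starRingEnd ℂ)
          (χ' x * eC (-(toC x * toC a / toC f)))) =
        (1 / ((Res f).card : ℂ)) ^ 2 * ((∑ x ∈ Res f, χ x * eC (-(toC x * toC a / toC f))) *
          (∑ x ∈ Res f, (starRingEnd ℂ) (χ' x * eC (-(toC x * toC a / toC f))))) := by ring
    rw [this, sum_mul_sum]
    congr 1
    refine sum_congr rfl fun x _ => sum_congr rfl fun x' _ => ?_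
    rw [map_mul, ← eC_neg, neg_neg]
    have : eC (toC a * toC (x' - x) / toC f) =
        eC (-(toC x * toC a / toC f)) * eC (toC x' * toC a / toC f) := by
      rw [← eC_add]
      congr 1
      rw [map_sub]
      ring
    rw [this]
    ring
  rw [sum_congr rfl h1, ← mul_sum, sum_comm]
  have h2 : ∀ x ∈ Res f, ∑ a ∈ Res f, ∑ x' ∈ Res f,
      χ x * (starRingEnd ℂ) (χ' x') * eC (toC a * toC (x' - x) / toC f) =
      (Res f).card * (χ x * (starRingEnd ℂ) (χ' x)) := by
    intro x hx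
    rw [sum_comm]
    simp_rw [← mul_sum, sum_eC hf]
    rw [Finset.sum_eq_single x]
    · rw [if_pos (by simp)]
      ring
    · intro x' hx' hne
      rw [if_neg, mul_zero]
      intro hdvd
      exact hne (eq_of_mem_Res hf.ne_zero hx' hx hdvd)
    · intro hn; exact absurd hx hn
  rw [sum_congr rfl h2, ← mul_sum]
  field_simp

/-! ### The large sieve for primitive characters -/

/-- **Multiplicative large sieve, dual form.** -/
theorem mult_ls_dual {ι : Type*} [DecidableEq ι] (H : Finset ι) (f : ι → Eis)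
    (χ : ι → Eis → ℂ) (γ : ι → ℂ) {Q B : ℝ} (hQ1 : 1 ≤ Q) (hB : 0 ≤ B)
    (hχ : ∀ h ∈ H, IsPrimChar (f h) (χ h)) (hQ : ∀ h ∈ H, (nm (f h) : ℝ) ≤ Q)
    (hdist : ∀ h ∈ H, ∀ h' ∈ H, h ≠ h' → f h = f h' → χ h ≠ χ h')
    (c : Eis) (Bx : Finset Eis) (hBx : ∀ b ∈ Bx, (nm (b - c) : ℝ) ≤ B) :
    ∑ b ∈ Bx, ‖∑ h ∈ H, γ h * χ h b‖ ^ 2 ≤ 33 * (B + Q ^ 2) * ∑ h ∈ H, ‖γ h‖ ^ 2 := by
  classical
  set 𝓕 : Finset Eis := H.image f with h𝓕
  have h𝓕p : ∀ g ∈ 𝓕, IsPrim g ∧ (nm g : ℝ) ≤ Q := by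
    intro g hg
    obtain ⟨h, hh, rfl⟩ := Finset.mem_image.mp hg
    exact ⟨(hχ h hh).prim, hQ h hh⟩
  set S : Finset (Σ _ : Eis, Eis) :=
    𝓕.sigma (fun g => (Res g).filter (fun a => IsCoprime a g)) with hS
  set Γ : (Σ _ : Eis, Eis) → ℂ := fun p =>
    ∑ h ∈ H.filter (fun h => f h = p.1), γ h * fc p.1 (χ h) p.2 with hΓ
  have hadd := add_ls_dual S (fun p => p.2) (fun p => p.1) Γ hQ1 hB
    (fun p hp => (h𝓕p p.1 (Finset.mem_sigma.mp hp).1).1)
    (fun p hp => (h𝓕p p.1 (Finset.mem_sigma.mp hp).1).2)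
    (by
      rintro ⟨g, a⟩ hp ⟨g', a'⟩ hp' hne hdvd
      obtain ⟨hg, ha⟩ := Finset.mem_sigma.mp hp
      obtain ⟨hg', ha'⟩ := Finset.mem_sigma.mp hp'
      obtain ⟨haR, hac⟩ := Finset.mem_filter.mp ha
      obtain ⟨haR', hac'⟩ := Finset.mem_filter.mp ha'
      have hgp := (h𝓕p g hg).1
      have hgp' := (h𝓕p g' hg').1
      have h1 : g ∣ a * g' := by
        have h2 : g ∣ a * g' - a' * g := (dvd_mul_right g g').trans hdvd
        have h3 : g ∣ a' * g := dvd_mul_left g a'
        have := dvd_add h2 h3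
        simpa using this
      have h2 : g ∣ g' := hac.symm.dvd_of_dvd_mul_left h1
      have h3 : g' ∣ a' * g := by
        have h2 : g' ∣ a * g' - a' * g := (dvd_mul_left g' g).trans hdvd
        have h3 : g' ∣ a * g' := dvd_mul_left g' a
        have := dvd_sub h3 h2
        simpa using this
      have h4 : g' ∣ g := hac'.symm.dvd_of_dvd_mul_left h3
      have h5 : g = g' := hgp.eq_of_associated hgp' (associated_of_dvd_dvd h2 h4)
      subst h5
      apply hne
      have h6 : g ∣ a - a' := by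
        have h7 : g * g ∣ g * (a - a') := by
          have : a * g - a' * g = g * (a - a') := by ring
          rwa [this] at hdvd
        exact (mul_dvd_mul_iff_left hgp.ne_zero).mp h7
      have h8 : a = a' := eq_of_mem_Res hgp.ne_zero haR haR' h6
      rw [h8]) c Bx hBx
  -- left side
  have hL : ∀ b ∈ Bx, ‖∑ h ∈ H, γ h * χ h b‖ ^ 2 =
      ‖∑ p ∈ S, Γ p * eC (toC b * toC p.2 / toC p.1)‖ ^ 2 := by
    intro b _
    congr 2
    rw [hS, Finset.sum_sigma]
    rw [← Finset.sum_fiberwise_of_maps_to (s := H) (t := 𝓕) (g := f)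
      (fun h hh => Finset.mem_image_of_mem f hh)]
    refine sum_congr rfl fun g hg => ?_
    have h1 : ∀ a ∈ Res g, a ∉ (Res g).filter (fun a => IsCoprime a g) →
        Γ ⟨g, a⟩ * eC (toC b * toC a / toC g) = 0 := by
      intro a ha hna
      have hnc : ¬ IsCoprime a g := fun hc => hna (Finset.mem_filter.mpr ⟨ha, hc⟩)
      rw [hΓ]
      simp only
      rw [sum_eq_zero, zero_mul]
      intro h hh
      obtain ⟨hhH, hhf⟩ := Finset.mem_filter.mp hh
      have := hχ h hhH
      rw [hhf] at this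
      rw [fc_eq_zero this hnc, mul_zero]
    rw [Finset.sum_subset (Finset.filter_subset _ _) h1]
    have h2 : ∀ h ∈ H.filter (fun h => f h = g), γ h * χ h b =
        ∑ a ∈ Res g, γ h * fc g (χ h) a * eC (toC b * toC a / toC g) := by
      intro h hh
      obtain ⟨hhH, hhf⟩ := Finset.mem_filter.mp hh
      have h3 := hχ h hhH
      rw [hhf] at h3
      rw [fc_expand h3 b, mul_sum]
      refine sum_congr rfl fun a _ => ?_
      ring
    rw [sum_congr rfl h2, sum_comm]
    refine sum_congr rfl fun a _ => ?_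
    rw [hΓ]
    simp only
    rw [sum_mul]
  rw [sum_congr rfl hL]
  refine hadd.trans ?_
  refine mul_le_mul_of_nonneg_left ?_ (by positivity)
  -- norm of Γ
  rw [hS, Finset.sum_sigma]
  rw [← Finset.sum_fiberwise_of_maps_to (s := H) (t := 𝓕) (g := f)
      (fun h hh => Finset.mem_image_of_mem f hh)]
  refine sum_le_sum fun g hg => ?_
  have h1 : ∑ a ∈ (Res g).filter (fun a => IsCoprime a g), ‖Γ ⟨g, a⟩‖ ^ 2 ≤
      ∑ a ∈ Res g, ‖Γ ⟨g, a⟩‖ ^ 2 :=
    Finset.sum_le_sum_of_subset_of_nonneg (Finset.filter_subset _ _) fun _ _ _ => by positivity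
  refine h1.trans ?_
  have hgp := (h𝓕p g hg).1
  have h2 : ((∑ a ∈ Res g, ‖Γ ⟨g, a⟩‖ ^ 2 : ℝ) : ℂ) =
      ∑ h ∈ H.filter (fun h => f h = g), ((‖γ h‖ ^ 2 *
        (1 / ((Res g).card : ℝ) * ∑ x ∈ Res g, ‖χ h x‖ ^ 2) : ℝ) : ℂ) := by
    push_cast
    have h3 : ∀ a ∈ Res g, ((‖Γ ⟨g, a⟩‖ : ℂ)) ^ 2 =
        ∑ h ∈ H.filter (fun h => f h = g), ∑ h' ∈ H.filter (fun h => f h = g),
          (γ h * (starRingEnd ℂ) (γ h')) * (fc g (χ h) a * (starRingEnd ℂ) (fc g (χ h') a)) := by
      intro a _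
      rw [← Complex.mul_conj', hΓ]
      simp only
      rw [map_sum, sum_mul_sum]
      refine sum_congr rfl fun h _ => sum_congr rfl fun h' _ => ?_
      rw [map_mul]
      ring
    rw [sum_congr rfl h3, sum_comm]
    refine sum_congr rfl fun h hh => ?_
    rw [sum_comm]
    simp_rw [← mul_sum, fc_plancherel hgp]
    obtain ⟨hhH, hhf⟩ := Finset.mem_filter.mp hh
    rw [Finset.sum_eq_single h]
    · rw [Complex.mul_conj']
      congr 2
      refine sum_congr rfl fun x _ => ?_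
      rw [Complex.mul_conj']
    · intro h' hh' hne
      obtain ⟨hhH', hhf'⟩ := Finset.mem_filter.mp hh'
      have c1 := hχ h hhH
      have c2 := hχ h' hhH'
      rw [hhf] at c1
      rw [hhf'] at c2
      rw [c1.orth c2 (hdist h hhH h' hhH' (Ne.symm hne) (hhf.trans hhf'.symm)), mul_zero, mul_zero]
    · intro hn; exact absurd hh hn
  have h3 : ∑ a ∈ Res g, ‖Γ ⟨g, a⟩‖ ^ 2 = ∑ h ∈ H.filter (fun h => f h = g), ‖γ h‖ ^ 2 *
        (1 / ((Res g).card : ℝ) * ∑ x ∈ Res g, ‖χ h x‖ ^ 2) := by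
    exact_mod_cast h2
  rw [h3]
  refine sum_le_sum fun h hh => ?_
  obtain ⟨hhH, hhf⟩ := Finset.mem_filter.mp hh
  have h4 : 1 / ((Res g).card : ℝ) * ∑ x ∈ Res g, ‖χ h x‖ ^ 2 ≤ 1 := by
    have hcp : (0 : ℝ) < (Res g).card := by exact_mod_cast Res_card_pos hgp.ne_zero
    have h5 : ∑ x ∈ Res g, ‖χ h x‖ ^ 2 ≤ ∑ x ∈ Res g, (1 : ℝ) := by
      refine sum_le_sum fun x _ => ?_
      have := (hχ h hhH).bd x
      have h0 := norm_nonneg (χ h x)
      nlinarith
    rw [sum_const, nsmul_eq_mul, mul_one] at h5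
    rw [one_div, inv_mul_le_iff₀ hcp, mul_one]
    exact h5
  have h5 : 0 ≤ ‖γ h‖ ^ 2 := by positivity
  nlinarith

/-- **Multiplicative large sieve.** -/
theorem mult_ls {ι : Type*} [DecidableEq ι] (H : Finset ι) (f : ι → Eis)
    (χ : ι → Eis → ℂ) (β : Eis → ℂ) {Q B : ℝ} (hQ1 : 1 ≤ Q) (hB : 0 ≤ B)
    (hχ : ∀ h ∈ H, IsPrimChar (f h) (χ h)) (hQ : ∀ h ∈ H, (nm (f h) : ℝ) ≤ Q)
    (hdist : ∀ h ∈ H, ∀ h' ∈ H, h ≠ h' → f h = f h' → χ h ≠ χ h')
    (c : Eis) (Bx : Finset Eis) (hBx : ∀ b ∈ Bx, (nm (b - c) : ℝ) ≤ B) :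
    ∑ h ∈ H, ‖∑ b ∈ Bx, β b * χ h b‖ ^ 2 ≤ 33 * (B + Q ^ 2) * ∑ b ∈ Bx, ‖β b‖ ^ 2 :=
  duality H Bx (fun h b => χ h b) (by positivity)
    (fun γ => mult_ls_dual H f χ γ hQ1 hB hχ hQ hdist c Bx hBx) β

end Crest.Agent.R012.LS879
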