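import Crest.Agent.R012.LS1_879
import Crest.Agent.R012.MV_400

/-! R012, block L1: hybrid large sieve (integral over `|t| ≤ T`) and large sieve on short norm
intervals, without any loss.

* `hybrid_abs`  : abstract vector-valued Gallagher inequality
* `DiscLS`      : a family satisfying the dual large sieve on all discs
* `annulus_dual`: thin annuli
* `ls_hybrid_cubic`, `ls_hybrid_num`, `ls_short_cubic`, `ls_short_num`. -/

set_option autoImplicit false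
set_option linter.unusedSimpArgs false

namespace Crest.Agent.R012.LS879

open Finset Crest.Agent.R012 Crest.Agent.R012.Eis Crest.Agent.R012.MV400 MeasureTheory

/-! ### Gaussian windows -/

/-- Gaussian window of width `1/T` around `u`. -/
noncomputable def gw (T u x : ℝ) : ℝ := Real.exp (-(T ^ 2 * (x - u) ^ 2 / 2))

theorem gw_pos (T u x : ℝ) : 0 < gw T u x := Real.exp_pos _

theorem integrable_gauss_shift (T m c : ℝ) (hT : 0 < T) :
    Integrable (fun u : ℝ => c * Real.exp (-(T ^ 2) * (u - m) ^ 2)) := by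
  have h := (integrable_exp_neg_mul_sq (b := T ^ 2) (by positivity)).comp_sub_right m
  exact h.const_mul c

theorem gw_mul (T u x y : ℝ) : gw T u x * gw T u y =
    Real.exp (-(T * (x - y)) ^ 2 / 4) * Real.exp (-(T ^ 2) * (u - (x + y) / 2) ^ 2) := by
  unfold gw
  rw [← Real.exp_add, ← Real.exp_add]
  congr 1
  ring

theorem integrable_gw_mul (T x y : ℝ) (hT : 0 < T) :
    Integrable (fun u : ℝ => gw T u x * gw T u y) := by
  simp_rw [gw_mul]
  exact integrable_gauss_shift T _ _ hT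

theorem integral_gw_mul (T x y : ℝ) (hT : 0 < T) :
    ∫ u : ℝ, gw T u x * gw T u y = Real.sqrt Real.pi / T * Real.exp (-(T * (x - y)) ^ 2 / 4) := by
  simp_rw [gw_mul]
  rw [integral_const_mul]
  have h1 : ∫ u : ℝ, Real.exp (-(T ^ 2) * (u - (x + y) / 2) ^ 2) =
      ∫ u : ℝ, Real.exp (-(T ^ 2) * u ^ 2) :=
    integral_sub_right_eq_self (fun u : ℝ => Real.exp (-(T ^ 2) * u ^ 2)) _
  rw [h1, integral_gaussian, Real.sqrt_div Real.pi_pos.le, Real.sqrt_sq hT.le]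
  ring

theorem integrable_gw (T x : ℝ) (hT : 0 < T) : Integrable (fun u : ℝ => gw T u x) := by
  have h := integrable_exp_neg_mul_sq (b := T ^ 2 / 2) (by positivity)
  have h2 := h.comp_sub_right x
  convert h2 using 2 with u
  unfold gw
  congr 1
  ring

theorem integral_gw (T x : ℝ) (hT : 0 < T) :
    ∫ u : ℝ, gw T u x = Real.sqrt (2 * Real.pi) / T := by
  have h1 : ∀ u : ℝ, gw T u x = Real.exp (-(T ^ 2 / 2) * (u - x) ^ 2) := by
    intro u
    unfold gw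
    congr 1
    ring
  simp_rw [h1]
  rw [integral_sub_right_eq_self (fun u : ℝ => Real.exp (-(T ^ 2 / 2) * u ^ 2)),
    integral_gaussian]
  have : Real.pi / (T ^ 2 / 2) = (2 * Real.pi) / T ^ 2 := by
    field_simp
  rw [this, Real.sqrt_div (by positivity), Real.sqrt_sq hT.le]

variable {ι κ : Type*}

theorem norm_sum_gw_sq (s : Finset ι) (a : ι → ℂ) (x : ι → ℝ) (T u : ℝ) :
    ((‖∑ j ∈ s, a j * (gw T u (x j) : ℂ)‖ ^ 2 : ℝ) : ℂ) =
      ∑ j ∈ s, ∑ k ∈ s, (a j * (starRingEnd ℂ) (a k)) *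
        ((gw T u (x j) * gw T u (x k) : ℝ) : ℂ) := by
  push_cast
  rw [← Complex.mul_conj', map_sum, sum_mul_sum]
  refine sum_congr rfl fun j _ => sum_congr rfl fun k _ => ?_
  rw [map_mul, Complex.conj_ofReal]
  ring

theorem integrable_norm_sum_gw (s : Finset ι) (a : ι → ℂ) (x : ι → ℝ) (T : ℝ) (hT : 0 < T) :
    Integrable (fun u : ℝ => ‖∑ j ∈ s, a j * (gw T u (x j) : ℂ)‖ ^ 2) := by
  have h : Integrable (fun u : ℝ => ((‖∑ j ∈ s, a j * (gw T u (x j) : ℂ)‖ ^ 2 : ℝ) : ℂ)) := by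
    simp_rw [norm_sum_gw_sq]
    refine integrable_finsetSum _ fun j _ => integrable_finsetSum _ fun k _ => ?_
    exact ((integrable_gw_mul T (x j) (x k) hT).ofReal).const_mul _
  refine h.re.congr ?_
  filter_upwards with u
  exact Complex.ofReal_re _

/-- Gallagher identity with Gaussian windows. -/
theorem gallagher_eq (s : Finset ι) (a : ι → ℂ) (x : ι → ℝ) (T : ℝ) (hT : 0 < T) :
    ∫ t : ℝ, ‖trig s a x t‖ ^ 2 * Real.exp (-(1 / T ^ 2) * t ^ 2) =
      T ^ 2 * ∫ u : ℝ, ‖∑ j ∈ s, a j * (gw T u (x j) : ℂ)‖ ^ 2 := by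
  have h1 := integral_gauss_trig s a x T hT
  have h2 : ((∫ u : ℝ, ‖∑ j ∈ s, a j * (gw T u (x j) : ℂ)‖ ^ 2 : ℝ) : ℂ) =
      ∑ j ∈ s, ∑ k ∈ s, (a j * (starRingEnd ℂ) (a k)) *
        ((Real.sqrt Real.pi / T * Real.exp (-(T * (x j - x k)) ^ 2 / 4) : ℝ) : ℂ) := by
    rw [← integral_complex_ofReal]
    simp_rw [norm_sum_gw_sq]
    rw [integral_finsetSum]
    · refine sum_congr rfl fun j _ => ?_
      rw [integral_finsetSum]
      · refine sum_congr rfl fun k _ => ?_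
        rw [integral_const_mul, integral_complex_ofReal, integral_gw_mul T _ _ hT]
      · intro k _
        exact ((integrable_gw_mul T (x j) (x k) hT).ofReal).const_mul _
    · intro j _
      refine integrable_finsetSum _ fun k _ => ?_
      exact ((integrable_gw_mul T (x j) (x k) hT).ofReal).const_mul _
  have h3 : ((∫ t : ℝ, ‖trig s a x t‖ ^ 2 * Real.exp (-(1 / T ^ 2) * t ^ 2) : ℝ) : ℂ) =
      ((T ^ 2 * ∫ u : ℝ, ‖∑ j ∈ s, a j * (gw T u (x j) : ℂ)‖ ^ 2 : ℝ) : ℂ) := by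
    rw [h1, Complex.ofReal_mul, h2, mul_sum]
    refine sum_congr rfl fun j _ => ?_
    rw [mul_sum]
    refine sum_congr rfl fun k _ => ?_
    push_cast
    have : (T : ℂ) ≠ 0 := by exact_mod_cast hT.ne'
    field_simp
  exact_mod_cast h3

theorem gw_cell_le {T u x : ℝ} {k : ℤ} (hk : ⌊T * (x - u)⌋ = k) :
    gw T u x ≤ Real.exp 2 * Real.exp (-|(k : ℝ)|) := by
  unfold gw
  rw [← Real.exp_add]
  apply Real.exp_le_exp.mpr
  have h1 : (k : ℝ) ≤ T * (x - u) := by rw [← hk]; exact Int.floor_le _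
  have h2 : T * (x - u) < k + 1 := by rw [← hk]; exact Int.lt_floor_add_one _
  set y := T * (x - u) with hy
  have h3 : T ^ 2 * (x - u) ^ 2 / 2 = y ^ 2 / 2 := by rw [hy]; ring
  rw [h3]
  have h4 : |(k : ℝ)| - 1 ≤ |y| := by
    rcases le_or_gt 0 (k : ℝ) with h | h
    · rw [abs_of_nonneg h]
      have := le_abs_self y
      linarith
    · rw [abs_of_neg h]
      have := neg_abs_le y
      have h5 : (k : ℝ) ≤ -1 := by
        have : k < 0 := by exact_mod_cast h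
        have : k ≤ -1 := by omega
        exact_mod_cast this
      linarith
  have h5 : 0 ≤ |(k : ℝ)| := abs_nonneg _
  have h6 : |y| ^ 2 = y ^ 2 := sq_abs y
  rw [← h6]
  set m := |(k : ℝ)| with hm
  have h7 : 0 ≤ |y| := abs_nonneg _
  rcases le_or_gt m 1 with hm1 | hm1
  · nlinarith [sq_nonneg (|y|)]
  · nlinarith [sq_nonneg (m - 2), mul_self_nonneg (|y| - (m - 1)),
      mul_nonneg (by linarith : (0 : ℝ) ≤ |y| - (m - 1)) (by linarith : (0 : ℝ) ≤ m - 1)]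

/-- Weighted dual inequality from the sharp windows. -/
theorem weighted_dual (H : Finset κ) (s : Finset ι) (φ : κ → ι → ℂ) (x : ι → ℝ) {T D : ℝ}
    (hT : 0 < T)
    (hdual : ∀ (v : ℝ) (γ : κ → ℂ), ∑ j ∈ s.filter (fun j => v ≤ x j ∧ x j < v + 1 / T),
      ‖∑ h ∈ H, γ h * φ h j‖ ^ 2 ≤ D * ∑ h ∈ H, ‖γ h‖ ^ 2) (hD : 0 ≤ D) (u : ℝ) (γ : κ → ℂ) :
    ∑ j ∈ s, gw T u (x j) * ‖∑ h ∈ H, γ h * φ h j‖ ^ 2 ≤
      (4 * Real.exp 2 * D) * ∑ h ∈ H, ‖γ h‖ ^ 2 := by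
  classical
  set cell : ι → ℤ := fun j => ⌊T * (x j - u)⌋ with hcell
  set F : Finset ℤ := s.image cell with hF
  rw [← Finset.sum_fiberwise_of_maps_to (s := s) (t := F) (g := cell)
    (fun j hj => Finset.mem_image_of_mem cell hj)]
  have hS : 0 ≤ ∑ h ∈ H, ‖γ h‖ ^ 2 := sum_nonneg fun _ _ => by positivity
  calc ∑ k ∈ F, ∑ j ∈ s.filter (fun j => cell j = k),
        gw T u (x j) * ‖∑ h ∈ H, γ h * φ h j‖ ^ 2
      ≤ ∑ k ∈ F, (Real.exp 2 * Real.exp (-|(k : ℝ)|)) * (D * ∑ h ∈ H, ‖γ h‖ ^ 2) := by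
        refine sum_le_sum fun k _ => ?_
        have h1 : ∑ j ∈ s.filter (fun j => cell j = k),
            gw T u (x j) * ‖∑ h ∈ H, γ h * φ h j‖ ^ 2 ≤
            (Real.exp 2 * Real.exp (-|(k : ℝ)|)) * ∑ j ∈ s.filter (fun j => cell j = k),
              ‖∑ h ∈ H, γ h * φ h j‖ ^ 2 := by
          rw [mul_sum]
          refine sum_le_sum fun j hj => ?_
          have := gw_cell_le (Finset.mem_filter.mp hj).2
          exact mul_le_mul_of_nonneg_right this (by positivity)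
        refine h1.trans ?_
        refine mul_le_mul_of_nonneg_left ?_ (by positivity)
        refine le_trans ?_ (hdual (u + k / T) γ)
        refine Finset.sum_le_sum_of_subset_of_nonneg ?_ fun _ _ _ => by positivity
        intro j hj
        obtain ⟨hjs, hjk⟩ := Finset.mem_filter.mp hj
        refine Finset.mem_filter.mpr ⟨hjs, ?_⟩
        have a1 : (k : ℝ) ≤ T * (x j - u) := by rw [← hjk]; exact Int.floor_le _
        have a2 : T * (x j - u) < k + 1 := by rw [← hjk]; exact Int.lt_floor_add_one _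
        constructor
        · have : (k : ℝ) / T ≤ x j - u := by rw [div_le_iff₀ hT]; linarith
          linarith
        · have : x j - u < (k + 1) / T := by rw [lt_div_iff₀ hT]; linarith
          have e1 : ((k : ℝ) + 1) / T = k / T + 1 / T := by ring
          linarith
    _ = Real.exp 2 * (D * ∑ h ∈ H, ‖γ h‖ ^ 2) * ∑ k ∈ F, Real.exp (-|(k : ℝ)|) := by
        rw [Finset.mul_sum F]
        refine sum_congr rfl fun k _ => ?_
        ring
    _ ≤ Real.exp 2 * (D * ∑ h ∈ H, ‖γ h‖ ^ 2) * 4 := by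
        refine mul_le_mul_of_nonneg_left (sum_exp_neg_natAbs_le F) (by positivity)
    _ = _ := by ring

/-- Weighted primal inequality. -/
theorem weighted_primal (H : Finset κ) (s : Finset ι) (φ : κ → ι → ℂ) (x : ι → ℝ) {T D : ℝ}
    (hT : 0 < T)
    (hdual : ∀ (v : ℝ) (γ : κ → ℂ), ∑ j ∈ s.filter (fun j => v ≤ x j ∧ x j < v + 1 / T),
      ‖∑ h ∈ H, γ h * φ h j‖ ^ 2 ≤ D * ∑ h ∈ H, ‖γ h‖ ^ 2) (hD : 0 ≤ D) (u : ℝ) (β : ι → ℂ) :
    ∑ h ∈ H, ‖∑ j ∈ s, (β j * φ h j) * (gw T u (x j) : ℂ)‖ ^ 2 ≤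
      (4 * Real.exp 2 * D) * ∑ j ∈ s, ‖β j‖ ^ 2 * gw T u (x j) := by
  set r : ι → ℝ := fun j => Real.sqrt (gw T u (x j)) with hr
  have hrr : ∀ j, r j * r j = gw T u (x j) := fun j => Real.mul_self_sqrt (gw_pos T u (x j)).le
  have hr0 : ∀ j, 0 ≤ r j := fun j => Real.sqrt_nonneg _
  have h := duality H s (fun h j => (r j : ℂ) * φ h j) (D := 4 * Real.exp 2 * D) (by positivity)
    (by
      intro γ
      refine le_trans (le_of_eq ?_) (weighted_dual H s φ x hT hdual hD u γ)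
      refine sum_congr rfl fun j _ => ?_
      have : ∑ h ∈ H, γ h * ((r j : ℂ) * φ h j) = (r j : ℂ) * ∑ h ∈ H, γ h * φ h j := by
        rw [mul_sum]
        refine sum_congr rfl fun h _ => ?_
        ring
      rw [this, norm_mul, mul_pow, Complex.norm_real, Real.norm_of_nonneg (hr0 j), sq (r j), hrr])
    (fun j => β j * (r j : ℂ))
  refine le_trans (le_of_eq ?_) (h.trans (le_of_eq ?_))
  · refine sum_congr rfl fun h _ => ?_
    congr 2
    refine sum_congr rfl fun j _ => ?_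
    rw [← hrr j]
    push_cast
    ring
  · congr 1
    refine sum_congr rfl fun j _ => ?_
    rw [norm_mul, mul_pow, Complex.norm_real, Real.norm_of_nonneg (hr0 j), sq (r j), hrr]

/-- **Abstract hybrid inequality.** -/
theorem hybrid_abs (H : Finset κ) (s : Finset ι) (φ : κ → ι → ℂ) (x : ι → ℝ) {T D : ℝ}
    (hT : 0 < T)
    (hdual : ∀ (v : ℝ) (γ : κ → ℂ), ∑ j ∈ s.filter (fun j => v ≤ x j ∧ x j < v + 1 / T),
      ‖∑ h ∈ H, γ h * φ h j‖ ^ 2 ≤ D * ∑ h ∈ H, ‖γ h‖ ^ 2) (hD : 0 ≤ D) (β : ι → ℂ) :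
    ∑ h ∈ H, ∫ t in (-T)..T, ‖trig s (fun j => β j * φ h j) x t‖ ^ 2 ≤
      (250 * T * D) * ∑ j ∈ s, ‖β j‖ ^ 2 := by
  have hgint : ∀ h, Integrable (fun t : ℝ => ‖trig s (fun j => β j * φ h j) x t‖ ^ 2 *
      Real.exp (-(1 / T ^ 2) * t ^ 2)) := by
    intro h
    obtain ⟨M, hM⟩ : ∃ M : ℝ, ∀ t, ‖trig s (fun j => β j * φ h j) x t‖ ≤ M := by
      refine ⟨∑ j ∈ s, ‖β j * φ h j‖, fun t => ?_⟩
      unfold trig
      refine (norm_sum_le _ _).trans (Finset.sum_le_sum fun j _ => ?_)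
      rw [norm_mul]
      have : ‖Complex.exp (Complex.I * (x j : ℂ) * (t : ℂ))‖ = 1 := by
        rw [Complex.norm_exp]
        simp
      rw [this, mul_one]
    refine Integrable.mono' ((integrable_gauss T hT).const_mul (M ^ 2)) ?_ ?_
    · apply Continuous.aestronglyMeasurable
      have := continuous_trig s (fun j => β j * φ h j) x
      fun_prop
    · filter_upwards with t
      rw [Real.norm_of_nonneg (by positivity)]
      have := hM t
      have h0 := norm_nonneg (trig s (fun j => β j * φ h j) x t)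
      exact mul_le_mul_of_nonneg_right (pow_le_pow_left₀ h0 this 2) (Real.exp_pos _).le
  have h1 : ∀ h ∈ H, ∫ t in (-T)..T, ‖trig s (fun j => β j * φ h j) x t‖ ^ 2 ≤
      Real.exp 1 * (T ^ 2 * ∫ u : ℝ, ‖∑ j ∈ s, (β j * φ h j) * (gw T u (x j) : ℂ)‖ ^ 2) := by
    intro h _
    rw [← gallagher_eq s (fun j => β j * φ h j) x T hT, ← integral_const_mul,
      intervalIntegral.integral_of_le (by linarith)]
    refine (setIntegral_mono_on ?_ ((hgint h).const_mul _).integrableOn measurableSet_Ioc ?_).trans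
      (setIntegral_le_integral ((hgint h).const_mul _) ?_)
    · have := continuous_trig s (fun j => β j * φ h j) x
      exact (Continuous.integrableOn_Icc (by fun_prop)).mono_set Set.Ioc_subset_Icc_self
    · intro t ht
      have ht2 : t ^ 2 ≤ T ^ 2 := by
        have h1 := ht.1
        have h2 := ht.2
        nlinarith
      have h3 : 1 ≤ Real.exp 1 * Real.exp (-(1 / T ^ 2) * t ^ 2) := by
        rw [← Real.exp_add]
        apply Real.one_le_exp
        have : 1 / T ^ 2 * t ^ 2 ≤ 1 := by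
          rw [div_mul_eq_mul_div, one_mul, div_le_one (by positivity)]
          exact ht2
        linarith
      calc ‖trig s (fun j => β j * φ h j) x t‖ ^ 2
          = ‖trig s (fun j => β j * φ h j) x t‖ ^ 2 * 1 := by ring
        _ ≤ ‖trig s (fun j => β j * φ h j) x t‖ ^ 2 *
            (Real.exp 1 * Real.exp (-(1 / T ^ 2) * t ^ 2)) :=
            mul_le_mul_of_nonneg_left h3 (by positivity)
        _ = _ := by ring
    · exact Filter.Eventually.of_forall fun t => by positivity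
  refine (sum_le_sum h1).trans ?_
  rw [← mul_sum, ← mul_sum, ← integral_finsetSum _ (fun h _ =>
    integrable_norm_sum_gw s (fun j => β j * φ h j) x T hT)]
  have h2 : ∫ u : ℝ, ∑ h ∈ H, ‖∑ j ∈ s, (β j * φ h j) * (gw T u (x j) : ℂ)‖ ^ 2 ≤
      ∫ u : ℝ, (4 * Real.exp 2 * D) * ∑ j ∈ s, ‖β j‖ ^ 2 * gw T u (x j) := by
    refine integral_mono (integrable_finsetSum _ fun h _ =>
      integrable_norm_sum_gw s (fun j => β j * φ h j) x T hT) ?_
      (fun u => weighted_primal H s φ x hT hdual hD u β)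
    refine Integrable.const_mul (integrable_finsetSum _ fun j _ => ?_) _
    exact (integrable_gw T (x j) hT).const_mul _
  have h3 : ∫ u : ℝ, (4 * Real.exp 2 * D) * ∑ j ∈ s, ‖β j‖ ^ 2 * gw T u (x j) =
      (4 * Real.exp 2 * D) * ((∑ j ∈ s, ‖β j‖ ^ 2) * (Real.sqrt (2 * Real.pi) / T)) := by
    rw [integral_const_mul, integral_finsetSum _ (fun j _ =>
      (integrable_gw T (x j) hT).const_mul _), sum_mul]
    congr 1
    refine sum_congr rfl fun j _ => ?_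
    rw [integral_const_mul, integral_gw T _ hT]
  rw [h3] at h2
  have hS : 0 ≤ ∑ j ∈ s, ‖β j‖ ^ 2 := sum_nonneg fun _ _ => by positivity
  calc Real.exp 1 * (T ^ 2 * ∫ u : ℝ, ∑ h ∈ H,
        ‖∑ j ∈ s, (β j * φ h j) * (gw T u (x j) : ℂ)‖ ^ 2)
      ≤ Real.exp 1 * (T ^ 2 * ((4 * Real.exp 2 * D) *
        ((∑ j ∈ s, ‖β j‖ ^ 2) * (Real.sqrt (2 * Real.pi) / T)))) := by gcongr
    _ = (4 * (Real.exp 1 * Real.exp 2) * Real.sqrt (2 * Real.pi)) * (T * D) *
        ∑ j ∈ s, ‖β j‖ ^ 2 := by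
        field_simp
    _ ≤ 250 * (T * D) * ∑ j ∈ s, ‖β j‖ ^ 2 := by
        have hc : 4 * (Real.exp 1 * Real.exp 2) * Real.sqrt (2 * Real.pi) ≤ 250 := by
          have e1 : Real.exp 1 < 2.7182818286 := Real.exp_one_lt_d9
          have e0 : 0 < Real.exp 1 := Real.exp_pos 1
          have e2 : Real.exp 2 = Real.exp 1 * Real.exp 1 := by
            rw [← Real.exp_add]; norm_num
          have hs : Real.sqrt (2 * Real.pi) ≤ 2.52 := by
            rw [Real.sqrt_le_left (by norm_num)]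
            have := Real.pi_lt_d4
            norm_num
            linarith
          have hs0 : 0 ≤ Real.sqrt (2 * Real.pi) := Real.sqrt_nonneg _
          rw [e2]
          have e3 : Real.exp 1 * Real.exp 1 ≤ 7.4 := by nlinarith
          have e4 : Real.exp 1 * (Real.exp 1 * Real.exp 1) ≤ 20.2 := by nlinarith
          nlinarith
        have : 0 ≤ T * D * ∑ j ∈ s, ‖β j‖ ^ 2 := by positivity
        nlinarith
    _ = _ := by ring

/-! ### Thin annuli -/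

/-- Families with the dual large sieve on all discs. -/
def DiscLS (P : Eis → Prop) (H : Finset κ) (φ : κ → Eis → ℂ) (C Q2 : ℝ) : Prop :=
  ∀ (γ : κ → ℂ) (c : Eis) (B : ℝ) (S : Finset Eis), 0 ≤ B →
    (∀ b ∈ S, P b ∧ (nm (b - c) : ℝ) ≤ B) →
    ∑ b ∈ S, ‖∑ h ∈ H, γ h * φ h b‖ ^ 2 ≤ C * (B + Q2) * ∑ h ∈ H, ‖γ h‖ ^ 2

theorem abs_sub_le_log {a b R : ℝ} (ha : 0 < a) (hb : 0 < b) (haR : a ≤ R) (hbR : b ≤ R) :
    |a - b| ≤ R * |Real.log a - Real.log b| := by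
  wlog hab : b ≤ a generalizing a b
  · rw [abs_sub_comm, abs_sub_comm (Real.log a)]
    exact this hb ha hbR haR (le_of_not_ge hab)
  rw [abs_of_nonneg (by linarith), abs_of_nonneg (by
    have := Real.log_le_log hb hab
    linarith)]
  have h1 : 1 - b / a ≤ Real.log a - Real.log b := by
    have h2 := Real.add_one_le_exp (Real.log (b / a))
    rw [Real.exp_log (by positivity), Real.log_div hb.ne' ha.ne'] at h2
    linarith
  have h2 : a - b = a * (1 - b / a) := by field_simp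
  rw [h2]
  have h3 : 0 ≤ 1 - b / a := by
    rw [sub_nonneg, div_le_one ha]; exact hab
  exact mul_le_mul haR h1 h3 (by linarith)

theorem annulus_dual {P : Eis → Prop} {H : Finset κ} {φ : κ → Eis → ℂ} {C Q2 T B : ℝ}
    (hL : DiscLS P H φ C Q2) (hC : 0 ≤ C) (hQ2 : 0 ≤ Q2) (hT : 1 ≤ T) (hB : 0 ≤ B)
    (S : Finset Eis) (hS : ∀ b ∈ S, P b ∧ b ≠ 0 ∧ (nm b : ℝ) ≤ B) (v : ℝ) (γ : κ → ℂ) :
    ∑ b ∈ S.filter (fun b => v ≤ Real.log (nm b) ∧ Real.log (nm b) < v + 1 / T),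
      ‖∑ h ∈ H, γ h * φ h b‖ ^ 2 ≤ (C * (147 * (B / T) + 3 * (T * Q2))) * ∑ h ∈ H, ‖γ h‖ ^ 2 := by
  classical
  have hpi := Real.pi_pos
  have hT0 : 0 < T := by linarith
  set M : ℕ := ⌈T⌉₊ with hM
  have hMT : T ≤ M := Nat.le_ceil T
  have hM0 : (0 : ℝ) < M := by linarith
  have hMT2 : (M : ℝ) + 1 ≤ 3 * T := by
    have := Nat.ceil_lt_add_one hT0.le
    rw [← hM] at this
    linarith
  set S' := S.filter (fun b => v ≤ Real.log (nm b) ∧ Real.log (nm b) < v + 1 / T) with hS'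
  set cell : Eis → ℕ := fun b => ⌊(M : ℝ) * ((toC b).arg + Real.pi) / (2 * Real.pi)⌋₊ with hcell
  have hmaps : ∀ b ∈ S', cell b ∈ Finset.range (M + 1) := by
    intro b _
    rw [Finset.mem_range, hcell]
    simp only
    rw [Nat.lt_succ_iff]
    have h1 : (M : ℝ) * ((toC b).arg + Real.pi) / (2 * Real.pi) ≤ M := by
      rw [div_le_iff₀ (by positivity)]
      have := Complex.arg_le_pi (toC b)
      nlinarith
    exact Nat.floor_le_of_le h1
  rw [← Finset.sum_fiberwise_of_maps_to hmaps]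
  have hΓ : 0 ≤ ∑ h ∈ H, ‖γ h‖ ^ 2 := sum_nonneg fun _ _ => by positivity
  have hcellbd : ∀ k ∈ Finset.range (M + 1), ∑ b ∈ S'.filter (fun b => cell b = k),
      ‖∑ h ∈ H, γ h * φ h b‖ ^ 2 ≤ (C * (49 * (B / T ^ 2) + Q2)) * ∑ h ∈ H, ‖γ h‖ ^ 2 := by
    intro k _
    rcases (S'.filter (fun b => cell b = k)).eq_empty_or_nonempty with he | ⟨c, hc⟩
    · rw [he, Finset.sum_empty]
      positivity
    · obtain ⟨hcS', hck⟩ := Finset.mem_filter.mp hc
      obtain ⟨hcS, hcl⟩ := Finset.mem_filter.mp hcS'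
      refine hL γ c (49 * (B / T ^ 2)) _ (by positivity) ?_
      intro b hb
      obtain ⟨hbS', hbk⟩ := Finset.mem_filter.mp hb
      obtain ⟨hbS, hbl⟩ := Finset.mem_filter.mp hbS'
      obtain ⟨hP, hb0, hbB⟩ := hS b hbS
      obtain ⟨_, hc0, hcB⟩ := hS c hcS
      refine ⟨hP, ?_⟩
      -- polar estimate
      have hnb : (0 : ℝ) < nm b := by exact_mod_cast nm_pos.mpr hb0
      have hnc : (0 : ℝ) < nm c := by exact_mod_cast nm_pos.mpr hc0
      have hzb : ‖toC b‖ = Real.sqrt (nm b) := norm_toC b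
      have hzc : ‖toC c‖ = Real.sqrt (nm c) := norm_toC c
      have hzb0 : 0 < ‖toC b‖ := by rw [hzb]; positivity
      have hzc0 : 0 < ‖toC c‖ := by rw [hzc]; positivity
      have hzbB : ‖toC b‖ ≤ Real.sqrt B := by rw [hzb]; exact Real.sqrt_le_sqrt hbB
      have hzcB : ‖toC c‖ ≤ Real.sqrt B := by rw [hzc]; exact Real.sqrt_le_sqrt hcB
      have hlog : |Real.log ‖toC b‖ - Real.log ‖toC c‖| ≤ 1 / (2 * T) := by
        rw [hzb, hzc, Real.log_sqrt hnb.le, Real.log_sqrt hnc.le, ← sub_div, abs_div,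
          abs_of_pos (by norm_num : (0 : ℝ) < 2), div_le_iff₀ (by norm_num)]
        have : 1 / (2 * T) * 2 = 1 / T := by field_simp
        rw [this, abs_le]
        constructor <;> linarith [hbl.1, hbl.2, hcl.1, hcl.2]
      have hrad : |‖toC b‖ - ‖toC c‖| ≤ Real.sqrt B * (1 / (2 * T)) :=
        (abs_sub_le_log hzb0 hzc0 hzbB hzcB).trans
          (mul_le_mul_of_nonneg_left hlog (Real.sqrt_nonneg _))
      have hang : |(toC b).arg - (toC c).arg| ≤ 2 * Real.pi / T := by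
        have hfl : ∀ z : Eis, cell z = k →
            (k : ℝ) ≤ (M : ℝ) * ((toC z).arg + Real.pi) / (2 * Real.pi) ∧
            (M : ℝ) * ((toC z).arg + Real.pi) / (2 * Real.pi) < k + 1 := by
          intro z hz
          have hnn : 0 ≤ (M : ℝ) * ((toC z).arg + Real.pi) / (2 * Real.pi) := by
            have := Complex.neg_pi_lt_arg (toC z)
            have : 0 ≤ (toC z).arg + Real.pi := by linarith
            positivity
          rw [← hz]
          exact ⟨Nat.floor_le hnn, Nat.lt_floor_add_one _⟩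
        obtain ⟨b1, b2⟩ := hfl b hbk
        obtain ⟨c1, c2⟩ := hfl c hck
        have hd : |(M : ℝ) * ((toC b).arg + Real.pi) / (2 * Real.pi) -
            (M : ℝ) * ((toC c).arg + Real.pi) / (2 * Real.pi)| ≤ 1 := by
          rw [abs_le]; constructor <;> linarith
        have he : (M : ℝ) * ((toC b).arg + Real.pi) / (2 * Real.pi) -
            (M : ℝ) * ((toC c).arg + Real.pi) / (2 * Real.pi) =
            (M : ℝ) / (2 * Real.pi) * ((toC b).arg - (toC c).arg) := by ring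
        rw [he, abs_mul, abs_of_pos (by positivity)] at hd
        have h5 : |(toC b).arg - (toC c).arg| ≤ 2 * Real.pi / M := by
          rw [le_div_iff₀ hM0]
          have h6 : (M : ℝ) / (2 * Real.pi) * |(toC b).arg - (toC c).arg| * (2 * Real.pi) ≤
              1 * (2 * Real.pi) := mul_le_mul_of_nonneg_right hd (by positivity)
          have h7 : (M : ℝ) / (2 * Real.pi) * |(toC b).arg - (toC c).arg| * (2 * Real.pi) =
              |(toC b).arg - (toC c).arg| * M := by field_simp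
          rw [h7] at h6
          linarith
        refine h5.trans ?_
        exact div_le_div_of_nonneg_left (by positivity) hT0 hMT
      have hdist : ‖toC b - toC c‖ ≤ 7 * (Real.sqrt B / T) := by
        refine (norm_sub_le_polar _ _).trans ?_
        have h1 : ‖toC c‖ * |(toC b).arg - (toC c).arg| ≤ Real.sqrt B * (2 * Real.pi / T) :=
          mul_le_mul hzcB hang (abs_nonneg _) (Real.sqrt_nonneg _)
        have h2 : Real.sqrt B * (1 / (2 * T)) + Real.sqrt B * (2 * Real.pi / T) =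
            (1 / 2 + 2 * Real.pi) * (Real.sqrt B / T) := by field_simp
        have h3 : (1 / 2 + 2 * Real.pi) ≤ 7 := by
          have := Real.pi_lt_d4
          linarith
        have h4 : 0 ≤ Real.sqrt B / T := by positivity
        calc _ ≤ Real.sqrt B * (1 / (2 * T)) + Real.sqrt B * (2 * Real.pi / T) := add_le_add hrad h1
          _ = _ := h2
          _ ≤ _ := mul_le_mul_of_nonneg_right h3 h4
      rw [← norm_toC_sq, map_sub]
      have h0 := norm_nonneg (toC b - toC c)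
      calc ‖toC b - toC c‖ ^ 2 ≤ (7 * (Real.sqrt B / T)) ^ 2 := pow_le_pow_left₀ h0 hdist 2
        _ = 49 * (Real.sqrt B ^ 2 / T ^ 2) := by ring
        _ = 49 * (B / T ^ 2) := by rw [Real.sq_sqrt hB]
  refine (sum_le_sum hcellbd).trans ?_
  rw [sum_const, nsmul_eq_mul, Finset.card_range]
  push_cast
  have hD0 : 0 ≤ C * (49 * (B / T ^ 2) + Q2) * ∑ h ∈ H, ‖γ h‖ ^ 2 := by positivity
  calc ((M : ℝ) + 1) * (C * (49 * (B / T ^ 2) + Q2) * ∑ h ∈ H, ‖γ h‖ ^ 2)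
      ≤ (3 * T) * (C * (49 * (B / T ^ 2) + Q2) * ∑ h ∈ H, ‖γ h‖ ^ 2) :=
        mul_le_mul_of_nonneg_right hMT2 hD0
    _ = _ := by field_simp; ring

/-! ### Final statements -/

/-- Hybrid large sieve for a `DiscLS` family. -/
theorem DiscLS.hybrid {P : Eis → Prop} {H : Finset κ} {φ : κ → Eis → ℂ} {C Q2 T B : ℝ}
    (hL : DiscLS P H φ C Q2) (hC : 0 ≤ C) (hQ2 : 0 ≤ Q2) (hT : 1 ≤ T) (hB : 0 ≤ B)
    (S : Finset Eis) (hS : ∀ b ∈ S, P b ∧ b ≠ 0 ∧ (nm b : ℝ) ≤ B) (β : Eis → ℂ) :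
    ∑ h ∈ H, ∫ t in (-T)..T, ‖∑ b ∈ S, β b * φ h b * nit t b‖ ^ 2 ≤
      37000 * C * (B + T ^ 2 * Q2) * ∑ b ∈ S, ‖β b‖ ^ 2 := by
  have hT0 : 0 < T := by linarith
  have h := hybrid_abs H S φ (fun b => Real.log (nm b)) hT0
    (fun v γ => annulus_dual hL hC hQ2 hT hB S hS v γ) (by positivity) β
  have h2 : ∀ h t, ∑ b ∈ S, β b * φ h b * nit t b =
      trig S (fun b => β b * φ h b) (fun b => Real.log (nm b)) t := by
    intro h t
    unfold trig
    exact sum_congr rfl fun b hb => by rw [nit_eq (hS b hb).2.1]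
  simp_rw [h2]
  refine h.trans ?_
  have hΓ : 0 ≤ ∑ b ∈ S, ‖β b‖ ^ 2 := sum_nonneg fun _ _ => by positivity
  refine mul_le_mul_of_nonneg_right ?_ hΓ
  have e1 : 250 * T * (C * (147 * (B / T) + 3 * (T * Q2))) =
      C * (36750 * B + 750 * (T ^ 2 * Q2)) := by
    field_simp
    ring
  rw [e1]
  have e2 : 0 ≤ T ^ 2 * Q2 := by positivity
  have e3 : 36750 * B + 750 * (T ^ 2 * Q2) ≤ 37000 * (B + T ^ 2 * Q2) := by linarith
  calc C * (36750 * B + 750 * (T ^ 2 * Q2)) ≤ C * (37000 * (B + T ^ 2 * Q2)) :=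
        mul_le_mul_of_nonneg_left e3 hC
    _ = _ := by ring

/-- Dual large sieve on a short norm interval. -/
theorem DiscLS.short_dual {P : Eis → Prop} {H : Finset κ} {φ : κ → Eis → ℂ} {C Q2 y δ : ℝ}
    (hL : DiscLS P H φ C Q2) (hC : 0 ≤ C) (hQ2 : 0 ≤ Q2) (hδ : 0 < δ) (hδ1 : δ ≤ 1) (hy : 0 < y)
    (S : Finset Eis) (hS : ∀ b ∈ S, P b ∧ y ≤ (nm b : ℝ) ∧ (nm b : ℝ) ≤ y * (1 + δ)) (γ : κ → ℂ) :
    ∑ b ∈ S, ‖∑ h ∈ H, γ h * φ h b‖ ^ 2 ≤
      (C * (294 * (δ * y) + 3 * (Q2 / δ))) * ∑ h ∈ H, ‖γ h‖ ^ 2 := by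
  classical
  have hb0 : ∀ b ∈ S, b ≠ 0 := by
    rintro b hb rfl
    have := (hS _ hb).2.1
    simp at this
    linarith
  have h := annulus_dual hL hC hQ2 (T := δ⁻¹) (B := 2 * y) (by
      rw [one_le_inv₀ hδ]; exact hδ1) (by positivity) S
    (fun b hb => ⟨(hS b hb).1, hb0 b hb, (hS b hb).2.2.trans (by nlinarith)⟩) (Real.log y) γ
  have hf : S.filter (fun b => Real.log y ≤ Real.log (nm b) ∧
      Real.log (nm b) < Real.log y + 1 / δ⁻¹) = S := by
    apply Finset.filter_true_of_mem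
    intro b hb
    obtain ⟨_, h1, h2⟩ := hS b hb
    refine ⟨Real.log_le_log hy h1, ?_⟩
    have h3 : Real.log (nm b) ≤ Real.log y + Real.log (1 + δ) := by
      rw [← Real.log_mul hy.ne' (by linarith)]
      exact Real.log_le_log (by linarith) h2
    have h4 : Real.log (1 + δ) < δ := by
      have := Real.log_lt_sub_one_of_pos (x := 1 + δ) (by linarith) (by linarith)
      linarith
    rw [one_div, inv_inv]
    linarith
  rw [hf] at h
  refine h.trans (le_of_eq ?_)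
  rw [div_inv_eq_mul]
  congr 2
  field_simp
  ring

/-- Large sieve on a short norm interval. -/
theorem DiscLS.short {P : Eis → Prop} {H : Finset κ} {φ : κ → Eis → ℂ} {C Q2 y δ : ℝ}
    (hL : DiscLS P H φ C Q2) (hC : 0 ≤ C) (hQ2 : 0 ≤ Q2) (hδ : 0 < δ) (hδ1 : δ ≤ 1) (hy : 0 < y)
    (S : Finset Eis) (hS : ∀ b ∈ S, P b ∧ y ≤ (nm b : ℝ) ∧ (nm b : ℝ) ≤ y * (1 + δ))
    (β : Eis → ℂ) :
    ∑ h ∈ H, ‖∑ b ∈ S, β b * φ h b‖ ^ 2 ≤
      (C * (294 * (δ * y) + 3 * (Q2 / δ))) * ∑ b ∈ S, ‖β b‖ ^ 2 :=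
  duality H S φ (by positivity)
    (fun γ => hL.short_dual hC hQ2 hδ hδ1 hy S hS γ) β

theorem discLS_cubic (K : Finset (Eis × Eis)) {Q : ℝ} (hQ1 : 1 ≤ Q)
    (hK : ∀ k ∈ K, Good k) (hQ : ∀ k ∈ K, (nm k.1 : ℝ) * nm k.2 ≤ Q) :
    DiscLS (fun _ => True) K chi2 33 (Q ^ 2) :=
  fun γ c _ S hB hS => ls_cubic_dual K γ hQ1 hB hK hQ c S (fun b hb => (hS b hb).2)

/-- The numerator of a tuple. -/
noncomputable def numT (k : ℕ × ℕ × Eis × Eis) : Eis :=
  w ^ k.1 * lam ^ k.2.1 * k.2.2.1 * k.2.2.2 ^ 2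

theorem discLS_num (K : Finset (ℕ × ℕ × Eis × Eis)) {Q : ℝ} (hQ1 : 1 ≤ Q)
    (hij : ∀ k ∈ K, k.1 < 3 ∧ k.2.1 < 3) (hK : ∀ k ∈ K, Good k.2.2)
    (hQ : ∀ k ∈ K, (nm k.2.2.1 : ℝ) * nm k.2.2.2 ≤ Q) :
    DiscLS IsPrim K (fun k b => sy (numT k) b) 297 (Q ^ 2) :=
  fun γ c _ S hB hS => ls_num_dual K γ hQ1 hB hij hK hQ c S (fun b hb => (hS b hb).1)
    (fun b hb => (hS b hb).2)

/-- **Hybrid large sieve, cubic characters.** -/
theorem ls_hybrid_cubic (K : Finset (Eis × Eis)) (β : Eis → ℂ) {Q B T : ℝ} (hQ1 : 1 ≤ Q)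
    (hB : 0 ≤ B) (hT : 1 ≤ T) (hK : ∀ k ∈ K, Good k) (hQ : ∀ k ∈ K, (nm k.1 : ℝ) * nm k.2 ≤ Q)
    (S : Finset Eis) (hS : ∀ b ∈ S, b ≠ 0 ∧ (nm b : ℝ) ≤ B) :
    ∑ k ∈ K, ∫ t in (-T)..T, ‖∑ b ∈ S, β b * chi2 k b * nit t b‖ ^ 2 ≤
      1221000 * (B + T ^ 2 * Q ^ 2) * ∑ b ∈ S, ‖β b‖ ^ 2 := by
  have h := (discLS_cubic K hQ1 hK hQ).hybrid (by norm_num) (by positivity) hT hB S
    (fun b hb => ⟨trivial, hS b hb⟩) β
  refine h.trans (le_of_eq ?_)
  ring

/-- **Hybrid large sieve, numerator form.** -/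
theorem ls_hybrid_num (K : Finset (ℕ × ℕ × Eis × Eis)) (β : Eis → ℂ) {Q B T : ℝ} (hQ1 : 1 ≤ Q)
    (hB : 0 ≤ B) (hT : 1 ≤ T) (hij : ∀ k ∈ K, k.1 < 3 ∧ k.2.1 < 3) (hK : ∀ k ∈ K, Good k.2.2)
    (hQ : ∀ k ∈ K, (nm k.2.2.1 : ℝ) * nm k.2.2.2 ≤ Q)
    (S : Finset Eis) (hS : ∀ b ∈ S, IsPrim b ∧ (nm b : ℝ) ≤ B) :
    ∑ k ∈ K, ∫ t in (-T)..T, ‖∑ b ∈ S, β b * sy (numT k) b * nit t b‖ ^ 2 ≤
      10989000 * (B + T ^ 2 * Q ^ 2) * ∑ b ∈ S, ‖β b‖ ^ 2 := by
  have h := (discLS_num K hQ1 hij hK hQ).hybrid (by norm_num) (by positivity) hT hB S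
    (fun b hb => ⟨(hS b hb).1, (hS b hb).1.ne_zero, (hS b hb).2⟩) β
  refine h.trans (le_of_eq ?_)
  ring

/-- **Large sieve on short norm intervals, cubic characters.** -/
theorem ls_short_cubic (K : Finset (Eis × Eis)) (β : Eis → ℂ) {Q y δ : ℝ} (hQ1 : 1 ≤ Q)
    (hδ : 0 < δ) (hδ1 : δ ≤ 1) (hy : 0 < y) (hK : ∀ k ∈ K, Good k)
    (hQ : ∀ k ∈ K, (nm k.1 : ℝ) * nm k.2 ≤ Q)
    (S : Finset Eis) (hS : ∀ b ∈ S, y ≤ (nm b : ℝ) ∧ (nm b : ℝ) ≤ y * (1 + δ)) :
    ∑ k ∈ K, ‖∑ b ∈ S, β b * chi2 k b‖ ^ 2 ≤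
      (33 * (294 * (δ * y) + 3 * (Q ^ 2 / δ))) * ∑ b ∈ S, ‖β b‖ ^ 2 :=
  (discLS_cubic K hQ1 hK hQ).short (by norm_num) (by positivity) hδ hδ1 hy S
    (fun b hb => ⟨trivial, hS b hb⟩) β

/-- **Large sieve on short norm intervals, numerator form.** -/
theorem ls_short_num (K : Finset (ℕ × ℕ × Eis × Eis)) (β : Eis → ℂ) {Q y δ : ℝ} (hQ1 : 1 ≤ Q)
    (hδ : 0 < δ) (hδ1 : δ ≤ 1) (hy : 0 < y) (hij : ∀ k ∈ K, k.1 < 3 ∧ k.2.1 < 3)
    (hK : ∀ k ∈ K, Good k.2.2) (hQ : ∀ k ∈ K, (nm k.2.2.1 : ℝ) * nm k.2.2.2 ≤ Q)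
    (S : Finset Eis) (hS : ∀ b ∈ S, IsPrim b ∧ y ≤ (nm b : ℝ) ∧ (nm b : ℝ) ≤ y * (1 + δ)) :
    ∑ k ∈ K, ‖∑ b ∈ S, β b * sy (numT k) b‖ ^ 2 ≤
      (297 * (294 * (δ * y) + 3 * (Q ^ 2 / δ))) * ∑ b ∈ S, ‖β b‖ ^ 2 :=
  (discLS_num K hQ1 hij hK hQ).short (by norm_num) (by positivity) hδ hδ1 hy S hS β

end Crest.Agent.R012.LS879
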