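import Crest.Agent.R012.PSer_47
import Mathlib.NumberTheory.LSeries.SumCoeff
import Mathlib.NumberTheory.LSeries.Deriv
import Mathlib.NumberTheory.LSeries.Convolution
import Mathlib.NumberTheory.LSeries.Injectivity
import Mathlib.NumberTheory.Harmonic.Bounds
import Mathlib.NumberTheory.AbelSummation

/-!
# Row 12, parts (P0)/(P2): the L-series of `push ψ`

* summability for `Re s > 1`, `-L' = L(Λψ) L`, `L = exp H`, non-vanishing
* the 3-4-1 inequality
* `‖L^{(j)}(s)‖ ≤ C_j (log (Q (|t|+2)))^{j+1}` for `1 < Re s ≤ 2` from `|∑_{N b ≤ x} ψ b| ≤ Q √x`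
-/

set_option autoImplicit false

noncomputable section

open Complex Filter Topology

namespace Crest.Agent.R012.LSer47

open Crest.Agent.R012 Crest.Agent.R012.Eis Crest.Agent.R012.PSer47
open scoped LSeries.notation

/-! ### Summability -/

lemma summable_push {f : Eis → ℂ} (hf : ∀ b, IsPrim b → ‖f b‖ ≤ 1) {s : ℂ} (hs : 1 < s.re) :
    LSeriesSummable (push f) s := by
  refine LSeriesSummable_of_sum_norm_bigO (r := 1) ?_ zero_le_one hs
  refine Asymptotics.IsBigO.of_bound 18 (Eventually.of_forall fun N => ?_)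
  rw [Real.rpow_one, Real.norm_natCast, Real.norm_of_nonneg
    (Finset.sum_nonneg fun _ _ => norm_nonneg _)]
  exact sum_norm_push_le hf N

lemma abscissa_lt_of_summable {a : ℕ → ℂ} (h : ∀ s : ℂ, 1 < s.re → LSeriesSummable a s) {s : ℂ}
    (hs : 1 < s.re) : LSeries.abscissaOfAbsConv a < s.re := by
  refine lt_of_le_of_lt (b := 1) ?_ (by exact_mod_cast hs)
  apply LSeries.abscissaOfAbsConv_le_of_forall_lt_LSeriesSummable' (x := (1 : EReal))
  intro y hy
  apply h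
  have : ((1 : ℝ) : EReal) < y := by simpa using hy
  simpa using (EReal.coe_lt_coe_iff.mp this)

lemma abscissa_push {f : Eis → ℂ} (hf : ∀ b, IsPrim b → ‖f b‖ ≤ 1) {s : ℂ} (hs : 1 < s.re) :
    LSeries.abscissaOfAbsConv (push f) < s.re :=
  abscissa_lt_of_summable (fun _ h => summable_push hf h) hs

lemma summable_of_two_log {a : ℕ → ℂ} (ha : ∀ n : ℕ, ‖a n‖ ≤ 2 * Real.log n) {s : ℂ}
    (hs : 1 < s.re) : LSeriesSummable a s := by
  refine LSeriesSummable_of_le_const_mul_rpow (x := 1 + (s.re - 1) / 2) (by linarith)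
    ⟨2 / ((s.re - 1) / 2), fun n hn => ?_⟩
  refine (ha n).trans ?_
  have h1 := Real.log_le_rpow_div (Nat.cast_nonneg n) (show 0 < (s.re - 1) / 2 by linarith)
  calc 2 * Real.log n ≤ 2 * ((n : ℝ) ^ ((s.re - 1) / 2) / ((s.re - 1) / 2)) := by linarith
    _ = 2 / ((s.re - 1) / 2) * (n : ℝ) ^ (1 + (s.re - 1) / 2 - 1) := by
        rw [show 1 + (s.re - 1) / 2 - 1 = (s.re - 1) / 2 by ring]; ring

lemma summable_Lam {ψ : Eis → ℂ} (hf : ∀ b, IsPrim b → ‖ψ b‖ ≤ 1) {s : ℂ} (hs : 1 < s.re) :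
    LSeriesSummable (push (LamPsi ψ)) s :=
  summable_of_two_log (norm_push_LamPsi_le hf) hs

lemma abscissa_Lam {ψ : Eis → ℂ} (hf : ∀ b, IsPrim b → ‖ψ b‖ ≤ 1) {s : ℂ} (hs : 1 < s.re) :
    LSeries.abscissaOfAbsConv (push (LamPsi ψ)) < s.re :=
  abscissa_lt_of_summable (fun _ h => summable_Lam hf h) hs

/-! ### Logarithmic derivative -/

/-- `-L' = L(Λψ) · L(ψ)` -/
theorem LSeries_logMul_push {ψ : Eis → ℂ} (h : IsChar ψ) {s : ℂ} (hs : 1 < s.re) :
    LSeries (LSeries.logMul (push ψ)) s = LSeries (push (LamPsi ψ)) s * LSeries (push ψ) s := by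
  rw [← conv_LamPsi h]
  exact LSeries_convolution' (summable_Lam (fun _ hb => h.norm_le hb) hs)
    (summable_push (fun _ hb => h.norm_le hb) hs)

theorem hasDerivAt_push {ψ : Eis → ℂ} (h : IsChar ψ) {s : ℂ} (hs : 1 < s.re) :
    HasDerivAt (LSeries (push ψ)) (-(LSeries (push (LamPsi ψ)) s * LSeries (push ψ) s)) s := by
  rw [← LSeries_logMul_push h hs]
  exact LSeries_hasDerivAt (abscissa_push (fun _ hb => h.norm_le hb) hs)

theorem deriv_push {ψ : Eis → ℂ} (h : IsChar ψ) {s : ℂ} (hs : 1 < s.re) :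
    deriv (LSeries (push ψ)) s = -(LSeries (push (LamPsi ψ)) s * LSeries (push ψ) s) :=
  (hasDerivAt_push h hs).deriv

/-- coefficients of `log L` -/
def hcoef (ψ : Eis → ℂ) (n : ℕ) : ℂ := push (LamPsi ψ) n / (Real.log n : ℂ)

lemma norm_hcoef_le {ψ : Eis → ℂ} (hf : ∀ b, IsPrim b → ‖ψ b‖ ≤ 1) (n : ℕ) : ‖hcoef ψ n‖ ≤ 2 := by
  unfold hcoef
  rw [norm_div, Complex.norm_real, Real.norm_of_nonneg (Real.log_natCast_nonneg n)]
  rcases eq_or_lt_of_le (Real.log_natCast_nonneg n) with h | h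
  · rw [← h]; simp
  · rw [div_le_iff₀ h]
    exact norm_push_LamPsi_le hf n

lemma summable_hcoef {ψ : Eis → ℂ} (hf : ∀ b, IsPrim b → ‖ψ b‖ ≤ 1) {s : ℂ} (hs : 1 < s.re) :
    LSeriesSummable (hcoef ψ) s :=
  LSeriesSummable_of_bounded_of_one_lt_re (m := 2) (fun n _ => norm_hcoef_le hf n) hs

lemma logMul_hcoef (ψ : Eis → ℂ) : LSeries.logMul (hcoef ψ) = push (LamPsi ψ) := by
  ext n
  unfold LSeries.logMul hcoef
  rcases eq_or_ne n 0 with rfl | hn
  · simp
  rcases eq_or_ne n 1 with rfl | hn1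
  · simp [LamPsi]
  have h2 : 1 < n := by omega
  have h3 : Real.log n ≠ 0 := (Real.log_pos (by exact_mod_cast h2)).ne'
  rw [← Complex.natCast_log]
  have h4 : ((Real.log n : ℝ) : ℂ) ≠ 0 := by exact_mod_cast h3
  field_simp

lemma hasDerivAt_hcoef {ψ : Eis → ℂ} (hf : ∀ b, IsPrim b → ‖ψ b‖ ≤ 1) {s : ℂ} (hs : 1 < s.re) :
    HasDerivAt (LSeries (hcoef ψ)) (-LSeries (push (LamPsi ψ)) s) s := by
  have := LSeries_hasDerivAt (abscissa_lt_of_summable (fun _ h => summable_hcoef hf h) hs)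
  rwa [logMul_hcoef] at this

/-- `L = exp H` -/
theorem LSeries_push_eq_exp {ψ : Eis → ℂ} (h : IsChar ψ) {s : ℂ} (hs : 1 < s.re) :
    LSeries (push ψ) s = Complex.exp (LSeries (hcoef ψ) s) := by
  have hf : ∀ b, IsPrim b → ‖ψ b‖ ≤ 1 := fun _ hb => h.norm_le hb
  set U : Set ℂ := {z | 1 < z.re} with hU
  have hopen : IsOpen U := isOpen_lt continuous_const Complex.continuous_re
  have hconv : Convex ℝ U := convex_halfSpace_re_gt 1
  set F : ℂ → ℂ := fun z => LSeries (push ψ) z * Complex.exp (-LSeries (hcoef ψ) z) with hF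
  have hd : ∀ z ∈ U, HasDerivAt F 0 z := by
    intro z hz
    have h1 := hasDerivAt_push h (s := z) hz
    have h2 := (hasDerivAt_hcoef hf (s := z) hz).neg.cexp
    have h3 := h1.mul h2
    have e : (0 : ℂ) = -(LSeries (push (LamPsi ψ)) z * LSeries (push ψ) z) *
        Complex.exp (-LSeries (hcoef ψ) z) + LSeries (push ψ) z *
        (Complex.exp (-LSeries (hcoef ψ) z) * - -LSeries (push (LamPsi ψ)) z) := by ring
    rw [e]
    exact h3
  have hconst : ∀ z ∈ U, F z = F s := by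
    intro z hz
    have hdiff : DifferentiableOn ℂ F U := fun y hy => (hd y hy).differentiableAt.differentiableWithinAt
    have := hconv.norm_image_sub_le_of_norm_deriv_le (𝕜 := ℂ) (f := F) (C := 0) (x := s) (y := z)
      (fun y hy => (hd y hy).differentiableAt) (fun y hy => by rw [(hd y hy).deriv]; simp) hs hz
    rw [zero_mul] at this
    have h0 : F z - F s = 0 := norm_le_zero_iff.mp this
    exact sub_eq_zero.mp h0
  have hlim : Tendsto (fun x : ℝ => F x) atTop (𝓝 1) := by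
    have ha1 : LSeries.abscissaOfAbsConv (push ψ) < ⊤ :=
      lt_trans (abscissa_push hf (s := 2) (by norm_num)) (EReal.coe_lt_top _)
    have ha2 : LSeries.abscissaOfAbsConv (hcoef ψ) < ⊤ :=
      lt_trans (abscissa_lt_of_summable (fun _ h => summable_hcoef hf h) (s := 2) (by norm_num))
        (EReal.coe_lt_top _)
    have t1 := LSeries.tendsto_atTop ha1
    have t2 := LSeries.tendsto_atTop ha2
    have t3 : Tendsto (fun x : ℝ => Complex.exp (-LSeries (hcoef ψ) x)) atTop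
        (𝓝 (Complex.exp (-(hcoef ψ 1)))) := (Complex.continuous_exp.tendsto _).comp t2.neg
    have t4 := t1.mul t3
    have e1 : hcoef ψ 1 = 0 := by simp [hcoef]
    have e2 : push ψ 1 = 1 := by rw [push_one, h.one]
    rw [e1, e2, neg_zero, Complex.exp_zero, mul_one] at t4
    exact t4
  have hev : (fun x : ℝ => F x) =ᶠ[atTop] fun _ => F s := by
    filter_upwards [eventually_gt_atTop 1] with x hx
    exact hconst x (by simpa [hU] using hx)
  have h1 : F s = 1 := tendsto_nhds_unique (tendsto_const_nhds.congr' hev.symm) hlim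
  have h2 : LSeries (push ψ) s * Complex.exp (-LSeries (hcoef ψ) s) = 1 := h1
  rw [Complex.exp_neg] at h2
  have h3 := Complex.exp_ne_zero (LSeries (hcoef ψ) s)
  field_simp at h2
  exact h2

theorem LSeries_push_ne_zero {ψ : Eis → ℂ} (h : IsChar ψ) {s : ℂ} (hs : 1 < s.re) :
    LSeries (push ψ) s ≠ 0 := by
  rw [LSeries_push_eq_exp h hs]
  exact Complex.exp_ne_zero _

theorem LSeries_Lam_eq {ψ : Eis → ℂ} (h : IsChar ψ) {s : ℂ} (hs : 1 < s.re) :
    LSeries (push (LamPsi ψ)) s = -(deriv (LSeries (push ψ)) s / LSeries (push ψ) s) := by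
  have h1 := LSeries_push_ne_zero h hs
  rw [deriv_push h hs]
  field_simp

/-! ### The 3-4-1 inequality -/

lemma term_re_nonneg {ψ : Eis → ℂ} (h : IsChar ψ) (σ t : ℝ) (n : ℕ) :
    0 ≤ 3 * (LSeries.term (hcoef (IsChar.prin ψ)) σ n).re +
      4 * (LSeries.term (hcoef ψ) (σ + t * I) n).re +
      (LSeries.term (hcoef (fun b => ψ b ^ 2)) (σ + 2 * t * I) n).re := by
  rcases eq_or_ne n 0 with rfl | hn
  · simp
  have hn0 : (n : ℂ) ≠ 0 := by exact_mod_cast hn
  have hnp : 0 < n := Nat.pos_of_ne_zero hn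
  rw [LSeries.term_of_ne_zero hn, LSeries.term_of_ne_zero hn, LSeries.term_of_ne_zero hn]
  set z : ℂ := (n : ℂ) ^ (-(t * I)) with hz
  have hz1 : ‖z‖ = 1 := by
    rw [hz, Complex.norm_natCast_cpow_of_pos hnp]
    simp
  have e1 : ((n : ℂ) ^ ((σ : ℂ) + t * I))⁻¹ = ((n : ℂ) ^ (σ : ℂ))⁻¹ * z := by
    rw [hz, ← Complex.cpow_neg, ← Complex.cpow_neg, ← Complex.cpow_add _ _ hn0]
    congr 1
    ring
  have e2 : ((n : ℂ) ^ ((σ : ℂ) + 2 * t * I))⁻¹ = ((n : ℂ) ^ (σ : ℂ))⁻¹ * z ^ 2 := by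
    rw [hz, ← Complex.cpow_neg, ← Complex.cpow_neg, ← Complex.cpow_nat_mul,
      ← Complex.cpow_add _ _ hn0]
    congr 1
    push_cast
    ring
  have e3 : (n : ℂ) ^ (σ : ℂ) = (((n : ℝ) ^ σ : ℝ) : ℂ) := by
    rw [Complex.ofReal_cpow (Nat.cast_nonneg n)]
    simp
  simp only [div_eq_mul_inv, e1, e2]
  rw [e3]
  unfold hcoef push LamPsi
  set w : ℝ := (Real.log n)⁻¹ * ((n : ℝ) ^ σ)⁻¹ with hw
  have hw0 : 0 ≤ w := by
    have := Real.log_natCast_nonneg n
    positivity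
  have key : ∀ (φ : Eis → ℂ) (v : ℂ),
      (∑ b ∈ fib n, (Lam b : ℂ) * φ b) / (Real.log n : ℂ) * ((((n : ℝ) ^ σ : ℝ) : ℂ)⁻¹ * v) =
        ∑ b ∈ fib n, ((w * Lam b : ℝ) : ℂ) * (φ b * v) := by
    intro φ v
    rw [div_mul_eq_mul_div, Finset.sum_mul, Finset.sum_div]
    refine Finset.sum_congr rfl fun b _ => ?_
    rw [hw]
    push_cast
    rw [div_eq_mul_inv]
    ring
  have k0 := key (IsChar.prin ψ) 1
  rw [mul_one] at k0
  rw [k0, key ψ z, key (fun b => ψ b ^ 2) (z ^ 2)]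
  rw [Complex.re_sum, Complex.re_sum, Complex.re_sum, Finset.mul_sum, Finset.mul_sum,
    ← Finset.sum_add_distrib, ← Finset.sum_add_distrib]
  refine Finset.sum_nonneg fun b hb => ?_
  rw [Complex.re_ofReal_mul, Complex.re_ofReal_mul, Complex.re_ofReal_mul]
  have hwl : 0 ≤ w * Lam b := mul_nonneg hw0 (Lam_nonneg b)
  have main : 0 ≤ 3 * (IsChar.prin ψ b * 1).re + 4 * (ψ b * z).re + (ψ b ^ 2 * z ^ 2).re := by
    rw [← mul_pow]
    set v := ψ b * z with hv
    rcases h.norm b (mem_fib.mp hb).2 with h0 | h1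
    · have : v = 0 := by rw [hv, h0, zero_mul]
      rw [this]
      simp [IsChar.prin, h0]
    · have hv1 : ‖v‖ = 1 := by rw [hv, norm_mul, h1, hz1, one_mul]
      have hv2 : v.re ^ 2 + v.im ^ 2 = 1 := by
        have := Complex.sq_norm v
        rw [hv1, Complex.normSq_apply] at this
        nlinarith
      simp only [IsChar.prin, h1, pow_two, Complex.mul_re]
      simp only [Complex.ofReal_one, Complex.one_re, Complex.one_im]
      nlinarith [sq_nonneg (1 + v.re)]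
  nlinarith

/-- the 3-4-1 inequality -/
theorem three_four_one {ψ : Eis → ℂ} (h : IsChar ψ) {σ : ℝ} (hσ : 1 < σ) (t : ℝ) :
    1 ≤ ‖LSeries (push (IsChar.prin ψ)) σ‖ ^ 3 * ‖LSeries (push ψ) (σ + t * I)‖ ^ 4 *
      ‖LSeries (push (fun b => ψ b ^ 2)) (σ + 2 * t * I)‖ := by
  have hp := IsChar.prin_isChar h
  have hs2 := h.sq
  have r1 : 1 < ((σ : ℂ)).re := by simpa using hσ
  have r2 : 1 < ((σ : ℂ) + t * I).re := by simpa using hσ
  have r3 : 1 < ((σ : ℂ) + 2 * t * I).re := by simpa using hσ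
  rw [LSeries_push_eq_exp hp r1, LSeries_push_eq_exp h r2, LSeries_push_eq_exp hs2 r3,
    Complex.norm_exp, Complex.norm_exp, Complex.norm_exp, ← Real.exp_nat_mul, ← Real.exp_nat_mul,
    ← Real.exp_add, ← Real.exp_add, ← Real.exp_zero]
  apply Real.exp_le_exp.mpr
  have s1 := summable_hcoef (fun _ hb => hp.norm_le hb) r1
  have s2 := summable_hcoef (fun _ hb => h.norm_le hb) r2
  have s3 := summable_hcoef (fun _ hb => hs2.norm_le hb) r3
  have t1 := Complex.hasSum_re s1.hasSum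
  have t2 := Complex.hasSum_re s2.hasSum
  have t3 := Complex.hasSum_re s3.hasSum
  have t4 := ((t1.mul_left 3).add (t2.mul_left 4)).add t3
  have t5 := t4.nonneg (fun n => term_re_nonneg h σ t n)
  push_cast
  exact t5

/-! ### Trivial bounds -/

lemma abel_le {b w : ℕ → ℝ} {C : ℝ} (hB : ∀ N : ℕ, ∑ n ∈ Finset.Icc 1 N, b n ≤ C * N)
    (hw : ∀ n, 1 ≤ n → w (n + 1) ≤ w n) (N : ℕ) (hN : 1 ≤ N) :
    (C * N - ∑ n ∈ Finset.Icc 1 N, b n) * w N ≤
      C * ∑ n ∈ Finset.Icc 1 N, w n - ∑ n ∈ Finset.Icc 1 N, b n * w n := by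
  induction N, hN using Nat.le_induction with
  | base => simp; linarith
  | succ N hN ih =>
    rw [Finset.sum_Icc_succ_top (by omega), Finset.sum_Icc_succ_top (by omega),
      Finset.sum_Icc_succ_top (by omega)]
    have h1 := hB N
    have h2 := hw N hN
    have h3 : (C * N - ∑ n ∈ Finset.Icc 1 N, b n) * w (N + 1) ≤
        (C * N - ∑ n ∈ Finset.Icc 1 N, b n) * w N := by
      apply mul_le_mul_of_nonneg_left h2
      linarith
    push_cast
    nlinarith

lemma abel_le' {b w : ℕ → ℝ} {C : ℝ} (hB : ∀ N : ℕ, ∑ n ∈ Finset.Icc 1 N, b n ≤ C * N)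
    (hw : ∀ n, 1 ≤ n → w (n + 1) ≤ w n) (hw0 : ∀ n, 0 ≤ w n) (N : ℕ) :
    ∑ n ∈ Finset.Icc 1 N, b n * w n ≤ C * ∑ n ∈ Finset.Icc 1 N, w n := by
  rcases Nat.eq_zero_or_pos N with rfl | hN
  · simp
  have h1 := abel_le hB hw N hN
  have h2 : 0 ≤ (C * N - ∑ n ∈ Finset.Icc 1 N, b n) * w N :=
    mul_nonneg (by linarith [hB N]) (hw0 N)
  linarith

lemma sum_norm_div_le {a : ℕ → ℂ} {C : ℝ} (hC : 0 ≤ C)
    (ha : ∀ N : ℕ, ∑ n ∈ Finset.Icc 1 N, ‖a n‖ ≤ C * N) (N : ℕ) :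
    ∑ n ∈ Finset.Icc 1 N, ‖a n‖ / n ≤ C * (1 + Real.log N) := by
  have h1 := abel_le' (b := fun n => ‖a n‖) (w := fun n => ((n : ℝ))⁻¹) ha
    (fun n hn => by
      have : (0 : ℝ) < n := by exact_mod_cast hn
      have h2 : (n : ℝ) ≤ ((n + 1 : ℕ) : ℝ) := by push_cast; linarith
      exact inv_anti₀ this h2)
    (fun n => by positivity) N
  have h2 := harmonic_le_one_add_log N
  rw [harmonic_eq_sum_Icc] at h2
  push_cast at h2
  calc ∑ n ∈ Finset.Icc 1 N, ‖a n‖ / n = ∑ n ∈ Finset.Icc 1 N, ‖a n‖ * ((n : ℝ))⁻¹ := by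
        simp only [div_eq_mul_inv]
    _ ≤ C * ∑ n ∈ Finset.Icc 1 N, ((n : ℝ))⁻¹ := h1
    _ ≤ C * (1 + Real.log N) := by gcongr

/-- `‖L(s)‖ ≤ C σ / (σ - 1)` -/
lemma norm_LSeries_le {a : ℕ → ℂ} {C : ℝ}
    (ha : ∀ N : ℕ, ∑ n ∈ Finset.Icc 1 N, ‖a n‖ ≤ C * N) {s : ℂ} (hs : 1 < s.re) :
    ‖LSeries a s‖ ≤ C * s.re / (s.re - 1) := by
  set σ := s.re with hσ
  have hC : 0 ≤ C := by
    have := ha 1
    simp at this
    exact (norm_nonneg _).trans this
  have hO : (fun n : ℕ => ∑ k ∈ Finset.Icc 1 n, ‖a k‖) =O[atTop] fun n : ℕ => (n : ℝ) ^ (1 : ℝ) := by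
    refine Asymptotics.IsBigO.of_bound C (Eventually.of_forall fun N => ?_)
    rw [Real.rpow_one, Real.norm_natCast, Real.norm_of_nonneg
      (Finset.sum_nonneg fun _ _ => norm_nonneg _)]
    exact ha N
  have hsum : LSeriesSummable a s := LSeriesSummable_of_sum_norm_bigO hO zero_le_one hs
  set b : ℕ → ℂ := fun n => ((‖a n‖ : ℝ) : ℂ) with hb
  have hσre : ((σ : ℝ) : ℂ).re = σ := Complex.ofReal_re σ
  have hsumb : LSeriesSummable b (σ : ℂ) := by
    refine LSeriesSummable_of_sum_norm_bigO (r := 1) ?_ zero_le_one (by rw [hσre]; exact hs)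
    simpa [hb] using hO
  -- comparison with the real series
  have h1 : ‖LSeries a s‖ ≤ ‖LSeries b (σ : ℂ)‖ := by
    have hn : Summable fun n => ‖LSeries.term a s n‖ := hsum.norm
    have e1 : ∀ n, ((‖LSeries.term a s n‖ : ℝ) : ℂ) = LSeries.term b (σ : ℂ) n := by
      intro n
      rcases eq_or_ne n 0 with rfl | hn0
      · simp
      · rw [LSeries.norm_term_eq, if_neg hn0, LSeries.term_of_ne_zero hn0, hb]
        push_cast
        rw [Complex.ofReal_cpow (Nat.cast_nonneg n)]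
        simp [hσ]
    have e2 : LSeries b (σ : ℂ) = ((∑' n, ‖LSeries.term a s n‖ : ℝ) : ℂ) := by
      rw [Complex.ofReal_tsum]
      unfold LSeries
      exact tsum_congr fun n => (e1 n).symm
    rw [e2, Complex.norm_real, Real.norm_of_nonneg (tsum_nonneg fun _ => norm_nonneg _)]
    exact norm_tsum_le_tsum_norm hn
  refine h1.trans ?_
  have hOb : (fun n : ℕ => ∑ k ∈ Finset.Icc 1 n, ‖b k‖) =O[atTop] fun n : ℕ => (n : ℝ) ^ (1 : ℝ) := by
    simpa [hb] using hO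
  rw [LSeries_eq_mul_integral' b zero_le_one (s := (σ : ℂ)) (by rw [hσre]; exact hs) hOb]
  rw [norm_mul, Complex.norm_real, Real.norm_of_nonneg (by linarith)]
  have h2 : ‖∫ t in Set.Ioi (1 : ℝ), (∑ k ∈ Finset.Icc 1 ⌊t⌋₊, b k) * (t : ℂ) ^ (-((σ : ℂ) + 1))‖ ≤
      ∫ t in Set.Ioi (1 : ℝ), C * t ^ (-σ) := by
    apply MeasureTheory.norm_integral_le_of_norm_le
    · exact (integrableOn_Ioi_rpow_of_lt (by linarith) zero_lt_one).const_mul C
    · refine (MeasureTheory.ae_restrict_iff' measurableSet_Ioi).mpr (Eventually.of_forall ?_)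
      intro t ht
      have ht0 : 0 < t := lt_trans zero_lt_one ht
      rw [norm_mul, Complex.norm_cpow_eq_rpow_re_of_pos ht0]
      have h3 : ‖∑ k ∈ Finset.Icc 1 ⌊t⌋₊, b k‖ ≤ C * t := by
        refine (norm_sum_le _ _).trans ?_
        have : ∑ k ∈ Finset.Icc 1 ⌊t⌋₊, ‖b k‖ = ∑ k ∈ Finset.Icc 1 ⌊t⌋₊, ‖a k‖ := by
          simp [hb]
        rw [this]
        refine (ha _).trans ?_
        gcongr
        exact Nat.floor_le ht0.le
      have h4 : (-((σ : ℂ) + 1)).re = -σ - 1 := by simp; ring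
      rw [h4]
      calc ‖∑ k ∈ Finset.Icc 1 ⌊t⌋₊, b k‖ * t ^ (-σ - 1) ≤ (C * t) * t ^ (-σ - 1) := by gcongr
        _ = C * t ^ (-σ) := by
            rw [mul_assoc]
            congr 1
            rw [Real.rpow_sub_one ht0.ne']
            field_simp
  rw [MeasureTheory.integral_const_mul, integral_Ioi_rpow_of_lt (by linarith) zero_lt_one,
    Real.one_rpow] at h2
  calc σ * _ ≤ σ * (C * (-1 / (-σ + 1))) := by gcongr
    _ = C * σ / (σ - 1) := by
        rw [show -σ + 1 = -(σ - 1) by ring, neg_div_neg_eq]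
        ring

/-- `‖L(s)‖ ≤ 36 / (σ - 1)` for `1 < σ ≤ 2` -/
theorem norm_LSeries_push_le {f : Eis → ℂ} (hf : ∀ b, IsPrim b → ‖f b‖ ≤ 1) {s : ℂ}
    (hs : 1 < s.re) (hs2 : s.re ≤ 2) : ‖LSeries (push f) s‖ ≤ 36 / (s.re - 1) := by
  refine (norm_LSeries_le (sum_norm_push_le hf) hs).trans ?_
  have : 0 < s.re - 1 := by linarith
  gcongr
  linarith

end Crest.Agent.R012.LSer47
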