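import Crest.Agent.R012.LSbc_448
import Crest.Agent.R012.LScount_448

/-!
# Row 12: from squarefree primary numerators to all numerators (STEP 1 of (L2))

For a `SymLike` function `φ` (like the cubic residue symbol):
`Bf φ M N`, `Bdy φ M N`, `B2f φ K N` : best large sieve constants, and

`B2f_le : K ≤ N T → (∀ A ∈ [1,K], Bf A N ≤ G (N + (A N)^(2/3))) →
   B2f K N ≤ cT * T * G * K^(1/3) * N * LL K ^ 2`.
-/

set_option autoImplicit false

noncomputable section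

open Finset

namespace Crest.Agent.R012.LS448

open Crest.Agent.R012 Crest.Agent.R012.Eis

/-- Squarefree primary elements of norm at most `X`. -/
def SF (X : ℝ) : Finset Eis := open Classical in (nz X).filter (fun z => IsPrim z ∧ Squarefree z)

/-- Squarefree primary elements with norm in `(X/2, X]`. -/
def SFdy (X : ℝ) : Finset Eis := open Classical in (SF X).filter (fun z => X / 2 < (nm z : ℝ))

lemma mem_SF {X : ℝ} {z : Eis} : z ∈ SF X ↔ (nm z : ℝ) ≤ X ∧ IsPrim z ∧ Squarefree z := by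
  classical
  unfold SF
  rw [mem_filter, mem_nz]
  constructor
  · rintro ⟨⟨_, h1⟩, h2⟩; exact ⟨h1, h2⟩
  · rintro ⟨h1, h2⟩; exact ⟨⟨h2.1.ne_zero, h1⟩, h2⟩

lemma mem_SFdy {X : ℝ} {z : Eis} :
    z ∈ SFdy X ↔ X / 2 < (nm z : ℝ) ∧ (nm z : ℝ) ≤ X ∧ IsPrim z ∧ Squarefree z := by
  classical
  unfold SFdy
  rw [mem_filter, mem_SF, and_comm]

lemma SF_subset_nz (X : ℝ) : SF X ⊆ nz X := by
  classical
  exact filter_subset _ _

lemma SF_mono {X Y : ℝ} (h : X ≤ Y) : SF X ⊆ SF Y := fun z hz => by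
  rw [mem_SF] at hz ⊢; exact ⟨hz.1.trans h, hz.2⟩

lemma SFdy_subset (X : ℝ) : SFdy X ⊆ SF X := by
  classical
  exact filter_subset _ _

lemma SF_eq_empty {X : ℝ} (h : X < 1) : SF X = ∅ :=
  subset_empty.mp ((SF_subset_nz X).trans (by rw [nz_eq_empty h]))

/-- The properties of the cubic residue symbol used in the large sieve induction. -/
structure SymLike (φ : Eis → Eis → ℂ) : Prop where
  mul : ∀ x y n, IsPrim n → φ (x * y) n = φ x n * φ y n
  val : ∀ x n, IsPrim n → φ x n = 0 ∨ φ x n ^ 3 = 1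
  symm : ∀ m n, IsPrim m → IsPrim n → φ m n = φ n m

variable {φ : Eis → Eis → ℂ}

lemma SymLike.norm_le (h : SymLike φ) (x : Eis) {n : Eis} (hn : IsPrim n) : ‖φ x n‖ ≤ 1 := by
  rcases h.val x n hn with h0 | h1
  · rw [h0, norm_zero]; exact zero_le_one
  · have : ‖φ x n‖ ^ 3 = 1 := by rw [← norm_pow, h1, norm_one]
    exact le_of_eq ((pow_eq_one_iff_of_nonneg (norm_nonneg _) (by norm_num)).mp this)

lemma SymLike.sq (h : SymLike φ) (x : Eis) {n : Eis} (hn : IsPrim n) :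
    φ x n ^ 2 = (starRingEnd ℂ) (φ x n) := by
  rcases h.val x n hn with h0 | h1
  · rw [h0]; simp
  · have hn1 : ‖φ x n‖ = 1 := by
      have : ‖φ x n‖ ^ 3 = 1 := by rw [← norm_pow, h1, norm_one]
      exact (pow_eq_one_iff_of_nonneg (norm_nonneg _) (by norm_num)).mp this
    have h2 : φ x n * (starRingEnd ℂ) (φ x n) = 1 := by
      rw [Complex.mul_conj, Complex.normSq_eq_norm_sq, hn1]; norm_num
    have h3 : φ x n * φ x n ^ 2 = 1 := by rw [← h1]; ring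
    have h4 : φ x n ≠ 0 := by
      intro h0; rw [h0] at h1; norm_num at h1
    exact mul_left_cancel₀ h4 (h3.trans h2.symm)

/-- Best constants. -/
def Bf (φ : Eis → Eis → ℂ) (M N : ℝ) : ℝ := bc (SF M) (SF N) φ
/-- Best constants, dyadic columns. -/
def Bdy (φ : Eis → Eis → ℂ) (M N : ℝ) : ℝ := bc (SF M) (SFdy N) φ
/-- Best constants, all nonzero numerators. -/
def B2f (φ : Eis → Eis → ℂ) (K N : ℝ) : ℝ := bc (nz K) (SF N) φ

lemma Bf_nonneg (M N : ℝ) : 0 ≤ Bf φ M N := bc_nonneg _ _ _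
lemma Bdy_nonneg (M N : ℝ) : 0 ≤ Bdy φ M N := bc_nonneg _ _ _
lemma B2f_nonneg (M N : ℝ) : 0 ≤ B2f φ M N := bc_nonneg _ _ _

lemma Bf_mono {M M' N N' : ℝ} (hM : M ≤ M') (hN : N ≤ N') : Bf φ M N ≤ Bf φ M' N' :=
  bc_mono (SF_mono hM) (SF_mono hN) _

lemma Bf_symm (h : SymLike φ) (M N : ℝ) : Bf φ M N = Bf φ N M := by
  unfold Bf
  rw [bc_dual]
  refine bc_congr fun a ha b hb => ?_
  rw [mem_SF] at ha hb
  exact h.symm _ _ hb.2.1 ha.2.1

lemma B2f_eq_zero {K : ℝ} (N : ℝ) (h : K < 1) : B2f φ K N = 0 := by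
  unfold B2f; rw [nz_eq_empty h, bc_empty_left]

lemma B2f_trivial (h : SymLike φ) (K N : ℝ) (hK : 0 ≤ K) :
    B2f φ K N ≤ (K * LL K) * (N * LL N) := by
  refine (bc_le_card _ _ fun a _ b hb => ?_).trans ?_
  · rw [mem_SF] at hb; exact h.norm_le a hb.2.1
  · refine mul_le_mul (card_nz_le K) ?_ (by positivity) (mul_nonneg hK (LL_nonneg K))
    exact le_trans (by exact_mod_cast card_le_card (SF_subset_nz N)) (card_nz_le N)

/-! ### The decomposition of the sum over all numerators -/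

/-- Tuples `(t, c, b, a)`. -/
def Pset (K : ℝ) : Finset (Eis × Eis × Eis × Eis) := open Classical in
  ((nz 27) ×ˢ (nz K) ×ˢ (SF K) ×ˢ (SF K)).filter
    (fun p => (nm p.2.1 : ℝ) ^ 3 * (nm p.2.2.1 : ℝ) ^ 2 * (nm p.2.2.2 : ℝ) ≤ K)

lemma sum_nz_le_Pset {F : Eis → ℝ} (hF : ∀ h, 0 ≤ F h) (K : ℝ) :
    ∑ h ∈ nz K, F h ≤ ∑ p ∈ Pset K, F (p.1 * p.2.2.2 * p.2.2.1 ^ 2 * p.2.1 ^ 3) := by
  classical
  have hex : ∀ h : Eis, ∃ p : Eis × Eis × Eis × Eis, h ∈ nz K →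
      (p ∈ Pset K ∧ h = p.1 * p.2.2.2 * p.2.2.1 ^ 2 * p.2.1 ^ 3) := by
    intro h
    by_cases hh : h ∈ nz K
    · rw [mem_nz] at hh
      obtain ⟨t, a, b, c, e, ht0, ht, ha, ha', hb, hb', hc⟩ := exists_decomp hh.1
      refine ⟨(t, c, b, a), fun _ => ⟨?_, e⟩⟩
      have hN : (nm h : ℝ) = nm t * nm a * (nm b : ℝ) ^ 2 * (nm c : ℝ) ^ 3 := by
        rw [e, nm_mul, nm_mul, nm_mul, nm_pow, nm_pow]; push_cast; ring
      have hK := hh.2
      rw [hN] at hK
      have t1 := one_le_nm' ht0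
      have a1 := one_le_nm' ha.ne_zero
      have b1 := one_le_nm' hb.ne_zero
      have c1 := one_le_nm' hc
      have b2 : (1 : ℝ) ≤ (nm b : ℝ) ^ 2 := one_le_pow₀ b1
      have c3 : (1 : ℝ) ≤ (nm c : ℝ) ^ 3 := one_le_pow₀ c1
      have hb3 : (nm b : ℝ) ≤ (nm b : ℝ) ^ 2 := by nlinarith
      have hc3 : (nm c : ℝ) ≤ (nm c : ℝ) ^ 3 := le_self_pow₀ c1 (by norm_num)
      have hcba : (nm c : ℝ) ^ 3 * (nm b : ℝ) ^ 2 * (nm a : ℝ) ≤ K := by
        refine le_trans ?_ hK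
        have : (nm c : ℝ) ^ 3 * (nm b : ℝ) ^ 2 * (nm a : ℝ) =
          1 * ((nm a : ℝ) * (nm b : ℝ) ^ 2 * (nm c : ℝ) ^ 3) := by ring
        rw [this]
        calc 1 * ((nm a : ℝ) * (nm b : ℝ) ^ 2 * (nm c : ℝ) ^ 3)
            ≤ nm t * ((nm a : ℝ) * (nm b : ℝ) ^ 2 * (nm c : ℝ) ^ 3) := by gcongr
          _ = _ := by ring
      rw [Pset, mem_filter]
      simp only [mem_product, mem_nz, mem_SF]
      refine ⟨⟨⟨ht0, by exact_mod_cast ht⟩, ⟨hc, ?_⟩, ⟨?_, hb, hb'⟩, ⟨?_, ha, ha'⟩⟩, hcba⟩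
      · calc (nm c : ℝ) ≤ (nm c : ℝ) ^ 3 * 1 * 1 := by linarith
          _ ≤ (nm c : ℝ) ^ 3 * (nm b : ℝ) ^ 2 * (nm a : ℝ) := by gcongr
          _ ≤ K := hcba
      · calc (nm b : ℝ) ≤ 1 * (nm b : ℝ) ^ 2 * 1 := by linarith
          _ ≤ (nm c : ℝ) ^ 3 * (nm b : ℝ) ^ 2 * (nm a : ℝ) := by gcongr
          _ ≤ K := hcba
      · calc (nm a : ℝ) = 1 * 1 * (nm a : ℝ) := by ring
          _ ≤ (nm c : ℝ) ^ 3 * (nm b : ℝ) ^ 2 * (nm a : ℝ) := by gcongr
          _ ≤ K := hcba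
    · exact ⟨(0, 0, 0, 0), fun h' => absurd h' hh⟩
  choose g hg using hex
  have hinj : Set.InjOn g (nz K : Set Eis) := by
    intro h1 hh1 h2 hh2 he
    rw [(hg h1 hh1).2, (hg h2 hh2).2, he]
  calc ∑ h ∈ nz K, F h
      = ∑ h ∈ nz K, F ((g h).1 * (g h).2.2.2 * (g h).2.2.1 ^ 2 * (g h).2.1 ^ 3) :=
        sum_congr rfl fun h hh => by rw [← (hg h hh).2]
    _ = ∑ p ∈ (nz K).image g, F (p.1 * p.2.2.2 * p.2.2.1 ^ 2 * p.2.1 ^ 3) := by
        rw [sum_image hinj]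
    _ ≤ _ := by
        refine sum_le_sum_of_subset_of_nonneg ?_ fun _ _ _ => hF _
        intro p hp
        rw [mem_image] at hp
        obtain ⟨h, hh, rfl⟩ := hp
        exact (hg h hh).1

/-- Sum over `a` for fixed `t, b, c`. -/
lemma sum_a_le (hφ : SymLike φ) {A N B : ℝ} (hB : 0 ≤ B) (h : Bf φ A N ≤ B) (t b c : Eis)
    (x : Eis → ℂ) :
    ∑ a ∈ SF A, ‖∑ n ∈ SF N, x n * φ (t * a * b ^ 2 * c ^ 3) n‖ ^ 2 ≤
      B * ∑ n ∈ SF N, ‖x n‖ ^ 2 := by
  have h1 := sum_twist_le hB (adm_of_bc_le h)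
    (ψ := fun n => φ t n * (φ b n ^ 2 * φ c n ^ 3)) (fun n hn => by
      rw [mem_SF] at hn
      have hp := hn.2.1
      rw [norm_mul, norm_mul, norm_pow, norm_pow]
      have e1 := hφ.norm_le t hp
      have e2 : ‖φ b n‖ ^ 2 ≤ 1 := pow_le_one₀ (norm_nonneg _) (hφ.norm_le b hp)
      have e3 : ‖φ c n‖ ^ 3 ≤ 1 := pow_le_one₀ (norm_nonneg _) (hφ.norm_le c hp)
      exact mul_le_one₀ e1 (by positivity) (mul_le_one₀ e2 (by positivity) e3)) x
  refine le_trans (le_of_eq ?_) h1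
  refine sum_congr rfl fun a _ => ?_
  congr 2
  refine sum_congr rfl fun n hn => ?_
  rw [mem_SF] at hn
  have hp := hn.2.1
  have hpow : ∀ (y : Eis) (k : ℕ), k ≠ 0 → φ (y ^ k) n = φ y n ^ k := by
    intro y k hk
    induction k with
    | zero => exact absurd rfl hk
    | succ k ih =>
      rcases Nat.eq_zero_or_pos k with h0 | h0
      · subst h0; simp
      · rw [pow_succ, hφ.mul _ _ _ hp, ih h0.ne', pow_succ]
  rw [hφ.mul _ _ _ hp, hφ.mul _ _ _ hp, hφ.mul _ _ _ hp, hpow b 2 (by norm_num),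
    hpow c 3 (by norm_num)]
  ring

/-- Sum over `b` for fixed `t, a, c`. -/
lemma sum_b_le (hφ : SymLike φ) {A N B : ℝ} (hB : 0 ≤ B) (h : Bf φ A N ≤ B) (t a c : Eis)
    (x : Eis → ℂ) :
    ∑ b ∈ SF A, ‖∑ n ∈ SF N, x n * φ (t * a * b ^ 2 * c ^ 3) n‖ ^ 2 ≤
      B * ∑ n ∈ SF N, ‖x n‖ ^ 2 := by
  have h1 := sum_twist_le hB (adm_of_bc_le h).conj
    (ψ := fun n => φ t n * (φ a n * φ c n ^ 3)) (fun n hn => by
      rw [mem_SF] at hn
      have hp := hn.2.1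
      rw [norm_mul, norm_mul, norm_pow]
      have e1 := hφ.norm_le t hp
      have e2 := hφ.norm_le a hp
      have e3 : ‖φ c n‖ ^ 3 ≤ 1 := pow_le_one₀ (norm_nonneg _) (hφ.norm_le c hp)
      exact mul_le_one₀ e1 (by positivity) (mul_le_one₀ e2 (by positivity) e3)) x
  refine le_trans (le_of_eq ?_) h1
  refine sum_congr rfl fun b _ => ?_
  congr 2
  refine sum_congr rfl fun n hn => ?_
  rw [mem_SF] at hn
  have hp := hn.2.1
  have hpow : ∀ (y : Eis) (k : ℕ), k ≠ 0 → φ (y ^ k) n = φ y n ^ k := by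
    intro y k hk
    induction k with
    | zero => exact absurd rfl hk
    | succ k ih =>
      rcases Nat.eq_zero_or_pos k with h0 | h0
      · subst h0; simp
      · rw [pow_succ, hφ.mul _ _ _ hp, ih h0.ne', pow_succ]
  rw [hφ.mul _ _ _ hp, hφ.mul _ _ _ hp, hφ.mul _ _ _ hp, hpow b 2 (by norm_num),
    hpow c 3 (by norm_num), hφ.sq b hp]
  ring

/-- The two size regimes. -/
lemma sum_Pset_le {F : Eis → ℝ} (hF : ∀ h, 0 ≤ F h) (K : ℝ) :
    ∑ p ∈ Pset K, F (p.1 * p.2.2.2 * p.2.2.1 ^ 2 * p.2.1 ^ 3) ≤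
      ∑ t ∈ nz 27, ∑ c ∈ nz K,
        ((∑ b ∈ nz K, if (nm b : ℝ) ^ 3 ≤ K / (nm c : ℝ) ^ 3 then
          ∑ a ∈ SF (K / (nm c : ℝ) ^ 3 / (nm b : ℝ) ^ 2), F (t * a * b ^ 2 * c ^ 3) else 0) +
        (∑ a ∈ nz K, if (nm a : ℝ) ^ 3 ≤ K / (nm c : ℝ) ^ 3 then
          ∑ b ∈ SF (Real.sqrt (K / (nm c : ℝ) ^ 3 / (nm a : ℝ))),
            F (t * a * b ^ 2 * c ^ 3) else 0)) := by
  classical
  rw [Pset, sum_filter, sum_product]
  refine sum_le_sum fun t _ => ?_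
  rw [sum_product]
  refine sum_le_sum fun c hc => ?_
  rw [sum_product]
  simp only
  rw [mem_nz] at hc
  have c1 := one_le_nm' hc.1
  have c3 : (0 : ℝ) < (nm c : ℝ) ^ 3 := by positivity
  set D : ℝ := K / (nm c : ℝ) ^ 3 with hD
  have hsplit : ∀ b ∈ SF K, ∀ a ∈ SF K,
      (if (nm c : ℝ) ^ 3 * (nm b : ℝ) ^ 2 * (nm a : ℝ) ≤ K then F (t * a * b ^ 2 * c ^ 3) else 0) ≤
      (if (nm b : ℝ) ^ 3 ≤ D then
        (if (nm b : ℝ) ^ 2 * (nm a : ℝ) ≤ D then F (t * a * b ^ 2 * c ^ 3) else 0) else 0) +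
      (if (nm a : ℝ) ^ 3 ≤ D then
        (if (nm b : ℝ) ^ 2 * (nm a : ℝ) ≤ D then F (t * a * b ^ 2 * c ^ 3) else 0) else 0) := by
    intro b hb a ha
    rw [mem_SF] at hb ha
    have b1 := one_le_nm' hb.2.1.ne_zero
    have a1 := one_le_nm' ha.2.1.ne_zero
    have hnn := hF (t * a * b ^ 2 * c ^ 3)
    by_cases h : (nm c : ℝ) ^ 3 * (nm b : ℝ) ^ 2 * (nm a : ℝ) ≤ K
    · have h' : (nm b : ℝ) ^ 2 * (nm a : ℝ) ≤ D := by
        rw [hD, le_div_iff₀ c3]; linarith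
      rw [if_pos h, if_pos h']
      rcases le_total (nm b : ℝ) (nm a) with hba | hab
      · have : (nm b : ℝ) ^ 3 ≤ D := by
          refine le_trans ?_ h'
          rw [pow_succ]; gcongr
        rw [if_pos this]
        have : 0 ≤ (if (nm a : ℝ) ^ 3 ≤ D then F (t * a * b ^ 2 * c ^ 3) else 0) := by
          split_ifs <;> simp [hnn]
        linarith
      · have : (nm a : ℝ) ^ 3 ≤ D := by
          refine le_trans ?_ h'
          rw [pow_succ]; gcongr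
        rw [if_pos this]
        have : 0 ≤ (if (nm b : ℝ) ^ 3 ≤ D then F (t * a * b ^ 2 * c ^ 3) else 0) := by
          split_ifs <;> simp [hnn]
        linarith
    · rw [if_neg h]
      have : ∀ P Q : Prop, ∀ [Decidable P] [Decidable Q], 0 ≤
          (if P then (if Q then F (t * a * b ^ 2 * c ^ 3) else 0) else 0) := by
        intro P Q _ _
        split_ifs <;> simp [hnn]
      exact add_nonneg (this _ _) (this _ _)
  refine (sum_le_sum fun b hb => sum_le_sum fun a ha => hsplit b hb a ha).trans ?_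
  simp_rw [sum_add_distrib]
  refine add_le_add ?_ ?_
  · refine le_trans ?_ (sum_le_sum_of_subset_of_nonneg (SF_subset_nz K) fun b _ _ => ?_)
    · refine sum_le_sum fun b hb => ?_
      rw [mem_SF] at hb
      have b1 := one_le_nm' hb.2.1.ne_zero
      by_cases hb3 : (nm b : ℝ) ^ 3 ≤ D
      · simp only [hb3, if_true]
        rw [← sum_filter]
        refine sum_le_sum_of_subset_of_nonneg ?_ fun _ _ _ => hF _
        intro a ha
        rw [mem_filter, mem_SF] at ha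
        rw [mem_SF]
        refine ⟨?_, ha.1.2⟩
        rw [le_div_iff₀ (by positivity)]
        linarith [ha.2]
      · simp only [hb3, if_false, sum_const_zero]; exact le_rfl
    · split_ifs
      · exact sum_nonneg fun _ _ => hF _
      · exact le_rfl
  · rw [sum_comm]
    refine le_trans ?_ (sum_le_sum_of_subset_of_nonneg (SF_subset_nz K) fun b _ _ => ?_)
    · refine sum_le_sum fun a ha => ?_
      rw [mem_SF] at ha
      have a1 := one_le_nm' ha.2.1.ne_zero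
      by_cases ha3 : (nm a : ℝ) ^ 3 ≤ D
      · simp only [ha3, if_true]
        rw [← sum_filter]
        refine sum_le_sum_of_subset_of_nonneg ?_ fun _ _ _ => hF _
        intro b hb
        rw [mem_filter, mem_SF] at hb
        rw [mem_SF]
        refine ⟨?_, hb.1.2⟩
        apply Real.le_sqrt_of_sq_le
        rw [le_div_iff₀ (by positivity)]
        exact hb.2
      · simp only [ha3, if_false, sum_const_zero]; exact le_rfl
    · split_ifs
      · exact sum_nonneg fun _ _ => hF _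
      · exact le_rfl

/-- Size computation in the first regime. -/
lemma size1 {N D T b : ℝ} (hN : 1 ≤ N) (hT : 1 ≤ T) (hD : D ≤ N * T) (hb : 1 ≤ b)
    (hbD : b ^ 3 ≤ D) :
    N + (D / b ^ 2 * N) ^ ((2 : ℝ) / 3) ≤ 2 * T * D ^ ((1 : ℝ) / 3) * N / b := by
  have hb0 : 0 < b := by linarith
  have hD0 : 0 < D := lt_of_lt_of_le (by positivity) hbD
  have hbD' : b ≤ D ^ ((1 : ℝ) / 3) := by
    calc b = (b ^ 3) ^ ((1 : ℝ) / 3) := by
          rw [← Real.rpow_natCast, ← Real.rpow_mul hb0.le]; norm_num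
      _ ≤ _ := by gcongr
  set d : ℝ := D ^ ((1 : ℝ) / 3) with hd
  have hd0 : 0 < d := by positivity
  have hd3 : d ^ 3 = D := by
    rw [hd, ← Real.rpow_natCast, ← Real.rpow_mul hD0.le]; norm_num
  have h1 : N ≤ T * d * N / b := by
    rw [le_div_iff₀ hb0]
    calc N * b ≤ N * d := by gcongr
      _ = 1 * d * N := by ring
      _ ≤ T * d * N := by gcongr
  have h2 : (D / b ^ 2 * N) ^ ((2 : ℝ) / 3) ≤ T * d * N / b := by
    have hpos : 0 ≤ T * d * N / b := by positivity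
    have hrw : T * d * N / b = ((T * d * N / b) ^ ((3 : ℝ) / 2)) ^ ((2 : ℝ) / 3) := by
      rw [← Real.rpow_mul hpos]; norm_num
    rw [hrw]
    refine Real.rpow_le_rpow (by positivity) ?_ (by norm_num)
    -- D/b² N ≤ (T d N/b)^{3/2}; square both sides
    have hsq : (D / b ^ 2 * N) ^ 2 ≤ (T * d * N / b) ^ 3 := by
      rw [← hd3] at hD ⊢
      -- d^6/b^4 N^2 ≤ T^3 d^3 N^3 / b^3
      rw [div_mul_eq_mul_div, div_pow, div_pow, div_le_div_iff₀ (by positivity) (by positivity)]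
      have e1 : (d ^ 3 * N) ^ 2 * b ^ 3 = (d ^ 3 * N ^ 2 * b ^ 3) * d ^ 3 := by ring
      have e2 : (T * d * N) ^ 3 * (b ^ 2) ^ 2 = (d ^ 3 * N ^ 2 * b ^ 3) * (N * T * (T ^ 2 * b)) := by
        ring
      rw [e1, e2]
      refine mul_le_mul_of_nonneg_left (hD.trans ?_) (by positivity)
      have : 1 ≤ T ^ 2 * b := one_le_mul_of_one_le_of_one_le (one_le_pow₀ hT) hb
      exact le_mul_of_one_le_right (by positivity) this
    have hgen : ∀ y : ℝ, 0 ≤ y → y = (y ^ 2) ^ ((1 : ℝ) / 2) := fun y hy => by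
      rw [← Real.rpow_natCast, ← Real.rpow_mul hy]; norm_num
    calc D / b ^ 2 * N = ((D / b ^ 2 * N) ^ 2) ^ ((1 : ℝ) / 2) := hgen _ (by positivity)
      _ ≤ ((T * d * N / b) ^ 3) ^ ((1 : ℝ) / 2) := by gcongr
      _ = (T * d * N / b) ^ ((3 : ℝ) / 2) := by
          rw [← Real.rpow_natCast, ← Real.rpow_mul (by positivity)]; norm_num
  calc _ ≤ T * d * N / b + T * d * N / b := add_le_add h1 h2
    _ = _ := by ring

/-- Size computation in the second regime. -/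
lemma size2 {N D T a : ℝ} (hN : 1 ≤ N) (hT : 1 ≤ T) (hD : D ≤ N * T) (ha : 1 ≤ a)
    (haD : a ^ 3 ≤ D) :
    N + (Real.sqrt (D / a) * N) ^ ((2 : ℝ) / 3) ≤ 2 * T * D ^ ((1 : ℝ) / 3) * N / a := by
  have ha0 : 0 < a := by linarith
  have hD0 : 0 < D := lt_of_lt_of_le (by positivity) haD
  have haD' : a ≤ D ^ ((1 : ℝ) / 3) := by
    calc a = (a ^ 3) ^ ((1 : ℝ) / 3) := by
          rw [← Real.rpow_natCast, ← Real.rpow_mul ha0.le]; norm_num
      _ ≤ _ := by gcongr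
  set d : ℝ := D ^ ((1 : ℝ) / 3) with hd
  have hd0 : 0 < d := by positivity
  have hd3 : d ^ 3 = D := by
    rw [hd, ← Real.rpow_natCast, ← Real.rpow_mul hD0.le]; norm_num
  have h1 : N ≤ T * d * N / a := by
    rw [le_div_iff₀ ha0]
    calc N * a ≤ N * d := by gcongr
      _ = 1 * d * N := by ring
      _ ≤ T * d * N := by gcongr
  have h2 : (Real.sqrt (D / a) * N) ^ ((2 : ℝ) / 3) ≤ T * d * N / a := by
    have hpos : 0 ≤ T * d * N / a := by positivity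
    have hsq : (Real.sqrt (D / a) * N) ^ 2 ≤ (T * d * N / a) ^ 3 := by
      rw [mul_pow, Real.sq_sqrt (by positivity)]
      rw [← hd3] at hD ⊢
      -- d^3 / a * N^2 ≤ T^3 d^3 N^3 / a^3
      rw [div_mul_eq_mul_div, div_pow, div_le_div_iff₀ (by positivity) (by positivity)]
      have e1 : (d ^ 3 * N ^ 2) * a ^ 3 = (d ^ 3 * N ^ 2 * a) * a ^ 2 := by ring
      have e2 : (T * d * N) ^ 3 * a = (d ^ 3 * N ^ 2 * a) * (T ^ 3 * N) := by ring
      rw [e1, e2]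
      refine mul_le_mul_of_nonneg_left ?_ (by positivity)
      -- a^2 ≤ a^3 ≤ D ≤ N T ≤ T^3 N
      rw [hd3] at hD
      calc a ^ 2 ≤ a ^ 3 := pow_le_pow_right₀ ha (by norm_num)
        _ ≤ D := haD
        _ ≤ N * T := hD
        _ ≤ N * T ^ 3 := by gcongr; exact le_self_pow₀ hT (by norm_num)
        _ = _ := by ring
    calc (Real.sqrt (D / a) * N) ^ ((2 : ℝ) / 3)
        = ((Real.sqrt (D / a) * N) ^ 2) ^ ((1 : ℝ) / 3) := by
          rw [← Real.rpow_natCast, ← Real.rpow_mul (by positivity)]; norm_num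
      _ ≤ ((T * d * N / a) ^ 3) ^ ((1 : ℝ) / 3) := by gcongr
      _ = T * d * N / a := by
          rw [← Real.rpow_natCast, ← Real.rpow_mul (by positivity)]; norm_num
  calc _ ≤ T * d * N / a + T * d * N / a := add_le_add h1 h2
    _ = _ := by ring

/-- The constant. -/
def cT : ℝ := 4 * #(nz 27)

lemma cT_nonneg : 0 ≤ cT := by unfold cT; positivity

/-- STEP 1 (+ the size computation of STEP 3): all numerators. -/
theorem B2f_le (hφ : SymLike φ) {K N T G : ℝ} (hN : 1 ≤ N) (hT : 1 ≤ T) (hK1 : 1 ≤ K)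
    (hK : K ≤ N * T) (hG : 0 ≤ G)
    (hB : ∀ A : ℝ, 1 ≤ A → A ≤ K → Bf φ A N ≤ G * (N + (A * N) ^ ((2 : ℝ) / 3))) :
    B2f φ K N ≤ cT * T * G * K ^ ((1 : ℝ) / 3) * N * LL K ^ 2 := by
  have hK0 : 0 < K := by linarith
  refine bc_le (by have := cT_nonneg; have := LL_nonneg K; positivity) fun x => ?_
  set X : ℝ := ∑ n ∈ SF N, ‖x n‖ ^ 2 with hX
  have hX0 : 0 ≤ X := by positivity
  refine (sum_nz_le_Pset (F := fun h => ‖∑ n ∈ SF N, x n * φ h n‖ ^ 2)
    (fun _ => by positivity) K).trans ?_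
  refine (sum_Pset_le (F := fun h => ‖∑ n ∈ SF N, x n * φ h n‖ ^ 2)
    (fun _ => by positivity) K).trans ?_
  have hinner : ∀ t : Eis, ∀ c ∈ nz K,
      ((∑ b ∈ nz K, if (nm b : ℝ) ^ 3 ≤ K / (nm c : ℝ) ^ 3 then
          ∑ a ∈ SF (K / (nm c : ℝ) ^ 3 / (nm b : ℝ) ^ 2),
            ‖∑ n ∈ SF N, x n * φ (t * a * b ^ 2 * c ^ 3) n‖ ^ 2 else 0) +
        (∑ a ∈ nz K, if (nm a : ℝ) ^ 3 ≤ K / (nm c : ℝ) ^ 3 then
          ∑ b ∈ SF (Real.sqrt (K / (nm c : ℝ) ^ 3 / (nm a : ℝ))),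
            ‖∑ n ∈ SF N, x n * φ (t * a * b ^ 2 * c ^ 3) n‖ ^ 2 else 0)) ≤
      (4 * T * G * K ^ ((1 : ℝ) / 3) * N * LL K * X) * (1 / (nm c : ℝ)) := by
    intro t c hc
    rw [mem_nz] at hc
    have c1 := one_le_nm' hc.1
    have c0 : (0 : ℝ) < nm c := by linarith
    set D : ℝ := K / (nm c : ℝ) ^ 3 with hD
    have hDK : D ≤ K := div_le_self hK0.le (one_le_pow₀ c1)
    have hD0 : 0 < D := by positivity
    have hDr : D ^ ((1 : ℝ) / 3) = K ^ ((1 : ℝ) / 3) / nm c := by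
      rw [hD, Real.div_rpow hK0.le (by positivity)]
      congr 1
      rw [← Real.rpow_natCast, ← Real.rpow_mul c0.le]; norm_num
    have hs1 : (∑ b ∈ nz K, if (nm b : ℝ) ^ 3 ≤ D then
          ∑ a ∈ SF (D / (nm b : ℝ) ^ 2),
            ‖∑ n ∈ SF N, x n * φ (t * a * b ^ 2 * c ^ 3) n‖ ^ 2 else 0) ≤
        ∑ b ∈ nz K, (2 * T * G * D ^ ((1 : ℝ) / 3) * N * X) * (1 / (nm b : ℝ)) := by
      refine sum_le_sum fun b hb => ?_
      rw [mem_nz] at hb
      have b1 := one_le_nm' hb.1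
      have b0 : (0 : ℝ) < nm b := by linarith
      split_ifs with h3
      · have hA1 : 1 ≤ D / (nm b : ℝ) ^ 2 := by
          rw [le_div_iff₀ (by positivity)]
          calc 1 * (nm b : ℝ) ^ 2 ≤ (nm b : ℝ) ^ 3 := by
                rw [one_mul]; exact pow_le_pow_right₀ b1 (by norm_num)
            _ ≤ D := h3
        have hA2 : D / (nm b : ℝ) ^ 2 ≤ K :=
          (div_le_self hD0.le (one_le_pow₀ b1)).trans hDK
        have hsz := size1 hN hT (hDK.trans hK) b1 h3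
        have hBA : Bf φ (D / (nm b : ℝ) ^ 2) N ≤
            G * (2 * T * D ^ ((1 : ℝ) / 3) * N / nm b) :=
          (hB _ hA1 hA2).trans (mul_le_mul_of_nonneg_left hsz hG)
        refine (sum_a_le hφ (by positivity) hBA t b c x).trans (le_of_eq ?_)
        rw [← hX]; ring
      · positivity
    have hs2 : (∑ a ∈ nz K, if (nm a : ℝ) ^ 3 ≤ D then
          ∑ b ∈ SF (Real.sqrt (D / (nm a : ℝ))),
            ‖∑ n ∈ SF N, x n * φ (t * a * b ^ 2 * c ^ 3) n‖ ^ 2 else 0) ≤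
        ∑ a ∈ nz K, (2 * T * G * D ^ ((1 : ℝ) / 3) * N * X) * (1 / (nm a : ℝ)) := by
      refine sum_le_sum fun a ha => ?_
      rw [mem_nz] at ha
      have a1 := one_le_nm' ha.1
      have a0 : (0 : ℝ) < nm a := by linarith
      split_ifs with h3
      · have hA1 : 1 ≤ Real.sqrt (D / (nm a : ℝ)) := by
          rw [Real.one_le_sqrt, le_div_iff₀ a0]
          calc 1 * (nm a : ℝ) ≤ (nm a : ℝ) ^ 3 := by
                rw [one_mul]; exact le_self_pow₀ a1 (by norm_num)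
            _ ≤ D := h3
        have hA2 : Real.sqrt (D / (nm a : ℝ)) ≤ K := by
          rw [Real.sqrt_le_left (by linarith)]
          calc D / (nm a : ℝ) ≤ D := div_le_self hD0.le a1
            _ ≤ K := hDK
            _ ≤ K ^ 2 := le_self_pow₀ hK1 (by norm_num)
        have hsz := size2 hN hT (hDK.trans hK) a1 h3
        have hBA : Bf φ (Real.sqrt (D / (nm a : ℝ))) N ≤
            G * (2 * T * D ^ ((1 : ℝ) / 3) * N / nm a) :=
          (hB _ hA1 hA2).trans (mul_le_mul_of_nonneg_left hsz hG)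
        refine (sum_b_le hφ (by positivity) hBA t a c x).trans (le_of_eq ?_)
        rw [← hX]; ring
      · positivity
    refine (add_le_add hs1 hs2).trans (le_of_eq ?_)
    rw [← mul_sum, hDr]
    have : ∑ b ∈ nz K, (1 : ℝ) / (nm b : ℝ) = LL K := rfl
    rw [this]
    ring
  calc _ ≤ ∑ t ∈ nz 27, ∑ c ∈ nz K,
        (4 * T * G * K ^ ((1 : ℝ) / 3) * N * LL K * X) * (1 / (nm c : ℝ)) :=
        sum_le_sum fun t _ => sum_le_sum fun c hc => hinner t c hc
    _ = _ := by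
        rw [← mul_sum, sum_const, nsmul_eq_mul]
        have : ∑ b ∈ nz K, (1 : ℝ) / (nm b : ℝ) = LL K := rfl
        rw [this, cT]
        ring

end Crest.Agent.R012.LS448
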