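import Mathlib

/-!
# Row 12, (CR-1): elementary symmetric functions and large values

For complex numbers `x i`, `‖x i‖ ≤ 1` (`i ∈ s`, `n = #s ≥ 1`), with `p = Σ x i`, `M = max ‖p‖ √n`:
`‖k! e_k(x) - p^k‖ ≤ (k! - 1) n M^(k-2)`   (`k ≥ 2`).
-/

set_option autoImplicit false

namespace Crest.Agent.R012.LV106

open Finset

variable {ι : Type*}

/-- elementary symmetric function of the family `x` over the finset `s`. -/
def es (s : Finset ι) (x : ι → ℂ) (k : ℕ) : ℂ := ∑ t ∈ s.powersetCard k, ∏ i ∈ t, x i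

/-- power sum. -/
def ps (s : Finset ι) (x : ι → ℂ) (k : ℕ) : ℂ := ∑ i ∈ s, x i ^ k

lemma es_zero (s : Finset ι) (x : ι → ℂ) : es s x 0 = 1 := by simp [es]

lemma es_one (s : Finset ι) (x : ι → ℂ) : es s x 1 = ∑ i ∈ s, x i := by
  simp [es, Finset.powersetCard_one]

/-- Newton's identities. -/
lemma newton (s : Finset ι) (x : ι → ℂ) (k : ℕ) :
    (k : ℂ) * es s x k = (-1) ^ (k + 1) *
      ∑ a ∈ (antidiagonal k).filter (fun a => a.1 < k), (-1) ^ a.1 * es s x a.1 * ps s x a.2 := by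
  classical
  have h := congrArg (MvPolynomial.aeval (fun i : s => x i.1))
    (MvPolynomial.mul_esymm_eq_sum s ℂ k)
  have he : ∀ j, MvPolynomial.aeval (fun i : s => x i.1) (MvPolynomial.esymm s ℂ j) = es s x j := by
    intro j
    rw [MvPolynomial.aeval_esymm_eq_multiset_esymm]
    have : (univ.val.map fun i : s => x i.1) = s.val.map x := by
      have h2 : (univ : Finset s).val = s.val.attach := rfl
      rw [h2]
      exact Multiset.attach_map_val' s.val x
    rw [this, Finset.esymm_map_val]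
    rfl
  have hp : ∀ j, MvPolynomial.aeval (fun i : s => x i.1) (MvPolynomial.psum s ℂ j) = ps s x j := by
    intro j
    simp only [MvPolynomial.psum, map_sum, map_pow, MvPolynomial.aeval_X, ps]
    exact Finset.sum_coe_sort s (fun i => x i ^ j)
  simpa [map_mul, map_sum, he, hp] using h

lemma ps_bound {s : Finset ι} {x : ι → ℂ} (hx : ∀ i ∈ s, ‖x i‖ ≤ 1) (k : ℕ) :
    ‖ps s x k‖ ≤ (#s : ℝ) := by
  calc ‖ps s x k‖ ≤ ∑ i ∈ s, ‖x i ^ k‖ := norm_sum_le _ _
    _ ≤ ∑ i ∈ s, 1 := by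
        refine Finset.sum_le_sum fun i hi => ?_
        rw [norm_pow]
        exact pow_le_one₀ (norm_nonneg _) (hx i hi)
    _ = (#s : ℝ) := by simp

/-- bound for `e_k`. -/
lemma es_bound {s : Finset ι} {x : ι → ℂ} (hx : ∀ i ∈ s, ‖x i‖ ≤ 1) {M : ℝ} (hM1 : 1 ≤ M)
    (hMs : (#s : ℝ) ≤ M ^ 2) (hMp : ‖∑ i ∈ s, x i‖ ≤ M) (k : ℕ) : ‖es s x k‖ ≤ M ^ k := by
  induction k using Nat.strong_induction_on with
  | _ k ih =>
    rcases Nat.eq_zero_or_pos k with rfl | hk
    · simp [es_zero]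
    have hpk : ∀ j, 1 ≤ j → ‖ps s x j‖ ≤ M ^ j := by
      intro j hj
      rcases Nat.lt_or_ge j 2 with h | h
      · have : j = 1 := by omega
        subst this
        simpa [ps] using hMp
      · calc ‖ps s x j‖ ≤ (#s : ℝ) := ps_bound hx j
          _ ≤ M ^ 2 := hMs
          _ ≤ M ^ j := pow_le_pow_right₀ hM1 h
    have h1 : ‖(k : ℂ) * es s x k‖ ≤ (k : ℝ) * M ^ k := by
      rw [newton, norm_mul, norm_pow, norm_neg, norm_one, one_pow, one_mul]
      calc ‖∑ a ∈ (antidiagonal k).filter (fun a => a.1 < k), (-1) ^ a.1 * es s x a.1 * ps s x a.2‖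
          ≤ ∑ a ∈ (antidiagonal k).filter (fun a => a.1 < k),
              ‖(-1) ^ a.1 * es s x a.1 * ps s x a.2‖ := norm_sum_le _ _
        _ ≤ ∑ a ∈ (antidiagonal k).filter (fun a => a.1 < k), M ^ k := by
            refine Finset.sum_le_sum fun a ha => ?_
            rw [mem_filter, HasAntidiagonal.mem_antidiagonal] at ha
            have ha2 : 1 ≤ a.2 := by omega
            rw [norm_mul, norm_mul, norm_pow, norm_neg, norm_one, one_pow, one_mul]
            calc ‖es s x a.1‖ * ‖ps s x a.2‖ ≤ M ^ a.1 * M ^ a.2 :=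
                  mul_le_mul (ih a.1 ha.2) (hpk a.2 ha2) (norm_nonneg _) (by positivity)
              _ = M ^ k := by rw [← pow_add, ha.1]
        _ = (k : ℝ) * M ^ k := by
            rw [Finset.sum_const, nsmul_eq_mul]
            congr 1
            have : #((antidiagonal k).filter (fun a : ℕ × ℕ => a.1 < k)) = k := by
              have h3 : (antidiagonal k).filter (fun a : ℕ × ℕ => a.1 < k)
                  = (range k).image (fun i => (i, k - i)) := by
                ext ⟨a, b⟩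
                simp only [mem_filter, HasAntidiagonal.mem_antidiagonal, mem_image, mem_range, Prod.mk.injEq]
                constructor
                · rintro ⟨h, h'⟩
                  exact ⟨a, h', rfl, by omega⟩
                · rintro ⟨i, hi, rfl, rfl⟩
                  exact ⟨by omega, hi⟩
              rw [h3, card_image_of_injective _ (fun a b h => by simpa using congrArg Prod.fst h),
                card_range]
            exact_mod_cast this
    rw [norm_mul, Complex.norm_natCast] at h1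
    have hk' : (0 : ℝ) < k := by exact_mod_cast hk
    exact le_of_mul_le_mul_left h1 hk'

/-- one step of Newton's recursion with error term. -/
lemma newton_step {s : Finset ι} {x : ι → ℂ} (hx : ∀ i ∈ s, ‖x i‖ ≤ 1) {M : ℝ} (hM1 : 1 ≤ M)
    (hMs : (#s : ℝ) ≤ M ^ 2) (hMp : ‖∑ i ∈ s, x i‖ ≤ M) (k : ℕ) :
    ‖((k + 2 : ℕ) : ℂ) * es s x (k + 2) - (∑ i ∈ s, x i) * es s x (k + 1)‖
      ≤ (k + 1) * ((#s : ℝ) * M ^ k) := by
  classical
  have h3 : (antidiagonal (k + 2)).filter (fun a : ℕ × ℕ => a.1 < k + 2)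
      = (range (k + 2)).image (fun i => (i, k + 2 - i)) := by
    ext ⟨a, b⟩
    simp only [mem_filter, HasAntidiagonal.mem_antidiagonal, mem_image, mem_range, Prod.mk.injEq]
    constructor
    · rintro ⟨h, h'⟩
      exact ⟨a, h', rfl, by omega⟩
    · rintro ⟨i, hi, rfl, rfl⟩
      exact ⟨by omega, hi⟩
  rw [newton, h3, Finset.sum_image (fun a _ b _ h => by simpa using congrArg Prod.fst h),
    Finset.sum_range_succ]
  have e1 : (-1 : ℂ) ^ (k + 2 + 1) * (∑ i ∈ range (k + 1), (-1) ^ i * es s x i * ps s x (k + 2 - i) +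
      (-1) ^ (k + 1) * es s x (k + 1) * ps s x (k + 2 - (k + 1))) -
      (∑ i ∈ s, x i) * es s x (k + 1) =
      (-1) ^ (k + 3) * ∑ i ∈ range (k + 1), (-1) ^ i * es s x i * ps s x (k + 2 - i) := by
    have e2 : k + 2 - (k + 1) = 1 := by omega
    have e3 : ps s x 1 = ∑ i ∈ s, x i := by simp [ps]
    rw [e2, e3, mul_add]
    have e4 : (-1 : ℂ) ^ (k + 2 + 1) * ((-1) ^ (k + 1) * es s x (k + 1) * ∑ i ∈ s, x i)
        = (∑ i ∈ s, x i) * es s x (k + 1) := by
      have : (-1 : ℂ) ^ (k + 2 + 1) * (-1) ^ (k + 1) = 1 := by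
        rw [← pow_add]
        exact Even.neg_one_pow ⟨k + 2, by ring⟩
      linear_combination (es s x (k + 1) * ∑ i ∈ s, x i) * this
    rw [e4]
    ring
  rw [e1, norm_mul, norm_pow, norm_neg, norm_one, one_pow, one_mul]
  calc ‖∑ i ∈ range (k + 1), (-1) ^ i * es s x i * ps s x (k + 2 - i)‖
      ≤ ∑ i ∈ range (k + 1), ‖(-1) ^ i * es s x i * ps s x (k + 2 - i)‖ := norm_sum_le _ _
    _ ≤ ∑ i ∈ range (k + 1), (#s : ℝ) * M ^ k := by
        refine Finset.sum_le_sum fun i hi => ?_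
        rw [mem_range] at hi
        rw [norm_mul, norm_mul, norm_pow, norm_neg, norm_one, one_pow, one_mul, mul_comm]
        refine mul_le_mul (ps_bound hx _) ?_ (norm_nonneg _) (by positivity)
        exact (es_bound hx hM1 hMs hMp i).trans (pow_le_pow_right₀ hM1 (by omega))
    _ = (k + 1) * ((#s : ℝ) * M ^ k) := by
        rw [Finset.sum_const, nsmul_eq_mul, card_range]
        push_cast
        ring

/-- `‖k! e_k - p^k‖ ≤ (k! - 1) n M^(k-2)`, stated with `k+2` in place of `k`. -/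
theorem es_sub_pow {s : Finset ι} {x : ι → ℂ} (hx : ∀ i ∈ s, ‖x i‖ ≤ 1) {M : ℝ} (hM1 : 1 ≤ M)
    (hMs : (#s : ℝ) ≤ M ^ 2) (hMp : ‖∑ i ∈ s, x i‖ ≤ M) (k : ℕ) :
    ‖((k + 2).factorial : ℂ) * es s x (k + 2) - (∑ i ∈ s, x i) ^ (k + 2)‖
      ≤ (((k + 2).factorial : ℝ) - 1) * ((#s : ℝ) * M ^ k) := by
  have hM0 : 0 ≤ M := by linarith
  induction k with
  | zero =>
    have h := newton_step hx hM1 hMs hMp 0
    rw [es_one] at h
    simp only [zero_add, Nat.factorial_two, Nat.cast_ofNat] at h ⊢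
    have e : (2 : ℂ) * es s x 2 - (∑ i ∈ s, x i) ^ 2 = 2 * es s x 2 - (∑ i ∈ s, x i) * ∑ i ∈ s, x i := by
      ring
    rw [e]
    refine h.trans (le_of_eq ?_)
    norm_num
  | succ k ih =>
    have h := newton_step hx hM1 hMs hMp (k + 1)
    have hf : ((k + 1 + 2).factorial : ℂ) = ((k + 2).factorial : ℂ) * ((k + 1 + 2 : ℕ) : ℂ) := by
      rw [show k + 1 + 2 = (k + 2) + 1 by ring, Nat.factorial_succ]
      push_cast
      ring
    have hf' : ((k + 1 + 2).factorial : ℝ) = ((k + 2).factorial : ℝ) * (k + 3) := by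
      rw [show k + 1 + 2 = (k + 2) + 1 by ring, Nat.factorial_succ]
      push_cast
      ring
    have e : ((k + 1 + 2).factorial : ℂ) * es s x (k + 1 + 2) - (∑ i ∈ s, x i) ^ (k + 1 + 2)
        = ((k + 2).factorial : ℂ) * (((k + 1 + 2 : ℕ) : ℂ) * es s x (k + 1 + 2)
            - (∑ i ∈ s, x i) * es s x (k + 1 + 1))
          + (∑ i ∈ s, x i) * (((k + 2).factorial : ℂ) * es s x (k + 2) - (∑ i ∈ s, x i) ^ (k + 2)) := by
      rw [hf, show k + 1 + 1 = k + 2 by ring]
      ring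
    rw [e]
    calc _ ≤ ‖((k + 2).factorial : ℂ) * (((k + 1 + 2 : ℕ) : ℂ) * es s x (k + 1 + 2)
            - (∑ i ∈ s, x i) * es s x (k + 1 + 1))‖
          + ‖(∑ i ∈ s, x i) * (((k + 2).factorial : ℂ) * es s x (k + 2)
            - (∑ i ∈ s, x i) ^ (k + 2))‖ := norm_add_le _ _
      _ ≤ ((k + 2).factorial : ℝ) * (((k + 1 : ℕ) + 1) * ((#s : ℝ) * M ^ (k + 1)))
          + M * ((((k + 2).factorial : ℝ) - 1) * ((#s : ℝ) * M ^ k)) := by
          rw [norm_mul, norm_mul, Complex.norm_natCast]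
          exact add_le_add (mul_le_mul_of_nonneg_left h (by positivity))
            (mul_le_mul hMp ih (norm_nonneg _) hM0)
      _ = (((k + 1 + 2).factorial : ℝ) - 1) * ((#s : ℝ) * M ^ (k + 1)) := by
          rw [hf', pow_succ]
          push_cast
          ring

/-- if `‖p‖² ≥ 2 k! n` then `‖p‖^k ≤ 2 k! ‖e_k‖`. -/
theorem pow_le_es {s : Finset ι} {x : ι → ℂ} (hx : ∀ i ∈ s, ‖x i‖ ≤ 1) {k : ℕ}
    (hp : 2 * (k.factorial : ℝ) * (#s : ℝ) ≤ ‖∑ i ∈ s, x i‖ ^ 2) :
    ‖∑ i ∈ s, x i‖ ^ k ≤ 2 * (k.factorial : ℝ) * ‖es s x k‖ := by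
  set P := ‖∑ i ∈ s, x i‖ with hP
  rcases s.eq_empty_or_nonempty with rfl | hs
  · simp only [sum_empty, norm_zero] at hP
    rcases k with _ | k
    · simp [es_zero]
    · rw [hP]
      simp
      positivity
  have hn : (1 : ℝ) ≤ #s := by exact_mod_cast hs.card_pos
  have hkf : (1 : ℝ) ≤ k.factorial := by exact_mod_cast Nat.factorial_pos k
  have hP2 : (#s : ℝ) ≤ P ^ 2 := by nlinarith
  have hP0 : 0 ≤ P := norm_nonneg _
  have hP1 : 1 ≤ P := by nlinarith
  rcases k with _ | _ | k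
  · simp [es_zero]
  · simp only [zero_add, pow_one, Nat.factorial_one, Nat.cast_one, mul_one, es_one]
    linarith
  · have h := es_sub_pow hx hP1 hP2 le_rfl k
    have h2 : ‖(∑ i ∈ s, x i) ^ (k + 2)‖ ≤ ‖((k + 2).factorial : ℂ) * es s x (k + 2)‖ +
        (((k + 2).factorial : ℝ) - 1) * ((#s : ℝ) * P ^ k) := by
      calc ‖(∑ i ∈ s, x i) ^ (k + 2)‖
          = ‖((k + 2).factorial : ℂ) * es s x (k + 2) -
            (((k + 2).factorial : ℂ) * es s x (k + 2) - (∑ i ∈ s, x i) ^ (k + 2))‖ := by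
              congr 1; ring
        _ ≤ _ := (norm_sub_le _ _).trans (by linarith)
    rw [norm_pow, norm_mul, Complex.norm_natCast, ← hP] at h2
    have h3 : (((k + 2).factorial : ℝ) - 1) * ((#s : ℝ) * P ^ k) ≤ P ^ (k + 2) / 2 := by
      have h4 : 2 * ((k + 2).factorial : ℝ) * (#s : ℝ) ≤ P ^ 2 := hp
      have h5 : 0 ≤ P ^ k := by positivity
      have h6 : (#s : ℝ) * P ^ k * (2 * ((k + 2).factorial : ℝ)) ≤ P ^ 2 * P ^ k := by nlinarith
      have h7 : 0 ≤ (#s : ℝ) * P ^ k := by positivity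
      have h8 : P ^ (k + 2) = P ^ 2 * P ^ k := by ring
      rw [h8]
      nlinarith
    have h9 : P ^ (k + 1 + 1) = P ^ (k + 2) := rfl
    show P ^ (k + 2) ≤ 2 * ((k + 2).factorial : ℝ) * ‖es s x (k + 2)‖
    nlinarith

end Crest.Agent.R012.LV106
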