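import Crest.Agent.R012.LatSum_413

/-!
# Row 12 (MK12): lattice sums over `Eis`, functions with decay

* `latSum_decay` : for `f : ℂ → F` continuous and integrable whose second differences satisfy
  `‖f (z+h) + f (z-h) - 2 f z‖ ≤ M (1+‖z‖)⁻³ ‖h‖²` for `‖h‖ ≤ 1`, and `0 < ‖q‖ ≤ 1`,
  `‖∑' m, f (q m + b) - (2/√3)|q|⁻² ∫ f‖ ≤ (8/√3) M J3`, `J3 = ∫ (1+‖z‖)⁻³`.
* `latSum_osc` : general first order version with an oscillation majorant.
* `second_diff_of_schwartz`.
-/

set_option autoImplicit false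

noncomputable section

open MeasureTheory Set

namespace Crest.Agent.R012.LatSum413

open Crest.Agent.R012 Crest.Agent.R012.Eis

section Plane

variable {F : Type*} [NormedAddCommGroup F] [NormedSpace ℝ F]

lemma plane_compare {g : ℝ × ℝ → F} (hg : Integrable g) {κ : ℤ × ℤ → ℝ} {A : ℝ}
    (hκ : HasSum κ A) (hc : ∀ p : ℤ × ℤ, ‖g (ptr p) - ∫ z in sq p, g z‖ ≤ κ p) [CompleteSpace F] :
    Summable (fun p : ℤ × ℤ => g (ptr p)) ∧ ‖∑' p : ℤ × ℤ, g (ptr p) - ∫ z, g z‖ ≤ A := by
  have hsum := hasSum_sq hg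
  have hd : Summable (fun p : ℤ × ℤ => g (ptr p) - ∫ z in sq p, g z) :=
    Summable.of_norm_bounded hκ.summable hc
  have hs : Summable (fun p : ℤ × ℤ => g (ptr p)) := by
    have := hd.add hsum.summable
    simpa using this
  refine ⟨hs, ?_⟩
  rw [← hsum.tsum_eq, ← hs.tsum_sub hsum.summable]
  exact tsum_of_norm_bounded hκ hc

variable [CompleteSpace F]

omit [NormedSpace ℝ F] [CompleteSpace F] in
lemma integrableOn_sq_zero {g' : ℝ × ℝ → F} (hg' : Continuous g') : IntegrableOn g' (sq 0) := by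
  refine (hg'.continuousOn.integrableOn_compact
    (isCompact_Icc.prod isCompact_Icc) (K := (Icc (-(1 / 2 : ℝ)) (1 / 2) ×ˢ
      Icc (-(1 / 2 : ℝ)) (1 / 2)))).mono_set ?_
  intro z hz
  rw [mem_sq] at hz
  simp only [Prod.fst_zero, Prod.snd_zero, Int.cast_zero] at hz
  exact ⟨⟨by linarith [hz.1.1], by linarith [hz.1.2]⟩, by linarith [hz.2.1],
    by linarith [hz.2.2]⟩

/-- One cell, second order, local hypothesis. -/
lemma cell_second' {g : ℝ × ℝ → F} (hg : Continuous g) {M : ℝ} (hM : 0 ≤ M)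
    (p : ℤ × ℤ) (h2 : ∀ h : ℝ × ℝ, ‖h‖ ≤ 1 / 2 →
      ‖g (ptr p + h) + g (ptr p - h) - (2 : ℝ) • g (ptr p)‖ ≤ M * ‖h‖ ^ 2) :
    ‖g (ptr p) - ∫ z in sq p, g z‖ ≤ M / 8 := by
  have e1 : (2 : ℝ) • (g (ptr p) - ∫ z in sq p, g z) =
      -∫ z in sq 0, (g (ptr p + z) + g (ptr p - z) - (2 : ℝ) • g (ptr p)) := by
    have i1 := integrableOn_sq_zero (g' := fun z => g (ptr p + z)) (by fun_prop)
    have i2 := integrableOn_sq_zero (g' := fun z => g (ptr p - z)) (by fun_prop)
    have i3 := integrableOn_sq_zero (g' := fun _ => (2 : ℝ) • g (ptr p)) (by fun_prop)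
    have e0 := integral_sub (f := fun z => g (ptr p + z) + g (ptr p - z)) (i1.add i2) i3
    rw [e0, integral_add i1 i2, setIntegral_const,
      volume_sq_zero, one_smul]
    have e2 : ∫ z in sq 0, g (ptr p - z) = ∫ z in sq 0, g (ptr p + z) := by
      rw [setIntegral_sq_neg (fun z => g (ptr p + z))]
      simp [sub_eq_add_neg]
    rw [e2, setIntegral_sq, two_smul, two_smul]
    abel
  have e3 : ‖∫ z in sq 0, (g (ptr p + z) + g (ptr p - z) - (2 : ℝ) • g (ptr p))‖ ≤ M / 4 := by
    have := norm_setIntegral_le_of_norm_le_const (μ := volume) (s := sq 0)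
      (f := fun z => g (ptr p + z) + g (ptr p - z) - (2 : ℝ) • g (ptr p)) (C := M / 4)
      volume_sq_zero_lt (by
        intro z hz
        have h3 := norm_le_of_mem_sq hz
        refine (h2 z h3).trans ?_
        have h4 : ‖z‖ ^ 2 ≤ (1 / 2) ^ 2 := pow_le_pow_left₀ (norm_nonneg _) h3 2
        nlinarith)
    rwa [volume_sq_zero, mul_one] at this
  have e4 : ‖(2 : ℝ) • (g (ptr p) - ∫ z in sq p, g z)‖ ≤ M / 4 := by
    rw [e1, norm_neg]; exact e3
  rw [norm_smul] at e4
  have : ‖(2 : ℝ)‖ = 2 := by simp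
  rw [this] at e4
  linarith

end Plane

/-- The weight `(1+‖z‖)⁻³`. -/
def wt3 (z : ℂ) : ℝ := (1 + ‖z‖) ^ (-3 : ℝ)

lemma wt3_nonneg (z : ℂ) : 0 ≤ wt3 z := by unfold wt3; positivity

lemma integrable_wt3 : Integrable wt3 := by
  unfold wt3
  apply integrable_one_add_norm
  rw [Complex.finrank_real_complex]
  norm_num

/-- `J3 = ∫ (1+‖z‖)⁻³`. -/
def J3 : ℝ := ∫ z : ℂ, wt3 z

lemma J3_nonneg : 0 ≤ J3 := integral_nonneg wt3_nonneg

lemma wt3_le {z z' : ℂ} (h : ‖z' - z‖ ≤ 1) : wt3 z ≤ 8 * wt3 z' := by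
  unfold wt3
  have h1 : 1 + ‖z'‖ ≤ 2 * (1 + ‖z‖) := by
    have := norm_sub_norm_le z' z
    have := norm_nonneg z
    linarith
  have h2 : (2 * (1 + ‖z‖)) ^ (-3 : ℝ) ≤ (1 + ‖z'‖) ^ (-3 : ℝ) :=
    Real.rpow_le_rpow_of_nonpos (by positivity) h1 (by norm_num)
  rw [Real.mul_rpow (by norm_num) (by positivity)] at h2
  have h3 : (2 : ℝ) ^ (-3 : ℝ) = 1 / 8 := by
    rw [show (-3 : ℝ) = ((-3 : ℤ) : ℝ) by norm_num, Real.rpow_intCast]; norm_num
  rw [h3] at h2
  linarith

section Frame

variable {F : Type*} [NormedAddCommGroup F] [NormedSpace ℝ F]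

omit [NormedSpace ℝ F] in
lemma integrable_pull {q : ℂ} (hq : q ≠ 0) (b : ℂ) {f : ℂ → F} (hf : Integrable f) :
    Integrable (pull q b f) := by
  have hdet : LinearMap.det (frameMap q (q * wC)) ≠ 0 := by
    rw [det_frameMap]; exact frame_q_ne hq
  have hmap := Measure.map_linearMap_addHaar_eq_smul_addHaar (volume : Measure ℂ) hdet
  let e : ℂ ≃ₗ[ℝ] ℂ := LinearEquiv.ofIsUnitDet (v := Complex.basisOneI)
    (v' := Complex.basisOneI) (f := frameMap q (q * wC)) (by
      rw [LinearMap.det_toMatrix]; exact hdet.isUnit)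
  have hemb : MeasurableEmbedding (frameMap q (q * wC)) := by
    have : MeasurableEmbedding (e.toContinuousLinearEquiv : ℂ → ℂ) :=
      e.toContinuousLinearEquiv.toHomeomorph.measurableEmbedding
    exact this
  have h1 : Integrable (fun z : ℂ => f (z + b)) := hf.comp_add_right b
  have h2 : Integrable (fun z : ℂ => f (z + b)) (Measure.map (frameMap q (q * wC)) volume) := by
    rw [hmap]
    exact h1.smul_measure ENNReal.ofReal_ne_top
  rw [hemb.integrable_map_iff] at h2
  exact (Complex.volume_preserving_equiv_real_prod.integrable_comp_emb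
    Complex.measurableEquivRealProd.measurableEmbedding (g := pull q b f)).mp h2

variable [CompleteSpace F]

lemma norm_frame_le (q : ℂ) (h : ℝ × ℝ) : ‖h.1 • q + h.2 • (q * wC)‖ ≤ 2 * ‖q‖ * ‖h‖ := by
  refine (norm_add_le _ _).trans ?_
  rw [norm_smul, norm_smul, norm_mul, norm_wC, mul_one]
  have h5 := norm_fst_le h
  have h6 := norm_snd_le h
  nlinarith [norm_nonneg q]

/-- **Midpoint rule for functions with decay.** -/
theorem latSum_decay {f : ℂ → F} (hf : Continuous f) (hi : Integrable f) {M : ℝ} (hM : 0 ≤ M)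
    (h2 : ∀ z h, ‖h‖ ≤ 1 → ‖f (z + h) + f (z - h) - (2 : ℝ) • f z‖ ≤ M * wt3 z * ‖h‖ ^ 2)
    {q : ℂ} (hq : q ≠ 0) (hq1 : ‖q‖ ≤ 1) (b : ℂ) :
    Summable (fun m : Eis => f (q * toC m + b)) ∧
    ‖∑' m : Eis, f (q * toC m + b) - (2 / Real.sqrt 3 / ‖q‖ ^ 2) • ∫ z, f z‖ ≤
      8 / Real.sqrt 3 * M * J3 := by
  have hqn := norm_pos_iff.mpr hq
  have hW := integrable_pull hq b integrable_wt3
  have hκ := (hasSum_sq hW).mul_left (4 * M * ‖q‖ ^ 2)
  rw [integral_pull hq] at hκ
  have hmid := plane_compare (g := pull q b f) (integrable_pull hq b hi) hκ (by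
    intro p
    have hcell := cell_second' (g := pull q b f) (continuous_pull q b hf)
      (M := 4 * M * ‖q‖ ^ 2 * wt3 (q * toC (eisEquiv.symm p) + b))
      (by have := wt3_nonneg (q * toC (eisEquiv.symm p) + b); positivity) p (by
        intro h hh
        have h4 := norm_frame_le q h
        have h3 := h2 (q * toC (eisEquiv.symm p) + b) (h.1 • q + h.2 • (q * wC)) (by
          nlinarith)
        have e0 : (ptr p).1 • q + (ptr p).2 • (q * wC) + b = q * toC (eisEquiv.symm p) + b := by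
          rw [ptr, toC_eisEquiv_symm]
          simp only [Complex.real_smul]
          push_cast
          ring
        have e1 : pull q b f (ptr p + h) =
            f (q * toC (eisEquiv.symm p) + b + (h.1 • q + h.2 • (q * wC))) := by
          rw [← e0, pull]; congr 1; simp only [Prod.fst_add, Prod.snd_add, add_smul]; abel
        have e2 : pull q b f (ptr p - h) =
            f (q * toC (eisEquiv.symm p) + b - (h.1 • q + h.2 • (q * wC))) := by
          rw [← e0, pull]; congr 1; simp only [Prod.fst_sub, Prod.snd_sub, sub_smul]; abel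
        rw [e1, e2, pull_ptr]
        refine h3.trans ?_
        have h7 : ‖h.1 • q + h.2 • (q * wC)‖ ^ 2 ≤ (2 * ‖q‖ * ‖h‖) ^ 2 :=
          pow_le_pow_left₀ (norm_nonneg _) h4 2
        have h8 : 0 ≤ M * wt3 (q * toC (eisEquiv.symm p) + b) :=
          mul_nonneg hM (wt3_nonneg _)
        nlinarith)
    refine hcell.trans ?_
    have hlow : wt3 (q * toC (eisEquiv.symm p) + b) ≤ 8 * ∫ z in sq p, pull q b wt3 z := by
      rw [setIntegral_sq, ← integral_const_mul]
      have hc : wt3 (q * toC (eisEquiv.symm p) + b) =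
          ∫ _ in sq 0, wt3 (q * toC (eisEquiv.symm p) + b) := by
        rw [setIntegral_const, volume_sq_zero, one_smul]
      rw [hc]
      have hcont : Continuous wt3 := by
        unfold wt3
        apply Continuous.rpow_const (by fun_prop)
        intro z
        left
        positivity
      apply setIntegral_mono_on (integrableOn_sq_zero continuous_const)
        (integrableOn_sq_zero (by
          have := continuous_pull q b hcont
          fun_prop)) (measurableSet_sq 0)
      intro h hh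
      have h4 := norm_frame_le q h
      have h5 := norm_le_of_mem_sq hh
      apply wt3_le
      have e0 : (ptr p + h).1 • q + (ptr p + h).2 • (q * wC) + b -
          (q * toC (eisEquiv.symm p) + b) = h.1 • q + h.2 • (q * wC) := by
        rw [ptr, toC_eisEquiv_symm]
        simp only [Complex.real_smul, Prod.fst_add, Prod.snd_add]
        push_cast
        ring
      rw [e0]
      nlinarith
    have : 4 * M * ‖q‖ ^ 2 * wt3 (q * toC (eisEquiv.symm p) + b) / 8 ≤
        4 * M * ‖q‖ ^ 2 * (8 * ∫ z in sq p, pull q b wt3 z) / 8 := by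
      gcongr
    refine this.trans (le_of_eq ?_)
    ring)
  have e3 : (fun p : ℤ × ℤ => pull q b f (ptr p)) =
      (fun m : Eis => f (q * toC m + b)) ∘ eisEquiv.symm := by
    funext p; rw [pull_ptr]; rfl
  rw [e3] at hmid
  refine ⟨(Equiv.summable_iff _).mp hmid.1, ?_⟩
  have e4 : ∑' p : ℤ × ℤ, ((fun m : Eis => f (q * toC m + b)) ∘ eisEquiv.symm) p =
      ∑' m : Eis, f (q * toC m + b) :=
    Equiv.tsum_eq eisEquiv.symm (fun m : Eis => f (q * toC m + b))
  have h8 := hmid.2
  rw [show tsum ((fun m : Eis => f (q * toC m + b)) ∘ eisEquiv.symm) =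
    ∑' m : Eis, f (q * toC m + b) from e4, integral_pull hq] at h8
  refine h8.trans (le_of_eq ?_)
  rw [smul_eq_mul]
  have : ∫ z, wt3 z = J3 := rfl
  rw [this]
  field_simp
  ring

end Frame

section Schwartz

variable {F : Type*} [NormedAddCommGroup F] [NormedSpace ℝ F]

/-- Second differences are controlled by the second derivative on the unit ball. -/
lemma second_diff_local {f : ℂ → F} (hf : ContDiff ℝ 2 f) {K : ℝ} {z : ℂ}
    (hK : ∀ x ∈ Metric.closedBall z 1, ‖fderiv ℝ (fderiv ℝ f) x‖ ≤ K) {h : ℂ} (hh : ‖h‖ ≤ 1) :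
    ‖f (z + h) + f (z - h) - (2 : ℝ) • f z‖ ≤ K * ‖h‖ ^ 2 := by
  have hd : Differentiable ℝ f := hf.differentiable (by norm_num)
  have hd1 : ContDiff ℝ 1 (fderiv ℝ f) := hf.fderiv_right (by norm_num)
  have hd2 : Differentiable ℝ (fderiv ℝ f) := hd1.differentiable (by norm_num)
  have hseg : ∀ x ∈ segment ℝ (z - h) z, x ∈ Metric.closedBall z 1 ∧
      x + h ∈ Metric.closedBall z 1 := by
    intro x hx
    rw [segment_eq_image'] at hx
    obtain ⟨θ, ⟨h0, h1⟩, rfl⟩ := hx
    simp only [sub_sub_cancel]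
    constructor
    · rw [Metric.mem_closedBall, dist_eq_norm]
      have : z - h + θ • h - z = (θ - 1) • h := by rw [sub_smul, one_smul]; abel
      rw [this, norm_smul, Real.norm_eq_abs]
      have : |θ - 1| ≤ 1 := by rw [abs_le]; constructor <;> linarith
      nlinarith [norm_nonneg h, abs_nonneg (θ - 1)]
    · rw [Metric.mem_closedBall, dist_eq_norm]
      have : z - h + θ • h + h - z = θ • h := by abel
      rw [this, norm_smul, Real.norm_eq_abs, abs_of_nonneg h0]
      nlinarith [norm_nonneg h]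
  have key : ‖(fun x => f (x + h) - f x) z - (fun x => f (x + h) - f x) (z - h)‖ ≤
      (K * ‖h‖) * ‖z - (z - h)‖ := by
    refine Convex.norm_image_sub_le_of_norm_hasFDerivWithin_le (s := segment ℝ (z - h) z)
      (𝕜 := ℝ)
      (f := fun x => f (x + h) - f x) (x := z - h) (y := z) (C := K * ‖h‖)
      (f' := fun x => fderiv ℝ f (x + h) - fderiv ℝ f x) ?_ ?_ (convex_segment _ _)
      (left_mem_segment _ _ _) (right_mem_segment _ _ _)
    · intro x _
      have h1 : HasFDerivAt (fun x => f (x + h)) (fderiv ℝ f (x + h)) x := by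
        exact (hasFDerivAt_comp_add_right h).mpr (hd (x + h)).hasFDerivAt
      exact (h1.sub (hd x).hasFDerivAt).hasFDerivWithinAt
    · intro x hx
      obtain ⟨h3, h4⟩ := hseg x hx
      have := Convex.norm_image_sub_le_of_norm_fderiv_le (𝕜 := ℝ) (f := fderiv ℝ f)
        (s := Metric.closedBall z 1) (C := K) (fun y _ => hd2 y) hK (convex_closedBall _ _) h3 h4
      simpa using this
  have e : f (z + h) + f (z - h) - (2 : ℝ) • f z =
      (fun x => f (x + h) - f x) z - (fun x => f (x + h) - f x) (z - h) := by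
    simp only [sub_add_cancel, two_smul]
    abel
  rw [e]
  refine key.trans (le_of_eq ?_)
  rw [sub_sub_cancel]; ring

lemma norm_fderiv_fderiv (f : ℂ → F) (x : ℂ) :
    ‖fderiv ℝ (fderiv ℝ f) x‖ = ‖iteratedFDeriv ℝ 2 f x‖ := by
  rw [← norm_iteratedFDeriv_one, norm_iteratedFDeriv_fderiv]

/-- `C²` functions with compact support are in the decay class. -/
lemma second_diff_compact {f : ℂ → F} (hf : ContDiff ℝ 2 f) (hc : HasCompactSupport f) :
    ∃ M, 0 ≤ M ∧ ∀ z h, ‖h‖ ≤ 1 →
      ‖f (z + h) + f (z - h) - (2 : ℝ) • f z‖ ≤ M * wt3 z * ‖h‖ ^ 2 := by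
  obtain ⟨R, hR⟩ := hc.isCompact.isBounded.subset_closedBall (0 : ℂ)
  obtain ⟨M, hM, h2⟩ := second_diff_of_contDiff hf hc
  have hzero : ∀ z, |R| < ‖z‖ → f z = 0 := by
    intro z hz
    by_contra h0
    have := hR (subset_tsupport f h0)
    rw [mem_closedBall_zero_iff] at this
    exact absurd (hz.trans_le this) (not_lt.mpr (le_abs_self R))
  refine ⟨M * (1 + (|R| + 1)) ^ (3 : ℝ), by positivity, ?_⟩
  intro z h hh
  by_cases hz : ‖z‖ ≤ |R| + 1
  · refine (h2 z h).trans ?_
    have h5 : 1 ≤ (1 + (|R| + 1)) ^ (3 : ℝ) * wt3 z := by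
      unfold wt3
      rw [Real.rpow_neg (by positivity), ← div_eq_mul_inv, one_le_div (by positivity)]
      exact Real.rpow_le_rpow (by positivity) (by linarith) (by norm_num)
    have h6 : 0 ≤ M * ‖h‖ ^ 2 := by positivity
    nlinarith
  · push Not at hz
    have h7 : |R| < ‖z + h‖ := by
      have := norm_sub_norm_le z (-h)
      rw [sub_neg_eq_add, norm_neg] at this
      linarith
    have h8 : |R| < ‖z - h‖ := by
      have := norm_sub_norm_le z h
      linarith
    rw [hzero _ h7, hzero _ h8, hzero z (by linarith)]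
    simp only [add_zero, smul_zero, sub_zero, norm_zero]
    have := wt3_nonneg z
    positivity

/-- Schwartz functions are in the decay class. -/
lemma second_diff_schwartz (f : SchwartzMap ℂ F) :
    ∃ M, 0 ≤ M ∧ ∀ z h, ‖h‖ ≤ 1 →
      ‖f (z + h) + f (z - h) - (2 : ℝ) • f z‖ ≤ M * wt3 z * ‖h‖ ^ 2 := by
  have hsemi := SchwartzMap.one_add_le_sup_seminorm_apply (𝕜 := ℝ) (m := (3, 2)) (k := 3) (n := 2)
    le_rfl le_rfl f
  set C := 2 ^ 3 * ((Finset.Iic (3, 2)).sup fun m => SchwartzMap.seminorm ℝ m.1 m.2) f with hC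
  have hC0 : 0 ≤ C := le_trans (by positivity) (hsemi 0)
  refine ⟨8 * C, by positivity, ?_⟩
  intro z h hh
  have := second_diff_local (f := f) (f.smooth 2) (K := 8 * C * wt3 z) (z := z) (by
    intro x hx
    rw [norm_fderiv_fderiv]
    have h1 := hsemi x
    have h2 : wt3 x ≤ 8 * wt3 z := by
      apply wt3_le
      rw [Metric.mem_closedBall, dist_eq_norm] at hx
      rw [norm_sub_rev]; exact hx
    have h3 : ‖iteratedFDeriv ℝ 2 f x‖ ≤ C * wt3 x := by
      unfold wt3
      rw [Real.rpow_neg (by positivity), ← div_eq_mul_inv, le_div_iff₀ (by positivity)]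
      rw [show (3 : ℝ) = ((3 : ℕ) : ℝ) by norm_num, Real.rpow_natCast]
      rw [mul_comm]; exact h1
    nlinarith) hh
  exact this

lemma decay_schwartz (f : SchwartzMap ℂ F) :
    ∃ K, 0 ≤ K ∧ ∀ z, ‖f z‖ ≤ K * wt3 z := by
  have hsemi := SchwartzMap.one_add_le_sup_seminorm_apply (𝕜 := ℝ) (m := (3, 0)) (k := 3) (n := 0)
    le_rfl le_rfl f
  set C := 2 ^ 3 * ((Finset.Iic (3, 0)).sup fun m => SchwartzMap.seminorm ℝ m.1 m.2) f with hC
  have hC0 : 0 ≤ C := le_trans (by positivity) (hsemi 0)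
  refine ⟨C, hC0, fun z => ?_⟩
  have h1 := hsemi z
  rw [norm_iteratedFDeriv_zero] at h1
  unfold wt3
  rw [Real.rpow_neg (by positivity), ← div_eq_mul_inv, le_div_iff₀ (by positivity)]
  rw [show (3 : ℝ) = ((3 : ℕ) : ℝ) by norm_num, Real.rpow_natCast]
  rw [mul_comm]; exact h1

omit [NormedSpace ℝ F] in
lemma decay_compact {f : ℂ → F} (hf : Continuous f) (hc : HasCompactSupport f) :
    ∃ K, 0 ≤ K ∧ ∀ z, ‖f z‖ ≤ K * wt3 z := by
  obtain ⟨C, hC⟩ := hc.exists_bound_of_continuous hf
  obtain ⟨R, hR⟩ := hc.isCompact.isBounded.subset_closedBall (0 : ℂ)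
  have hC0 : 0 ≤ C := (norm_nonneg _).trans (hC 0)
  refine ⟨C * (1 + |R|) ^ (3 : ℝ), by positivity, fun z => ?_⟩
  by_cases hz : ‖z‖ ≤ |R|
  · refine (hC z).trans ?_
    have h5 : 1 ≤ (1 + |R|) ^ (3 : ℝ) * wt3 z := by
      unfold wt3
      rw [Real.rpow_neg (by positivity), ← div_eq_mul_inv, one_le_div (by positivity)]
      exact Real.rpow_le_rpow (by positivity) (by linarith) (by norm_num)
    nlinarith
  · push Not at hz
    have : f z = 0 := by
      by_contra h0
      have := hR (subset_tsupport f h0)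
      rw [mem_closedBall_zero_iff] at this
      exact absurd (hz.trans_le this) (not_lt.mpr (le_abs_self R))
    rw [this, norm_zero]
    have := wt3_nonneg z
    positivity

lemma wt3_le_inv {z : ℂ} (hz : z ≠ 0) : wt3 z ≤ 1 / ‖z‖ ^ 3 := by
  have := norm_pos_iff.mpr hz
  unfold wt3
  rw [Real.rpow_neg (by positivity), ← one_div,
    show (3 : ℝ) = ((3 : ℕ) : ℝ) by norm_num, Real.rpow_natCast]
  gcongr
  linarith

end Schwartz

end Crest.Agent.R012.LatSum413
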