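import Crest.Agent.R012.Defs

/-!
# Row 12 (MK12): lattice sums over `Eis` by the midpoint rule

* `tsum_sub_integral_le` : 2-dimensional midpoint rule on `ℝ × ℝ`.
* `integral_frame` : `∫_{ℝ×ℝ} f(q (x + y ω) + b) = (2/√3) |q|⁻² ∫_ℂ f`.
* `latSum_second` : `‖∑' m : Eis, f (q m + b) - (2/√3)|q|⁻² ∫ f‖ ≤ C M (R + |q|)²`
  if second differences of `f` are `≤ M |h|²` and `f` is supported in `|z| ≤ R`.
* `second_diff_of_contDiff`, `lip_of_contDiff` : the hypotheses from `ContDiff` + compact support.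
* `latSum_lip` : Lipschitz version with error `C L (R + |q|)² / |q|`.
-/

set_option autoImplicit false

noncomputable section

open MeasureTheory Set

namespace Crest.Agent.R012.LatSum413

open Crest.Agent.R012 Crest.Agent.R012.Eis

section Real2

variable {F : Type*} [NormedAddCommGroup F] [NormedSpace ℝ F]

/-- The half-open unit square centred at the integer point `p`. -/
def sq (p : ℤ × ℤ) : Set (ℝ × ℝ) :=
  Ico (-(1 / 2 : ℝ) + p.1) (-(1 / 2 : ℝ) + p.1 + 1) ×ˢ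
    Ico (-(1 / 2 : ℝ) + p.2) (-(1 / 2 : ℝ) + p.2 + 1)

lemma measurableSet_sq (p : ℤ × ℤ) : MeasurableSet (sq p) :=
  measurableSet_Ico.prod measurableSet_Ico

lemma mem_sq {p : ℤ × ℤ} {z : ℝ × ℝ} :
    z ∈ sq p ↔ (-(1 / 2 : ℝ) + p.1 ≤ z.1 ∧ z.1 < -(1 / 2 : ℝ) + p.1 + 1) ∧
      (-(1 / 2 : ℝ) + p.2 ≤ z.2 ∧ z.2 < -(1 / 2 : ℝ) + p.2 + 1) := by
  simp [sq, Set.mem_prod]

lemma iUnion_sq : ⋃ p : ℤ × ℤ, sq p = Set.univ := by
  ext z
  simp only [mem_iUnion, mem_univ, iff_true]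
  have h1 : z.1 ∈ ⋃ n : ℤ, Ico (-(1 / 2 : ℝ) + n) (-(1 / 2 : ℝ) + n + 1) := by
    rw [iUnion_Ico_add_intCast]; trivial
  have h2 : z.2 ∈ ⋃ n : ℤ, Ico (-(1 / 2 : ℝ) + n) (-(1 / 2 : ℝ) + n + 1) := by
    rw [iUnion_Ico_add_intCast]; trivial
  obtain ⟨n1, h1⟩ := mem_iUnion.mp h1
  obtain ⟨n2, h2⟩ := mem_iUnion.mp h2
  exact ⟨(n1, n2), h1, h2⟩

lemma disjoint_sq : Pairwise (Function.onFun Disjoint sq) := by
  intro p q hpq
  rw [Function.onFun, Set.disjoint_left]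
  intro z hz hz'
  apply hpq
  have h1 : p.1 = q.1 := by
    by_contra h
    exact Set.disjoint_left.mp
      (pairwise_disjoint_Ico_add_intCast (-(1 / 2 : ℝ)) h) hz.1 hz'.1
  have h2 : p.2 = q.2 := by
    by_contra h
    exact Set.disjoint_left.mp
      (pairwise_disjoint_Ico_add_intCast (-(1 / 2 : ℝ)) h) hz.2 hz'.2
  exact Prod.ext h1 h2

/-- The integer point `p` as a real point. -/
def ptr (p : ℤ × ℤ) : ℝ × ℝ := ((p.1 : ℝ), (p.2 : ℝ))

lemma hasSum_sq {g : ℝ × ℝ → F} (hg : Integrable g) :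
    HasSum (fun p : ℤ × ℤ => ∫ z in sq p, g z) (∫ z, g z) := by
  have := hasSum_integral_iUnion (f := g) (μ := volume) (s := sq)
    (fun p => measurableSet_sq p) disjoint_sq (by rw [iUnion_sq]; exact hg.integrableOn)
  rwa [iUnion_sq, setIntegral_univ] at this

lemma setIntegral_sq (g : ℝ × ℝ → F) (p : ℤ × ℤ) :
    ∫ z in sq p, g z = ∫ z in sq 0, g (ptr p + z) := by
  rw [← integral_indicator (measurableSet_sq p), ← integral_indicator (measurableSet_sq 0),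
    ← integral_add_left_eq_self _ (ptr p)]
  apply integral_congr_ae
  refine Filter.Eventually.of_forall fun z => ?_
  have h : ptr p + z ∈ sq p ↔ z ∈ sq 0 := by
    rw [mem_sq, mem_sq]
    simp only [ptr, Prod.fst_add, Prod.snd_add, Prod.fst_zero, Prod.snd_zero, Int.cast_zero]
    constructor
    · rintro ⟨⟨h1, h2⟩, h3, h4⟩
      exact ⟨⟨by linarith, by linarith⟩, by linarith, by linarith⟩
    · rintro ⟨⟨h1, h2⟩, h3, h4⟩
      exact ⟨⟨by linarith, by linarith⟩, by linarith, by linarith⟩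
  by_cases hz : z ∈ sq 0
  · simp only [Set.indicator_of_mem hz, Set.indicator_of_mem (h.mpr hz)]
  · simp only [Set.indicator_of_notMem hz, Set.indicator_of_notMem (fun h' => hz (h.mp h'))]

lemma sq_zero_ae : (sq 0 : Set (ℝ × ℝ)) =ᵐ[volume]
    (Ioc (-(1 / 2 : ℝ)) (1 / 2) ×ˢ Ioc (-(1 / 2 : ℝ)) (1 / 2) : Set (ℝ × ℝ)) := by
  have h : (sq 0 : Set (ℝ × ℝ)) =
      (Ico (-(1 / 2 : ℝ)) (1 / 2) ×ˢ Ico (-(1 / 2 : ℝ)) (1 / 2) : Set (ℝ × ℝ)) := by
    simp only [sq, Prod.fst_zero, Prod.snd_zero, Int.cast_zero, add_zero]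
    norm_num
  rw [h]
  exact Measure.set_prod_ae_eq Ico_ae_eq_Ioc Ico_ae_eq_Ioc

lemma setIntegral_sq_neg (g : ℝ × ℝ → F) :
    ∫ z in sq 0, g z = ∫ z in sq 0, g (-z) := by
  conv_lhs => rw [setIntegral_congr_set sq_zero_ae]
  rw [← integral_indicator (measurableSet_Ioc.prod measurableSet_Ioc),
    ← integral_indicator (measurableSet_sq 0),
    ← integral_neg_eq_self]
  apply integral_congr_ae
  refine Filter.Eventually.of_forall fun z => ?_
  have h : -z ∈ (Ioc (-(1 / 2 : ℝ)) (1 / 2) ×ˢ Ioc (-(1 / 2 : ℝ)) (1 / 2) : Set (ℝ × ℝ))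
      ↔ z ∈ sq 0 := by
    rw [mem_sq]
    simp only [Set.mem_prod, Set.mem_Ioc, Prod.fst_neg, Prod.snd_neg, Prod.fst_zero,
      Prod.snd_zero, Int.cast_zero]
    constructor
    · rintro ⟨⟨h1, h2⟩, h3, h4⟩
      exact ⟨⟨by linarith, by linarith⟩, by linarith, by linarith⟩
    · rintro ⟨⟨h1, h2⟩, h3, h4⟩
      exact ⟨⟨by linarith, by linarith⟩, by linarith, by linarith⟩
  by_cases hz : z ∈ sq 0
  · simp only [Set.indicator_of_mem hz, Set.indicator_of_mem (h.mpr hz)]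
  · simp only [Set.indicator_of_notMem hz, Set.indicator_of_notMem (fun h' => hz (h.mp h'))]

lemma volume_sq_zero : (volume : Measure (ℝ × ℝ)).real (sq 0) = 1 := by
  rw [sq, Measure.volume_eq_prod, Measure.real, Measure.prod_prod, Real.volume_Ico,
    Real.volume_Ico]
  simp only [Prod.fst_zero, Prod.snd_zero, Int.cast_zero]
  norm_num

lemma volume_sq_zero_lt : volume (sq 0) < ⊤ := by
  rw [sq, Measure.volume_eq_prod, Measure.prod_prod, Real.volume_Ico, Real.volume_Ico]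
  simp only [Prod.fst_zero, Prod.snd_zero, Int.cast_zero]
  norm_num

lemma norm_le_of_mem_sq {z : ℝ × ℝ} (hz : z ∈ sq 0) : ‖z‖ ≤ 1 / 2 := by
  rw [mem_sq] at hz
  simp only [Prod.fst_zero, Prod.snd_zero, Int.cast_zero] at hz
  rw [Prod.norm_def, Real.norm_eq_abs, Real.norm_eq_abs]
  apply max_le
  · rw [abs_le]; constructor <;> linarith [hz.1.1, hz.1.2]
  · rw [abs_le]; constructor <;> linarith [hz.2.1, hz.2.2]

variable [CompleteSpace F]

/-- One cell, second order. -/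
lemma cell_second {g : ℝ × ℝ → F} (hg : Continuous g) {M : ℝ}
    (h2 : ∀ p h, ‖g (p + h) + g (p - h) - (2 : ℝ) • g p‖ ≤ M * ‖h‖ ^ 2) (hM : 0 ≤ M)
    (p : ℤ × ℤ) : ‖g (ptr p) - ∫ z in sq p, g z‖ ≤ M / 8 := by
  have hint : ∀ g' : ℝ × ℝ → F, Continuous g' → IntegrableOn g' (sq 0) := by
    intro g' hg'
    refine (hg'.continuousOn.integrableOn_compact
      (isCompact_Icc.prod isCompact_Icc) (K := (Icc (-(1 / 2 : ℝ)) (1 / 2) ×ˢ
        Icc (-(1 / 2 : ℝ)) (1 / 2)))).mono_set ?_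
    intro z hz
    rw [mem_sq] at hz
    simp only [Prod.fst_zero, Prod.snd_zero, Int.cast_zero] at hz
    exact ⟨⟨by linarith [hz.1.1], by linarith [hz.1.2]⟩, by linarith [hz.2.1],
      by linarith [hz.2.2]⟩
  have e1 : (2 : ℝ) • (g (ptr p) - ∫ z in sq p, g z) =
      -∫ z in sq 0, (g (ptr p + z) + g (ptr p - z) - (2 : ℝ) • g (ptr p)) := by
    have i1 := hint (fun z => g (ptr p + z)) (by fun_prop)
    have i2 := hint (fun z => g (ptr p - z)) (by fun_prop)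
    have i3 := hint (fun _ => (2 : ℝ) • g (ptr p)) (by fun_prop)
    have e0 := integral_sub (f := fun z => g (ptr p + z) + g (ptr p - z)) (i1.add i2) i3
    rw [e0, integral_add i1 i2, setIntegral_const,
      volume_sq_zero, one_smul]
    have e2 : ∫ z in sq 0, g (ptr p - z) = ∫ z in sq 0, g (ptr p + z) := by
      rw [setIntegral_sq_neg (fun z => g (ptr p + z))]
      simp [sub_eq_add_neg]
    rw [e2, setIntegral_sq, two_smul, two_smul]
    abel
  have e3 : ‖∫ z in sq 0, (g (ptr p + z) + g (ptr p - z) - (2 : ℝ) • g (ptr p))‖ ≤ M / 4 := by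
    have := norm_setIntegral_le_of_norm_le_const (μ := volume) (s := sq 0)
      (f := fun z => g (ptr p + z) + g (ptr p - z) - (2 : ℝ) • g (ptr p)) (C := M / 4)
      volume_sq_zero_lt (by
        intro z hz
        refine (h2 (ptr p) z).trans ?_
        have h3 := norm_le_of_mem_sq hz
        have h4 : ‖z‖ ^ 2 ≤ (1 / 2) ^ 2 := pow_le_pow_left₀ (norm_nonneg _) h3 2
        nlinarith)
    rwa [volume_sq_zero, mul_one] at this
  have e4 : ‖(2 : ℝ) • (g (ptr p) - ∫ z in sq p, g z)‖ ≤ M / 4 := by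
    rw [e1, norm_neg]; exact e3
  rw [norm_smul] at e4
  have : ‖(2 : ℝ)‖ = 2 := by simp
  rw [this] at e4
  linarith

/-- One cell, first order. -/
lemma cell_first {g : ℝ × ℝ → F} (hg : Continuous g) {L : ℝ}
    (h2 : ∀ p h, ‖g (p + h) - g p‖ ≤ L * ‖h‖) (hL : 0 ≤ L)
    (p : ℤ × ℤ) : ‖g (ptr p) - ∫ z in sq p, g z‖ ≤ L / 2 := by
  have hint : ∀ g' : ℝ × ℝ → F, Continuous g' → IntegrableOn g' (sq 0) := by
    intro g' hg'
    refine (hg'.continuousOn.integrableOn_compact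
      (isCompact_Icc.prod isCompact_Icc) (K := (Icc (-(1 / 2 : ℝ)) (1 / 2) ×ˢ
        Icc (-(1 / 2 : ℝ)) (1 / 2)))).mono_set ?_
    intro z hz
    rw [mem_sq] at hz
    simp only [Prod.fst_zero, Prod.snd_zero, Int.cast_zero] at hz
    exact ⟨⟨by linarith [hz.1.1], by linarith [hz.1.2]⟩, by linarith [hz.2.1],
      by linarith [hz.2.2]⟩
  have e1 : (g (ptr p) - ∫ z in sq p, g z) =
      -∫ z in sq 0, (g (ptr p + z) - g (ptr p)) := by
    have i1 := hint (fun z => g (ptr p + z)) (by fun_prop)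
    have i3 := hint (fun _ => g (ptr p)) (by fun_prop)
    rw [integral_sub i1 i3, setIntegral_const,
      volume_sq_zero, one_smul, setIntegral_sq]
    abel
  rw [e1, norm_neg]
  have := norm_setIntegral_le_of_norm_le_const (μ := volume) (s := sq 0)
      (f := fun z => g (ptr p + z) - g (ptr p)) (C := L / 2)
      volume_sq_zero_lt (by
        intro z hz
        refine (h2 (ptr p) z).trans ?_
        have h3 := norm_le_of_mem_sq hz
        nlinarith)
  rwa [volume_sq_zero, mul_one] at this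

/-- The finite box of integer points. -/
def box (a b R : ℝ) : Finset (ℤ × ℤ) :=
  Finset.Icc ⌈a - R - 1 / 2⌉ ⌊a + R + 1 / 2⌋ ×ˢ Finset.Icc ⌈b - R - 1 / 2⌉ ⌊b + R + 1 / 2⌋

lemma card_Icc_le (a R : ℝ) (hR : 0 ≤ R) :
    ((Finset.Icc ⌈a - R - 1 / 2⌉ ⌊a + R + 1 / 2⌋).card : ℝ) ≤ 2 * R + 2 := by
  rw [Int.card_Icc]
  have h1 := Int.le_ceil (a - R - 1 / 2)
  have h2 := Int.floor_le (a + R + 1 / 2)
  have h3 : ((⌊a + R + 1 / 2⌋ + 1 - ⌈a - R - 1 / 2⌉ : ℤ) : ℝ) ≤ 2 * R + 2 := by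
    push_cast; linarith
  rcases le_total 0 (⌊a + R + 1 / 2⌋ + 1 - ⌈a - R - 1 / 2⌉) with h | h
  · have h4 : (((⌊a + R + 1 / 2⌋ + 1 - ⌈a - R - 1 / 2⌉).toNat : ℤ) : ℝ) =
        ((⌊a + R + 1 / 2⌋ + 1 - ⌈a - R - 1 / 2⌉ : ℤ) : ℝ) := by
      rw [Int.toNat_of_nonneg h]
    rw [← h4] at h3
    exact_mod_cast h3
  · rw [Int.toNat_of_nonpos h]; simp; linarith

lemma card_box_le (a b R : ℝ) (hR : 0 ≤ R) : ((box a b R).card : ℝ) ≤ (2 * R + 2) ^ 2 := by
  rw [box, Finset.card_product, Nat.cast_mul, pow_two]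
  exact mul_le_mul (card_Icc_le a R hR) (card_Icc_le b R hR) (by positivity) (by linarith)

omit [CompleteSpace F] in
lemma eq_zero_of_notMem_box {g : ℝ × ℝ → F} {a b R : ℝ}
    (hs : ∀ z : ℝ × ℝ, R < |z.1 - a| ∨ R < |z.2 - b| → g z = 0) {p : ℤ × ℤ}
    (hp : p ∉ box a b R) : g (ptr p) = 0 ∧ ∫ z in sq p, g z = 0 := by
  have key : ∀ z ∈ sq p, g z = 0 := by
    intro z hz
    apply hs
    by_contra hc
    push Not at hc
    apply hp
    rw [mem_sq] at hz
    rw [abs_le, abs_le] at hc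
    rw [box, Finset.mem_product, Finset.mem_Icc, Finset.mem_Icc, Int.ceil_le, Int.le_floor,
      Int.ceil_le, Int.le_floor]
    refine ⟨⟨?_, ?_⟩, ?_, ?_⟩ <;> linarith [hz.1.1, hz.1.2, hz.2.1, hz.2.2, hc.1.1, hc.1.2,
      hc.2.1, hc.2.2]
  refine ⟨key _ ?_, ?_⟩
  · rw [mem_sq]; simp only [ptr]
    refine ⟨⟨?_, ?_⟩, ?_, ?_⟩ <;> linarith
  · exact setIntegral_eq_zero_of_forall_eq_zero key

omit [CompleteSpace F] in
/-- The abstract comparison. -/
lemma tsum_sub_integral_le {g : ℝ × ℝ → F} (hg : Continuous g) {a b R : ℝ} (hR : 0 ≤ R)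
    (hs : ∀ z : ℝ × ℝ, R < |z.1 - a| ∨ R < |z.2 - b| → g z = 0) {K : ℝ} (hK : 0 ≤ K)
    (hc : ∀ p : ℤ × ℤ, ‖g (ptr p) - ∫ z in sq p, g z‖ ≤ K) :
    Summable (fun p : ℤ × ℤ => g (ptr p)) ∧
    ‖∑' p : ℤ × ℤ, g (ptr p) - ∫ z, g z‖ ≤ (2 * R + 2) ^ 2 * K := by
  have hcomp : HasCompactSupport g := by
    apply HasCompactSupport.intro
      (K := (Icc (a - R) (a + R) ×ˢ Icc (b - R) (b + R) : Set (ℝ × ℝ)))
      (isCompact_Icc.prod isCompact_Icc)
    intro z hz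
    apply hs
    by_contra hc
    push Not at hc
    rw [abs_le, abs_le] at hc
    apply hz
    exact ⟨⟨by linarith [hc.1.1], by linarith [hc.1.2]⟩, by linarith [hc.2.1],
      by linarith [hc.2.2]⟩
  have hint : Integrable g := hg.integrable_of_hasCompactSupport hcomp
  have hsum := hasSum_sq hint
  have h1 : ∀ p ∉ box a b R, g (ptr p) = 0 := fun p hp => (eq_zero_of_notMem_box hs hp).1
  have h2 : ∀ p ∉ box a b R, ∫ z in sq p, g z = 0 := fun p hp => (eq_zero_of_notMem_box hs hp).2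
  refine ⟨summable_of_ne_finset_zero h1, ?_⟩
  rw [tsum_eq_sum h1, ← hsum.tsum_eq, tsum_eq_sum h2, ← Finset.sum_sub_distrib]
  refine (norm_sum_le _ _).trans ?_
  refine (Finset.sum_le_card_nsmul _ _ K (fun p _ => hc p)).trans ?_
  rw [nsmul_eq_mul]
  exact mul_le_mul_of_nonneg_right (card_box_le a b R hR) hK

/-- Second order midpoint rule in the plane. -/
lemma midpoint_second {g : ℝ × ℝ → F} (hg : Continuous g) {a b R : ℝ} (hR : 0 ≤ R)
    (hs : ∀ z : ℝ × ℝ, R < |z.1 - a| ∨ R < |z.2 - b| → g z = 0) {M : ℝ} (hM : 0 ≤ M)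
    (h2 : ∀ p h, ‖g (p + h) + g (p - h) - (2 : ℝ) • g p‖ ≤ M * ‖h‖ ^ 2) :
    Summable (fun p : ℤ × ℤ => g (ptr p)) ∧
    ‖∑' p : ℤ × ℤ, g (ptr p) - ∫ z, g z‖ ≤ (2 * R + 2) ^ 2 * (M / 8) :=
  tsum_sub_integral_le hg hR hs (by positivity) (fun p => cell_second hg h2 hM p)

/-- First order version. -/
lemma midpoint_first {g : ℝ × ℝ → F} (hg : Continuous g) {a b R : ℝ} (hR : 0 ≤ R)
    (hs : ∀ z : ℝ × ℝ, R < |z.1 - a| ∨ R < |z.2 - b| → g z = 0) {L : ℝ} (hL : 0 ≤ L)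
    (h2 : ∀ p h, ‖g (p + h) - g p‖ ≤ L * ‖h‖) :
    Summable (fun p : ℤ × ℤ => g (ptr p)) ∧
    ‖∑' p : ℤ × ℤ, g (ptr p) - ∫ z, g z‖ ≤ (2 * R + 2) ^ 2 * (L / 2) :=
  tsum_sub_integral_le hg hR hs (by positivity) (fun p => cell_first hg h2 hL p)

end Real2

section Frame

variable {F : Type*} [NormedAddCommGroup F] [NormedSpace ℝ F]

/-- The real-linear map `x + iy ↦ x u + y v`. -/
def frameMap (u v : ℂ) : ℂ →ₗ[ℝ] ℂ where
  toFun z := (z.re : ℝ) • u + (z.im : ℝ) • v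
  map_add' x y := by simp only [Complex.add_re, Complex.add_im, add_smul]; abel
  map_smul' c x := by
    simp only [Complex.smul_re, Complex.smul_im, smul_eq_mul, RingHom.id_apply, smul_add,
      smul_smul]

lemma det_frameMap (u v : ℂ) :
    LinearMap.det (frameMap u v) = ((starRingEnd ℂ) u * v).im := by
  rw [← LinearMap.det_toMatrix Complex.basisOneI, Matrix.det_fin_two]
  simp [LinearMap.toMatrix_apply, frameMap, Complex.coe_basisOneI_repr]
  ring

/-- Integration in the coordinates of a real frame `(u, v)` of `ℂ`. -/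
lemma integral_frameMap {u v : ℂ} (h : ((starRingEnd ℂ) u * v).im ≠ 0) (f : ℂ → F) :
    ∫ z : ℂ, f (frameMap u v z) = |((starRingEnd ℂ) u * v).im|⁻¹ • ∫ z, f z := by
  have hdet : LinearMap.det (frameMap u v) ≠ 0 := by rw [det_frameMap]; exact h
  have hmap := Measure.map_linearMap_addHaar_eq_smul_addHaar (volume : Measure ℂ) hdet
  let e : ℂ ≃ₗ[ℝ] ℂ := LinearEquiv.ofIsUnitDet (v := Complex.basisOneI)
    (v' := Complex.basisOneI) (f := frameMap u v) (by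
      rw [LinearMap.det_toMatrix]; exact hdet.isUnit)
  have hemb : MeasurableEmbedding (frameMap u v) := by
    have : MeasurableEmbedding (e.toContinuousLinearEquiv : ℂ → ℂ) :=
      e.toContinuousLinearEquiv.toHomeomorph.measurableEmbedding
    exact this
  rw [← hemb.integral_map, hmap, integral_smul_measure, det_frameMap,
    ENNReal.toReal_ofReal (abs_nonneg _), abs_inv]

lemma integral_frame {u v : ℂ} (h : ((starRingEnd ℂ) u * v).im ≠ 0) (b : ℂ) (f : ℂ → F) :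
    ∫ z : ℝ × ℝ, f (z.1 • u + z.2 • v + b) = |((starRingEnd ℂ) u * v).im|⁻¹ • ∫ z, f z := by
  have h1 := integral_frameMap h (fun z => f (z + b))
  rw [integral_add_right_eq_self f b] at h1
  rw [← h1, ← Complex.volume_preserving_equiv_real_prod.integral_comp
    Complex.measurableEquivRealProd.measurableEmbedding]
  rfl

lemma frame_q (q : ℂ) : ((starRingEnd ℂ) q * (q * wC)).im = ‖q‖ ^ 2 * (Real.sqrt 3 / 2) := by
  rw [← mul_assoc, mul_comm ((starRingEnd ℂ) q) q, Complex.mul_conj, Complex.normSq_eq_norm_sq,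
    Complex.im_ofReal_mul]
  rfl

lemma frame_q_ne {q : ℂ} (hq : q ≠ 0) : ((starRingEnd ℂ) q * (q * wC)).im ≠ 0 := by
  rw [frame_q]
  have := norm_pos_iff.mpr hq
  positivity

/-- `Eis ≃ ℤ × ℤ`. -/
def eisEquiv : Eis ≃ ℤ × ℤ where
  toFun z := (z.re, z.im)
  invFun p := ⟨p.1, p.2⟩
  left_inv _ := rfl
  right_inv _ := rfl

lemma toC_eisEquiv_symm (p : ℤ × ℤ) : toC (eisEquiv.symm p) = (p.1 : ℂ) + (p.2 : ℂ) * wC := rfl

lemma norm_wC : ‖wC‖ = 1 := by
  have h := congrArg (fun z : ℂ => ‖z‖) wC_cube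
  simp only [norm_pow, norm_one] at h
  exact (pow_eq_one_iff_of_nonneg (norm_nonneg _) (by norm_num)).mp h

/-- The coordinates of a point in the frame `(1, ω)` are controlled by its absolute value. -/
lemma coord_bound (x y : ℝ) : 3 * x ^ 2 ≤ 4 * ‖(x : ℂ) + (y : ℂ) * wC‖ ^ 2 ∧
    3 * y ^ 2 ≤ 4 * ‖(x : ℂ) + (y : ℂ) * wC‖ ^ 2 := by
  have h3 : Real.sqrt 3 * Real.sqrt 3 = 3 := Real.mul_self_sqrt (by norm_num)
  have e : ‖(x : ℂ) + (y : ℂ) * wC‖ ^ 2 = x ^ 2 - x * y + y ^ 2 := by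
    rw [← Complex.normSq_eq_norm_sq, Complex.normSq_apply]
    simp [wC]
    nlinarith
  rw [e]
  constructor
  · nlinarith [sq_nonneg (x - 2 * y)]
  · nlinarith [sq_nonneg (y - 2 * x)]

/-- The pull-back of `f` to the `(x, y)`-plane. -/
def pull (q b : ℂ) (f : ℂ → F) (z : ℝ × ℝ) : F := f (z.1 • q + z.2 • (q * wC) + b)

omit [NormedAddCommGroup F] [NormedSpace ℝ F] in
lemma pull_ptr (q b : ℂ) (f : ℂ → F) (p : ℤ × ℤ) :
    pull q b f (ptr p) = f (q * toC (eisEquiv.symm p) + b) := by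
  rw [pull, ptr, toC_eisEquiv_symm]
  congr 2
  simp only [Complex.real_smul]
  push_cast
  ring

omit [NormedSpace ℝ F] in
lemma continuous_pull (q b : ℂ) {f : ℂ → F} (hf : Continuous f) : Continuous (pull q b f) := by
  unfold pull
  fun_prop

lemma integral_pull {q : ℂ} (hq : q ≠ 0) (b : ℂ) (f : ℂ → F) :
    ∫ z, pull q b f z = (2 / Real.sqrt 3 / ‖q‖ ^ 2) • ∫ z, f z := by
  unfold pull
  rw [integral_frame (frame_q_ne hq), frame_q]
  congr 1
  have := norm_pos_iff.mpr hq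
  rw [abs_of_pos (by positivity)]
  have h3 : Real.sqrt 3 ≠ 0 := by positivity
  field_simp

/-- Coordinates `(s, t)` of the point `-b/q` in the frame `(1, ω)`. -/
lemma exists_coord {q : ℂ} (hq : q ≠ 0) (b : ℂ) :
    ∃ s t : ℝ, s • q + t • (q * wC) + b = 0 := by
  obtain ⟨τ, rfl⟩ : ∃ τ, b = q * τ := ⟨b / q, by field_simp⟩
  refine ⟨-(τ.re + τ.im / Real.sqrt 3), -(2 * τ.im / Real.sqrt 3), ?_⟩
  have h3 : Real.sqrt 3 ≠ 0 := by positivity
  have e : τ = ((τ.re + τ.im / Real.sqrt 3 : ℝ) : ℂ) +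
      ((2 * τ.im / Real.sqrt 3 : ℝ) : ℂ) * wC := by
    apply Complex.ext
    · simp [wC]; field_simp; ring
    · simp [wC]; field_simp
  simp only [Complex.real_smul]
  push_cast at e ⊢
  linear_combination q * e

omit [NormedSpace ℝ F] in
lemma pull_support {q : ℂ} (hq : q ≠ 0) {b : ℂ} {f : ℂ → F} {R : ℝ}
    (hs : ∀ z, R < ‖z‖ → f z = 0) {s t : ℝ} (hst : s • q + t • (q * wC) + b = 0) (z : ℝ × ℝ)
    (hz : 2 * R / ‖q‖ < |z.1 - s| ∨ 2 * R / ‖q‖ < |z.2 - t|) : pull q b f z = 0 := by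
  apply hs
  have hqn := norm_pos_iff.mpr hq
  have e : z.1 • q + z.2 • (q * wC) + b = q * (((z.1 - s : ℝ) : ℂ) + ((z.2 - t : ℝ) : ℂ) * wC) := by
    have : z.1 • q + z.2 • (q * wC) + b =
        (z.1 • q + z.2 • (q * wC) + b) - (s • q + t • (q * wC) + b) := by rw [hst, sub_zero]
    rw [this]
    simp only [Complex.real_smul]
    push_cast
    ring
  rw [e, norm_mul]
  obtain ⟨h1, h2⟩ := coord_bound (z.1 - s) (z.2 - t)
  set N := ‖((z.1 - s : ℝ) : ℂ) + ((z.2 - t : ℝ) : ℂ) * wC‖ with hN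
  have hN0 : 0 ≤ N := norm_nonneg _
  have key : ∀ u : ℝ, 2 * R / ‖q‖ < |u| → 3 * u ^ 2 ≤ 4 * N ^ 2 → R < ‖q‖ * N := by
    intro u hu h3
    rw [div_lt_iff₀ hqn] at hu
    have h4 : |u| ≤ 2 * N := by
      apply abs_le_of_sq_le_sq _ (by positivity)
      nlinarith
    nlinarith
  rcases hz with hz | hz
  · exact key _ hz h1
  · exact key _ hz h2

lemma second_diff_of_lip {f : ℂ → F} (hf : Differentiable ℝ f) {M : ℝ}
    (hL : ∀ x y, ‖fderiv ℝ f x - fderiv ℝ f y‖ ≤ M * ‖x - y‖) (z h : ℂ) :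
    ‖f (z + h) + f (z - h) - (2 : ℝ) • f z‖ ≤ M * ‖h‖ ^ 2 := by
  have key : ‖(fun x => f (x + h) - f x) z - (fun x => f (x + h) - f x) (z - h)‖ ≤
      (M * ‖h‖) * ‖z - (z - h)‖ := by
    refine Convex.norm_image_sub_le_of_norm_hasFDerivWithin_le (s := Set.univ) (𝕜 := ℝ)
      (f := fun x => f (x + h) - f x) (x := z - h) (y := z) (C := M * ‖h‖)
      (f' := fun x => fderiv ℝ f (x + h) - fderiv ℝ f x) ?_ ?_ ?_ ?_ ?_
    · intro x _
      have h1 : HasFDerivAt (fun x => f (x + h)) (fderiv ℝ f (x + h)) x := by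
        exact (hasFDerivAt_comp_add_right h).mpr (hf (x + h)).hasFDerivAt
      exact (h1.sub (hf x).hasFDerivAt).hasFDerivWithinAt
    · intro x _
      have := hL (x + h) x
      simpa using this
    · exact convex_univ
    · trivial
    · trivial
  have e : f (z + h) + f (z - h) - (2 : ℝ) • f z =
      (fun x => f (x + h) - f x) z - (fun x => f (x + h) - f x) (z - h) := by
    simp only [sub_add_cancel, two_smul]
    abel
  rw [e]
  refine key.trans (le_of_eq ?_)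
  rw [sub_sub_cancel]; ring

lemma second_diff_of_contDiff {f : ℂ → F} (hf : ContDiff ℝ 2 f) (hc : HasCompactSupport f) :
    ∃ M, 0 ≤ M ∧ ∀ z h, ‖f (z + h) + f (z - h) - (2 : ℝ) • f z‖ ≤ M * ‖h‖ ^ 2 := by
  have h1 : ContDiff ℝ 1 (fderiv ℝ f) := hf.fderiv_right (by norm_num)
  obtain ⟨C, hC⟩ := h1.lipschitzWith_of_hasCompactSupport (hc.fderiv ℝ) (by norm_num)
  refine ⟨C, C.2, second_diff_of_lip (hf.differentiable (by norm_num)) ?_⟩
  intro x y
  have := hC.dist_le_mul x y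
  rwa [dist_eq_norm, dist_eq_norm] at this

lemma lip_of_contDiff {f : ℂ → F} (hf : ContDiff ℝ 1 f) (hc : HasCompactSupport f) :
    ∃ L, 0 ≤ L ∧ ∀ z h, ‖f (z + h) - f z‖ ≤ L * ‖h‖ := by
  obtain ⟨C, hC⟩ := hf.lipschitzWith_of_hasCompactSupport hc (by norm_num)
  refine ⟨C, C.2, fun z h => ?_⟩
  have := hC.dist_le_mul (z + h) z
  rwa [dist_eq_norm, dist_eq_norm, add_sub_cancel_left] at this

variable [CompleteSpace F]

/-- **Midpoint rule over `Eis`** (second order). -/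
theorem latSum_second {f : ℂ → F} (hf : Continuous f) {R M : ℝ} (hR : 0 ≤ R) (hM : 0 ≤ M)
    (hs : ∀ z, R < ‖z‖ → f z = 0)
    (h2 : ∀ z h, ‖f (z + h) + f (z - h) - (2 : ℝ) • f z‖ ≤ M * ‖h‖ ^ 2)
    {q : ℂ} (hq : q ≠ 0) (b : ℂ) :
    Summable (fun m : Eis => f (q * toC m + b)) ∧
    ‖∑' m : Eis, f (q * toC m + b) - (2 / Real.sqrt 3 / ‖q‖ ^ 2) • ∫ z, f z‖ ≤
      8 * M * (R + ‖q‖) ^ 2 := by
  have hqn := norm_pos_iff.mpr hq
  obtain ⟨s, t, hst⟩ := exists_coord hq b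
  have hsup := pull_support (f := f) hq hs hst
  have h2' : ∀ p h, ‖pull q b f (p + h) + pull q b f (p - h) - (2 : ℝ) • pull q b f p‖ ≤
      (4 * M * ‖q‖ ^ 2) * ‖h‖ ^ 2 := by
    intro p h
    have h3 := h2 (p.1 • q + p.2 • (q * wC) + b) (h.1 • q + h.2 • (q * wC))
    have e1 : pull q b f (p + h) =
        f (p.1 • q + p.2 • (q * wC) + b + (h.1 • q + h.2 • (q * wC))) := by
      rw [pull]; congr 1; simp only [Prod.fst_add, Prod.snd_add, add_smul]; abel
    have e2 : pull q b f (p - h) =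
        f (p.1 • q + p.2 • (q * wC) + b - (h.1 • q + h.2 • (q * wC))) := by
      rw [pull]; congr 1; simp only [Prod.fst_sub, Prod.snd_sub, sub_smul]; abel
    rw [e1, e2, pull]
    refine h3.trans ?_
    have h4 : ‖h.1 • q + h.2 • (q * wC)‖ ≤ 2 * ‖q‖ * ‖h‖ := by
      refine (norm_add_le _ _).trans ?_
      rw [norm_smul, norm_smul, norm_mul, norm_wC, mul_one]
      have h5 := norm_fst_le h
      have h6 := norm_snd_le h
      nlinarith
    have h7 : ‖h.1 • q + h.2 • (q * wC)‖ ^ 2 ≤ (2 * ‖q‖ * ‖h‖) ^ 2 :=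
      pow_le_pow_left₀ (norm_nonneg _) h4 2
    nlinarith
  have hmid := midpoint_second (g := pull q b f) (continuous_pull q b hf) (a := s) (b := t)
    (R := 2 * R / ‖q‖) (by positivity) hsup (M := 4 * M * ‖q‖ ^ 2) (by positivity) h2'
  have e3 : (fun p : ℤ × ℤ => pull q b f (ptr p)) =
      (fun m : Eis => f (q * toC m + b)) ∘ eisEquiv.symm := by
    funext p; rw [pull_ptr]; rfl
  rw [e3] at hmid
  refine ⟨(Equiv.summable_iff _).mp hmid.1, ?_⟩
  have e4 : ∑' p : ℤ × ℤ, ((fun m : Eis => f (q * toC m + b)) ∘ eisEquiv.symm) p =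
      ∑' m : Eis, f (q * toC m + b) :=
    Equiv.tsum_eq eisEquiv.symm (fun m : Eis => f (q * toC m + b))
  have h8 := hmid.2
  rw [show tsum ((fun m : Eis => f (q * toC m + b)) ∘ eisEquiv.symm) =
    ∑' m : Eis, f (q * toC m + b) from e4, integral_pull hq] at h8
  refine h8.trans (le_of_eq_of_le (?_ : _ = 8 * M * (R + ‖q‖ / 2) ^ 2) ?_)
  · field_simp; ring
  · gcongr; linarith

/-- **Lipschitz version.** -/
theorem latSum_lip {f : ℂ → F} (hf : Continuous f) {R L : ℝ} (hR : 0 ≤ R) (hL : 0 ≤ L)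
    (hs : ∀ z, R < ‖z‖ → f z = 0)
    (h2 : ∀ z h, ‖f (z + h) - f z‖ ≤ L * ‖h‖)
    {q : ℂ} (hq : q ≠ 0) (b : ℂ) :
    Summable (fun m : Eis => f (q * toC m + b)) ∧
    ‖∑' m : Eis, f (q * toC m + b) - (2 / Real.sqrt 3 / ‖q‖ ^ 2) • ∫ z, f z‖ ≤
      16 * L * (R + ‖q‖) ^ 2 / ‖q‖ := by
  have hqn := norm_pos_iff.mpr hq
  obtain ⟨s, t, hst⟩ := exists_coord hq b
  have hsup := pull_support (f := f) hq hs hst
  have h2' : ∀ p h, ‖pull q b f (p + h) - pull q b f p‖ ≤ (2 * L * ‖q‖) * ‖h‖ := by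
    intro p h
    have h3 := h2 (p.1 • q + p.2 • (q * wC) + b) (h.1 • q + h.2 • (q * wC))
    have e1 : pull q b f (p + h) =
        f (p.1 • q + p.2 • (q * wC) + b + (h.1 • q + h.2 • (q * wC))) := by
      rw [pull]; congr 1; simp only [Prod.fst_add, Prod.snd_add, add_smul]; abel
    rw [e1, pull]
    refine h3.trans ?_
    have h4 : ‖h.1 • q + h.2 • (q * wC)‖ ≤ 2 * ‖q‖ * ‖h‖ := by
      refine (norm_add_le _ _).trans ?_
      rw [norm_smul, norm_smul, norm_mul, norm_wC, mul_one]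
      have h5 := norm_fst_le h
      have h6 := norm_snd_le h
      nlinarith
    nlinarith
  have hmid := midpoint_first (g := pull q b f) (continuous_pull q b hf) (a := s) (b := t)
    (R := 2 * R / ‖q‖) (by positivity) hsup (L := 2 * L * ‖q‖) (by positivity) h2'
  have e3 : (fun p : ℤ × ℤ => pull q b f (ptr p)) =
      (fun m : Eis => f (q * toC m + b)) ∘ eisEquiv.symm := by
    funext p; rw [pull_ptr]; rfl
  rw [e3] at hmid
  refine ⟨(Equiv.summable_iff _).mp hmid.1, ?_⟩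
  have e4 : ∑' p : ℤ × ℤ, ((fun m : Eis => f (q * toC m + b)) ∘ eisEquiv.symm) p =
      ∑' m : Eis, f (q * toC m + b) :=
    Equiv.tsum_eq eisEquiv.symm (fun m : Eis => f (q * toC m + b))
  have h8 := hmid.2
  rw [show tsum ((fun m : Eis => f (q * toC m + b)) ∘ eisEquiv.symm) =
    ∑' m : Eis, f (q * toC m + b) from e4, integral_pull hq] at h8
  refine h8.trans (le_of_eq_of_le (?_ : _ = 16 * L * (R + ‖q‖ / 2) ^ 2 / ‖q‖) ?_)
  · field_simp; ring
  · gcongr; linarith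

end Frame

end Crest.Agent.R012.LatSum413
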