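import Crest.Agent.R012.Base_666

/-!
# Row 12 (helper277): sums over the Eisenstein integers versus integrals over `ℂ`

* `par` : the fundamental parallelogram `{s + tω : s,t ∈ [0,1)}`, `norm_lt_of_mem_par : ‖p‖ < √3`…
* `hasSum_integral` : `∫_ℂ F = Σ_{x ∈ Eis} ∫_{par} F(x+p)` (exact unfolding)
* `sum_vs_integral` : Riemann-sum comparison, with an integrable majorant of the oscillation.
* `card_disk` : number of lattice points in ANY disk: `(2π/√3) R² + O(R+1)`.
-/

set_option autoImplicit false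
open MeasureTheory Module

noncomputable section

namespace Crest.Agent.R012.Lat277

open Crest.Agent.R012 Crest.Agent.R012.Eis

lemma sqrt3_pos : (0 : ℝ) < Real.sqrt 3 := Real.sqrt_pos.mpr (by norm_num)

/-- the real basis `1, ω` of `ℂ`. -/
def bas : Basis (Fin 2) ℝ ℂ :=
  Basis.ofEquivFun
    { toFun := fun z => ![z.re + z.im / Real.sqrt 3, 2 * z.im / Real.sqrt 3]
      invFun := fun v => (v 0 : ℂ) + (v 1 : ℂ) * wC
      map_add' := by
        intro x y
        ext i
        fin_cases i <;> simp <;> ring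
      map_smul' := by
        intro c x
        ext i
        fin_cases i <;> simp <;> ring
      left_inv := by
        intro z
        have h3 : Real.sqrt 3 ≠ 0 := sqrt3_pos.ne'
        apply Complex.ext
        · simp [wC]
          field_simp
          ring
        · simp [wC]
          field_simp
      right_inv := by
        intro v
        have h3 : Real.sqrt 3 ≠ 0 := sqrt3_pos.ne'
        ext i
        fin_cases i
        · simp [wC]
          field_simp
          ring
        · simp [wC]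
          field_simp }

lemma bas_repr0 (z : ℂ) : bas.repr z 0 = z.re + z.im / Real.sqrt 3 := by
  simp [bas]

lemma bas_repr1 (z : ℂ) : bas.repr z 1 = 2 * z.im / Real.sqrt 3 := by
  simp [bas]

lemma bas0 : bas 0 = 1 := by
  simp [bas]

lemma bas1 : bas 1 = wC := by
  simp [bas]

/-- the lattice as the ℤ-span of the basis. -/
abbrev Lat : Submodule ℤ ℂ := Submodule.span ℤ (Set.range bas)

lemma toC_mem_Lat (x : Eis) : toC x ∈ Lat := by
  have h0 : (1 : ℂ) ∈ Lat := by
    rw [← bas0]; exact Submodule.subset_span ⟨0, rfl⟩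
  have h1 : wC ∈ Lat := by
    rw [← bas1]; exact Submodule.subset_span ⟨1, rfl⟩
  have : toC x = x.re • (1 : ℂ) + x.im • wC := by simp [toC_apply]
  rw [this]
  exact Submodule.add_mem _ (Submodule.smul_mem _ _ h0) (Submodule.smul_mem _ _ h1)

lemma exists_toC_of_mem {z : ℂ} (hz : z ∈ Lat) : ∃ x : Eis, toC x = z := by
  refine Submodule.span_induction (p := fun z _ => ∃ x : Eis, toC x = z) ?_ ?_ ?_ ?_ hz
  · rintro _ ⟨i, rfl⟩
    fin_cases i
    · exact ⟨1, by simp [bas0]⟩
    · exact ⟨w, by simp [bas1]⟩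
  · exact ⟨0, map_zero _⟩
  · rintro _ _ _ _ ⟨x, rfl⟩ ⟨y, rfl⟩
    exact ⟨x + y, map_add _ _ _⟩
  · rintro n _ _ ⟨x, rfl⟩
    exact ⟨n • x, by simp⟩

/-- `Eis ≃` lattice. -/
def eqv : Eis ≃ Lat :=
  Equiv.ofBijective (fun x => ⟨toC x, toC_mem_Lat x⟩)
    ⟨fun x y h => toC_injective (by simpa using congrArg Subtype.val h),
     fun z => by
      obtain ⟨x, hx⟩ := exists_toC_of_mem z.2
      exact ⟨x, Subtype.ext hx⟩⟩

@[simp] lemma eqv_coe (x : Eis) : ((eqv x : Lat) : ℂ) = toC x := rfl

/-- fundamental parallelogram. -/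
abbrev par : Set ℂ := ZSpan.fundamentalDomain bas

lemma mem_par (z : ℂ) : z ∈ par ↔
    (z.re + z.im / Real.sqrt 3) ∈ Set.Ico (0 : ℝ) 1 ∧
      (2 * z.im / Real.sqrt 3) ∈ Set.Ico (0 : ℝ) 1 := by
  rw [ZSpan.mem_fundamentalDomain]
  simp only [Fin.forall_fin_two, bas_repr0, bas_repr1]

lemma norm_wC : ‖wC‖ = 1 := by
  have h := norm_toC_sq w
  rw [toC_w, nm_w] at h
  have h1 : ‖wC‖ ^ 2 = 1 := by simpa using h
  nlinarith [norm_nonneg wC]

lemma norm_le_of_mem_par {z : ℂ} (hz : z ∈ par) : ‖z‖ ≤ 2 := by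
  have h := ZSpan.norm_fract_le (K := ℝ) bas z
  rw [ZSpan.fract_eq_self.mpr hz] at h
  refine h.trans ?_
  rw [Fin.sum_univ_two, bas0, bas1, norm_wC]
  norm_num

lemma volReal_basisOneI :
    volume.real (ZSpan.fundamentalDomain Complex.basisOneI) = 1 := by
  have h := ZSpan.fundamentalDomain_ae_parallelepiped Complex.basisOneI (volume : Measure ℂ)
  have h2 := Complex.orthonormalBasisOneI.volume_parallelepiped
  rw [Measure.real, measure_congr h]
  have h3 : parallelepiped (⇑Complex.basisOneI) = parallelepiped (⇑Complex.orthonormalBasisOneI) := by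
    rw [← Complex.toBasis_orthonormalBasisOneI]
    simp
  rw [h3, h2]
  simp

lemma volReal_par : volume.real par = Real.sqrt 3 / 2 := by
  have h := ZSpan.measureReal_fundamentalDomain bas volume Complex.basisOneI
  rw [volReal_basisOneI, mul_one, Module.Basis.det_apply, Matrix.det_fin_two] at h
  simp only [Module.Basis.toMatrix_apply, Complex.coe_basisOneI_repr, bas0, bas1] at h
  rw [h]
  simp only [Complex.one_re, Complex.one_im, Matrix.cons_val_zero, Matrix.cons_val_one, wC,
    one_mul, mul_zero, sub_zero]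
  exact abs_of_nonneg (by positivity)

lemma par_finite : volume par ≠ ⊤ := by
  intro h
  have := volReal_par
  rw [Measure.real, h] at this
  have h3 : (0 : ℝ) < Real.sqrt 3 := Real.sqrt_pos.mpr (by norm_num)
  simp at this
  linarith

lemma par_meas : MeasurableSet par := ZSpan.fundamentalDomain_measurableSet bas

section Sum
variable {V : Type*} [NormedAddCommGroup V] [NormedSpace ℝ V]

/-- translates of the parallelogram -/
def tr (x : Eis) : Set ℂ := (fun z => z - toC x) ⁻¹' par

lemma tr_meas (x : Eis) : MeasurableSet (tr x) :=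
  par_meas.preimage (measurable_id.sub_const _)

/-- every `z ∈ ℂ` lies in exactly one translate. -/
lemma exists_tr (z : ℂ) : ∃! x : Eis, z ∈ tr x := by
  obtain ⟨y, hy, hyu⟩ := ZSpan.exist_unique_vadd_mem_fundamentalDomain bas z
  refine ⟨eqv.symm (-y), ?_, ?_⟩
  · show z - toC (eqv.symm (-y)) ∈ par
    have : toC (eqv.symm (-y)) = -(y : ℂ) := by
      rw [← eqv_coe, Equiv.apply_symm_apply]; simp
    rw [this, sub_neg_eq_add, add_comm]
    simpa [Submodule.vadd_def] using hy
  · intro x hx
    have := hyu (-(eqv x)) (by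
      show ((-(eqv x) : Lat) : ℂ) +ᵥ z ∈ par
      have hx' : z - toC x ∈ par := hx
      simpa [sub_eq_neg_add] using hx')
    rw [← this]
    simp

lemma tr_disjoint : Pairwise (Function.onFun Disjoint tr) := by
  intro x y hxy
  rw [Function.onFun, Set.disjoint_left]
  intro z hx hy
  exact hxy ((exists_tr z).unique hx hy)

lemma iUnion_tr : ⋃ x, tr x = Set.univ := by
  ext z
  simp only [Set.mem_iUnion, Set.mem_univ, iff_true]
  exact (exists_tr z).exists

instance : Countable Eis := eqv.countable_iff.mpr inferInstance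

lemma integral_tr (F : ℂ → V) (x : Eis) : ∫ z in tr x, F z = ∫ p in par, F (toC x + p) := by
  have h : MeasurePreserving (fun z : ℂ => z - toC x) volume volume :=
    measurePreserving_sub_right volume (toC x)
  have he : MeasurableEmbedding (fun z : ℂ => z - toC x) := measurableEmbedding_subRight (toC x)
  have := h.setIntegral_preimage_emb he (fun p => F (toC x + p)) par
  rw [← this]
  simp [tr]

omit [NormedSpace ℝ V] in
lemma integrableOn_tr (F : ℂ → V) (hF : Integrable F) (x : Eis) :
    IntegrableOn (fun p => F (toC x + p)) par :=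
  (hF.comp_add_left (toC x)).integrableOn

/-- Exact unfolding of an integral over `ℂ`. -/
lemma hasSum_integral (F : ℂ → V) (hF : Integrable F) :
    HasSum (fun x : Eis => ∫ p in par, F (toC x + p)) (∫ z, F z) := by
  have h := hasSum_integral_iUnion (μ := volume) (f := F) (s := tr) tr_meas tr_disjoint
    (by rw [iUnion_tr]; exact hF.integrableOn)
  rw [iUnion_tr] at h
  simpa only [integral_tr, Measure.restrict_univ] using h

/-- Exact unfolding for a lower Lebesgue integral over `ℂ`. -/
lemma lintegral_eq_tsum (F : ℂ → ENNReal) :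
    ∫⁻ z, F z = ∑' x : Eis, ∫⁻ p in par, F (toC x + p) := by
  have h := lintegral_iUnion (μ := volume) tr_meas tr_disjoint F
  rw [iUnion_tr, Measure.restrict_univ] at h
  rw [h]
  refine tsum_congr (fun x => ?_)
  have hm : MeasurePreserving (fun z : ℂ => z - toC x) volume volume :=
    measurePreserving_sub_right volume (toC x)
  have he : MeasurableEmbedding (fun z : ℂ => z - toC x) := measurableEmbedding_subRight (toC x)
  have := hm.setLIntegral_comp_preimage_emb he (fun p => F (toC x + p)) par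
  rw [← this]
  simp [tr]

/-- Riemann sums over the Eisenstein lattice: if the oscillation of `F` on the parallelogram based
at each lattice point is controlled by an integrable `W`, then the sum over the lattice is the
integral divided by the covolume `√3/2` up to the integral of `W`. -/
theorem sum_vs_integral [CompleteSpace V] (F : ℂ → V) (W : ℂ → ℝ) (hF : Integrable F)
    (hW : Integrable W)
    (hosc : ∀ x : Eis, ∀ p ∈ par, ‖F (toC x) - F (toC x + p)‖ ≤ W (toC x + p)) :
    Summable (fun x : Eis => F (toC x)) ∧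
      ‖∑' x : Eis, F (toC x) - (2 / Real.sqrt 3) • ∫ z, F z‖ ≤
        (2 / Real.sqrt 3) * ∫ z, W z := by
  have h3 : (0 : ℝ) < Real.sqrt 3 := sqrt3_pos
  have hSF := hasSum_integral F hF
  have hSW := hasSum_integral W hW
  have key : ∀ x : Eis, ‖(Real.sqrt 3 / 2) • F (toC x) - ∫ p in par, F (toC x + p)‖ ≤
      ∫ p in par, W (toC x + p) := by
    intro x
    have h1 : (Real.sqrt 3 / 2) • F (toC x) = ∫ p in par, F (toC x) := by
      rw [setIntegral_const, volReal_par]
    have hc : IntegrableOn (fun _ : ℂ => F (toC x)) par := integrableOn_const par_finite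
    rw [h1, ← integral_sub hc (integrableOn_tr F hF x)]
    refine (norm_integral_le_integral_norm _).trans ?_
    refine setIntegral_mono_on ?_ (integrableOn_tr W hW x) par_meas (fun p hp => hosc x p hp)
    exact (hc.sub (integrableOn_tr F hF x)).norm
  have hsub : Summable (fun x : Eis => (Real.sqrt 3 / 2) • F (toC x) -
      ∫ p in par, F (toC x + p)) := Summable.of_norm_bounded hSW.summable key
  have hsum0 : Summable (fun x : Eis => (Real.sqrt 3 / 2) • F (toC x)) := by
    have := hsub.add hSF.summable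
    simpa using this
  have hone : (2 / Real.sqrt 3) * (Real.sqrt 3 / 2) = 1 := by field_simp
  have hsum : Summable (fun x : Eis => F (toC x)) := by
    have := hsum0.const_smul (2 / Real.sqrt 3)
    refine this.congr (fun x => ?_)
    rw [smul_smul, hone, one_smul]
  refine ⟨hsum, ?_⟩
  have e1 : ∑' x : Eis, F (toC x) - (2 / Real.sqrt 3) • ∫ z, F z =
      (2 / Real.sqrt 3) • ∑' x : Eis, ((Real.sqrt 3 / 2) • F (toC x) -
        ∫ p in par, F (toC x + p)) := by
    rw [hsum0.tsum_sub hSF.summable, hSF.tsum_eq, smul_sub, tsum_const_smul'' , smul_smul,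
      hone, one_smul]
  rw [e1, norm_smul, Real.norm_of_nonneg (by positivity)]
  refine mul_le_mul_of_nonneg_left ?_ (by positivity)
  calc ‖∑' x : Eis, ((Real.sqrt 3 / 2) • F (toC x) - ∫ p in par, F (toC x + p))‖
      ≤ ∑' x : Eis, ∫ p in par, W (toC x + p) :=
        tsum_of_norm_bounded hSW.summable.hasSum key
    _ = ∫ z, W z := hSW.tsum_eq

end Sum

/-! ### Lattice points in disks -/

/-- The lattice points in a closed disk form a finite set. -/
lemma finite_disk (z0 : ℂ) (R : ℝ) : {x : Eis | ‖toC x - z0‖ ≤ R}.Finite := by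
  have h := ZSpan.setFinite_inter bas (Metric.isBounded_closedBall (x := z0) (r := R))
  refine Set.Finite.of_finite_image (f := toC) (h.subset ?_) (toC_injective.injOn)
  rintro _ ⟨x, hx, rfl⟩
  refine ⟨?_, toC_mem_Lat x⟩
  rw [Metric.mem_closedBall, dist_eq_norm]
  exact hx

/-- The lattice points in the closed disk of centre `z0` and radius `R`. -/
def disk (z0 : ℂ) (R : ℝ) : Finset Eis := (finite_disk z0 R).toFinset

@[simp] lemma mem_disk {z0 : ℂ} {R : ℝ} {x : Eis} : x ∈ disk z0 R ↔ ‖toC x - z0‖ ≤ R := by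
  simp [disk]

lemma volReal_ball (z0 : ℂ) {R : ℝ} (hR : 0 ≤ R) :
    volume.real (Metric.closedBall z0 R) = Real.pi * R ^ 2 := by
  rw [Measure.real, Complex.volume_closedBall]
  simp [hR, mul_comm]

/-- number of lattice points in the closed disk of centre `z0` and radius `R`. -/
theorem card_disk (z0 : ℂ) {R : ℝ} (hR : 0 ≤ R) :
    |((disk z0 R).card : ℝ) - 2 * Real.pi / Real.sqrt 3 * R ^ 2| ≤ 30 * (R + 1) := by
  classical
  have h3 : (0 : ℝ) < Real.sqrt 3 := sqrt3_pos
  set B : Set ℂ := Metric.closedBall z0 R with hB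
  set B2 : Set ℂ := Metric.closedBall z0 (R + 2) with hB2
  set B1 : Set ℂ := Metric.ball z0 (R - 2) with hB1
  set A : Set ℂ := B2 \ B1 with hA
  have hBm : MeasurableSet B := Metric.isClosed_closedBall.measurableSet
  have hAm : MeasurableSet A :=
    Metric.isClosed_closedBall.measurableSet.diff Metric.isOpen_ball.measurableSet
  have hBf : volume B ≠ ⊤ := (Metric.isBounded_closedBall.measure_lt_top).ne
  have hB2f : volume B2 ≠ ⊤ := (Metric.isBounded_closedBall.measure_lt_top).ne
  have hAf : volume A ≠ ⊤ := ne_top_of_le_ne_top hB2f (measure_mono Set.sdiff_subset)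
  set F : ℂ → ℝ := B.indicator (fun _ => (1 : ℝ)) with hF
  set W : ℂ → ℝ := A.indicator (fun _ => (1 : ℝ)) with hW
  have hFi : Integrable F := (integrableOn_const hBf).integrable_indicator hBm
  have hWi : Integrable W := (integrableOn_const hAf).integrable_indicator hAm
  have hIF : ∫ z, F z = Real.pi * R ^ 2 := by
    rw [hF, integral_indicator hBm, setIntegral_const, smul_eq_mul, mul_one, hB, volReal_ball z0 hR]
  have hIW : ∫ z, W z ≤ 8 * Real.pi * (R + 1) := by
    rw [hW, integral_indicator hAm, setIntegral_const, smul_eq_mul, mul_one]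
    have hpi := Real.pi_pos
    have hle : volume.real A ≤ Real.pi * (R + 2) ^ 2 := by
      rw [← volReal_ball z0 (by linarith : (0:ℝ) ≤ R + 2)]
      exact measureReal_mono Set.sdiff_subset hB2f
    rcases le_or_gt R 2 with h2 | h2
    · refine hle.trans ?_
      have : (R + 2) ^ 2 ≤ 8 * (R + 1) := by nlinarith
      nlinarith
    · have hsub : B1 ⊆ B2 := Metric.ball_subset_closedBall.trans
        (Metric.closedBall_subset_closedBall (by linarith))
      have e : volume.real A = volume.real B2 - volume.real B1 :=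
        measureReal_sdiff hsub Metric.isOpen_ball.measurableSet hB2f
      have e1 : volume.real B1 = Real.pi * (R - 2) ^ 2 := by
        rw [hB1, Measure.real, Complex.volume_ball]
        simp [(by linarith : (0:ℝ) ≤ R - 2), mul_comm]
      rw [e, e1, hB2, volReal_ball z0 (by linarith : (0:ℝ) ≤ R + 2)]
      nlinarith
  have hosc : ∀ x : Eis, ∀ p ∈ par, ‖F (toC x) - F (toC x + p)‖ ≤ W (toC x + p) := by
    intro x p hp
    have hp2 := norm_le_of_mem_par hp
    have t1 : ‖toC x + p - z0‖ ≤ ‖toC x - z0‖ + ‖p‖ := by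
      rw [show toC x + p - z0 = (toC x - z0) + p by ring]; exact norm_add_le _ _
    have t2 : ‖toC x - z0‖ ≤ ‖toC x + p - z0‖ + ‖p‖ := by
      rw [show toC x - z0 = (toC x + p - z0) - p by ring]; exact norm_sub_le _ _
    by_cases h1 : toC x ∈ B <;> by_cases h2 : toC x + p ∈ B
    · rw [hF, Set.indicator_of_mem h1, Set.indicator_of_mem h2]
      simp only [sub_self, norm_zero]
      exact Set.indicator_nonneg (fun _ _ => zero_le_one) _
    · have hmem : toC x + p ∈ A := by
        rw [hB, Metric.mem_closedBall, dist_eq_norm] at h1 h2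
        refine ⟨?_, ?_⟩
        · rw [hB2, Metric.mem_closedBall, dist_eq_norm]; linarith
        · rw [hB1, Metric.mem_ball, dist_eq_norm]; push Not at h2 ⊢; linarith
      rw [hF, Set.indicator_of_mem h1, Set.indicator_of_notMem h2, hW, Set.indicator_of_mem hmem]
      simp
    · have hmem : toC x + p ∈ A := by
        rw [hB, Metric.mem_closedBall, dist_eq_norm] at h1 h2
        refine ⟨?_, ?_⟩
        · rw [hB2, Metric.mem_closedBall, dist_eq_norm]; linarith
        · rw [hB1, Metric.mem_ball, dist_eq_norm]; push Not at h1 ⊢; linarith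
      rw [hF, Set.indicator_of_notMem h1, Set.indicator_of_mem h2, hW, Set.indicator_of_mem hmem]
      simp
    · rw [hF, Set.indicator_of_notMem h1, Set.indicator_of_notMem h2]
      simp only [sub_self, norm_zero]
      exact Set.indicator_nonneg (fun _ _ => zero_le_one) _
  obtain ⟨hs, hb⟩ := sum_vs_integral F W hFi hWi hosc
  have hsum : ∑' x : Eis, F (toC x) = ((disk z0 R).card : ℝ) := by
    rw [tsum_eq_sum (s := disk z0 R)]
    · rw [Finset.card_eq_sum_ones, Nat.cast_sum]
      refine Finset.sum_congr rfl (fun x hx => ?_)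
      rw [hF, Set.indicator_of_mem]
      · simp
      · rw [hB, Metric.mem_closedBall, dist_eq_norm]; simpa using hx
    · intro x hx
      rw [hF, Set.indicator_of_notMem]
      rw [hB, Metric.mem_closedBall, dist_eq_norm]; simpa using hx
  rw [hsum, hIF, Real.norm_eq_abs, smul_eq_mul] at hb
  have e2 : 2 / Real.sqrt 3 * (Real.pi * R ^ 2) = 2 * Real.pi / Real.sqrt 3 * R ^ 2 := by ring
  rw [e2] at hb
  refine hb.trans ?_
  have hs3 : (1.732 : ℝ) ≤ Real.sqrt 3 := by
    rw [show (1.732 : ℝ) = Real.sqrt (1.732 ^ 2) by rw [Real.sqrt_sq (by norm_num)]]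
    exact Real.sqrt_le_sqrt (by norm_num)
  have hpi : Real.pi ≤ 3.15 := Real.pi_lt_d2.le
  calc 2 / Real.sqrt 3 * ∫ z, W z ≤ 2 / 1.732 * (8 * 3.15 * (R + 1)) := by
        have h0 : 0 ≤ ∫ z, W z := integral_nonneg (fun z =>
          Set.indicator_nonneg (fun _ _ => zero_le_one) _)
        have h5 : ∫ z, W z ≤ 8 * 3.15 * (R + 1) := hIW.trans (by nlinarith)
        have h6 : 2 / Real.sqrt 3 ≤ 2 / 1.732 := by gcongr
        exact mul_le_mul h6 h5 h0 (by norm_num)
    _ ≤ 30 * (R + 1) := by nlinarith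

/-! ### Residue classes -/

open Classical in
/-- lattice points of a disk in the residue class `a` modulo `q`. -/
def diskC (z0 : ℂ) (R : ℝ) (q a : Eis) : Finset Eis := (disk z0 R).filter (fun x => q ∣ x - a)

lemma mem_diskC {z0 : ℂ} {R : ℝ} {q a x : Eis} :
    x ∈ diskC z0 R q a ↔ ‖toC x - z0‖ ≤ R ∧ q ∣ x - a := by
  simp [diskC]

lemma aff_inj {q : Eis} (hq : q ≠ 0) (a : Eis) : Function.Injective (fun y : Eis => a + q * y) := by
  intro y y' h
  have h' : a + q * y = a + q * y' := h
  exact mul_left_cancel₀ hq (add_left_cancel h')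

lemma diskC_eq_image (z0 : ℂ) (R : ℝ) {q : Eis} (hq : q ≠ 0) (a : Eis) :
    diskC z0 R q a =
      (disk ((z0 - toC a) / toC q) (R / ‖toC q‖)).map
        ⟨fun y => a + q * y, aff_inj hq a⟩ := by
  have hq' : toC q ≠ 0 := by simpa using hq
  have hqn : 0 < ‖toC q‖ := norm_pos_iff.mpr hq'
  ext x
  simp only [mem_diskC, Finset.mem_map, Function.Embedding.coeFn_mk, mem_disk]
  have key : ∀ y : Eis, ‖toC y - (z0 - toC a) / toC q‖ ≤ R / ‖toC q‖ ↔
      ‖toC (a + q * y) - z0‖ ≤ R := by
    intro y
    rw [le_div_iff₀ hqn, ← norm_mul]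
    have : (toC y - (z0 - toC a) / toC q) * toC q = toC (a + q * y) - z0 := by
      rw [map_add, map_mul]; field_simp; ring
    rw [this]
  constructor
  · rintro ⟨h1, y, hy⟩
    refine ⟨y, ?_, by rw [← hy]; ring⟩
    rw [key, ← hy]
    simpa using h1
  · rintro ⟨y, hy, rfl⟩
    exact ⟨(key y).mp hy, ⟨y, by ring⟩⟩

/-- number of points of a residue class in a disk. -/
theorem card_diskC (z0 : ℂ) {R : ℝ} (hR : 0 ≤ R) {q : Eis} (hq : q ≠ 0) (a : Eis) :
    |((diskC z0 R q a).card : ℝ) - 2 * Real.pi / Real.sqrt 3 * (R ^ 2 / nm q)| ≤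
      30 * (R / Real.sqrt (nm q) + 1) := by
  rw [diskC_eq_image z0 R hq a, Finset.card_map]
  have hqn : 0 < ‖toC q‖ := norm_pos_iff.mpr (by simpa using hq)
  have h := card_disk ((z0 - toC a) / toC q) (R := R / ‖toC q‖) (by positivity)
  rw [div_pow, norm_toC_sq, norm_toC] at h
  rw [norm_toC]
  exact h

/-- crude upper bound, uniform in the class and the centre. -/
theorem card_diskC_le (z0 : ℂ) {R : ℝ} (hR : 0 ≤ R) {q : Eis} (hq : q ≠ 0) (a : Eis) :
    ((diskC z0 R q a).card : ℝ) ≤ 50 * (R ^ 2 / nm q + 1) := by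
  have h := (abs_le.mp (card_diskC z0 hR hq a)).2
  have hnq : (0 : ℝ) < nm q := by exact_mod_cast nm_pos.mpr hq
  set ρ : ℝ := R / Real.sqrt (nm q) with hρ
  have hρ2 : ρ ^ 2 = R ^ 2 / nm q := by
    rw [hρ, div_pow, Real.sq_sqrt hnq.le]
  rw [← hρ2] at h ⊢
  have hs3 : (1.732 : ℝ) ≤ Real.sqrt 3 := by
    rw [show (1.732 : ℝ) = Real.sqrt (1.732 ^ 2) by rw [Real.sqrt_sq (by norm_num)]]
    exact Real.sqrt_le_sqrt (by norm_num)
  have hpi : Real.pi ≤ 3.15 := Real.pi_lt_d2.le
  have hc : 2 * Real.pi / Real.sqrt 3 ≤ 4 := by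
    rw [div_le_iff₀ sqrt3_pos]; nlinarith
  have : 2 * Real.pi / Real.sqrt 3 * ρ ^ 2 ≤ 4 * ρ ^ 2 :=
    mul_le_mul_of_nonneg_right hc (sq_nonneg _)
  nlinarith [sq_nonneg (ρ - 1)]

theorem card_disk_le (z0 : ℂ) {R : ℝ} (hR : 0 ≤ R) :
    ((disk z0 R).card : ℝ) ≤ 50 * (R ^ 2 + 1) := by
  have h := card_diskC_le z0 hR (one_ne_zero (α := Eis)) 0
  have e : diskC z0 R 1 0 = disk z0 R := by
    ext x; simp [mem_diskC]
  rw [e] at h
  simpa using h

/-! ### In terms of the norm -/

open Classical in
/-- elements of norm at most `X` in the class `a` modulo `q`. -/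
def ballC (X : ℕ) (q a : Eis) : Finset Eis := (ball X).filter (fun x => q ∣ x - a)

lemma mem_ballC {X : ℕ} {q a x : Eis} : x ∈ ballC X q a ↔ nm x ≤ X ∧ q ∣ x - a := by
  simp [ballC, mem_ball]

lemma norm_toC_le_sqrt_iff {x : Eis} {X : ℝ} (hX : 0 ≤ X) :
    ‖toC x‖ ≤ Real.sqrt X ↔ (nm x : ℝ) ≤ X := by
  rw [norm_toC]
  exact Real.sqrt_le_sqrt_iff hX

lemma ballC_eq (X : ℕ) (q a : Eis) : ballC X q a = diskC 0 (Real.sqrt X) q a := by
  ext x
  rw [mem_ballC, mem_diskC, sub_zero, norm_toC_le_sqrt_iff (Nat.cast_nonneg X)]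
  simp

lemma ball_eq_disk (X : ℕ) : ball X = disk 0 (Real.sqrt X) := by
  ext x
  rw [mem_ball, mem_disk, sub_zero, norm_toC_le_sqrt_iff (Nat.cast_nonneg X)]
  simp

theorem card_ballC (X : ℕ) {q : Eis} (hq : q ≠ 0) (a : Eis) :
    |((ballC X q a).card : ℝ) - 2 * Real.pi / Real.sqrt 3 * (X / nm q)| ≤
      30 * (Real.sqrt X / Real.sqrt (nm q) + 1) := by
  have h := card_diskC 0 (Real.sqrt_nonneg X) hq a
  rwa [Real.sq_sqrt (Nat.cast_nonneg X), ← ballC_eq] at h

theorem card_ballC_le (X : ℕ) {q : Eis} (hq : q ≠ 0) (a : Eis) :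
    ((ballC X q a).card : ℝ) ≤ 50 * ((X : ℝ) / nm q + 1) := by
  have h := card_diskC_le 0 (Real.sqrt_nonneg X) hq a
  rwa [Real.sq_sqrt (Nat.cast_nonneg X), ← ballC_eq] at h

theorem card_ball (X : ℕ) :
    |((ball X).card : ℝ) - 2 * Real.pi / Real.sqrt 3 * X| ≤ 30 * (Real.sqrt X + 1) := by
  have h := card_disk 0 (Real.sqrt_nonneg X)
  rwa [Real.sq_sqrt (Nat.cast_nonneg X), ← ball_eq_disk] at h

lemma primBall_eq (X : ℕ) : primBall X = ballC X 3 1 := by
  ext x
  rw [mem_primBall, mem_ballC]; rfl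

/-- primary elements: density `2π/(9√3)`. -/
theorem card_primBall (X : ℕ) :
    |((primBall X).card : ℝ) - 2 * Real.pi / (9 * Real.sqrt 3) * X| ≤
      30 * (Real.sqrt X + 1) := by
  have h := card_ballC X (q := 3) three_ne_zero' 1
  rw [← primBall_eq, nm_three] at h
  have h9 : Real.sqrt X / Real.sqrt ((9 : ℕ) : ℝ) ≤ Real.sqrt X := by
    apply div_le_self (Real.sqrt_nonneg _)
    rw [show (1 : ℝ) = Real.sqrt 1 by simp]
    exact Real.sqrt_le_sqrt (by norm_num)
  have e : 2 * Real.pi / Real.sqrt 3 * ((X : ℝ) / ((9 : ℕ) : ℝ)) =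
      2 * Real.pi / (9 * Real.sqrt 3) * X := by
    push_cast; ring
  rw [e] at h
  exact h.trans (by linarith)

lemma zero_mem_ball (X : ℕ) : (0 : Eis) ∈ ball X := by simp [mem_ball]

lemma isPrim_zero_false : ¬ IsPrim 0 := by
  rw [isPrim_iff]; simp

/-- nonzero elements of norm at most `X`: at most `100 X`. -/
theorem card_ball_erase_le (X : ℕ) : (((ball X).erase 0).card : ℝ) ≤ 100 * X := by
  rcases Nat.eq_zero_or_pos X with rfl | hX
  · have : (ball 0).erase 0 = ∅ := by
      ext x
      simp [mem_ball, nm_eq_zero]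
    simp [this]
  · have h := card_disk_le 0 (Real.sqrt_nonneg X)
    rw [Real.sq_sqrt (Nat.cast_nonneg X), ← ball_eq_disk] at h
    have h1 : (((ball X).erase 0).card : ℝ) ≤ (ball X).card := by
      exact_mod_cast Finset.card_le_card (Finset.erase_subset _ _)
    have h2 : (1 : ℝ) ≤ X := by exact_mod_cast hX
    linarith

lemma primBall_subset (X : ℕ) : primBall X ⊆ (ball X).erase 0 := by
  intro x hx
  rw [mem_primBall] at hx
  rw [Finset.mem_erase, mem_ball]
  exact ⟨fun h => isPrim_zero_false (h ▸ hx.2), hx.1⟩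

theorem card_primBall_le (X : ℕ) : ((primBall X).card : ℝ) ≤ 100 * X :=
  le_trans (by exact_mod_cast Finset.card_le_card (primBall_subset X)) (card_ball_erase_le X)

end Crest.Agent.R012.Lat277
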