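import Crest.Agent.R012.Trace_384
import Crest.Agent.R012.Frame_695

/-!
# Local finiteness of row sums (row 12, (M), helper499)

* `rows_bound` : for `M` in the compact `Kset N = {‖M‖ ≤ N, 1/N ≤ |det M|}`, `|q| ≤ 2`, only rows with
  `nm c, nm d ≤ X(N, ρ)` satisfy `‖nq q (c η + d ζ)‖ ≤ ρ`;
* `exists_finset` : the same for any injectively indexed family of rows;
* `continuousOn_sum`, `measurable_sum`, `aemeasurable_sum`, `bounded_sum`: the function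
  `M ↦ Σ_i a_i F(c_i η + d_i ζ)`;
* `volume_det_eq_zero`.
-/

set_option autoImplicit false

noncomputable section

open MeasureTheory Complex Set Filter Topology
open scoped ENNReal

namespace Crest.Agent.R012.LocFin499

open Crest.Agent.R012 Crest.Agent.R012.K695 Crest.Agent.R012.Trace384

lemma rowc_eq_rowv (r : Eis × Eis) (M : K695.Frm) : rowc (toC r.1, toC r.2) M = rowv r M := by
  unfold rowc rowv
  apply Prod.ext <;> simp

lemma det2_nqF (q : ℂ) (M : K695.Frm) : det2 (nqF q M) = det2 M := by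
  simp only [det2, nqF, nq]; ring

lemma norm_fst_mul_det_le (x : ℂ × ℂ) (M : K695.Frm) :
    ‖x.1‖ * ‖det2 M‖ ≤ 2 * ‖M‖ * ‖rowc x M‖ := by
  have h : x.1 * det2 M = (rowc x M).1 * M.2.2 - (rowc x M).2 * M.2.1 := by
    simp only [det2, rowc]; ring
  rw [← norm_mul, h]
  refine (norm_sub_le _ _).trans ?_
  rw [norm_mul, norm_mul]
  have h0 : ‖M.2‖ ≤ ‖M‖ := norm_snd_le M
  have h1 : ‖M.2.2‖ ≤ ‖M‖ := (norm_snd_le M.2).trans h0
  have h2 : ‖M.2.1‖ ≤ ‖M‖ := (norm_fst_le M.2).trans h0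
  have h3 := norm_fst_le (rowc x M)
  have h4 := norm_snd_le (rowc x M)
  have h5 := norm_nonneg (rowc x M)
  have e1 : ‖(rowc x M).1‖ * ‖M.2.2‖ ≤ ‖rowc x M‖ * ‖M‖ := mul_le_mul h3 h1 (norm_nonneg _) h5
  have e2 : ‖(rowc x M).2‖ * ‖M.2.1‖ ≤ ‖rowc x M‖ * ‖M‖ := mul_le_mul h4 h2 (norm_nonneg _) h5
  linarith

lemma norm_snd_mul_det_le (x : ℂ × ℂ) (M : K695.Frm) :
    ‖x.2‖ * ‖det2 M‖ ≤ 2 * ‖M‖ * ‖rowc x M‖ := by
  have h : x.2 * det2 M = M.1.1 * (rowc x M).2 - M.1.2 * (rowc x M).1 := by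
    simp only [det2, rowc]; ring
  rw [← norm_mul, h]
  refine (norm_sub_le _ _).trans ?_
  rw [norm_mul, norm_mul]
  have h0 : ‖M.1‖ ≤ ‖M‖ := norm_fst_le M
  have h1 : ‖M.1.2‖ ≤ ‖M‖ := (norm_snd_le M.1).trans h0
  have h2 : ‖M.1.1‖ ≤ ‖M‖ := (norm_fst_le M.1).trans h0
  have h3 := norm_fst_le (rowc x M)
  have h4 := norm_snd_le (rowc x M)
  have h5 := norm_nonneg M
  have e1 : ‖M.1.1‖ * ‖(rowc x M).2‖ ≤ ‖M‖ * ‖rowc x M‖ := mul_le_mul h2 h4 (norm_nonneg _) h5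
  have e2 : ‖M.1.2‖ * ‖(rowc x M).1‖ ≤ ‖M‖ * ‖rowc x M‖ := mul_le_mul h1 h3 (norm_nonneg _) h5
  linarith

lemma norm_nq_le (q : ℂ) (u : ℂ × ℂ) : ‖nq q u‖ ≤ (1 + ‖q‖) * ‖u‖ := by
  have h1 := norm_fst_le u
  have h2 := norm_snd_le u
  have h3 := norm_nonneg u
  have h4 := norm_nonneg q
  unfold nq
  rw [Prod.norm_def]
  refine max_le ?_ ?_
  · refine (norm_add_le _ _).trans ?_
    rw [norm_mul]
    have : ‖q‖ * ‖u.2‖ ≤ ‖q‖ * ‖u‖ := mul_le_mul_of_nonneg_left h2 h4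
    linarith
  · simp only
    nlinarith

lemma norm_le_nq (q : ℂ) (u : ℂ × ℂ) : ‖u‖ ≤ (1 + ‖q‖) * ‖nq q u‖ := by
  have h : u = nq (-q) (nq q u) := by rw [nq_nq]; simp
  conv_lhs => rw [h]
  have := norm_nq_le (-q) (nq q u)
  rwa [norm_neg] at this

/-- an exhaustion of `{det ≠ 0}` by compact sets. -/
def Kset (N : ℝ) : Set K695.Frm := {M | ‖M‖ ≤ N ∧ 1 / N ≤ ‖det2 M‖}

lemma continuous_det2 : Continuous det2 := by
  unfold det2; fun_prop

lemma isClosed_Kset (N : ℝ) : IsClosed (Kset N) := by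
  unfold Kset
  exact (isClosed_le continuous_norm continuous_const).inter
    (isClosed_le continuous_const continuous_det2.norm)

lemma measurableSet_Kset (N : ℝ) : MeasurableSet (Kset N) := (isClosed_Kset N).measurableSet

lemma isCompact_Kset (N : ℝ) : IsCompact (Kset N) := by
  refine (isCompact_closedBall (0 : K695.Frm) N).of_isClosed_subset (isClosed_Kset N) ?_
  intro M hM
  rw [mem_closedBall_zero_iff]
  exact hM.1

lemma det_ne_zero_of_mem {N : ℝ} (hN : 0 < N) {M : K695.Frm} (hM : M ∈ Kset N) : det2 M ≠ 0 := by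
  intro h
  have := hM.2
  rw [h, norm_zero] at this
  have : 0 < 1 / N := by positivity
  linarith

lemma exists_mem_Kset {M : K695.Frm} (hM : det2 M ≠ 0) : ∃ n : ℕ, M ∈ Kset (n + 1 : ℝ) := by
  have h0 : 0 < ‖det2 M‖ := norm_pos_iff.mpr hM
  obtain ⟨n, hn⟩ := exists_nat_ge (max ‖M‖ (1 / ‖det2 M‖))
  refine ⟨n, ?_, ?_⟩
  · have := le_max_left ‖M‖ (1 / ‖det2 M‖)
    linarith
  · have h1 := le_max_right ‖M‖ (1 / ‖det2 M‖)
    have h2 : 1 / ‖det2 M‖ ≤ n + 1 := by linarith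
    rw [div_le_iff₀ h0] at h2
    rw [div_le_iff₀ (by positivity)]
    linarith

lemma Kset_mono {N N' : ℝ} (hN : 0 < N) (h : N ≤ N') : Kset N ⊆ Kset N' := by
  intro M hM
  refine ⟨hM.1.trans h, le_trans ?_ hM.2⟩
  exact one_div_le_one_div_of_le hN h

/-- for every frame with nonzero determinant some `Kset` is a neighbourhood. -/
lemma exists_Kset_nhds {M : K695.Frm} (hM : det2 M ≠ 0) : ∃ N : ℝ, 0 < N ∧ Kset N ∈ 𝓝 M := by
  have h0 : 0 < ‖det2 M‖ := norm_pos_iff.mpr hM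
  set N : ℝ := ‖M‖ + 1 + 2 / ‖det2 M‖ with hN
  have hNpos : 0 < N := by positivity
  refine ⟨N, hNpos, ?_⟩
  have e1 : ∀ᶠ M' in 𝓝 M, ‖M'‖ < N := by
    refine continuous_norm.continuousAt.eventually (Iio_mem_nhds ?_)
    have : 0 < 2 / ‖det2 M‖ := by positivity
    linarith
  have e2 : ∀ᶠ M' in 𝓝 M, 1 / N < ‖det2 M'‖ := by
    refine continuous_det2.norm.continuousAt.eventually (Ioi_mem_nhds ?_)
    have h1 : 2 / ‖det2 M‖ ≤ N := by
      have := norm_nonneg M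
      linarith
    rw [div_le_iff₀ h0] at h1
    show 1 / N < ‖det2 M‖
    rw [div_lt_iff₀ hNpos]
    linarith
  filter_upwards [e1, e2] with M' h1 h2
  exact ⟨h1.le, h2.le⟩

/-- **local finiteness**, quantitative. -/
theorem rows_bound {N ρ : ℝ} (hN : 0 < N) (hρ : 0 ≤ ρ) {M : K695.Frm} (hM : M ∈ Kset N) {q : ℂ}
    (hq : ‖q‖ ≤ 2) {r : Eis × Eis} (h : ‖nq q (rowv r M)‖ ≤ ρ) :
    Eis.nm r.1 ≤ ⌈(6 * ρ * N ^ 2) ^ 2⌉₊ ∧ Eis.nm r.2 ≤ ⌈(6 * ρ * N ^ 2) ^ 2⌉₊ := by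
  have h1 : ‖rowv r M‖ ≤ 3 * ρ := by
    refine (norm_le_nq q _).trans ?_
    have := norm_nonneg q
    nlinarith
  have key : ∀ x : ℝ, 0 ≤ x → x * ‖det2 M‖ ≤ 2 * ‖M‖ * ‖rowv r M‖ → x ≤ 6 * ρ * N ^ 2 := by
    intro x hx hle
    have h2 : x * (1 / N) ≤ x * ‖det2 M‖ := mul_le_mul_of_nonneg_left hM.2 hx
    have h3 : 2 * ‖M‖ * ‖rowv r M‖ ≤ 2 * N * (3 * ρ) := by
      have h4 := norm_nonneg M
      have h5 := hM.1
      have h6 := norm_nonneg (rowv r M)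
      exact mul_le_mul (by linarith) h1 h6 (by linarith)
    have h7 : x * (1 / N) ≤ 6 * N * ρ := by linarith
    rw [mul_one_div, div_le_iff₀ hN] at h7
    calc x ≤ 6 * N * ρ * N := h7
      _ = _ := by ring
  have hr : rowv r M = rowc (toC r.1, toC r.2) M := (rowc_eq_rowv r M).symm
  have c1 := key ‖toC r.1‖ (norm_nonneg _) (by
    rw [hr]; exact norm_fst_mul_det_le (toC r.1, toC r.2) M)
  have c2 := key ‖toC r.2‖ (norm_nonneg _) (by
    rw [hr]; exact norm_snd_mul_det_le (toC r.1, toC r.2) M)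
  have fin : ∀ z : Eis, ‖toC z‖ ≤ 6 * ρ * N ^ 2 → Eis.nm z ≤ ⌈(6 * ρ * N ^ 2) ^ 2⌉₊ := by
    intro z hz
    have h8 : ((Eis.nm z : ℕ) : ℝ) ≤ (6 * ρ * N ^ 2) ^ 2 := by
      rw [← norm_toC_sq]
      exact pow_le_pow_left₀ (norm_nonneg _) hz 2
    exact_mod_cast h8.trans (Nat.le_ceil _)
  exact ⟨fin _ c1, fin _ c2⟩

/-- the finite set of indices. -/
theorem exists_finset {ι : Type*} {e : ι → Eis × Eis} (he : Function.Injective e) {N : ℝ}
    (hN : 0 < N) {ρ : ℝ} (hρ : 0 ≤ ρ) :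
    ∃ S : Finset ι, ∀ M ∈ Kset N, ∀ q : ℂ, ‖q‖ ≤ 2 → ∀ i ∉ S, ρ < ‖nq q (rowv (e i) M)‖ := by
  classical
  set X := ⌈(6 * ρ * N ^ 2) ^ 2⌉₊
  refine ⟨(ball X ×ˢ ball X).preimage e he.injOn, fun M hM q hq i hi => ?_⟩
  by_contra hc
  rw [not_lt] at hc
  apply hi
  rw [Finset.mem_preimage, Finset.mem_product]
  have := rows_bound hN hρ hM hq hc
  exact ⟨mem_ball.mpr this.1, mem_ball.mpr this.2⟩

/-- the hypothesis of `Trace384.trace_ineq`. -/
theorem exists_finset_trace {ι : Type*} {e : ι → Eis × Eis} (he : Function.Injective e) {N : ℝ}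
    (hN : 0 < N) {ρ : ℝ} (hρ : 0 ≤ ρ) {F F1 F2 F12 : ℂ × ℂ → ℂ}
    (h0 : ∀ u, ρ < ‖u‖ → F u = 0) (h1 : ∀ u, ρ < ‖u‖ → F1 u = 0)
    (h2 : ∀ u, ρ < ‖u‖ → F2 u = 0) (h12 : ∀ u, ρ < ‖u‖ → F12 u = 0) :
    ∃ S : Finset ι, ∀ M ∈ Kset N, ∀ i ∉ S, ∀ q : ℂ, q.re ∈ Icc (0:ℝ) 1 → q.im ∈ Icc (0:ℝ) 1 →
      F (nq q (rowc (toC (e i).1, toC (e i).2) M)) = 0 ∧
      F1 (nq q (rowc (toC (e i).1, toC (e i).2) M)) = 0 ∧
      F2 (nq q (rowc (toC (e i).1, toC (e i).2) M)) = 0 ∧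
      F12 (nq q (rowc (toC (e i).1, toC (e i).2) M)) = 0 := by
  obtain ⟨S, hS⟩ := exists_finset he hN hρ
  refine ⟨S, fun M hM i hi q hre him => ?_⟩
  have hq : ‖q‖ ≤ 2 := by
    refine (Complex.norm_le_abs_re_add_abs_im q).trans ?_
    rw [abs_of_nonneg hre.1, abs_of_nonneg him.1]
    linarith [hre.2, him.2]
  have := hS M hM q hq i hi
  rw [rowc_eq_rowv]
  exact ⟨h0 _ this, h1 _ this, h2 _ this, h12 _ this⟩

/-! ### the sum as a function of the frame -/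

section sums

variable {ι : Type*} {e : ι → Eis × Eis}

/-- `M ↦ Σ_i a_i F(c_i η + d_i ζ)`. -/
def rs (a : ι → ℂ) (e : ι → Eis × Eis) (F : ℂ × ℂ → ℂ) (M : K695.Frm) : ℂ :=
  ∑' i, a i * F (rowv (e i) M)

lemma rs_eq_rsum (a : ι → ℂ) (e : ι → Eis × Eis) (F : ℂ × ℂ → ℂ) (M : K695.Frm) :
    rs a e F M = rsum a (fun i => (toC (e i).1, toC (e i).2)) F M := by
  unfold rs rsum
  simp only [rowc_eq_rowv]

/-- On `Kset N` the sum is a fixed finite sum (also after translation by `n(q)`, `|q| ≤ 2`). -/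
theorem rs_eq_sum (he : Function.Injective e) {N : ℝ} (hN : 0 < N) {ρ : ℝ} (hρ : 0 ≤ ρ) :
    ∃ S : Finset ι, ∀ (a : ι → ℂ) (F : ℂ × ℂ → ℂ), (∀ u, ρ < ‖u‖ → F u = 0) →
      ∀ M ∈ Kset N, ∀ q : ℂ, ‖q‖ ≤ 2 →
      rs a e F (nqF q M) = ∑ i ∈ S, a i * F (nq q (rowv (e i) M)) := by
  obtain ⟨S, hS⟩ := exists_finset he hN hρ
  refine ⟨S, fun a F hF M hM q hq => ?_⟩
  have hr : ∀ i, rowv (e i) (nqF q M) = nq q (rowv (e i) M) := by
    intro i
    rw [← rowc_eq_rowv, ← rowc_eq_rowv, rowc_nqF]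
  unfold rs
  simp only [hr]
  refine tsum_eq_sum fun i hi => ?_
  rw [hF _ (hS M hM q hq i hi), mul_zero]

theorem rs_eq_sum' (he : Function.Injective e) {N : ℝ} (hN : 0 < N) {ρ : ℝ} (hρ : 0 ≤ ρ) :
    ∃ S : Finset ι, ∀ (a : ι → ℂ) (F : ℂ × ℂ → ℂ), (∀ u, ρ < ‖u‖ → F u = 0) →
      ∀ M ∈ Kset N, rs a e F M = ∑ i ∈ S, a i * F (rowv (e i) M) := by
  obtain ⟨S, hS⟩ := rs_eq_sum he hN hρ
  refine ⟨S, fun a F hF M hM => ?_⟩
  have := hS a F hF M hM 0 (by simp)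
  simpa using this

/-- the sum is continuous on `{det ≠ 0}`. -/
theorem continuousOn_sum (he : Function.Injective e) (a : ι → ℂ) {F : ℂ × ℂ → ℂ}
    (hF : Continuous F) {ρ : ℝ} (hρ : ∀ u, ρ < ‖u‖ → F u = 0) :
    ContinuousOn (rs a e F) {M | det2 M ≠ 0} := by
  intro M hM
  obtain ⟨N, hN, hnh⟩ := exists_Kset_nhds hM
  obtain ⟨S, hS⟩ := rs_eq_sum' he hN (le_max_right ρ 0)
  have hρ' : ∀ u, max ρ 0 < ‖u‖ → F u = 0 := fun u hu => hρ u (lt_of_le_of_lt (le_max_left _ _) hu)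
  have hc : Continuous (fun M : K695.Frm => ∑ i ∈ S, a i * F (rowv (e i) M)) :=
    continuous_finsetSum _ fun i _ => continuous_const.mul (hF.comp (continuous_rowv _))
  have heq : rs a e F =ᶠ[𝓝 M] (fun M : K695.Frm => ∑ i ∈ S, a i * F (rowv (e i) M)) := by
    filter_upwards [hnh] with M' hM'
    exact hS a F hρ' M' hM'
  exact (hc.continuousAt.congr heq.symm).continuousWithinAt

lemma measurableSet_det : MeasurableSet {M : K695.Frm | det2 M ≠ 0} :=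
  (isOpen_ne_fun continuous_det2 continuous_const).measurableSet

/-- the sum, restricted to `{det ≠ 0}`, is measurable (for measurable `F`). -/
theorem measurable_sum (he : Function.Injective e) (a : ι → ℂ) {F : ℂ × ℂ → ℂ}
    (hF : Measurable F) {ρ : ℝ} (hρ : ∀ u, ρ < ‖u‖ → F u = 0) :
    Measurable ({M : K695.Frm | det2 M ≠ 0}.indicator (rs a e F)) := by
  have hρ' : ∀ u, max ρ 0 < ‖u‖ → F u = 0 := fun u hu => hρ u (lt_of_le_of_lt (le_max_left _ _) hu)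
  choose S hS using fun n : ℕ => rs_eq_sum' he (N := (n + 1 : ℝ)) (by positivity)
    (le_max_right ρ 0)
  refine measurable_of_tendsto_metrizable
    (f := fun n : ℕ => (Kset (n + 1 : ℝ)).indicator
      (fun M => ∑ i ∈ S n, a i * F (rowv (e i) M))) ?_ ?_
  · intro n
    refine Measurable.indicator ?_ (measurableSet_Kset _)
    exact Finset.measurable_fun_sum _ fun i _ => (hF.comp (measurable_rowv _)).const_mul _
  · rw [tendsto_pi_nhds]
    intro M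
    by_cases hM : det2 M ≠ 0
    · obtain ⟨n, hn⟩ := exists_mem_Kset hM
      refine tendsto_const_nhds.congr' ?_
      filter_upwards [eventually_ge_atTop n] with m hm
      have hmem : M ∈ Kset (m + 1 : ℝ) :=
        Kset_mono (by positivity) (by exact_mod_cast Nat.succ_le_succ hm) hn
      rw [indicator_of_mem (show M ∈ {M : K695.Frm | det2 M ≠ 0} from hM), indicator_of_mem hmem,
        hS m a F hρ' M hmem]
    · refine tendsto_const_nhds.congr fun m => ?_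
      rw [indicator_of_notMem (show M ∉ {M : K695.Frm | det2 M ≠ 0} from hM), indicator_of_notMem]
      intro hmem
      exact hM (det_ne_zero_of_mem (by positivity) hmem)

/-- bounded on the compacts `Kset N`. -/
theorem bounded_sum (he : Function.Injective e) (a : ι → ℂ) {F : ℂ × ℂ → ℂ} {B : ℝ}
    (hB : ∀ u, ‖F u‖ ≤ B) {ρ : ℝ} (hρ : ∀ u, ρ < ‖u‖ → F u = 0) {N : ℝ} (hN : 0 < N) :
    ∃ C : ℝ, ∀ M ∈ Kset N, ∀ q : ℂ, ‖q‖ ≤ 2 → ‖rs a e F (nqF q M)‖ ≤ C := by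
  have hρ' : ∀ u, max ρ 0 < ‖u‖ → F u = 0 := fun u hu => hρ u (lt_of_le_of_lt (le_max_left _ _) hu)
  obtain ⟨S, hS⟩ := rs_eq_sum he hN (le_max_right ρ 0)
  refine ⟨∑ i ∈ S, ‖a i‖ * B, fun M hM q hq => ?_⟩
  rw [hS a F hρ' M hM q hq]
  refine (norm_sum_le _ _).trans (Finset.sum_le_sum fun i _ => ?_)
  rw [norm_mul]
  exact mul_le_mul_of_nonneg_left (hB _) (norm_nonneg _)

end sums

/-! ### the set of degenerate frames is a null set -/

lemma volume_degenerate_fibre {η : ℂ × ℂ} (hη : η ≠ 0) :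
    (volume : Measure (ℂ × ℂ)) {ζ | η.1 * ζ.2 - η.2 * ζ.1 = 0} = 0 := by
  set L : (ℂ × ℂ) →ₗ[ℝ] ℂ :=
    { toFun := fun ζ => η.1 * ζ.2 - η.2 * ζ.1
      map_add' := fun x y => by simp only [Prod.snd_add, Prod.fst_add]; ring
      map_smul' := fun c x => by
        simp only [Prod.smul_snd, Prod.smul_fst, Complex.real_smul, RingHom.id_apply]; ring }
    with hL
  have h1 : {ζ : ℂ × ℂ | η.1 * ζ.2 - η.2 * ζ.1 = 0} = (LinearMap.ker L : Set (ℂ × ℂ)) := by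
    ext ζ; simp [hL, LinearMap.mem_ker]
  rw [h1]
  refine Measure.addHaar_submodule _ _ ?_
  intro htop
  rw [LinearMap.ker_eq_top] at htop
  apply hη
  have h2 : L (0, 1) = 0 := by rw [htop]; rfl
  have h3 : L (1, 0) = 0 := by rw [htop]; rfl
  simp only [hL, LinearMap.coe_mk, AddHom.coe_mk, mul_one, mul_zero, sub_zero, zero_sub,
    neg_eq_zero] at h2 h3
  exact Prod.ext h2 h3

theorem volume_det_eq_zero : (volume : Measure K695.Frm) {M | det2 M = 0} = 0 := by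
  have hm : MeasurableSet {M : K695.Frm | det2 M = 0} :=
    (isClosed_eq continuous_det2 continuous_const).measurableSet
  rw [Measure.volume_eq_prod, Measure.measure_prod_null hm]
  have h0 : ∀ᵐ η : ℂ × ℂ, η ≠ 0 := by
    simp [ae_iff, measure_singleton]
  filter_upwards [h0] with η hη
  exact volume_degenerate_fibre hη

theorem ae_det_ne_zero : ∀ᵐ M : K695.Frm, det2 M ≠ 0 := by
  rw [ae_iff]
  simpa using volume_det_eq_zero

/-- the sum is a.e. measurable. -/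
theorem aemeasurable_sum {ι : Type*} {e : ι → Eis × Eis} (he : Function.Injective e) (a : ι → ℂ)
    {F : ℂ × ℂ → ℂ} (hF : Measurable F) {ρ : ℝ} (hρ : ∀ u, ρ < ‖u‖ → F u = 0) :
    AEMeasurable (rs a e F) (volume : Measure K695.Frm) := by
  refine ⟨_, measurable_sum he a hF hρ, ?_⟩
  filter_upwards [ae_det_ne_zero] with M hM
  rw [indicator_of_mem (show M ∈ {M : K695.Frm | det2 M ≠ 0} from hM)]

end Crest.Agent.R012.LocFin499
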