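import Crest.Agent.R012.Cube_777
import Crest.Agent.R012.Cst7_566
import Crest.Agent.R012.Rho2_777

/-!
# Row 12, item MC (final): `|ρ(u λ^j)|² = (pC Dsf)² kapR (u λ^j)` for units `u`, `j ≤ 2`

in particular `‖ρ 1‖ = pC Dsf`.
-/

set_option autoImplicit false

noncomputable section

open Complex Filter Topology

namespace Crest.Agent.R012.Rho777

open Crest.Agent.R012 Crest.Agent.R012.Eis Crest.Agent.R012.MC Crest.Agent.R012.Gauss880

/-- The cube limit (helper566's name for `Cube777.cube_limit`). -/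
theorem cubeLimit : CubeLimit := Cube777.cube_limit

lemma lamish_unit_lam {u : Eis} (hu : IsUnit u) (j : ℕ) : Lamish (u * lam ^ j) := by
  refine ⟨mul_ne_zero hu.ne_zero (pow_ne_zero _ lam_ne_zero), fun p hp hpp hd => ?_⟩
  have h1 := isCoprime_unit_lam hu j p hpp
  exact hp.not_isUnit (h1.isUnit_of_dvd' hd dvd_rfl)

/-- **(M-C)** for all `r = u λ^j`. -/
theorem rho_unit_lam {ρ : Eis → ℂ} (hMS : M49.MS ρ) (hρ : M49.RhoRel ρ) {u : Eis} (hu : IsUnit u)
    {j : ℕ} (hj : j ≤ 2) : ‖ρ (u * lam ^ j)‖ ^ 2 = (pC * M49.Dsf) ^ 2 * kapR (u * lam ^ j) := by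
  rw [Dsf_eq]
  refine rho_sq_of_spec Gauss880.syG hMS hρ (lamish_unit_lam hu j) (δ := 2 / 5) (by norm_num)
    (by norm_num) (fun w v hw hv => ?_) (fun w hw => ?_)
  · exact first_moment_limit_unit_lam cubeLimit hw hv hu hj (by norm_num) (by norm_num)
  · rw [TateC413.Iw_eq hw]
    norm_num

/-- **(M-C)** `‖ρ 1‖ = pC Dsf`. -/
theorem norm_rho_one {ρ : Eis → ℂ} (hMS : M49.MS ρ) (hρ : M49.RhoRel ρ) :
    ‖ρ 1‖ = pC * M49.Dsf := by
  have h := rho_unit_lam hMS hρ isUnit_one (j := 0) (by norm_num)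
  rw [pow_zero, mul_one, kapR_one, mul_one] at h
  have hpos : 0 ≤ pC * M49.Dsf := by
    have h1 : 0 ≤ pC := by
      unfold pC
      have := Real.Gamma_pos_of_pos (show (0 : ℝ) < 2 / 3 by norm_num)
      positivity
    have h2 : 0 ≤ M49.Dsf := by
      rw [Dsf_eq]
      unfold Dc
      have := Zk_pos
      rw [Zk_eq] at this
      positivity
    exact mul_nonneg h1 h2
  exact (pow_left_inj₀ (norm_nonneg _) hpos (by norm_num)).mp h

end Crest.Agent.R012.Rho777
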