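import Crest.Agent.R012.TItC2_663

/-!
# Row 12, (M): final assembly  `Lim4 ρ → MS1 (π conj ρ)` (helper663)
-/

set_option autoImplicit false

noncomputable section

open MeasureTheory Complex Set Filter Topology
open Crest.Agent.R012.Eis
open scoped ComplexConjugate ENNReal

namespace Crest.Agent.R012.TIt663

open Crest.Agent.R012 Crest.Agent.R012.M49 Crest.Agent.R012.Four813
open Crest.Agent.R012.Parseval499

/-- the integrated quantity at the special frames. -/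
def LimI (φ : ℂ → ℂ) (ρ : Eis → ℂ) (w : ℝ → ℂ) (l : ℤ) (t s B r : ℝ) (S : Finset Eis) : ℝ≥0∞ :=
  ∫⁻ v in {v : ℂ | r ≤ ‖v‖ ∧ ‖v‖ ≤ 2 * r}, ∫⁻ e in {e : ℂ | 1 / r ≤ ‖e‖ ∧ ‖e‖ ≤ 2 / r},
    ∑ u ∈ S, ENNReal.ofReal (‖Sg (fun _ => 1) (Ww w t l B) u e -
      mU (fun z => Ww w t l B (z * e)) * ρ u‖ ^ 2 *
      (‖e / v‖ ^ 4 * ‖phat (fun z => φ (z / s)) (frq 3 u * e / v)‖ ^ 2))

/-- output of the limit step. -/
def Lim4 (φ : ℂ → ℂ) (ρ : Eis → ℂ) : Prop :=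
  ∀ (l : ℤ) (w : ℝ → ℂ) (d : ℝ), 0 < d → Wt w → ∃ C : ℝ, ∀ (t s B r : ℝ), 0 < s →
    s * (1 + |t|) ≤ 1 → 0 < B → 0 < r → ∀ S : Finset Eis, LimI φ ρ w l t s B r S ≤
      ENNReal.ofReal (C * ((1 + r ^ 4) / r ^ 4) * (B ^ 2 * s ^ 2) * (1 + B) ^ d)

/-- lower bound for the Fourier transform near `0`. -/
def PhiLow (φ : ℂ → ℂ) : Prop :=
  ∃ c₀ c : ℝ, 0 < c₀ ∧ 0 < c ∧ ∀ s : ℝ, 0 < s → ∀ ξ : ℂ, s * ‖ξ‖ ≤ c₀ →
    c * s ^ 2 ≤ ‖phat (fun z => φ (z / s)) ξ‖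

lemma norm_frq (u : Eis) : ‖frq 3 u‖ ≤ Real.sqrt (nm u) / 5 := by
  unfold frq
  rw [norm_div, norm_toC, norm_mul, norm_toC]
  have h1 : nm s3 = 3 := by decide
  rw [h1]
  have h3 : (5 / 3 : ℝ) ≤ Real.sqrt ((3 : ℕ) : ℝ) := by
    apply Real.le_sqrt_of_sq_le; norm_num
  have h0 : 0 ≤ Real.sqrt (nm u) := Real.sqrt_nonneg _
  have h4 : ‖(3 : ℂ)‖ = 3 := by simp
  rw [h4]
  refine div_le_div_of_nonneg_left h0 (by norm_num) ?_
  calc (5 : ℝ) = 3 * (5 / 3) := by norm_num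
    _ ≤ 3 * Real.sqrt ((3 : ℕ) : ℝ) := by gcongr

/-- lower bound of the integrated quantity. -/
lemma LimI_lower (φ : ℂ → ℂ) (ρ : Eis → ℂ) {w : ℝ → ℂ} (hw : Continuous w) (l : ℤ) {t s B r : ℝ}
    (hB : 0 < B) (hr : 0 < r) (S : Finset Eis) {κ : ℝ} (hκ : 0 ≤ κ)
    (hlow : ∀ u ∈ S, ∀ v e : ℂ, r ≤ ‖v‖ → ‖v‖ ≤ 2 * r → 1 / r ≤ ‖e‖ → ‖e‖ ≤ 2 / r →
      κ ≤ ‖e / v‖ ^ 4 * ‖phat (fun z => φ (z / s)) (frq 3 u * e / v)‖ ^ 2)
    {b : ℝ} (hb : 0 < b) (hv1 : ∀ x, b < x → w x = 0) {M : ℕ} (hMb : b * (B * r ^ 2) ≤ M) :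
    ENNReal.ofReal κ * ∫⁻ x in Icc (0 : ℝ) 1, ∑ u ∈ S,
      ‖DDf M ρ w l t u (sc (B * r ^ 2) x)‖ₑ ^ 2 ≤ LimI φ ρ w l t s B r S := by
  set F : ℝ → ℝ≥0∞ := fun x => ENNReal.ofReal κ * ∑ u ∈ S, ‖DDf M ρ w l t u (B / x ^ 2)‖ₑ ^ 2 with hF
  have hFm : Measurable F := by
    refine Measurable.const_mul (Finset.measurable_sum _ fun u _ => ?_) _
    have := (measurable_DDf M ρ hw l t u).comp
      (show Measurable fun x : ℝ => B / x ^ 2 by fun_prop)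
    exact (this.enorm).pow_const 2
  have hr1 : 0 < 1 / r := by positivity
  -- inner integral
  have inner : ∀ v ∈ {v : ℂ | r ≤ ‖v‖ ∧ ‖v‖ ≤ 2 * r},
      ENNReal.ofReal ((1 / r) ^ 2) * ∫⁻ x in Icc (0 : ℝ) 1, F (1 / r * Real.exp (x * Real.log 2)) ≤
      ∫⁻ e in {e : ℂ | 1 / r ≤ ‖e‖ ∧ ‖e‖ ≤ 2 / r},
        ∑ u ∈ S, ENNReal.ofReal (‖Sg (fun _ => 1) (Ww w t l B) u e -
        mU (fun z => Ww w t l B (z * e)) * ρ u‖ ^ 2 *
        (‖e / v‖ ^ 4 * ‖phat (fun z => φ (z / s)) (frq 3 u * e / v)‖ ^ 2)) := by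
    intro v hv
    refine (polar_lower F hFm hr1).trans ?_
    have hset : {e : ℂ | 1 / r ≤ ‖e‖ ∧ ‖e‖ ≤ 2 * (1 / r)} =
        {e : ℂ | 1 / r ≤ ‖e‖ ∧ ‖e‖ ≤ 2 / r} := by
      rw [mul_one_div]
    rw [hset]
    have hA : MeasurableSet {e : ℂ | 1 / r ≤ ‖e‖ ∧ ‖e‖ ≤ 2 / r} :=
      (measurableSet_le measurable_const measurable_norm).inter
        (measurableSet_le measurable_norm measurable_const)
    refine setLIntegral_mono' hA fun e he => ?_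
    simp only [hF]
    rw [Finset.mul_sum]
    refine Finset.sum_le_sum fun u hu => ?_
    have he0 : 0 < ‖e‖ := lt_of_lt_of_le hr1 he.1
    have he1 : e ≠ 0 := norm_pos_iff.mp he0
    have hX : 0 < B / ‖e‖ ^ 2 := by positivity
    have hXle : B / ‖e‖ ^ 2 ≤ B * r ^ 2 := by
      rw [div_le_iff₀ (by positivity)]
      have h1 : 1 ≤ r * ‖e‖ := by
        have := mul_le_mul_of_nonneg_left he.1 hr.le
        rwa [mul_one_div_cancel hr.ne'] at this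
      have h2 : 1 ≤ (r * ‖e‖) ^ 2 := one_le_pow₀ h1
      calc B = B * 1 := by ring
        _ ≤ B * (r * ‖e‖) ^ 2 := by gcongr
        _ = B * r ^ 2 * ‖e‖ ^ 2 := by ring
    rw [diff_special ρ w t l hB u he1, DD_eq_DDf ρ hv1 l t u hX
      ((mul_le_mul_of_nonneg_left hXle hb.le).trans hMb)]
    have h5 := hlow u hu v e hv.1 hv.2 he.1 he.2
    rw [← ofReal_norm, ← ENNReal.ofReal_pow (norm_nonneg _), ← ENNReal.ofReal_mul hκ, mul_comm]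
    exact ENNReal.ofReal_le_ofReal (mul_le_mul_of_nonneg_left h5 (by positivity))
  -- outer integral
  have hV : MeasurableSet {v : ℂ | r ≤ ‖v‖ ∧ ‖v‖ ≤ 2 * r} :=
    (measurableSet_le measurable_const measurable_norm).inter
      (measurableSet_le measurable_norm measurable_const)
  have outer := polar_lower (fun _ => ENNReal.ofReal ((1 / r) ^ 2) *
    ∫⁻ x in Icc (0 : ℝ) 1, F (1 / r * Real.exp (x * Real.log 2))) measurable_const hr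
  have h6 := outer.trans (setLIntegral_mono' hV inner)
  refine le_trans (le_of_eq ?_) h6
  simp only [lintegral_const, Measure.restrict_apply, MeasurableSet.univ, univ_inter,
    Real.volume_Icc, sub_zero, ENNReal.ofReal_one, mul_one]
  rw [← mul_assoc, ← ENNReal.ofReal_mul (by positivity)]
  have h7 : r ^ 2 * (1 / r) ^ 2 = 1 := by field_simp
  rw [h7, ENNReal.ofReal_one, one_mul, ← lintegral_const_mul' _ _ ENNReal.ofReal_ne_top]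
  refine lintegral_congr fun x => ?_
  simp only [hF]
  have h8 : B / (1 / r * Real.exp (x * Real.log 2)) ^ 2 = sc (B * r ^ 2) x := by
    unfold sc
    have h9 : Real.log 4 = 2 * Real.log 2 := by
      rw [show (4 : ℝ) = 2 ^ 2 by norm_num, Real.log_pow]; norm_num
    rw [h9, Real.exp_neg, mul_pow, ← Real.exp_nat_mul]
    have h10 : ((2 : ℕ) : ℝ) * (x * Real.log 2) = x * (2 * Real.log 2) := by push_cast; ring
    rw [h10]
    field_simp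
  rw [h8]

/-- the pointwise mean square bound from the integrated bounds. -/
theorem ms_of_LimI (φ : ℂ → ℂ) (ρ : Eis → ℂ) {w : ℝ → ℂ} (hw : Wt w) (l : ℤ) {t s B r : ℝ}
    (hB : 0 < B) (hr : 0 < r) (S : Finset Eis) {κ : ℝ} (hκ : 0 ≤ κ)
    (hlow : ∀ u ∈ S, ∀ v e : ℂ, r ≤ ‖v‖ → ‖v‖ ≤ 2 * r → 1 / r ≤ ‖e‖ → ‖e‖ ≤ 2 / r →
      κ ≤ ‖e / v‖ ^ 4 * ‖phat (fun z => φ (z / s)) (frq 3 u * e / v)‖ ^ 2) :
    ENNReal.ofReal κ * ∑ u ∈ S, ‖DD ρ w l t u (B * r ^ 2)‖ₑ ^ 2 ≤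
      2 * (LimI φ ρ w l t s B r S + 4 * LimI φ ρ (wD w) l t s B r S) := by
  obtain ⟨a, b, ha, hab, hsup⟩ := hw.supp
  have hb : 0 < b := by linarith
  have hv1 : ∀ x, b < x → w x = 0 := fun x hx => hsup x (Or.inr hx)
  have hv2 := wD_zero hv1
  set M : ℕ := ⌈b * (B * r ^ 2)⌉₊ with hM
  have hMb : b * (B * r ^ 2) ≤ M := Nat.le_ceil _
  have hY : 0 < B * r ^ 2 := by positivity
  have m1 : ∀ (w' : ℝ → ℂ), Continuous w' → ∀ u, Measurable fun x =>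
      ‖DDf M ρ w' l t u (sc (B * r ^ 2) x)‖ₑ ^ 2 := fun w' hw' u =>
    (((measurable_DDf M ρ hw' l t u).comp (measurable_sc _)).enorm).pow_const 2
  have hc1 := hw.smooth.continuous
  have hc2 := (wt_wD hw).smooth.continuous
  have h1 : ∑ u ∈ S, ‖DD ρ w l t u (B * r ^ 2)‖ₑ ^ 2 ≤
      2 * ((∫⁻ x in Icc (0 : ℝ) 1, ∑ u ∈ S, ‖DDf M ρ w l t u (sc (B * r ^ 2) x)‖ₑ ^ 2) +
        4 * ∫⁻ x in Icc (0 : ℝ) 1, ∑ u ∈ S, ‖DDf M ρ (wD w) l t u (sc (B * r ^ 2) x)‖ₑ ^ 2) := by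
    rw [lintegral_finsetSum _ (fun u _ => m1 w hc1 u),
      lintegral_finsetSum _ (fun u _ => m1 (wD w) hc2 u), Finset.mul_sum, ← Finset.sum_add_distrib,
      Finset.mul_sum]
    refine Finset.sum_le_sum fun u _ => ?_
    refine (dil_trace ρ hw l t u hY hv1 hMb).trans (le_of_eq ?_)
    rw [lintegral_add_left (m1 w hc1 u), lintegral_const_mul _ (m1 (wD w) hc2 u)]
  have h2 := LimI_lower φ ρ hc1 l (t := t) hB hr S hκ hlow hb hv1 hMb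
  have h3 := LimI_lower φ ρ hc2 l (t := t) hB hr S hκ hlow hb hv2 hMb
  calc ENNReal.ofReal κ * ∑ u ∈ S, ‖DD ρ w l t u (B * r ^ 2)‖ₑ ^ 2
      ≤ ENNReal.ofReal κ * (2 * ((∫⁻ x in Icc (0 : ℝ) 1, ∑ u ∈ S,
          ‖DDf M ρ w l t u (sc (B * r ^ 2) x)‖ₑ ^ 2) +
        4 * ∫⁻ x in Icc (0 : ℝ) 1, ∑ u ∈ S, ‖DDf M ρ (wD w) l t u (sc (B * r ^ 2) x)‖ₑ ^ 2)) := by
        gcongr
    _ = 2 * ((ENNReal.ofReal κ * ∫⁻ x in Icc (0 : ℝ) 1, ∑ u ∈ S,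
          ‖DDf M ρ w l t u (sc (B * r ^ 2) x)‖ₑ ^ 2) +
        4 * (ENNReal.ofReal κ * ∫⁻ x in Icc (0 : ℝ) 1, ∑ u ∈ S,
          ‖DDf M ρ (wD w) l t u (sc (B * r ^ 2) x)‖ₑ ^ 2)) := by ring
    _ ≤ _ := by gcongr

lemma pow_absorb {c₀ δ Z B : ℝ} (hc₀ : 0 < c₀) (hδ : 0 < δ) (hZ : 1 ≤ Z) (hB : 0 ≤ B)
    (hBle : B ≤ c₀ * Z) : (1 + B) ^ δ ≤ (1 + c₀) ^ δ * Z ^ δ := by
  rw [← Real.mul_rpow (by positivity) (by positivity)]
  refine Real.rpow_le_rpow (by positivity) ?_ hδ.le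
  nlinarith

lemma one_add_abs_sq (t : ℝ) : (1 + |t|) ^ 2 ≤ 2 * (1 + t ^ 2) := by
  nlinarith [sq_abs t, sq_nonneg (1 - |t|)]

lemma fin_ineq {k N t2 T2 : ℝ} (hk : 0 ≤ k) (hN : 1 ≤ N) (ht : 0 ≤ t2)
    (hT : T2 ≤ 2 * (1 + t2)) : T2 + N * k ≤ (2 + 2 * k) * (N + t2) := by
  nlinarith [mul_nonneg hk ht, mul_nonneg hk (by linarith : (0 : ℝ) ≤ N)]

set_option maxHeartbeats 1600000 in
/-- **the final assembly**, conjugate sums. -/
theorem MS0_of_Lim4 {φ : ℂ → ℂ} (hφ : PhiLow φ) {ρ : Eis → ℂ} (H : Lim4 φ ρ) : MS0 ρ := by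
  intro l w hw δ hδ
  obtain ⟨c₀, c, hc₀, hc, hlowφ⟩ := hφ
  obtain ⟨C₁, hC₁⟩ := H l w δ hδ hw
  obtain ⟨C₂, hC₂⟩ := H l (wD w) δ hδ (wt_wD hw)
  -- nonnegative constants
  set C : ℝ := |C₁| + 4 * |C₂| with hCdef
  have hC0 : 0 ≤ C := by positivity
  set Kl : ℝ := (1 + c₀) ^ δ with hKl
  have hKl0 : 0 ≤ Kl := by positivity
  refine ⟨32 / c ^ 2 * C * Kl * (2 + 2 * (c₀ ^ 2)⁻¹), fun N X t hN hX => ?_⟩
  have hN0 : (1 : ℝ) ≤ N := by exact_mod_cast hN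
  have hNpos : (0 : ℝ) < N := by linarith
  have hX0 : 0 < X := by linarith
  set T : ℝ := 1 + |t| with hT
  have hT1 : 1 ≤ T := by have := abs_nonneg t; linarith
  have hT0 : 0 < T := by linarith
  set s : ℝ := T⁻¹ with hs
  have hs0 : 0 < s := inv_pos.mpr hT0
  have hsT : s * (1 + |t|) ≤ 1 := by rw [hs, ← hT, inv_mul_cancel₀ hT0.ne']
  set r : ℝ := Real.sqrt (s * Real.sqrt N / c₀) with hr
  have hr2 : r ^ 2 = s * Real.sqrt N / c₀ := Real.sq_sqrt (by positivity)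
  have hr0 : 0 < r := by
    apply Real.sqrt_pos.mpr
    have : 0 < Real.sqrt N := Real.sqrt_pos.mpr hNpos
    positivity
  have hr4 : r ^ 4 = s ^ 2 * N / c₀ ^ 2 := by
    have : r ^ 4 = (r ^ 2) ^ 2 := by ring
    rw [this, hr2, div_pow, mul_pow, Real.sq_sqrt hNpos.le]
  set B : ℝ := X / r ^ 2 with hB
  have hB0 : 0 < B := by positivity
  have hBX : B * r ^ 2 = X := by rw [hB]; field_simp
  -- weight
  set κ : ℝ := c ^ 2 * s ^ 4 / (16 * r ^ 8) with hκ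
  have hκ0 : 0 < κ := by positivity
  have hlow : ∀ u ∈ ball N, ∀ v e : ℂ, r ≤ ‖v‖ → ‖v‖ ≤ 2 * r → 1 / r ≤ ‖e‖ → ‖e‖ ≤ 2 / r →
      κ ≤ ‖e / v‖ ^ 4 * ‖phat (fun z => φ (z / s)) (frq 3 u * e / v)‖ ^ 2 := by
    intro u hu v e hv1 hv2 he1 he2
    have hv0 : 0 < ‖v‖ := lt_of_lt_of_le hr0 hv1
    have hq1 : 1 / (2 * r ^ 2) ≤ ‖e / v‖ := by
      rw [norm_div, le_div_iff₀ hv0]
      calc 1 / (2 * r ^ 2) * ‖v‖ ≤ 1 / (2 * r ^ 2) * (2 * r) := by gcongr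
        _ = 1 / r := by field_simp
        _ ≤ ‖e‖ := he1
    have hq2 : ‖e / v‖ ≤ 2 / r ^ 2 := by
      rw [norm_div, div_le_iff₀ hv0]
      calc ‖e‖ ≤ 2 / r := he2
        _ = 2 / r ^ 2 * r := by field_simp
        _ ≤ 2 / r ^ 2 * ‖v‖ := by gcongr
    have hξ : s * ‖frq 3 u * e / v‖ ≤ c₀ := by
      rw [mul_div_assoc, norm_mul]
      have h1 : ‖frq 3 u‖ ≤ Real.sqrt N / 5 := by
        refine (norm_frq u).trans ?_
        have : (nm u : ℝ) ≤ N := by exact_mod_cast mem_ball.mp hu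
        gcongr
      have hsN : 0 < Real.sqrt N := Real.sqrt_pos.mpr hNpos
      calc s * (‖frq 3 u‖ * ‖e / v‖) ≤ s * (Real.sqrt N / 5 * (2 / r ^ 2)) := by gcongr
        _ = (2 / 5) * c₀ := by
          rw [hr2]; field_simp
        _ ≤ c₀ := by linarith
    have h2 := hlowφ s hs0 _ hξ
    calc κ = (1 / (2 * r ^ 2)) ^ 4 * (c * s ^ 2) ^ 2 := by
          rw [hκ]; field_simp; ring
      _ ≤ _ := by gcongr
  have hmain := ms_of_LimI φ ρ hw l (t := t) (s := s) hB0 hr0 (ball N) hκ0.le hlow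
  rw [hBX] at hmain
  -- the upper bounds
  set E : ℝ := ((1 + r ^ 4) / r ^ 4) * (B ^ 2 * s ^ 2) * (1 + B) ^ δ with hE
  have hE0 : 0 ≤ E := by positivity
  have hb1 : LimI φ ρ w l t s B r (ball N) ≤ ENNReal.ofReal (|C₁| * E) := by
    refine (hC₁ t s B r hs0 hsT hB0 hr0 (ball N)).trans (ENNReal.ofReal_le_ofReal ?_)
    calc C₁ * ((1 + r ^ 4) / r ^ 4) * (B ^ 2 * s ^ 2) * (1 + B) ^ δ = C₁ * E := by
          rw [hE]; ring
      _ ≤ |C₁| * E := by gcongr; exact le_abs_self _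
  have hb2 : LimI φ ρ (wD w) l t s B r (ball N) ≤ ENNReal.ofReal (|C₂| * E) := by
    refine (hC₂ t s B r hs0 hsT hB0 hr0 (ball N)).trans (ENNReal.ofReal_le_ofReal ?_)
    calc C₂ * ((1 + r ^ 4) / r ^ 4) * (B ^ 2 * s ^ 2) * (1 + B) ^ δ = C₂ * E := by
          rw [hE]; ring
      _ ≤ |C₂| * E := by gcongr; exact le_abs_self _
  have hreal : κ * ∑ u ∈ ball N, ‖DD ρ w l t u X‖ ^ 2 ≤ 2 * (C * E) := by
    have h1 : ENNReal.ofReal (κ * ∑ u ∈ ball N, ‖DD ρ w l t u X‖ ^ 2) ≤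
        ENNReal.ofReal (2 * (C * E)) := by
      calc ENNReal.ofReal (κ * ∑ u ∈ ball N, ‖DD ρ w l t u X‖ ^ 2)
          = ENNReal.ofReal κ * ∑ u ∈ ball N, ‖DD ρ w l t u X‖ₑ ^ 2 := by
            rw [ENNReal.ofReal_mul hκ0.le, ENNReal.ofReal_sum_of_nonneg (fun u _ => by positivity)]
            congr 1
            refine Finset.sum_congr rfl fun u _ => ?_
            rw [ENNReal.ofReal_pow (norm_nonneg _), ofReal_norm]
        _ ≤ 2 * (ENNReal.ofReal (|C₁| * E) + 4 * ENNReal.ofReal (|C₂| * E)) := by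
            refine hmain.trans ?_
            gcongr
        _ = ENNReal.ofReal (2 * (C * E)) := by
            rw [show (2 : ℝ≥0∞) = ENNReal.ofReal 2 by simp,
              show (4 : ℝ≥0∞) = ENNReal.ofReal 4 by simp, ← ENNReal.ofReal_mul (by norm_num),
              ← ENNReal.ofReal_add (by positivity) (by positivity),
              ← ENNReal.ofReal_mul (by norm_num)]
            congr 1
            rw [hCdef]; ring
    exact (ENNReal.ofReal_le_ofReal_iff (by positivity)).mp h1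
  -- the loss
  have hlog : (1 + B) ^ δ ≤ Kl * (T * X * N) ^ δ := by
    have hBle : B ≤ c₀ * (T * X) := by
      rw [hB, hr2, div_le_iff₀ (by positivity)]
      have hsN : 1 ≤ Real.sqrt N := Real.one_le_sqrt.mpr hN0
      have : s * T = 1 := inv_mul_cancel₀ hT0.ne'
      calc X = (s * T) * X * 1 := by rw [this]; ring
        _ ≤ (s * T) * X * Real.sqrt N := by gcongr
        _ = c₀ * (T * X) * (s * Real.sqrt N / c₀) := by field_simp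
    have hTX : 1 ≤ T * X := one_le_mul_of_one_le_of_one_le hT1 hX
    refine (pow_absorb hc₀ hδ hTX hB0.le hBle).trans ?_
    refine mul_le_mul_of_nonneg_left (Real.rpow_le_rpow (by positivity) ?_ hδ.le) (by positivity)
    exact le_mul_of_one_le_right (by positivity) hN0
  -- conclusion
  have hfin : ∑ u ∈ ball N, ‖DD ρ w l t u X‖ ^ 2 ≤
      32 / c ^ 2 * C * ((s ^ 2)⁻¹ * (1 + r ^ 4)) * X ^ 2 * (1 + B) ^ δ := by
    have h1 : ∑ u ∈ ball N, ‖DD ρ w l t u X‖ ^ 2 ≤ κ⁻¹ * (2 * (C * E)) := by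
      rw [← div_eq_inv_mul, le_div_iff₀ hκ0, mul_comm]
      exact hreal
    refine h1.trans (le_of_eq ?_)
    rw [hκ, hE, hB]
    have hs1 : s ≠ 0 := hs0.ne'
    have hr1 : r ≠ 0 := hr0.ne'
    have hc1 : c ≠ 0 := hc.ne'
    generalize (1 + X / r ^ 2) ^ δ = L
    clear_value s r C
    clear hlow hmain hb1 hb2 hreal hlog hlowφ hC₁ hC₂
    field_simp
    ring
  have hTt : (s ^ 2)⁻¹ * (1 + r ^ 4) ≤ (2 + 2 * (c₀ ^ 2)⁻¹) * (N + t ^ 2) := by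
    have h1 : (s ^ 2)⁻¹ * (1 + r ^ 4) = T ^ 2 + N * (c₀ ^ 2)⁻¹ := by
      rw [hr4, hs]; field_simp
    rw [h1]
    exact fin_ineq (by positivity) hN0 (sq_nonneg t) (one_add_abs_sq t)
  calc ∑ u ∈ ball N, ‖DD ρ w l t u X‖ ^ 2
      ≤ 32 / c ^ 2 * C * ((s ^ 2)⁻¹ * (1 + r ^ 4)) * X ^ 2 * (1 + B) ^ δ := hfin
    _ ≤ 32 / c ^ 2 * C * ((2 + 2 * (c₀ ^ 2)⁻¹) * (N + t ^ 2)) * X ^ 2 *
        (Kl * (T * X * N) ^ δ) := by gcongr
    _ = 32 / c ^ 2 * C * Kl * (2 + 2 * (c₀ ^ 2)⁻¹) * ((1 + |t|) * X * N) ^ δ *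
        ((N + t ^ 2) * X ^ 2) := by rw [← hT]; ring

/-- **the final assembly**. -/
theorem MS1_of_Lim4 {φ : ℂ → ℂ} (hφ : PhiLow φ) {ρ : Eis → ℂ} (H : Lim4 φ ρ) :
    MS1 (fun h => (Real.pi : ℂ) * conj (ρ h)) :=
  MS1_of_MS0 (MS0_of_Lim4 hφ H)

end Crest.Agent.R012.TIt663
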