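import Crest.Agent.R012.Lim4_47
import Crest.Agent.R012.TItFinal_663
import Crest.Agent.R012.K1_384
import Crest.Agent.R012.NormB_858
import Crest.Agent.R012.KRho2_813
import Crest.Agent.R012.SymK_645

/-!
# Row 12, (M): the mean square theorem `MS1`, unconditionally

* `MS0_of_Lim4d` : helper663's final assembly with the loss `(1+B)^δ`.
* `K1` : helper384's `K1_Prop` from helper858's norm bound.
* `ms1` : `∃ ρ, M49.MS1 ρ`.
-/

set_option autoImplicit false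

noncomputable section

open MeasureTheory Complex Set Filter Topology
open Crest.Agent.R012.Eis
open scoped ComplexConjugate ENNReal ContDiff

namespace Crest.Agent.R012.MS1_47

open Crest.Agent.R012 Crest.Agent.R012.M49 Crest.Agent.R012.Four813
open Crest.Agent.R012.Parseval499 Crest.Agent.R012.TIt663

/-- output of the limit step, loss `(1+B)^δ`. -/
def Lim4d (φ : ℂ → ℂ) (ρ : Eis → ℂ) : Prop :=
  ∀ (l : ℤ) (w : ℝ → ℂ), Wt w → ∀ δ : ℝ, 0 < δ → ∃ C : ℝ, ∀ (t s B r : ℝ), 0 < s →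
    s * (1 + |t|) ≤ 1 → 0 < B →
    0 < r → ∀ S : Finset Eis, LimI φ ρ w l t s B r S ≤
      ENNReal.ofReal (C * ((1 + r ^ 4) / r ^ 4) * (B ^ 2 * s ^ 2) * (1 + B) ^ δ)

lemma Lim4d_of {φ : ℂ → ℂ} {ρ : Eis → ℂ} (h : Lim4_47.Lim4 φ ρ) : Lim4d φ ρ := by
  intro l w hw δ hδ
  obtain ⟨C, -, hC⟩ := h l w δ hδ hw
  exact ⟨C, fun t s B r hs hst hB hr S => hC t s B r hs hst hB hr S⟩

lemma pow_absorb {c₀ δ Z B : ℝ} (hc₀ : 0 < c₀) (hδ : 0 < δ) (hZ : 1 ≤ Z) (hB : 0 ≤ B)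
    (hBle : B ≤ c₀ * Z) : (1 + B) ^ δ ≤ (1 + c₀) ^ δ * Z ^ δ := by
  have hZ0 : 0 < Z := by linarith
  rw [← Real.mul_rpow (by positivity) (by positivity)]
  exact Real.rpow_le_rpow (by positivity) (by nlinarith) hδ.le

set_option maxHeartbeats 1600000 in
/-- **the final assembly**, conjugate sums. -/
theorem MS0_of_Lim4d {φ : ℂ → ℂ} (hφ : PhiLow φ) {ρ : Eis → ℂ} (H : Lim4d φ ρ) : MS0 ρ := by
  intro l w hw δ hδ
  obtain ⟨c₀, c, hc₀, hc, hlowφ⟩ := hφ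
  obtain ⟨C₁, hC₁⟩ := H l w hw δ hδ
  obtain ⟨C₂, hC₂⟩ := H l (wD w) (wt_wD hw) δ hδ
  -- nonnegative constants
  set C : ℝ := |C₁| + 4 * |C₂| with hCdef
  have hC0 : 0 ≤ C := by positivity
  -- the log constant
  set Kl : ℝ := (1 + c₀) ^ δ with hKl
  refine ⟨32 / c ^ 2 * C * Kl * (2 + 2 * (c₀ ^ 2)⁻¹), fun N X t hN hX => ?_⟩
  have hN0 : (1 : ℝ) ≤ N := by exact_mod_cast hN
  have hNpos : (0 : ℝ) < N := by linarith
  have hX0 : 0 < X := by linarith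
  set T : ℝ := 1 + |t| with hT
  have hT1 : 1 ≤ T := by have := abs_nonneg t; linarith
  have hT0 : 0 < T := by linarith
  set s : ℝ := T⁻¹ with hs
  have hs0 : 0 < s := inv_pos.mpr hT0
  have hsT : s * (1 + |t|) ≤ 1 := by rw [hs, ← hT, inv_mul_cancel₀ hT0.ne']
  set r : ℝ := Real.sqrt (s * Real.sqrt N / c₀) with hr
  have hr2 : r ^ 2 = s * Real.sqrt N / c₀ := Real.sq_sqrt (by positivity)
  have hr0 : 0 < r := by
    apply Real.sqrt_pos.mpr
    have : 0 < Real.sqrt N := Real.sqrt_pos.mpr hNpos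
    positivity
  have hr4 : r ^ 4 = s ^ 2 * N / c₀ ^ 2 := by
    have : r ^ 4 = (r ^ 2) ^ 2 := by ring
    rw [this, hr2, div_pow, mul_pow, Real.sq_sqrt hNpos.le]
  set B : ℝ := X / r ^ 2 with hB
  have hB0 : 0 < B := by positivity
  have hBX : B * r ^ 2 = X := by rw [hB]; field_simp
  -- weight
  set κ : ℝ := c ^ 2 * s ^ 4 / (16 * r ^ 8) with hκ
  have hκ0 : 0 < κ := by positivity
  have hlow : ∀ u ∈ ball N, ∀ v e : ℂ, r ≤ ‖v‖ → ‖v‖ ≤ 2 * r → 1 / r ≤ ‖e‖ → ‖e‖ ≤ 2 / r →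
      κ ≤ ‖e / v‖ ^ 4 * ‖phat (fun z => φ (z / s)) (frq 3 u * e / v)‖ ^ 2 := by
    intro u hu v e hv1 hv2 he1 he2
    have hv0 : 0 < ‖v‖ := lt_of_lt_of_le hr0 hv1
    have hq1 : 1 / (2 * r ^ 2) ≤ ‖e / v‖ := by
      rw [norm_div, le_div_iff₀ hv0]
      calc 1 / (2 * r ^ 2) * ‖v‖ ≤ 1 / (2 * r ^ 2) * (2 * r) := by gcongr
        _ = 1 / r := by field_simp
        _ ≤ ‖e‖ := he1
    have hq2 : ‖e / v‖ ≤ 2 / r ^ 2 := by
      rw [norm_div, div_le_iff₀ hv0]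
      calc ‖e‖ ≤ 2 / r := he2
        _ = 2 / r ^ 2 * r := by field_simp
        _ ≤ 2 / r ^ 2 * ‖v‖ := by gcongr
    have hξ : s * ‖frq 3 u * e / v‖ ≤ c₀ := by
      rw [mul_div_assoc, norm_mul]
      have h1 : ‖frq 3 u‖ ≤ Real.sqrt N / 5 := by
        refine (norm_frq u).trans ?_
        have : (nm u : ℝ) ≤ N := by exact_mod_cast mem_ball.mp hu
        gcongr
      have hsN : 0 < Real.sqrt N := Real.sqrt_pos.mpr hNpos
      calc s * (‖frq 3 u‖ * ‖e / v‖) ≤ s * (Real.sqrt N / 5 * (2 / r ^ 2)) := by gcongr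
        _ = (2 / 5) * c₀ := by
          rw [hr2]; field_simp
        _ ≤ c₀ := by linarith
    have h2 := hlowφ s hs0 _ hξ
    calc κ = (1 / (2 * r ^ 2)) ^ 4 * (c * s ^ 2) ^ 2 := by
          rw [hκ]; field_simp; ring
      _ ≤ _ := by gcongr
  have hmain := ms_of_LimI φ ρ hw l (t := t) (s := s) hB0 hr0 (ball N) hκ0.le hlow
  rw [hBX] at hmain
  -- the upper bounds
  set E : ℝ := ((1 + r ^ 4) / r ^ 4) * (B ^ 2 * s ^ 2) * (1 + B) ^ δ with hE
  have hE0 : 0 ≤ E := by positivity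
  have hb1 : LimI φ ρ w l t s B r (ball N) ≤ ENNReal.ofReal (|C₁| * E) := by
    refine (hC₁ t s B r hs0 hsT hB0 hr0 (ball N)).trans (ENNReal.ofReal_le_ofReal ?_)
    calc C₁ * ((1 + r ^ 4) / r ^ 4) * (B ^ 2 * s ^ 2) * (1 + B) ^ δ = C₁ * E := by
          rw [hE]; ring
      _ ≤ |C₁| * E := by gcongr; exact le_abs_self _
  have hb2 : LimI φ ρ (wD w) l t s B r (ball N) ≤ ENNReal.ofReal (|C₂| * E) := by
    refine (hC₂ t s B r hs0 hsT hB0 hr0 (ball N)).trans (ENNReal.ofReal_le_ofReal ?_)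
    calc C₂ * ((1 + r ^ 4) / r ^ 4) * (B ^ 2 * s ^ 2) * (1 + B) ^ δ = C₂ * E := by
          rw [hE]; ring
      _ ≤ |C₂| * E := by gcongr; exact le_abs_self _
  have hreal : κ * ∑ u ∈ ball N, ‖DD ρ w l t u X‖ ^ 2 ≤ 2 * (C * E) := by
    have h1 : ENNReal.ofReal (κ * ∑ u ∈ ball N, ‖DD ρ w l t u X‖ ^ 2) ≤
        ENNReal.ofReal (2 * (C * E)) := by
      calc ENNReal.ofReal (κ * ∑ u ∈ ball N, ‖DD ρ w l t u X‖ ^ 2)
          = ENNReal.ofReal κ * ∑ u ∈ ball N, ‖DD ρ w l t u X‖ₑ ^ 2 := by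
            rw [ENNReal.ofReal_mul hκ0.le, ENNReal.ofReal_sum_of_nonneg (fun u _ => by positivity)]
            congr 1
            refine Finset.sum_congr rfl fun u _ => ?_
            rw [ENNReal.ofReal_pow (norm_nonneg _), ofReal_norm]
        _ ≤ 2 * (ENNReal.ofReal (|C₁| * E) + 4 * ENNReal.ofReal (|C₂| * E)) := by
            refine hmain.trans ?_
            gcongr
        _ = ENNReal.ofReal (2 * (C * E)) := by
            rw [show (2 : ℝ≥0∞) = ENNReal.ofReal 2 by simp,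
              show (4 : ℝ≥0∞) = ENNReal.ofReal 4 by simp, ← ENNReal.ofReal_mul (by norm_num),
              ← ENNReal.ofReal_add (by positivity) (by positivity),
              ← ENNReal.ofReal_mul (by norm_num)]
            congr 1
            rw [hCdef]; ring
    exact (ENNReal.ofReal_le_ofReal_iff (by positivity)).mp h1
  -- the logarithm
  have hlog : (1 + B) ^ δ ≤ Kl * (T * X * N) ^ δ := by
    have hBle : B ≤ c₀ * (T * X) := by
      rw [hB, hr2, div_le_iff₀ (by positivity)]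
      have hsN : 1 ≤ Real.sqrt N := Real.one_le_sqrt.mpr hN0
      have : s * T = 1 := inv_mul_cancel₀ hT0.ne'
      calc X = (s * T) * X * 1 := by rw [this]; ring
        _ ≤ (s * T) * X * Real.sqrt N := by gcongr
        _ = c₀ * (T * X) * (s * Real.sqrt N / c₀) := by field_simp
    have hTX : 1 ≤ T * X := one_le_mul_of_one_le_of_one_le hT1 hX
    refine (pow_absorb hc₀ hδ hTX hB0.le hBle).trans ?_
    refine mul_le_mul_of_nonneg_left (Real.rpow_le_rpow (by positivity) ?_ hδ.le) (by positivity)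
    exact le_mul_of_one_le_right (by positivity) hN0
  -- conclusion
  have hfin : ∑ u ∈ ball N, ‖DD ρ w l t u X‖ ^ 2 ≤
      32 / c ^ 2 * C * ((s ^ 2)⁻¹ * (1 + r ^ 4)) * X ^ 2 * (1 + B) ^ δ := by
    have h1 : ∑ u ∈ ball N, ‖DD ρ w l t u X‖ ^ 2 ≤ κ⁻¹ * (2 * (C * E)) := by
      rw [← div_eq_inv_mul, le_div_iff₀ hκ0, mul_comm]
      exact hreal
    refine h1.trans (le_of_eq ?_)
    rw [hκ, hE, hB]
    have hs1 : s ≠ 0 := hs0.ne'
    have hr1 : r ≠ 0 := hr0.ne'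
    have hc1 : c ≠ 0 := hc.ne'
    generalize (1 + X / r ^ 2) ^ δ = L
    clear_value s r C
    clear hlow hmain hb1 hb2 hreal hlog hlowφ hC₁ hC₂
    field_simp
    ring
  have hTt : (s ^ 2)⁻¹ * (1 + r ^ 4) ≤ (2 + 2 * (c₀ ^ 2)⁻¹) * (N + t ^ 2) := by
    have h1 : (s ^ 2)⁻¹ * (1 + r ^ 4) = T ^ 2 + N * (c₀ ^ 2)⁻¹ := by
      rw [hr4, hs]; field_simp
    have h2 : T ^ 2 ≤ 2 * (1 + t ^ 2) := by
      rw [hT]
      nlinarith [sq_abs t, sq_nonneg (1 - |t|)]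
    rw [h1]
    have h3 : 0 ≤ (c₀ ^ 2)⁻¹ := by positivity
    nlinarith [sq_nonneg t, mul_nonneg h3 (sq_nonneg t), mul_nonneg h3 hNpos.le]
  calc ∑ u ∈ ball N, ‖DD ρ w l t u X‖ ^ 2
      ≤ 32 / c ^ 2 * C * ((s ^ 2)⁻¹ * (1 + r ^ 4)) * X ^ 2 * (1 + B) ^ δ := hfin
    _ ≤ 32 / c ^ 2 * C * ((2 + 2 * (c₀ ^ 2)⁻¹) * (N + t ^ 2)) * X ^ 2 *
        (Kl * (T * X * N) ^ δ) := by gcongr
    _ = 32 / c ^ 2 * C * Kl * (2 + 2 * (c₀ ^ 2)⁻¹) * ((1 + |t|) * X * N) ^ δ *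
        ((N + t ^ 2) * X ^ 2) := by rw [← hT]; ring

/-! ### the lower bound of `φ^` -/

lemma phat_scale (φ : ℂ → ℂ) {s : ℝ} (hs : 0 < s) (ξ : ℂ) :
    phat (fun z => φ (z / s)) ξ = ((s ^ 2 : ℝ) : ℂ) * phat φ ((s : ℂ) * ξ) := by
  have ha : (s : ℂ) ≠ 0 := by exact_mod_cast hs.ne'
  unfold phat
  rw [integral_comp_mul_left' ha (fun z => φ (z / s) * eC (-(ξ * z))), Complex.real_smul,
    Complex.norm_real, Real.norm_of_nonneg hs.le]
  congr 2
  funext z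
  rw [mul_div_cancel_left₀ _ ha]
  congr 2
  ring

lemma phiLow_of {φ : ℂ → ℂ} (hint : Integrable φ) (h0 : phat φ 0 ≠ 0) : PhiLow φ := by
  have hc := KRho813.continuous_phat hint
  have hpos : 0 < ‖phat φ 0‖ := norm_pos_iff.mpr h0
  have hev : ∀ᶠ ξ in 𝓝 (0 : ℂ), ‖phat φ 0‖ / 2 < ‖phat φ ξ‖ :=
    (hc.norm.continuousAt (x := (0 : ℂ))).eventually (lt_mem_nhds (by linarith))
  obtain ⟨ε, hε, hball⟩ := Metric.eventually_nhds_iff.mp hev
  refine ⟨ε / 2, ‖phat φ 0‖ / 2, by positivity, by positivity, fun s hs ξ hξ => ?_⟩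
  rw [phat_scale φ hs, norm_mul, Complex.norm_real, Real.norm_of_nonneg (by positivity), mul_comm]
  have h1 : dist ((s : ℂ) * ξ) 0 < ε := by
    rw [dist_zero_right, norm_mul, Complex.norm_real, Real.norm_of_nonneg hs.le]
    linarith
  have := (hball h1).le
  gcongr

/-- **K1**, unconditionally. -/
theorem k1 : ML384.K1_Prop := by
  refine ML384.K1_of_NB ?_
  intro a b l τ ha hab hτ
  obtain ⟨C, hC, h⟩ := Gram858.norm_bound Sym645.syAPI Sym645.syFacts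
    (w := ML384.cut) (ML384.cut_contDiff.of_le (by norm_cast)) (α := 1 / 2) (β := 9 / 2)
    (by norm_num) (by norm_num)
    (fun x hx => ML384.cut_supp hx) ML384.cut_nonneg ha hab hτ
  refine ⟨C, hC, fun K L T om B φ hK hL hT hB hom hφ hφs hφL hl => ?_⟩
  have hT0 : 0 < T := by linarith
  have hs1 : 1 / (4 * T) ≤ 1 := by
    rw [div_le_one (by positivity)]; linarith
  have := h l K L (1 / (4 * T)) B om φ hom.cont.measurable hom.bd hom.supp hl hφ.measurable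
    hφL hφs hB (by positivity) hs1
  refine le_trans this (ENNReal.ofReal_le_ofReal ?_)
  have h1 : (1 / (4 * T)) ^ 2 ≤ (T ^ 2)⁻¹ := by
    rw [div_pow, one_pow, one_div, mul_pow]
    gcongr
    nlinarith [sq_nonneg T]
  have h2 : 0 ≤ (1 + B) ^ τ := by positivity
  gcongr

/-- `∃ ρ, MS1 ρ`. -/
theorem ms1 : ∃ ρ : Eis → ℂ, M49.MS1 ρ := by
  obtain ⟨ρ, hρ⟩ := KRho813.K3_of_K1 k1
  obtain ⟨φ, hφ, hφ0⟩ := KRho813.exists_phi0
  have hint : Integrable φ := by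
    have := KRho813.integrable_dil hφ (T := 1) one_pos
    simpa using this
  exact ⟨_, MS1_of_MS0 (MS0_of_Lim4d (phiLow_of hint hφ0)
    (Lim4d_of (Lim4_47.lim4 k1 hρ hφ)))⟩

end Crest.Agent.R012.MS1_47
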