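import Crest.Agent.R012.TItMS1_663
import Crest.Agent.R012.K1F_384

/-!
# Row 12, (M): the mean square theorem `MS1` (unconditional)
-/

set_option autoImplicit false

namespace Crest.Agent.R012.TIt663

/-- **The mean square theorem.** -/
theorem exists_MS1 : ∃ ρ : Eis → ℂ, M49.MS1 ρ := MS1_of_K1 ML384.k1

end Crest.Agent.R012.TIt663
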