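import Crest.Agent.R012.MSgen_49

/-!
# Row 12, part (M): from one compactly supported weight to all weights, abstract theorem (helper49)
-/

set_option autoImplicit false

noncomputable section

open MeasureTheory Complex Set Filter Topology
open Crest.Agent.R012.Weight600

namespace Crest.Agent.R012.MSgen49

section general

variable {α : Type*} [MeasurableSpace α] {μ : Measure α} [SFinite μ]
  {E : Type*} [NormedAddCommGroup E] [NormedSpace ℂ E] [CompleteSpace E]

/-- `S(w, τ, x) = ∫ w(ν a - x) e^{iτ ν a} c(a) dμ(a)`. -/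
def SG (μ : Measure α) (ν : α → ℝ) (c : α → E) (w : ℝ → ℂ) (τ x : ℝ) : E :=
  ∫ a, (w (ν a - x) * osc τ (ν a)) • c a ∂μ

/-- admissible data. -/
structure Good (μ : Measure α) (ν : α → ℝ) (c : α → E) : Prop where
  mν : Measurable ν
  mc : AEStronglyMeasurable c μ
  int : ∀ x : ℝ, Integrable (fun a => ‖c a‖ * env (ν a - x)) μ

variable {ν : α → ℝ} {c : α → E}

omit [SFinite μ] [CompleteSpace E] in
lemma Good.integrable (h : Good μ ν c) {w : ℝ → ℂ} {M : ℝ} (hw : Continuous w)
    (hb : ∀ u, ‖w u‖ ≤ M * env u) (τ x : ℝ) :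
    Integrable (fun a => (w (ν a - x) * osc τ (ν a)) • c a) μ := by
  refine ((h.int x).const_mul M).mono' ?_ ?_
  · refine AEStronglyMeasurable.smul (Measurable.aestronglyMeasurable ?_) h.mc
    exact (hw.measurable.comp (h.mν.sub_const x)).mul
      ((continuous_osc_right τ).measurable.comp h.mν)
  · refine Eventually.of_forall fun a => ?_
    rw [norm_smul, norm_mul, norm_osc, mul_one]
    calc ‖w (ν a - x)‖ * ‖c a‖ ≤ M * env (ν a - x) * ‖c a‖ := by
          gcongr; exact hb _
      _ = _ := by ring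

omit [SFinite μ] in
lemma hasSum_SG (h : Good μ ν c) {w : ℝ → ℂ} {M : ℝ} (hw : Continuous w)
    (hb : ∀ u, ‖w u‖ ≤ M * env u) (τ x : ℝ) :
    HasSum (fun j : ℤ => SG μ ν c (fun u => (bb (u - j) : ℂ) * w u) τ x) (SG μ ν c w τ x) := by
  unfold SG
  refine hasSum_integral_of_dominated_convergence
    (fun (j : ℤ) a => bb (ν a - x - j) * (M * (‖c a‖ * env (ν a - x))))
    ?_ ?_ ?_ ?_ ?_
  · intro j
    refine AEStronglyMeasurable.smul (Measurable.aestronglyMeasurable ?_) h.mc
    refine Measurable.mul (Measurable.mul ?_ ?_) ?_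
    · exact Complex.measurable_ofReal.comp
        (continuous_bb.measurable.comp ((h.mν.sub_const x).sub_const _))
    · exact hw.measurable.comp (h.mν.sub_const x)
    · exact (continuous_osc_right τ).measurable.comp h.mν
  · intro j
    refine Eventually.of_forall fun a => ?_
    rw [norm_smul, norm_mul, norm_mul, norm_osc, mul_one, Complex.norm_real,
      Real.norm_of_nonneg (bb_nonneg _), mul_assoc]
    apply mul_le_mul_of_nonneg_left _ (bb_nonneg _)
    calc ‖w (ν a - x)‖ * ‖c a‖ ≤ M * env (ν a - x) * ‖c a‖ := by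
          gcongr; exact hb _
      _ = _ := by ring
  · refine Eventually.of_forall fun a => ?_
    exact ((hasSum_bb (ν a - x)).mul_right _).summable
  · refine ((h.int x).const_mul M).congr (Eventually.of_forall fun a => ?_)
    have := ((hasSum_bb (ν a - x)).mul_right
      (M * (‖c a‖ * env (ν a - x)))).tsum_eq
    simp only [one_mul] at this
    exact this.symm
  · refine Eventually.of_forall fun a => ?_
    have h1 : HasSum (fun j : ℤ => (bb (ν a - x - j) : ℂ)) 1 := by
      have h0 := Complex.hasSum_ofReal.mpr (hasSum_bb (ν a - x))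
      rw [Complex.ofReal_one] at h0
      exact h0
    have h2 := (h1.mul_right (w (ν a - x) * osc τ (ν a))).smul_const (c a)
    rw [one_mul] at h2
    convert h2 using 2
    rw [mul_assoc]

/-- support of `bb` inside `chi = 1`. -/
lemma bb_mul_gj (w : ℝ → ℂ) (j : ℤ) (u : ℝ) : (bb u : ℂ) * gj w j u = bb u * w (u + j) := by
  by_cases h : bb u = 0
  · simp [h]
  · have := bb_ne_zero h
    rw [gj, chi_one this.1.le this.2.le, one_mul]

lemma gj_continuous {w : ℝ → ℂ} (hw : Continuous w) (j : ℤ) : Continuous (gj w j) := by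
  unfold gj
  exact contDiff_chi.continuous.mul (hw.comp (continuous_id.add continuous_const))

lemma gj_compact (w : ℝ → ℂ) (j : ℤ) : HasCompactSupport (gj w j) := by
  apply HasCompactSupport.intro (isCompact_Icc (a := (-3 : ℝ)) (b := 4))
  intro u hu
  have : u < -3 ∨ 4 < u := by
    by_contra hc
    push Not at hc
    exact hu ⟨hc.1, hc.2⟩
  rw [gj, chi_zero this, zero_mul]

lemma integrable_pow3 : Integrable (fun t : ℝ => 1 / (1 + |t|) ^ 3) := by
  have := integrable_one_add_norm (E := ℝ) (μ := volume) (r := 3) (by simp)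
  refine this.congr (Eventually.of_forall fun t => ?_)
  simp only [Real.norm_eq_abs]
  rw [Real.rpow_neg (by positivity)]
  have : ((3 : ℝ)) = ((3 : ℕ) : ℝ) := by norm_num
  rw [this, Real.rpow_natCast, one_div]

lemma ker_gj_integrable {w : ℝ → ℂ} {M : ℝ} (hw : LogW w M) (j : ℤ) :
    Integrable (ker (gj w j)) := by
  obtain ⟨C, hC, h⟩ := exists_ker_bound
  refine (integrable_pow3.const_mul (C * M * env j)).mono' ?_ ?_
  · exact (continuous_ker ((gj_continuous hw.continuous j).integrable_of_hasCompactSupport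
      (gj_compact w j))).aestronglyMeasurable
  · refine Eventually.of_forall fun t => ?_
    refine (h w M hw j t).trans (le_of_eq ?_)
    ring

lemma gj_inversion {w : ℝ → ℂ} {M : ℝ} (hw : LogW w M) (j : ℤ) (u : ℝ) :
    ∫ t, ker (gj w j) t * osc t u = gj w j u :=
  inversion (gj_continuous hw.continuous j)
    ((gj_continuous hw.continuous j).integrable_of_hasCompactSupport (gj_compact w j))
    (ker_gj_integrable hw j) u

/-- `bb` as a bounded weight. -/
lemma bb_env (u : ℝ) : ‖(bb u : ℂ)‖ ≤ (1 + Real.exp 2) ^ 2 * env u := by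
  rw [Complex.norm_real, Real.norm_of_nonneg (bb_nonneg _)]
  by_cases h : bb u = 0
  · rw [h]; have := env_pos u; positivity
  · have h1 := bb_ne_zero h
    have h2 : Real.exp u ≤ Real.exp 2 := Real.exp_le_exp.mpr h1.2.le
    have h3 : (1 : ℝ) ≤ (1 + Real.exp (-u)) ^ ((1 : ℝ) / 4) :=
      Real.one_le_rpow (by linarith [Real.exp_pos (-u)]) (by norm_num)
    have h4 : (1 + Real.exp 2) ^ 2 * env u =
      (1 + Real.exp (-u)) ^ ((1 : ℝ) / 4) * ((1 + Real.exp 2) ^ 2 / (1 + Real.exp u) ^ 2) := by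
      unfold env; ring
    rw [h4]
    have h5 : (1 : ℝ) ≤ (1 + Real.exp 2) ^ 2 / (1 + Real.exp u) ^ 2 := by
      rw [le_div_iff₀ (by positivity), one_mul]
      gcongr
    have h6 := bb_le_one u
    nlinarith

/-- The joint integrand. -/
lemma joint_integrable (h : Good μ ν c) {w : ℝ → ℂ} {M : ℝ} (hw : LogW w M) (τ x : ℝ) (j : ℤ) :
    Integrable (Function.uncurry fun (a : α) (t : ℝ) =>
      (ker (gj w j) t * osc t (-(x + j))) •
        (((bb (ν a - (x + j)) : ℂ) * osc (τ + t) (ν a)) • c a)) (μ.prod volume) := by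
  have hbb : Continuous fun u : ℝ => (bb u : ℂ) := Complex.continuous_ofReal.comp continuous_bb
  have h1 := (h.integrable hbb bb_env τ (x + j)).norm
  have h2 := (ker_gj_integrable hw j).norm
  refine (h1.mul_prod h2).mono' ?_ ?_
  · refine AEStronglyMeasurable.smul ?_ (AEStronglyMeasurable.smul ?_ ?_)
    · refine Measurable.aestronglyMeasurable (Measurable.mul ?_ ?_)
      · exact (continuous_ker ((gj_continuous hw.continuous j).integrable_of_hasCompactSupport
          (gj_compact w j))).measurable.comp measurable_snd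
      · exact (continuous_osc_left _).measurable.comp measurable_snd
    · refine Measurable.aestronglyMeasurable (Measurable.mul ?_ ?_)
      · exact hbb.measurable.comp ((h.mν.comp measurable_fst).sub_const _)
      · exact continuous_osc.measurable.comp
          ((measurable_const.add measurable_snd).prodMk (h.mν.comp measurable_fst))
    · exact h.mc.comp_fst
  · refine Eventually.of_forall fun p => ?_
    simp only [Function.uncurry]
    rw [norm_smul, norm_smul, norm_smul, norm_mul, norm_mul, norm_mul, norm_osc, norm_osc,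
      norm_osc, mul_one, mul_one]
    apply le_of_eq; ring

lemma SG_cell (h : Good μ ν c) {w : ℝ → ℂ} {M : ℝ} (hw : LogW w M) (τ x : ℝ) (j : ℤ) :
    SG μ ν c (fun u => (bb (u - j) : ℂ) * w u) τ x =
      ∫ t, (ker (gj w j) t * osc t (-(x + j))) •
        SG μ ν c (fun u => (bb u : ℂ)) (τ + t) (x + j) := by
  unfold SG
  have hsw := integral_integral_swap (joint_integrable h hw τ x j)
  have e1 : ∀ t : ℝ, (ker (gj w j) t * osc t (-(x + j))) •
        (∫ a, ((bb (ν a - (x + j)) : ℂ) * osc (τ + t) (ν a)) • c a ∂μ) =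
      ∫ a, (ker (gj w j) t * osc t (-(x + j))) •
        (((bb (ν a - (x + j)) : ℂ) * osc (τ + t) (ν a)) • c a) ∂μ := by
    intro t
    rw [integral_smul]
  simp_rw [e1]
  rw [← hsw]
  refine integral_congr_ae (Eventually.of_forall fun a => ?_)
  simp only
  have e2 : ∀ t : ℝ, (ker (gj w j) t * osc t (-(x + j))) •
        (((bb (ν a - (x + j)) : ℂ) * osc (τ + t) (ν a)) • c a) =
      (((bb (ν a - (x + j)) : ℂ) * osc τ (ν a)) *
        (ker (gj w j) t * osc t (ν a - (x + j)))) • c a := by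
    intro t
    rw [smul_smul, osc_add_left, sub_eq_add_neg (ν a) (x + j), osc_add_right t (ν a)]
    congr 1
    ring
  simp_rw [e2]
  rw [integral_smul_const, integral_const_mul, gj_inversion hw j]
  congr 1
  have h3 := bb_mul_gj w j (ν a - (x + j))
  have e4 : ν a - x - j = ν a - (x + j) := by ring
  have e5 : ν a - (x + j) + j = ν a - x := by ring
  rw [e5] at h3
  rw [e4]
  calc (bb (ν a - (x + j)) : ℂ) * w (ν a - x) * osc τ (ν a)
      = ((bb (ν a - (x + j)) : ℂ) * gj w j (ν a - (x + j))) * osc τ (ν a) := by rw [h3]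
    _ = _ := by ring

lemma SG_cell_integrable (h : Good μ ν c) {w : ℝ → ℂ} {M : ℝ} (hw : LogW w M) (τ x : ℝ) (j : ℤ) :
    Integrable (fun t => (ker (gj w j) t * osc t (-(x + j))) •
        SG μ ν c (fun u => (bb u : ℂ)) (τ + t) (x + j)) := by
  have := (joint_integrable h hw τ x j).integral_prod_right
  refine this.congr (Eventually.of_forall fun t => ?_)
  simp only [Function.uncurry, SG]
  rw [integral_smul]

end general

/-! ### The bound -/

/-- `Σ_j (1+e^j)^δ env(j) e^{j/2}`. -/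
lemma summable_dyadic {δ : ℝ} (hδ : 0 < δ) (hδ1 : δ ≤ 1 / 2) :
    Summable (fun j : ℤ => (1 + Real.exp j) ^ δ * env j * Real.exp (j / 2)) := by
  have hg : Summable (fun n : ℕ => 2 * Real.exp (-(n / 4 : ℝ))) := by
    have : ∀ n : ℕ, Real.exp (-(n / 4 : ℝ)) = (Real.exp (-(1 / 4))) ^ n := by
      intro n
      rw [← Real.exp_nat_mul]; congr 1; ring
    simp_rw [this]
    exact (summable_geometric_of_lt_one (Real.exp_pos _).le
      (Real.exp_lt_one_iff.mpr (by norm_num))).mul_left 2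
  have hE : ∀ u : ℝ, (1 + Real.exp u) ^ δ * env u =
      (1 + Real.exp u) ^ (δ - 2) * (1 + Real.exp (-u)) ^ ((1 : ℝ) / 4) := by
    intro u
    have h0 : 0 < 1 + Real.exp u := by positivity
    unfold env
    rw [Real.rpow_sub h0, Real.rpow_two]; ring
  have hnn : ∀ u : ℝ, 0 ≤ (1 + Real.exp u) ^ δ * env u := fun u => by
    have := env_pos u; positivity
  apply Summable.of_nat_of_neg
  · refine Summable.of_nonneg_of_le (fun n => by
      have := hnn ((n : ℕ) : ℝ); push_cast; positivity) (fun n => ?_) hg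
    push_cast
    rw [hE]
    have hn0 : (0 : ℝ) ≤ n := Nat.cast_nonneg n
    have h1 : (1 + Real.exp n) ^ (δ - 2) ≤ (Real.exp n) ^ (δ - 2) :=
      Real.rpow_le_rpow_of_nonpos (Real.exp_pos _) (by linarith [Real.exp_pos (n : ℝ)])
        (by linarith)
    have h2 : (1 + Real.exp (-(n : ℝ))) ^ ((1 : ℝ) / 4) ≤ 2 := by
      have h3 : Real.exp (-(n : ℝ)) ≤ 1 := Real.exp_le_one_iff.mpr (by linarith)
      calc (1 + Real.exp (-(n : ℝ))) ^ ((1 : ℝ) / 4) ≤ (1 + Real.exp (-(n : ℝ))) ^ (1 : ℝ) :=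
            Real.rpow_le_rpow_of_exponent_le (by linarith [Real.exp_pos (-(n : ℝ))]) (by norm_num)
        _ ≤ 2 := by rw [Real.rpow_one]; linarith
    calc (1 + Real.exp n) ^ (δ - 2) * (1 + Real.exp (-(n : ℝ))) ^ ((1 : ℝ) / 4) *
          Real.exp (n / 2)
        ≤ (Real.exp n) ^ (δ - 2) * 2 * Real.exp (n / 2) := by gcongr
      _ = 2 * Real.exp (n * (δ - 2) + n / 2) := by
          rw [← Real.exp_mul, Real.exp_add]; ring
      _ ≤ 2 * Real.exp (-(n / 4)) := by
          gcongr
          nlinarith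
  · refine Summable.of_nonneg_of_le (fun n => by
      have := hnn (-((n : ℕ) : ℝ)); push_cast; positivity) (fun n => ?_) hg
    push_cast
    rw [hE, neg_neg]
    have hn0 : (0 : ℝ) ≤ n := Nat.cast_nonneg n
    have h1 : (1 + Real.exp (-n)) ^ (δ - 2) ≤ 1 :=
      Real.rpow_le_one_of_one_le_of_nonpos (by linarith [Real.exp_pos (-(n : ℝ))]) (by linarith)
    have h2 : (1 + Real.exp (n : ℝ)) ^ ((1 : ℝ) / 4) ≤ 2 * Real.exp (n / 4) := by
      have h3 : 1 ≤ Real.exp (n : ℝ) := Real.one_le_exp hn0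
      calc (1 + Real.exp (n : ℝ)) ^ ((1 : ℝ) / 4) ≤ (2 * Real.exp (n : ℝ)) ^ ((1 : ℝ) / 4) :=
            Real.rpow_le_rpow (by positivity) (by linarith) (by norm_num)
        _ = 2 ^ ((1 : ℝ) / 4) * Real.exp (n / 4) := by
            rw [Real.mul_rpow (by norm_num) (by positivity), ← Real.exp_mul]
            congr 2; ring
        _ ≤ 2 ^ (1 : ℝ) * Real.exp (n / 4) := by
            gcongr
            · norm_num
            · norm_num
        _ = _ := by rw [Real.rpow_one]
    calc (1 + Real.exp (-n)) ^ (δ - 2) * (1 + Real.exp (n : ℝ)) ^ ((1 : ℝ) / 4) *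
          Real.exp (-n / 2)
        ≤ 1 * (2 * Real.exp (n / 4)) * Real.exp (-n / 2) := by gcongr
      _ = 2 * Real.exp (-(n / 4)) := by
          rw [one_mul, mul_assoc, ← Real.exp_add]; congr 2; ring

lemma integrable_dyadic {δ : ℝ} (hδ1 : δ ≤ 1 / 2) :
    Integrable (fun t : ℝ => (1 + |t|) ^ (δ - 2)) := by
  have := integrable_one_add_norm (E := ℝ) (μ := volume) (r := 2 - δ) (by simp; linarith)
  refine this.congr (Eventually.of_forall fun t => ?_)
  simp only [Real.norm_eq_abs]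
  congr 1; ring

/-- total constant. -/
def CG (δ : ℝ) : ℝ := exists_ker_bound.choose *
  (∑' j : ℤ, (1 + Real.exp j) ^ δ * env j * Real.exp (j / 2)) * ∫ t : ℝ, (1 + |t|) ^ (δ - 2)

lemma CG_nonneg (δ : ℝ) : 0 ≤ CG δ := by
  unfold CG
  have := exists_ker_bound.choose_spec.1
  have h2 : 0 ≤ ∑' j : ℤ, (1 + Real.exp j) ^ δ * env j * Real.exp (j / 2) :=
    tsum_nonneg fun j => by have := env_pos (j : ℝ); positivity
  have h3 : 0 ≤ ∫ t : ℝ, (1 + |t|) ^ (δ - 2) := integral_nonneg fun t => by positivity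
  positivity

/-- **Abstract general weight theorem.** -/
theorem gen_bound {α₁ α₂ : Type*} [MeasurableSpace α₁] [MeasurableSpace α₂]
    {μ₁ : Measure α₁} {μ₂ : Measure α₂} [SFinite μ₁] [SFinite μ₂]
    {E : Type*} [NormedAddCommGroup E] [NormedSpace ℂ E] [CompleteSpace E]
    {ν₁ : α₁ → ℝ} {ν₂ : α₂ → ℝ} {c₁ : α₁ → E} {c₂ : α₂ → E}
    (h₁ : Good μ₁ ν₁ c₁) (h₂ : Good μ₂ ν₂ c₂) {δ : ℝ} (hδ : 0 < δ) (hδ1 : δ ≤ 1 / 2)
    {K A : ℝ} (hK : 0 ≤ K) (hA : 1 ≤ A)
    (hyp : ∀ τ x : ℝ, ‖SG μ₁ ν₁ c₁ (fun u => (bb u : ℂ)) τ x -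
        SG μ₂ ν₂ c₂ (fun u => (bb u : ℂ)) τ x‖ ≤
      K * ((1 + |τ|) * (1 + Real.exp x)) ^ δ * (A + |τ|) * Real.exp (x / 2))
    {w : ℝ → ℂ} {M : ℝ} (hw : LogW w M) (τ x : ℝ) :
    ‖SG μ₁ ν₁ c₁ w τ x - SG μ₂ ν₂ c₂ w τ x‖ ≤
      CG δ * K * M * ((1 + |τ|) * (1 + Real.exp x)) ^ δ * (A + |τ|) * Real.exp (x / 2) := by
  have hM := hw.M_nonneg
  have hC := exists_ker_bound.choose_spec.1
  have hCb := exists_ker_bound.choose_spec.2
  set C := exists_ker_bound.choose with hCdef
  have s1 := hasSum_SG h₁ hw.continuous hw.bound τ x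
  have s2 := hasSum_SG h₂ hw.continuous hw.bound τ x
  have s3 := s1.sub s2
  set Q : ℝ := C * M * K * ((1 + |τ|) * (1 + Real.exp x)) ^ δ * (A + |τ|) * Real.exp (x / 2) *
    ∫ t : ℝ, (1 + |t|) ^ (δ - 2) with hQ
  have s4 := (summable_dyadic hδ hδ1).hasSum.mul_left Q
  have s5 := HasSum.norm_le_of_bounded s3 s4 ?_
  · refine s5.trans (le_of_eq ?_)
    rw [hQ, CG, ← hCdef]; ring
  intro j
  rw [SG_cell h₁ hw, SG_cell h₂ hw, ← integral_sub (SG_cell_integrable h₁ hw τ x j)
    (SG_cell_integrable h₂ hw τ x j)]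
  have hb : ∀ t : ℝ, ‖(ker (gj w j) t * osc t (-(x + j))) •
        SG μ₁ ν₁ c₁ (fun u => (bb u : ℂ)) (τ + t) (x + j) -
      (ker (gj w j) t * osc t (-(x + j))) •
        SG μ₂ ν₂ c₂ (fun u => (bb u : ℂ)) (τ + t) (x + j)‖ ≤
      (C * M * K * ((1 + |τ|) * (1 + Real.exp x)) ^ δ * (A + |τ|) * Real.exp (x / 2) *
        ((1 + Real.exp j) ^ δ * env j * Real.exp (j / 2))) * (1 + |t|) ^ (δ - 2) := by
    intro t
    rw [← smul_sub, norm_smul, norm_mul, norm_osc, mul_one]
    have ht0 : (0 : ℝ) < 1 + |t| := by positivity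
    have hj0 : (0 : ℝ) < 1 + Real.exp j := by positivity
    have hp := hyp (τ + t) (x + j)
    have hk := hCb w M hw j t
    have a1 : 1 + |τ + t| ≤ (1 + |τ|) * (1 + |t|) := by
      have := abs_add_le τ t
      nlinarith [abs_nonneg τ, abs_nonneg t, mul_nonneg (abs_nonneg τ) (abs_nonneg t)]
    have a2 : 1 + Real.exp (x + j) ≤ (1 + Real.exp x) * (1 + Real.exp j) := by
      rw [Real.exp_add]
      nlinarith [Real.exp_pos x, Real.exp_pos (j : ℝ),
        mul_pos (Real.exp_pos x) (Real.exp_pos (j : ℝ))]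
    have a3 : A + |τ + t| ≤ (A + |τ|) * (1 + |t|) := by
      have := abs_add_le τ t
      nlinarith [abs_nonneg τ, abs_nonneg t, mul_nonneg (abs_nonneg τ) (abs_nonneg t)]
    have a4 : Real.exp ((x + j) / 2) = Real.exp (x / 2) * Real.exp (j / 2) := by
      rw [← Real.exp_add]; congr 1; ring
    have a5 : ((1 + |τ + t|) * (1 + Real.exp (x + j))) ^ δ ≤
        ((1 + |τ|) * (1 + Real.exp x)) ^ δ * ((1 + |t|) ^ δ * (1 + Real.exp j) ^ δ) := by
      rw [← Real.mul_rpow ht0.le hj0.le, ← Real.mul_rpow (by positivity) (by positivity)]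
      apply Real.rpow_le_rpow (by positivity) _ hδ.le
      calc (1 + |τ + t|) * (1 + Real.exp (x + j))
          ≤ ((1 + |τ|) * (1 + |t|)) * ((1 + Real.exp x) * (1 + Real.exp j)) := by gcongr
        _ = _ := by ring
    have a6 : ‖SG μ₁ ν₁ c₁ (fun u => (bb u : ℂ)) (τ + t) (x + j) -
        SG μ₂ ν₂ c₂ (fun u => (bb u : ℂ)) (τ + t) (x + j)‖ ≤
        K * (((1 + |τ|) * (1 + Real.exp x)) ^ δ * ((1 + |t|) ^ δ * (1 + Real.exp j) ^ δ)) *
          ((A + |τ|) * (1 + |t|)) * (Real.exp (x / 2) * Real.exp (j / 2)) := by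
      rw [← a4]
      refine hp.trans ?_
      gcongr
    have b1 : (1 + |t|) ^ (δ - 2) = (1 + |t|) ^ δ * (1 + |t|) / (1 + |t|) ^ 3 := by
      have : (δ - 2) = δ + 1 - 3 := by ring
      rw [this, Real.rpow_sub ht0, Real.rpow_add ht0, Real.rpow_one]
      congr 1
      have : ((3 : ℝ)) = ((3 : ℕ) : ℝ) := by norm_num
      rw [this, Real.rpow_natCast]
    have henv := env_pos (j : ℝ)
    calc ‖ker (gj w j) t‖ * _ ≤ (C * M * env j / (1 + |t|) ^ 3) *
          (K * (((1 + |τ|) * (1 + Real.exp x)) ^ δ * ((1 + |t|) ^ δ * (1 + Real.exp j) ^ δ)) *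
          ((A + |τ|) * (1 + |t|)) * (Real.exp (x / 2) * Real.exp (j / 2))) :=
          mul_le_mul hk a6 (norm_nonneg _) (by positivity)
      _ = _ := by rw [b1]; ring
  refine (norm_integral_le_of_norm_le ((integrable_dyadic hδ1).const_mul _)
    (Eventually.of_forall hb)).trans (le_of_eq ?_)
  rw [integral_const_mul, hQ]; ring

end Crest.Agent.R012.MSgen49
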