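import Crest.Agent.R012.MSgenB_49
import Crest.Agent.R012.Div_277

/-!
# Row 12, part (M): general weights for arithmetic sums (helper49)

`arith_gen`: for a finite family of coefficient functions `cf h d` (`h ∈ s`), a mean square
asymptotic formula for the ONE weight `v0` (uniform in `X > 0`, `τ`) implies the same for all
weights `W` with `LogW (fun u => W (exp u)) M`.
-/

set_option autoImplicit false

noncomputable section

open MeasureTheory Complex Set Filter Topology
open Crest.Agent.R012.Weight600 Crest.Agent.R012.Eis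

namespace Crest.Agent.R012.MSgen49

/-! ### Mellin transform in the logarithmic variable -/

lemma ofReal_exp_cpow (u : ℝ) (z : ℂ) : ((Real.exp u : ℝ) : ℂ) ^ z = cexp (z * u) := by
  rw [Complex.cpow_def_of_ne_zero (by exact_mod_cast (Real.exp_pos u).ne'),
    ← Complex.ofReal_log (Real.exp_pos u).le, Real.log_exp, mul_comm]

lemma mellin_eq_log (f : ℝ → ℂ) (s : ℂ) :
    mellin f s = ∫ v : ℝ, f (Real.exp v) * cexp (s * v) := by
  rw [mellin]
  have himg : Real.exp '' univ = Ioi 0 := by rw [image_univ, Real.range_exp]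
  rw [← himg, integral_image_eq_integral_abs_deriv_smul MeasurableSet.univ
    (fun x _ => (Real.hasDerivAt_exp x).hasDerivWithinAt) Real.exp_injective.injOn,
    Measure.restrict_univ]
  refine integral_congr_ae (Eventually.of_forall fun u => ?_)
  simp only
  rw [ofReal_exp_cpow, abs_of_pos (Real.exp_pos u), Complex.real_smul, smul_eq_mul,
    Complex.ofReal_exp, ← mul_assoc, ← Complex.exp_add, mul_comm]
  congr 2
  ring

/-- the fixed weight. -/
def v0 (x : ℝ) : ℂ := if 0 < x then (bb (Real.log x) : ℂ) else 0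

lemma v0_exp (u : ℝ) : v0 (Real.exp u) = bb u := by
  unfold v0; rw [if_pos (Real.exp_pos u), Real.log_exp]

lemma v0_wt : M49.Wt v0 := by
  refine ⟨?_, Real.exp (-1), Real.exp 2, Real.exp_pos _, Real.exp_lt_exp.mpr (by norm_num), ?_⟩
  · rw [contDiff_iff_contDiffAt]
    intro x
    rcases lt_or_ge x (Real.exp (-1)) with h | h
    · have : v0 =ᶠ[𝓝 x] fun _ => 0 := by
        filter_upwards [isOpen_Iio.mem_nhds h] with y hy
        unfold v0
        split_ifs with h0
        · rw [bb_of_le]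
          · simp
          · rw [← Real.log_exp (-1)]
            exact Real.log_le_log h0 (le_of_lt hy)
        · rfl
      exact contDiffAt_const.congr_of_eventuallyEq this
    · have hx : 0 < x := (Real.exp_pos _).trans_le h
      have : v0 =ᶠ[𝓝 x] fun y => (bb (Real.log y) : ℂ) := by
        filter_upwards [isOpen_Ioi.mem_nhds hx] with y hy
        unfold v0
        rw [if_pos (show (0 : ℝ) < y from hy)]
      refine ContDiffAt.congr_of_eventuallyEq ?_ this
      have h1 : ContDiffAt ℝ ((⊤ : ℕ∞) : WithTop ℕ∞) (fun y => bb (Real.log y)) x :=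
        (contDiff_bb.contDiffAt).comp x (Real.contDiffAt_log.mpr hx.ne')
      exact (Complex.ofRealCLM.contDiff.contDiffAt).comp x h1
  · intro x hx
    unfold v0
    split_ifs with h0
    · rcases hx with hx | hx
      · rw [bb_of_le]
        · simp
        · rw [← Real.log_exp (-1)]
          exact Real.log_le_log h0 hx.le
      · rw [bb_of_ge]
        · simp
        · rw [← Real.log_exp 2]
          exact Real.log_le_log (Real.exp_pos _) hx.le
    · rfl

/-! ### The arithmetic sums -/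

open Classical in
/-- `Σ_{d primary} cf(h,d) W(N d/X) (N d)^{iτ}`. -/
def Sar (cf : Eis → Eis → ℂ) (W : ℝ → ℂ) (τ X : ℝ) (h : Eis) : ℂ :=
  ∑' d : Eis, (if IsPrim d then cf h d * W (nm d / X) * (nm d : ℂ) ^ ((τ : ℂ) * I) else 0)

open Classical in
/-- vector of coefficients. -/
def cvec (s : Finset Eis) (cf : Eis → Eis → ℂ) (d : Eis) : EuclideanSpace ℂ s :=
  WithLp.toLp 2 (fun h : s => if IsPrim d then cf h d else 0)

lemma norm_cvec_le {s : Finset Eis} {cf : Eis → Eis → ℂ} {B : ℝ} (hB : 0 ≤ B)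
    (hcf : ∀ h ∈ s, ∀ d, IsPrim d → ‖cf h d‖ ≤ B * Real.sqrt (nm d)) (d : Eis) :
    ‖cvec s cf d‖ ≤ Real.sqrt s.card * (B * Real.sqrt (nm d)) := by
  have h1 : ‖cvec s cf d‖ ^ 2 ≤ (Real.sqrt s.card * (B * Real.sqrt (nm d))) ^ 2 := by
    rw [EuclideanSpace.norm_sq_eq, mul_pow, Real.sq_sqrt (by positivity)]
    calc ∑ i : s, ‖(cvec s cf d) i‖ ^ 2 ≤ ∑ i : s, (B * Real.sqrt (nm d)) ^ 2 := by
          apply Finset.sum_le_sum
          intro i _
          apply pow_le_pow_left₀ (norm_nonneg _)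
          simp only [cvec]
          split_ifs with hd
          · exact hcf i i.2 d hd
          · simp; positivity
      _ = _ := by simp
  exact (sq_le_sq₀ (norm_nonneg _) (by positivity)).mp h1

lemma summable_nm_32 : Summable (fun d : Eis => if d = 0 then (0 : ℝ) else
    1 / ((nm d : ℝ) * Real.sqrt (nm d))) := by
  have hf : Summable (fun n : ℕ => 1 / ((n : ℝ) ^ ((3 : ℝ) / 2))) :=
    Real.summable_one_div_nat_rpow.mpr (by norm_num)
  have e : ∀ n : ℕ, 1 / ((n : ℝ) * Real.sqrt n) = 1 / ((n : ℝ) ^ ((3 : ℝ) / 2)) := by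
    intro n
    rcases Nat.eq_zero_or_pos n with h | h
    · simp [h]
    · have hn : (0 : ℝ) < n := by exact_mod_cast h
      rw [Real.sqrt_eq_rpow]
      congr 1
      nth_rewrite 1 [← Real.rpow_one (n : ℝ)]
      rw [← Real.rpow_add hn]; norm_num
  refine summable_of_sum_le (c := 100 * ∑' n : ℕ, 1 / ((n : ℝ) ^ ((3 : ℝ) / 2)))
    (fun d => by dsimp only; split_ifs <;> positivity) (fun u => ?_)
  set Xm : ℕ := u.sup nm with hX
  have h1 : ∑ d ∈ u, (if d = 0 then (0 : ℝ) else 1 / ((nm d : ℝ) * Real.sqrt (nm d))) ≤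
      ∑ d ∈ Div277.nz Xm, (fun n : ℕ => 1 / ((n : ℝ) ^ ((3 : ℝ) / 2))) (nm d) := by
    rw [← Finset.sum_filter_add_sum_filter_not u (fun d => d = 0)]
    have h2 : ∑ d ∈ u with d = 0, (if d = 0 then (0 : ℝ) else
        1 / ((nm d : ℝ) * Real.sqrt (nm d))) = 0 := by
      apply Finset.sum_eq_zero
      intro d hd
      rw [if_pos (Finset.mem_filter.mp hd).2]
    rw [h2, zero_add]
    calc ∑ d ∈ u with ¬ d = 0, (if d = 0 then (0 : ℝ) else
        1 / ((nm d : ℝ) * Real.sqrt (nm d))) =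
        ∑ d ∈ u with ¬ d = 0, 1 / ((nm d : ℝ) ^ ((3 : ℝ) / 2)) := by
          apply Finset.sum_congr rfl
          intro d hd
          rw [if_neg (Finset.mem_filter.mp hd).2, e]
      _ ≤ _ := by
          apply Finset.sum_le_sum_of_subset_of_nonneg
          · intro d hd
            rw [Div277.mem_nz]
            have := Finset.mem_filter.mp hd
            exact ⟨this.2, Finset.le_sup this.1⟩
          · intro d _ _; positivity
  refine h1.trans ?_
  refine (Div277.sum_antitone_le (fun n : ℕ => 1 / ((n : ℝ) ^ ((3 : ℝ) / 2))) ?_ ?_ Xm).trans ?_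
  · intro m hm
    have hm' : (0 : ℝ) < m := by exact_mod_cast hm
    apply one_div_le_one_div_of_le (by positivity)
    apply Real.rpow_le_rpow hm'.le _ (by norm_num)
    push_cast; linarith
  · intro m; positivity
  · gcongr
    exact hf.sum_le_tsum _ (fun n _ => by positivity)

local instance instMSEis : MeasurableSpace Eis := ⊤
local instance instDMEis : DiscreteMeasurableSpace Eis := ⟨fun _ => trivial⟩

lemma good_arith {s : Finset Eis} {cf : Eis → Eis → ℂ} {B : ℝ} (hB : 0 ≤ B)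
    (hcf : ∀ h ∈ s, ∀ d, IsPrim d → ‖cf h d‖ ≤ B * Real.sqrt (nm d)) :
    Good (Measure.count : Measure Eis) (fun d => Real.log (nm d)) (cvec s cf) := by
  refine ⟨measurable_from_top, ?_, ?_⟩
  · exact (measurable_from_top : Measurable (cvec s cf)).aestronglyMeasurable
  · intro x
    rw [integrable_count_iff]
    refine Summable.of_nonneg_of_le (fun d => norm_nonneg _) (fun d => ?_)
      (summable_nm_32.mul_left (Real.sqrt s.card * B * Real.exp (2 * x) *
        (1 + Real.exp x) ^ ((1 : ℝ) / 4)))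
    have henv := env_pos (Real.log (nm d) - x)
    rw [Real.norm_of_nonneg (by positivity)]
    by_cases hd : d = 0
    · have : cvec s cf d = 0 := by
        rw [hd]
        ext h
        simp [cvec, Lat277.isPrim_zero_false]
      rw [this]; simp [hd]
    · rw [if_neg hd]
      have hn : nm d ≠ 0 := fun h => hd (nm_eq_zero.mp h)
      have hn' : (0 : ℝ) < nm d := by positivity
      have hn1 : (1 : ℝ) ≤ nm d := by
        exact_mod_cast Nat.one_le_iff_ne_zero.mpr hn
      unfold env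
      have h0 : Real.exp (-(Real.log (nm d) - x)) ≤ Real.exp x := by
        apply Real.exp_le_exp.mpr
        have := Real.log_nonneg hn1
        linarith
      have h00 : (1 + Real.exp (-(Real.log (nm d) - x))) ^ ((1 : ℝ) / 4) ≤
          (1 + Real.exp x) ^ ((1 : ℝ) / 4) :=
        Real.rpow_le_rpow (by positivity) (by linarith) (by norm_num)
      rw [Real.exp_sub, Real.exp_log hn']
      have h1 : (nm d : ℝ) ^ 2 / Real.exp (2 * x) ≤ (1 + (nm d : ℝ) / Real.exp x) ^ 2 := by
        have : Real.exp (2 * x) = Real.exp x ^ 2 := by rw [← Real.exp_nat_mul]; norm_num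
        rw [this, ← div_pow]
        apply pow_le_pow_left₀ (by positivity)
        linarith
      calc ‖cvec s cf d‖ * ((1 + Real.exp (-(Real.log (nm d) - x))) ^ ((1 : ℝ) / 4) /
            (1 + (nm d : ℝ) / Real.exp x) ^ 2)
          = ‖cvec s cf d‖ * (1 + Real.exp (-(Real.log (nm d) - x))) ^ ((1 : ℝ) / 4) /
            (1 + (nm d : ℝ) / Real.exp x) ^ 2 := by ring
        _ ≤ (Real.sqrt s.card * (B * Real.sqrt (nm d))) * (1 + Real.exp x) ^ ((1 : ℝ) / 4) /
              ((nm d : ℝ) ^ 2 / Real.exp (2 * x)) := by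
            apply div_le_div₀ (by positivity) _ (by positivity) h1
            exact mul_le_mul (norm_cvec_le hB hcf d) h00 (by positivity) (by positivity)
        _ = _ := by
            have hs : Real.sqrt (nm d) ≠ 0 := (Real.sqrt_pos.mpr hn').ne'
            have he := (Real.exp_pos (2 * x)).ne'
            field_simp
            rw [Real.sq_sqrt hn'.le]

lemma summable_arith {s : Finset Eis} {cf : Eis → Eis → ℂ} {B : ℝ} (hB : 0 ≤ B)
    (hcf : ∀ h ∈ s, ∀ d, IsPrim d → ‖cf h d‖ ≤ B * Real.sqrt (nm d)) {w : ℝ → ℂ} {M : ℝ}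
    (hw : Continuous w) (hb : ∀ u, ‖w u‖ ≤ M * env u) (τ x : ℝ) :
    Summable (fun d : Eis => (w (Real.log (nm d) - x) * osc τ (Real.log (nm d))) • cvec s cf d) := by
  have h1 := (good_arith hB hcf).integrable hw hb τ x
  rw [integrable_count_iff] at h1
  exact Summable.of_norm h1

lemma SG_arith {s : Finset Eis} {cf : Eis → Eis → ℂ} {B : ℝ} (hB : 0 ≤ B)
    (hcf : ∀ h ∈ s, ∀ d, IsPrim d → ‖cf h d‖ ≤ B * Real.sqrt (nm d)) {W : ℝ → ℂ} {M : ℝ}
    (hw : Continuous (fun u => W (Real.exp u)))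
    (hb : ∀ u, ‖W (Real.exp u)‖ ≤ M * env u) (τ : ℝ) {X : ℝ}
    (hX : 0 < X) (h : s) :
    (SG Measure.count (fun d : Eis => Real.log (nm d)) (cvec s cf)
      (fun u => W (Real.exp u)) τ (Real.log X)) h = Sar cf W τ X h := by
  unfold SG
  rw [integral_countable ((good_arith hB hcf).integrable hw hb τ _)]
  have hs := summable_arith hB hcf hw hb τ (Real.log X)
  simp only [Measure.real, Measure.count_singleton, ENNReal.toReal_one, one_smul]
  have := (EuclideanSpace.proj h : EuclideanSpace ℂ s →L[ℂ] ℂ).map_tsum hs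
  rw [show (∑' d : Eis, (W (Real.exp (Real.log (nm d) - Real.log X)) * osc τ (Real.log (nm d))) •
    cvec s cf d) h = _ from this]
  unfold Sar
  congr 1
  ext d
  change ((W (Real.exp (Real.log (nm d) - Real.log X)) * osc τ (Real.log (nm d))) •
    cvec s cf d) h = _
  simp only [PiLp.smul_apply, cvec, smul_eq_mul]
  split_ifs with hd
  · have hn : nm d ≠ 0 := fun h0 => hd.ne_zero (nm_eq_zero.mp h0)
    have hn' : (0 : ℝ) < nm d := by positivity
    rw [← Real.log_div hn'.ne' hX.ne', Real.exp_log (by positivity)]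
    have h2 := pw_eq_cpow hn' τ
    unfold pw at h2
    rw [h2]
    push_cast
    ring
  · simp

/-! ### The main term -/

lemma integrable_of_integrable_of_le_on {f g : ℝ → ℝ} (hf : Continuous f)
    (hg : IntegrableOn g (Ioi 0)) (h : ∀ u ∈ Ioi (0 : ℝ), ‖f u‖ ≤ g u) :
    IntegrableOn f (Ioi 0) := by
  refine Integrable.mono' hg hf.aestronglyMeasurable ?_
  rw [ae_restrict_iff' measurableSet_Ioi]
  exact Eventually.of_forall h

lemma integrable_main (x : ℝ) : Integrable (fun u : ℝ =>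
    Real.exp (5 / 6 * u) * env (u - x)) := by
  have hpos : ∀ u : ℝ, 0 < (1 + Real.exp (u - x)) ^ 2 := fun u => by positivity
  have hc : Continuous (fun u : ℝ => Real.exp (5 / 6 * u) * env (u - x)) := by
    unfold env
    refine Continuous.mul (by fun_prop) (Continuous.div ?_ (by fun_prop)
      (fun u => (hpos u).ne'))
    refine Continuous.rpow_const (by fun_prop) (fun u => Or.inl ?_)
    positivity
  rw [← integrableOn_univ, ← Iic_union_Ioi (a := (0 : ℝ))]
  refine IntegrableOn.union ?_ ?_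
  · have h1 : IntegrableOn (fun u : ℝ => Real.exp (5 / 6 * u)) (Iic 0) :=
      integrableOn_exp_mul_Iic (by norm_num) 0
    have h2 : IntegrableOn (fun u : ℝ => Real.exp (x / 4) * Real.exp (7 / 12 * u)) (Iic 0) :=
      (integrableOn_exp_mul_Iic (by norm_num) 0).const_mul _
    refine (h1.add h2).mono' hc.aestronglyMeasurable (Eventually.of_forall fun u => ?_)
    have henv := env_pos (u - x)
    rw [Real.norm_of_nonneg (by positivity)]
    have h3 : (1 + Real.exp (-(u - x))) ^ ((1 : ℝ) / 4) ≤ 1 + Real.exp ((x - u) / 4) := by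
      have := Real.add_rpow_le_rpow_add (p := 4) (a := 1) (b := Real.exp ((x - u) / 4))
        (by norm_num) (by positivity) (by norm_num)
      have h4 : Real.exp ((x - u) / 4) ^ (4 : ℝ) = Real.exp (-(u - x)) := by
        rw [← Real.exp_mul]; congr 1; ring
      rw [Real.one_rpow, h4] at this
      calc (1 + Real.exp (-(u - x))) ^ ((1 : ℝ) / 4)
          ≤ ((1 + Real.exp ((x - u) / 4)) ^ (4 : ℝ)) ^ ((1 : ℝ) / 4) :=
            Real.rpow_le_rpow (by positivity) this (by norm_num)
        _ = _ := by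
            rw [← Real.rpow_mul (by positivity)]; norm_num
    have h5 : env (u - x) ≤ 1 + Real.exp ((x - u) / 4) := by
      unfold env
      refine (div_le_self (by positivity) ?_).trans h3
      have := Real.exp_pos (u - x)
      nlinarith
    calc Real.exp (5 / 6 * u) * env (u - x)
        ≤ Real.exp (5 / 6 * u) * (1 + Real.exp ((x - u) / 4)) := by gcongr
      _ = Real.exp (5 / 6 * u) + Real.exp (5 / 6 * u) * Real.exp ((x - u) / 4) := by ring
      _ = _ := by
          rw [← Real.exp_add]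
          simp only [Pi.add_apply]
          rw [← Real.exp_add]
          congr 2; ring
  · have h1 : IntegrableOn (fun u : ℝ => ((1 + Real.exp x) ^ ((1 : ℝ) / 4) * Real.exp (2 * x)) *
        Real.exp (-(7 / 6) * u)) (Ioi 0) :=
      (integrableOn_exp_mul_Ioi (by norm_num) 0).const_mul _
    refine (integrable_of_integrable_of_le_on hc h1 ?_)
    intro u hu
    have henv := env_pos (u - x)
    have h0 : (1 + Real.exp (-(u - x))) ^ ((1 : ℝ) / 4) ≤ (1 + Real.exp x) ^ ((1 : ℝ) / 4) := by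
      apply Real.rpow_le_rpow (by positivity) _ (by norm_num)
      have : Real.exp (-(u - x)) ≤ Real.exp x := Real.exp_le_exp.mpr (by
        have : (0 : ℝ) < u := hu
        linarith)
      linarith
    have h2 : Real.exp (u - x) ^ 2 ≤ (1 + Real.exp (u - x)) ^ 2 := by
      apply pow_le_pow_left₀ (Real.exp_pos _).le
      linarith
    rw [Real.norm_of_nonneg (by positivity)]
    unfold env
    rw [mul_div_assoc', div_le_iff₀ (hpos u)]
    calc Real.exp (5 / 6 * u) * (1 + Real.exp (-(u - x))) ^ ((1 : ℝ) / 4)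
        ≤ Real.exp (5 / 6 * u) * (1 + Real.exp x) ^ ((1 : ℝ) / 4) := by gcongr
      _ = (1 + Real.exp x) ^ ((1 : ℝ) / 4) *
            (Real.exp (2 * x) * Real.exp (-(7 / 6) * u) * Real.exp (u - x) ^ 2) := by
          rw [← Real.exp_nat_mul, ← Real.exp_add, ← Real.exp_add, mul_comm]
          congr 2; push_cast; ring
      _ ≤ (1 + Real.exp x) ^ ((1 : ℝ) / 4) *
            (Real.exp (2 * x) * Real.exp (-(7 / 6) * u) * (1 + Real.exp (u - x)) ^ 2) := by
          gcongr
      _ = _ := by ring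

lemma good_main {E : Type*} [NormedAddCommGroup E] [NormedSpace ℂ E] (m : E) :
    Good (volume : Measure ℝ) (fun u => u) (fun u : ℝ => cexp ((5 / 6 : ℂ) * u) • m) := by
  refine ⟨measurable_id, ?_, ?_⟩
  · have : Continuous (fun u : ℝ => cexp ((5 / 6 : ℂ) * u) • m) := by fun_prop
    exact this.aestronglyMeasurable
  · intro x
    refine ((integrable_main x).const_mul ‖m‖).congr (Eventually.of_forall fun u => ?_)
    simp only [norm_smul, Complex.norm_exp]
    have : ((5 / 6 : ℂ) * u).re = 5 / 6 * u := by simp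
    rw [this]; ring

lemma SG_main {E : Type*} [NormedAddCommGroup E] [NormedSpace ℂ E] [CompleteSpace E] (m : E)
    (W : ℝ → ℂ) (τ : ℝ) {X : ℝ} (hX : 0 < X) :
    SG volume (fun u : ℝ => u) (fun u : ℝ => cexp ((5 / 6 : ℂ) * u) • m)
      (fun u => W (Real.exp u)) τ (Real.log X) =
      (mellin W ((5 : ℂ) / 6 + τ * I) * (X : ℂ) ^ ((5 : ℂ) / 6 + τ * I)) • m := by
  unfold SG
  rw [mellin_eq_log]
  have hX' : (X : ℂ) ^ ((5 : ℂ) / 6 + τ * I) = cexp (((5 : ℂ) / 6 + τ * I) * Real.log X) := by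
    rw [← ofReal_exp_cpow, Real.exp_log hX]
  rw [hX', ← integral_mul_const, ← integral_smul_const]
  rw [← integral_sub_right_eq_self (fun v : ℝ => (W (Real.exp v) *
    cexp (((5 : ℂ) / 6 + τ * I) * v) * cexp (((5 : ℂ) / 6 + τ * I) * Real.log X)) • m)
    (Real.log X)]
  refine integral_congr_ae (Eventually.of_forall fun u => ?_)
  simp only
  rw [smul_smul]
  congr 1
  rw [mul_assoc, mul_assoc]
  congr 1
  unfold osc
  rw [← Complex.exp_add, ← Complex.exp_add]
  congr 1
  push_cast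
  ring

/-! ### Arithmetic general weight theorem -/

/-- **General weights, mean square version.** -/
theorem arith_gen {s : Finset Eis} {cf : Eis → Eis → ℂ} {m : Eis → ℂ} {B : ℝ} (hB : 0 ≤ B)
    (hcf : ∀ h ∈ s, ∀ d, IsPrim d → ‖cf h d‖ ≤ B * Real.sqrt (nm d))
    {N : ℕ} (hN : 1 ≤ N) {δ : ℝ} (hδ : 0 < δ) (hδ1 : δ ≤ 1) {K : ℝ} (hK : 0 ≤ K)
    (hyp : ∀ X τ : ℝ, 0 < X → ∑ h ∈ s, ‖Sar cf v0 τ X h -
        m h * mellin v0 ((5 : ℂ) / 6 + τ * I) * (X : ℂ) ^ ((5 : ℂ) / 6 + τ * I)‖ ^ 2 ≤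
      K * ((1 + |τ|) * (1 + X)) ^ δ * ((N + τ ^ 2) * X))
    {W : ℝ → ℂ} {M : ℝ} (hW : LogW (fun u => W (Real.exp u)) M) (X τ : ℝ) (hX : 0 < X) :
    ∑ h ∈ s, ‖Sar cf W τ X h -
        m h * mellin W ((5 : ℂ) / 6 + τ * I) * (X : ℂ) ^ ((5 : ℂ) / 6 + τ * I)‖ ^ 2 ≤
      2 * CG (δ / 2) ^ 2 * M ^ 2 * K * ((1 + |τ|) * (1 + X)) ^ δ * ((N + τ ^ 2) * X) := by
  have hM := hW.M_nonneg
  have hN' : (1 : ℝ) ≤ N := by exact_mod_cast hN
  set mv : EuclideanSpace ℂ s := WithLp.toLp 2 (fun h : s => m h) with hmv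
  have g1 := good_arith hB hcf
  have g2 := good_main mv
  -- the identity of norms
  have key : ∀ (V : ℝ → ℂ) (M' : ℝ), Continuous (fun u => V (Real.exp u)) →
      (∀ u, ‖V (Real.exp u)‖ ≤ M' * env u) → ∀ (Y σ : ℝ), 0 < Y →
      ∑ h ∈ s, ‖Sar cf V σ Y h -
        m h * mellin V ((5 : ℂ) / 6 + σ * I) * (Y : ℂ) ^ ((5 : ℂ) / 6 + σ * I)‖ ^ 2 =
      ‖SG Measure.count (fun d : Eis => Real.log (nm d)) (cvec s cf)
        (fun u => V (Real.exp u)) σ (Real.log Y) -
       SG volume (fun u : ℝ => u) (fun u : ℝ => cexp ((5 / 6 : ℂ) * u) • mv)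
        (fun u => V (Real.exp u)) σ (Real.log Y)‖ ^ 2 := by
    intro V M' hV hVb Y σ hY
    rw [EuclideanSpace.norm_sq_eq, ← Finset.sum_coe_sort s]
    apply Finset.sum_congr rfl
    intro h _
    congr 2
    rw [PiLp.sub_apply, SG_arith hB hcf hV hVb σ hY h, SG_main mv V σ hY]
    simp only [PiLp.smul_apply, hmv, smul_eq_mul]
    ring
  have hbbc : Continuous fun u => v0 (Real.exp u) := by
    simp_rw [v0_exp]
    exact Complex.continuous_ofReal.comp continuous_bb
  have hbbb : ∀ u, ‖v0 (Real.exp u)‖ ≤ (1 + Real.exp 2) ^ 2 * env u := by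
    intro u; rw [v0_exp]; exact bb_env u
  have hfun : (fun u => v0 (Real.exp u)) = fun u : ℝ => (bb u : ℂ) := by
    ext u; exact v0_exp u
  have hyp' : ∀ σ x : ℝ, ‖SG Measure.count (fun d : Eis => Real.log (nm d)) (cvec s cf)
        (fun u => (bb u : ℂ)) σ x -
       SG volume (fun u : ℝ => u) (fun u : ℝ => cexp ((5 / 6 : ℂ) * u) • mv)
        (fun u => (bb u : ℂ)) σ x‖ ≤
      Real.sqrt K * ((1 + |σ|) * (1 + Real.exp x)) ^ (δ / 2) * (Real.sqrt N + |σ|) *
        Real.exp (x / 2) := by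
    intro σ x
    have h1 := hyp (Real.exp x) σ (Real.exp_pos x)
    rw [key v0 _ hbbc hbbb (Real.exp x) σ (Real.exp_pos x), Real.log_exp, hfun] at h1
    refine (sq_le_sq₀ (norm_nonneg _) (by positivity)).mp ?_
    refine h1.trans ?_
    have e1 : (((1 + |σ|) * (1 + Real.exp x)) ^ (δ / 2)) ^ 2 =
        ((1 + |σ|) * (1 + Real.exp x)) ^ δ := by
      rw [← Real.rpow_natCast, ← Real.rpow_mul (by positivity)]
      congr 1; push_cast; ring
    have e2 : Real.exp (x / 2) ^ 2 = Real.exp x := by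
      rw [← Real.exp_nat_mul]; congr 1; push_cast; ring
    rw [mul_pow, mul_pow, mul_pow, Real.sq_sqrt hK, e1, e2]
    have e3 : (N : ℝ) + σ ^ 2 ≤ (Real.sqrt N + |σ|) ^ 2 := by
      have hs := Real.sq_sqrt (show (0 : ℝ) ≤ N by positivity)
      have : σ ^ 2 = |σ| ^ 2 := (sq_abs σ).symm
      rw [this]
      nlinarith [mul_nonneg (Real.sqrt_nonneg (N : ℝ)) (abs_nonneg σ)]
    calc K * ((1 + |σ|) * (1 + Real.exp x)) ^ δ * ((N + σ ^ 2) * Real.exp x)
        ≤ K * ((1 + |σ|) * (1 + Real.exp x)) ^ δ * ((Real.sqrt N + |σ|) ^ 2 * Real.exp x) := by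
          gcongr
      _ = _ := by ring
  have hA : (1 : ℝ) ≤ Real.sqrt N := by
    rw [show (1 : ℝ) = Real.sqrt 1 by simp]
    exact Real.sqrt_le_sqrt hN'
  have fin := gen_bound g1 g2 (half_pos hδ) (by linarith) (Real.sqrt_nonneg K) hA hyp' hW τ
    (Real.log X)
  rw [key W M hW.continuous hW.bound X τ hX]
  have hcg := CG_nonneg (δ / 2)
  refine (pow_le_pow_left₀ (norm_nonneg _) fin 2).trans ?_
  rw [Real.exp_log hX]
  have e1 : (((1 + |τ|) * (1 + X)) ^ (δ / 2)) ^ 2 =
      ((1 + |τ|) * (1 + X)) ^ δ := by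
    rw [← Real.rpow_natCast, ← Real.rpow_mul (by positivity)]
    congr 1; push_cast; ring
  have e2 : Real.exp (Real.log X / 2) ^ 2 = X := by
    rw [← Real.exp_nat_mul]
    have : ((2 : ℕ) : ℝ) * (Real.log X / 2) = Real.log X := by push_cast; ring
    rw [this, Real.exp_log hX]
  have e3 : (Real.sqrt N + |τ|) ^ 2 ≤ 2 * (N + τ ^ 2) := by
    have hs := Real.sq_sqrt (show (0 : ℝ) ≤ N by positivity)
    have : τ ^ 2 = |τ| ^ 2 := (sq_abs τ).symm
    rw [this]
    nlinarith [sq_nonneg (Real.sqrt (N : ℝ) - |τ|)]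
  rw [mul_pow, mul_pow, mul_pow, mul_pow, mul_pow, Real.sq_sqrt hK, e1, e2]
  calc CG (δ / 2) ^ 2 * K * M ^ 2 * ((1 + |τ|) * (1 + X)) ^ δ * (Real.sqrt N + |τ|) ^ 2 * X
      ≤ CG (δ / 2) ^ 2 * K * M ^ 2 * ((1 + |τ|) * (1 + X)) ^ δ * (2 * (N + τ ^ 2)) * X := by
        gcongr
    _ = _ := by ring

end Crest.Agent.R012.MSgen49
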