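import Crest.Agent.R012.MSgenC_49
import Crest.Agent.R012.GaussInst_880

/-!
# Row 12, part (M): general weights in `MS` and `TypeI`; `MS1 → MS` (helper49)

* `MS_gen`, `TypeI_gen` : the mean square theorems for ALL weights `W` with
  `LogW (fun u => W (exp u)) M` (three derivatives in `u = log x` bounded by `M/(1+x)^2`),
  constant `C * M^2` with `C` independent of `W`.
* `MS_of_MS1`.
* constructors of `LogW` : `LogW.of_wt`, `logW_exp` (`exp (-x)`), `LogW.mul_bdd`, `bddW_expinv`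
  (`exp (-c/x)`, uniformly in `c`), `LogW.add`, `LogW.const_mul`, `LogW.mono`.
-/

set_option autoImplicit false

noncomputable section

open MeasureTheory Complex Set Filter Topology
open Crest.Agent.R012.Weight600 Crest.Agent.R012.Eis

namespace Crest.Agent.R012.MSgen49

/-! ### bounds of the coefficients -/

lemma norm_ang_le (l : ℤ) (d : Eis) (hd : d ≠ 0) : ‖ang l d‖ = 1 := by
  unfold ang
  have h1 : ‖toC d‖ ≠ 0 := by simpa using hd
  rw [norm_zpow, norm_div, Complex.norm_real, norm_norm, div_self h1, one_zpow]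

lemma norm_gs_le (r : Eis) {c : Eis} (hc : IsPrim c) : ‖gs r c‖ ≤ nm c := by
  rw [Gauss880.gs_eq_gsum]
  exact Gauss880.norm_gsum_le hc.ne_zero (Gauss880.isCh_sy Gauss880.syG hc) r

/-- coefficients of `SS`. -/
def cfS (l : ℤ) (h d : Eis) : ℂ := gs h d / ((Real.sqrt (nm d) : ℝ) : ℂ) * ang l d

/-- coefficients of `TT`. -/
def cfT (l : ℤ) (a b : Eis) : ℂ := G (a * b) * ang l b

lemma norm_cfS_le (l : ℤ) (h : Eis) {d : Eis} (hd : IsPrim d) :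
    ‖cfS l h d‖ ≤ 1 * Real.sqrt (nm d) := by
  unfold cfS
  have hn : nm d ≠ 0 := fun h0 => hd.ne_zero (nm_eq_zero.mp h0)
  have hn' : (0 : ℝ) < nm d := by positivity
  rw [norm_mul, norm_ang_le l d hd.ne_zero, mul_one, norm_div, Complex.norm_real,
    Real.norm_of_nonneg (Real.sqrt_nonneg _), one_mul, div_le_iff₀ (Real.sqrt_pos.mpr hn'),
    Real.mul_self_sqrt hn'.le]
  exact norm_gs_le h hd

lemma norm_cfT_le (l : ℤ) {a b : Eis} (ha : IsPrim a) (hb : IsPrim b) :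
    ‖cfT l a b‖ ≤ 1 * Real.sqrt (nm b) := by
  unfold cfT
  have hn : nm b ≠ 0 := fun h0 => hb.ne_zero (nm_eq_zero.mp h0)
  have hn' : (1 : ℝ) ≤ nm b := by
    exact_mod_cast Nat.one_le_iff_ne_zero.mpr hn
  rw [norm_mul, norm_ang_le l b hb.ne_zero, mul_one, one_mul]
  refine (Gauss880.norm_G_le Gauss880.syG (ha.mul hb)).trans ?_
  rw [show (1 : ℝ) = Real.sqrt 1 by simp]
  exact Real.sqrt_le_sqrt hn'

lemma SS_eq_Sar (l : ℤ) (τ : ℝ) (v : ℝ → ℂ) (h : Eis) (X : ℝ) :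
    M49.SS l τ v h X = Sar (cfS l) v τ X h := rfl

lemma TT_eq_Sar (l : ℤ) (τ : ℝ) (v : ℝ → ℂ) (a : Eis) (X : ℝ) :
    M49.TT l τ v a X = Sar (cfT l) v τ X a := rfl

lemma rpow_mono_exp {Q δ' δ : ℝ} (hQ : 1 ≤ Q) (h : δ' ≤ δ) : Q ^ δ' ≤ Q ^ δ :=
  Real.rpow_le_rpow_of_exponent_le hQ h

/-! ### general weights in `MS` -/

/-- **(M) for all weights.** -/
theorem MS_gen {ρ : Eis → ℂ} (h : M49.MS ρ) (l : ℤ) {δ : ℝ} (hδ : 0 < δ) :
    ∃ C : ℝ, 0 ≤ C ∧ ∀ (W : ℝ → ℂ) (M : ℝ), LogW (fun u => W (Real.exp u)) M →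
      ∀ (N : ℕ) (X τ : ℝ), 1 ≤ N → 0 < X →
      ∑ h ∈ ball N, ‖M49.SS l τ W h X - (if l = 0 then
        ρ h * mellin W ((5 : ℂ) / 6 + τ * Complex.I) * (X : ℂ) ^ ((5 : ℂ) / 6 + τ * Complex.I)
        else 0)‖ ^ 2 ≤
      C * M ^ 2 * ((1 + |τ|) * (1 + X) * N) ^ δ * ((N + τ ^ 2) * X) := by
  classical
  set δ' := min δ 1 with hδ'
  have hδ'0 : 0 < δ' := lt_min hδ one_pos
  obtain ⟨C₀, hC₀⟩ := h l v0 v0_wt δ' hδ'0
  refine ⟨2 * CG (δ' / 2) ^ 2 * |C₀|, by positivity, fun W M hW N X τ hN hX => ?_⟩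
  have hN' : (1 : ℝ) ≤ N := by exact_mod_cast hN
  set m : Eis → ℂ := fun h => if l = 0 then ρ h else 0 with hm
  have hif : ∀ (V : ℝ → ℂ) (h : Eis) (Y σ : ℝ), (if l = 0 then
        ρ h * mellin V ((5 : ℂ) / 6 + σ * Complex.I) * (Y : ℂ) ^ ((5 : ℂ) / 6 + σ * Complex.I)
        else 0) =
        m h * mellin V ((5 : ℂ) / 6 + σ * Complex.I) * (Y : ℂ) ^ ((5 : ℂ) / 6 + σ * Complex.I) := by
    intro V h Y σ
    simp only [hm]
    split_ifs
    · rfl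
    · simp
  have key := arith_gen (s := ball N) (cf := cfS l) (m := m) (B := 1) zero_le_one
    (fun h _ d hd => norm_cfS_le l h hd) hN hδ'0 (min_le_right _ _)
    (K := |C₀| * (N : ℝ) ^ δ') (by positivity) ?_ hW X τ hX
  · simp only [hif, SS_eq_Sar]
    refine key.trans ?_
    have h1 : ((1 + |τ|) * (1 + X)) ^ δ' * (N : ℝ) ^ δ' ≤ ((1 + |τ|) * (1 + X) * N) ^ δ := by
      rw [← Real.mul_rpow (by positivity) (by positivity)]
      apply rpow_mono_exp _ (min_le_left _ _)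
      have a1 : (1 : ℝ) ≤ 1 + |τ| := by linarith [abs_nonneg τ]
      have a2 : (1 : ℝ) ≤ 1 + X := by linarith
      have a3 : (1 : ℝ) ≤ (1 + |τ|) * (1 + X) := by nlinarith
      nlinarith
    calc 2 * CG (δ' / 2) ^ 2 * M ^ 2 * (|C₀| * (N : ℝ) ^ δ') * ((1 + |τ|) * (1 + X)) ^ δ' *
          ((N + τ ^ 2) * X)
        = 2 * CG (δ' / 2) ^ 2 * |C₀| * M ^ 2 * (((1 + |τ|) * (1 + X)) ^ δ' * (N : ℝ) ^ δ') *
          ((N + τ ^ 2) * X) := by ring
      _ ≤ _ := by gcongr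
  · intro Y σ hY
    have h1 := hC₀ N Y σ hN hY
    simp only [hif, SS_eq_Sar] at h1
    refine h1.trans ?_
    rw [Real.mul_rpow (by positivity) (by positivity)]
    calc C₀ * (((1 + |σ|) * (1 + Y)) ^ δ' * (N : ℝ) ^ δ') * ((N + σ ^ 2) * Y)
        ≤ |C₀| * (((1 + |σ|) * (1 + Y)) ^ δ' * (N : ℝ) ^ δ') * ((N + σ ^ 2) * Y) := by
          gcongr
          exact le_abs_self _
      _ = _ := by ring

/-- **Type I for all weights.** -/
theorem TypeI_gen (h : M49.TypeI) (l : ℤ) {δ : ℝ} (hδ : 0 < δ) :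
    ∃ C : ℝ, 0 ≤ C ∧ ∀ (W : ℝ → ℂ) (M : ℝ), LogW (fun u => W (Real.exp u)) M →
      ∀ (N : ℕ) (X τ : ℝ), 1 ≤ N → 0 < X →
      ∑ a ∈ (by classical exact (primBall N).filter (fun a => Squarefree a)),
      ‖M49.TT l τ W a X - (if l = 0 then
        ((pC * M49.Dsf * M49.ga a * (nm a : ℝ) ^ (-(1 : ℝ) / 6) : ℝ) : ℂ) *
        mellin W ((5 : ℂ) / 6 + τ * Complex.I) * (X : ℂ) ^ ((5 : ℂ) / 6 + τ * Complex.I)
        else 0)‖ ^ 2 ≤
      C * M ^ 2 * ((1 + |τ|) * (1 + X) * N) ^ δ * ((N + τ ^ 2) * X) := by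
  classical
  set δ' := min δ 1 with hδ'
  have hδ'0 : 0 < δ' := lt_min hδ one_pos
  obtain ⟨C₀, hC₀⟩ := h l v0 v0_wt δ' hδ'0
  refine ⟨2 * CG (δ' / 2) ^ 2 * |C₀|, by positivity, fun W M hW N X τ hN hX => ?_⟩
  have hN' : (1 : ℝ) ≤ N := by exact_mod_cast hN
  set m : Eis → ℂ := fun a => if l = 0 then
    ((pC * M49.Dsf * M49.ga a * (nm a : ℝ) ^ (-(1 : ℝ) / 6) : ℝ) : ℂ) else 0 with hm
  have hif : ∀ (V : ℝ → ℂ) (a : Eis) (Y σ : ℝ), (if l = 0 then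
        ((pC * M49.Dsf * M49.ga a * (nm a : ℝ) ^ (-(1 : ℝ) / 6) : ℝ) : ℂ) *
        mellin V ((5 : ℂ) / 6 + σ * Complex.I) * (Y : ℂ) ^ ((5 : ℂ) / 6 + σ * Complex.I)
        else 0) =
        m a * mellin V ((5 : ℂ) / 6 + σ * Complex.I) * (Y : ℂ) ^ ((5 : ℂ) / 6 + σ * Complex.I) := by
    intro V a Y σ
    simp only [hm]
    split_ifs
    · rfl
    · simp
  have key := arith_gen (s := (primBall N).filter (fun a => Squarefree a)) (cf := cfT l)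
    (m := m) (B := 1) zero_le_one
    (fun a ha d hd => norm_cfT_le l (mem_primBall.mp (Finset.mem_filter.mp ha).1).2 hd)
    hN hδ'0 (min_le_right _ _)
    (K := |C₀| * (N : ℝ) ^ δ') (by positivity) ?_ hW X τ hX
  · simp only [hif, TT_eq_Sar]
    refine le_trans (le_of_eq ?_) (key.trans ?_)
    · congr!
    have h1 : ((1 + |τ|) * (1 + X)) ^ δ' * (N : ℝ) ^ δ' ≤ ((1 + |τ|) * (1 + X) * N) ^ δ := by
      rw [← Real.mul_rpow (by positivity) (by positivity)]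
      apply rpow_mono_exp _ (min_le_left _ _)
      have a1 : (1 : ℝ) ≤ 1 + |τ| := by linarith [abs_nonneg τ]
      have a2 : (1 : ℝ) ≤ 1 + X := by linarith
      have a3 : (1 : ℝ) ≤ (1 + |τ|) * (1 + X) := by nlinarith
      nlinarith
    calc 2 * CG (δ' / 2) ^ 2 * M ^ 2 * (|C₀| * (N : ℝ) ^ δ') * ((1 + |τ|) * (1 + X)) ^ δ' *
          ((N + τ ^ 2) * X)
        = 2 * CG (δ' / 2) ^ 2 * |C₀| * M ^ 2 * (((1 + |τ|) * (1 + X)) ^ δ' * (N : ℝ) ^ δ') *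
          ((N + τ ^ 2) * X) := by ring
      _ ≤ _ := by gcongr
  · intro Y σ hY
    have h1 := hC₀ N Y σ hN hY
    simp only [hif, TT_eq_Sar] at h1
    refine le_trans (le_of_eq ?_) (h1.trans ?_)
    · congr!
    rw [Real.mul_rpow (by positivity) (by positivity)]
    calc C₀ * (((1 + |σ|) * (1 + Y)) ^ δ' * (N : ℝ) ^ δ') * ((N + σ ^ 2) * Y)
        ≤ |C₀| * (((1 + |σ|) * (1 + Y)) ^ δ' * (N : ℝ) ^ δ') * ((N + σ ^ 2) * Y) := by
          gcongr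
          exact le_abs_self _
      _ = _ := by ring

end Crest.Agent.R012.MSgen49
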