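import Crest.Agent.R012.MSgenE_49

/-!
# Row 12, part (M): `MS1 ρ → MS ρ` (helper49)
-/

set_option autoImplicit false

noncomputable section

open MeasureTheory Complex Set Filter Topology
open Crest.Agent.R012.Weight600 Crest.Agent.R012.Eis

namespace Crest.Agent.R012.MSgen49

lemma card_ball_le {N : ℕ} (hN : 1 ≤ N) : ((ball N).card : ℝ) ≤ 101 * N := by
  have h1 := Lat277.card_ball_erase_le N
  have h2 : (ball N).card ≤ ((ball N).erase 0).card + 1 := by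
    have := Finset.card_erase_add_one (Lat277.zero_mem_ball N)
    omega
  have h3 : ((ball N).card : ℝ) ≤ ((ball N).erase 0).card + 1 := by exact_mod_cast h2
  have h4 : (1 : ℝ) ≤ N := by exact_mod_cast hN
  linarith

/-- trivial bound for `SS` at `X ≤ 1`. -/
lemma SS_trivial {v : ℝ → ℂ} (hv : M49.Wt v) : ∃ C : ℝ, 0 ≤ C ∧ ∀ (l : ℤ) (τ X : ℝ) (h : Eis),
    0 < X → X ≤ 1 → ‖M49.SS l τ v h X‖ ^ 2 ≤ C * X := by
  classical
  obtain ⟨a, b, ha, hab, hs⟩ := hv.supp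
  have hb : 0 < b := ha.trans hab
  obtain ⟨V, hV⟩ : ∃ V : ℝ, ∀ x, ‖v x‖ ≤ V := by
    obtain ⟨V, hV⟩ := (isCompact_Icc (a := a) (b := b)).exists_bound_of_continuousOn
      hv.smooth.continuous.continuousOn
    refine ⟨max V 0, fun x => ?_⟩
    by_cases hx : x ∈ Icc a b
    · exact (hV x hx).trans (le_max_left _ _)
    · rw [hs x (by
        by_contra hc
        push Not at hc
        exact hx ⟨hc.1, hc.2⟩), norm_zero]
      exact le_max_right _ _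
  have hV0 : 0 ≤ V := (norm_nonneg _).trans (hV 0)
  set n : ℕ := ⌈b⌉₊ with hn
  set A : ℝ := ∑ d ∈ ball n, Real.sqrt (nm d) * V with hA
  have hA0 : 0 ≤ A := Finset.sum_nonneg fun d _ => by positivity
  refine ⟨A ^ 2 * b, by positivity, fun l τ X h hX hX1 => ?_⟩
  have hterm : ∀ d : Eis, (if IsPrim d then cfS l h d * v (nm d / X) *
      (nm d : ℂ) ^ ((τ : ℂ) * I) else 0) ≠ 0 → IsPrim d ∧ (nm d : ℝ) ≤ b * X := by
    intro d hd
    by_cases hp : IsPrim d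
    · refine ⟨hp, ?_⟩
      rw [if_pos hp] at hd
      by_contra hc
      push Not at hc
      apply hd
      rw [hs (nm d / X) (Or.inr (by rwa [lt_div_iff₀ hX]))]
      ring
    · rw [if_neg hp] at hd
      exact absurd rfl hd
  have hSS : M49.SS l τ v h X = ∑ d ∈ ball n, (if IsPrim d then cfS l h d * v (nm d / X) *
      (nm d : ℂ) ^ ((τ : ℂ) * I) else 0) := by
    rw [SS_eq_Sar, Sar]
    refine (tsum_eq_sum (s := ball n) ?_).trans (by congr!)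
    intro d hd
    by_contra hc
    have h1 := hterm d (by convert hc)
    apply hd
    rw [mem_ball]
    have h2 : (nm d : ℝ) ≤ n := by
      refine h1.2.trans (le_trans ?_ (Nat.le_ceil b))
      nlinarith
    exact_mod_cast h2
  by_cases hbX : b * X < 1
  · have : M49.SS l τ v h X = 0 := by
      rw [hSS]
      apply Finset.sum_eq_zero
      intro d _
      by_contra hc
      have h1 := hterm d hc
      have h2 : (1 : ℝ) ≤ nm d := by
        exact_mod_cast Nat.one_le_iff_ne_zero.mpr (fun h0 => h1.1.ne_zero (nm_eq_zero.mp h0))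
      linarith [h1.2]
    rw [this]
    simp
    positivity
  · push Not at hbX
    have h1 : ‖M49.SS l τ v h X‖ ≤ A := by
      rw [hSS, hA]
      refine (norm_sum_le _ _).trans (Finset.sum_le_sum fun d _ => ?_)
      split_ifs with hp
      · have hn' : (0 : ℝ) < nm d := by
          have : nm d ≠ 0 := fun h0 => hp.ne_zero (nm_eq_zero.mp h0)
          positivity
        have h2 : ‖(nm d : ℂ) ^ ((τ : ℂ) * I)‖ = 1 := by
          have := pw_eq_cpow hn' τ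
          have h3 := norm_pw τ (nm d)
          rw [this] at h3
          exact_mod_cast h3
        rw [norm_mul, norm_mul, h2, mul_one]
        have h4 := norm_cfS_le l h hp
        rw [one_mul] at h4
        exact mul_le_mul h4 (hV _) (norm_nonneg _) (Real.sqrt_nonneg _)
      · rw [norm_zero]; positivity
    calc ‖M49.SS l τ v h X‖ ^ 2 ≤ A ^ 2 := pow_le_pow_left₀ (norm_nonneg _) h1 2
      _ ≤ A ^ 2 * (b * X) := by nlinarith [sq_nonneg A]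
      _ = _ := by ring

/-- `mellin v0 (5/6) ≠ 0`. -/
lemma mellin_v0_ne : mellin v0 ((5 : ℂ) / 6) ≠ 0 := by
  rw [mellin_eq_log]
  have e : ∀ u : ℝ, v0 (Real.exp u) * cexp ((5 : ℂ) / 6 * u) =
      ((bb u * Real.exp (5 / 6 * u) : ℝ) : ℂ) := by
    intro u
    rw [v0_exp]; push_cast; rfl
  simp_rw [e]
  rw [show (∫ v : ℝ, ((bb v * Real.exp (5 / 6 * v) : ℝ) : ℂ)) =
    ((∫ v : ℝ, bb v * Real.exp (5 / 6 * v) : ℝ) : ℂ) from integral_ofReal]
  have hc : Continuous fun u => bb u * Real.exp (5 / 6 * u) := by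
    have := continuous_bb
    fun_prop
  have hcs : HasCompactSupport fun u => bb u * Real.exp (5 / 6 * u) := by
    apply HasCompactSupport.intro (isCompact_Icc (a := (-1 : ℝ)) (b := 2))
    intro u hu
    have : bb u = 0 := by
      by_contra h
      have := bb_ne_zero h
      exact hu ⟨this.1.le, this.2.le⟩
    rw [this, zero_mul]
  obtain ⟨j, hj⟩ : ∃ j : ℤ, bb (0 - j) ≠ 0 := by
    by_contra hc
    push Not at hc
    have := hasSum_bb 0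
    simp only [hc] at this
    have h2 := this.unique hasSum_zero
    exact one_ne_zero h2
  have hpos := hc.integral_pos_of_hasCompactSupport_nonneg_nonzero hcs
    (fun u => mul_nonneg (bb_nonneg u) (Real.exp_pos _).le) (x := (0 - (j : ℝ) : ℝ))
    (mul_ne_zero hj (Real.exp_pos _).ne') (μ := (volume : Measure ℝ))
  exact_mod_cast hpos.ne'

/-- the residues have polynomially bounded mean square. -/
lemma sum_rho_sq {ρ : Eis → ℂ} (h : M49.MS1 ρ) {δ : ℝ} (hδ : 0 < δ) : ∃ C : ℝ, 0 ≤ C ∧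
    ∀ N : ℕ, 1 ≤ N → ∑ r ∈ ball N, ‖ρ r‖ ^ 2 ≤ C * (N : ℝ) ^ δ * N := by
  obtain ⟨C₀, hC₀⟩ := h 0 v0 v0_wt δ hδ
  obtain ⟨C₁, hC₁0, hC₁⟩ := SS_trivial v0_wt
  have hm := mellin_v0_ne
  set m₀ := mellin v0 ((5 : ℂ) / 6) with hm₀
  have hm' : 0 < ‖m₀‖ ^ 2 := by positivity
  refine ⟨2 * (|C₀| + 101 * C₁) / ‖m₀‖ ^ 2, by positivity, fun N hN => ?_⟩
  have hN' : (1 : ℝ) ≤ N := by exact_mod_cast hN
  have h1 := hC₀ N 1 0 hN le_rfl
  simp only [abs_zero, add_zero, one_mul, mul_one, if_true] at h1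
  have e1 : ((5 : ℂ) / 6 + ((0 : ℝ) : ℂ) * Complex.I) = 5 / 6 := by simp
  rw [e1] at h1
  have e2 : ((1 : ℝ) : ℂ) ^ ((5 : ℂ) / 6) = 1 := by simp
  rw [e2] at h1
  have h2 : ∀ r, ‖ρ r‖ ^ 2 * ‖m₀‖ ^ 2 ≤ 2 * ‖M49.SS 0 0 v0 r 1‖ ^ 2 +
      2 * ‖M49.SS 0 0 v0 r 1 - ρ r * m₀ * 1‖ ^ 2 := by
    intro r
    have h3 : ‖ρ r * m₀‖ ≤ ‖M49.SS 0 0 v0 r 1‖ + ‖M49.SS 0 0 v0 r 1 - ρ r * m₀ * 1‖ := by
      have : ρ r * m₀ = M49.SS 0 0 v0 r 1 - (M49.SS 0 0 v0 r 1 - ρ r * m₀ * 1) := by ring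
      calc ‖ρ r * m₀‖ = ‖M49.SS 0 0 v0 r 1 - (M49.SS 0 0 v0 r 1 - ρ r * m₀ * 1)‖ := by
            rw [← this]
        _ ≤ _ := norm_sub_le _ _
    rw [norm_mul] at h3
    have h4 := pow_le_pow_left₀ (by positivity) h3 2
    have h5 : (‖M49.SS 0 0 v0 r 1‖ + ‖M49.SS 0 0 v0 r 1 - ρ r * m₀ * 1‖) ^ 2 ≤
        2 * ‖M49.SS 0 0 v0 r 1‖ ^ 2 + 2 * ‖M49.SS 0 0 v0 r 1 - ρ r * m₀ * 1‖ ^ 2 := by
      nlinarith [sq_nonneg (‖M49.SS 0 0 v0 r 1‖ - ‖M49.SS 0 0 v0 r 1 - ρ r * m₀ * 1‖)]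
    calc ‖ρ r‖ ^ 2 * ‖m₀‖ ^ 2 = (‖ρ r‖ * ‖m₀‖) ^ 2 := by ring
      _ ≤ _ := h4.trans h5
  have h3 : ∑ r ∈ ball N, ‖M49.SS 0 0 v0 r 1‖ ^ 2 ≤ 101 * C₁ * N := by
    calc ∑ r ∈ ball N, ‖M49.SS 0 0 v0 r 1‖ ^ 2 ≤ ∑ r ∈ ball N, C₁ :=
          Finset.sum_le_sum fun r _ => by
            have := hC₁ 0 0 1 r one_pos le_rfl
            rwa [mul_one] at this
      _ = (ball N).card * C₁ := by simp
      _ ≤ (101 * N) * C₁ := by gcongr; exact card_ball_le hN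
      _ = _ := by ring
  have hNδ : (1 : ℝ) ≤ (N : ℝ) ^ δ := Real.one_le_rpow hN' hδ.le
  rw [div_mul_eq_mul_div, div_mul_eq_mul_div, le_div_iff₀ hm', Finset.sum_mul]
  calc ∑ r ∈ ball N, ‖ρ r‖ ^ 2 * ‖m₀‖ ^ 2
      ≤ ∑ r ∈ ball N, (2 * ‖M49.SS 0 0 v0 r 1‖ ^ 2 +
        2 * ‖M49.SS 0 0 v0 r 1 - ρ r * m₀ * 1‖ ^ 2) := Finset.sum_le_sum fun r _ => h2 r
    _ = 2 * ∑ r ∈ ball N, ‖M49.SS 0 0 v0 r 1‖ ^ 2 +
        2 * ∑ r ∈ ball N, ‖M49.SS 0 0 v0 r 1 - ρ r * m₀ * 1‖ ^ 2 := by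
        rw [Finset.sum_add_distrib, Finset.mul_sum, Finset.mul_sum]
    _ ≤ 2 * (101 * C₁ * N) + 2 * (|C₀| * (N : ℝ) ^ δ * N) := by
        have h6 : C₀ * (N : ℝ) ^ δ * (N + 0 ^ 2) ≤ |C₀| * (N : ℝ) ^ δ * N := by
          have : (N : ℝ) + 0 ^ 2 = N := by ring
          rw [this]
          gcongr
          exact le_abs_self _
        have h7 := h1.trans h6
        linarith
    _ ≤ 2 * (101 * C₁ * N) * (N : ℝ) ^ δ + 2 * (|C₀| * (N : ℝ) ^ δ * N) := by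
        have : 2 * (101 * C₁ * N) ≤ 2 * (101 * C₁ * N) * (N : ℝ) ^ δ :=
          le_mul_of_one_le_right (by positivity) hNδ
        linarith
    _ = _ := by ring

/-- bound of the Mellin transform on the line. -/
lemma mellin_bound {v : ℝ → ℂ} (_hv : M49.Wt v) : ∃ C : ℝ, 0 ≤ C ∧ ∀ τ : ℝ,
    ‖mellin v ((5 : ℂ) / 6 + τ * I)‖ ≤ C := by
  refine ⟨∫ u : ℝ, ‖v (Real.exp u)‖ * Real.exp (5 / 6 * u),
    integral_nonneg fun u => by positivity, fun τ => ?_⟩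
  rw [mellin_eq_log]
  refine (norm_integral_le_integral_norm _).trans (le_of_eq ?_)
  refine integral_congr_ae (Eventually.of_forall fun u => ?_)
  simp only
  rw [norm_mul, Complex.norm_exp]
  congr 2
  simp

/-- **`MS1 → MS`.** -/
theorem MS_of_MS1 {ρ : Eis → ℂ} (h : M49.MS1 ρ) : M49.MS ρ := by
  intro l v hv δ hδ
  obtain ⟨C₁, hC₁⟩ := h l v hv δ hδ
  obtain ⟨C₂, hC₂0, hC₂⟩ := sum_rho_sq h hδ
  obtain ⟨C₃, hC₃0, hC₃⟩ := SS_trivial hv
  obtain ⟨C₄, hC₄0, hC₄⟩ := mellin_bound hv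
  refine ⟨|C₁| + 2 * (101 * C₃) + 2 * (C₂ * C₄ ^ 2), fun N X τ hN hX => ?_⟩
  have hN' : (1 : ℝ) ≤ N := by exact_mod_cast hN
  have hτ := abs_nonneg τ
  rcases le_or_gt 1 X with hX1 | hX1
  · refine (hC₁ N X τ hN hX1).trans ?_
    have h1 : ((1 + |τ|) * X * N) ^ δ ≤ ((1 + |τ|) * (1 + X) * N) ^ δ := by
      apply Real.rpow_le_rpow (by positivity) _ hδ.le
      gcongr
      linarith
    calc C₁ * ((1 + |τ|) * X * N) ^ δ * ((N + τ ^ 2) * X)
        ≤ |C₁| * ((1 + |τ|) * (1 + X) * N) ^ δ * ((N + τ ^ 2) * X) := by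
          gcongr
          exact le_abs_self _
      _ ≤ _ := by
          gcongr
          have : 0 ≤ 2 * (101 * C₃) + 2 * (C₂ * C₄ ^ 2) := by positivity
          linarith
  · have hQ : (N : ℝ) ^ δ ≤ ((1 + |τ|) * (1 + X) * N) ^ δ := by
      apply Real.rpow_le_rpow (by positivity) _ hδ.le
      have a1 : (1 : ℝ) ≤ 1 + |τ| := by linarith
      have a2 : (1 : ℝ) ≤ 1 + X := by linarith
      have a3 : (1 : ℝ) ≤ (1 + |τ|) * (1 + X) := by nlinarith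
      nlinarith
    have hQ1 : (1 : ℝ) ≤ ((1 + |τ|) * (1 + X) * N) ^ δ :=
      (Real.one_le_rpow hN' hδ.le).trans hQ
    have hXn : ‖(X : ℂ) ^ ((5 : ℂ) / 6 + τ * I)‖ ^ 2 ≤ X := by
      rw [Complex.norm_cpow_eq_rpow_re_of_pos hX]
      have : ((5 : ℂ) / 6 + τ * I).re = 5 / 6 := by simp
      rw [this, ← Real.rpow_natCast, ← Real.rpow_mul hX.le]
      calc X ^ ((5 : ℝ) / 6 * ((2 : ℕ) : ℝ)) ≤ X ^ (1 : ℝ) :=
            Real.rpow_le_rpow_of_exponent_ge hX hX1.le (by norm_num)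
        _ = X := Real.rpow_one X
    have hterm : ∀ r, ‖M49.SS l τ v r X - (if l = 0 then
        ρ r * mellin v ((5 : ℂ) / 6 + τ * Complex.I) * (X : ℂ) ^ ((5 : ℂ) / 6 + τ * Complex.I)
        else 0)‖ ^ 2 ≤ 2 * (C₃ * X) + 2 * (‖ρ r‖ ^ 2 * C₄ ^ 2 * X) := by
      intro r
      set z := (if l = 0 then
        ρ r * mellin v ((5 : ℂ) / 6 + τ * Complex.I) * (X : ℂ) ^ ((5 : ℂ) / 6 + τ * Complex.I)
        else 0) with hz
      have h1 : ‖M49.SS l τ v r X - z‖ ^ 2 ≤ 2 * ‖M49.SS l τ v r X‖ ^ 2 + 2 * ‖z‖ ^ 2 := by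
        have := pow_le_pow_left₀ (norm_nonneg _) (norm_sub_le (M49.SS l τ v r X) z) 2
        nlinarith [sq_nonneg (‖M49.SS l τ v r X‖ - ‖z‖)]
      have h2 := hC₃ l τ X r hX hX1.le
      have h3 : ‖z‖ ^ 2 ≤ ‖ρ r‖ ^ 2 * C₄ ^ 2 * X := by
        rw [hz]
        split_ifs with hl
        · rw [norm_mul, norm_mul, mul_pow, mul_pow]
          have h4 := pow_le_pow_left₀ (norm_nonneg _) (hC₄ τ) 2
          exact mul_le_mul (mul_le_mul_of_nonneg_left h4 (sq_nonneg _)) hXn (sq_nonneg _)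
            (by positivity)
        · rw [norm_zero, zero_pow two_ne_zero]; positivity
      linarith
    refine (Finset.sum_le_sum fun r _ => hterm r).trans ?_
    rw [Finset.sum_add_distrib, Finset.sum_const, nsmul_eq_mul, ← Finset.mul_sum,
      ← Finset.sum_mul, ← Finset.sum_mul]
    have hc := card_ball_le hN
    have hr := hC₂ N hN
    have t1 : ((ball N).card : ℝ) * (2 * (C₃ * X)) ≤ 2 * (101 * C₃) *
        ((1 + |τ|) * (1 + X) * N) ^ δ * ((N + τ ^ 2) * X) := by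
      calc ((ball N).card : ℝ) * (2 * (C₃ * X)) ≤ (101 * N) * (2 * (C₃ * X)) := by gcongr
        _ = 2 * (101 * C₃) * 1 * (N * X) := by ring
        _ ≤ 2 * (101 * C₃) * ((1 + |τ|) * (1 + X) * N) ^ δ * ((N + τ ^ 2) * X) := by
            gcongr
            nlinarith [sq_nonneg τ]
    have t2 : 2 * ((∑ r ∈ ball N, ‖ρ r‖ ^ 2) * C₄ ^ 2 * X) ≤ 2 * (C₂ * C₄ ^ 2) *
        ((1 + |τ|) * (1 + X) * N) ^ δ * ((N + τ ^ 2) * X) := by
      calc 2 * ((∑ r ∈ ball N, ‖ρ r‖ ^ 2) * C₄ ^ 2 * X)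
          ≤ 2 * ((C₂ * (N : ℝ) ^ δ * N) * C₄ ^ 2 * X) := by gcongr
        _ = 2 * (C₂ * C₄ ^ 2) * (N : ℝ) ^ δ * (N * X) := by ring
        _ ≤ _ := by
            gcongr
            nlinarith [sq_nonneg τ]
    have t3 : 0 ≤ |C₁| * ((1 + |τ|) * (1 + X) * N) ^ δ * ((N + τ ^ 2) * X) := by positivity
    calc _ ≤ 2 * (101 * C₃) * ((1 + |τ|) * (1 + X) * N) ^ δ * ((N + τ ^ 2) * X) +
        2 * (C₂ * C₄ ^ 2) * ((1 + |τ|) * (1 + X) * N) ^ δ * ((N + τ ^ 2) * X) := add_le_add t1 t2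
      _ ≤ _ := by linarith

end Crest.Agent.R012.MSgen49
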