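import Crest.Agent.R012.Weight_600
import Crest.Agent.R012.SpecM_49

/-!
# Row 12, part (M): from one compactly supported weight to all weights (helper49)
-/

set_option autoImplicit false

noncomputable section

open MeasureTheory Complex Set Filter Topology
open Crest.Agent.R012.Weight600

namespace Crest.Agent.R012.MSgen49

/-! ### The partition of unity in the logarithmic variable -/

/-- fixed bump in the logarithmic variable, supported in `[-1, 2]`. -/
def bb (u : ℝ) : ℝ := Phi u - Phi (u - 1)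

lemma bb_nonneg (u : ℝ) : 0 ≤ bb u := sub_nonneg.mpr (monotone_Phi (by linarith))

lemma bb_le_one (u : ℝ) : bb u ≤ 1 := by
  have h1 := Phi_le_one u
  have h2 := Phi_nonneg (u - 1)
  unfold bb; linarith

lemma bb_of_le {u : ℝ} (h : u ≤ -1) : bb u = 0 := by
  unfold bb; rw [Phi_of_le h, Phi_of_le (by linarith)]; ring

lemma bb_of_ge {u : ℝ} (h : 2 ≤ u) : bb u = 0 := by
  unfold bb; rw [Phi_of_ge (by linarith), Phi_of_ge (by linarith)]; ring

lemma contDiff_bb : ContDiff ℝ ((⊤ : ℕ∞) : WithTop ℕ∞) bb := by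
  unfold bb
  exact contDiff_Phi.sub (contDiff_Phi.comp (contDiff_id.sub contDiff_const))

lemma continuous_bb : Continuous bb := contDiff_bb.continuous

lemma bb_ne_zero {u : ℝ} (h : bb u ≠ 0) : -1 < u ∧ u < 2 := by
  constructor
  · by_contra hc
    exact h (bb_of_le (not_lt.mp hc))
  · by_contra hc
    exact h (bb_of_ge (not_lt.mp hc))

lemma hasSum_bb (u : ℝ) : HasSum (fun j : ℤ => bb (u - j)) 1 := by
  classical
  set J : ℤ := ⌊u⌋ - 2 with hJ
  have hf1 : (⌊u⌋ : ℝ) ≤ u := Int.floor_le u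
  have hf2 : u < ⌊u⌋ + 1 := Int.lt_floor_add_one u
  have hs : ∑ j ∈ ({J, J + 1, J + 2, J + 3} : Finset ℤ), bb (u - j) = 1 := by
    rw [Finset.sum_insert (by simp), Finset.sum_insert (by simp), Finset.sum_insert (by simp),
      Finset.sum_singleton]
    unfold bb
    have e1 : u - ((J + 1 : ℤ) : ℝ) = u - (J : ℤ) - 1 := by push_cast; ring
    have e2 : u - ((J + 2 : ℤ) : ℝ) = u - ((J + 1 : ℤ) : ℝ) - 1 := by push_cast; ring
    have e3 : u - ((J + 3 : ℤ) : ℝ) = u - ((J + 2 : ℤ) : ℝ) - 1 := by push_cast; ring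
    rw [← e1, ← e2, ← e3]
    have h1 : Phi (u - (J : ℤ)) = 1 := by
      apply Phi_of_ge
      rw [hJ]; push_cast; linarith
    have h2 : Phi (u - ((J + 3 : ℤ) : ℝ) - 1) = 0 := by
      apply Phi_of_le
      rw [hJ]; push_cast; linarith
    rw [h1, h2]; ring
  rw [← hs]
  apply hasSum_sum_of_ne_finset_zero
  intro j hj
  simp only [Finset.mem_insert, Finset.mem_singleton, not_or] at hj
  rcases lt_or_ge j J with h | h
  · apply bb_of_ge
    have : (j : ℝ) ≤ J - 1 := by exact_mod_cast (by omega : j ≤ J - 1)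
    rw [hJ] at this
    push_cast at this
    linarith
  · apply bb_of_le
    have : (J : ℝ) + 4 ≤ j := by exact_mod_cast (by omega : J + 4 ≤ j)
    rw [hJ] at this
    push_cast at this
    linarith

/-- `χ = 1` on `[-1,2]`, supported in `[-3,4]`. -/
def chi : ℝ → ℂ := cutC (-2) 3 1

lemma contDiff_chi : ContDiff ℝ ((⊤ : ℕ∞) : WithTop ℕ∞) chi := contDiff_cutC

lemma chi_one {u : ℝ} (h1 : -1 ≤ u) (h2 : u ≤ 2) : chi u = 1 := by
  unfold chi cutC
  rw [cutL_eq_one one_pos (by linarith) (by linarith)]; simp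

lemma chi_zero {u : ℝ} (h : u < -3 ∨ 4 < u) : chi u = 0 := by
  unfold chi cutC
  rcases h with h | h
  · rw [cutL_eq_zero_left one_pos (by norm_num) (by linarith)]; simp
  · rw [cutL_eq_zero_right one_pos (by norm_num) (by linarith)]; simp

/-- derivatives of `χ`. -/
def chiD (i : ℕ) : ℝ → ℂ := iteratedDeriv i chi

lemma chiD_hasDerivAt (i : ℕ) (u : ℝ) : HasDerivAt (chiD i) (chiD (i + 1) u) u := by
  unfold chiD
  rw [iteratedDeriv_succ]
  have : ContDiff ℝ 1 (iteratedDeriv i chi) := by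
    have := contDiff_chi
    exact (contDiff_infty.mp this (1 + i)).iterate_deriv' 1 i |> fun h => by
      rwa [iteratedDeriv_eq_iterate]
  exact (this.differentiable (by norm_num) u).hasDerivAt

lemma chiD_zero (i : ℕ) {u : ℝ} (h : u < -3 ∨ 4 < u) : chiD i u = 0 := by
  unfold chiD
  have hev : chi =ᶠ[𝓝 u] fun _ => (0 : ℂ) := by
    rcases h with h | h
    · filter_upwards [isOpen_Iio.mem_nhds h] with x hx using chi_zero (Or.inl hx)
    · filter_upwards [isOpen_Ioi.mem_nhds h] with x hx using chi_zero (Or.inr hx)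
  rw [hev.iteratedDeriv_eq i]
  simp

lemma chiD_bdd : ∃ B : ℝ, 0 < B ∧ ∀ i ≤ 3, ∀ u, ‖chiD i u‖ ≤ B := by
  have hcont : ∀ i, Continuous (chiD i) := fun i =>
    continuous_iff_continuousAt.mpr fun u => (chiD_hasDerivAt i u).continuousAt
  have : ∀ i, ∃ B : ℝ, ∀ u, ‖chiD i u‖ ≤ B := by
    intro i
    obtain ⟨B, hB⟩ := isCompact_Icc.exists_bound_of_continuousOn
      ((hcont i).continuousOn (s := Icc (-3 : ℝ) 4))
    refine ⟨max B 0, fun u => ?_⟩
    by_cases hu : u ∈ Icc (-3 : ℝ) 4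
    · exact (hB u hu).trans (le_max_left _ _)
    · rw [chiD_zero i (by
        by_contra hc
        push Not at hc
        exact hu ⟨hc.1, hc.2⟩)]
      simp
  choose B hB using this
  refine ⟨|B 0| + |B 1| + |B 2| + |B 3| + 1, by positivity, fun i hi u => ?_⟩
  have hnn := fun i => abs_nonneg (B i)
  have h0 := hnn 0
  have h1 := hnn 1
  have h2 := hnn 2
  have h3 := hnn 3
  refine (hB i u).trans ((le_abs_self _).trans ?_)
  interval_cases i <;> linarith

/-! ### Weights in the logarithmic variable -/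

/-- envelope: `max(1, x^{-1/4}) (1+x)^{-2}` with `x = e^u` (up to constants). -/
def env (u : ℝ) : ℝ := (1 + Real.exp (-u)) ^ ((1 : ℝ) / 4) / (1 + Real.exp u) ^ 2

lemma env_pos (u : ℝ) : 0 < env u := by
  unfold env; positivity

/-- `w` (function of `u = log x`) with three derivatives bounded by `M * env u`. -/
def LogW (w : ℝ → ℂ) (M : ℝ) : Prop :=
  ∃ D : ℕ → ℝ → ℂ, D 0 = w ∧ (∀ j < 3, ∀ u, HasDerivAt (D j) (D (j + 1) u) u) ∧
    Continuous (D 3) ∧ ∀ j ≤ 3, ∀ u, ‖D j u‖ ≤ M * env u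

lemma LogW.bound {w : ℝ → ℂ} {M : ℝ} (h : LogW w M) (u : ℝ) :
    ‖w u‖ ≤ M * env u := by
  obtain ⟨D, h0, -, -, h3⟩ := h
  have := h3 0 (by norm_num) u
  rwa [h0] at this

lemma LogW.continuous {w : ℝ → ℂ} {M : ℝ} (h : LogW w M) : Continuous w := by
  obtain ⟨D, h0, h1, -, -⟩ := h
  rw [← h0]
  exact continuous_iff_continuousAt.mpr fun u => (h1 0 (by norm_num) u).continuousAt

lemma LogW.M_nonneg {w : ℝ → ℂ} {M : ℝ} (h : LogW w M) : 0 ≤ M := by
  have h1 := (norm_nonneg _).trans (h.bound 0)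
  have h2 := env_pos 0
  exact (mul_nonneg_iff_of_pos_right h2).mp h1

lemma env_shift (j : ℤ) {u : ℝ} (hu : -3 ≤ u) :
    env (u + j) ≤ Real.exp 7 * env j := by
  unfold env
  have h1 : 0 < (1 + Real.exp (u + j)) ^ 2 := by positivity
  have h2 : 0 < (1 + Real.exp j) ^ 2 := by positivity
  have h6 : (1 : ℝ) ≤ Real.exp 3 := Real.one_le_exp (by norm_num)
  have A : 1 / (1 + Real.exp (u + j)) ^ 2 ≤ Real.exp 6 / (1 + Real.exp j) ^ 2 := by
    rw [div_le_div_iff₀ h1 h2, one_mul]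
    have h3 : Real.exp (6 : ℝ) = (Real.exp 3) ^ 2 := by
      rw [← Real.exp_nat_mul]; norm_num
    rw [h3, ← mul_pow]
    apply pow_le_pow_left₀ (by positivity)
    have h4 : Real.exp j = Real.exp (-u) * Real.exp (u + j) := by
      rw [← Real.exp_add]; congr 1; ring
    have h5 : Real.exp (-u) ≤ Real.exp 3 := Real.exp_le_exp.mpr (by linarith)
    rw [h4]
    have h7 : 0 < Real.exp (u + j) := Real.exp_pos _
    nlinarith
  have B : (1 + Real.exp (-(u + j))) ^ ((1 : ℝ) / 4) ≤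
      Real.exp 1 * (1 + Real.exp (-(j : ℝ))) ^ ((1 : ℝ) / 4) := by
    have h8 : 1 + Real.exp (-(u + j)) ≤ Real.exp 3 * (1 + Real.exp (-(j : ℝ))) := by
      have h9 : Real.exp (-(u + j)) = Real.exp (-u) * Real.exp (-(j : ℝ)) := by
        rw [← Real.exp_add]; congr 1; ring
      have h5 : Real.exp (-u) ≤ Real.exp 3 := Real.exp_le_exp.mpr (by linarith)
      rw [h9]
      have h7 : 0 < Real.exp (-(j : ℝ)) := Real.exp_pos _
      nlinarith
    calc (1 + Real.exp (-(u + j))) ^ ((1 : ℝ) / 4)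
        ≤ (Real.exp 3 * (1 + Real.exp (-(j : ℝ)))) ^ ((1 : ℝ) / 4) := by
          apply Real.rpow_le_rpow (by positivity) h8 (by norm_num)
      _ = Real.exp (3 * (1 / 4)) * (1 + Real.exp (-(j : ℝ))) ^ ((1 : ℝ) / 4) := by
          rw [Real.mul_rpow (by positivity) (by positivity), ← Real.exp_mul]
      _ ≤ _ := by
          gcongr
          norm_num
  calc (1 + Real.exp (-(u + j))) ^ ((1 : ℝ) / 4) / (1 + Real.exp (u + j)) ^ 2
      = (1 + Real.exp (-(u + j))) ^ ((1 : ℝ) / 4) * (1 / (1 + Real.exp (u + j)) ^ 2) := by ring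
    _ ≤ (Real.exp 1 * (1 + Real.exp (-(j : ℝ))) ^ ((1 : ℝ) / 4)) *
        (Real.exp 6 / (1 + Real.exp j) ^ 2) := by
        apply mul_le_mul B A (by positivity) (by positivity)
    _ = _ := by
        have : Real.exp (7 : ℝ) = Real.exp 1 * Real.exp 6 := by
          rw [← Real.exp_add]; norm_num
        rw [this]; ring

/-- `g_j(u) = χ(u) w(u+j)`. -/
def gj (w : ℝ → ℂ) (j : ℤ) (u : ℝ) : ℂ := chi u * w (u + j)

lemma norm_ker_le_of_supp {g : ℝ → ℂ} {B : ℝ} (hB : ∀ u, ‖g u‖ ≤ B)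
    (hs : ∀ u, (u < -3 ∨ 4 < u) → g u = 0) (t : ℝ) : ‖ker g t‖ ≤ 2 * B := by
  have h0 : 0 ≤ B := (norm_nonneg _).trans (hB 0)
  refine (norm_ker_le g t).trans ?_
  have h1 : ∫ u, ‖g u‖ = ∫ u in Icc (-3 : ℝ) 4, ‖g u‖ := by
    symm
    apply setIntegral_eq_integral_of_forall_compl_eq_zero
    intro u hu
    rw [hs u (by
      by_contra hc
      push Not at hc
      exact hu ⟨hc.1, hc.2⟩), norm_zero]
  have h2 : ∫ u in Icc (-3 : ℝ) 4, ‖g u‖ ≤ B * 7 := by
    have h3 := norm_setIntegral_le_of_norm_le_const (μ := volume) (s := Icc (-3 : ℝ) 4)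
      (f := fun u => ‖g u‖) (C := B) (by simp) (fun u _ => by simpa using hB u)
    refine (le_abs_self _).trans (h3.trans (le_of_eq ?_))
    congr 1
    rw [Measure.real, Real.volume_Icc]
    norm_num
  rw [h1]
  have h4 : (1 / (2 * Real.pi)) ≤ 2 / 7 := by
    rw [div_le_div_iff₀ (by positivity) (by norm_num)]
    have := Real.pi_gt_three
    linarith
  calc (1 / (2 * Real.pi)) * ∫ u in Icc (-3 : ℝ) 4, ‖g u‖ ≤ (2 / 7) * (B * 7) := by
        apply mul_le_mul h4 h2 (by positivity) (by norm_num)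
    _ = 2 * B := by ring

/-- Kernel bound for a `C³` function supported in `[-3,4]`. -/
lemma ker_le_of_chain {Gc : ℕ → ℝ → ℂ} {B : ℝ}
    (hd : ∀ j < 3, ∀ u, HasDerivAt (Gc j) (Gc (j + 1) u) u) (hc : Continuous (Gc 3))
    (hB : ∀ j ≤ 3, ∀ u, ‖Gc j u‖ ≤ B)
    (hs : ∀ j ≤ 3, ∀ u, (u < -3 ∨ 4 < u) → Gc j u = 0) (t : ℝ) :
    ‖ker (Gc 0) t‖ ≤ 16 * B / (1 + |t|) ^ 3 := by
  have hcont : ∀ j ≤ 3, Continuous (Gc j) := by
    intro j hj
    rcases Nat.lt_or_ge j 3 with h | h
    · exact continuous_iff_continuousAt.mpr fun u => (hd j h u).continuousAt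
    · have : j = 3 := by omega
      rw [this]; exact hc
  have hcs : ∀ j ≤ 3, HasCompactSupport (Gc j) := by
    intro j hj
    apply HasCompactSupport.intro (isCompact_Icc (a := (-3 : ℝ)) (b := 4))
    intro u hu
    apply hs j hj
    by_contra hc
    push Not at hc
    exact hu ⟨hc.1, hc.2⟩
  have hint : ∀ j ≤ 3, Integrable (Gc j) := fun j hj =>
    (hcont j hj).integrable_of_hasCompactSupport (hcs j hj)
  have hder : ∀ j < 3, deriv (Gc j) = Gc (j + 1) := fun j hj => by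
    ext u; exact (hd j hj u).deriv
  have hk : ∀ j < 3, ker (Gc (j + 1)) t = (I * t) * ker (Gc j) t := by
    intro j hj
    have h1 := ker_deriv (hint j hj.le) (fun u => (hd j hj u).differentiableAt)
      (by rw [hder j hj]; exact hint (j + 1) (by omega)) t
    rwa [hder j hj] at h1
  have hk3 : ker (Gc 3) t = (I * t) ^ 3 * ker (Gc 0) t := by
    rw [hk 2 (by norm_num), hk 1 (by norm_num), hk 0 (by norm_num)]; ring
  have hb0 := norm_ker_le_of_supp (hB 0 (by norm_num)) (hs 0 (by norm_num)) t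
  have hb3 := norm_ker_le_of_supp (hB 3 le_rfl) (hs 3 le_rfl) t
  rw [hk3, norm_mul, norm_pow, norm_mul, Complex.norm_I, one_mul, Complex.norm_real,
    Real.norm_eq_abs] at hb3
  have hpos : (0 : ℝ) < (1 + |t|) ^ 3 := by positivity
  rw [le_div_iff₀ hpos]
  have h4 : (1 + |t|) ^ 3 ≤ 4 * (1 + |t| ^ 3) := by
    have := abs_nonneg t
    nlinarith [mul_nonneg (by positivity : 0 ≤ 1 + |t|) (sq_nonneg (|t| - 1))]
  calc ‖ker (Gc 0) t‖ * (1 + |t|) ^ 3 ≤ ‖ker (Gc 0) t‖ * (4 * (1 + |t| ^ 3)) := by gcongr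
    _ = 4 * (‖ker (Gc 0) t‖ + |t| ^ 3 * ‖ker (Gc 0) t‖) := by ring
    _ ≤ 4 * (2 * B + 2 * B) := by linarith
    _ = 16 * B := by ring

/-- **Kernel bound** for `g_j`. -/
lemma exists_ker_bound : ∃ C : ℝ, 0 < C ∧ ∀ (w : ℝ → ℂ) (M : ℝ), LogW w M → ∀ (j : ℤ) (t : ℝ),
    ‖ker (gj w j) t‖ ≤ C * M * env j / (1 + |t|) ^ 3 := by
  obtain ⟨Bx, hBx, hBx'⟩ := chiD_bdd
  refine ⟨16 * (8 * Bx * Real.exp 7), by positivity, fun w M hw j t => ?_⟩
  have hM := hw.M_nonneg
  obtain ⟨D, h0, h1, h2, h3⟩ := hw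
  -- the derivatives of `u ↦ w (u + j)`
  have hD : ∀ i < 3, ∀ u, HasDerivAt (fun u => D i (u + j)) (D (i + 1) (u + j)) u := by
    intro i hi u
    exact (h1 i hi (u + j)).comp_add_const u (j : ℝ)
  set P : ℕ → ℝ → ℂ := fun i u => D i (u + j) with hP
  have hX : ∀ i u, HasDerivAt (chiD i) (chiD (i + 1) u) u := chiD_hasDerivAt
  let Gc : ℕ → ℝ → ℂ := fun i => match i with
    | 0 => fun u => chiD 0 u * P 0 u
    | 1 => fun u => chiD 1 u * P 0 u + chiD 0 u * P 1 u
    | 2 => fun u => chiD 2 u * P 0 u + 2 * (chiD 1 u * P 1 u) + chiD 0 u * P 2 u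
    | 3 => fun u => chiD 3 u * P 0 u + 3 * (chiD 2 u * P 1 u) + 3 * (chiD 1 u * P 2 u) +
        chiD 0 u * P 3 u
    | _ => fun _ => 0
  have hD' : ∀ i < 3, ∀ u, HasDerivAt (P i) (P (i + 1) u) u := hD
  have hB : ∀ i ≤ 3, ∀ u, -3 ≤ u → ‖P i u‖ ≤ M * (Real.exp 7 * env j) := by
    intro i hi u hu
    refine (h3 i hi (u + j)).trans ?_
    have := env_shift j hu
    gcongr
  have henv := env_pos (j : ℝ)
  set E : ℝ := M * (Real.exp 7 * env j) with hE
  have hEnn : 0 ≤ E := by positivity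
  have hGs : ∀ i ≤ 3, ∀ u, (u < -3 ∨ 4 < u) → Gc i u = 0 := by
    intro i hi u hu
    have h0 := chiD_zero 0 hu
    have h1 := chiD_zero 1 hu
    have h2 := chiD_zero 2 hu
    have h3 := chiD_zero 3 hu
    interval_cases i <;> simp [Gc, h0, h1, h2, h3]
  have hprod : ∀ a ≤ 3, ∀ b ≤ 3, ∀ u, -3 ≤ u → ‖chiD a u * P b u‖ ≤ Bx * E := by
    intro a ha b hb u hu
    rw [norm_mul]
    exact mul_le_mul (hBx' a ha u) (hB b hb u hu) (norm_nonneg _) hBx.le
  have hGb : ∀ i ≤ 3, ∀ u, ‖Gc i u‖ ≤ 8 * (Bx * E) := by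
    intro i hi u
    by_cases hu : u < -3
    · rw [hGs i hi u (Or.inl hu), norm_zero]; positivity
    · push Not at hu
      have q := fun a (ha : a ≤ 3) b (hb : b ≤ 3) => hprod a ha b hb u hu
      have hnn : 0 ≤ Bx * E := by positivity
      interval_cases i
      · simp only [Gc]
        linarith [q 0 (by norm_num) 0 (by norm_num)]
      · simp only [Gc]
        refine (norm_add_le _ _).trans ?_
        linarith [q 1 (by norm_num) 0 (by norm_num), q 0 (by norm_num) 1 (by norm_num)]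
      · simp only [Gc]
        refine (norm_add₃_le).trans ?_
        rw [norm_mul (2 : ℂ)]
        simp only [Complex.norm_ofNat]
        linarith [q 2 (by norm_num) 0 (by norm_num), q 1 (by norm_num) 1 (by norm_num),
          q 0 (by norm_num) 2 (by norm_num)]
      · simp only [Gc]
        refine (norm_add_le _ _).trans ?_
        refine (add_le_add_left norm_add₃_le _).trans ?_
        rw [norm_mul (3 : ℂ), norm_mul (3 : ℂ)]
        simp only [Complex.norm_ofNat]
        linarith [q 3 (by norm_num) 0 (by norm_num), q 2 (by norm_num) 1 (by norm_num),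
          q 1 (by norm_num) 2 (by norm_num), q 0 (by norm_num) 3 (by norm_num)]
  have hGd : ∀ i < 3, ∀ u, HasDerivAt (Gc i) (Gc (i + 1) u) u := by
    intro i hi u
    interval_cases i
    · exact (hX 0 u).fun_mul (hD' 0 (by norm_num) u)
    · have := ((hX 1 u).fun_mul (hD' 0 (by norm_num) u)).fun_add
        ((hX 0 u).fun_mul (hD' 1 (by norm_num) u))
      refine this.congr_deriv ?_
      show _ = chiD 2 u * P 0 u + 2 * (chiD 1 u * P 1 u) + chiD 0 u * P 2 u
      ring
    · have := (((hX 2 u).fun_mul (hD' 0 (by norm_num) u)).fun_add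
        (((hX 1 u).fun_mul (hD' 1 (by norm_num) u)).const_mul 2)).fun_add
        ((hX 0 u).fun_mul (hD' 2 (by norm_num) u))
      refine this.congr_deriv ?_
      show _ = chiD 3 u * P 0 u + 3 * (chiD 2 u * P 1 u) + 3 * (chiD 1 u * P 2 u) +
        chiD 0 u * P 3 u
      ring
  have hPc : ∀ i ≤ 3, Continuous (P i) := by
    intro i hi
    rcases Nat.lt_or_ge i 3 with h | h
    · exact continuous_iff_continuousAt.mpr fun u => (hD' i h u).continuousAt
    · have : i = 3 := by omega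
      rw [this, hP]
      exact h2.comp (continuous_id.add continuous_const)
  have hXc : ∀ i, Continuous (chiD i) := fun i =>
    continuous_iff_continuousAt.mpr fun u => (hX i u).continuousAt
  have hGc3 : Continuous (Gc 3) := by
    simp only [Gc]
    have := hPc 0 (by norm_num)
    have := hPc 1 (by norm_num)
    have := hPc 2 (by norm_num)
    have := hPc 3 (by norm_num)
    have := hXc 0
    have := hXc 1
    have := hXc 2
    have := hXc 3
    fun_prop
  have hfin := ker_le_of_chain hGd hGc3 hGb hGs t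
  have hG0 : Gc 0 = gj w j := by
    ext u
    simp only [Gc, gj, hP, h0, chiD, iteratedDeriv_zero]
  rw [hG0] at hfin
  refine hfin.trans (le_of_eq ?_)
  rw [hE]; ring

end Crest.Agent.R012.MSgen49
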