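import Crest.Agent.R012.GLS_687
import Crest.Agent.R012.LS2Main_448

/-!
# Row 12, item (CRA): unconditional versions (helper687)

`LS448.hb_final : LS2.Final` (Heath-Brown's cubic large sieve) gives `CR290.HBLS`, `CR290.GLS` and
`CR290.Mom` without hypotheses.
-/

set_option autoImplicit false

namespace Crest.Agent.R012.Mom687

open Crest.Agent.R012

/-- (L2) in the form of `Spec_CR_290`. -/
theorem hbls : CR290.HBLS := GLS687.hbls_of_final LS448.hb_final

/-- general large sieve for bounded coefficients on all primary `n`. -/
theorem gls : CR290.GLS := GLS687.gls_of_hbls hbls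

/-- all moments. -/
theorem mom : CR290.Mom := GLS687.mom_of_hbls hbls

end Crest.Agent.R012.Mom687
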