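import Crest.Agent.R012.Model_705
import Crest.Agent.R012.Zeta2_85
import Crest.Agent.R012.PC_355

/-!
# Row 12, Type I: the model with a sharp cut-off, all angular twists (helper355, for TI2_581)
-/

set_option autoImplicit false

noncomputable section

open MeasureTheory Set Filter Topology

namespace Crest.Agent.R012.TI2Model355

open Crest.Agent.R012 Crest.Agent.R012.Eis Crest.Agent.R012.Mob705 Crest.Agent.R012.Abel705
open Crest.Agent.R012.Lat277 Crest.Agent.R012.Div277 Crest.Agent.R012.Model705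
open Crest.Agent.R012.P355

/-! ### constants -/

lemma zeta2_eq : M49.zeta2 = T3_85.Z2 1 := by
  classical
  unfold M49.zeta2 T3_85.Z2
  refine tsum_congr fun m => ?_
  unfold T3_85.z2
  by_cases h : IsPrim m
  · rw [if_pos h, if_pos ⟨h, isCoprime_one_right⟩]
  · rw [if_neg h, if_neg (fun h' => h h'.1)]

lemma kap_one_eq : kap 1 = M49.Dsf := by
  have h := T3_85.kap_mul_Z2 1
  rw [PE_one, mul_one] at h
  have hp := T3_85.Z2_pos 1
  unfold M49.Dsf
  rw [zeta2_eq, eq_div_iff hp.ne', h]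
  rfl

lemma ga_eq {a : Eis} (ha : IsPrim a) (hs : Squarefree a) : M49.ga a = LF a := by
  have h1 : Multiset.Rel Associated (UniqueFactorizationMonoid.factors a) (pp a).val := by
    refine UniqueFactorizationMonoid.factors_unique
      (fun x hx => UniqueFactorizationMonoid.irreducible_of_factor x hx)
      (fun x hx => (isPP_of_mem_pp (Finset.mem_def.mpr hx)).prime.irreducible) ?_
    have h2 : (pp a).val.prod = a := by
      have := prod_pp ha hs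
      rwa [Finset.prod_eq_multiset_prod, Multiset.map_id'] at this
    rw [h2]
    exact UniqueFactorizationMonoid.factors_prod ha.ne_zero
  unfold M49.ga LF
  rw [Finset.prod_eq_multiset_prod]
  congr 1
  have key : ∀ s t : Multiset Eis, Multiset.Rel Associated s t →
      s.map (fun p => (1 + 1 / (nm p : ℝ))⁻¹) = t.map (fun p => (1 + 1 / (nm p : ℝ))⁻¹) := by
    intro s t h
    induction h with
    | zero => rfl
    | cons hab _ ih =>
      rw [Multiset.map_cons, Multiset.map_cons, ih, Eis.nm_eq_of_associated hab]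
  exact key _ _ h1

lemma filter_eq_sfc {a : Eis} (hs : Squarefree a) (Z : ℝ) :
    (open Classical in (primBall ⌊Z⌋₊).filter (fun b => Squarefree (a * b))) = sfc a Z := by
  classical
  ext b
  rw [Finset.mem_filter, mem_sfc]
  have hpb : b ∈ primBall ⌊Z⌋₊ ↔ (nm b : ℝ) ≤ Z ∧ IsPrim b := mem_pb
  rw [hpb]
  constructor
  · rintro ⟨h1, h2⟩
    refine ⟨h1, ?_, h2.of_mul_right⟩
    exact (squarefree_mul_iff.mp h2).1.symm.isCoprime
  · rintro ⟨h1, h2, h3⟩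
    refine ⟨h1, ?_⟩
    rw [squarefree_mul_iff]
    exact ⟨h2.symm.isRelPrime, hs, h3⟩


/-! ### angular sums over squarefree elements coprime to `a` -/

lemma sum_ang_pb {l : ℤ} (hl : l ≠ 0) : ∃ C : ℝ, 0 < C ∧ ∀ Y : ℝ, 0 ≤ Y →
    ‖∑ b ∈ pb Y, ang l b‖ ≤ C * Real.sqrt Y := by
  obtain ⟨C, hC, h⟩ := C2_prim l
  refine ⟨C * 3, by positivity, fun Y hY => ?_⟩
  have h1 := h 3 (fun _ => 1) (by norm_num) (dvd_refl 3) (fun _ _ => by simp) (fun _ _ _ _ _ => rfl)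
    (fun h0 => absurd h0 hl) ⌊Y⌋₊
  simp only [one_mul] at h1
  unfold pb
  refine h1.trans ?_
  have h2 : Real.sqrt (⌊Y⌋₊ : ℝ) ≤ Real.sqrt Y := Real.sqrt_le_sqrt (Nat.floor_le hY)
  push_cast
  gcongr

/-- coprimality removed by Moebius, completely multiplicative `f`. -/
lemma sum_cop_mul {a : Eis} (ha : a ≠ 0) (f : Eis → ℂ) (hf : ∀ x y, f (x * y) = f x * f y)
    (Y : ℝ) :
    ∑ b ∈ cop a Y, f b = ∑ d ∈ dvs a, (muE d : ℂ) * (f d * ∑ b ∈ pb (Y / nm d), f b) := by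
  classical
  have h1 : ∑ b ∈ cop a Y, f b = ∑ b ∈ pb Y, (if IsCoprime b a then (1 : ℂ) else 0) * f b := by
    unfold cop
    rw [Finset.sum_filter]
    refine Finset.sum_congr rfl fun b _ => ?_
    split_ifs <;> simp
  rw [h1]
  have h2 : ∀ b ∈ pb Y, (if IsCoprime b a then (1 : ℂ) else 0) * f b =
      ∑ d ∈ dvs a, (if d ∣ b then (muE d : ℂ) * f b else 0) := by
    intro b hb
    have h := sum_muE_coprime (mem_pb.mp hb).2 ha
    have h' := congrArg (Int.cast : ℤ → ℂ) h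
    push_cast at h'
    rw [← h', Finset.sum_mul]
    refine Finset.sum_congr rfl fun d _ => ?_
    split_ifs <;> simp
  rw [Finset.sum_congr rfl h2, Finset.sum_comm]
  refine Finset.sum_congr rfl fun d hd => ?_
  rw [← Finset.sum_filter, pb_filter_dvd Y (isPrim_of_mem_dvs hd), Finset.sum_map,
    Finset.mul_sum, Finset.mul_sum]
  refine Finset.sum_congr rfl fun b _ => ?_
  rw [mulEmb_apply, hf]

lemma sum_sfc_mul (a : Eis) (f : Eis → ℂ) (hf : ∀ x y, f (x * y) = f x * f y) (Y : ℝ) :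
    ∑ b ∈ sfc a Y, f b = ∑ d ∈ cop a (Real.sqrt Y), (muE d : ℂ) * (f (d ^ 2) *
      ∑ b ∈ cop a (Y / (nm d : ℝ) ^ 2), f b) := by
  classical
  have h1 : ∑ b ∈ sfc a Y, f b = ∑ b ∈ cop a Y, (if Squarefree b then (1 : ℂ) else 0) * f b := by
    unfold sfc
    rw [Finset.sum_filter]
    refine Finset.sum_congr rfl fun b _ => ?_
    split_ifs <;> simp
  rw [h1]
  have h2 : ∀ b ∈ cop a Y, (if Squarefree b then (1 : ℂ) else 0) * f b =
      ∑ d ∈ cop a (Real.sqrt Y), (if d ^ 2 ∣ b then (muE d : ℂ) * f b else 0) := by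
    intro b hb
    rw [mem_cop] at hb
    have h := sum_muE_sq hb.1.2
    have h' := congrArg (Int.cast : ℤ → ℂ) h
    push_cast at h'
    rw [← h', Finset.sum_mul]
    have h3 : ∑ d ∈ dvs b, (if d ^ 2 ∣ b then (muE d : ℂ) else 0) * f b =
        ∑ d ∈ (dvs b).filter (fun d => d ^ 2 ∣ b), (muE d : ℂ) * f b := by
      rw [Finset.sum_filter]
      refine Finset.sum_congr rfl fun d _ => ?_
      split_ifs <;> simp
    rw [h3, ← Finset.sum_filter]
    refine Finset.sum_congr ?_ fun _ _ => rfl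
    ext d
    rw [Finset.mem_filter, Finset.mem_filter, mem_dvs hb.1.2.ne_zero, mem_cop]
    constructor
    · rintro ⟨⟨h3, h4⟩, h5⟩
      refine ⟨⟨⟨?_, h3⟩, IsCoprime.of_isCoprime_of_dvd_left hb.2 h4⟩, h5⟩
      have h6 := nm_le_of_dvd hb.1.2.ne_zero h5
      rw [nm_pow] at h6
      have h7 : (nm d : ℝ) ^ 2 ≤ nm b := by exact_mod_cast h6
      exact Real.le_sqrt_of_sq_le (h7.trans hb.1.1)
    · rintro ⟨⟨⟨_, h3⟩, _⟩, h5⟩
      exact ⟨⟨h3, (dvd_pow_self d two_ne_zero).trans h5⟩, h5⟩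
  rw [Finset.sum_congr rfl h2, Finset.sum_comm]
  refine Finset.sum_congr rfl fun d hd => ?_
  rw [mem_cop] at hd
  rw [← Finset.sum_filter, cop_filter_dvd a Y (hd.1.2.pow 2) hd.2.pow_left, Finset.sum_map,
    Finset.mul_sum, Finset.mul_sum, nm_pow]
  push_cast
  refine Finset.sum_congr rfl fun b _ => ?_
  rw [mulEmb_apply, hf]

lemma norm_muE_le (d : Eis) : ‖(muE d : ℂ)‖ ≤ |(muE d : ℝ)| := by
  rw [Complex.norm_intCast]

lemma sum_ang_cop {l : ℤ} {C : ℝ} (h : ∀ Y : ℝ, 0 ≤ Y → ‖∑ b ∈ pb Y, ang l b‖ ≤ C * Real.sqrt Y)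
    {a : Eis} (ha : a ≠ 0) {Y : ℝ} (hY : 0 ≤ Y) :
    ‖∑ b ∈ cop a Y, ang l b‖ ≤ C * sig a * Real.sqrt Y := by
  rw [sum_cop_mul ha (ang l) (ang_mul l) Y, sig_eq_sum ha, Finset.mul_sum, Finset.sum_mul]
  refine norm_sum_le_of_le _ fun d _ => ?_
  rw [norm_mul, norm_mul]
  have h1 := h (Y / nm d) (by positivity)
  have h2 := norm_ang_le l d
  have h3 : ‖(muE d : ℂ)‖ = |(muE d : ℝ)| := by rw [Complex.norm_intCast]
  rw [h3]
  calc |(muE d : ℝ)| * (‖ang l d‖ * ‖∑ b ∈ pb (Y / nm d), ang l b‖)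
      ≤ |(muE d : ℝ)| * (1 * (C * Real.sqrt (Y / nm d))) := by gcongr
    _ = C * (|(muE d : ℝ)| * (1 / Real.sqrt (nm d))) * Real.sqrt Y := by
        rw [Real.sqrt_div hY]; ring

lemma sum_ang_sfc {l : ℤ} {C : ℝ} (hC : 0 < C)
    (h : ∀ Y : ℝ, 0 ≤ Y → ‖∑ b ∈ pb Y, ang l b‖ ≤ C * Real.sqrt Y)
    {a : Eis} (ha : a ≠ 0) {Y : ℝ} (hY : 0 ≤ Y) :
    ‖∑ b ∈ sfc a Y, ang l b‖ ≤ 200 * C * sig a * er Y := by
  rw [sum_sfc_mul a (ang l) (ang_mul l) Y]
  have hs := sig_pos a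
  have hb : ∀ d ∈ cop a (Real.sqrt Y), ‖(muE d : ℂ) * (ang l (d ^ 2) *
      ∑ b ∈ cop a (Y / (nm d : ℝ) ^ 2), ang l b)‖ ≤ C * sig a * Real.sqrt Y * (1 / nm d) := by
    intro d hd
    rw [mem_cop] at hd
    have hd0 : (0 : ℝ) < nm d := by exact_mod_cast nm_pos.mpr hd.1.2.ne_zero
    rw [norm_mul, norm_mul]
    have h1 := sum_ang_cop h ha (Y := Y / (nm d : ℝ) ^ 2) (by positivity)
    have h2 := norm_ang_le l (d ^ 2)
    have h3 : ‖(muE d : ℂ)‖ ≤ 1 := by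
      rw [Complex.norm_intCast]
      exact_mod_cast abs_mu_le_one d
    calc ‖(muE d : ℂ)‖ * (‖ang l (d ^ 2)‖ * ‖∑ b ∈ cop a (Y / (nm d : ℝ) ^ 2), ang l b‖)
        ≤ 1 * (1 * (C * sig a * Real.sqrt (Y / (nm d : ℝ) ^ 2))) := by gcongr
      _ = C * sig a * Real.sqrt Y * (1 / nm d) := by
          rw [Real.sqrt_div hY, Real.sqrt_sq hd0.le]; ring
  refine (norm_sum_le_of_le _ hb).trans ?_
  rw [← Finset.mul_sum]
  have h4 : ∑ d ∈ cop a (Real.sqrt Y), (1 : ℝ) / nm d ≤ 100 * (1 + Real.log (1 + Real.sqrt Y)) :=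
    (Finset.sum_le_sum_of_subset_of_nonneg (cop_subset a _) (fun _ _ _ => by positivity)).trans
      (sum_inv_nm_le (Real.sqrt_nonneg Y))
  have h5 : Real.log (1 + Real.sqrt Y) ≤ 1 + Real.log (1 + Y) := by
    rcases le_or_gt Y 1 with h2 | h2
    · have h3 : Real.sqrt Y ≤ 1 := by
        rw [show (1 : ℝ) = Real.sqrt 1 by simp]; exact Real.sqrt_le_sqrt h2
      have h4 := Real.log_le_sub_one_of_pos (x := 1 + Real.sqrt Y) (by
        have := Real.sqrt_nonneg Y; linarith)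
      have h5 : 0 ≤ Real.log (1 + Y) := Real.log_nonneg (by linarith)
      linarith
    · have h3 : Real.sqrt Y ≤ Y := by
        rw [Real.sqrt_le_left hY]; nlinarith
      have h4 : Real.log (1 + Real.sqrt Y) ≤ Real.log (1 + Y) :=
        Real.log_le_log (by have := Real.sqrt_nonneg Y; linarith) (by linarith)
      linarith
  have h6 : 0 ≤ Real.log (1 + Y) := Real.log_nonneg (by linarith)
  unfold er
  calc C * sig a * Real.sqrt Y * ∑ d ∈ cop a (Real.sqrt Y), (1 : ℝ) / nm d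
      ≤ C * sig a * Real.sqrt Y * (200 * (1 + Real.log (1 + Y))) := by
        gcongr
        linarith
    _ = _ := by ring

/-- Abel data for the twisted squarefree indicator -/
lemma dataAng (l : ℤ) (a : Eis) :
    Data (fun b => iSf a b * ang l b) (fun b => (nm b : ℝ)) (sfc a) 100 where
  pos b hb := (dataSf a).pos b (left_ne_zero_of_mul hb)
  mem b hb Y := (dataSf a).mem b (left_ne_zero_of_mul hb) Y
  bound Y hY := by
    refine le_trans (Finset.sum_le_sum fun b _ => ?_) ((dataSf a).bound Y hY)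
    rw [norm_mul]
    exact mul_le_of_le_one_right (norm_nonneg _) (norm_ang_le l b)

lemma sum_iSf_ang (l : ℤ) (a : Eis) (F : Eis → ℂ) (Y : ℝ) :
    ∑ b ∈ sfc a Y, iSf a b * ang l b * F b = ∑ b ∈ sfc a Y, ang l b * F b := by
  refine Finset.sum_congr rfl fun b hb => ?_
  rw [mem_sfc] at hb
  rw [iSf, if_pos ⟨hb.1.2, hb.2⟩, one_mul]

/-- `l ≠ 0`: the angular model sum is small. -/
theorem sum_ang_sixth {l : ℤ} (hl : l ≠ 0) : ∃ C : ℝ, 0 < C ∧ ∀ a : Eis, a ≠ 0 → ∀ Y : ℝ, 0 ≤ Y →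
    ‖∑ b ∈ sfc a Y, ang l b * (((nm b : ℝ) ^ (-(1 : ℝ) / 6) : ℝ) : ℂ)‖ ≤
      C * sig a * (Y ^ ((1 : ℝ) / 3) * (1 + Real.log (1 + Y))) := by
  obtain ⟨C, hC, h⟩ := sum_ang_pb hl
  refine ⟨300 * C, by positivity, fun a ha Y hY => ?_⟩
  rcases hY.eq_or_lt with h0 | hY'
  · rw [← h0]
    have : sfc a 0 = ∅ := by
      apply Finset.subset_empty.mp
      refine ((sfc_subset a 0).trans (cop_subset a 0)).trans ?_
      rw [pb_eq_empty (by norm_num)]
    rw [this]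
    rw [Real.zero_rpow (by norm_num)]
    simp
  have hEr : ∀ Y, 0 < Y → ‖∑ b ∈ sfc a Y, iSf a b * ang l b - (0 : ℂ) * Y‖ ≤
      (200 * C * sig a) * er Y := by
    intro Z hZ
    have e := sum_iSf_ang l a (fun _ => 1) Z
    simp only [mul_one] at e
    rw [e, zero_mul, sub_zero]
    exact sum_ang_sfc hC h ha hZ.le
  have h1 := abel_pow (dataAng l a) (E := 200 * C * sig a) (by have := sig_pos a; positivity)
    hEr (z := ((-(1 : ℝ) / 6 : ℝ) : ℂ)) (by rw [Complex.ofReal_re]; norm_num) hY'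
  rw [zero_mul, sub_zero, sum_iSf_ang] at h1
  have e1 : ∑ b ∈ sfc a Y, ang l b * ((nm b : ℝ) : ℂ) ^ ((-(1 : ℝ) / 6 : ℝ) : ℂ) =
      ∑ b ∈ sfc a Y, ang l b * (((nm b : ℝ) ^ (-(1 : ℝ) / 6) : ℝ) : ℂ) := by
    refine Finset.sum_congr rfl fun b _ => ?_
    rw [Complex.ofReal_cpow (Nat.cast_nonneg _)]
  rw [e1] at h1
  refine h1.trans (le_of_eq ?_)
  rw [Complex.ofReal_re, Complex.norm_real]
  have e3 : Y ^ (-(1 : ℝ) / 6) * er Y = Y ^ ((1 : ℝ) / 3) * (1 + Real.log (1 + Y)) := by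
    unfold er
    rw [Real.sqrt_eq_rpow, ← mul_assoc, ← Real.rpow_add hY']
    norm_num
  have e4 : 1 + ‖(-(1 : ℝ) / 6 : ℝ)‖ / (1 / 2 + -(1 : ℝ) / 6) = 3 / 2 := by
    rw [Real.norm_eq_abs]; norm_num [abs_of_pos]
  rw [e3, e4]
  ring

/-! ### final form -/

lemma tail_le {a : Eis} (ha : a ≠ 0) {Z : ℝ} (hZ : 0 ≤ Z) :
    sig a * (Z ^ ((1 : ℝ) / 3) * (1 + Real.log (1 + Z))) ≤
      (Div277.tau a : ℝ) ^ 2 * (1 + Z) ^ ((1 : ℝ) / 3) * (1 + Real.log (1 + Z)) := by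
  have h1 := sig_le_tau ha
  have h2 : (1 : ℝ) ≤ Div277.tau a := by exact_mod_cast one_le_tau ha
  have h3 : sig a ≤ (Div277.tau a : ℝ) ^ 2 := by nlinarith
  have h4 : 0 ≤ Real.log (1 + Z) := Real.log_nonneg (by linarith)
  have h5 : Z ^ ((1 : ℝ) / 3) ≤ (1 + Z) ^ ((1 : ℝ) / 3) :=
    Real.rpow_le_rpow hZ (by linarith) (by norm_num)
  have h6 : 0 ≤ Z ^ ((1 : ℝ) / 3) := Real.rpow_nonneg hZ _
  have h7 := sig_pos a
  rw [← mul_assoc]
  gcongr

/-- **(TI2, model)** the model of Type I with a sharp cut-off, uniform in the modulus. -/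
theorem model_sharp (l : ℤ) : ∃ C : ℝ, 0 < C ∧ ∀ a : Eis, IsPrim a → Squarefree a →
    ∀ Z : ℝ, 0 ≤ Z →
    ‖(∑ b ∈ (open Classical in (primBall ⌊Z⌋₊).filter (fun b => Squarefree (a * b))),
        ang l b * (((nm b : ℝ) ^ (-(1 : ℝ) / 6) : ℝ) : ℂ)) -
      (if l = 0 then ((M49.Dsf * M49.ga a * (6 / 5 * Z ^ ((5 : ℝ) / 6)) : ℝ) : ℂ) else 0)‖ ≤
      C * (Div277.tau a : ℝ) ^ 2 * (1 + Z) ^ ((1 : ℝ) / 3) * (1 + Real.log (1 + Z)) := by
  by_cases hl : l = 0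
  · refine ⟨19200, by norm_num, fun a ha hs Z hZ => ?_⟩
    rw [filter_eq_sfc hs, if_pos hl, hl]
    have h := sum_sfc_sixth ha.ne_zero hZ
    have e : (∑ b ∈ sfc a Z, ang 0 b * (((nm b : ℝ) ^ (-(1 : ℝ) / 6) : ℝ) : ℂ)) -
        ((M49.Dsf * M49.ga a * (6 / 5 * Z ^ ((5 : ℝ) / 6)) : ℝ) : ℂ) =
        ((∑ b ∈ sfc a Z, (nm b : ℝ) ^ (-(1 : ℝ) / 6) -
          kap 1 * LF a * ((6 / 5) * Z ^ ((5 : ℝ) / 6)) : ℝ) : ℂ) := by
      rw [kap_one_eq, ga_eq ha hs]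
      push_cast
      congr 1
      refine Finset.sum_congr rfl fun b _ => ?_
      rw [ang_zero, one_mul]
    rw [e, Complex.norm_real, Real.norm_eq_abs]
    have := tail_le ha.ne_zero hZ
    nlinarith
  · obtain ⟨C, hC, h⟩ := sum_ang_sixth hl
    refine ⟨C, hC, fun a ha hs Z hZ => ?_⟩
    rw [filter_eq_sfc hs, if_neg hl, sub_zero]
    refine (h a ha.ne_zero Z hZ).trans ?_
    have := tail_le ha.ne_zero hZ
    calc C * sig a * (Z ^ ((1 : ℝ) / 3) * (1 + Real.log (1 + Z)))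
        = C * (sig a * (Z ^ ((1 : ℝ) / 3) * (1 + Real.log (1 + Z)))) := by ring
      _ ≤ C * ((Div277.tau a : ℝ) ^ 2 * (1 + Z) ^ ((1 : ℝ) / 3) * (1 + Real.log (1 + Z))) := by
          gcongr
      _ = _ := by ring

end Crest.Agent.R012.TI2Model355
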