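import Crest.Agent.R012.TI2_581
import Crest.Agent.R012.TI2Model_355
import Crest.Agent.R012.SpecMain_48
import Crest.Agent.R012.GaussInst_880
import Crest.Agent.R012.Per_277

/-!
# Row 12, item TI2 (helper581): `M49.TypeI → Main48.TI_Prop`
-/

set_option autoImplicit false

noncomputable section

open MeasureTheory Real Complex Set Filter Topology

namespace Crest.Agent.R012.TI2

open Crest.Agent.R012 Crest.Agent.R012.Eis

open Classical in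
/-- `G(ab) λ^l(b)` on primary `a`, `b`. -/
def FG (l : ℤ) (a b : Eis) : ℂ := if IsPrim a ∧ IsPrim b then G (a * b) * ang l b else 0

/-- main term coefficient -/
def mG (l : ℤ) (a : Eis) : ℂ :=
  if l = 0 then ((pC * M49.Dsf * M49.ga a * (nm a : ℝ) ^ (-(1 : ℝ) / 6) : ℝ) : ℂ) else 0

lemma norm_FG_le (l : ℤ) (a b : Eis) : ‖FG l a b‖ ≤ 1 := by
  unfold FG
  split_ifs with h
  · rw [norm_mul]
    exact mul_le_one₀ (Gauss880.norm_G_le Gauss880.syG (h.1.mul h.2)) (norm_nonneg _)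
      (P355.norm_ang_le l b)
  · simp

lemma FG_zero (l : ℤ) (a : Eis) : FG l a 0 = 0 := by
  unfold FG
  rw [if_neg]
  exact fun h => Lat277.isPrim_zero_false h.2

lemma norm_mG_le (l : ℤ) {a : Eis} (ha : IsPrim a) (hs : Squarefree a) :
    ‖mG l a‖ ≤ |pC * M49.Dsf| * (nm a : ℝ) ^ (-(1 : ℝ) / 6) := by
  unfold mG
  split_ifs
  · rw [Complex.norm_real, Real.norm_eq_abs, abs_mul, abs_mul,
      abs_of_nonneg (by positivity : 0 ≤ (nm a : ℝ) ^ (-(1 : ℝ) / 6)),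
      TI2Model355.ga_eq ha hs, abs_of_nonneg (Mob705.LF_pos a).le]
    have h1 := Mob705.LF_le_one a
    have h2 := (Mob705.LF_pos a).le
    have h3 : 0 ≤ |pC * M49.Dsf| := abs_nonneg _
    gcongr
    calc |pC * M49.Dsf| * Mob705.LF a ≤ |pC * M49.Dsf| * 1 := by gcongr
      _ = _ := mul_one _
  · simp only [norm_zero]; positivity

lemma hyp_of_typeI (h : M49.TypeI) (l : ℤ) {δ : ℝ} (hδ : 0 < δ) :
    ∃ K : ℝ, 0 ≤ K ∧ Hyp (fun a => Squarefree a) (FG l) (mG l) K δ := by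
  classical
  obtain ⟨C, hC⟩ := h l v0 v0_wt δ hδ
  refine ⟨max C 0, le_max_right _ _, ?_⟩
  intro N X τ hN hX0
  have h1 := hC N X τ hN hX0
  have h2 : C * ((1 + |τ|) * (1 + X) * N) ^ δ * ((N + τ ^ 2) * X) ≤
      max C 0 * ((1 + |τ|) * (1 + X) * N) ^ δ * ((N + τ ^ 2) * X) := by
    have : C ≤ max C 0 := le_max_left _ _
    gcongr
  refine le_trans (le_of_eq ?_) (h1.trans h2)
  apply Finset.sum_congr
  · ext a; simp
  · intro a ha
    have hap : IsPrim a := (mem_primBall.mp (Finset.mem_filter.mp ha).1).2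
    congr 2
    congr 1
    · unfold M49.TT
      apply tsum_congr
      intro b
      unfold FG
      by_cases hb : IsPrim b
      · rw [if_pos ⟨hap, hb⟩, if_pos hb]
      · rw [if_neg (fun h => hb h.2), if_neg hb]; simp
    · unfold mG
      by_cases hl : l = 0
      · rw [if_pos hl, if_pos hl]; ring
      · rw [if_neg hl, if_neg hl]; simp

/-- the model error term for the modulus `d`. -/
def Mo (l : ℤ) (d : Eis) (Z : ℝ) : ℂ :=
  (∑ b ∈ (open Classical in (primBall ⌊Z⌋₊).filter (fun b => Squarefree (d * b))),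
      ang l b * (((nm b : ℝ) ^ (-(1 : ℝ) / 6) : ℝ) : ℂ)) -
    (if l = 0 then ((M49.Dsf * M49.ga d * (6 / 5 * Z ^ ((5 : ℝ) / 6)) : ℝ) : ℂ) else 0)

open Classical in
lemma sum_Fl_eq (l : ℤ) {d : Eis} (hd : IsPrim d) (X : ℕ) (y : ℕ) (hy : y ≤ X) :
    ∑ m ∈ (primBall X).filter (fun m => nm (d * m) ≤ y), Main48.Fl l (d * m) =
      ang l d * (Fu (FG l) (mG l) y d -
        ((pC * (nm d : ℝ) ^ (-(1 : ℝ) / 6) : ℝ) : ℂ) * Mo l d ((y : ℝ) / nm d)) := by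
  have hd0 := hd.ne_zero
  have hdp : 0 < nm d := nm_pos.mpr hd0
  have hdR : (0 : ℝ) < nm d := by exact_mod_cast hdp
  set Z : ℝ := (y : ℝ) / nm d with hZ
  have hset : (primBall X).filter (fun m => nm (d * m) ≤ y) = primBall ⌊Z⌋₊ := by
    ext m
    rw [Finset.mem_filter, mem_primBall, mem_primBall]
    have key : nm (d * m) ≤ y ↔ nm m ≤ ⌊Z⌋₊ := by
      rw [Nat.le_floor_iff (by positivity), hZ, le_div_iff₀ hdR, nm_mul]
      constructor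
      · intro h
        have : ((nm d * nm m : ℕ) : ℝ) ≤ y := by exact_mod_cast h
        push_cast at this
        linarith
      · intro h
        have : ((nm d * nm m : ℕ) : ℝ) ≤ y := by push_cast; linarith
        exact_mod_cast this
    rw [key]
    constructor
    · rintro ⟨⟨_, h1⟩, h2⟩; exact ⟨h2, h1⟩
    · rintro ⟨h2, h1⟩
      refine ⟨⟨?_, h1⟩, h2⟩
      have h3 := key.mpr h2
      rw [nm_mul] at h3
      calc nm m ≤ nm d * nm m := Nat.le_mul_of_pos_left _ hdp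
        _ ≤ y := h3
        _ ≤ X := hy
  rw [hset]
  have hnz : ∑ b ∈ Div277.nz ⌊Z⌋₊, FG l d b = ∑ b ∈ primBall ⌊Z⌋₊, G (d * b) * ang l b := by
    rw [← Finset.sum_subset (Div277.primBall_subset_nz ⌊Z⌋₊)]
    · apply Finset.sum_congr rfl
      intro b hb
      unfold FG
      rw [if_pos ⟨hd, (mem_primBall.mp hb).2⟩]
    · intro b hb hb'
      unfold FG
      rw [if_neg]
      rintro ⟨_, h2⟩
      exact hb' (mem_primBall.mpr ⟨(Div277.mem_nz.mp hb).2, h2⟩)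
  have hterm : ∀ m ∈ primBall ⌊Z⌋₊, Main48.Fl l (d * m) =
      ang l d * (G (d * m) * ang l m) -
      ang l d * ((pC * (nm d : ℝ) ^ (-(1 : ℝ) / 6) : ℝ) : ℂ) *
        (if Squarefree (d * m) then ang l m * (((nm m : ℝ) ^ (-(1 : ℝ) / 6) : ℝ) : ℂ) else 0) := by
    intro m hm
    have hmp := (mem_primBall.mp hm).2
    unfold Main48.Fl
    by_cases hs : Squarefree (d * m)
    · rw [if_pos hs, if_pos hs, P355.ang_mul, nm_mul]
      have : ((nm d * nm m : ℕ) : ℝ) ^ (-(1 : ℝ) / 6) =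
          (nm d : ℝ) ^ (-(1 : ℝ) / 6) * (nm m : ℝ) ^ (-(1 : ℝ) / 6) := by
        push_cast
        rw [Real.mul_rpow (by positivity) (by positivity)]
      rw [this]
      push_cast
      ring
    · rw [if_neg hs, if_neg hs, Gauss880.G_eq_zero Gauss880.syG (hd.mul hmp) hs]
      simp
  rw [Finset.sum_congr rfl hterm, Finset.sum_sub_distrib, ← Finset.mul_sum, ← Finset.mul_sum,
    ← hnz, ← Finset.sum_filter]
  unfold Fu Mo mG
  rw [← hZ]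
  by_cases hl : l = 0
  · rw [if_pos hl, if_pos hl]
    push_cast
    ring
  · rw [if_neg hl, if_neg hl]
    ring

/-- the sum of the model errors. -/
lemma sum_model_le (l : ℤ) : ∃ C : ℝ, 0 < C ∧ ∀ (X : ℕ), 2 ≤ X → ∀ Y : Eis → ℕ, (∀ d, Y d ≤ X) →
    ∀ S : Finset Eis, (∀ d ∈ S, IsPrim d ∧ Squarefree d ∧ nm d ≤ X ∧
      (nm d : ℝ) ≤ (X : ℝ) ^ ((2 : ℝ) / 3)) →
    ∑ d ∈ S, (nm d : ℝ) ^ (-(1 : ℝ) / 6) * ‖Mo l d ((Y d : ℝ) / nm d)‖ ≤
      C * (X : ℝ) ^ ((3 : ℝ) / 4) := by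
  obtain ⟨C1, hC1, hM⟩ := TI2Model355.model_sharp l
  obtain ⟨C2, hC2, hτ⟩ := Div277.tau_le_rpow (ε := 1 / 24) (by norm_num)
  refine ⟨C1 * C2 ^ 2 * 26 * 200, by positivity, ?_⟩
  intro X hX Y hY S hS
  have hX1 : (1 : ℝ) ≤ X := by exact_mod_cast (by omega : 1 ≤ X)
  have hX0 : (0 : ℝ) < X := by linarith
  have hpt : ∀ d ∈ S, (nm d : ℝ) ^ (-(1 : ℝ) / 6) * ‖Mo l d ((Y d : ℝ) / nm d)‖ ≤
      C1 * C2 ^ 2 * 26 * (X : ℝ) ^ ((5 : ℝ) / 12) * (nm d : ℝ) ^ (-(1 / 2 : ℝ)) := by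
    intro d hd
    obtain ⟨hp, hs, hdX, _⟩ := hS d hd
    have hd1 : (1 : ℝ) ≤ nm d := by exact_mod_cast nm_pos.mpr hp.ne_zero
    have hd0 : (0 : ℝ) < nm d := by linarith
    set Z : ℝ := (Y d : ℝ) / nm d with hZ
    have hZ0 : 0 ≤ Z := by positivity
    have h1 := hM d hp hs Z hZ0
    have h2 := hτ d hp.ne_zero
    have hZ1 : 1 + Z ≤ 2 * (X / nm d) := by
      have e1 : (Y d : ℝ) ≤ X := by exact_mod_cast hY d
      have e2 : (1 : ℝ) ≤ X / nm d := by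
        rw [le_div_iff₀ hd0, one_mul]; exact_mod_cast hdX
      have e3 : Z ≤ X / nm d := by rw [hZ]; gcongr
      linarith
    have hlog : 1 + Real.log (1 + Z) ≤ 13 * (1 + Z) ^ ((1 : ℝ) / 12) := by
      have e1 := Real.log_le_rpow_div (x := 1 + Z) (by linarith) (show (0 : ℝ) < 1 / 12 by norm_num)
      have e2 : 1 ≤ (1 + Z) ^ ((1 : ℝ) / 12) := Real.one_le_rpow (by linarith) (by norm_num)
      have e3 : (1 + Z) ^ ((1 : ℝ) / 12) / (1 / 12) = 12 * (1 + Z) ^ ((1 : ℝ) / 12) := by ring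
      rw [e3] at e1
      linarith
    have hτ2 : (Div277.tau d : ℝ) ^ 2 ≤ C2 ^ 2 * (nm d : ℝ) ^ ((1 : ℝ) / 12) := by
      calc (Div277.tau d : ℝ) ^ 2 ≤ (C2 * (nm d : ℝ) ^ ((1 : ℝ) / 24)) ^ 2 := by gcongr
        _ = _ := by
          rw [mul_pow, ← Real.rpow_natCast ((nm d : ℝ) ^ ((1 : ℝ) / 24)),
            ← Real.rpow_mul hd0.le]
          norm_num
    have hlogn : 0 ≤ 1 + Real.log (1 + Z) := by
      have := Real.log_nonneg (show (1 : ℝ) ≤ 1 + Z by linarith)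
      linarith
    have h3 : ‖Mo l d Z‖ ≤ C1 * (C2 ^ 2 * (nm d : ℝ) ^ ((1 : ℝ) / 12)) *
        (26 * (X / nm d) ^ ((5 : ℝ) / 12)) := by
      calc ‖Mo l d Z‖ ≤ C1 * (Div277.tau d : ℝ) ^ 2 * (1 + Z) ^ ((1 : ℝ) / 3) *
            (1 + Real.log (1 + Z)) := h1
        _ ≤ C1 * (C2 ^ 2 * (nm d : ℝ) ^ ((1 : ℝ) / 12)) * (1 + Z) ^ ((1 : ℝ) / 3) *
            (13 * (1 + Z) ^ ((1 : ℝ) / 12)) := by gcongr
        _ = C1 * (C2 ^ 2 * (nm d : ℝ) ^ ((1 : ℝ) / 12)) * (13 * (1 + Z) ^ ((5 : ℝ) / 12)) := by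
            have : (1 + Z) ^ ((5 : ℝ) / 12) = (1 + Z) ^ ((1 : ℝ) / 3) * (1 + Z) ^ ((1 : ℝ) / 12) := by
              rw [← Real.rpow_add (by linarith)]; norm_num
            rw [this]; ring
        _ ≤ C1 * (C2 ^ 2 * (nm d : ℝ) ^ ((1 : ℝ) / 12)) *
            (26 * (X / nm d) ^ ((5 : ℝ) / 12)) := by
            refine mul_le_mul_of_nonneg_left ?_ (by positivity)
            have e1 : (1 + Z) ^ ((5 : ℝ) / 12) ≤ (2 * (X / nm d)) ^ ((5 : ℝ) / 12) :=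
              Real.rpow_le_rpow (by linarith) hZ1 (by norm_num)
            have e2 : (2 * ((X : ℝ) / nm d)) ^ ((5 : ℝ) / 12) =
                2 ^ ((5 : ℝ) / 12) * (X / nm d) ^ ((5 : ℝ) / 12) :=
              Real.mul_rpow (by norm_num) (by positivity)
            have e3 : (2 : ℝ) ^ ((5 : ℝ) / 12) ≤ 2 := by
              calc (2 : ℝ) ^ ((5 : ℝ) / 12) ≤ 2 ^ (1 : ℝ) :=
                    Real.rpow_le_rpow_of_exponent_le (by norm_num) (by norm_num)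
                _ = 2 := by norm_num
            have e4 : 0 ≤ ((X : ℝ) / nm d) ^ ((5 : ℝ) / 12) := by positivity
            nlinarith
    calc (nm d : ℝ) ^ (-(1 : ℝ) / 6) * ‖Mo l d Z‖
        ≤ (nm d : ℝ) ^ (-(1 : ℝ) / 6) * (C1 * (C2 ^ 2 * (nm d : ℝ) ^ ((1 : ℝ) / 12)) *
        (26 * (X / nm d) ^ ((5 : ℝ) / 12))) := by gcongr
      _ = C1 * C2 ^ 2 * 26 * (X : ℝ) ^ ((5 : ℝ) / 12) *
          ((nm d : ℝ) ^ (-(1 : ℝ) / 6) * (nm d : ℝ) ^ ((1 : ℝ) / 12) *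
            (nm d : ℝ) ^ (-(5 : ℝ) / 12)) := by
          rw [Real.div_rpow hX0.le hd0.le, neg_div (12 : ℝ) 5, Real.rpow_neg hd0.le (5 / 12)]
          ring
      _ = _ := by
          rw [← Real.rpow_add hd0, ← Real.rpow_add hd0]
          norm_num
  refine (Finset.sum_le_sum hpt).trans ?_
  rw [← Finset.mul_sum]
  set M : ℕ := ⌊(X : ℝ) ^ ((2 : ℝ) / 3)⌋₊ with hMdef
  have hsub : S ⊆ Div277.nz M := by
    intro d hd
    rw [Div277.mem_nz]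
    exact ⟨(hS d hd).1.ne_zero, Nat.le_floor (hS d hd).2.2.2⟩
  have hsum : ∑ d ∈ S, (nm d : ℝ) ^ (-(1 / 2 : ℝ)) ≤ 200 * (X : ℝ) ^ ((1 : ℝ) / 3) := by
    calc ∑ d ∈ S, (nm d : ℝ) ^ (-(1 / 2 : ℝ)) ≤ ∑ d ∈ Div277.nz M, (nm d : ℝ) ^ (-(1 / 2 : ℝ)) :=
          Finset.sum_le_sum_of_subset_of_nonneg hsub fun _ _ _ => by positivity
      _ ≤ 100 * ((M : ℝ) ^ (1 - 1 / 2 : ℝ) / (1 - 1 / 2)) :=
          Per277.sum_nz_rpow_neg_le (by norm_num) (by norm_num) M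
      _ = 200 * (M : ℝ) ^ ((1 : ℝ) / 2) := by norm_num; ring
      _ ≤ 200 * ((X : ℝ) ^ ((2 : ℝ) / 3)) ^ ((1 : ℝ) / 2) := by
          gcongr
          exact Nat.floor_le (by positivity)
      _ = _ := by rw [← Real.rpow_mul hX0.le]; norm_num
  calc C1 * C2 ^ 2 * 26 * (X : ℝ) ^ ((5 : ℝ) / 12) * ∑ d ∈ S, (nm d : ℝ) ^ (-(1 / 2 : ℝ))
      ≤ C1 * C2 ^ 2 * 26 * (X : ℝ) ^ ((5 : ℝ) / 12) * (200 * (X : ℝ) ^ ((1 : ℝ) / 3)) := by gcongr
    _ = C1 * C2 ^ 2 * 26 * 200 * ((X : ℝ) ^ ((5 : ℝ) / 12) * (X : ℝ) ^ ((1 : ℝ) / 3)) := by ring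
    _ = _ := by rw [← Real.rpow_add hX0]; norm_num

/-- **Type I with sharp cut-offs**, from the mean-square theorem. -/
theorem ti_prop_of_typeI (h : M49.TypeI) : Main48.TI_Prop := by
  classical
  intro l ε hε
  set ε0 : ℝ := min ε (1 / 6) with hε0
  have hε00 : 0 < ε0 := by positivity
  have hε01 : ε0 ≤ ε := min_le_left _ _
  have hε06 : ε0 ≤ 1 / 6 := min_le_right _ _
  obtain ⟨δ, C, hδ, hC, hmain⟩ := sharp_of_ms (ε := ε0 / 8) (by positivity)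
  obtain ⟨K, hK, hH⟩ := hyp_of_typeI h l hδ
  obtain ⟨C', hC', hmod⟩ := sum_model_le l
  set R : ℝ := Real.sqrt K + 1 + |pC * M49.Dsf| with hR
  have hR0 : 0 < R := by
    have := Real.sqrt_nonneg K
    positivity
  refine ⟨ε0 / 4, 2 * C * R + |pC| * C' + 1, by positivity, by positivity, ?_⟩
  intro X hX Y hY
  have hX1 : (1 : ℝ) ≤ X := by exact_mod_cast (by omega : 1 ≤ X)
  have hX0 : (0 : ℝ) < X := by linarith
  set S := (primBall X).filter (fun d => Squarefree d ∧ (nm d : ℝ) ≤ (X : ℝ) ^ (2 / 3 - ε)) with hS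
  set D : ℝ := (X : ℝ) ^ (2 / 3 - ε0) with hD
  have hD1 : 1 ≤ D := Real.one_le_rpow hX1 (by linarith)
  have hSmem : ∀ d ∈ S, IsPrim d ∧ Squarefree d ∧ nm d ≤ X ∧ (nm d : ℝ) ≤ D := by
    intro d hd
    rw [hS, Finset.mem_filter, mem_primBall] at hd
    refine ⟨hd.1.2, hd.2.1, hd.1.1, hd.2.2.trans ?_⟩
    exact Real.rpow_le_rpow_of_exponent_le hX1 (by linarith)
  have b1 := hmain (fun a => Squarefree a) (FG l) (mG l) K 1 |pC * M49.Dsf| hK (abs_nonneg _)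
    (norm_FG_le l) (FG_zero l) (fun a ha hs => norm_mG_le l ha hs) hH D X hD1 hX1 S
    (fun d => (Y d : ℝ)) (fun d hd => ⟨(hSmem d hd).1, (hSmem d hd).2.1, (hSmem d hd).2.2.2⟩)
    (fun d _ => ⟨Nat.cast_nonneg _, by exact_mod_cast hY d⟩)
  have b2 := hmod X hX Y hY S (fun d hd => ⟨(hSmem d hd).1, (hSmem d hd).2.1, (hSmem d hd).2.2.1,
    (hSmem d hd).2.2.2.trans (Real.rpow_le_rpow_of_exponent_le hX1 (by linarith))⟩)
  have hGG : GG (ε0 / 8) D X ≤ 2 * (X : ℝ) ^ (5 / 6 - ε0 / 4) := by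
    unfold GG
    have e1 : (X : ℝ) * D = (X : ℝ) ^ (5 / 3 - ε0) := by
      rw [hD]
      nth_rewrite 1 [← Real.rpow_one (X : ℝ)]
      rw [← Real.rpow_add hX0]
      congr 1; ring
    rw [e1, ← Real.rpow_mul hX0.le, ← Real.rpow_mul hX0.le]
    have e2 : (X : ℝ) ^ ((5 / 3 - ε0) * (ε0 / 8)) ≤ (X : ℝ) ^ (ε0 / 4) :=
      Real.rpow_le_rpow_of_exponent_le hX1 (by nlinarith)
    have e3 : (X : ℝ) ^ ((5 / 3 - ε0) * (1 / 2)) = (X : ℝ) ^ (5 / 6 - ε0 / 2) := by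
      congr 1; ring
    have e4 : (X : ℝ) ^ ((3 : ℝ) / 4) ≤ (X : ℝ) ^ (5 / 6 - ε0 / 2) :=
      Real.rpow_le_rpow_of_exponent_le hX1 (by linarith)
    rw [e3]
    calc (X : ℝ) ^ ((5 / 3 - ε0) * (ε0 / 8)) * ((X : ℝ) ^ (5 / 6 - ε0 / 2) + (X : ℝ) ^ ((3 : ℝ) / 4))
        ≤ (X : ℝ) ^ (ε0 / 4) * ((X : ℝ) ^ (5 / 6 - ε0 / 2) + (X : ℝ) ^ (5 / 6 - ε0 / 2)) := by gcongr
      _ = 2 * ((X : ℝ) ^ (ε0 / 4) * (X : ℝ) ^ (5 / 6 - ε0 / 2)) := by ring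
      _ = _ := by rw [← Real.rpow_add hX0]; congr 2; ring
  have hX34 : (X : ℝ) ^ ((3 : ℝ) / 4) ≤ (X : ℝ) ^ (5 / 6 - ε0 / 4) :=
    Real.rpow_le_rpow_of_exponent_le hX1 (by linarith)
  have hpt : ∀ d ∈ S, ‖∑ m ∈ (primBall X).filter (fun m => nm (d * m) ≤ Y d), Main48.Fl l (d * m)‖ ≤
      ‖Fu (FG l) (mG l) (Y d : ℝ) d‖ +
        |pC| * ((nm d : ℝ) ^ (-(1 : ℝ) / 6) * ‖Mo l d ((Y d : ℝ) / nm d)‖) := by
    intro d hd
    rw [sum_Fl_eq l (hSmem d hd).1 X (Y d) (hY d), norm_mul]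
    calc _ ≤ 1 * ‖Fu (FG l) (mG l) (Y d : ℝ) d -
          ((pC * (nm d : ℝ) ^ (-(1 : ℝ) / 6) : ℝ) : ℂ) * Mo l d ((Y d : ℝ) / nm d)‖ := by
          gcongr; exact P355.norm_ang_le l d
      _ ≤ ‖Fu (FG l) (mG l) (Y d : ℝ) d‖ +
          ‖((pC * (nm d : ℝ) ^ (-(1 : ℝ) / 6) : ℝ) : ℂ) * Mo l d ((Y d : ℝ) / nm d)‖ := by
          rw [one_mul]; exact norm_sub_le _ _
      _ = _ := by
          rw [norm_mul, Complex.norm_real, Real.norm_eq_abs, abs_mul,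
            abs_of_nonneg (by positivity : 0 ≤ (nm d : ℝ) ^ (-(1 : ℝ) / 6))]
          ring
  refine (Finset.sum_le_sum hpt).trans ?_
  rw [Finset.sum_add_distrib, ← Finset.mul_sum]
  have hXp : 0 < (X : ℝ) ^ (5 / 6 - ε0 / 4) := by positivity
  calc _ ≤ C * R * GG (ε0 / 8) D X + |pC| * (C' * (X : ℝ) ^ ((3 : ℝ) / 4)) := by
        gcongr
    _ ≤ C * R * (2 * (X : ℝ) ^ (5 / 6 - ε0 / 4)) + |pC| * (C' * (X : ℝ) ^ (5 / 6 - ε0 / 4)) := by
        gcongr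
    _ ≤ (2 * C * R + |pC| * C' + 1) * (X : ℝ) ^ (5 / 6 - ε0 / 4) := by
        have : (2 * C * R + |pC| * C' + 1) * (X : ℝ) ^ (5 / 6 - ε0 / 4) =
          C * R * (2 * (X : ℝ) ^ (5 / 6 - ε0 / 4)) + |pC| * (C' * (X : ℝ) ^ (5 / 6 - ε0 / 4)) +
            (X : ℝ) ^ (5 / 6 - ε0 / 4) := by ring
        linarith

end Crest.Agent.R012.TI2
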