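import Crest.Agent.R012.MTypeI_49
import Crest.Agent.R012.TI2b_581
import Crest.Agent.R012.TMain_411
import Crest.Agent.R012.TMainC_411
import Crest.Agent.R012.T13Fin_541
import Crest.Agent.R012.TNXfin_52
import Crest.Agent.R012.LS2Main_448
import Crest.Agent.R012.Mom_687
import Crest.Agent.R012.Core_569
import Crest.Agent.R012.CR2l_180
import Crest.Agent.R012.CR3_436
import Crest.Agent.R012.CRProd_290
import Crest.Agent.R012.Glue1_372
import Crest.Agent.R012.TIImain_54
import Crest.Agent.R012.SNHof_828
import Crest.Agent.R012.T0x_810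
import Crest.Agent.R012.IxOf_106
import Crest.Agent.R012.SieveOf_420
import Crest.Agent.R012.Edge_79
import Crest.Agent.R012.T8b_968
import Crest.Agent.R012.Final_277

/-!
# Row 12: final assembly (captain helper48)
-/

set_option autoImplicit false

noncomputable section

open Complex Filter Topology

namespace Crest.Agent.R012.MainProof48

open Crest.Agent.R012 Eis

theorem tI : Main48.TI_Prop := TI2.ti_prop_of_typeI MFinal49.typeI

theorem core : CR290.Core := CRH569.crh Mom687.mom CR2K180.savedMom_final

theorem crProd : CR290.CRProd :=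
  CR290.crprod_of_corecub (CR3436.coreCub core Mom687.gls Glue372.OrdLS_holds)

theorem tMainN : T411.TMainN := T411.tmainN_of T13x541.t13 NonCube52.tnxN MFinal49.t6

theorem tIIx : Main48.TIIx_Prop := TII54.tiix tMainN

theorem tIIcx : Main48.TIIcx_Prop := TII54.tiicx TNX411.tmainC crProd

theorem t0x : Main48.T0x_Prop := T0x810.t0x

theorem snh : Main48.SNH_Prop := NearHalf828.snh_of tI tIIx tIIcx t0x

theorem edge : Main48.Edge_Prop := Edge79.edge_prop T8b968.t8b

/-- **the output of the sieve**, unconditional. -/
theorem dyadic : Main48.Dyadic_Prop :=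
  SieveOf420.sieve_of tI (IxOf106.ix_of.1 tIIx) (IxOf106.ix_of.2.1 tIIcx)
    (IxOf106.ix_of.2.2 t0x) snh edge

end Crest.Agent.R012.MainProof48
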