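import Crest.Agent.R012.ModelExp_705
import Crest.Agent.R012.PC_355

/-!
# Row 12: sums of `χ(b)` over squarefree primary elements coprime to `a` (no main term)

`χ` completely multiplicative on primary elements with `‖∑_{N b ≤ Y} χ b‖ ≤ E √Y`; the case
`χ = ang l`, `l ≠ 0`.
-/

set_option autoImplicit false

noncomputable section

open MeasureTheory Set Filter Topology

namespace Crest.Agent.R012.Model705

open Crest.Agent.R012 Crest.Agent.R012.Eis Crest.Agent.R012.Mob705 Crest.Agent.R012.Abel705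
open Crest.Agent.R012.Lat277 Crest.Agent.R012.Div277

/-- `χ` is completely multiplicative on primary elements, bounded by `1`, with square root
cancellation in the partial sums (constant `E`). -/
structure Chi (χ : Eis → ℂ) (E : ℝ) : Prop where
  nonneg : 0 ≤ E
  mul : ∀ a b, IsPrim a → IsPrim b → χ (a * b) = χ a * χ b
  le_one : ∀ a, IsPrim a → ‖χ a‖ ≤ 1
  sum_le : ∀ Y, 0 ≤ Y → ‖∑ b ∈ pb Y, χ b‖ ≤ E * Real.sqrt Y

variable {χ : Eis → ℂ} {E : ℝ}

lemma sum_cop_eq (h : Chi χ E) {a : Eis} (ha : a ≠ 0) (Y : ℝ) :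
    ∑ b ∈ cop a Y, χ b = ∑ d ∈ dvs a, (muE d : ℂ) * (χ d * ∑ b ∈ pb (Y / nm d), χ b) := by
  classical
  have h1 : ∑ b ∈ cop a Y, χ b = ∑ b ∈ pb Y, (if IsCoprime b a then (1 : ℂ) else 0) * χ b := by
    unfold cop
    rw [Finset.sum_filter]
    refine Finset.sum_congr rfl fun b _ => ?_
    split_ifs <;> simp
  rw [h1]
  have h2 : ∀ b ∈ pb Y, (if IsCoprime b a then (1 : ℂ) else 0) * χ b =
      ∑ d ∈ dvs a, (if d ∣ b then (muE d : ℂ) * χ b else 0) := by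
    intro b hb
    have h := sum_muE_coprime (mem_pb.mp hb).2 ha
    have h' := congrArg (Int.cast : ℤ → ℂ) h
    push_cast at h'
    rw [← h', Finset.sum_mul]
    refine Finset.sum_congr rfl fun d _ => ?_
    split_ifs <;> simp
  rw [Finset.sum_congr rfl h2, Finset.sum_comm]
  refine Finset.sum_congr rfl fun d hd => ?_
  have hdp := isPrim_of_mem_dvs hd
  rw [← Finset.sum_filter, pb_filter_dvd Y hdp, Finset.sum_map, Finset.mul_sum, Finset.mul_sum]
  refine Finset.sum_congr rfl fun b hb => ?_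
  rw [mulEmb_apply, h.mul d b hdp (mem_pb.mp hb).2]

/-- Sums over primary elements coprime to `a`. -/
theorem norm_sum_cop_le (h : Chi χ E) {a : Eis} (ha : a ≠ 0) {Y : ℝ} (hY : 0 ≤ Y) :
    ‖∑ b ∈ cop a Y, χ b‖ ≤ E * sig a * Real.sqrt Y := by
  rw [sum_cop_eq h ha, sig_eq_sum ha, Finset.mul_sum, Finset.sum_mul]
  refine (norm_sum_le _ _).trans (Finset.sum_le_sum fun d hd => ?_)
  have hdp := isPrim_of_mem_dvs hd
  have h1 := h.sum_le (Y / nm d) (by positivity)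
  have h2 : ‖(muE d : ℂ)‖ = |(muE d : ℝ)| := by
    rw [← Complex.ofReal_intCast, Complex.norm_real, Real.norm_eq_abs]
  rw [norm_mul, norm_mul, h2]
  have h3 := h.le_one d hdp
  have hE := h.nonneg
  calc |(muE d : ℝ)| * (‖χ d‖ * ‖∑ b ∈ pb (Y / nm d), χ b‖)
      ≤ |(muE d : ℝ)| * (1 * (E * Real.sqrt (Y / nm d))) := by gcongr
    _ = E * (|(muE d : ℝ)| * (1 / Real.sqrt (nm d))) * Real.sqrt Y := by
        rw [Real.sqrt_div hY]; ring

lemma sum_sfc_eq (h : Chi χ E) (a : Eis) (Y : ℝ) :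
    ∑ b ∈ sfc a Y, χ b =
      ∑ d ∈ cop a (Real.sqrt Y), (muE d : ℂ) * (χ (d ^ 2) * ∑ b ∈ cop a (Y / (nm d : ℝ) ^ 2), χ b) := by
  classical
  have h1 : ∑ b ∈ sfc a Y, χ b = ∑ b ∈ cop a Y, (if Squarefree b then (1 : ℂ) else 0) * χ b := by
    unfold sfc
    rw [Finset.sum_filter]
    refine Finset.sum_congr rfl fun b _ => ?_
    split_ifs <;> simp
  rw [h1]
  have h2 : ∀ b ∈ cop a Y, (if Squarefree b then (1 : ℂ) else 0) * χ b =
      ∑ d ∈ cop a (Real.sqrt Y), (if d ^ 2 ∣ b then (muE d : ℂ) * χ b else 0) := by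
    intro b hb
    rw [mem_cop] at hb
    have h := sum_muE_sq hb.1.2
    have h' := congrArg (Int.cast : ℤ → ℂ) h
    push_cast at h'
    rw [← h', Finset.sum_mul]
    have e : ∀ d ∈ dvs b, (if d ^ 2 ∣ b then (muE d : ℂ) else 0) * χ b =
        if d ^ 2 ∣ b then (muE d : ℂ) * χ b else 0 := by
      intro d _; split_ifs <;> simp
    rw [Finset.sum_congr rfl e, ← Finset.sum_filter, ← Finset.sum_filter]
    refine Finset.sum_congr ?_ fun _ _ => rfl
    ext d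
    rw [Finset.mem_filter, Finset.mem_filter, mem_dvs hb.1.2.ne_zero, mem_cop]
    constructor
    · rintro ⟨⟨h3, h4⟩, h5⟩
      refine ⟨⟨⟨?_, h3⟩, IsCoprime.of_isCoprime_of_dvd_left hb.2 h4⟩, h5⟩
      have h6 := nm_le_of_dvd hb.1.2.ne_zero h5
      rw [nm_pow] at h6
      have h7 : (nm d : ℝ) ^ 2 ≤ nm b := by exact_mod_cast h6
      exact Real.le_sqrt_of_sq_le (h7.trans hb.1.1)
    · rintro ⟨⟨⟨_, h3⟩, _⟩, h5⟩
      exact ⟨⟨h3, (dvd_pow_self d two_ne_zero).trans h5⟩, h5⟩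
  rw [Finset.sum_congr rfl h2, Finset.sum_comm]
  refine Finset.sum_congr rfl fun d hd => ?_
  rw [mem_cop] at hd
  rw [← Finset.sum_filter, cop_filter_dvd a Y (hd.1.2.pow 2) hd.2.pow_left, Finset.sum_map,
    Finset.mul_sum, Finset.mul_sum, nm_pow]
  push_cast
  refine Finset.sum_congr rfl fun b hb => ?_
  rw [mem_cop] at hb
  rw [mulEmb_apply, h.mul (d ^ 2) b (hd.1.2.pow 2) hb.1.2]

/-- Sums over squarefree primary elements coprime to `a`. -/
theorem norm_sum_sfc_le (h : Chi χ E) {a : Eis} (ha : a ≠ 0) {Y : ℝ} (hY : 0 ≤ Y) :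
    ‖∑ b ∈ sfc a Y, χ b‖ ≤ 200 * E * sig a * er Y := by
  rw [sum_sfc_eq h]
  have hE := h.nonneg
  have hsig := sig_pos a
  have hs := Real.sqrt_nonneg Y
  have h1 : ∀ d ∈ cop a (Real.sqrt Y),
      ‖(muE d : ℂ) * (χ (d ^ 2) * ∑ b ∈ cop a (Y / (nm d : ℝ) ^ 2), χ b)‖ ≤
        E * sig a * Real.sqrt Y * (1 / (nm d : ℝ)) := by
    intro d hd
    rw [mem_cop] at hd
    have h2 := norm_sum_cop_le h ha (Y := Y / (nm d : ℝ) ^ 2) (by positivity)
    have h4 : Real.sqrt (Y / (nm d : ℝ) ^ 2) = Real.sqrt Y * (1 / (nm d : ℝ)) := by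
      rw [Real.sqrt_div hY, Real.sqrt_sq (by positivity)]; ring
    rw [h4] at h2
    rw [norm_mul, norm_mul]
    have h5 := norm_muE_le d
    have h6 := h.le_one (d ^ 2) (hd.1.2.pow 2)
    calc _ ≤ 1 * (1 * (E * sig a * (Real.sqrt Y * (1 / (nm d : ℝ))))) := by gcongr
      _ = _ := by ring
  refine (norm_sum_le _ _).trans ((Finset.sum_le_sum h1).trans ?_)
  rw [← Finset.mul_sum]
  have h5 : ∑ d ∈ cop a (Real.sqrt Y), (1 : ℝ) / nm d ≤ 100 * (1 + Real.log (1 + Real.sqrt Y)) := by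
    refine le_trans ?_ (sum_inv_nm_le hs)
    exact Finset.sum_le_sum_of_subset_of_nonneg (cop_subset _ _) fun _ _ _ => by positivity
  have h6 : 1 + Real.log (1 + Real.sqrt Y) ≤ 2 * (1 + Real.log (1 + Y)) := by
    have h9 : 0 ≤ Real.log (1 + Y) := Real.log_nonneg (by linarith)
    rcases le_or_gt Y 1 with h7 | h7
    · have h3 : Real.sqrt Y ≤ 1 := by
        rw [show (1 : ℝ) = Real.sqrt 1 by simp]; exact Real.sqrt_le_sqrt h7
      have h8 := Real.log_le_sub_one_of_pos (x := 1 + Real.sqrt Y) (by linarith)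
      linarith
    · have h3 : Real.sqrt Y ≤ Y := by
        rw [Real.sqrt_le_left hY]; nlinarith
      have h8 : Real.log (1 + Real.sqrt Y) ≤ Real.log (1 + Y) :=
        Real.log_le_log (by linarith) (by linarith)
      linarith
  calc _ ≤ E * sig a * Real.sqrt Y * (100 * (2 * (1 + Real.log (1 + Y)))) := by
        refine mul_le_mul_of_nonneg_left (h5.trans ?_) (by positivity)
        linarith
    _ = _ := by unfold er; ring

/-! ### Abel data with a twist -/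

lemma dataSfChi (h : Chi χ E) (a : Eis) :
    Data (fun b => iSf a b * χ b) (fun b => (nm b : ℝ)) (sfc a) 100 where
  pos b hb := (dataSf a).pos b (left_ne_zero_of_mul hb)
  mem b hb := (dataSf a).mem b (left_ne_zero_of_mul hb)
  bound Y hY := by
    refine le_trans (Finset.sum_le_sum fun b hb => ?_) ((dataSf a).bound Y hY)
    rw [norm_mul]
    rw [mem_sfc] at hb
    exact mul_le_of_le_one_right (norm_nonneg _) (h.le_one b hb.1.2)

lemma sum_iSf_chi (χ : Eis → ℂ) (a : Eis) (Y : ℝ) :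
    ∑ b ∈ sfc a Y, iSf a b * χ b = ∑ b ∈ sfc a Y, χ b := by
  refine Finset.sum_congr rfl fun b hb => ?_
  rw [mem_sfc] at hb
  rw [iSf, if_pos ⟨hb.1.2, hb.2⟩, one_mul]

lemma errSfChi (h : Chi χ E) {a : Eis} (ha : a ≠ 0) (Y : ℝ) (hY : 0 < Y) :
    ‖∑ b ∈ sfc a Y, iSf a b * χ b - 0 * Y‖ ≤ 200 * E * sig a * er Y := by
  rw [zero_mul, sub_zero, sum_iSf_chi]
  exact norm_sum_sfc_le h ha hY.le

/-- Sharp twisted sums. -/
theorem sum_sfc_chi_pow (h : Chi χ E) {a : Eis} (ha : a ≠ 0) {z : ℂ} (hz : -(1 / 2) < z.re)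
    {Y : ℝ} (hY : 0 < Y) :
    ‖∑ b ∈ sfc a Y, χ b * ((nm b : ℝ) : ℂ) ^ z‖ ≤
      200 * E * sig a * (1 + ‖z‖ / (1 / 2 + z.re)) * (Y ^ z.re * er Y) := by
  have hE := h.nonneg
  have h1 := abel_pow (dataSfChi h a) (E := 200 * E * sig a) (by have := sig_pos a; positivity)
    (errSfChi h ha) hz hY
  have e : ∑ b ∈ sfc a Y, iSf a b * χ b * ((nm b : ℝ) : ℂ) ^ z =
      ∑ b ∈ sfc a Y, χ b * ((nm b : ℝ) : ℂ) ^ z := by
    refine Finset.sum_congr rfl fun b hb => ?_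
    rw [mem_sfc] at hb
    rw [iSf, if_pos ⟨hb.1.2, hb.2⟩, one_mul]
  rw [e] at h1
  simpa using h1

/-! ### The angular characters -/

/-- `ang l`, `l ≠ 0`. -/
theorem chi_ang {l : ℤ} (hl : l ≠ 0) : ∃ E : ℝ, Chi (ang l) E := by
  obtain ⟨C, hC, h⟩ := P355.C2_prim l
  refine ⟨C * (3 : ℕ), by positivity, fun a b _ _ => P355.ang_mul l a b,
    fun a _ => P355.norm_ang_le l a, fun Y hY => ?_⟩
  have h1 := h 3 (fun _ => 1) (by norm_num) (dvd_refl 3) (fun _ _ => by simp)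
    (fun _ _ _ _ _ => rfl) (fun h0 => absurd h0 hl) ⌊Y⌋₊
  simp only [one_mul] at h1
  unfold pb
  refine h1.trans ?_
  refine mul_le_mul_of_nonneg_left ?_ (by positivity)
  exact Real.sqrt_le_sqrt (Nat.floor_le hY)

/-- The sharp model sum with an angular character. -/
theorem sum_sfc_ang_sixth {l : ℤ} (hl : l ≠ 0) : ∃ C : ℝ, 0 ≤ C ∧ ∀ {a : Eis}, a ≠ 0 → ∀ {Y : ℝ},
    0 ≤ Y → ‖∑ b ∈ sfc a Y, ang l b * (((nm b : ℝ) ^ (-(1 : ℝ) / 6) : ℝ) : ℂ)‖ ≤
      C * sig a * (Y ^ ((1 : ℝ) / 3) * (1 + Real.log (1 + Y))) := by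
  obtain ⟨E, hE⟩ := chi_ang hl
  have hE0 := hE.nonneg
  refine ⟨300 * E, by positivity, fun {a} ha {Y} hY => ?_⟩
  rcases hY.eq_or_lt with h0 | hY'
  · rw [← h0]
    have : sfc a 0 = ∅ := by
      apply Finset.subset_empty.mp
      refine ((sfc_subset a 0).trans (cop_subset a 0)).trans ?_
      rw [pb_eq_empty (by norm_num)]
    rw [this]
    have := sig_pos a
    simp
  have h := sum_sfc_chi_pow hE ha (z := ((-(1 : ℝ) / 6 : ℝ) : ℂ)) (by
    rw [Complex.ofReal_re]; norm_num) hY'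
  have e1 : ∑ b ∈ sfc a Y, ang l b * ((nm b : ℝ) : ℂ) ^ ((-(1 : ℝ) / 6 : ℝ) : ℂ) =
      ∑ b ∈ sfc a Y, ang l b * (((nm b : ℝ) ^ (-(1 : ℝ) / 6) : ℝ) : ℂ) := by
    refine Finset.sum_congr rfl fun b _ => ?_
    rw [Complex.ofReal_cpow (by positivity)]
  rw [e1] at h
  refine h.trans (le_of_eq ?_)
  rw [Complex.ofReal_re, Complex.norm_real]
  have e3 : Y ^ (-(1 : ℝ) / 6) * er Y = Y ^ ((1 : ℝ) / 3) * (1 + Real.log (1 + Y)) := by
    unfold er
    rw [Real.sqrt_eq_rpow, ← mul_assoc, ← Real.rpow_add hY']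
    norm_num
  have e4 : 1 + ‖(-(1 : ℝ) / 6 : ℝ)‖ / (1 / 2 + -(1 : ℝ) / 6) = 3 / 2 := by
    rw [Real.norm_eq_abs]; norm_num [abs_of_pos]
  rw [e3, e4]
  ring

end Crest.Agent.R012.Model705
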