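import Crest.Agent.R012.Dens_705
import Crest.Agent.R012.Abel_705
import Crest.Agent.R012.SpecM_49

/-!
# Row 12: the model side of Type I sums

* `dataSf`, `dataCop`, `dataPb` : Abel data for squarefree / coprime / all primary elements.
* `abel_wt` : `∑ a_i ν_i^(-σ+iτ) v(ν_i / X) = κ mellin v (1-σ+iτ) X^(1-σ+iτ) + O((1+|τ|) X^(1/2-σ) ..)`
* `model_typeI` : the model analogue of `M49.TypeI`, pointwise in the modulus.
-/

set_option autoImplicit false

noncomputable section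

open MeasureTheory Set Filter Topology

namespace Crest.Agent.R012.Model705

open Crest.Agent.R012 Crest.Agent.R012.Eis Crest.Agent.R012.Mob705 Crest.Agent.R012.Abel705
open Crest.Agent.R012.Lat277 Crest.Agent.R012.Div277

/-! ### Abel data -/

open Classical in
/-- indicator of the squarefree primary elements coprime to `a` -/
def iSf (a b : Eis) : ℂ := if IsPrim b ∧ IsCoprime b a ∧ Squarefree b then 1 else 0

open Classical in
/-- indicator of the primary elements coprime to `a` -/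
def iCop (a b : Eis) : ℂ := if IsPrim b ∧ IsCoprime b a then 1 else 0

lemma sum_iSf (a : Eis) (Y : ℝ) : ∑ b ∈ sfc a Y, iSf a b = ((sfc a Y).card : ℂ) := by
  rw [Finset.card_eq_sum_ones]
  push_cast
  refine Finset.sum_congr rfl fun b hb => ?_
  rw [mem_sfc] at hb
  rw [iSf, if_pos ⟨hb.1.2, hb.2⟩]

lemma sum_iCop (a : Eis) (Y : ℝ) : ∑ b ∈ cop a Y, iCop a b = ((cop a Y).card : ℂ) := by
  rw [Finset.card_eq_sum_ones]
  push_cast
  refine Finset.sum_congr rfl fun b hb => ?_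
  rw [mem_cop] at hb
  rw [iCop, if_pos ⟨hb.1.2, hb.2⟩]

lemma dataSf (a : Eis) : Data (iSf a) (fun b => (nm b : ℝ)) (sfc a) 100 where
  pos b hb := by
    unfold iSf at hb
    split_ifs at hb with h
    · exact lt_of_lt_of_le one_pos (one_le_nm_of_isPrim h.1)
    · exact absurd rfl hb
  mem b hb Y := by
    unfold iSf at hb
    split_ifs at hb with h
    · rw [mem_sfc]
      exact ⟨fun h' => h'.1.1, fun h' => ⟨⟨h', h.1⟩, h.2⟩⟩
    · exact absurd rfl hb
  bound Y hY := by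
    have h1 : ∑ b ∈ sfc a Y, ‖iSf a b‖ = ((sfc a Y).card : ℝ) := by
      rw [Finset.card_eq_sum_ones]
      push_cast
      refine Finset.sum_congr rfl fun b hb => ?_
      rw [mem_sfc] at hb
      rw [iSf, if_pos ⟨hb.1.2, hb.2⟩, norm_one]
    rw [h1]
    refine le_trans ?_ (card_pb_le Y hY.le)
    exact_mod_cast Finset.card_le_card ((sfc_subset a Y).trans (cop_subset a Y))

lemma dataCop (a : Eis) : Data (iCop a) (fun b => (nm b : ℝ)) (cop a) 100 where
  pos b hb := by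
    unfold iCop at hb
    split_ifs at hb with h
    · exact lt_of_lt_of_le one_pos (one_le_nm_of_isPrim h.1)
    · exact absurd rfl hb
  mem b hb Y := by
    unfold iCop at hb
    split_ifs at hb with h
    · rw [mem_cop]
      exact ⟨fun h' => h'.1.1, fun h' => ⟨⟨h', h.1⟩, h.2⟩⟩
    · exact absurd rfl hb
  bound Y hY := by
    have h1 : ∑ b ∈ cop a Y, ‖iCop a b‖ = ((cop a Y).card : ℝ) := by
      rw [Finset.card_eq_sum_ones]
      push_cast
      refine Finset.sum_congr rfl fun b hb => ?_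
      rw [mem_cop] at hb
      rw [iCop, if_pos ⟨hb.1.2, hb.2⟩, norm_one]
    rw [h1]
    refine le_trans ?_ (card_pb_le Y hY.le)
    exact_mod_cast Finset.card_le_card (cop_subset a Y)

/-- the error function -/
def er (Y : ℝ) : ℝ := Real.sqrt Y * (1 + Real.log (1 + Y))

lemma er_nonneg {Y : ℝ} (hY : 0 ≤ Y) : 0 ≤ er Y := by
  have : 0 ≤ Real.log (1 + Y) := Real.log_nonneg (by linarith)
  unfold er; positivity

lemma er_mono {Y Z : ℝ} (hY : 0 ≤ Y) (h : Y ≤ Z) : er Y ≤ er Z := by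
  unfold er
  have h1 : Real.sqrt Y ≤ Real.sqrt Z := Real.sqrt_le_sqrt h
  have h2 : Real.log (1 + Y) ≤ Real.log (1 + Z) := Real.log_le_log (by linarith) (by linarith)
  have h3 : 0 ≤ Real.log (1 + Y) := Real.log_nonneg (by linarith)
  exact mul_le_mul h1 (by linarith) (by linarith) (Real.sqrt_nonneg _)

lemma errSf {a : Eis} (ha : a ≠ 0) (Y : ℝ) (hY : 0 < Y) :
    ‖∑ b ∈ sfc a Y, iSf a b - ((kap 1 * LF a : ℝ) : ℂ) * Y‖ ≤ 12800 * sig a * er Y := by
  rw [sum_iSf]
  have h := card_sfc' ha hY.le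
  have e : ((sfc a Y).card : ℂ) - ((kap 1 * LF a : ℝ) : ℂ) * Y =
      (((sfc a Y).card - kap 1 * LF a * Y : ℝ) : ℂ) := by push_cast; ring
  rw [e, Complex.norm_real, Real.norm_eq_abs]
  unfold er
  linarith

lemma errCop {a : Eis} (ha : a ≠ 0) (Y : ℝ) (hY : 0 < Y) :
    ‖∑ b ∈ cop a Y, iCop a b - ((kap0 * PE a : ℝ) : ℂ) * Y‖ ≤ 61 * sig a * er Y := by
  rw [sum_iCop]
  have h := card_cop ha hY.le
  have e : ((cop a Y).card : ℂ) - ((kap0 * PE a : ℝ) : ℂ) * Y =
      (((cop a Y).card - kap0 * PE a * Y : ℝ) : ℂ) := by push_cast; ring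
  rw [e, Complex.norm_real, Real.norm_eq_abs]
  refine h.trans ?_
  unfold er
  have h1 : 0 ≤ Real.log (1 + Y) := Real.log_nonneg (by linarith)
  have h2 := sig_pos a
  have h3 := Real.sqrt_nonneg Y
  have : 0 ≤ 61 * sig a * Real.sqrt Y * Real.log (1 + Y) := by positivity
  nlinarith

/-! ### Smooth weights -/

lemma log_aux {c X : ℝ} (hc : 0 ≤ c) (hX : 0 ≤ X) :
    1 + Real.log (1 + c * X) ≤ (1 + Real.log (1 + c)) * (1 + Real.log (1 + X)) := by
  have h1 : 0 ≤ Real.log (1 + c) := Real.log_nonneg (by linarith)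
  have h2 : 0 ≤ Real.log (1 + X) := Real.log_nonneg (by linarith)
  have h3 : Real.log (1 + c * X) ≤ Real.log ((1 + c) * (1 + X)) :=
    Real.log_le_log (by positivity) (by nlinarith)
  rw [Real.log_mul (by positivity) (by positivity)] at h3
  nlinarith

/-- Abel summation for `t^s v(t/X)`, uniform over all data. -/
theorem abel_wt (v : ℝ → ℂ) (hv : M49.Wt v) (σ : ℝ) : ∃ C : ℝ, 0 ≤ C ∧
    ∀ (ι : Type) [Countable ι] (a : ι → ℂ) (ν : ι → ℝ) (s : ℝ → Finset ι) (K : ℝ) (κ : ℂ) (E : ℝ),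
      Data a ν s K → 0 ≤ E → (∀ Y, 0 < Y → ‖∑ i ∈ s Y, a i - κ * Y‖ ≤ E * er Y) →
      ∀ X τ : ℝ, 0 < X →
      Summable (fun i => ‖a i * ((ν i : ℂ) ^ (-(σ : ℂ) + τ * Complex.I) * v (ν i / X))‖) ∧
      ‖∑' i, a i * ((ν i : ℂ) ^ (-(σ : ℂ) + τ * Complex.I) * v (ν i / X)) -
        κ * (mellin v (1 - σ + τ * Complex.I) * (X : ℂ) ^ ((1 : ℂ) - σ + τ * Complex.I))‖ ≤
        C * E * (1 + |τ|) * (X ^ (-σ) * er X) := by
  obtain ⟨al, be, hal, hab, hsupp⟩ := hv.supp
  have hbe : 0 < be := hal.trans hab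
  have hvc : Continuous v := hv.smooth.continuous
  have hv1 : ContDiff ℝ 1 v := hv.smooth.of_le (by exact_mod_cast le_top)
  have hvd : ∀ x, HasDerivAt v (deriv v x) x := fun x =>
    (hv1.differentiable (by norm_num) x).hasDerivAt
  have hvdc : Continuous (deriv v) := hv1.continuous_deriv le_rfl
  obtain ⟨M0, hM0⟩ : ∃ M, ∀ x ∈ Icc al be, ‖v x‖ ≤ M :=
    isCompact_Icc.exists_bound_of_continuousOn hvc.continuousOn
  obtain ⟨M1, hM1⟩ : ∃ M, ∀ x ∈ Icc al be, ‖deriv v x‖ ≤ M :=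
    isCompact_Icc.exists_bound_of_continuousOn hvdc.continuousOn
  have hM0' : 0 ≤ M0 := (norm_nonneg _).trans (hM0 al ⟨le_rfl, hab.le⟩)
  have hM1' : 0 ≤ M1 := (norm_nonneg _).trans (hM1 al ⟨le_rfl, hab.le⟩)
  -- the derivative of `v` vanishes outside
  have hd0 : ∀ x, x < al ∨ be < x → deriv v x = 0 := by
    intro x hx
    rcases hx with hx | hx
    · have : v =ᶠ[𝓝 x] fun _ => 0 := by
        filter_upwards [Iio_mem_nhds hx] with y hy
        exact hsupp y (Or.inl hy)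
      rw [this.deriv_eq]; simp
    · have : v =ᶠ[𝓝 x] fun _ => 0 := by
        filter_upwards [Ioi_mem_nhds hx] with y hy
        exact hsupp y (Or.inr hy)
      rw [this.deriv_eq]; simp
  set M2 : ℝ := al ^ (-σ - 1) + be ^ (-σ - 1) with hM2
  have hM2' : 0 ≤ M2 := by positivity
  set M3 : ℝ := M2 * ((|σ| + 1) * M0 + M1 * be) with hM3
  have hM3' : 0 ≤ M3 := by positivity
  have hlb : 0 ≤ Real.log (1 + be) := Real.log_nonneg (by linarith)
  refine ⟨(be - al) * Real.sqrt be * (1 + Real.log (1 + be)) * M3, ?_, ?_⟩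
  · have : 0 ≤ be - al := by linarith
    positivity
  intro ι _ a ν s K κ E hdata hE hEr X τ hX
  set z : ℂ := -(σ : ℂ) + τ * Complex.I with hz
  have hzre : z.re = -σ := by simp [hz]
  have hznorm : ‖z‖ ≤ |σ| + |τ| := by
    refine (norm_add_le _ _).trans ?_
    simp
  set f : ℝ → ℂ := fun t => (t : ℂ) ^ z * v (t / X) with hf
  set f' : ℝ → ℂ := fun t => z * (t : ℂ) ^ (z - 1) * v (t / X) +
    (t : ℂ) ^ z * ((1 / X : ℝ) • deriv v (t / X)) with hf'
  have hderiv : ∀ t, 0 < t → HasDerivAt f (f' t) t := by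
    intro t ht
    have h1 : HasDerivAt (fun t : ℝ => (t : ℂ) ^ z) (z * (t : ℂ) ^ (z - 1)) t := by
      have h := ((hasDerivAt_id (t : ℂ)).cpow_const (c := z) (Or.inl (by simpa using ht))).comp_ofReal
      simpa using h
    have h2 : HasDerivAt (fun t => v (t / X)) ((1 / X : ℝ) • deriv v (t / X)) t :=
      (hvd (t / X)).scomp t ((hasDerivAt_id t).div_const X)
    exact h1.mul h2
  have hout : ∀ t, 0 < t → t ∉ Icc (al * X) (be * X) → t / X < al ∨ be < t / X := by
    intro t _ htn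
    rw [mem_Icc, not_and_or, not_le, not_le] at htn
    rcases htn with h | h
    · left; rwa [div_lt_iff₀ hX]
    · right; rwa [lt_div_iff₀ hX]
  have hf0 : ∀ t, 0 < t → t ∉ Icc (al * X) (be * X) → f' t = 0 := by
    intro t ht htn
    simp only [hf']
    rw [hsupp _ (hout t ht htn), hd0 _ (hout t ht htn)]
    simp
  have hcont : ContinuousOn f' (Ioi 0) := by
    have c1 : ∀ w : ℂ, ContinuousOn (fun t : ℝ => (t : ℂ) ^ w) (Ioi 0) := by
      intro w t ht
      have ht' : (0 : ℝ) < t := ht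
      refine ContinuousAt.continuousWithinAt ?_
      exact (Complex.continuousAt_ofReal_cpow_const t w (Or.inr ht'.ne'))
    have c2 : Continuous (fun t : ℝ => v (t / X)) := hvc.comp (continuous_id.div_const X)
    have c3 : Continuous (fun t : ℝ => deriv v (t / X)) := hvdc.comp (continuous_id.div_const X)
    have c4 : Continuous (fun t : ℝ => (1 / X : ℝ) • deriv v (t / X)) :=
      (c3.const_smul (1 / X : ℝ)).congr fun _ => rfl
    exact ((continuousOn_const.mul (c1 _)).mul c2.continuousOn).add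
      ((c1 _).mul c4.continuousOn)
  have hsub : Icc (al * X) (be * X) ⊆ Ioi 0 := fun t ht => lt_of_lt_of_le (by positivity) ht.1
  have hbound : ∀ t ∈ Icc (al * X) (be * X), ‖f' t‖ ≤ M3 * (1 + |τ|) * X ^ (-σ - 1) := by
    intro t ht
    have ht0 : 0 < t := hsub ht
    have htX : t / X ∈ Icc al be := by
      rw [mem_Icc, le_div_iff₀ hX, div_le_iff₀ hX]; exact ht
    have n1 : ‖(t : ℂ) ^ (z - 1)‖ = t ^ (-σ - 1) := by
      rw [Complex.norm_cpow_eq_rpow_re_of_pos ht0]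
      simp [hzre]
    have n2 : ‖(t : ℂ) ^ z‖ = t ^ (-σ - 1) * t := by
      rw [Complex.norm_cpow_eq_rpow_re_of_pos ht0, hzre, ← Real.rpow_add_one ht0.ne']
      congr 1; ring
    have n3 : t ^ (-σ - 1) ≤ M2 * X ^ (-σ - 1) := by
      have e : t = (t / X) * X := by field_simp
      have h0 : 0 < t / X := by positivity
      rw [e, Real.mul_rpow h0.le hX.le]
      refine mul_le_mul_of_nonneg_right ?_ (by positivity)
      have e2 : t / X * X / X = t / X := by field_simp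
      rcases le_or_gt 0 (-σ - 1) with hs | hs
      · have h3 : (t / X) ^ (-σ - 1) ≤ be ^ (-σ - 1) := Real.rpow_le_rpow h0.le htX.2 hs
        have h4 : 0 ≤ al ^ (-σ - 1) := by positivity
        linarith
      · have h3 : (t / X) ^ (-σ - 1) ≤ al ^ (-σ - 1) :=
          Real.rpow_le_rpow_of_nonpos hal htX.1 hs.le
        have h4 : 0 ≤ be ^ (-σ - 1) := by positivity
        linarith
    have n4 : ‖f' t‖ ≤ t ^ (-σ - 1) * ((|σ| + |τ|) * M0 + M1 * be) := by
      simp only [hf']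
      refine (norm_add_le _ _).trans ?_
      rw [norm_mul, norm_mul, norm_mul, n1, n2, norm_smul, Real.norm_of_nonneg (by positivity)]
      have k1 : ‖z‖ * t ^ (-σ - 1) * ‖v (t / X)‖ ≤ (|σ| + |τ|) * t ^ (-σ - 1) * M0 := by
        have := hM0 _ htX
        gcongr
      have k2 : t ^ (-σ - 1) * t * (1 / X * ‖deriv v (t / X)‖) ≤ t ^ (-σ - 1) * (be * M1) := by
        have h5 := hM1 _ htX
        have h6 : t * (1 / X * ‖deriv v (t / X)‖) ≤ be * M1 := by
          have : t * (1 / X * ‖deriv v (t / X)‖) = (t / X) * ‖deriv v (t / X)‖ := by ring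
          rw [this]
          exact mul_le_mul htX.2 h5 (norm_nonneg _) hbe.le
        calc _ = t ^ (-σ - 1) * (t * (1 / X * ‖deriv v (t / X)‖)) := by ring
          _ ≤ _ := mul_le_mul_of_nonneg_left h6 (by positivity)
      calc _ ≤ (|σ| + |τ|) * t ^ (-σ - 1) * M0 + t ^ (-σ - 1) * (be * M1) := add_le_add k1 k2
        _ = _ := by ring
    have n5 : (|σ| + |τ|) * M0 + M1 * be ≤ ((|σ| + 1) * M0 + M1 * be) * (1 + |τ|) := by
      have h7 : 0 ≤ |σ| := abs_nonneg _
      have h8 : 0 ≤ |τ| := abs_nonneg _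
      have h9 : 0 ≤ |σ| * M0 * |τ| := by positivity
      have h10 : 0 ≤ M1 * be * |τ| := by positivity
      have h11 : 0 ≤ M0 := hM0'
      nlinarith
    calc ‖f' t‖ ≤ t ^ (-σ - 1) * ((|σ| + |τ|) * M0 + M1 * be) := n4
      _ ≤ (M2 * X ^ (-σ - 1)) * (((|σ| + 1) * M0 + M1 * be) * (1 + |τ|)) := by
          refine mul_le_mul n3 n5 ?_ (by positivity)
          positivity
      _ = _ := by rw [hM3]; ring
  have hercont : ContinuousOn er (Ioi 0) := by
    unfold er
    refine ContinuousOn.mul Real.continuous_sqrt.continuousOn ?_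
    refine continuousOn_const.add ?_
    refine ContinuousOn.log (by fun_prop) ?_
    intro t ht
    have : (0 : ℝ) < t := ht
    positivity
  have hg : IntegrableOn (fun t : ℝ => (t : ℂ) * f' t) (Ioi 0) := by
    have h1 : IntegrableOn (fun t : ℝ => (t : ℂ) * f' t) (Icc (al * X) (be * X)) := by
      refine ContinuousOn.integrableOn_Icc ?_
      exact (Complex.continuous_ofReal.continuousOn).mul (hcont.mono hsub)
    refine h1.of_forall_sdiff_eq_zero measurableSet_Ioi fun t ht => ?_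
    rw [hf0 t ht.1 ht.2, mul_zero]
  have hg2 : IntegrableOn (fun t => (E * er t) * ‖f' t‖) (Ioi 0) := by
    have h1 : IntegrableOn (fun t => (E * er t) * ‖f' t‖) (Icc (al * X) (be * X)) := by
      refine ContinuousOn.integrableOn_Icc ?_
      exact (continuousOn_const.mul (hercont.mono hsub)).mul (hcont.mono hsub).norm
    refine h1.of_forall_sdiff_eq_zero measurableSet_Ioi fun t ht => ?_
    rw [hf0 t ht.1 ht.2, norm_zero, mul_zero]
  have hlim : Tendsto f atTop (𝓝 0) := by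
    refine tendsto_const_nhds.congr' ?_
    filter_upwards [eventually_gt_atTop (be * X)] with t ht
    simp only [hf]
    rw [hsupp _ (Or.inr ((lt_div_iff₀ hX).mpr ht)), mul_zero]
  obtain ⟨r1, r2, r3⟩ := abel_deriv hdata (Er := fun t => E * er t) hEr hderiv hlim hg hg2
  refine ⟨r1, ?_⟩
  have hmel : ∫ y in Ioi (0 : ℝ), f y =
      mellin v (1 - σ + τ * Complex.I) * (X : ℂ) ^ ((1 : ℂ) - σ + τ * Complex.I) := by
    have e1 : (1 : ℂ) - σ + τ * Complex.I = z + 1 := by rw [hz]; ring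
    rw [e1]
    have h1 := mellin_comp_mul_left v (z + 1) (inv_pos.mpr hX)
    have h2 : mellin (fun t => v (X⁻¹ * t)) (z + 1) = ∫ y in Ioi (0 : ℝ), f y := by
      unfold mellin
      refine setIntegral_congr_fun measurableSet_Ioi fun t _ => ?_
      simp only [hf, smul_eq_mul, add_sub_cancel_right]
      rw [inv_mul_eq_div]
    rw [← h2, h1, smul_eq_mul, mul_comm]
    congr 1
    rw [Complex.ofReal_inv, Complex.inv_cpow, Complex.cpow_neg, inv_inv]
    rw [Complex.arg_ofReal_of_nonneg hX.le]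
    exact Real.pi_ne_zero.symm
  rw [hmel] at r3
  refine r3.trans ?_
  have e2 : ∫ t in Ioi (0 : ℝ), (fun t => E * er t) t * ‖f' t‖ =
      ∫ t in Icc (al * X) (be * X), (E * er t) * ‖f' t‖ := by
    refine (setIntegral_eq_of_subset_of_forall_sdiff_eq_zero measurableSet_Ioi hsub
      fun t ht => ?_)
    simp only
    rw [hf0 t ht.1 ht.2, norm_zero, mul_zero]
  rw [e2]
  have h12 : ∀ t ∈ Icc (al * X) (be * X), ‖(E * er t) * ‖f' t‖‖ ≤
      E * (Real.sqrt be * (1 + Real.log (1 + be)) * er X) * (M3 * (1 + |τ|) * X ^ (-σ - 1)) := by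
    intro t ht
    have ht0 : 0 < t := hsub ht
    have her0 := er_nonneg ht0.le
    rw [Real.norm_of_nonneg (by positivity)]
    refine mul_le_mul ?_ (hbound t ht) (norm_nonneg _) ?_
    · refine mul_le_mul_of_nonneg_left ?_ hE
      refine (er_mono ht0.le ht.2).trans ?_
      unfold er
      rw [Real.sqrt_mul hbe.le]
      have := log_aux hbe.le hX.le
      calc Real.sqrt be * Real.sqrt X * (1 + Real.log (1 + be * X)) ≤
          Real.sqrt be * Real.sqrt X * ((1 + Real.log (1 + be)) * (1 + Real.log (1 + X))) :=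
            mul_le_mul_of_nonneg_left this (by positivity)
        _ = _ := by ring
    · have := er_nonneg hX.le
      positivity
  have h13 := norm_setIntegral_le_of_norm_le_const (μ := volume) (s := Icc (al * X) (be * X))
    (by rw [Real.volume_Icc]; exact ENNReal.ofReal_lt_top) h12
  refine (Real.le_norm_self _).trans (h13.trans (le_of_eq ?_))
  rw [Real.volume_real_Icc_of_le (by nlinarith)]
  have e3 : X ^ (-σ) = X ^ (-σ - 1) * X := by
    rw [← Real.rpow_add_one hX.ne']; congr 1; ring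
  rw [e3]
  ring

/-! ### Sharp cut-off -/

/-- `∑_{ν_i ≤ Y} a_i ν_i^z = κ Y^(z+1)/(z+1) + O(E (1+|z|) Y^(1/2-σ) (1+log(1+Y)))`, `z = -σ+iτ`,
`σ < 1/2`. -/
theorem abel_pow {ι : Type*} [Countable ι] {a : ι → ℂ} {ν : ι → ℝ} {s : ℝ → Finset ι} {K : ℝ}
    {κ : ℂ} {E : ℝ} (h : Data a ν s K) (hE : 0 ≤ E)
    (hEr : ∀ Y, 0 < Y → ‖∑ i ∈ s Y, a i - κ * Y‖ ≤ E * er Y) {z : ℂ} (hz : -(1 / 2) < z.re)
    {Y : ℝ} (hY : 0 < Y) :
    ‖∑ i ∈ s Y, a i * (ν i : ℂ) ^ z - κ * ((Y : ℂ) ^ (z + 1) / (z + 1))‖ ≤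
      E * (1 + ‖z‖ / (1 / 2 + z.re)) * (Y ^ z.re * er Y) := by
  have hlY : 0 ≤ Real.log (1 + Y) := Real.log_nonneg (by linarith)
  have hderiv : ∀ t : ℝ, 0 < t → HasDerivAt (fun t : ℝ => (t : ℂ) ^ z) (z * (t : ℂ) ^ (z - 1)) t := by
    intro t ht
    have h := ((hasDerivAt_id (t : ℂ)).cpow_const (c := z) (Or.inl (by simpa using ht))).comp_ofReal
    simpa using h
  have hcont : ∀ w : ℂ, ContinuousOn (fun t : ℝ => (t : ℂ) ^ w) (Ioi 0) := by
    intro w t ht
    have ht' : (0 : ℝ) < t := ht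
    exact (Complex.continuousAt_ofReal_cpow_const t w (Or.inr ht'.ne')).continuousWithinAt
  have hnorm : ∀ t : ℝ, 0 < t → ‖z * (t : ℂ) ^ (z - 1)‖ = ‖z‖ * t ^ (z.re - 1) := by
    intro t ht
    rw [norm_mul, Complex.norm_cpow_eq_rpow_re_of_pos ht]; simp
  -- integrability of powers
  have hpow : ∀ r : ℝ, -1 < r → IntegrableOn (fun t : ℝ => t ^ r) (Ioc 0 Y) := by
    intro r hr
    exact (intervalIntegrable_iff_integrableOn_Ioc_of_le hY.le).mp
      (intervalIntegral.intervalIntegrable_rpow' hr)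
  have hsubset : Ioc 0 Y ⊆ Ioi (0 : ℝ) := fun t ht => ht.1
  have hc1 : ContinuousOn (fun t : ℝ => z * (t : ℂ) ^ (z - 1)) (Ioi 0) :=
    continuousOn_const.mul (hcont _)
  have hg : IntegrableOn (fun t : ℝ => (t : ℂ) * (z * (t : ℂ) ^ (z - 1))) (Ioc 0 Y) := by
    refine ((hpow z.re (by linarith)).const_mul ‖z‖).mono' ?_ ?_
    · refine ContinuousOn.aestronglyMeasurable ?_ measurableSet_Ioc
      exact (Complex.continuous_ofReal.continuousOn).mul (hc1.mono hsubset)
    · filter_upwards [ae_restrict_mem measurableSet_Ioc] with t ht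
      rw [norm_mul, hnorm t ht.1, Complex.norm_real, Real.norm_of_nonneg ht.1.le]
      have : t ^ z.re = t ^ (z.re - 1) * t := by
        rw [← Real.rpow_add_one ht.1.ne']; congr 1; ring
      rw [this]
      exact le_of_eq (by ring)
  have her : ∀ t ∈ Ioc 0 Y, (E * er t) * ‖z * (t : ℂ) ^ (z - 1)‖ ≤
      (E * ‖z‖ * (1 + Real.log (1 + Y))) * t ^ (z.re - 1 / 2) := by
    intro t ht
    rw [hnorm t ht.1]
    have h1 : er t ≤ t ^ ((1 : ℝ) / 2) * (1 + Real.log (1 + Y)) := by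
      unfold er
      rw [Real.sqrt_eq_rpow]
      have : Real.log (1 + t) ≤ Real.log (1 + Y) :=
        Real.log_le_log (by linarith [ht.1]) (by linarith [ht.2])
      exact mul_le_mul_of_nonneg_left (by linarith) (by have := ht.1; positivity)
    have h2 : t ^ (z.re - 1 / 2) = t ^ (z.re - 1) * t ^ ((1 : ℝ) / 2) := by
      rw [← Real.rpow_add ht.1]; congr 1; ring
    rw [h2]
    have h3 : 0 ≤ t ^ (z.re - 1) := by have := ht.1; positivity
    calc (E * er t) * (‖z‖ * t ^ (z.re - 1)) ≤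
        (E * (t ^ ((1 : ℝ) / 2) * (1 + Real.log (1 + Y)))) * (‖z‖ * t ^ (z.re - 1)) := by gcongr
      _ = _ := by ring
  have hercont : ContinuousOn er (Ioi 0) := by
    unfold er
    refine ContinuousOn.mul Real.continuous_sqrt.continuousOn ?_
    refine continuousOn_const.add ?_
    refine ContinuousOn.log (by fun_prop) ?_
    intro t ht
    have : (0 : ℝ) < t := ht
    positivity
  have hpi := hpow (z.re - 1 / 2) (by linarith)
  have hg2 : IntegrableOn (fun t => (E * er t) * ‖z * (t : ℂ) ^ (z - 1)‖) (Ioc 0 Y) := by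
    refine (hpi.const_mul (E * ‖z‖ * (1 + Real.log (1 + Y)))).mono' ?_ ?_
    · refine ContinuousOn.aestronglyMeasurable ?_ measurableSet_Ioc
      exact (continuousOn_const.mul (hercont.mono hsubset)).mul (hc1.mono hsubset).norm
    · filter_upwards [ae_restrict_mem measurableSet_Ioc] with t ht
      rw [Real.norm_of_nonneg]
      · exact her t ht
      · have := er_nonneg ht.1.le
        positivity
  have hmain := abel_sharp h (Er := fun t => E * er t) hEr hY hderiv (hc1.mono hsubset) hg hg2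
  have e1 : ∫ y in Ioc 0 Y, ((y : ℝ) : ℂ) ^ z = (Y : ℂ) ^ (z + 1) / (z + 1) := by
    rw [← intervalIntegral.integral_of_le hY.le, integral_cpow (Or.inl (by linarith))]
    have hz1 : z + 1 ≠ 0 := by
      intro h0
      have := congrArg Complex.re h0
      simp at this
      linarith
    simp [Complex.zero_cpow hz1]
  have e2 : ∫ t in Ioc 0 Y, (fun t => E * er t) t * ‖z * (t : ℂ) ^ (z - 1)‖ ≤
      (E * ‖z‖ * (1 + Real.log (1 + Y))) * (Y ^ (z.re + 1 / 2) / (z.re + 1 / 2)) := by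
    have h1 : ∫ t in Ioc 0 Y, (E * ‖z‖ * (1 + Real.log (1 + Y))) * t ^ (z.re - 1 / 2) =
        (E * ‖z‖ * (1 + Real.log (1 + Y))) * (Y ^ (z.re + 1 / 2) / (z.re + 1 / 2)) := by
      rw [integral_const_mul, ← intervalIntegral.integral_of_le hY.le,
        integral_rpow (Or.inl (by linarith))]
      have h2 : z.re - 1 / 2 + 1 = z.re + 1 / 2 := by ring
      rw [h2, Real.zero_rpow (by linarith), sub_zero]
    rw [← h1]
    exact setIntegral_mono_on hg2 (hpi.const_mul _) measurableSet_Ioc her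
  rw [e1] at hmain
  refine hmain.trans ?_
  have n1 : ‖(Y : ℂ) ^ z‖ = Y ^ z.re := Complex.norm_cpow_eq_rpow_re_of_pos hY z
  have n2 : Y ^ (z.re + 1 / 2) * (1 + Real.log (1 + Y)) = Y ^ z.re * er Y := by
    unfold er
    rw [Real.rpow_add hY, Real.sqrt_eq_rpow]; ring
  calc _ ≤ (E * ‖z‖ * (1 + Real.log (1 + Y))) * (Y ^ (z.re + 1 / 2) / (z.re + 1 / 2)) +
        (E * er Y) * Y ^ z.re := by
          rw [← n1]; exact add_le_add e2 le_rfl
    _ = E * (‖z‖ / (z.re + 1 / 2)) * (Y ^ (z.re + 1 / 2) * (1 + Real.log (1 + Y))) +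
        E * (Y ^ z.re * er Y) := by ring
    _ = _ := by rw [n2, add_comm z.re (1 / 2)]; ring

/-- Sharp sums over squarefree primary elements coprime to `a`. -/
theorem sum_sfc_pow {a : Eis} (ha : a ≠ 0) {z : ℂ} (hz : -(1 / 2) < z.re) {Y : ℝ} (hY : 0 < Y) :
    ‖∑ b ∈ sfc a Y, ((nm b : ℝ) : ℂ) ^ z - ((kap 1 * LF a : ℝ) : ℂ) * ((Y : ℂ) ^ (z + 1) / (z + 1))‖ ≤
      12800 * sig a * (1 + ‖z‖ / (1 / 2 + z.re)) * (Y ^ z.re * er Y) := by
  have h := abel_pow (dataSf a) (E := 12800 * sig a) (by have := sig_pos a; positivity)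
    (errSf ha) hz hY
  have e : ∑ b ∈ sfc a Y, iSf a b * ((nm b : ℝ) : ℂ) ^ z = ∑ b ∈ sfc a Y, ((nm b : ℝ) : ℂ) ^ z := by
    refine Finset.sum_congr rfl fun b hb => ?_
    rw [mem_sfc] at hb
    rw [iSf, if_pos ⟨hb.1.2, hb.2⟩, one_mul]
  rwa [e] at h

/-- Sharp sums over primary elements coprime to `a`. -/
theorem sum_cop_pow {a : Eis} (ha : a ≠ 0) {z : ℂ} (hz : -(1 / 2) < z.re) {Y : ℝ} (hY : 0 < Y) :
    ‖∑ b ∈ cop a Y, ((nm b : ℝ) : ℂ) ^ z - ((kap0 * PE a : ℝ) : ℂ) * ((Y : ℂ) ^ (z + 1) / (z + 1))‖ ≤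
      61 * sig a * (1 + ‖z‖ / (1 / 2 + z.re)) * (Y ^ z.re * er Y) := by
  have h := abel_pow (dataCop a) (E := 61 * sig a) (by have := sig_pos a; positivity)
    (errCop ha) hz hY
  have e : ∑ b ∈ cop a Y, iCop a b * ((nm b : ℝ) : ℂ) ^ z = ∑ b ∈ cop a Y, ((nm b : ℝ) : ℂ) ^ z := by
    refine Finset.sum_congr rfl fun b hb => ?_
    rw [mem_cop] at hb
    rw [iCop, if_pos ⟨hb.1.2, hb.2⟩, one_mul]
  rwa [e] at h

/-- The sharp model sum with exponent `-1/6` (real form). -/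
theorem sum_sfc_sixth {a : Eis} (ha : a ≠ 0) {Y : ℝ} (hY : 0 ≤ Y) :
    |∑ b ∈ sfc a Y, (nm b : ℝ) ^ (-(1 : ℝ) / 6) - kap 1 * LF a * ((6 / 5) * Y ^ ((5 : ℝ) / 6))| ≤
      19200 * sig a * (Y ^ ((1 : ℝ) / 3) * (1 + Real.log (1 + Y))) := by
  rcases hY.eq_or_lt with h0 | hY'
  · rw [← h0]
    have : sfc a 0 = ∅ := by
      apply Finset.subset_empty.mp
      refine ((sfc_subset a 0).trans (cop_subset a 0)).trans ?_
      rw [pb_eq_empty (by norm_num)]
    rw [this]
    rw [Real.zero_rpow (by norm_num), Real.zero_rpow (by norm_num)]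
    simp
  have h := sum_sfc_pow ha (z := ((-(1 : ℝ) / 6 : ℝ) : ℂ)) (by
    rw [Complex.ofReal_re]; norm_num) hY'
  have e1 : ∑ b ∈ sfc a Y, ((nm b : ℝ) : ℂ) ^ ((-(1 : ℝ) / 6 : ℝ) : ℂ) -
      ((kap 1 * LF a : ℝ) : ℂ) * ((Y : ℂ) ^ (((-(1 : ℝ) / 6 : ℝ) : ℂ) + 1) / (((-(1 : ℝ) / 6 : ℝ) : ℂ) + 1)) =
      ((∑ b ∈ sfc a Y, (nm b : ℝ) ^ (-(1 : ℝ) / 6) - kap 1 * LF a * ((6 / 5) * Y ^ ((5 : ℝ) / 6)) : ℝ) : ℂ) := by
    have e2 : ((-(1 : ℝ) / 6 : ℝ) : ℂ) + 1 = (((5 : ℝ) / 6 : ℝ) : ℂ) := by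
      rw [← Complex.ofReal_one, ← Complex.ofReal_add]; norm_num
    rw [e2, ← Complex.ofReal_cpow hY]
    push_cast
    congr 1
    · refine Finset.sum_congr rfl fun b _ => ?_
      rw [Complex.ofReal_cpow (by positivity)]
      push_cast; rfl
    · ring
  rw [e1, Complex.norm_real, Real.norm_eq_abs] at h
  refine h.trans (le_of_eq ?_)
  rw [Complex.ofReal_re, Complex.norm_real]
  have e3 : Y ^ (-(1 : ℝ) / 6) * er Y = Y ^ ((1 : ℝ) / 3) * (1 + Real.log (1 + Y)) := by
    unfold er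
    rw [Real.sqrt_eq_rpow, ← mul_assoc, ← Real.rpow_add hY']
    norm_num
  have e4 : 1 + ‖(-(1 : ℝ) / 6 : ℝ)‖ / (1 / 2 + -(1 : ℝ) / 6) = 3 / 2 := by
    rw [Real.norm_eq_abs]; norm_num [abs_of_pos]
  rw [e3, e4]
  ring

end Crest.Agent.R012.Model705
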