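import Crest.Agent.R012.NonCube_52
import Crest.Agent.R012.LS1_879

/-!
# Row 12, item TN: the non-cube dual sum, weighted versions

* `hb_part_gen`, `ls_kernel_eps` : large sieve over all kernels of norm `≤ K`,
  `≤ C (K B)^ε (K + B + (K B)^(2/3)) E`,
* `all_bound` : all `h ≠ 0`, `nm h ≤ Y`: `≤ C (Y B)^ε (Y + B Y^(1/3) + (Y B)^(2/3)) E`,
* `noncube_weighted` : non-cubes `h` with weight `≤ min 1 ((K / nm h)^2)`, `K ≤ B^(1-2δ)`,
* `all_weighted` : all `h ≠ 0` with such weights: `≤ C K^(1/3) B E`,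
* `L1Prop_holds`.
-/

set_option autoImplicit false
set_option linter.unusedVariables false
set_option linter.unusedSectionVars false

noncomputable section

namespace Crest.Agent.R012.NonCube52

open Finset Eis LS448 CharSum852 Char766

/-- The multiplicative large sieve input holds (helper879). -/
theorem L1Prop_holds : L1Prop := by
  classical
  obtain ⟨C, hC, h⟩ := LS879.ls_num_exists
  refine ⟨C, hC, fun B Q hB hQ 𝒦 h𝒦 T hT β => ?_⟩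
  have h1 := h Q B hQ hB (𝒦.image (fun κ => (κ.1.1, κ.1.2, κ.2.1, κ.2.2))) (fun k hk => by
    rw [mem_image] at hk
    obtain ⟨κ, hκ, rfl⟩ := hk
    obtain ⟨hg, hq⟩ := h𝒦 κ hκ
    exact ⟨hg.hi, hg.hj, hg.prim1, hg.prim2, hg.sqf1, hg.sqf2, hg.cop, hq⟩) T hT β
  rw [sum_image] at h1
  · exact h1
  · rintro ⟨⟨i, j⟩, k1, k2⟩ _ ⟨⟨i', j'⟩, k1', k2'⟩ _ hab
    simpa [and_assoc] using hab

/-- kernels with small `k2`, by Heath-Brown's large sieve in `k1`; all ranges. -/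
lemma hb_part_gen (H : SyFacts) (hHB : HBProp) {ε : ℝ} (hε : 0 < ε) :
    ∃ C : ℝ, 0 < C ∧ ∀ B K Z : ℝ, 1 ≤ B → 1 ≤ K → 0 ≤ Z → ∀ 𝒦 : Finset Ker,
      (∀ κ ∈ 𝒦, Good κ ∧ (nm (kv κ) : ℝ) ≤ K ∧ (nm κ.2.2 : ℝ) ≤ Z) →
      ∀ T : Finset Eis, (∀ b ∈ T, IsPrim b ∧ Squarefree b ∧ (nm b : ℝ) ≤ B) → ∀ β : Eis → ℂ,
      ∑ κ ∈ 𝒦, ‖∑ b ∈ T, β b * sy (kv κ) b‖ ^ 2
        ≤ C * (K * B) ^ ε * (K + Z * B + (K * B) ^ ((2 : ℝ) / 3)) * ∑ b ∈ T, ‖β b‖ ^ 2 := by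
  classical
  obtain ⟨C1, hC1, hHB1⟩ := hHB ε hε
  obtain ⟨C3, hC3, hsum⟩ := sum_nz_43
  refine ⟨9 * C1 * (48 + C3), by positivity, ?_⟩
  intro B K Z hB hK hZ 𝒦 h𝒦 T hT β
  set E : ℝ := ∑ b ∈ T, ‖β b‖ ^ 2 with hE
  have hE0 : 0 ≤ E := sum_nonneg fun _ _ => by positivity
  set f : Ker → ℝ := fun κ => ‖∑ b ∈ T, β b * sy (kv κ) b‖ ^ 2 with hf
  have hf0 : ∀ κ, 0 ≤ f κ := fun κ => by rw [hf]; positivity
  have hB0 : (0 : ℝ) ≤ B := by linarith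
  have hK0 : (0 : ℝ) ≤ K := by linarith
  set R : Finset (ℕ × ℕ) := range 3 ×ˢ range 3 with hR
  have hsub : 𝒦 ⊆ R ×ˢ (nz K ×ˢ nz Z) := by
    intro κ hκ
    obtain ⟨hg, h1, h2⟩ := h𝒦 κ hκ
    rw [mem_product, mem_product, mem_product, mem_range, mem_range, mem_nz, mem_nz]
    have h3 := cond_le' hg
    have h4 := one_le_nm2 hg
    have h5 : (0 : ℝ) ≤ nm κ.2.1 := by positivity
    exact ⟨⟨hg.hi, hg.hj⟩, ⟨hg.prim1.ne_zero, by nlinarith⟩, hg.prim2.ne_zero, h2⟩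
  have hstep : ∑ κ ∈ 𝒦, f κ = ∑ p ∈ R, ∑ k2 ∈ nz Z, ∑ k1 ∈ nz K,
      if (p, (k1, k2)) ∈ 𝒦 then f (p, (k1, k2)) else 0 := by
    have h1 : ∑ κ ∈ 𝒦, f κ = ∑ κ ∈ R ×ˢ (nz K ×ˢ nz Z), if κ ∈ 𝒦 then f κ else 0 := by
      rw [← sum_filter]
      refine sum_congr ?_ fun _ _ => rfl
      ext κ
      exact ⟨fun h => mem_filter.mpr ⟨hsub h, h⟩, fun h => (mem_filter.mp h).2⟩
    rw [h1, sum_product]
    refine sum_congr rfl fun p _ => ?_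
    rw [sum_product_right]
  rw [hstep]
  have hinner : ∀ p ∈ R, ∀ k2 ∈ nz Z,
      (∑ k1 ∈ nz K, if (p, (k1, k2)) ∈ 𝒦 then f (p, (k1, k2)) else 0)
        ≤ (C1 * (K * B) ^ ε) *
          (3 * B + (K + (K * B) ^ ((2 : ℝ) / 3)) * (nm k2 : ℝ) ^ (-(4 : ℝ) / 3)) * E := by
    intro p hp k2 hk2
    rw [mem_nz] at hk2
    have hk21 : (1 : ℝ) ≤ nm k2 := one_le_nm' hk2.1
    rw [← sum_filter]
    set S := (nz K).filter (fun k1 => (p, (k1, k2)) ∈ 𝒦) with hS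
    set x : ℝ := K / (nm k2 : ℝ) ^ 2 with hx
    have hx0 : 0 ≤ x := by positivity
    set M : ℝ := max 1 x with hM
    set c : Eis → ℂ := fun b => β b * sy (w ^ p.1 * lam ^ p.2 * k2 ^ 2) b with hc
    have hSM : ∀ m ∈ S, IsPrim m ∧ Squarefree m ∧ (nm m : ℝ) ≤ M := by
      intro m hm
      rw [hS, mem_filter] at hm
      obtain ⟨hg, h1, h2⟩ := h𝒦 _ hm.2
      refine ⟨hg.prim1, hg.sqf1, le_trans ?_ (le_max_right _ _)⟩
      have h5 := (nm_kv_ge (p, (m, k2))).trans h1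
      rw [hx, le_div_iff₀ (by positivity)]
      exact h5
    have hmain := hHB1 M B (le_max_left _ _) hB S T hSM hT c
    have hEq : ∑ k1 ∈ S, f (p, (k1, k2)) = ∑ m ∈ S, ‖∑ n ∈ T, c n * sy m n‖ ^ 2 := by
      refine sum_congr rfl fun k1 _ => ?_
      have h1 : ∑ b ∈ T, β b * sy (kv (p, (k1, k2))) b = ∑ n ∈ T, c n * sy k1 n := by
        refine sum_congr rfl fun b hb => ?_
        rw [sy_kv_split H p k1 k2 b (hT b hb).1, hc]
        ring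
      show ‖∑ b ∈ T, β b * sy (kv (p, (k1, k2))) b‖ ^ 2 = _
      rw [h1]
    rw [hEq]
    have hcE : ∑ n ∈ T, ‖c n‖ ^ 2 ≤ E := by
      rw [hE]
      refine sum_le_sum fun b hb => ?_
      rw [hc]
      simp only
      rw [norm_mul, mul_pow]
      have h1 := norm_sy_le H (w ^ p.1 * lam ^ p.2 * k2 ^ 2) b (hT b hb).1
      have h2 : ‖sy (w ^ p.1 * lam ^ p.2 * k2 ^ 2) b‖ ^ 2 ≤ 1 :=
        pow_le_one₀ (norm_nonneg _) h1
      have h3 : 0 ≤ ‖β b‖ ^ 2 := by positivity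
      nlinarith
    refine hmain.trans ?_
    have hxK : x ≤ K := by
      rw [hx, div_le_iff₀ (by positivity)]
      nlinarith [one_le_pow₀ hk21 (n := 2)]
    have hMK : M ≤ K := by rw [hM]; exact max_le hK hxK
    have hM1 : 1 ≤ M := le_max_left _ _
    have hM0 : (0 : ℝ) ≤ M := by linarith
    have hpw : (M * B) ^ ε ≤ (K * B) ^ ε :=
      Real.rpow_le_rpow (by positivity) (by gcongr) hε.le
    have hx2 : x ≤ K * (nm k2 : ℝ) ^ (-(4 : ℝ) / 3) := by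
      rw [hx, div_eq_mul_inv]
      gcongr
      rw [← Real.rpow_natCast, ← Real.rpow_neg (by positivity)]
      exact Real.rpow_le_rpow_of_exponent_le hk21 (by norm_num)
    have hMx : M ≤ B + K * (nm k2 : ℝ) ^ (-(4 : ℝ) / 3) := by
      rw [hM]
      refine max_le ?_ ?_
      · have : 0 ≤ K * (nm k2 : ℝ) ^ (-(4 : ℝ) / 3) := by positivity
        linarith
      · linarith
    have hpw2 : (M * B) ^ ((2 : ℝ) / 3)
        ≤ B + (K * B) ^ ((2 : ℝ) / 3) * (nm k2 : ℝ) ^ (-(4 : ℝ) / 3) := by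
      have e1 : (x * B) ^ ((2 : ℝ) / 3)
          = (K * B) ^ ((2 : ℝ) / 3) * (nm k2 : ℝ) ^ (-(4 : ℝ) / 3) := by
        have : x * B = (K * B) * ((nm k2 : ℝ) ^ (-(2 : ℝ))) := by
          rw [hx, Real.rpow_neg (by positivity)]
          norm_num
          ring
        rw [this, Real.mul_rpow (by positivity) (by positivity), ← Real.rpow_mul (by positivity)]
        norm_num
      rcases le_total 1 x with h | h
      · rw [hM, max_eq_right h, e1]; linarith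
      · rw [hM, max_eq_left h, one_mul]
        have : B ^ ((2 : ℝ) / 3) ≤ B ^ (1 : ℝ) :=
          Real.rpow_le_rpow_of_exponent_le hB (by norm_num)
        rw [Real.rpow_one] at this
        have h2 : 0 ≤ (K * B) ^ ((2 : ℝ) / 3) * (nm k2 : ℝ) ^ (-(4 : ℝ) / 3) := by positivity
        linarith
    calc C1 * (M * B) ^ ε * (M + B + (M * B) ^ ((2 : ℝ) / 3)) * ∑ n ∈ T, ‖c n‖ ^ 2
        ≤ C1 * (K * B) ^ ε *
          ((B + K * (nm k2 : ℝ) ^ (-(4 : ℝ) / 3)) + B +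
            (B + (K * B) ^ ((2 : ℝ) / 3) * (nm k2 : ℝ) ^ (-(4 : ℝ) / 3))) * E := by
          gcongr
      _ = _ := by ring
  have hcardR : (#R : ℝ) = 9 := by rw [hR, card_product]; simp
  calc ∑ p ∈ R, ∑ k2 ∈ nz Z, ∑ k1 ∈ nz K, (if (p, (k1, k2)) ∈ 𝒦 then f (p, (k1, k2)) else 0)
      ≤ ∑ p ∈ R, ∑ k2 ∈ nz Z, (C1 * (K * B) ^ ε) *
          (3 * B + (K + (K * B) ^ ((2 : ℝ) / 3)) * (nm k2 : ℝ) ^ (-(4 : ℝ) / 3)) * E :=
        sum_le_sum fun p hp => sum_le_sum fun k2 hk2 => hinner p hp k2 hk2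
    _ = 9 * ((C1 * (K * B) ^ ε) *
          (#(nz Z) * (3 * B) + (K + (K * B) ^ ((2 : ℝ) / 3)) *
            ∑ k2 ∈ nz Z, (nm k2 : ℝ) ^ (-(4 : ℝ) / 3)) * E) := by
        rw [sum_const, nsmul_eq_mul, hcardR, ← sum_mul, ← mul_sum, sum_add_distrib, sum_const,
          nsmul_eq_mul, ← mul_sum]
    _ ≤ 9 * ((C1 * (K * B) ^ ε) *
          ((16 * Z) * (3 * B) + (K + (K * B) ^ ((2 : ℝ) / 3)) * C3) * E) := by
        have := card_nz_le16 hZ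
        have h2 := hsum Z
        gcongr
    _ ≤ 9 * C1 * (48 + C3) * (K * B) ^ ε * (K + Z * B + (K * B) ^ ((2 : ℝ) / 3)) * E := by
        have h0 : 0 ≤ (K * B) ^ ((2 : ℝ) / 3) := by positivity
        have h1 : 0 ≤ Z * B := by positivity
        have h2 : (16 * Z) * (3 * B) + (K + (K * B) ^ ((2 : ℝ) / 3)) * C3
            ≤ (48 + C3) * (K + Z * B + (K * B) ^ ((2 : ℝ) / 3)) := by nlinarith
        have h3 : 0 ≤ 9 * (C1 * (K * B) ^ ε) * E := by positivity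
        calc _ = 9 * (C1 * (K * B) ^ ε) * E *
              ((16 * Z) * (3 * B) + (K + (K * B) ^ ((2 : ℝ) / 3)) * C3) := by ring
          _ ≤ 9 * (C1 * (K * B) ^ ε) * E *
              ((48 + C3) * (K + Z * B + (K * B) ^ ((2 : ℝ) / 3))) := by gcongr
          _ = _ := by ring

/-- large sieve over all kernels of norm at most `K`. -/
theorem ls_kernel_eps (H : SyFacts) (hL1 : L1Prop) (hHB : HBProp) {ε : ℝ} (hε : 0 < ε) :
    ∃ C : ℝ, 0 < C ∧ ∀ B K : ℝ, 1 ≤ B → 1 ≤ K → ∀ 𝒦 : Finset Ker,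
      (∀ κ ∈ 𝒦, Good κ ∧ (nm (kv κ) : ℝ) ≤ K) →
      ∀ T : Finset Eis, (∀ b ∈ T, IsPrim b ∧ Squarefree b ∧ (nm b : ℝ) ≤ B) → ∀ β : Eis → ℂ,
      ∑ κ ∈ 𝒦, ‖∑ b ∈ T, β b * sy (kv κ) b‖ ^ 2
        ≤ C * (K * B) ^ ε * (K + B + (K * B) ^ ((2 : ℝ) / 3)) * ∑ b ∈ T, ‖β b‖ ^ 2 := by
  classical
  obtain ⟨C1, hC1, hL⟩ := hL1
  obtain ⟨C2, hC2, hP⟩ := hb_part_gen H hHB hε
  refine ⟨3 * C1 + 3 * C2, by positivity, ?_⟩
  intro B K hB hK 𝒦 h𝒦 T hT β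
  set E : ℝ := ∑ b ∈ T, ‖β b‖ ^ 2 with hE
  have hE0 : 0 ≤ E := sum_nonneg fun _ _ => by positivity
  have hB0 : (0 : ℝ) < B := by linarith
  have hK0 : (0 : ℝ) < K := by linarith
  set X : ℝ := (K * B) ^ ((2 : ℝ) / 3) with hX
  have hX0 : 0 ≤ X := by positivity
  set Z0 : ℝ := (K ^ 2 / B) ^ ((1 : ℝ) / 3) with hZ0
  have hZ00 : 0 < Z0 := by positivity
  set Z : ℝ := max 1 Z0 with hZ
  have hZ1 : 1 ≤ Z := le_max_left _ _
  have hZp : 0 < Z := by linarith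
  have e1 : Z0 * B = X := by
    rw [hZ0, hX, Real.div_rpow (by positivity) hB0.le, Real.mul_rpow hK0.le hB0.le,
      ← Real.rpow_natCast K 2, ← Real.rpow_mul hK0.le]
    have : B ^ ((2 : ℝ) / 3) = B ^ (1 : ℝ) / B ^ ((1 : ℝ) / 3) := by
      rw [← Real.rpow_sub hB0]; norm_num
    rw [this, Real.rpow_one]
    norm_num
    ring
  have e2 : (K / Z0) ^ 2 = X := by
    have h1 : (K / Z0) ^ 2 = K ^ 2 / Z0 ^ 2 := by rw [div_pow]
    have h3 : Z0 ^ 3 = K ^ 2 / B := by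
      rw [hZ0, ← Real.rpow_natCast, ← Real.rpow_mul (by positivity)]
      norm_num
    rw [h1, ← e1]
    rw [div_eq_iff (by positivity)]
    have h4 : K ^ 2 = Z0 ^ 3 * B := by rw [h3]; field_simp
    rw [h4]; ring
  have hZB : Z * B ≤ B + X := by
    rw [hZ]
    rcases le_total 1 Z0 with h | h
    · rw [max_eq_right h, e1]; linarith
    · rw [max_eq_left h]; linarith
  set Q : ℝ := max 1 (K / Z) with hQ
  have hQ1 : 1 ≤ Q := le_max_left _ _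
  have hQ2 : Q ^ 2 ≤ B + X := by
    rw [hQ]
    rcases le_total 1 (K / Z) with h | h
    · rw [max_eq_right h]
      have : K / Z ≤ K / Z0 := by
        apply div_le_div_of_nonneg_left hK0.le hZ00 (le_max_right _ _)
      calc (K / Z) ^ 2 ≤ (K / Z0) ^ 2 := by gcongr
        _ = X := e2
        _ ≤ B + X := by linarith
    · rw [max_eq_left h]; linarith
  have hT' : ∀ b ∈ T, IsPrim b ∧ (nm b : ℝ) ≤ B := fun b hb => ⟨(hT b hb).1, (hT b hb).2.2⟩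
  have hsplit : ∑ κ ∈ 𝒦, ‖∑ b ∈ T, β b * sy (kv κ) b‖ ^ 2
      = ∑ κ ∈ 𝒦 with (nm κ.2.2 : ℝ) ≤ Z, ‖∑ b ∈ T, β b * sy (kv κ) b‖ ^ 2
        + ∑ κ ∈ 𝒦 with ¬ (nm κ.2.2 : ℝ) ≤ Z, ‖∑ b ∈ T, β b * sy (kv κ) b‖ ^ 2 :=
    (sum_filter_add_sum_filter_not _ _ _).symm
  rw [hsplit]
  have ha : ∑ κ ∈ 𝒦 with ¬ (nm κ.2.2 : ℝ) ≤ Z, ‖∑ b ∈ T, β b * sy (kv κ) b‖ ^ 2
      ≤ C1 * (B + Q ^ 2) * E := by
    refine hL B Q hB hQ1 _ (fun κ hκ => ?_) T hT' β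
    rw [mem_filter, not_le] at hκ
    obtain ⟨hκ1, hκ2⟩ := hκ
    obtain ⟨hg, hk⟩ := h𝒦 κ hκ1
    refine ⟨hg, ?_⟩
    rw [hQ]
    refine le_trans ?_ (le_max_right _ _)
    rw [le_div_iff₀ hZp]
    have h1 := cond_le hg
    have h2 : (0 : ℝ) ≤ (nm κ.2.1 : ℝ) * nm κ.2.2 := by positivity
    nlinarith
  have hb : ∑ κ ∈ 𝒦 with (nm κ.2.2 : ℝ) ≤ Z, ‖∑ b ∈ T, β b * sy (kv κ) b‖ ^ 2
      ≤ C2 * (K * B) ^ ε * (K + Z * B + (K * B) ^ ((2 : ℝ) / 3)) * E := by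
    refine hP B K Z hB hK hZp.le _ (fun κ hκ => ?_) T hT β
    rw [mem_filter] at hκ
    exact ⟨(h𝒦 κ hκ.1).1, (h𝒦 κ hκ.1).2, hκ.2⟩
  have hKB1 : 1 ≤ (K * B) ^ ε := Real.one_le_rpow (by nlinarith) hε.le
  calc _ ≤ C2 * (K * B) ^ ε * (K + (B + X) + X) * E + C1 * (B + (B + X)) * E := by
        refine add_le_add (hb.trans ?_) (ha.trans ?_) <;> gcongr
    _ ≤ C2 * (K * B) ^ ε * (3 * (K + B + X)) * E + C1 * ((K * B) ^ ε * (3 * (K + B + X))) * E := by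
        gcongr ?_ * ?_ * E + C1 * ?_ * E
        · linarith
        · have h1 : B + (B + X) ≤ 3 * (K + B + X) := by linarith
          have h2 : 0 ≤ 3 * (K + B + X) := by positivity
          nlinarith
    _ = _ := by ring

/-- `Σ_{z ≠ 0, nm z ≤ X} nm(z)^(-4/3)` version for cubes: every `m ≠ 0`. -/
theorem all_bound (H : SyFacts) (hL1 : L1Prop) (hHB : HBProp) {ε : ℝ} (hε : 0 < ε) :
    ∃ C : ℝ, 0 < C ∧ ∀ B Y : ℝ, 1 ≤ B → 1 ≤ Y →
      ∀ T : Finset Eis, (∀ b ∈ T, IsPrim b ∧ Squarefree b ∧ (nm b : ℝ) ≤ B) → ∀ β : Eis → ℂ,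
      ∀ S : Finset Eis, (∀ h ∈ S, h ≠ 0 ∧ (nm h : ℝ) ≤ Y) →
      ∑ h ∈ S, ‖∑ b ∈ T, β b * sy h b‖ ^ 2
        ≤ C * (Y * B) ^ ε * (Y + B * Y ^ ((1 : ℝ) / 3) + (Y * B) ^ ((2 : ℝ) / 3))
          * ∑ b ∈ T, ‖β b‖ ^ 2 := by
  classical
  obtain ⟨C1, hC1, hL⟩ := ls_kernel_eps H hL1 hHB hε
  obtain ⟨C3, hC3, hsum⟩ := sum_nz_43
  refine ⟨C1 * (16 + C3), by positivity, ?_⟩
  intro B Y hB hY T hT β S hS
  set E : ℝ := ∑ b ∈ T, ‖β b‖ ^ 2 with hE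
  have hE0 : 0 ≤ E := sum_nonneg fun _ _ => by positivity
  have hB0 : (0 : ℝ) < B := by linarith
  have hY0 : (0 : ℝ) < Y := by linarith
  set γ : Eis → Eis → ℂ := fun m b => if IsCoprime m b then 1 else 0 with hγ
  have hγ1 : ∀ m b, ‖γ m b‖ ≤ 1 := by
    intro m b
    rw [hγ]; dsimp only
    split_ifs <;> simp
  have hrew : ∀ h ∈ S, ∑ b ∈ T, β b * sy h b
      = ∑ b ∈ T, β b * γ (kc h).2 b * sy (kv (kc h).1) b := by
    intro h hhS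
    refine sum_congr rfl fun b hb => ?_
    rw [sy_kc H (hS h hhS).1 (hT b hb).1, hγ, ← mul_assoc]
  set V : ℝ := Y ^ ((1 : ℝ) / 3) with hV
  have hmaps : ∀ h ∈ S, (kc h).2 ∈ nz V := by
    intro h hh
    obtain ⟨h0, h1⟩ := hS h hh
    obtain ⟨s1, s2, s3, s4⟩ := kc_spec h0
    rw [mem_nz]
    refine ⟨s2, ?_⟩
    have e1 := kc_nm h0
    have e2 := one_le_nmkv s1
    have e5 : (nm (kc h).2 : ℝ) ^ 3 ≤ Y := by
      have : (0 : ℝ) ≤ (nm (kc h).2 : ℝ) ^ 3 := by positivity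
      nlinarith
    have h6 : (nm (kc h).2 : ℝ) = ((nm (kc h).2 : ℝ) ^ 3) ^ ((1 : ℝ) / 3) := by
      rw [← Real.rpow_natCast, ← Real.rpow_mul (by positivity)]; norm_num
    rw [h6, hV]
    exact Real.rpow_le_rpow (by positivity) e5 (by norm_num)
  rw [← sum_fiberwise_of_maps_to hmaps]
  have hinner : ∀ m ∈ nz V, ∑ h ∈ S with (kc h).2 = m, ‖∑ b ∈ T, β b * sy h b‖ ^ 2
      ≤ C1 * (Y * B) ^ ε * (B + (Y + (Y * B) ^ ((2 : ℝ) / 3)) * (nm m : ℝ) ^ (-(4 : ℝ) / 3)) * E := by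
    intro m hm
    set Sm := S.filter (fun h => (kc h).2 = m) with hSm
    rw [mem_nz] at hm
    have hm1 : (1 : ℝ) ≤ nm m := one_le_nm' hm.1
    rcases Sm.eq_empty_or_nonempty with hem | ⟨h1, h1m⟩
    · rw [hem, sum_empty]; positivity
    set K : ℝ := Y / (nm m : ℝ) ^ 3 with hKd
    have hKle : ∀ h ∈ Sm, (nm (kv (kc h).1) : ℝ) ≤ K := by
      intro h hh
      rw [hSm, mem_filter] at hh
      have e1 := kc_nm (hS h hh.1).1
      rw [hh.2] at e1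
      rw [hKd, le_div_iff₀ (by positivity), e1]
      exact (hS h hh.1).2
    have hK1 : 1 ≤ K := by
      have hh := h1m
      rw [hSm, mem_filter] at hh
      exact (one_le_nmkv (kc_spec (hS h1 hh.1).1).1).trans (hKle h1 h1m)
    have hKY : K ≤ Y := by
      rw [hKd]
      exact div_le_self hY0.le (one_le_pow₀ hm1)
    have hinj : Set.InjOn (fun h => (kc h).1) (Sm : Set Eis) := by
      intro a ha b hb hab
      have ha' := mem_filter.mp (by simpa [hSm] using ha : a ∈ Sm)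
      have hb' := mem_filter.mp (by simpa [hSm] using hb : b ∈ Sm)
      have h1 := (kc_spec (hS a ha'.1).1).2.2.1
      have h2 := (kc_spec (hS b hb'.1).1).2.2.1
      simp only at hab
      rw [h1, h2, hab, ha'.2, hb'.2]
    have key := hL B K hB hK1 (Sm.image (fun h => (kc h).1)) (fun κ hκ => by
      rw [mem_image] at hκ
      obtain ⟨h, hh, rfl⟩ := hκ
      have hh' := hh
      rw [hSm, mem_filter] at hh'
      exact ⟨(kc_spec (hS h hh'.1).1).1, hKle h hh⟩) T hT (fun b => β b * γ m b)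
    rw [sum_image (fun a ha b hb hab => hinj ha hb hab)] at key
    have hL' : ∑ h ∈ Sm, ‖∑ b ∈ T, β b * sy h b‖ ^ 2
        = ∑ h ∈ Sm, ‖∑ b ∈ T, β b * γ m b * sy (kv (kc h).1) b‖ ^ 2 := by
      refine sum_congr rfl fun h hh => ?_
      rw [hSm, mem_filter] at hh
      rw [hrew h hh.1, hh.2]
    rw [hL']
    refine key.trans ?_
    have h2 : ∑ b ∈ T, ‖β b * γ m b‖ ^ 2 ≤ E := by
      rw [hE]
      refine sum_le_sum fun b _ => ?_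
      rw [norm_mul, mul_pow]
      have h3 : ‖γ m b‖ ^ 2 ≤ 1 := pow_le_one₀ (norm_nonneg _) (hγ1 m b)
      have h4 : 0 ≤ ‖β b‖ ^ 2 := by positivity
      nlinarith
    have h3 : K ≤ Y * (nm m : ℝ) ^ (-(4 : ℝ) / 3) := by
      rw [hKd, div_eq_mul_inv]
      gcongr
      rw [← Real.rpow_natCast, ← Real.rpow_neg (by positivity)]
      exact Real.rpow_le_rpow_of_exponent_le hm1 (by norm_num)
    have h4 : (K * B) ^ ((2 : ℝ) / 3) ≤ (Y * B) ^ ((2 : ℝ) / 3) * (nm m : ℝ) ^ (-(4 : ℝ) / 3) := by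
      have e1 : (K * B) ^ ((2 : ℝ) / 3)
          = (Y * B) ^ ((2 : ℝ) / 3) * (nm m : ℝ) ^ (-(2 : ℝ)) := by
        have : K * B = (Y * B) * ((nm m : ℝ) ^ (-(3 : ℝ))) := by
          rw [hKd, Real.rpow_neg (by positivity)]
          norm_num
          ring
        rw [this, Real.mul_rpow (by positivity) (by positivity), ← Real.rpow_mul (by positivity)]
        norm_num
      rw [e1]
      gcongr ?_ * ?_
      exact Real.rpow_le_rpow_of_exponent_le hm1 (by norm_num)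
    have h5 : (K * B) ^ ε ≤ (Y * B) ^ ε :=
      Real.rpow_le_rpow (by positivity) (by gcongr) hε.le
    calc C1 * (K * B) ^ ε * (K + B + (K * B) ^ ((2 : ℝ) / 3)) * ∑ b ∈ T, ‖β b * γ m b‖ ^ 2
        ≤ C1 * (Y * B) ^ ε * (Y * (nm m : ℝ) ^ (-(4 : ℝ) / 3) + B
          + (Y * B) ^ ((2 : ℝ) / 3) * (nm m : ℝ) ^ (-(4 : ℝ) / 3)) * E := by gcongr
      _ = _ := by ring
  have hV0 : 0 ≤ V := by positivity
  have hc := card_nz_le16 hV0
  calc ∑ m ∈ nz V, ∑ h ∈ S with (kc h).2 = m, ‖∑ b ∈ T, β b * sy h b‖ ^ 2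
      ≤ ∑ m ∈ nz V, C1 * (Y * B) ^ ε *
        (B + (Y + (Y * B) ^ ((2 : ℝ) / 3)) * (nm m : ℝ) ^ (-(4 : ℝ) / 3)) * E :=
        sum_le_sum hinner
    _ = C1 * (Y * B) ^ ε * (#(nz V) * B + (Y + (Y * B) ^ ((2 : ℝ) / 3)) *
        ∑ m ∈ nz V, (nm m : ℝ) ^ (-(4 : ℝ) / 3)) * E := by
        rw [← sum_mul, ← mul_sum, sum_add_distrib, sum_const, nsmul_eq_mul, ← mul_sum]
    _ ≤ C1 * (Y * B) ^ ε * ((16 * V) * B + (Y + (Y * B) ^ ((2 : ℝ) / 3)) * C3) * E := by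
        have := hsum V
        gcongr
    _ ≤ C1 * (Y * B) ^ ε * ((16 + C3) * (Y + B * V + (Y * B) ^ ((2 : ℝ) / 3))) * E := by
        have h0 : 0 ≤ (Y * B) ^ ((2 : ℝ) / 3) := by positivity
        have h1 : 0 ≤ B * V := by positivity
        gcongr ?_ * ?_ * E
        nlinarith
    _ = _ := by ring

/-! ### weights -/

/-- dyadic domination of a weight `≤ min 1 (K / nm h)^2`. -/
lemma weight_le {K x W : ℝ} (hK : 0 < K) (hx : 0 ≤ x) (hW1 : W ≤ 1) (hW2 : x ^ 2 * W ≤ K ^ 2)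
    {J : ℕ} (hJ : x ≤ 2 ^ J * K) :
    W ≤ ∑ j ∈ range (J + 1), 4 * (1 / 4 : ℝ) ^ j * (if x ≤ 2 ^ j * K then 1 else 0) := by
  have hnn : ∀ j ∈ range (J + 1),
      0 ≤ 4 * (1 / 4 : ℝ) ^ j * (if x ≤ 2 ^ j * K then 1 else 0) := by
    intro j _
    split_ifs <;> positivity
  -- least `j` with `x ≤ 2 ^ j K`
  have hex : ∃ j, x ≤ 2 ^ j * K := ⟨J, hJ⟩
  classical
  set j0 := Nat.find hex with hj0
  have h1 : x ≤ 2 ^ j0 * K := Nat.find_spec hex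
  have h2 : j0 ≤ J := Nat.find_min' hex hJ
  have h3 : W ≤ 4 * (1 / 4 : ℝ) ^ j0 * (if x ≤ 2 ^ j0 * K then 1 else 0) := by
    rw [if_pos h1, mul_one]
    rcases Nat.eq_zero_or_pos j0 with h0 | h0
    · rw [h0, pow_zero]; linarith
    · have h4 : ¬ x ≤ 2 ^ (j0 - 1) * K := Nat.find_min hex (by omega)
      rw [not_le] at h4
      have h5 : (2 : ℝ) ^ j0 = 2 * 2 ^ (j0 - 1) := by
        rw [← pow_succ']; congr 1; omega
      have h6 : (1 / 4 : ℝ) ^ j0 = 1 / (2 ^ j0) ^ 2 := by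
        have : ((2 : ℝ) ^ j0) ^ 2 = 4 ^ j0 := by rw [← pow_mul, mul_comm, pow_mul]; norm_num
        rw [this, one_div_pow]
      rw [h6]
      by_contra hcon
      rw [not_le] at hcon
      have hp : (0 : ℝ) < 2 ^ (j0 - 1) := by positivity
      have h7 : 0 < 2 ^ (j0 - 1) * K := by positivity
      have h8 : (2 ^ (j0 - 1) * K) ^ 2 < x ^ 2 := by gcongr
      have h9 : (4 : ℝ) * (1 / (2 ^ j0) ^ 2) = 1 / (2 ^ (j0 - 1)) ^ 2 := by
        rw [h5]; field_simp; norm_num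
      rw [h9] at hcon
      have h10 : 0 < W := lt_trans (by positivity) hcon
      have h11 : 1 < W * (2 ^ (j0 - 1)) ^ 2 :=
        (div_lt_iff₀ (by positivity : (0 : ℝ) < (2 ^ (j0 - 1)) ^ 2)).mp hcon
      have h12 := mul_lt_mul_of_pos_right h8 h10
      have h13 : K ^ 2 * 1 < K ^ 2 * (W * (2 ^ (j0 - 1)) ^ 2) :=
        mul_lt_mul_of_pos_left h11 (by positivity)
      have h14 : (2 ^ (j0 - 1) * K) ^ 2 * W = K ^ 2 * (W * (2 ^ (j0 - 1)) ^ 2) := by ring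
      linarith
  exact h3.trans (single_le_sum hnn (mem_range.mpr (by omega)))

lemma tail_arith {B K u δ : ℝ} (hB : 1 ≤ B) (hK : 1 ≤ K) (hKB : K ≤ B ^ (1 - 2 * δ))
    (hu : B ^ δ ≤ u) (hδ : 0 < δ) (hδ2 : δ ≤ 1 / 2) :
    u ^ (-(2 : ℝ)) * ((u * K * B) ^ (δ / 12) *
      (u * K + B * (u * K) ^ ((1 : ℝ) / 3) + (u * K * B) ^ ((2 : ℝ) / 3)))
      ≤ 3 * (K ^ ((1 : ℝ) / 3) * (B ^ (-(δ / 12)) * B) * u ^ (-(1 : ℝ) / 3)) := by
  have hB0 : 0 < B := by linarith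
  have hK0 : 0 < K := by linarith
  have hu0 : 0 < u := lt_of_lt_of_le (by positivity) hu
  obtain ⟨b, rfl⟩ : ∃ b, B = Real.exp b := ⟨Real.log B, (Real.exp_log hB0).symm⟩
  obtain ⟨k, rfl⟩ : ∃ k, K = Real.exp k := ⟨Real.log K, (Real.exp_log hK0).symm⟩
  obtain ⟨v, rfl⟩ : ∃ v, u = Real.exp v := ⟨Real.log u, (Real.exp_log hu0).symm⟩
  have hb : 0 ≤ b := by rwa [← Real.exp_zero, Real.exp_le_exp] at hB
  have hk : 0 ≤ k := by rwa [← Real.exp_zero, Real.exp_le_exp] at hK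
  rw [← Real.exp_mul, Real.exp_le_exp] at hKB hu
  simp only [← Real.exp_add, ← Real.exp_mul]
  have hv : 0 ≤ v := le_trans (by positivity) hu
  have h1 : v * δ ≤ v / 2 := by nlinarith
  have hkb : k ≤ b := by nlinarith [mul_nonneg hb hδ.le]
  have h2 : k * δ ≤ b * δ := mul_le_mul_of_nonneg_right hkb hδ.le
  have h3 : 0 ≤ b * δ := by positivity
  have h4 : 0 ≤ k * δ := by positivity
  have h5 : 0 ≤ v * δ := by positivity
  have t1 : Real.exp (v * -2) * (Real.exp ((v + k + b) * (δ / 12)) * Real.exp (v + k))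
      ≤ Real.exp (k * (1 / 3) + (b * -(δ / 12) + b) + v * (-1 / 3)) := by
    rw [← Real.exp_add, ← Real.exp_add, Real.exp_le_exp]
    nlinarith
  have t2 : Real.exp (v * -2) * (Real.exp ((v + k + b) * (δ / 12)) *
      Real.exp (b + (v + k) * (1 / 3)))
      ≤ Real.exp (k * (1 / 3) + (b * -(δ / 12) + b) + v * (-1 / 3)) := by
    rw [← Real.exp_add, ← Real.exp_add, Real.exp_le_exp]
    nlinarith
  have t3 : Real.exp (v * -2) * (Real.exp ((v + k + b) * (δ / 12)) *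
      Real.exp ((v + k + b) * (2 / 3)))
      ≤ Real.exp (k * (1 / 3) + (b * -(δ / 12) + b) + v * (-1 / 3)) := by
    rw [← Real.exp_add, ← Real.exp_add, Real.exp_le_exp]
    nlinarith
  nlinarith [t1, t2, t3]

/-- passing from sharp cut-offs `nm h ≤ Y` to weights `≤ min 1 (K / nm h)^2`. -/
theorem weighted_core {B K δ C1 C2 E M : ℝ} (hB : 1 ≤ B) (hK : 0 < K) (hKB : K ≤ B ^ (1 - 2 * δ))
    (hδ : 0 < δ) (hδ2 : δ ≤ 1 / 2) (hC1 : 0 ≤ C1) (hC2 : 0 ≤ C2) (hE0 : 0 ≤ E)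
    (hME : B ^ (-(δ / 12)) * B * E ≤ M) (S : Finset Eis) (hS : ∀ h ∈ S, h ≠ 0)
    (g : Eis → ℝ) (hg0 : ∀ h, 0 ≤ g h)
    (hmain : ∀ Y : ℝ, 1 ≤ Y → Y ≤ B ^ (1 - δ) →
      ∑ h ∈ S with (nm h : ℝ) ≤ Y, g h ≤ C1 * Y ^ ((1 : ℝ) / 3) * M)
    (htail : ∀ Y : ℝ, 1 ≤ Y → ∑ h ∈ S with (nm h : ℝ) ≤ Y, g h ≤ C2 * (Y * B) ^ (δ / 12) *
              (Y + B * Y ^ ((1 : ℝ) / 3) + (Y * B) ^ ((2 : ℝ) / 3)) * E)
    (W : Eis → ℝ) (hW : ∀ h ∈ S, 0 ≤ W h ∧ W h ≤ 1 ∧ (nm h : ℝ) ^ 2 * W h ≤ K ^ 2) :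
    ∑ h ∈ S, W h * g h ≤ (4 * C1 + 12 * C2) * (1 - (2 : ℝ) ^ (-(1 : ℝ) / 3))⁻¹ *
      K ^ ((1 : ℝ) / 3) * M := by
  classical
  set q0 : ℝ := (2 : ℝ) ^ (-(1 : ℝ) / 3) with hq
  have hq0 : 0 < q0 := Real.rpow_pos_of_pos (by norm_num) _
  have hq1 : q0 < 1 := Real.rpow_lt_one_of_one_lt_of_neg (by norm_num) (by norm_num)
  have hq1' : 0 < 1 - q0 := by linarith
  have hB0 : (0 : ℝ) < B := by linarith
  have hM0 : 0 ≤ M := le_trans (by positivity) hME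
  -- first `K ≥ 1`
  suffices hmain' : ∀ K : ℝ, 1 ≤ K → K ≤ B ^ (1 - 2 * δ) →
      ∀ W : Eis → ℝ, (∀ h ∈ S, 0 ≤ W h ∧ W h ≤ 1 ∧ (nm h : ℝ) ^ 2 * W h ≤ K ^ 2) →
      ∑ h ∈ S, W h * g h ≤ (4 * C1 + 12 * C2) * (1 - q0)⁻¹ * K ^ ((1 : ℝ) / 3) * M by
    rcases le_total 1 K with h1 | h1
    · exact hmain' K h1 hKB W hW
    · -- replace `W` by `W / K ^ 2`
      have hB1 : (1 : ℝ) ≤ B ^ (1 - 2 * δ) := Real.one_le_rpow hB (by linarith)
      have h2 := hmain' 1 le_rfl hB1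
        (fun h => W h / K ^ 2) (fun h hh => by
          obtain ⟨w0, w1, w2⟩ := hW h hh
          have hK2 : 0 < K ^ 2 := by positivity
          have h3 : (nm h : ℝ) ^ 2 * (W h / K ^ 2) ≤ 1 := by
            rw [← mul_div_assoc, div_le_one hK2]; exact w2
          refine ⟨by positivity, ?_, by simpa using h3⟩
          have h4 := one_le_nm' (hS h hh)
          have h5 : (1 : ℝ) ≤ (nm h : ℝ) ^ 2 := one_le_pow₀ h4
          have h6 : 0 ≤ W h / K ^ 2 := by positivity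
          nlinarith)
      rw [Real.one_rpow, mul_one] at h2
      have h3 : ∑ h ∈ S, W h * g h = K ^ 2 * ∑ h ∈ S, W h / K ^ 2 * g h := by
        rw [mul_sum]
        refine sum_congr rfl fun h _ => ?_
        field_simp
      rw [h3]
      have h4 : K ^ 2 ≤ K ^ ((1 : ℝ) / 3) := by
        rw [← Real.rpow_natCast]
        exact Real.rpow_le_rpow_of_exponent_ge hK h1 (by norm_num)
      calc K ^ 2 * ∑ h ∈ S, W h / K ^ 2 * g h
          ≤ K ^ 2 * ((4 * C1 + 12 * C2) * (1 - q0)⁻¹ * M) := by gcongr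
        _ ≤ K ^ ((1 : ℝ) / 3) * ((4 * C1 + 12 * C2) * (1 - q0)⁻¹ * M) := by gcongr
        _ = _ := by ring
  clear! K W
  intro K hK hKB W hW
  have hK0 : (0 : ℝ) < K := by linarith
  -- J
  obtain ⟨J, hJ⟩ : ∃ J : ℕ, ∀ h ∈ S, (nm h : ℝ) ≤ 2 ^ J * K := by
    obtain ⟨J, hJ⟩ := pow_unbounded_of_one_lt ((∑ h ∈ S, (nm h : ℝ)) : ℝ) (by norm_num : (1 : ℝ) < 2)
    refine ⟨J, fun h hh => ?_⟩
    have h1 : (nm h : ℝ) ≤ ∑ h ∈ S, (nm h : ℝ) :=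
      single_le_sum (f := fun h => (nm h : ℝ)) (fun _ _ => by positivity) hh
    have h2 : (0 : ℝ) < 2 ^ J := by positivity
    nlinarith
  set F : ℕ → ℝ := fun j => ∑ h ∈ S with (nm h : ℝ) ≤ 2 ^ j * K, g h with hF
  have hstep1 : ∑ h ∈ S, W h * g h ≤ ∑ j ∈ range (J + 1), 4 * (1 / 4 : ℝ) ^ j * F j := by
    calc ∑ h ∈ S, W h * g h
        ≤ ∑ h ∈ S, (∑ j ∈ range (J + 1), 4 * (1 / 4 : ℝ) ^ j *
            (if (nm h : ℝ) ≤ 2 ^ j * K then 1 else 0)) * g h := by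
          refine sum_le_sum fun h hh => ?_
          obtain ⟨w0, w1, w2⟩ := hW h hh
          have := weight_le hK0 (by positivity : (0 : ℝ) ≤ nm h) w1 w2 (hJ h hh)
          have := hg0 h
          gcongr
      _ = ∑ j ∈ range (J + 1), 4 * (1 / 4 : ℝ) ^ j * F j := by
          simp_rw [sum_mul]
          rw [sum_comm]
          refine sum_congr rfl fun j _ => ?_
          rw [hF]
          simp only
          rw [sum_filter, mul_sum]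
          refine sum_congr rfl fun h _ => ?_
          split_ifs <;> ring
  refine hstep1.trans ?_
  have hone : ∀ j ∈ range (J + 1), 4 * (1 / 4 : ℝ) ^ j * F j
      ≤ (4 * C1 + 12 * C2) * K ^ ((1 : ℝ) / 3) * M * q0 ^ j := by
    intro j _
    set Y : ℝ := 2 ^ j * K with hY
    have h2j : (1 : ℝ) ≤ 2 ^ j := one_le_pow₀ (by norm_num)
    have hY1 : 1 ≤ Y := by rw [hY]; nlinarith
    have hY0 : 0 < Y := by linarith
    have h4j : (1 / 4 : ℝ) ^ j * (2 ^ j) ^ ((1 : ℝ) / 3) ≤ q0 ^ j := by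
      have e1 : (1 / 4 : ℝ) ^ j = ((2 : ℝ) ^ (-(2 : ℝ))) ^ j := by
        congr 1; rw [Real.rpow_neg (by norm_num)]; norm_num
      have e2 : ((2 : ℝ) ^ j) ^ ((1 : ℝ) / 3) = ((2 : ℝ) ^ ((1 : ℝ) / 3)) ^ j := by
        rw [← Real.rpow_natCast, ← Real.rpow_mul (by norm_num), ← Real.rpow_natCast,
          ← Real.rpow_mul (by norm_num), mul_comm]
      rw [e1, e2, ← mul_pow, ← Real.rpow_add (by norm_num)]
      refine pow_le_pow_left₀ (by positivity) ?_ _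
      rw [hq]
      exact Real.rpow_le_rpow_of_exponent_le (by norm_num) (by norm_num)
    rcases le_total Y (B ^ (1 - δ)) with hc | hc
    · -- the main range
      have h1 := hmain Y hY1 hc
      have h2 : Y ^ ((1 : ℝ) / 3) = (2 ^ j) ^ ((1 : ℝ) / 3) * K ^ ((1 : ℝ) / 3) := by
        rw [hY, Real.mul_rpow (by positivity) hK0.le]
      calc 4 * (1 / 4 : ℝ) ^ j * F j
          ≤ 4 * (1 / 4 : ℝ) ^ j * (C1 * Y ^ ((1 : ℝ) / 3) * M) := by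
            gcongr
        _ = 4 * C1 * K ^ ((1 : ℝ) / 3) * M * ((1 / 4 : ℝ) ^ j * (2 ^ j) ^ ((1 : ℝ) / 3)) := by
            rw [h2]; ring
        _ ≤ 4 * C1 * K ^ ((1 : ℝ) / 3) * M * q0 ^ j := by gcongr
        _ ≤ _ := by
            gcongr
            linarith
    · -- the tail
      have h1 := htail Y hY1
      have hu : B ^ δ ≤ 2 ^ j := by
        have e1 : B ^ (1 - δ) = B ^ δ * B ^ (1 - 2 * δ) := by
          rw [← Real.rpow_add hB0]; congr 1; ring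
        rw [e1, hY] at hc
        have e2 : 0 < B ^ (1 - 2 * δ) := by positivity
        have e3 : B ^ δ * B ^ (1 - 2 * δ) ≤ 2 ^ j * B ^ (1 - 2 * δ) := by
          refine hc.trans ?_
          gcongr
        exact le_of_mul_le_mul_right e3 e2
      have h3 := tail_arith hB hK hKB hu hδ hδ2
      have e4 : ((2 : ℝ) ^ j) ^ (-(2 : ℝ)) = (1 / 4 : ℝ) ^ j := by
        rw [← Real.rpow_natCast, ← Real.rpow_mul (by norm_num), mul_comm (j : ℝ),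
          Real.rpow_mul (by norm_num), Real.rpow_natCast]
        congr 1; rw [Real.rpow_neg (by norm_num)]; norm_num
      have e5 : ((2 : ℝ) ^ j) ^ (-(1 : ℝ) / 3) = q0 ^ j := by
        rw [hq, ← Real.rpow_natCast, ← Real.rpow_mul (by norm_num), ← Real.rpow_natCast,
          ← Real.rpow_mul (by norm_num), mul_comm]
      rw [e4, e5, ← hY] at h3
      calc 4 * (1 / 4 : ℝ) ^ j * F j
          ≤ 4 * (1 / 4 : ℝ) ^ j * (C2 * (Y * B) ^ (δ / 12) *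
              (Y + B * Y ^ ((1 : ℝ) / 3) + (Y * B) ^ ((2 : ℝ) / 3)) * E) := by
            gcongr
        _ = 4 * C2 * E * ((1 / 4 : ℝ) ^ j * ((Y * B) ^ (δ / 12) *
              (Y + B * Y ^ ((1 : ℝ) / 3) + (Y * B) ^ ((2 : ℝ) / 3)))) := by ring
        _ ≤ 4 * C2 * E * (3 * (K ^ ((1 : ℝ) / 3) * (B ^ (-(δ / 12)) * B) * q0 ^ j)) := by
            gcongr
        _ = 12 * C2 * K ^ ((1 : ℝ) / 3) * (B ^ (-(δ / 12)) * B * E) * q0 ^ j := by ring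
        _ ≤ 12 * C2 * K ^ ((1 : ℝ) / 3) * M * q0 ^ j := by gcongr
        _ ≤ _ := by
            gcongr
            linarith
  calc ∑ j ∈ range (J + 1), 4 * (1 / 4 : ℝ) ^ j * F j
      ≤ ∑ j ∈ range (J + 1), (4 * C1 + 12 * C2) * K ^ ((1 : ℝ) / 3) * M * q0 ^ j :=
        sum_le_sum hone
    _ = (4 * C1 + 12 * C2) * K ^ ((1 : ℝ) / 3) * M * ∑ j ∈ range (J + 1), q0 ^ j := by
        rw [mul_sum]
    _ ≤ (4 * C1 + 12 * C2) * K ^ ((1 : ℝ) / 3) * M * (1 - q0)⁻¹ := by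
        have h1 : ∑ r ∈ range (J + 1), q0 ^ r ≤ (1 - q0)⁻¹ :=
          (Summable.sum_le_tsum _ (fun _ _ => by positivity)
            (summable_geometric_of_lt_one hq0.le hq1)).trans
            (tsum_geometric_of_lt_one hq0.le hq1).le
        gcongr
    _ = _ := by ring

/-- **The non-cube dual sum, weighted version**: weights `W h ≤ 1`, `nm(h)² W h ≤ K²`. -/
theorem noncube_weighted (H : SyFacts) (hL1 : L1Prop) (hHB : HBProp) {δ : ℝ} (hδ : 0 < δ)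
    (hδ2 : δ ≤ 1 / 2) :
    ∃ C : ℝ, 0 < C ∧ ∀ B K L V R : ℝ, 1 ≤ B → 0 < K → K ≤ B ^ (1 - 2 * δ) → 1 ≤ L → 0 ≤ V →
      0 ≤ R →
      ∀ T : Finset Eis, (∀ b ∈ T, IsPrim b ∧ Squarefree b ∧ (nm b : ℝ) ≤ B) → ∀ β : Eis → ℂ,
      (∀ h : Eis, h ≠ 0 → (¬ ∃ t, h = t ^ 3) → (nm h : ℝ) ≤ L →
        ‖∑ b ∈ T, β b * sy h b‖ ≤ V) →
      (∀ m : Eis, m ≠ 0 → (nm m : ℝ) ≤ B →
        ∑ b ∈ T, (open Classical in if IsCoprime m b then (0 : ℝ) else ‖β b‖) ≤ R) →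
      ∀ S : Finset Eis, (∀ h ∈ S, h ≠ 0 ∧ (¬ ∃ t, h = t ^ 3)) →
      ∀ W : Eis → ℝ, (∀ h ∈ S, 0 ≤ W h ∧ W h ≤ 1 ∧ (nm h : ℝ) ^ 2 * W h ≤ K ^ 2) →
      ∑ h ∈ S, W h * ‖∑ b ∈ T, β b * sy h b‖ ^ 2
        ≤ C * K ^ ((1 : ℝ) / 3) * (L * (V + R) ^ 2 +
          (L ^ (-(1 : ℝ) / 3) + B ^ (-(δ / 12))) * B * ∑ b ∈ T, ‖β b‖ ^ 2) := by
  classical
  obtain ⟨C1, hC1, hN⟩ := noncube_bound H hL1 hHB hδ hδ2
  obtain ⟨C2, hC2, hA⟩ := all_bound H hL1 hHB (ε := δ / 12) (by positivity)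
  have hq0 : 0 < (2 : ℝ) ^ (-(1 : ℝ) / 3) := Real.rpow_pos_of_pos (by norm_num) _
  have hq1 : (2 : ℝ) ^ (-(1 : ℝ) / 3) < 1 :=
    Real.rpow_lt_one_of_one_lt_of_neg (by norm_num) (by norm_num)
  have hq1' : 0 < 1 - (2 : ℝ) ^ (-(1 : ℝ) / 3) := by linarith
  refine ⟨(4 * C1 + 12 * C2) * (1 - (2 : ℝ) ^ (-(1 : ℝ) / 3))⁻¹, by positivity, ?_⟩
  intro B K L V R hB hK hKB hL hV hR T hT β hV1 hR1 S hS W hW
  set E : ℝ := ∑ b ∈ T, ‖β b‖ ^ 2 with hE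
  have hE0 : 0 ≤ E := sum_nonneg fun _ _ => by positivity
  have hB0 : (0 : ℝ) < B := by linarith
  refine weighted_core hB hK hKB hδ hδ2 hC1.le hC2.le hE0 ?_ S (fun h hh => (hS h hh).1)
    (fun h => ‖∑ b ∈ T, β b * sy h b‖ ^ 2) (fun h => by positivity) ?_ ?_ W hW
  · have h1 : 0 ≤ L * (V + R) ^ 2 := by positivity
    have h2 : 0 ≤ L ^ (-(1 : ℝ) / 3) := by positivity
    have h3 : 0 ≤ L ^ (-(1 : ℝ) / 3) * (B * E) := by positivity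
    nlinarith
  · intro Y hY1 hc
    exact hN B Y L V R hB hL hc hV hR T hT β hV1 (fun m hm0 hm => hR1 m hm0 (by
        refine hm.trans (hc.trans ?_)
        calc B ^ (1 - δ) ≤ B ^ (1 : ℝ) := Real.rpow_le_rpow_of_exponent_le hB (by linarith)
          _ = B := Real.rpow_one _)) (S.filter (fun h => (nm h : ℝ) ≤ Y)) (fun h hh => by
            rw [mem_filter] at hh
            exact ⟨(hS h hh.1).1, (hS h hh.1).2, hh.2⟩)
  · intro Y hY1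
    exact hA B Y hB hY1 T hT β (S.filter (fun h => (nm h : ℝ) ≤ Y)) (fun h hh => by
            rw [mem_filter] at hh
            exact ⟨(hS h hh.1).1, hh.2⟩)

lemma sq_sum_le {T : Finset Eis} {B : ℝ} (hB : 1 ≤ B)
    (hT : ∀ b ∈ T, IsPrim b ∧ Squarefree b ∧ (nm b : ℝ) ≤ B) (β : Eis → ℂ) :
    (∑ b ∈ T, ‖β b‖) ^ 2 ≤ 16 * B * ∑ b ∈ T, ‖β b‖ ^ 2 := by
  have h1 : (∑ b ∈ T, ‖β b‖) ^ 2 ≤ #T * ∑ b ∈ T, ‖β b‖ ^ 2 := sq_sum_le_card_mul_sum_sq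
  have h2 : T ⊆ nz B := fun b hb => mem_nz.mpr ⟨(hT b hb).1.ne_zero, (hT b hb).2.2⟩
  have h3 : (#T : ℝ) ≤ 16 * B :=
    le_trans (by exact_mod_cast card_le_card h2) (card_nz_le16 (by linarith))
  refine h1.trans ?_
  have : 0 ≤ ∑ b ∈ T, ‖β b‖ ^ 2 := sum_nonneg fun _ _ => by positivity
  gcongr

lemma norm_sum_sy_le (H : SyFacts) {T : Finset Eis} (hT : ∀ b ∈ T, IsPrim b) (β : Eis → ℂ)
    (h : Eis) : ‖∑ b ∈ T, β b * sy h b‖ ≤ ∑ b ∈ T, ‖β b‖ := by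
  refine (norm_sum_le _ _).trans (sum_le_sum fun b hb => ?_)
  rw [norm_mul]
  have := norm_sy_le H h b (hT b hb)
  have := norm_nonneg (β b)
  nlinarith

/-- all `h ≠ 0` (cubes included), `nm h ≤ Y ≤ B^(1-δ)`. -/
theorem all_bound_plain (H : SyFacts) (hL1 : L1Prop) (hHB : HBProp) {δ : ℝ} (hδ : 0 < δ)
    (hδ2 : δ ≤ 1 / 2) :
    ∃ C : ℝ, 0 < C ∧ ∀ B Y : ℝ, 1 ≤ B → 1 ≤ Y → Y ≤ B ^ (1 - δ) →
      ∀ T : Finset Eis, (∀ b ∈ T, IsPrim b ∧ Squarefree b ∧ (nm b : ℝ) ≤ B) → ∀ β : Eis → ℂ,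
      ∀ S : Finset Eis, (∀ h ∈ S, h ≠ 0 ∧ (nm h : ℝ) ≤ Y) →
      ∑ h ∈ S, ‖∑ b ∈ T, β b * sy h b‖ ^ 2
        ≤ C * Y ^ ((1 : ℝ) / 3) * B * ∑ b ∈ T, ‖β b‖ ^ 2 := by
  classical
  obtain ⟨C1, hC1, hN⟩ := noncube_bound H hL1 hHB hδ hδ2
  refine ⟨66 * C1 + 256, by positivity, ?_⟩
  intro B Y hB hY hYB T hT β S hS
  set E : ℝ := ∑ b ∈ T, ‖β b‖ ^ 2 with hE
  have hE0 : 0 ≤ E := sum_nonneg fun _ _ => by positivity
  have hB0 : (0 : ℝ) < B := by linarith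
  have hY0 : (0 : ℝ) < Y := by linarith
  set N : ℝ := ∑ b ∈ T, ‖β b‖ with hNd
  have hN0 : 0 ≤ N := sum_nonneg fun _ _ => norm_nonneg _
  have hN2 : N ^ 2 ≤ 16 * B * E := sq_sum_le hB hT β
  have htriv : ∀ h, ‖∑ b ∈ T, β b * sy h b‖ ≤ N := fun h =>
    norm_sum_sy_le H (fun b hb => (hT b hb).1) β h
  rw [← sum_filter_add_sum_filter_not S (fun h => ¬ ∃ t, h = t ^ 3)]
  have h1 := hN B Y 1 N N hB le_rfl hYB hN0 hN0 T hT β (fun h _ _ _ => htriv h)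
    (fun m _ _ => by
      rw [hNd]
      refine sum_le_sum fun b _ => ?_
      split_ifs
      · exact norm_nonneg _
      · exact le_rfl) (S.filter (fun h => ¬ ∃ t, h = t ^ 3)) (fun h hh => by
      rw [mem_filter] at hh
      exact ⟨(hS h hh.1).1, hh.2, (hS h hh.1).2⟩)
  have hBδ : B ^ (-(δ / 12)) ≤ 1 := Real.rpow_le_one_of_one_le_of_nonpos hB (by linarith)
  have h2 : ∑ h ∈ S with ¬ ∃ t, h = t ^ 3, ‖∑ b ∈ T, β b * sy h b‖ ^ 2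
      ≤ 66 * C1 * Y ^ ((1 : ℝ) / 3) * B * E := by
    refine h1.trans ?_
    rw [Real.one_rpow]
    have h3 : (1 : ℝ) * (N + N) ^ 2 + (1 + B ^ (-(δ / 12))) * B * E ≤ 66 * (B * E) := by
      have : B ^ (-(δ / 12)) * (B * E) ≤ 1 * (B * E) := by gcongr
      nlinarith
    calc C1 * Y ^ ((1 : ℝ) / 3) * (1 * (N + N) ^ 2 + (1 + B ^ (-(δ / 12))) * B * E)
        ≤ C1 * Y ^ ((1 : ℝ) / 3) * (66 * (B * E)) := by gcongr
      _ = _ := by ring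
  have h3 : ∑ h ∈ S with ¬ ¬ ∃ t, h = t ^ 3, ‖∑ b ∈ T, β b * sy h b‖ ^ 2
      ≤ 256 * Y ^ ((1 : ℝ) / 3) * B * E := by
    set S1 := S.filter (fun h => ¬ ¬ ∃ t, h = t ^ 3) with hS1
    have hsub : S1 ⊆ (nz (Y ^ ((1 : ℝ) / 3))).image (fun t => t ^ 3) := by
      intro h hh
      rw [hS1, mem_filter, not_not] at hh
      obtain ⟨hh1, t, ht⟩ := hh
      obtain ⟨h0, hY'⟩ := hS h hh1
      rw [mem_image]
      refine ⟨t, ?_, ht.symm⟩
      rw [mem_nz]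
      refine ⟨fun h => h0 (by rw [ht, h]; ring), ?_⟩
      have e5 : (nm t : ℝ) ^ 3 ≤ Y := by
        have : nm h = nm t ^ 3 := by rw [ht, nm_pow]
        rw [this] at hY'
        exact_mod_cast hY'
      have h6 : (nm t : ℝ) = ((nm t : ℝ) ^ 3) ^ ((1 : ℝ) / 3) := by
        rw [← Real.rpow_natCast, ← Real.rpow_mul (by positivity)]; norm_num
      rw [h6]
      exact Real.rpow_le_rpow (by positivity) e5 (by norm_num)
    have hc : (#S1 : ℝ) ≤ 16 * Y ^ ((1 : ℝ) / 3) := by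
      have c1 : #S1 ≤ #(nz (Y ^ ((1 : ℝ) / 3))) := (card_le_card hsub).trans card_image_le
      exact le_trans (by exact_mod_cast c1) (card_nz_le16 (by positivity))
    calc ∑ h ∈ S1, ‖∑ b ∈ T, β b * sy h b‖ ^ 2 ≤ ∑ h ∈ S1, N ^ 2 := by
          refine sum_le_sum fun h _ => ?_
          have := htriv h
          gcongr
      _ = #S1 * N ^ 2 := by rw [sum_const, nsmul_eq_mul]
      _ ≤ (16 * Y ^ ((1 : ℝ) / 3)) * (16 * B * E) := by gcongr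
      _ = _ := by ring
  calc _ ≤ 66 * C1 * Y ^ ((1 : ℝ) / 3) * B * E + 256 * Y ^ ((1 : ℝ) / 3) * B * E :=
        add_le_add h2 h3
    _ = _ := by ring

/-- all `h ≠ 0` (cubes included) with weights `≤ min 1 (K / nm h)^2`, `K ≤ B^(1-2δ)`. -/
theorem all_weighted (H : SyFacts) (hL1 : L1Prop) (hHB : HBProp) {δ : ℝ} (hδ : 0 < δ)
    (hδ2 : δ ≤ 1 / 2) :
    ∃ C : ℝ, 0 < C ∧ ∀ B K : ℝ, 1 ≤ B → 0 < K → K ≤ B ^ (1 - 2 * δ) →
      ∀ T : Finset Eis, (∀ b ∈ T, IsPrim b ∧ Squarefree b ∧ (nm b : ℝ) ≤ B) → ∀ β : Eis → ℂ,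
      ∀ S : Finset Eis, (∀ h ∈ S, h ≠ 0) →
      ∀ W : Eis → ℝ, (∀ h ∈ S, 0 ≤ W h ∧ W h ≤ 1 ∧ (nm h : ℝ) ^ 2 * W h ≤ K ^ 2) →
      ∑ h ∈ S, W h * ‖∑ b ∈ T, β b * sy h b‖ ^ 2
        ≤ C * K ^ ((1 : ℝ) / 3) * B * ∑ b ∈ T, ‖β b‖ ^ 2 := by
  classical
  obtain ⟨C1, hC1, hN⟩ := all_bound_plain H hL1 hHB hδ hδ2
  obtain ⟨C2, hC2, hA⟩ := all_bound H hL1 hHB (ε := δ / 12) (by positivity)
  have hq0 : 0 < (2 : ℝ) ^ (-(1 : ℝ) / 3) := Real.rpow_pos_of_pos (by norm_num) _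
  have hq1 : (2 : ℝ) ^ (-(1 : ℝ) / 3) < 1 :=
    Real.rpow_lt_one_of_one_lt_of_neg (by norm_num) (by norm_num)
  have hq1' : 0 < 1 - (2 : ℝ) ^ (-(1 : ℝ) / 3) := by linarith
  refine ⟨(4 * C1 + 12 * C2) * (1 - (2 : ℝ) ^ (-(1 : ℝ) / 3))⁻¹, by positivity, ?_⟩
  intro B K hB hK hKB T hT β S hS W hW
  set E : ℝ := ∑ b ∈ T, ‖β b‖ ^ 2 with hE
  have hE0 : 0 ≤ E := sum_nonneg fun _ _ => by positivity
  have hB0 : (0 : ℝ) < B := by linarith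
  have hBδ : B ^ (-(δ / 12)) ≤ 1 := Real.rpow_le_one_of_one_le_of_nonpos hB (by linarith)
  rw [mul_assoc]
  refine weighted_core hB hK hKB hδ hδ2 hC1.le hC2.le hE0 ?_ S hS
    (fun h => ‖∑ b ∈ T, β b * sy h b‖ ^ 2) (fun h => by positivity) ?_ ?_ W hW
  · rw [mul_assoc]
    have : 0 ≤ B * E := by positivity
    nlinarith
  · intro Y hY1 hc
    have := hN B Y hB hY1 hc T hT β (S.filter (fun h => (nm h : ℝ) ≤ Y)) (fun h hh => by
            rw [mem_filter] at hh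
            exact ⟨hS h hh.1, hh.2⟩)
    rw [mul_assoc _ B] at this
    exact this
  · intro Y hY1
    exact hA B Y hB hY1 T hT β (S.filter (fun h => (nm h : ℝ) ≤ Y)) (fun h hh => by
            rw [mem_filter] at hh
            exact ⟨hS h hh.1, hh.2⟩)

end Crest.Agent.R012.NonCube52
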