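import Crest.Agent.R012.Dec_766
import Crest.Agent.R012.LScount_448
import Crest.Agent.R012.CharSum_852

/-!
# Row 12, item TN: the non-cube dual sum

Kernels `κ = ((i, j), (k1, k2))`, value `kv κ = w^i lam^j k1 k2²`, conductor `nm k1 * nm k2`.

Inputs (as `Prop`s): `L1Prop` (multiplicative large sieve in conductor form), `HBProp` (cubic large
sieve of Heath-Brown).

* `ls_kernel`   : large sieve over kernels of norm at most `K ≤ 2 B^(1-δ)`,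
* `kernel_large`: sum over `(κ, m)` with `nm (kv κ) > L`, `nm (kv κ) * nm m ^ 3 ≤ H`,
* `noncube_bound` : sum over non-cubes `h`, given the Siegel-Walfisz type bound for small `h`.
-/

set_option autoImplicit false
set_option linter.unusedVariables false
set_option linter.unusedSectionVars false

noncomputable section

namespace Crest.Agent.R012.NonCube52

open Finset Eis LS448 CharSum852 Char766

/-- `((i, j), (k1, k2))`. -/
abbrev Ker : Type := (ℕ × ℕ) × (Eis × Eis)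

/-- The value `w^i lam^j k1 k2²` of a kernel. -/
def kv (κ : Ker) : Eis := w ^ κ.1.1 * lam ^ κ.1.2 * κ.2.1 * κ.2.2 ^ 2

structure Good (κ : Ker) : Prop where
  hi : κ.1.1 < 3
  hj : κ.1.2 < 3
  prim1 : IsPrim κ.2.1
  prim2 : IsPrim κ.2.2
  sqf1 : Squarefree κ.2.1
  sqf2 : Squarefree κ.2.2
  cop : IsCoprime κ.2.1 κ.2.2

/-- multiplicative large sieve for the cubic characters `b ↦ (w^i lam^j k1 k2² / b)`, in terms of
the conductor `nm k1 * nm k2`. -/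
def L1Prop : Prop :=
  ∃ C : ℝ, 0 < C ∧ ∀ B Q : ℝ, 1 ≤ B → 1 ≤ Q → ∀ 𝒦 : Finset Ker,
    (∀ κ ∈ 𝒦, Good κ ∧ (nm κ.2.1 : ℝ) * nm κ.2.2 ≤ Q) →
    ∀ T : Finset Eis, (∀ b ∈ T, IsPrim b ∧ (nm b : ℝ) ≤ B) → ∀ β : Eis → ℂ,
      ∑ κ ∈ 𝒦, ‖∑ b ∈ T, β b * sy (kv κ) b‖ ^ 2 ≤ C * (B + Q ^ 2) * ∑ b ∈ T, ‖β b‖ ^ 2

/-- Heath-Brown's cubic large sieve. -/
def HBProp : Prop :=
  ∀ ε : ℝ, 0 < ε → ∃ C : ℝ, 0 < C ∧ ∀ M N : ℝ, 1 ≤ M → 1 ≤ N → ∀ S T : Finset Eis,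
    (∀ m ∈ S, IsPrim m ∧ Squarefree m ∧ (nm m : ℝ) ≤ M) →
    (∀ n ∈ T, IsPrim n ∧ Squarefree n ∧ (nm n : ℝ) ≤ N) → ∀ c : Eis → ℂ,
      ∑ m ∈ S, ‖∑ n ∈ T, c n * sy m n‖ ^ 2
        ≤ C * (M * N) ^ ε * (M + N + (M * N) ^ ((2 : ℝ) / 3)) * ∑ n ∈ T, ‖c n‖ ^ 2

/-! ### elementary facts -/

lemma nm_kv (κ : Ker) : nm (kv κ) = 3 ^ κ.1.2 * nm κ.2.1 * nm κ.2.2 ^ 2 := by
  unfold kv
  simp only [nm_mul, nm_pow, nm_w, nm_lam, one_pow, one_mul]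

lemma kv_ne_zero {κ : Ker} (h : Good κ) : kv κ ≠ 0 := by
  unfold kv
  exact mul_ne_zero (mul_ne_zero (mul_ne_zero (pow_ne_zero _ isUnit_w.ne_zero)
    (pow_ne_zero _ lam_ne_zero)) h.prim1.ne_zero) (pow_ne_zero _ h.prim2.ne_zero)

lemma one_le_nm1 {κ : Ker} (h : Good κ) : (1 : ℝ) ≤ nm κ.2.1 := one_le_nm' h.prim1.ne_zero
lemma one_le_nm2 {κ : Ker} (h : Good κ) : (1 : ℝ) ≤ nm κ.2.2 := one_le_nm' h.prim2.ne_zero
lemma one_le_nmkv {κ : Ker} (h : Good κ) : (1 : ℝ) ≤ nm (kv κ) := one_le_nm' (kv_ne_zero h)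

lemma nm_kv_ge (κ : Ker) : (nm κ.2.1 : ℝ) * nm κ.2.2 ^ 2 ≤ nm (kv κ) := by
  rw [nm_kv]
  push_cast
  have h1 : (1 : ℝ) ≤ 3 ^ κ.1.2 := one_le_pow₀ (by norm_num)
  have h2 : (0 : ℝ) ≤ (nm κ.2.1 : ℝ) * nm κ.2.2 ^ 2 := by positivity
  nlinarith

lemma cond_le {κ : Ker} (h : Good κ) : (nm κ.2.1 : ℝ) * nm κ.2.2 * nm κ.2.2 ≤ nm (kv κ) := by
  have := nm_kv_ge κ
  calc _ = (nm κ.2.1 : ℝ) * nm κ.2.2 ^ 2 := by ring
    _ ≤ _ := this

lemma cond_le' {κ : Ker} (h : Good κ) : (nm κ.2.1 : ℝ) * nm κ.2.2 ≤ nm (kv κ) := by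
  have h1 := cond_le h
  have h2 := one_le_nm2 h
  have h3 : (0 : ℝ) ≤ (nm κ.2.1 : ℝ) * nm κ.2.2 := by positivity
  nlinarith

lemma norm_sy_le (H : SyFacts) (x b : Eis) (hb : IsPrim b) : ‖sy x b‖ ≤ 1 := by
  by_cases hc : IsCoprime x b
  · have h3 := H.cube x b hb hc
    have : ‖sy x b‖ ^ 3 = 1 := by rw [← norm_pow, h3, norm_one]
    exact le_of_eq (by
      rcases (pow_eq_one_iff_of_nonneg (norm_nonneg _) (by norm_num : (3 : ℕ) ≠ 0)).mp this with h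
      exact h)
  · rw [(H.eq_zero x b hb).mpr hc]; simp

lemma sy_pow3 (H : SyFacts) (x b : Eis) (hb : IsPrim b) : sy (x ^ 3) b = sy x b ^ 3 := by
  rw [pow_succ, pow_succ, pow_one, H.mul_left _ _ _ hb, H.mul_left _ _ _ hb]; ring

/-- `Σ_{z ≠ 0, nm z ≤ X} nm(z)^(-4/3)` is bounded. -/
lemma sum_nz_43 : ∃ C : ℝ, 0 < C ∧ ∀ X : ℝ, ∑ z ∈ nz X, (nm z : ℝ) ^ (-(4 : ℝ) / 3) ≤ C := by
  classical
  set q : ℝ := (2 : ℝ) ^ (-(1 : ℝ) / 3) with hq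
  have hq0 : 0 < q := Real.rpow_pos_of_pos (by norm_num) _
  have hq1 : q < 1 := Real.rpow_lt_one_of_one_lt_of_neg (by norm_num) (by norm_num)
  refine ⟨32 * (1 - q)⁻¹, by have : 0 < 1 - q := by linarith
                             positivity, fun X => ?_⟩
  have hmaps : ∀ z ∈ nz X, Nat.log 2 (nm z) ∈ range (Nat.log 2 ⌊X⌋₊ + 1) := by
    intro z hz
    rw [mem_nz] at hz
    rw [mem_range, Nat.lt_succ_iff]
    exact Nat.log_mono_right (Nat.le_floor hz.2)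
  rw [← sum_fiberwise_of_maps_to hmaps]
  have hone : ∀ i ∈ range (Nat.log 2 ⌊X⌋₊ + 1),
      ∑ z ∈ nz X with Nat.log 2 (nm z) = i, (nm z : ℝ) ^ (-(4 : ℝ) / 3) ≤ 32 * q ^ i := by
    intro i _
    have h1 : ∀ z ∈ (nz X).filter (fun z => Nat.log 2 (nm z) = i),
        (nm z : ℝ) ^ (-(4 : ℝ) / 3) ≤ ((2 : ℝ) ^ i) ^ (-(4 : ℝ) / 3) := by
      intro z hz
      rw [mem_filter, mem_nz] at hz
      have h2 : 2 ^ Nat.log 2 (nm z) ≤ nm z := Nat.pow_log_le_self 2 (nm_pos.mpr hz.1.1).ne'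
      rw [hz.2] at h2
      have h3 : ((2 : ℝ)) ^ i ≤ nm z := by exact_mod_cast h2
      exact Real.rpow_le_rpow_of_nonpos (by positivity) h3 (by norm_num)
    have h4 : (nz X).filter (fun z => Nat.log 2 (nm z) = i) ⊆ ball (2 ^ (i + 1)) := by
      intro z hz
      rw [mem_filter, mem_nz] at hz
      rw [mem_ball]
      have := Nat.lt_pow_succ_log_self (b := 2) (by norm_num) (nm z)
      rw [hz.2] at this
      exact this.le
    have h5 := (card_le_card h4).trans (card_ball_le (X := 2 ^ (i + 1)) Nat.one_le_two_pow)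
    have h6 : ((2 : ℝ) ^ i) ^ (-(4 : ℝ) / 3) = q ^ i * ((2 : ℝ) ^ i)⁻¹ := by
      rw [← Real.rpow_natCast 2 i, ← Real.rpow_mul (by norm_num), hq, ← Real.rpow_natCast,
        ← Real.rpow_mul (by norm_num), ← Real.rpow_neg (by norm_num), ← Real.rpow_add (by norm_num)]
      congr 1; ring
    calc ∑ z ∈ nz X with Nat.log 2 (nm z) = i, (nm z : ℝ) ^ (-(4 : ℝ) / 3)
        ≤ ∑ z ∈ nz X with Nat.log 2 (nm z) = i, ((2 : ℝ) ^ i) ^ (-(4 : ℝ) / 3) := sum_le_sum h1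
      _ = #((nz X).filter (fun z => Nat.log 2 (nm z) = i)) * ((2 : ℝ) ^ i) ^ (-(4 : ℝ) / 3) := by
          rw [sum_const, nsmul_eq_mul]
      _ ≤ (16 * 2 ^ (i + 1)) * ((2 : ℝ) ^ i) ^ (-(4 : ℝ) / 3) := by
          gcongr
          exact_mod_cast h5
      _ = 32 * q ^ i := by
          rw [h6, pow_succ]; field_simp; norm_num
  calc _ ≤ ∑ i ∈ range (Nat.log 2 ⌊X⌋₊ + 1), 32 * q ^ i := sum_le_sum hone
    _ = 32 * ∑ i ∈ range (Nat.log 2 ⌊X⌋₊ + 1), q ^ i := by rw [mul_sum]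
    _ ≤ 32 * (1 - q)⁻¹ := by
        gcongr
        exact (Summable.sum_le_tsum _ (fun _ _ => by positivity)
          (summable_geometric_of_lt_one hq0.le hq1)).trans
          (tsum_geometric_of_lt_one hq0.le hq1).le

/-- number of nonzero elements -/
lemma card_nz_le16 {X : ℝ} (hX : 0 ≤ X) : (#(nz X) : ℝ) ≤ 16 * X := by
  by_cases h : 1 ≤ X
  · have h1 : nz X ⊆ ball ⌊X⌋₊ := fun z hz => by
      rw [mem_nz] at hz; rw [mem_ball]; exact Nat.le_floor hz.2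
    have h2 := (card_le_card h1).trans (card_ball_le (X := ⌊X⌋₊) (Nat.le_floor (by simpa using h)))
    calc (#(nz X) : ℝ) ≤ ((16 * ⌊X⌋₊ : ℕ) : ℝ) := by exact_mod_cast h2
      _ = 16 * (⌊X⌋₊ : ℝ) := by push_cast; ring
      _ ≤ 16 * X := by gcongr; exact Nat.floor_le hX
  · rw [nz_eq_empty (by linarith)]; simp; linarith


/-! ### the large sieve over kernels -/

lemma sy_kv_split (H : SyFacts) (p : ℕ × ℕ) (k1 k2 b : Eis) (hb : IsPrim b) :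
    sy (kv (p, (k1, k2))) b = sy (w ^ p.1 * lam ^ p.2 * k2 ^ 2) b * sy k1 b := by
  rw [← H.mul_left _ _ _ hb]
  have : kv (p, (k1, k2)) = w ^ p.1 * lam ^ p.2 * k2 ^ 2 * k1 := by
    unfold kv; ring
  rw [this]

/-- kernels with small `k2`, by Heath-Brown's large sieve in `k1`. -/
lemma hb_part (H : SyFacts) (hHB : HBProp) {ε : ℝ} (hε : 0 < ε) :
    ∃ C : ℝ, 0 < C ∧ ∀ B K Z : ℝ, 1 ≤ B → 1 ≤ K → K ≤ 2 * B → 0 ≤ Z → ∀ 𝒦 : Finset Ker,
      (∀ κ ∈ 𝒦, Good κ ∧ (nm (kv κ) : ℝ) ≤ K ∧ (nm κ.2.2 : ℝ) ≤ Z) →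
      ∀ T : Finset Eis, (∀ b ∈ T, IsPrim b ∧ Squarefree b ∧ (nm b : ℝ) ≤ B) → ∀ β : Eis → ℂ,
      ∑ κ ∈ 𝒦, ‖∑ b ∈ T, β b * sy (kv κ) b‖ ^ 2
        ≤ C * B ^ (2 * ε) * (Z * B + (K * B) ^ ((2 : ℝ) / 3)) * ∑ b ∈ T, ‖β b‖ ^ 2 := by
  classical
  obtain ⟨C1, hC1, hHB1⟩ := hHB ε hε
  obtain ⟨C3, hC3, hsum⟩ := sum_nz_43
  refine ⟨9 * (C1 * 2 ^ ε) * (64 + C3), by positivity, ?_⟩
  intro B K Z hB hK hKB hZ 𝒦 h𝒦 T hT β
  set E : ℝ := ∑ b ∈ T, ‖β b‖ ^ 2 with hE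
  have hE0 : 0 ≤ E := sum_nonneg fun _ _ => by positivity
  set f : Ker → ℝ := fun κ => ‖∑ b ∈ T, β b * sy (kv κ) b‖ ^ 2 with hf
  have hf0 : ∀ κ, 0 ≤ f κ := fun κ => by rw [hf]; positivity
  set R : Finset (ℕ × ℕ) := range 3 ×ˢ range 3 with hR
  have hsub : 𝒦 ⊆ R ×ˢ (nz K ×ˢ nz Z) := by
    intro κ hκ
    obtain ⟨hg, h1, h2⟩ := h𝒦 κ hκ
    rw [mem_product, mem_product, mem_product, mem_range, mem_range, mem_nz, mem_nz]
    have h3 := cond_le' hg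
    have h4 := one_le_nm2 hg
    have h5 : (0 : ℝ) ≤ nm κ.2.1 := by positivity
    exact ⟨⟨hg.hi, hg.hj⟩, ⟨hg.prim1.ne_zero, by nlinarith⟩, hg.prim2.ne_zero, h2⟩
  have hstep : ∑ κ ∈ 𝒦, f κ = ∑ p ∈ R, ∑ k2 ∈ nz Z, ∑ k1 ∈ nz K,
      if (p, (k1, k2)) ∈ 𝒦 then f (p, (k1, k2)) else 0 := by
    have h1 : ∑ κ ∈ 𝒦, f κ = ∑ κ ∈ R ×ˢ (nz K ×ˢ nz Z), if κ ∈ 𝒦 then f κ else 0 := by
      rw [← sum_filter]
      congr 1
      ext κ
      rw [mem_filter]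
      exact ⟨fun h => ⟨hsub h, h⟩, fun h => h.2⟩
    rw [h1, sum_product]
    refine sum_congr rfl fun p _ => ?_
    rw [sum_product_right]
  rw [hstep]
  have hinner : ∀ p ∈ R, ∀ k2 ∈ nz Z,
      (∑ k1 ∈ nz K, if (p, (k1, k2)) ∈ 𝒦 then f (p, (k1, k2)) else 0)
        ≤ (C1 * 2 ^ ε * B ^ (2 * ε)) *
          (4 * B + (K * B) ^ ((2 : ℝ) / 3) * (nm k2 : ℝ) ^ (-(4 : ℝ) / 3)) * E := by
    intro p hp k2 hk2
    rw [mem_nz] at hk2
    have hk21 : (1 : ℝ) ≤ nm k2 := one_le_nm' hk2.1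
    rw [← sum_filter]
    set S := (nz K).filter (fun k1 => (p, (k1, k2)) ∈ 𝒦) with hS
    set x : ℝ := K / (nm k2 : ℝ) ^ 2 with hx
    have hx0 : 0 ≤ x := by positivity
    set M : ℝ := max 1 x with hM
    set c : Eis → ℂ := fun b => β b * sy (w ^ p.1 * lam ^ p.2 * k2 ^ 2) b with hc
    have hSM : ∀ m ∈ S, IsPrim m ∧ Squarefree m ∧ (nm m : ℝ) ≤ M := by
      intro m hm
      rw [hS, mem_filter] at hm
      obtain ⟨hg, h1, h2⟩ := h𝒦 _ hm.2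
      refine ⟨hg.prim1, hg.sqf1, le_trans ?_ (le_max_right _ _)⟩
      have h5 := (nm_kv_ge (p, (m, k2))).trans h1
      rw [hx, le_div_iff₀ (by positivity)]
      exact h5
    have hmain := hHB1 M B (le_max_left _ _) hB S T hSM hT c
    have hEq : ∑ k1 ∈ S, f (p, (k1, k2)) = ∑ m ∈ S, ‖∑ n ∈ T, c n * sy m n‖ ^ 2 := by
      refine sum_congr rfl fun k1 _ => ?_
      have h1 : ∑ b ∈ T, β b * sy (kv (p, (k1, k2))) b = ∑ n ∈ T, c n * sy k1 n := by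
        refine sum_congr rfl fun b hb => ?_
        rw [sy_kv_split H p k1 k2 b (hT b hb).1, hc]
        ring
      show ‖∑ b ∈ T, β b * sy (kv (p, (k1, k2))) b‖ ^ 2 = _
      rw [h1]
    rw [hEq]
    have hcE : ∑ n ∈ T, ‖c n‖ ^ 2 ≤ E := by
      rw [hE]
      refine sum_le_sum fun b hb => ?_
      rw [hc]
      simp only
      rw [norm_mul, mul_pow]
      have h1 := norm_sy_le H (w ^ p.1 * lam ^ p.2 * k2 ^ 2) b (hT b hb).1
      have h2 : ‖sy (w ^ p.1 * lam ^ p.2 * k2 ^ 2) b‖ ^ 2 ≤ 1 :=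
        pow_le_one₀ (norm_nonneg _) h1
      have h3 : 0 ≤ ‖β b‖ ^ 2 := by positivity
      nlinarith
    refine hmain.trans ?_
    have hxK : x ≤ K := by
      rw [hx, div_le_iff₀ (by positivity)]
      nlinarith [one_le_pow₀ hk21 (n := 2)]
    have hM2B : M ≤ 2 * B := by
      rw [hM]; exact max_le (by linarith) (hxK.trans hKB)
    have hM1 : 1 ≤ M := le_max_left _ _
    have hMB : M * B ≤ 2 * B ^ 2 := by nlinarith
    have hpw : (M * B) ^ ε ≤ 2 ^ ε * B ^ (2 * ε) := by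
      calc (M * B) ^ ε ≤ (2 * B ^ 2) ^ ε :=
            Real.rpow_le_rpow (by positivity) hMB hε.le
        _ = 2 ^ ε * B ^ (2 * ε) := by
            rw [Real.mul_rpow (by norm_num) (by positivity), Real.rpow_mul (by linarith)]
            norm_num
    have hpw2 : (M * B) ^ ((2 : ℝ) / 3)
        ≤ B + (K * B) ^ ((2 : ℝ) / 3) * (nm k2 : ℝ) ^ (-(4 : ℝ) / 3) := by
      have hB0 : (0 : ℝ) ≤ B := by linarith
      have e1 : (x * B) ^ ((2 : ℝ) / 3)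
          = (K * B) ^ ((2 : ℝ) / 3) * (nm k2 : ℝ) ^ (-(4 : ℝ) / 3) := by
        have : x * B = (K * B) * ((nm k2 : ℝ) ^ (-(2 : ℝ))) := by
          rw [hx, Real.rpow_neg (by positivity)]
          norm_num
          ring
        rw [this, Real.mul_rpow (by positivity) (by positivity), ← Real.rpow_mul (by positivity)]
        norm_num
      rcases le_total 1 x with h | h
      · rw [hM, max_eq_right h, e1]; linarith
      · rw [hM, max_eq_left h, one_mul]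
        have : B ^ ((2 : ℝ) / 3) ≤ B ^ (1 : ℝ) :=
          Real.rpow_le_rpow_of_exponent_le hB (by norm_num)
        rw [Real.rpow_one] at this
        have h2 : 0 ≤ (K * B) ^ ((2 : ℝ) / 3) * (nm k2 : ℝ) ^ (-(4 : ℝ) / 3) := by positivity
        linarith
    have hB0 : (0 : ℝ) ≤ B := by linarith
    have hM0 : (0 : ℝ) ≤ M := by linarith
    calc C1 * (M * B) ^ ε * (M + B + (M * B) ^ ((2 : ℝ) / 3)) * ∑ n ∈ T, ‖c n‖ ^ 2
        ≤ C1 * (2 ^ ε * B ^ (2 * ε)) *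
          (2 * B + B + (B + (K * B) ^ ((2 : ℝ) / 3) * (nm k2 : ℝ) ^ (-(4 : ℝ) / 3))) * E := by
          gcongr
      _ = _ := by ring
  have hcardR : (#R : ℝ) = 9 := by rw [hR, card_product]; simp
  calc ∑ p ∈ R, ∑ k2 ∈ nz Z, ∑ k1 ∈ nz K, (if (p, (k1, k2)) ∈ 𝒦 then f (p, (k1, k2)) else 0)
      ≤ ∑ p ∈ R, ∑ k2 ∈ nz Z, (C1 * 2 ^ ε * B ^ (2 * ε)) *
          (4 * B + (K * B) ^ ((2 : ℝ) / 3) * (nm k2 : ℝ) ^ (-(4 : ℝ) / 3)) * E :=
        sum_le_sum fun p hp => sum_le_sum fun k2 hk2 => hinner p hp k2 hk2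
    _ = 9 * ((C1 * 2 ^ ε * B ^ (2 * ε)) *
          (#(nz Z) * (4 * B) + (K * B) ^ ((2 : ℝ) / 3) *
            ∑ k2 ∈ nz Z, (nm k2 : ℝ) ^ (-(4 : ℝ) / 3)) * E) := by
        rw [sum_const, nsmul_eq_mul, hcardR, ← sum_mul, ← mul_sum, sum_add_distrib, sum_const,
          nsmul_eq_mul, ← mul_sum]
    _ ≤ 9 * ((C1 * 2 ^ ε * B ^ (2 * ε)) *
          ((16 * Z) * (4 * B) + (K * B) ^ ((2 : ℝ) / 3) * C3) * E) := by
        have := card_nz_le16 hZ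
        have h2 := hsum Z
        gcongr
    _ ≤ 9 * (C1 * 2 ^ ε) * (64 + C3) * B ^ (2 * ε) * (Z * B + (K * B) ^ ((2 : ℝ) / 3)) * E := by
        have h0 : 0 ≤ (K * B) ^ ((2 : ℝ) / 3) := by positivity
        have h1 : 0 ≤ Z * B := by positivity
        have h2 : (16 * Z) * (4 * B) + (K * B) ^ ((2 : ℝ) / 3) * C3
            ≤ (64 + C3) * (Z * B + (K * B) ^ ((2 : ℝ) / 3)) := by nlinarith
        have h3 : 0 ≤ 9 * (C1 * 2 ^ ε * B ^ (2 * ε)) * E := by positivity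
        calc _ = 9 * (C1 * 2 ^ ε * B ^ (2 * ε)) * E *
              ((16 * Z) * (4 * B) + (K * B) ^ ((2 : ℝ) / 3) * C3) := by ring
          _ ≤ 9 * (C1 * 2 ^ ε * B ^ (2 * ε)) * E *
              ((64 + C3) * (Z * B + (K * B) ^ ((2 : ℝ) / 3))) := by gcongr
          _ = _ := by ring


theorem ls_kernel (H : SyFacts) (hL1 : L1Prop) (hHB : HBProp) {δ : ℝ} (hδ : 0 < δ)
    (hδ2 : δ ≤ 1 / 2) :
    ∃ C : ℝ, 0 < C ∧ ∀ B K : ℝ, 1 ≤ B → 1 ≤ K → K ≤ 2 * B ^ (1 - δ) → ∀ 𝒦 : Finset Ker,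
      (∀ κ ∈ 𝒦, Good κ ∧ (nm (kv κ) : ℝ) ≤ K) →
      ∀ T : Finset Eis, (∀ b ∈ T, IsPrim b ∧ Squarefree b ∧ (nm b : ℝ) ≤ B) → ∀ β : Eis → ℂ,
      ∑ κ ∈ 𝒦, ‖∑ b ∈ T, β b * sy (kv κ) b‖ ^ 2
        ≤ C * (B + K ^ ((1 : ℝ) / 3) * B ^ (1 - δ / 6)) * ∑ b ∈ T, ‖β b‖ ^ 2 := by
  classical
  obtain ⟨C1, hC1, hL⟩ := hL1
  obtain ⟨C2, hC2, hP⟩ := hb_part H hHB (ε := δ / 12) (by positivity)
  refine ⟨3 * C1 + 3 * C2, by positivity, ?_⟩
  intro B K hB hK hKB 𝒦 h𝒦 T hT β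
  set E : ℝ := ∑ b ∈ T, ‖β b‖ ^ 2 with hE
  have hE0 : 0 ≤ E := sum_nonneg fun _ _ => by positivity
  have hB0 : (0 : ℝ) < B := by linarith
  have hK0 : (0 : ℝ) < K := by linarith
  have hT' : ∀ b ∈ T, IsPrim b ∧ (nm b : ℝ) ≤ B := fun b hb => ⟨(hT b hb).1, (hT b hb).2.2⟩
  have hmono : ∀ {a b : ℝ}, a ≤ b → B ^ a ≤ B ^ b := fun h =>
    Real.rpow_le_rpow_of_exponent_le hB h
  set X : ℝ := K ^ ((1 : ℝ) / 3) * B ^ (1 - δ / 6) with hX
  have hX0 : 0 ≤ X := by positivity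
  rcases le_or_gt (K ^ 2) B with hKs | hKs
  · have h1 := hL B K hB hK 𝒦 (fun κ hκ => ⟨(h𝒦 κ hκ).1,
      (cond_le' (h𝒦 κ hκ).1).trans (h𝒦 κ hκ).2⟩) T hT' β
    refine h1.trans ?_
    calc C1 * (B + K ^ 2) * E ≤ C1 * (B + B) * E := by gcongr
      _ ≤ (3 * C1 + 3 * C2) * (B + X) * E := by
        gcongr ?_ * E
        nlinarith [mul_pos hC1 hB0, mul_pos hC2 hB0, mul_nonneg hC1.le hX0,
          mul_nonneg hC2.le hX0]
  · set Z : ℝ := K ^ ((1 : ℝ) / 3) * B ^ (-(δ / 3)) with hZ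
    have hZ1 : 1 ≤ Z := by
      have h1 : B ^ ((1 : ℝ) / 6) ≤ K ^ ((1 : ℝ) / 3) := by
        calc B ^ ((1 : ℝ) / 6) ≤ (K ^ 2) ^ ((1 : ℝ) / 6) :=
              Real.rpow_le_rpow hB0.le hKs.le (by norm_num)
          _ = K ^ ((1 : ℝ) / 3) := by
              rw [← Real.rpow_natCast, ← Real.rpow_mul hK0.le]; norm_num
      calc (1 : ℝ) = B ^ (0 : ℝ) := (Real.rpow_zero _).symm
        _ ≤ B ^ ((1 : ℝ) / 6 + -(δ / 3)) := hmono (by linarith)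
        _ = B ^ ((1 : ℝ) / 6) * B ^ (-(δ / 3)) := Real.rpow_add hB0 _ _
        _ ≤ Z := by rw [hZ]; gcongr
    have hZ0 : 0 < Z := by linarith
    set Q : ℝ := K / Z with hQ
    have hQe : Q = K ^ ((2 : ℝ) / 3) * B ^ (δ / 3) := by
      rw [hQ, hZ, div_eq_iff (by positivity)]
      calc K = K ^ ((2 : ℝ) / 3 + 1 / 3) * B ^ (δ / 3 + -(δ / 3)) := by
            norm_num
        _ = _ := by rw [Real.rpow_add hK0, Real.rpow_add hB0]; ring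
    have hQ1 : 1 ≤ Q := by
      rw [hQe]
      have h1 : 1 ≤ K ^ ((2 : ℝ) / 3) := Real.one_le_rpow hK (by norm_num)
      have h2 : 1 ≤ B ^ (δ / 3) := Real.one_le_rpow hB (by positivity)
      nlinarith
    have hQ2 : Q ^ 2 ≤ 2 * X := by
      have e1 : Q ^ 2 = K ^ ((1 : ℝ) / 3) * K * B ^ (2 * δ / 3) := by
        rw [hQe, mul_pow, ← Real.rpow_natCast, ← Real.rpow_mul hK0.le, ← Real.rpow_natCast,
          ← Real.rpow_mul hB0.le]
        have : K ^ ((1 : ℝ) / 3) * K = K ^ ((1 : ℝ) / 3 + 1) := by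
          rw [Real.rpow_add hK0, Real.rpow_one]
        rw [this]
        congr 2 <;> push_cast <;> ring
      rw [e1]
      calc K ^ ((1 : ℝ) / 3) * K * B ^ (2 * δ / 3)
          ≤ K ^ ((1 : ℝ) / 3) * (2 * B ^ (1 - δ)) * B ^ (2 * δ / 3) := by gcongr
        _ = 2 * (K ^ ((1 : ℝ) / 3) * B ^ (1 - δ / 3)) := by
            have : B ^ (1 - δ / 3) = B ^ (1 - δ) * B ^ (2 * δ / 3) := by
              rw [← Real.rpow_add hB0]; congr 1; ring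
            rw [this]; ring
        _ ≤ 2 * X := by
            rw [hX]
            have : B ^ (1 - δ / 3) ≤ B ^ (1 - δ / 6) := hmono (by linarith)
            gcongr
    -- split
    have hsplit : ∑ κ ∈ 𝒦, ‖∑ b ∈ T, β b * sy (kv κ) b‖ ^ 2
        = ∑ κ ∈ 𝒦 with (nm κ.2.2 : ℝ) ≤ Z, ‖∑ b ∈ T, β b * sy (kv κ) b‖ ^ 2
          + ∑ κ ∈ 𝒦 with ¬ (nm κ.2.2 : ℝ) ≤ Z, ‖∑ b ∈ T, β b * sy (kv κ) b‖ ^ 2 :=
      (sum_filter_add_sum_filter_not _ _ _).symm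
    rw [hsplit]
    have ha : ∑ κ ∈ 𝒦 with ¬ (nm κ.2.2 : ℝ) ≤ Z, ‖∑ b ∈ T, β b * sy (kv κ) b‖ ^ 2
        ≤ C1 * (B + Q ^ 2) * E := by
      refine hL B Q hB hQ1 _ (fun κ hκ => ?_) T hT' β
      rw [mem_filter, not_le] at hκ
      obtain ⟨hκ1, hκ2⟩ := hκ
      obtain ⟨hg, hk⟩ := h𝒦 κ hκ1
      refine ⟨hg, ?_⟩
      rw [hQ, le_div_iff₀ hZ0]
      have h1 := cond_le hg
      have h2 : (0 : ℝ) ≤ (nm κ.2.1 : ℝ) * nm κ.2.2 := by positivity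
      nlinarith
    have hKB' : K ≤ 2 * B := by
      have : B ^ (1 - δ) ≤ B ^ (1 : ℝ) := hmono (by linarith)
      rw [Real.rpow_one] at this
      linarith
    have hb : ∑ κ ∈ 𝒦 with (nm κ.2.2 : ℝ) ≤ Z, ‖∑ b ∈ T, β b * sy (kv κ) b‖ ^ 2
        ≤ C2 * B ^ (2 * (δ / 12)) * (Z * B + (K * B) ^ ((2 : ℝ) / 3)) * E := by
      refine hP B K Z hB hK hKB' hZ0.le _ (fun κ hκ => ?_) T hT β
      rw [mem_filter] at hκ
      exact ⟨(h𝒦 κ hκ.1).1, (h𝒦 κ hκ.1).2, hκ.2⟩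
    have hb2 : B ^ (2 * (δ / 12)) * (Z * B + (K * B) ^ ((2 : ℝ) / 3)) ≤ 3 * X := by
      have e1 : B ^ (2 * (δ / 12)) * (Z * B) = X := by
        rw [hZ, hX]
        have : B ^ (1 - δ / 6) = B ^ (2 * (δ / 12)) * B ^ (-(δ / 3)) * B := by
          nth_rewrite 4 [← Real.rpow_one B]
          rw [← Real.rpow_add hB0, ← Real.rpow_add hB0]; congr 1; ring
        rw [this]; ring
      have e2 : B ^ (2 * (δ / 12)) * (K * B) ^ ((2 : ℝ) / 3) ≤ 2 * X := by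
        have h1 : (K * B) ^ ((2 : ℝ) / 3)
            = K ^ ((1 : ℝ) / 3) * K ^ ((1 : ℝ) / 3) * B ^ ((2 : ℝ) / 3) := by
          rw [Real.mul_rpow hK0.le hB0.le, ← Real.rpow_add hK0]; norm_num
        have h2 : K ^ ((1 : ℝ) / 3) ≤ 2 * B ^ ((1 - δ) / 3) := by
          calc K ^ ((1 : ℝ) / 3) ≤ (2 * B ^ (1 - δ)) ^ ((1 : ℝ) / 3) :=
                Real.rpow_le_rpow hK0.le hKB (by norm_num)
            _ = 2 ^ ((1 : ℝ) / 3) * B ^ ((1 - δ) / 3) := by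
                rw [Real.mul_rpow (by norm_num) (by positivity), ← Real.rpow_mul hB0.le]
                congr 2; ring
            _ ≤ 2 * B ^ ((1 - δ) / 3) := by
                gcongr
                calc (2 : ℝ) ^ ((1 : ℝ) / 3) ≤ 2 ^ (1 : ℝ) :=
                      Real.rpow_le_rpow_of_exponent_le (by norm_num) (by norm_num)
                  _ = 2 := Real.rpow_one _
        rw [h1]
        calc B ^ (2 * (δ / 12)) * (K ^ ((1 : ℝ) / 3) * K ^ ((1 : ℝ) / 3) * B ^ ((2 : ℝ) / 3))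
            ≤ B ^ (2 * (δ / 12)) * (K ^ ((1 : ℝ) / 3) * (2 * B ^ ((1 - δ) / 3))
                * B ^ ((2 : ℝ) / 3)) := by gcongr
          _ = 2 * (K ^ ((1 : ℝ) / 3) * B ^ (1 - δ / 6)) := by
              have : B ^ (1 - δ / 6)
                  = B ^ (2 * (δ / 12)) * B ^ ((1 - δ) / 3) * B ^ ((2 : ℝ) / 3) := by
                rw [← Real.rpow_add hB0, ← Real.rpow_add hB0]; congr 1; ring
              rw [this]; ring
          _ = 2 * X := by rw [hX]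
      nlinarith
    have hfin : C2 * B ^ (2 * (δ / 12)) * (Z * B + (K * B) ^ ((2 : ℝ) / 3)) * E
        ≤ C2 * (3 * X) * E := by
      rw [mul_assoc C2]
      gcongr
    calc _ ≤ C2 * (3 * X) * E + C1 * (B + 2 * X) * E := by
          refine add_le_add (hb.trans hfin) (ha.trans ?_)
          gcongr
      _ ≤ (3 * C1 + 3 * C2) * (B + X) * E := by
          rw [← add_mul]
          gcongr ?_ * E
          nlinarith [mul_pos hC1 hB0, mul_pos hC2 hB0, mul_nonneg hC1.le hX0,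
            mul_nonneg hC2.le hX0]


/-- Sum over pairs (kernel of norm `> L`, `m`) with `nm (kv κ) nm(m)³ ≤ Y`; `γ m` is an arbitrary
mask of modulus at most one. -/
theorem kernel_large (H : SyFacts) (hL1 : L1Prop) (hHB : HBProp) {δ : ℝ} (hδ : 0 < δ)
    (hδ2 : δ ≤ 1 / 2) :
    ∃ C : ℝ, 0 < C ∧ ∀ B Y L : ℝ, 1 ≤ B → 1 ≤ L → Y ≤ B ^ (1 - δ) → ∀ 𝒮 : Finset (Ker × Eis),
      (∀ q ∈ 𝒮, Good q.1 ∧ q.2 ≠ 0 ∧ L < nm (kv q.1) ∧
        (nm (kv q.1) : ℝ) * (nm q.2 : ℝ) ^ 3 ≤ Y) →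
      ∀ T : Finset Eis, (∀ b ∈ T, IsPrim b ∧ Squarefree b ∧ (nm b : ℝ) ≤ B) → ∀ β : Eis → ℂ,
      ∀ γ : Eis → Eis → ℂ, (∀ m b, ‖γ m b‖ ≤ 1) →
      ∑ q ∈ 𝒮, ‖∑ b ∈ T, β b * γ q.2 b * sy (kv q.1) b‖ ^ 2
        ≤ C * Y ^ ((1 : ℝ) / 3) * (L ^ (-(1 : ℝ) / 3) + B ^ (-(δ / 12))) * B
          * ∑ b ∈ T, ‖β b‖ ^ 2 := by
  classical
  obtain ⟨C0, hC0, hLS⟩ := ls_kernel H hL1 hHB hδ hδ2
  obtain ⟨C1, hC1, hlog⟩ := log2_floor_le (ε := δ / 12) (by positivity)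
  set q0 : ℝ := (2 : ℝ) ^ (-(1 : ℝ) / 3) with hq
  have hq0 : 0 < q0 := Real.rpow_pos_of_pos (by norm_num) _
  have hq1 : q0 < 1 := Real.rpow_lt_one_of_one_lt_of_neg (by norm_num) (by norm_num)
  have hq1' : 0 < 1 - q0 := by linarith
  refine ⟨32 * C0 * ((1 - q0)⁻¹ + C1), by positivity, ?_⟩
  intro B Y L hB hL hYB 𝒮 h𝒮 T hT β γ hγ
  set E : ℝ := ∑ b ∈ T, ‖β b‖ ^ 2 with hE
  have hE0 : 0 ≤ E := sum_nonneg fun _ _ => by positivity
  have hB0 : (0 : ℝ) < B := by linarith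
  have hL0 : (0 : ℝ) < L := by linarith
  rcases 𝒮.eq_empty_or_nonempty with hem | ⟨qq, hqq⟩
  · by_cases hY : 0 ≤ Y
    · rw [hem, sum_empty]; positivity
    · -- `Y < 0`: `Y ^ (1/3)` could be anything
      rw [hem, sum_empty]
      have : 0 ≤ Y ^ ((1 : ℝ) / 3) := by
        rw [Real.rpow_def_of_neg (by linarith)]
        have h1 : 0 ≤ Real.cos (1 / 3 * Real.pi) := by
          rw [show (1 : ℝ) / 3 * Real.pi = Real.pi / 3 by ring, Real.cos_pi_div_three]; norm_num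
        positivity
      positivity
  have hY1 : 1 ≤ Y := by
    obtain ⟨hg, h0, h1, h2⟩ := h𝒮 qq hqq
    have h3 := one_le_nm' h0
    have h4 : (1 : ℝ) ≤ (nm qq.2 : ℝ) ^ 3 := one_le_pow₀ h3
    have h5 := one_le_nmkv hg
    nlinarith
  have hY0 : 0 < Y := by linarith
  set g : Ker × Eis → ℝ := fun q => ‖∑ b ∈ T, β b * γ q.2 b * sy (kv q.1) b‖ ^ 2 with hg
  have hg0 : ∀ q, 0 ≤ g q := fun q => by rw [hg]; positivity
  set rr : Ker × Eis → ℕ := fun q => Nat.log 2 ⌊(nm (kv q.1) : ℝ) / L⌋₊ with hrr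
  set R : ℕ := Nat.log 2 ⌊Y⌋₊ + 1 with hR
  have hmaps : ∀ q ∈ 𝒮, rr q ∈ range R := by
    intro q hq'
    obtain ⟨hg', h0, h1, h2⟩ := h𝒮 q hq'
    rw [mem_range, hR, Nat.lt_succ_iff]
    refine Nat.log_mono_right (Nat.floor_le_floor ?_)
    have h3 : (1 : ℝ) ≤ (nm q.2 : ℝ) ^ 3 := one_le_pow₀ (one_le_nm' h0)
    have h4 : (0 : ℝ) ≤ nm (kv q.1) := by positivity
    rw [div_le_iff₀ hL0]
    nlinarith
  have hdy : ∀ q ∈ 𝒮, (2 : ℝ) ^ rr q * L ≤ nm (kv q.1) ∧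
      (nm (kv q.1) : ℝ) ≤ 2 * ((2 : ℝ) ^ rr q * L) := by
    intro q hq'
    obtain ⟨hg', h0, h1, h2⟩ := h𝒮 q hq'
    set x : ℝ := (nm (kv q.1) : ℝ) / L with hx
    have hx1 : 1 ≤ x := by rw [hx, le_div_iff₀ hL0]; linarith
    have hx0 : 0 ≤ x := by linarith
    have hfl : 1 ≤ ⌊x⌋₊ := Nat.floor_pos.mpr hx1
    have h3 : 2 ^ rr q ≤ ⌊x⌋₊ := Nat.pow_log_le_self 2 (Nat.one_le_iff_ne_zero.mp hfl)
    have h4 : ⌊x⌋₊ < 2 ^ (rr q + 1) := Nat.lt_pow_succ_log_self (by norm_num) _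
    have h5 : (2 : ℝ) ^ rr q ≤ x :=
      le_trans (by exact_mod_cast h3) (Nat.floor_le hx0)
    have h6 : x ≤ 2 ^ (rr q + 1) := by
      have h7 : x < ⌊x⌋₊ + 1 := Nat.lt_floor_add_one x
      have h8 : (⌊x⌋₊ : ℝ) + 1 ≤ 2 ^ (rr q + 1) := by exact_mod_cast h4
      linarith
    have hxL : x * L = nm (kv q.1) := by rw [hx]; field_simp
    constructor
    · rw [← hxL]; gcongr
    · rw [← hxL]
      calc x * L ≤ 2 ^ (rr q + 1) * L := by gcongr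
        _ = _ := by rw [pow_succ]; ring
  rw [← sum_fiberwise_of_maps_to hmaps]
  have hone : ∀ r ∈ range R, ∑ q ∈ 𝒮 with rr q = r, g q
      ≤ 32 * C0 * Y ^ ((1 : ℝ) / 3) *
        (L ^ (-(1 : ℝ) / 3) * q0 ^ r + B ^ (-(δ / 6))) * B * E := by
    intro r _
    set 𝒮r := 𝒮.filter (fun q => rr q = r) with h𝒮r
    rcases 𝒮r.eq_empty_or_nonempty with hem | ⟨q1, hq1m⟩
    · rw [hem, sum_empty]; positivity
    set P : ℝ := (2 : ℝ) ^ r * L with hP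
    have hP1 : 1 ≤ P := by
      have : (1 : ℝ) ≤ 2 ^ r := one_le_pow₀ (by norm_num)
      rw [hP]; nlinarith
    have hP0 : 0 < P := by linarith
    have hPY : P ≤ Y := by
      rw [h𝒮r, mem_filter] at hq1m
      obtain ⟨hg', h0, h1, h2⟩ := h𝒮 q1 hq1m.1
      have h3 := (hdy q1 hq1m.1).1
      rw [hq1m.2] at h3
      have h4 : (1 : ℝ) ≤ (nm q1.2 : ℝ) ^ 3 := one_le_pow₀ (one_le_nm' h0)
      have h5 : (0 : ℝ) ≤ nm (kv q1.1) := by positivity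
      rw [hP]; nlinarith
    have hK : 2 * P ≤ 2 * B ^ (1 - δ) := by linarith
    set V : ℝ := (Y / P) ^ ((1 : ℝ) / 3) with hV
    have hV0 : 0 ≤ V := by positivity
    have hsub : 𝒮r ⊆ (𝒮r.image Prod.fst) ×ˢ nz V := by
      intro q hq'
      have hq'' := hq'
      rw [h𝒮r, mem_filter] at hq''
      obtain ⟨hg', h0, h1, h2⟩ := h𝒮 q hq''.1
      rw [mem_product, mem_nz]
      refine ⟨mem_image_of_mem _ hq', h0, ?_⟩
      have h3 := (hdy q hq''.1).1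
      rw [hq''.2] at h3
      have h4 : (nm q.2 : ℝ) ^ 3 ≤ Y / P := by
        rw [le_div_iff₀ hP0]
        have h5 : (0 : ℝ) ≤ (nm q.2 : ℝ) ^ 3 := by positivity
        calc (nm q.2 : ℝ) ^ 3 * P ≤ (nm q.2 : ℝ) ^ 3 * nm (kv q.1) := by gcongr
          _ ≤ Y := by linarith [mul_comm ((nm q.2 : ℝ) ^ 3) (nm (kv q.1) : ℝ)]
      have h6 : (nm q.2 : ℝ) = ((nm q.2 : ℝ) ^ 3) ^ ((1 : ℝ) / 3) := by
        rw [← Real.rpow_natCast, ← Real.rpow_mul (by positivity)]; norm_num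
      rw [h6, hV]
      exact Real.rpow_le_rpow (by positivity) h4 (by norm_num)
    have hstep : ∑ q ∈ 𝒮r, g q = ∑ m ∈ nz V, ∑ κ ∈ (𝒮r.image Prod.fst) with (κ, m) ∈ 𝒮r,
        g (κ, m) := by
      have h1 : ∑ q ∈ 𝒮r, g q = ∑ q ∈ (𝒮r.image Prod.fst) ×ˢ nz V,
          if q ∈ 𝒮r then g q else 0 := by
        rw [← sum_filter]
        refine sum_congr ?_ fun _ _ => rfl
        ext q
        exact ⟨fun h => mem_filter.mpr ⟨hsub h, h⟩, fun h => (mem_filter.mp h).2⟩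
      rw [h1, sum_product_right]
      refine sum_congr rfl fun m _ => ?_
      rw [sum_filter]
    have hinner : ∀ m ∈ nz V, ∑ κ ∈ (𝒮r.image Prod.fst) with (κ, m) ∈ 𝒮r, g (κ, m)
        ≤ C0 * (B + (2 * P) ^ ((1 : ℝ) / 3) * B ^ (1 - δ / 6)) * E := by
      intro m _
      have h1 := hLS B (2 * P) hB (by linarith) hK
        ((𝒮r.image Prod.fst).filter (fun κ => (κ, m) ∈ 𝒮r)) (fun κ hκ => by
          rw [mem_filter] at hκ
          have h2 := hκ.2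
          rw [h𝒮r, mem_filter] at h2
          obtain ⟨hg', h0, h3, h4⟩ := h𝒮 _ h2.1
          have h5 := (hdy _ h2.1).2
          rw [h2.2] at h5
          exact ⟨hg', h5⟩) T hT (fun b => β b * γ m b)
      refine h1.trans ?_
      have h2 : ∑ b ∈ T, ‖β b * γ m b‖ ^ 2 ≤ E := by
        rw [hE]
        refine sum_le_sum fun b _ => ?_
        rw [norm_mul, mul_pow]
        have h3 : ‖γ m b‖ ^ 2 ≤ 1 := pow_le_one₀ (norm_nonneg _) (hγ m b)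
        have h4 : 0 ≤ ‖β b‖ ^ 2 := by positivity
        nlinarith
      gcongr
    rw [hstep]
    have hcard := card_nz_le16 hV0
    have hVe : V = Y ^ ((1 : ℝ) / 3) * P ^ (-(1 : ℝ) / 3) := by
      rw [hV, Real.div_rpow hY0.le hP0.le, div_eq_mul_inv, ← Real.rpow_neg hP0.le]; norm_num
    have h2P : (2 * P) ^ ((1 : ℝ) / 3) ≤ 2 * P ^ ((1 : ℝ) / 3) := by
      rw [Real.mul_rpow (by norm_num) hP0.le]
      gcongr
      calc (2 : ℝ) ^ ((1 : ℝ) / 3) ≤ 2 ^ (1 : ℝ) :=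
            Real.rpow_le_rpow_of_exponent_le (by norm_num) (by norm_num)
        _ = 2 := Real.rpow_one _
    have hPq : P ^ (-(1 : ℝ) / 3) = L ^ (-(1 : ℝ) / 3) * q0 ^ r := by
      rw [hP, Real.mul_rpow (by positivity) hL0.le, hq, ← Real.rpow_natCast, ← Real.rpow_natCast,
        ← Real.rpow_mul (by norm_num), ← Real.rpow_mul (by norm_num),
        mul_comm (r : ℝ) (-1 / 3)]
      ring
    calc ∑ m ∈ nz V, ∑ κ ∈ (𝒮r.image Prod.fst) with (κ, m) ∈ 𝒮r, g (κ, m)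
        ≤ ∑ m ∈ nz V, C0 * (B + (2 * P) ^ ((1 : ℝ) / 3) * B ^ (1 - δ / 6)) * E :=
          sum_le_sum hinner
      _ = #(nz V) * (C0 * (B + (2 * P) ^ ((1 : ℝ) / 3) * B ^ (1 - δ / 6)) * E) := by
          rw [sum_const, nsmul_eq_mul]
      _ ≤ (16 * V) * (C0 * (B + (2 * P ^ ((1 : ℝ) / 3)) * B ^ (1 - δ / 6)) * E) := by
          gcongr
      _ = 16 * C0 * Y ^ ((1 : ℝ) / 3) * (P ^ (-(1 : ℝ) / 3) * B
            + 2 * (P ^ (-(1 : ℝ) / 3) * P ^ ((1 : ℝ) / 3)) * B ^ (1 - δ / 6)) * E := by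
          rw [hVe]; ring
      _ = 16 * C0 * Y ^ ((1 : ℝ) / 3) * (P ^ (-(1 : ℝ) / 3)
            + 2 * B ^ (-(δ / 6))) * B * E := by
          have e1 : P ^ (-(1 : ℝ) / 3) * P ^ ((1 : ℝ) / 3) = 1 := by
            rw [← Real.rpow_add hP0]; norm_num
          have e2 : B ^ (1 - δ / 6) = B ^ (-(δ / 6)) * B := by
            nth_rewrite 3 [← Real.rpow_one B]
            rw [← Real.rpow_add hB0]; congr 1; ring
          rw [e1, e2]; ring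
      _ ≤ 32 * C0 * Y ^ ((1 : ℝ) / 3) *
          (L ^ (-(1 : ℝ) / 3) * q0 ^ r + B ^ (-(δ / 6))) * B * E := by
          rw [hPq]
          have h1 : 0 ≤ L ^ (-(1 : ℝ) / 3) * q0 ^ r := by positivity
          have h2 : 0 ≤ B ^ (-(δ / 6)) := by positivity
          have h3 : 16 * (L ^ (-(1 : ℝ) / 3) * q0 ^ r + 2 * B ^ (-(δ / 6)))
              ≤ 32 * (L ^ (-(1 : ℝ) / 3) * q0 ^ r + B ^ (-(δ / 6))) := by linarith
          have h4 : 0 ≤ C0 * Y ^ ((1 : ℝ) / 3) * B * E := by positivity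
          nlinarith [mul_le_mul_of_nonneg_right h3 h4]
  calc ∑ r ∈ range R, ∑ q ∈ 𝒮 with rr q = r, g q
      ≤ ∑ r ∈ range R, 32 * C0 * Y ^ ((1 : ℝ) / 3) *
        (L ^ (-(1 : ℝ) / 3) * q0 ^ r + B ^ (-(δ / 6))) * B * E := sum_le_sum hone
    _ = 32 * C0 * Y ^ ((1 : ℝ) / 3) * (L ^ (-(1 : ℝ) / 3) * ∑ r ∈ range R, q0 ^ r
          + R * B ^ (-(δ / 6))) * B * E := by
        rw [← sum_mul, ← sum_mul, ← mul_sum, sum_add_distrib, ← mul_sum, sum_const,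
          nsmul_eq_mul, card_range]
    _ ≤ 32 * C0 * Y ^ ((1 : ℝ) / 3) * (L ^ (-(1 : ℝ) / 3) * (1 - q0)⁻¹
          + (C1 * B ^ (δ / 12)) * B ^ (-(δ / 6))) * B * E := by
        have h1 : ∑ r ∈ range R, q0 ^ r ≤ (1 - q0)⁻¹ :=
          (Summable.sum_le_tsum _ (fun _ _ => by positivity)
            (summable_geometric_of_lt_one hq0.le hq1)).trans
            (tsum_geometric_of_lt_one hq0.le hq1).le
        have h2 : (R : ℝ) ≤ C1 * B ^ (δ / 12) := by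
          have h3 := hlog Y hY1
          have h4 : Y ^ (δ / 12) ≤ B ^ (δ / 12) := by
            refine Real.rpow_le_rpow hY0.le (hYB.trans ?_) (by positivity)
            calc B ^ (1 - δ) ≤ B ^ (1 : ℝ) :=
                  Real.rpow_le_rpow_of_exponent_le hB (by linarith)
              _ = B := Real.rpow_one _
          rw [hR]
          push_cast
          exact h3.trans (by gcongr)
        gcongr
    _ ≤ 32 * C0 * ((1 - q0)⁻¹ + C1) * Y ^ ((1 : ℝ) / 3) *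
          (L ^ (-(1 : ℝ) / 3) + B ^ (-(δ / 12))) * B * E := by
        have e1 : (C1 * B ^ (δ / 12)) * B ^ (-(δ / 6)) = C1 * B ^ (-(δ / 12)) := by
          rw [mul_assoc, ← Real.rpow_add hB0]; congr 2; ring
        rw [e1]
        have h1 : 0 ≤ L ^ (-(1 : ℝ) / 3) := by positivity
        have h2 : 0 ≤ B ^ (-(δ / 12)) := by positivity
        have h3 : 0 ≤ (1 - q0)⁻¹ := by positivity
        have h5 : L ^ (-(1 : ℝ) / 3) * (1 - q0)⁻¹ + C1 * B ^ (-(δ / 12))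
            ≤ ((1 - q0)⁻¹ + C1) * (L ^ (-(1 : ℝ) / 3) + B ^ (-(δ / 12))) := by
          nlinarith [mul_nonneg hC1.le h1, mul_nonneg h3 h2]
        calc 32 * C0 * Y ^ ((1 : ℝ) / 3) * (L ^ (-(1 : ℝ) / 3) * (1 - q0)⁻¹
              + C1 * B ^ (-(δ / 12))) * B * E
            ≤ 32 * C0 * Y ^ ((1 : ℝ) / 3) * (((1 - q0)⁻¹ + C1) *
              (L ^ (-(1 : ℝ) / 3) + B ^ (-(δ / 12)))) * B * E := by gcongr
          _ = _ := by ring

/-! ### from kernels to all `h` -/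

/-- A choice of the kernel and cofactor of `h ≠ 0`. -/
lemma exists_ker (h : Eis) : ∃ q : Ker × Eis, h ≠ 0 →
    Good q.1 ∧ q.2 ≠ 0 ∧ h = kv q.1 * q.2 ^ 3 ∧
      ((¬ ∃ t, h = t ^ 3) → ¬ ∃ t, kv q.1 = t ^ 3) := by
  by_cases hh : h = 0
  · exact ⟨(((0, 0), (1, 1)), 1), fun h' => absurd hh h'⟩
  · obtain ⟨i, j, k1, k2, m, hd⟩ := exists_isCubDec hh
    refine ⟨(((i, j), (k1, k2)), m), fun _ => ⟨⟨hd.hi, hd.hj, hd.prim1, hd.prim2, hd.sqf1,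
      hd.sqf2, hd.cop⟩, hd.ne, ?_, ?_⟩⟩
    · rw [hd.eq]; rfl
    · rintro hnc ⟨t, ht⟩
      apply hnc
      refine ⟨t * m, ?_⟩
      rw [hd.eq, mul_pow, ← ht]
      rfl

/-- kernel and cofactor -/
def kc (h : Eis) : Ker × Eis := (exists_ker h).choose

lemma kc_spec {h : Eis} (hh : h ≠ 0) : Good (kc h).1 ∧ (kc h).2 ≠ 0 ∧
    h = kv (kc h).1 * (kc h).2 ^ 3 ∧ ((¬ ∃ t, h = t ^ 3) → ¬ ∃ t, kv (kc h).1 = t ^ 3) :=
  (exists_ker h).choose_spec hh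

lemma kc_nm {h : Eis} (hh : h ≠ 0) :
    (nm (kv (kc h).1) : ℝ) * (nm (kc h).2 : ℝ) ^ 3 = nm h := by
  have h1 := (kc_spec hh).2.2.1
  have h2 : nm h = nm (kv (kc h).1) * nm (kc h).2 ^ 3 := by
    conv_lhs => rw [h1]
    rw [nm_mul, nm_pow]
  rw [h2]; push_cast; ring

lemma sy_kc (H : SyFacts) {h b : Eis} (hh : h ≠ 0) (hb : IsPrim b) :
    sy h b = (open Classical in if IsCoprime (kc h).2 b then (1 : ℂ) else 0) *
      sy (kv (kc h).1) b := by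
  classical
  have h1 := (kc_spec hh).2.2.1
  have h2 : sy h b = sy (kv (kc h).1) b * sy ((kc h).2 ^ 3) b := by
    conv_lhs => rw [h1]
    rw [H.mul_left _ _ _ hb]
  rw [h2, sy_pow3 H _ _ hb]
  split_ifs with hc
  · rw [H.cube _ _ hb hc]; ring
  · rw [(H.eq_zero _ _ hb).mpr hc]; ring

/-- **The non-cube dual sum.** `V` bounds the sums for small non-cube `h`, `R` bounds the mass of
`β` on `b` not coprime to a given `m`. -/
theorem noncube_bound (H : SyFacts) (hL1 : L1Prop) (hHB : HBProp) {δ : ℝ} (hδ : 0 < δ)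
    (hδ2 : δ ≤ 1 / 2) :
    ∃ C : ℝ, 0 < C ∧ ∀ B Y L V R : ℝ, 1 ≤ B → 1 ≤ L → Y ≤ B ^ (1 - δ) → 0 ≤ V → 0 ≤ R →
      ∀ T : Finset Eis, (∀ b ∈ T, IsPrim b ∧ Squarefree b ∧ (nm b : ℝ) ≤ B) → ∀ β : Eis → ℂ,
      (∀ h : Eis, h ≠ 0 → (¬ ∃ t, h = t ^ 3) → (nm h : ℝ) ≤ L →
        ‖∑ b ∈ T, β b * sy h b‖ ≤ V) →
      (∀ m : Eis, m ≠ 0 → (nm m : ℝ) ≤ Y →
        ∑ b ∈ T, (open Classical in if IsCoprime m b then (0 : ℝ) else ‖β b‖) ≤ R) →
      ∀ S : Finset Eis, (∀ h ∈ S, h ≠ 0 ∧ (¬ ∃ t, h = t ^ 3) ∧ (nm h : ℝ) ≤ Y) →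
      ∑ h ∈ S, ‖∑ b ∈ T, β b * sy h b‖ ^ 2
        ≤ C * Y ^ ((1 : ℝ) / 3) * (L * (V + R) ^ 2 +
          (L ^ (-(1 : ℝ) / 3) + B ^ (-(δ / 12))) * B * ∑ b ∈ T, ‖β b‖ ^ 2) := by
  classical
  obtain ⟨C0, hC0, hK⟩ := kernel_large H hL1 hHB hδ hδ2
  refine ⟨256 + C0, by positivity, ?_⟩
  intro B Y L V R hB hL hYB hV hR T hT β hV1 hR1 S hS
  set E : ℝ := ∑ b ∈ T, ‖β b‖ ^ 2 with hE
  have hE0 : 0 ≤ E := sum_nonneg fun _ _ => by positivity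
  have hB0 : (0 : ℝ) < B := by linarith
  have hL0 : (0 : ℝ) < L := by linarith
  rcases S.eq_empty_or_nonempty with hem | ⟨hh0, hh0m⟩
  · have hY0 : 0 ≤ Y ^ ((1 : ℝ) / 3) := by
      by_cases hY : 0 ≤ Y
      · positivity
      · rw [Real.rpow_def_of_neg (by linarith)]
        have h1 : 0 ≤ Real.cos (1 / 3 * Real.pi) := by
          rw [show (1 : ℝ) / 3 * Real.pi = Real.pi / 3 by ring, Real.cos_pi_div_three]; norm_num
        positivity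
    rw [hem, sum_empty]; positivity
  have hY1 : 1 ≤ Y := by
    obtain ⟨h0, -, h1⟩ := hS hh0 hh0m
    exact (one_le_nm' h0).trans h1
  have hY0 : 0 < Y := by linarith
  set γ : Eis → Eis → ℂ := fun m b => if IsCoprime m b then 1 else 0 with hγ
  have hγ1 : ∀ m b, ‖γ m b‖ ≤ 1 := by
    intro m b
    rw [hγ]; dsimp only
    split_ifs <;> simp
  -- rewrite each sum
  have hrew : ∀ h ∈ S, ∑ b ∈ T, β b * sy h b
      = ∑ b ∈ T, β b * γ (kc h).2 b * sy (kv (kc h).1) b := by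
    intro h hhS
    refine sum_congr rfl fun b hb => ?_
    rw [sy_kc H (hS h hhS).1 (hT b hb).1, hγ, ← mul_assoc]
  have hsplit : ∑ h ∈ S, ‖∑ b ∈ T, β b * sy h b‖ ^ 2
      = ∑ h ∈ S with (nm (kv (kc h).1) : ℝ) ≤ L, ‖∑ b ∈ T, β b * sy h b‖ ^ 2
        + ∑ h ∈ S with ¬ (nm (kv (kc h).1) : ℝ) ≤ L, ‖∑ b ∈ T, β b * sy h b‖ ^ 2 :=
    (sum_filter_add_sum_filter_not _ _ _).symm
  have hinj : Set.InjOn kc (S : Set Eis) := by
    intro a ha b hb hab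
    have h1 := (kc_spec (hS a ha).1).2.2.1
    have h2 := (kc_spec (hS b hb).1).2.2.1
    rw [h1, h2, hab]
  -- large kernels
  have hlarge : ∑ h ∈ S with ¬ (nm (kv (kc h).1) : ℝ) ≤ L, ‖∑ b ∈ T, β b * sy h b‖ ^ 2
      ≤ C0 * Y ^ ((1 : ℝ) / 3) * (L ^ (-(1 : ℝ) / 3) + B ^ (-(δ / 12))) * B * E := by
    set S1 := S.filter (fun h => ¬ (nm (kv (kc h).1) : ℝ) ≤ L) with hS1
    have h1 := hK B Y L hB hL hYB (S1.image kc) (fun q hq => by
      rw [mem_image] at hq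
      obtain ⟨h, hh, rfl⟩ := hq
      rw [hS1, mem_filter, not_le] at hh
      obtain ⟨h0, h1, h2⟩ := hS h hh.1
      obtain ⟨s1, s2, s3, s4⟩ := kc_spec h0
      exact ⟨s1, s2, hh.2, by rw [kc_nm h0]; exact h2⟩) T hT β γ hγ1
    rw [sum_image (fun a ha b hb hab => hinj (mem_filter.mp ha).1 (mem_filter.mp hb).1 hab)] at h1
    refine le_trans (le_of_eq ?_) h1
    refine sum_congr rfl fun h hh => ?_
    rw [hrew h (mem_filter.mp hh).1]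
  -- small kernels
  have hsmall : ∑ h ∈ S with (nm (kv (kc h).1) : ℝ) ≤ L, ‖∑ b ∈ T, β b * sy h b‖ ^ 2
      ≤ 256 * (L * Y ^ ((1 : ℝ) / 3)) * (V + R) ^ 2 := by
    set S1 := S.filter (fun h => (nm (kv (kc h).1) : ℝ) ≤ L) with hS1
    have hterm : ∀ h ∈ S1, ‖∑ b ∈ T, β b * sy h b‖ ^ 2 ≤ (V + R) ^ 2 := by
      intro h hh
      rw [hS1, mem_filter] at hh
      obtain ⟨h0, h1, h2⟩ := hS h hh.1
      obtain ⟨s1, s2, s3, s4⟩ := kc_spec h0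
      have hm : (nm (kc h).2 : ℝ) ≤ Y := by
        have e1 := kc_nm h0
        have e2 := one_le_nmkv s1
        have e3 := one_le_nm' s2
        have e4 : (nm (kc h).2 : ℝ) ≤ (nm (kc h).2 : ℝ) ^ 3 := by nlinarith [sq_nonneg ((nm (kc h).2 : ℝ) - 1)]
        have e5 : (nm (kc h).2 : ℝ) ^ 3 ≤ nm (kv (kc h).1) * (nm (kc h).2 : ℝ) ^ 3 := by
          have : (0 : ℝ) ≤ (nm (kc h).2 : ℝ) ^ 3 := by positivity
          nlinarith
        linarith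
      have hv := hV1 (kv (kc h).1) (kv_ne_zero s1) (s4 h1) hh.2
      have hr := hR1 (kc h).2 s2 hm
      have key : ‖∑ b ∈ T, β b * sy h b‖ ≤ V + R := by
        have e1 : ∑ b ∈ T, β b * sy h b = ∑ b ∈ T, β b * sy (kv (kc h).1) b
            - ∑ b ∈ T, β b * (if IsCoprime (kc h).2 b then 0 else 1) * sy (kv (kc h).1) b := by
          rw [hrew h hh.1, ← sum_sub_distrib]
          refine sum_congr rfl fun b _ => ?_
          rw [hγ]; dsimp only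
          split_ifs <;> ring
        rw [e1]
        refine (norm_sub_le _ _).trans (add_le_add hv ?_)
        refine (norm_sum_le _ _).trans (le_trans (sum_le_sum fun b hb => ?_) hr)
        have hsy := norm_sy_le H (kv (kc h).1) b (hT b hb).1
        rw [norm_mul, norm_mul]
        split_ifs
        · simp
        · rw [norm_one, mul_one]
          have := norm_nonneg (β b)
          nlinarith
      have h0' : 0 ≤ ‖∑ b ∈ T, β b * sy h b‖ := norm_nonneg _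
      gcongr
    have hcard : (#S1 : ℝ) ≤ 256 * (L * Y ^ ((1 : ℝ) / 3)) := by
      have hsub : S1.image (fun h => (kv (kc h).1, (kc h).2)) ⊆ nz L ×ˢ nz (Y ^ ((1 : ℝ) / 3)) := by
        intro q hq
        rw [mem_image] at hq
        obtain ⟨h, hh, rfl⟩ := hq
        rw [hS1, mem_filter] at hh
        obtain ⟨h0, h1, h2⟩ := hS h hh.1
        obtain ⟨s1, s2, s3, s4⟩ := kc_spec h0
        rw [mem_product, mem_nz, mem_nz]
        refine ⟨⟨kv_ne_zero s1, hh.2⟩, s2, ?_⟩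
        have e1 := kc_nm h0
        have e2 := one_le_nmkv s1
        have e5 : (nm (kc h).2 : ℝ) ^ 3 ≤ Y := by
          have : (0 : ℝ) ≤ (nm (kc h).2 : ℝ) ^ 3 := by positivity
          nlinarith
        have h6 : (nm (kc h).2 : ℝ) = ((nm (kc h).2 : ℝ) ^ 3) ^ ((1 : ℝ) / 3) := by
          rw [← Real.rpow_natCast, ← Real.rpow_mul (by positivity)]; norm_num
        show (nm (kc h).2 : ℝ) ≤ _
        rw [h6]
        exact Real.rpow_le_rpow (by positivity) e5 (by norm_num)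
      have hinj' : Set.InjOn (fun h => (kv (kc h).1, (kc h).2)) (S1 : Set Eis) := by
        intro a ha b hb hab
        have ha' := (mem_filter.mp (by simpa [hS1] using ha : a ∈ S1)).1
        have hb' := (mem_filter.mp (by simpa [hS1] using hb : b ∈ S1)).1
        have h1 := (kc_spec (hS a ha').1).2.2.1
        have h2 := (kc_spec (hS b hb').1).2.2.1
        simp only [Prod.mk.injEq] at hab
        rw [h1, h2, hab.1, hab.2]
      have h1 : #S1 ≤ #(nz L ×ˢ nz (Y ^ ((1 : ℝ) / 3))) := by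
        rw [← card_image_of_injOn hinj']
        exact card_le_card hsub
      rw [card_product] at h1
      have h2 : (#S1 : ℝ) ≤ (#(nz L) : ℝ) * #(nz (Y ^ ((1 : ℝ) / 3))) := by exact_mod_cast h1
      have h3 := card_nz_le16 hL0.le
      have h4 := card_nz_le16 (X := Y ^ ((1 : ℝ) / 3)) (by positivity)
      calc (#S1 : ℝ) ≤ (#(nz L) : ℝ) * #(nz (Y ^ ((1 : ℝ) / 3))) := h2
        _ ≤ (16 * L) * (16 * Y ^ ((1 : ℝ) / 3)) := by gcongr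
        _ = _ := by ring
    calc ∑ h ∈ S1, ‖∑ b ∈ T, β b * sy h b‖ ^ 2 ≤ ∑ h ∈ S1, (V + R) ^ 2 := sum_le_sum hterm
      _ = #S1 * (V + R) ^ 2 := by rw [sum_const, nsmul_eq_mul]
      _ ≤ _ := by gcongr
  rw [hsplit]
  have hYp : 0 ≤ Y ^ ((1 : ℝ) / 3) := by positivity
  have hq1 : 0 ≤ L * (V + R) ^ 2 := by positivity
  have hq2 : 0 ≤ (L ^ (-(1 : ℝ) / 3) + B ^ (-(δ / 12))) * B * E := by positivity
  calc _ ≤ 256 * (L * Y ^ ((1 : ℝ) / 3)) * (V + R) ^ 2 +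
        C0 * Y ^ ((1 : ℝ) / 3) * (L ^ (-(1 : ℝ) / 3) + B ^ (-(δ / 12))) * B * E :=
        add_le_add hsmall hlarge
    _ = Y ^ ((1 : ℝ) / 3) * (256 * (L * (V + R) ^ 2) +
        C0 * ((L ^ (-(1 : ℝ) / 3) + B ^ (-(δ / 12))) * B * E)) := by ring
    _ ≤ Y ^ ((1 : ℝ) / 3) * ((256 + C0) * (L * (V + R) ^ 2) +
        (256 + C0) * ((L ^ (-(1 : ℝ) / 3) + B ^ (-(δ / 12))) * B * E)) := by
        gcongr
        · linarith
        · linarith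
    _ = _ := by ring

end Crest.Agent.R012.NonCube52
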