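import Crest.Agent.R012.Eng_52

/-!
# Row 12, items TN / TNX: dual sums over `h` with the weight `omx (K / nm h)`

* `all_om`       : all `h ≠ 0`, `K ≤ B^(1-2δ)`: `≤ C K^(1/3) B E`
* `all_om_eps`   : all `h ≠ 0`, any `K > 0`, eps-loss
* `noncube_omN`  : non-cubes, `K ≤ B^(1-2δ)`
* `noncube_omC`  : non-cubes, `K ≤ B^(1+3η/5)`, critical kernels kept
-/

set_option autoImplicit false
set_option linter.unusedVariables false
set_option linter.unusedSectionVars false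

noncomputable section

namespace Crest.Agent.R012.NonCube52

open Finset Eis LS448 CharSum852 Char766

open Classical in
/-- coprimality mask -/
def cop (m b : Eis) : ℂ := if IsCoprime m b then 1 else 0

lemma norm_cop_le (m b : Eis) : ‖cop m b‖ ≤ 1 := by
  unfold cop; split_ifs <;> simp

lemma norm_one_sub_cop_le (m b : Eis) : ‖1 - cop m b‖ ≤ 1 := by
  unfold cop; split_ifs <;> simp

lemma sum_mask_le {T : Finset Eis} {β : Eis → ℂ} {g : Eis → ℂ} (hg : ∀ b, ‖g b‖ ≤ 1) :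
    ∑ b ∈ T, ‖β b * g b‖ ^ 2 ≤ ∑ b ∈ T, ‖β b‖ ^ 2 := by
  refine sum_le_sum fun b _ => ?_
  rw [norm_mul, mul_pow]
  have h3 : ‖g b‖ ^ 2 ≤ 1 := pow_le_one₀ (norm_nonneg _) (hg b)
  have h4 : 0 ≤ ‖β b‖ ^ 2 := by positivity
  nlinarith

lemma kc_injOn (S : Finset Eis) (hS : ∀ h ∈ S, h ≠ 0) : Set.InjOn kc (S : Set Eis) := by
  intro a ha b hb hab
  have h1 := (kc_spec (hS a ha)).2.2.1
  have h2 := (kc_spec (hS b hb)).2.2.1
  rw [h1, h2, hab]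

lemma sum_sy_kc (H : SyFacts) {T : Finset Eis} (hT : ∀ b ∈ T, IsPrim b) (β : Eis → ℂ) {h : Eis}
    (hh : h ≠ 0) : ∑ b ∈ T, β b * sy h b = ∑ b ∈ T, β b * cop (kc h).2 b * sy (kv (kc h).1) b := by
  refine sum_congr rfl fun b hb => ?_
  rw [sy_kc H hh (hT b hb), ← mul_assoc]
  rfl

/-- reduction to pairs (kernel, cofactor) -/
lemma eng_pull (H : SyFacts) {T : Finset Eis} (hT : ∀ b ∈ T, IsPrim b) (β : Eis → ℂ) (K : ℝ)
    (S : Finset Eis) (hS : ∀ h ∈ S, h ≠ 0) :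
    ∑ h ∈ S, omx (K / nm h) * ‖∑ b ∈ T, β b * sy h b‖ ^ 2
      = ∑ q ∈ S.image kc, omx (K / (nm (kv q.1) * (nm q.2 : ℝ) ^ 3)) *
        ‖∑ b ∈ T, β b * cop q.2 b * sy (kv q.1) b‖ ^ 2 := by
  classical
  rw [sum_image (kc_injOn S hS)]
  refine sum_congr rfl fun h hh => ?_
  rw [sum_sy_kc H hT β (hS h hh), kc_nm (hS h hh)]

lemma image_kc_spec {S : Finset Eis} (hS : ∀ h ∈ S, h ≠ 0) {q : Ker × Eis} (hq : q ∈ S.image kc) :
    Good q.1 ∧ q.2 ≠ 0 ∧ ∃ h ∈ S, kc h = q := by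
  classical
  rw [mem_image] at hq
  obtain ⟨h, hh, rfl⟩ := hq
  exact ⟨(kc_spec (hS h hh)).1, (kc_spec (hS h hh)).2.1, h, hh, rfl⟩

/-- all `h ≠ 0`, eps-loss. -/
theorem all_om_eps (H : SyFacts) (hL1 : L1Prop) (hHB : HBProp) {ε : ℝ} (hε : 0 < ε)
    (hε2 : ε ≤ 1 / 12) :
    ∃ C : ℝ, 0 < C ∧ ∀ B K : ℝ, 1 ≤ B → 0 < K →
      ∀ T : Finset Eis, (∀ b ∈ T, IsPrim b ∧ Squarefree b ∧ (nm b : ℝ) ≤ B) → ∀ β : Eis → ℂ,
      ∀ S : Finset Eis, (∀ h ∈ S, h ≠ 0) →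
      ∑ h ∈ S, omx (K / nm h) * ‖∑ b ∈ T, β b * sy h b‖ ^ 2
        ≤ C * (((1 + K) * B) ^ (2 * ε) *
          (K + B * K ^ ((1 : ℝ) / 3) + (K * B) ^ ((2 : ℝ) / 3))) * ∑ b ∈ T, ‖β b‖ ^ 2 := by
  classical
  obtain ⟨C, hC, h⟩ := eng_eps H hL1 hHB hε hε2
  refine ⟨C, hC, ?_⟩
  intro B K hB hK T hT β S hS
  rw [eng_pull H (fun b hb => (hT b hb).1) β K S hS]
  exact h B K _ hB hK (sum_nonneg fun _ _ => by positivity) T hT β cop
    (fun m => sum_mask_le (norm_cop_le m)) _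
    (fun q hq => ⟨(image_kc_spec hS hq).1, (image_kc_spec hS hq).2.1⟩)

/-- all `h ≠ 0`, `K ≤ B^(1-2δ)`, no loss. -/
theorem all_om (H : SyFacts) (hL1 : L1Prop) (hHB : HBProp) {δ : ℝ} (hδ : 0 < δ)
    (hδ2 : δ ≤ 1 / 2) :
    ∃ C : ℝ, 0 < C ∧ ∀ B K : ℝ, 1 ≤ B → 0 < K → K ≤ B ^ (1 - 2 * δ) →
      ∀ T : Finset Eis, (∀ b ∈ T, IsPrim b ∧ Squarefree b ∧ (nm b : ℝ) ≤ B) → ∀ β : Eis → ℂ,
      ∀ S : Finset Eis, (∀ h ∈ S, h ≠ 0) →
      ∑ h ∈ S, omx (K / nm h) * ‖∑ b ∈ T, β b * sy h b‖ ^ 2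
        ≤ C * K ^ ((1 : ℝ) / 3) * B * ∑ b ∈ T, ‖β b‖ ^ 2 := by
  classical
  obtain ⟨C1, hC1, h1⟩ := eng_mid H hL1 hHB hδ hδ2
  obtain ⟨C2, hC2, h2⟩ := eng_tailN H hL1 hHB hδ hδ2
  refine ⟨2 * C1 + C2, by positivity, ?_⟩
  intro B K hB hK hKB T hT β S hS
  have hB0 : (0 : ℝ) < B := by linarith
  set E : ℝ := ∑ b ∈ T, ‖β b‖ ^ 2 with hE
  have hE0 : 0 ≤ E := sum_nonneg fun _ _ => by positivity
  rw [← sum_filter_add_sum_filter_not S (fun h => (nm (kv (kc h).1) : ℝ) ≤ B ^ (1 - δ))]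
  set S1 := S.filter (fun h => (nm (kv (kc h).1) : ℝ) ≤ B ^ (1 - δ)) with hS1
  set S2 := S.filter (fun h => ¬ (nm (kv (kc h).1) : ℝ) ≤ B ^ (1 - δ)) with hS2
  have hS1' : ∀ h ∈ S1, h ≠ 0 := fun h hh => hS h (mem_filter.mp hh).1
  have hS2' : ∀ h ∈ S2, h ≠ 0 := fun h hh => hS h (mem_filter.mp hh).1
  rw [eng_pull H (fun b hb => (hT b hb).1) β K S1 hS1',
    eng_pull H (fun b hb => (hT b hb).1) β K S2 hS2']
  have a1 := h1 B K 1 E hB hK le_rfl hE0 T hT β cop (fun m => sum_mask_le (norm_cop_le m))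
    (S1.image kc) (fun q hq => by
      obtain ⟨g1, g2, h, hh, rfl⟩ := image_kc_spec hS1' hq
      exact ⟨g1, g2, one_le_nmkv g1, (mem_filter.mp hh).2⟩)
  have a2 := h2 B K E hB hK hKB hE0 T hT β cop (fun m => sum_mask_le (norm_cop_le m))
    (S2.image kc) (fun q hq => by
      obtain ⟨g1, g2, h, hh, rfl⟩ := image_kc_spec hS2' hq
      exact ⟨g1, g2, (not_le.mp (mem_filter.mp hh).2).le⟩)
  have hBδ : B ^ (-(δ / 12)) ≤ 1 := Real.rpow_le_one_of_one_le_of_nonpos hB (by linarith)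
  have hB2 : B ^ (1 - δ / 2) ≤ B := by
    calc B ^ (1 - δ / 2) ≤ B ^ (1 : ℝ) := Real.rpow_le_rpow_of_exponent_le hB (by linarith)
      _ = B := Real.rpow_one _
  rw [Real.one_rpow] at a1
  calc _ ≤ C1 * (K ^ ((1 : ℝ) / 3) * (1 + B ^ (-(δ / 12))) * B) * E +
        C2 * (K ^ ((1 : ℝ) / 3) * B ^ (1 - δ / 2)) * E := add_le_add a1 a2
    _ ≤ C1 * (K ^ ((1 : ℝ) / 3) * (1 + 1) * B) * E + C2 * (K ^ ((1 : ℝ) / 3) * B) * E := by
        gcongr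
    _ = _ := by ring

open Classical in
/-- nonzero noncubes of norm `≤ L` -/
def ncs (L : ℝ) : Finset Eis := (nz L).filter (fun h => ¬ ∃ t, h = t ^ 3)

lemma sq_norm_add_le (a b : ℂ) : ‖a + b‖ ^ 2 ≤ 2 * ‖a‖ ^ 2 + 2 * ‖b‖ ^ 2 := by
  have h1 := norm_add_le a b
  have h2 : ‖a + b‖ ^ 2 ≤ (‖a‖ + ‖b‖) ^ 2 := by gcongr
  nlinarith [sq_nonneg (‖a‖ - ‖b‖)]

/-- small kernels -/
theorem small_part (H : SyFacts) : ∃ C : ℝ, 0 < C ∧ ∀ K L R : ℝ, 0 < K → 0 ≤ L → 0 ≤ R →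
      ∀ T : Finset Eis, (∀ b ∈ T, IsPrim b) → ∀ β : Eis → ℂ,
      ∀ S : Finset Eis, (∀ h ∈ S, h ≠ 0 ∧ (¬ ∃ t, h = t ^ 3) ∧ (nm (kv (kc h).1) : ℝ) ≤ L ∧
        ∑ b ∈ T, ‖β b * (1 - cop (kc h).2 b)‖ ≤ R) →
      ∑ h ∈ S, omx (K / nm h) * ‖∑ b ∈ T, β b * sy h b‖ ^ 2
        ≤ C * K ^ ((1 : ℝ) / 3) * (∑ v ∈ ncs L, ‖∑ b ∈ T, β b * sy v b‖ ^ 2 + L * R ^ 2) := by
  classical
  obtain ⟨C, hC, hm⟩ := om_m_sum
  refine ⟨32 * C, by positivity, ?_⟩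
  intro K L R hK hL hR T hT β S hS
  have hmaps : ∀ h ∈ S, kv (kc h).1 ∈ ncs L := by
    intro h hh
    obtain ⟨h0, h1, h2, h3⟩ := hS h hh
    obtain ⟨s1, s2, s3, s4⟩ := kc_spec h0
    unfold ncs
    rw [mem_filter, mem_nz]
    exact ⟨⟨kv_ne_zero s1, h2⟩, s4 h1⟩
  rw [← sum_fiberwise_of_maps_to hmaps]
  have hone : ∀ v ∈ ncs L, ∑ h ∈ S with kv (kc h).1 = v,
      omx (K / nm h) * ‖∑ b ∈ T, β b * sy h b‖ ^ 2
      ≤ C * K ^ ((1 : ℝ) / 3) * (2 * ‖∑ b ∈ T, β b * sy v b‖ ^ 2 + 2 * R ^ 2) := by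
    intro v hv
    set Sv := S.filter (fun h => kv (kc h).1 = v) with hSv
    have hv0 : v ≠ 0 := by
      unfold ncs at hv
      rw [mem_filter, mem_nz] at hv
      exact hv.1.1
    have hv1 : (1 : ℝ) ≤ nm v := one_le_nm' hv0
    have hinj : Set.InjOn (fun h => (kc h).2) (Sv : Set Eis) := by
      intro a ha b hb hab
      have ha' := mem_filter.mp (by simpa [hSv] using ha : a ∈ Sv)
      have hb' := mem_filter.mp (by simpa [hSv] using hb : b ∈ Sv)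
      have h1 := (kc_spec (hS a ha'.1).1).2.2.1
      have h2 := (kc_spec (hS b hb'.1).1).2.2.1
      simp only at hab
      rw [h1, h2, ha'.2, hb'.2, hab]
    have hterm : ∀ h ∈ Sv, ‖∑ b ∈ T, β b * sy h b‖ ^ 2
        ≤ 2 * ‖∑ b ∈ T, β b * sy v b‖ ^ 2 + 2 * R ^ 2 := by
      intro h hh
      have hh' := mem_filter.mp (by simpa [hSv] using hh : h ∈ Sv)
      obtain ⟨h0, h1, h2, h3⟩ := hS h hh'.1
      have e1 : ∑ b ∈ T, β b * sy h b = ∑ b ∈ T, β b * sy v b +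
          (-∑ b ∈ T, β b * (1 - cop (kc h).2 b) * sy v b) := by
        rw [sum_sy_kc H hT β h0, hh'.2, ← sub_eq_add_neg, ← sum_sub_distrib]
        refine sum_congr rfl fun b _ => ?_
        ring
      rw [e1]
      refine (sq_norm_add_le _ _).trans ?_
      rw [norm_neg]
      have e2 : ‖∑ b ∈ T, β b * (1 - cop (kc h).2 b) * sy v b‖ ≤ R := by
        refine (norm_sum_le _ _).trans (le_trans (sum_le_sum fun b hb => ?_) h3)
        rw [norm_mul]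
        have := norm_sy_le H v b (hT b hb)
        have := norm_nonneg (β b * (1 - cop (kc h).2 b))
        nlinarith
      gcongr
    have hX : 0 ≤ 2 * ‖∑ b ∈ T, β b * sy v b‖ ^ 2 + 2 * R ^ 2 := by positivity
    calc ∑ h ∈ Sv, omx (K / nm h) * ‖∑ b ∈ T, β b * sy h b‖ ^ 2
        ≤ ∑ h ∈ Sv, omx (K / nm v / (nm (kc h).2 : ℝ) ^ 3) *
            (2 * ‖∑ b ∈ T, β b * sy v b‖ ^ 2 + 2 * R ^ 2) := by
          refine sum_le_sum fun h hh => ?_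
          have hh' := mem_filter.mp (by simpa [hSv] using hh : h ∈ Sv)
          have e1 := kc_nm (hS h hh'.1).1
          rw [hh'.2] at e1
          rw [div_div, e1]
          have h4 := hterm h hh
          have h5 : 0 ≤ omx (K / nm h) := omx_nonneg (by positivity)
          gcongr
      _ = (∑ m ∈ Sv.image (fun h => (kc h).2), omx (K / nm v / (nm m : ℝ) ^ 3)) *
            (2 * ‖∑ b ∈ T, β b * sy v b‖ ^ 2 + 2 * R ^ 2) := by
          rw [sum_image hinj, sum_mul]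
      _ ≤ (C * mux (K / nm v)) * (2 * ‖∑ b ∈ T, β b * sy v b‖ ^ 2 + 2 * R ^ 2) := by
          gcongr
          refine hm (K / nm v) (by positivity) _ fun m hm' => ?_
          rw [mem_image] at hm'
          obtain ⟨h, hh, rfl⟩ := hm'
          exact (kc_spec (hS h (mem_filter.mp hh).1).1).2.1
      _ ≤ (C * K ^ ((1 : ℝ) / 3)) * (2 * ‖∑ b ∈ T, β b * sy v b‖ ^ 2 + 2 * R ^ 2) := by
          have h6 : mux (K / nm v) ≤ K ^ ((1 : ℝ) / 3) := by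
            refine (mux_le_third _).trans (Real.rpow_le_rpow (by positivity) ?_ (by norm_num))
            exact div_le_self hK.le hv1
          gcongr
      _ = _ := by ring
  have hcard : (#(ncs L) : ℝ) ≤ 16 * L :=
    le_trans (by exact_mod_cast card_le_card (filter_subset _ _)) (card_nz_le16 hL)
  calc _ ≤ ∑ v ∈ ncs L, C * K ^ ((1 : ℝ) / 3) *
        (2 * ‖∑ b ∈ T, β b * sy v b‖ ^ 2 + 2 * R ^ 2) := sum_le_sum hone
    _ = C * K ^ ((1 : ℝ) / 3) * (2 * ∑ v ∈ ncs L, ‖∑ b ∈ T, β b * sy v b‖ ^ 2 +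
        2 * (#(ncs L) * R ^ 2)) := by
        rw [← mul_sum, sum_add_distrib, ← mul_sum, sum_const, nsmul_eq_mul]; ring
    _ ≤ C * K ^ ((1 : ℝ) / 3) * (2 * ∑ v ∈ ncs L, ‖∑ b ∈ T, β b * sy v b‖ ^ 2 +
        2 * ((16 * L) * R ^ 2)) := by gcongr
    _ ≤ C * K ^ ((1 : ℝ) / 3) * (32 * (∑ v ∈ ncs L, ‖∑ b ∈ T, β b * sy v b‖ ^ 2 +
        L * R ^ 2)) := by
        have h1 : 0 ≤ ∑ v ∈ ncs L, ‖∑ b ∈ T, β b * sy v b‖ ^ 2 :=
          sum_nonneg fun _ _ => by positivity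
        gcongr ?_ * ?_
        nlinarith
    _ = _ := by ring

/-- huge `h` -/
theorem huge_part (H : SyFacts) {B K : ℝ} (hB : 1 ≤ B) (hK : 0 < K) (hKB : K ≤ B ^ ((3 : ℝ) / 2))
    (T : Finset Eis) (hT : ∀ b ∈ T, IsPrim b ∧ Squarefree b ∧ (nm b : ℝ) ≤ B) (β : Eis → ℂ)
    (S : Finset Eis) (hS : ∀ h ∈ S, h ≠ 0 ∧ B ^ 4 < nm h) :
    ∑ h ∈ S, omx (K / nm h) * ‖∑ b ∈ T, β b * sy h b‖ ^ 2
        ≤ 6400 * K ^ ((1 : ℝ) / 3) * B ^ (-(1 / 2) : ℝ) * ∑ b ∈ T, ‖β b‖ ^ 2 := by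
  classical
  have hB0 : (0 : ℝ) < B := by linarith
  set E : ℝ := ∑ b ∈ T, ‖β b‖ ^ 2 with hE
  have hE0 : 0 ≤ E := sum_nonneg fun _ _ => by positivity
  have htriv : ∀ h, ‖∑ b ∈ T, β b * sy h b‖ ^ 2 ≤ 16 * B * E := fun h => by
    have h1 := norm_sum_sy_le H (fun b hb => (hT b hb).1) β h
    have h2 := sq_sum_le hB hT β
    calc ‖∑ b ∈ T, β b * sy h b‖ ^ 2 ≤ (∑ b ∈ T, ‖β b‖) ^ 2 := by gcongr
      _ ≤ _ := h2
  have h1 := sum_tail2 (V := B ^ 4) (one_le_pow₀ hB) S hS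
  have e1 : K ^ (2 : ℝ) ≤ K ^ ((1 : ℝ) / 3) * B ^ ((5 : ℝ) / 2) := by
    have : K ^ (2 : ℝ) = K ^ ((1 : ℝ) / 3) * K ^ ((5 : ℝ) / 3) := by
      rw [← Real.rpow_add hK]; norm_num
    rw [this]
    gcongr
    calc K ^ ((5 : ℝ) / 3) ≤ (B ^ ((3 : ℝ) / 2)) ^ ((5 : ℝ) / 3) :=
          Real.rpow_le_rpow hK.le hKB (by norm_num)
      _ = B ^ ((5 : ℝ) / 2) := by rw [← Real.rpow_mul hB0.le]; norm_num
  calc ∑ h ∈ S, omx (K / nm h) * ‖∑ b ∈ T, β b * sy h b‖ ^ 2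
      ≤ ∑ h ∈ S, (K ^ (2 : ℝ) * (nm h : ℝ) ^ (-(2 : ℝ))) * (16 * B * E) := by
        refine sum_le_sum fun h hh => ?_
        have hn : (1 : ℝ) ≤ nm h := one_le_nm' (hS h hh).1
        have h2 := htriv h
        have h3 : omx (K / nm h) ≤ K ^ (2 : ℝ) * (nm h : ℝ) ^ (-(2 : ℝ)) := by
          refine (min_le_right _ _).trans (le_of_eq ?_)
          rw [Real.div_rpow hK.le (by positivity), Real.rpow_neg (by positivity),
            div_eq_mul_inv]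
        have h4 : 0 ≤ omx (K / nm h) := omx_nonneg (by positivity)
        gcongr
    _ = K ^ (2 : ℝ) * (16 * B * E) * ∑ h ∈ S, (nm h : ℝ) ^ (-(2 : ℝ)) := by
        rw [← sum_mul, ← mul_sum]; ring
    _ ≤ (K ^ ((1 : ℝ) / 3) * B ^ ((5 : ℝ) / 2)) * (16 * B * E) * (400 * (B ^ 4)⁻¹) := by
        gcongr
    _ = 6400 * K ^ ((1 : ℝ) / 3) * (B ^ ((5 : ℝ) / 2) * B * (B ^ 4)⁻¹) * E := by ring
    _ = _ := by
        have e2 : B ^ ((5 : ℝ) / 2) * B * (B ^ 4)⁻¹ = B ^ (-(1 / 2) : ℝ) := by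
          nth_rewrite 2 [← Real.rpow_one B]
          rw [← Real.rpow_natCast, ← Real.rpow_neg hB0.le, ← Real.rpow_add hB0,
            ← Real.rpow_add hB0]
          norm_num
        rw [e2]

/-- critical kernels: kept. `R2` bounds the mass of `|β|²` on `b` not coprime to `m`. -/
theorem crit_part (H : SyFacts) (hL1 : L1Prop) (hHB : HBProp) {η : ℝ} (hη : 0 < η)
    (hη2 : η ≤ 1) : ∃ C : ℝ, 0 < C ∧ ∀ B K R2 : ℝ, 1 ≤ B → 0 < K → 0 ≤ R2 →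
      ∀ T : Finset Eis, (∀ b ∈ T, IsPrim b ∧ Squarefree b ∧ (nm b : ℝ) ≤ B) → ∀ β : Eis → ℂ,
      ∀ (S : Finset Eis) (𝒞 : Finset Ker), (∀ h ∈ S, h ≠ 0 ∧ (kc h).1 ∈ 𝒞 ∧
        B ^ (1 - η) ≤ nm (kv (kc h).1) ∧ (nm (kv (kc h).1) : ℝ) ≤ B ^ (1 + η) ∧
        ∑ b ∈ T, ‖β b * (1 - cop (kc h).2 b)‖ ^ 2 ≤ R2) →
      ∑ h ∈ S, omx (K / nm h) * ‖∑ b ∈ T, β b * sy h b‖ ^ 2
        ≤ C * K ^ ((1 : ℝ) / 3) * (B ^ (-(1 - η) / 3) *
          ∑ κ ∈ 𝒞, ‖∑ b ∈ T, β b * sy (kv κ) b‖ ^ 2 + B ^ (1 + η / 2) * R2) := by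
  classical
  obtain ⟨C, hC, hm⟩ := om_m_sum
  obtain ⟨C2, hC2, hcr⟩ := eng_crit H hL1 hHB hη hη2
  refine ⟨2 * C + 2 * C2, by positivity, ?_⟩
  intro B K R2 hB hK hR2 T hT β S 𝒞 hS
  have hB0 : (0 : ℝ) < B := by linarith
  have hTp : ∀ b ∈ T, IsPrim b := fun b hb => (hT b hb).1
  -- pointwise
  have hpt : ∀ h ∈ S, omx (K / nm h) * ‖∑ b ∈ T, β b * sy h b‖ ^ 2
      ≤ omx (K / nm h) * (2 * ‖∑ b ∈ T, β b * sy (kv (kc h).1) b‖ ^ 2) +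
        2 * (omx (K / nm h) *
          ‖∑ b ∈ T, β b * (1 - cop (kc h).2 b) * sy (kv (kc h).1) b‖ ^ 2) := by
    intro h hh
    have h0 := (hS h hh).1
    have e1 : ∑ b ∈ T, β b * sy h b = ∑ b ∈ T, β b * sy (kv (kc h).1) b +
        (-∑ b ∈ T, β b * (1 - cop (kc h).2 b) * sy (kv (kc h).1) b) := by
      rw [sum_sy_kc H hTp β h0, ← sub_eq_add_neg, ← sum_sub_distrib]
      refine sum_congr rfl fun b _ => ?_
      ring
    have h5 : 0 ≤ omx (K / nm h) := omx_nonneg (by positivity)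
    rw [e1]
    have h6 := sq_norm_add_le (∑ b ∈ T, β b * sy (kv (kc h).1) b)
      (-∑ b ∈ T, β b * (1 - cop (kc h).2 b) * sy (kv (kc h).1) b)
    rw [norm_neg] at h6
    nlinarith
  refine (sum_le_sum hpt).trans ?_
  rw [sum_add_distrib, ← mul_sum]
  -- first part
  have hA : ∑ h ∈ S, omx (K / nm h) * (2 * ‖∑ b ∈ T, β b * sy (kv (kc h).1) b‖ ^ 2)
      ≤ 2 * C * (K ^ ((1 : ℝ) / 3) * B ^ (-(1 - η) / 3)) *
        ∑ κ ∈ 𝒞, ‖∑ b ∈ T, β b * sy (kv κ) b‖ ^ 2 := by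
    rw [← sum_fiberwise_of_maps_to (fun h hh => (hS h hh).2.1), mul_sum]
    refine sum_le_sum fun κ hκ => ?_
    set Sκ := S.filter (fun h => (kc h).1 = κ) with hSκ
    rcases Sκ.eq_empty_or_nonempty with hem | ⟨h1, h1m⟩
    · rw [hem, sum_empty]; positivity
    have h1' := mem_filter.mp h1m
    have hg : Good κ := by rw [← h1'.2]; exact (kc_spec (hS h1 h1'.1).1).1
    have hlow : B ^ (1 - η) ≤ nm (kv κ) := by rw [← h1'.2]; exact (hS h1 h1'.1).2.2.1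
    have hv1 : (1 : ℝ) ≤ nm (kv κ) := one_le_nmkv hg
    have hinj : Set.InjOn (fun h => (kc h).2) (Sκ : Set Eis) := by
      intro a ha b hb hab
      have ha' := mem_filter.mp (by simpa [hSκ] using ha : a ∈ Sκ)
      have hb' := mem_filter.mp (by simpa [hSκ] using hb : b ∈ Sκ)
      have h1 := (kc_spec (hS a ha'.1).1).2.2.1
      have h2 := (kc_spec (hS b hb'.1).1).2.2.1
      simp only at hab
      rw [h1, h2, ha'.2, hb'.2, hab]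
    set N : ℝ := ‖∑ b ∈ T, β b * sy (kv κ) b‖ ^ 2 with hN
    have hN0 : 0 ≤ N := by positivity
    calc ∑ h ∈ Sκ, omx (K / nm h) * (2 * ‖∑ b ∈ T, β b * sy (kv (kc h).1) b‖ ^ 2)
        = ∑ h ∈ Sκ, omx (K / nm (kv κ) / (nm (kc h).2 : ℝ) ^ 3) * (2 * N) := by
          refine sum_congr rfl fun h hh => ?_
          have hh' := mem_filter.mp (by simpa [hSκ] using hh : h ∈ Sκ)
          have e1 := kc_nm (hS h hh'.1).1
          rw [hh'.2] at e1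
          rw [div_div, e1, hh'.2]
      _ = (∑ m ∈ Sκ.image (fun h => (kc h).2), omx (K / nm (kv κ) / (nm m : ℝ) ^ 3)) *
            (2 * N) := by
          rw [sum_image hinj, sum_mul]
      _ ≤ (C * mux (K / nm (kv κ))) * (2 * N) := by
          gcongr
          refine hm (K / nm (kv κ)) (by positivity) _ fun m hm' => ?_
          rw [mem_image] at hm'
          obtain ⟨h, hh, rfl⟩ := hm'
          exact (kc_spec (hS h (mem_filter.mp hh).1).1).2.1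
      _ ≤ (C * (K ^ ((1 : ℝ) / 3) * B ^ (-(1 - η) / 3))) * (2 * N) := by
          have h6 : mux (K / nm (kv κ)) ≤ K ^ ((1 : ℝ) / 3) * B ^ (-(1 - η) / 3) := by
            refine (mux_le_third _).trans ?_
            rw [Real.div_rpow hK.le (by positivity), div_eq_mul_inv]
            gcongr
            rw [← Real.rpow_neg (by positivity)]
            calc (nm (kv κ) : ℝ) ^ (-((1 : ℝ) / 3)) ≤ (B ^ (1 - η)) ^ (-((1 : ℝ) / 3)) :=
                  Real.rpow_le_rpow_of_nonpos (by positivity) hlow (by norm_num)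
              _ = B ^ (-(1 - η) / 3) := by
                  rw [← Real.rpow_mul hB0.le]; congr 1; ring
          gcongr
      _ = _ := by ring
  -- second part
  have hB' : ∑ h ∈ S, omx (K / nm h) *
      ‖∑ b ∈ T, β b * (1 - cop (kc h).2 b) * sy (kv (kc h).1) b‖ ^ 2
      ≤ C2 * (K ^ ((1 : ℝ) / 3) * B ^ (1 + η / 2)) * R2 := by
    set M : Finset Eis := S.image (fun h => (kc h).2) with hM
    set γ : Eis → Eis → ℂ := fun m b => if m ∈ M then 1 - cop m b else 0 with hγ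
    have h1 := hcr B K R2 hB hK hR2 T hT β γ (fun m => by
      by_cases hmM : m ∈ M
      · have hmM' := hmM
        rw [hM, mem_image] at hmM'
        obtain ⟨h, hh, rfl⟩ := hmM'
        have := (hS h hh).2.2.2.2
        simp only [hγ, if_pos hmM]
        exact this
      · simp only [hγ, if_neg hmM, mul_zero, norm_zero]
        simpa using hR2) (S.image kc) (fun q hq => by
      obtain ⟨g1, g2, h, hh, rfl⟩ := image_kc_spec (fun h hh => (hS h hh).1) hq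
      exact ⟨g1, g2, (hS h hh).2.2.2.1⟩)
    rw [sum_image (kc_injOn S (fun h hh => (hS h hh).1))] at h1
    refine le_trans (le_of_eq ?_) h1
    refine sum_congr rfl fun h hh => ?_
    have hmM : (kc h).2 ∈ M := mem_image_of_mem _ hh
    simp only [hγ, if_pos hmM]
    rw [kc_nm (hS h hh).1]
  have hKp : 0 ≤ K ^ ((1 : ℝ) / 3) := by positivity
  have hs0 : 0 ≤ ∑ κ ∈ 𝒞, ‖∑ b ∈ T, β b * sy (kv κ) b‖ ^ 2 :=
    sum_nonneg fun _ _ => by positivity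
  set Sg1 := ∑ κ ∈ 𝒞, ‖∑ b ∈ T, β b * sy (kv κ) b‖ ^ 2 with hSg
  have hBp : 0 ≤ B ^ (-(1 - η) / 3) := by positivity
  have hBp2 : 0 ≤ B ^ (1 + η / 2) * R2 := by positivity
  calc _ ≤ 2 * C * (K ^ ((1 : ℝ) / 3) * B ^ (-(1 - η) / 3)) * Sg1 +
        2 * (C2 * (K ^ ((1 : ℝ) / 3) * B ^ (1 + η / 2)) * R2) := by
        gcongr
    _ = K ^ ((1 : ℝ) / 3) * (2 * C * (B ^ (-(1 - η) / 3) * Sg1) +
        2 * C2 * (B ^ (1 + η / 2) * R2)) := by ring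
    _ ≤ K ^ ((1 : ℝ) / 3) * ((2 * C + 2 * C2) * (B ^ (-(1 - η) / 3) * Sg1) +
        (2 * C + 2 * C2) * (B ^ (1 + η / 2) * R2)) := by
        have : 0 ≤ B ^ (-(1 - η) / 3) * Sg1 := by positivity
        gcongr
        · linarith
        · linarith
    _ = _ := by ring

/-- **non-cubes, non-critical range** -/
theorem noncube_omN (H : SyFacts) (hL1 : L1Prop) (hHB : HBProp) {δ : ℝ} (hδ : 0 < δ)
    (hδ2 : δ ≤ 1 / 2) :
    ∃ C : ℝ, 0 < C ∧ ∀ B K L R : ℝ, 1 ≤ B → 0 < K → K ≤ B ^ (1 - 2 * δ) → 1 ≤ L → 0 ≤ R →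
      ∀ T : Finset Eis, (∀ b ∈ T, IsPrim b ∧ Squarefree b ∧ (nm b : ℝ) ≤ B) → ∀ β : Eis → ℂ,
      (∀ m : Eis, m ≠ 0 → (nm m : ℝ) ≤ B ^ 4 → ∑ b ∈ T, ‖β b * (1 - cop m b)‖ ≤ R) →
      ∀ S : Finset Eis, (∀ h ∈ S, h ≠ 0 ∧ (¬ ∃ t, h = t ^ 3)) →
      ∑ h ∈ S, omx (K / nm h) * ‖∑ b ∈ T, β b * sy h b‖ ^ 2
        ≤ C * K ^ ((1 : ℝ) / 3) * (∑ v ∈ ncs L, ‖∑ b ∈ T, β b * sy v b‖ ^ 2 + L * R ^ 2 +
          (L ^ (-(1 : ℝ) / 3) + B ^ (-(δ / 12))) * B * ∑ b ∈ T, ‖β b‖ ^ 2) := by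
  classical
  obtain ⟨C1, hC1, h1⟩ := eng_mid H hL1 hHB hδ hδ2
  obtain ⟨C2, hC2, h2⟩ := eng_tailN H hL1 hHB hδ hδ2
  obtain ⟨C3, hC3, h3⟩ := small_part H
  refine ⟨C1 + C2 + C3 + 6400, by positivity, ?_⟩
  intro B K L R hB hK hKB hL hR T hT β hRm S hS
  have hB0 : (0 : ℝ) < B := by linarith
  have hTp : ∀ b ∈ T, IsPrim b := fun b hb => (hT b hb).1
  set E : ℝ := ∑ b ∈ T, ‖β b‖ ^ 2 with hE
  have hE0 : 0 ≤ E := sum_nonneg fun _ _ => by positivity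
  set g : Eis → ℝ := fun h => omx (K / nm h) * ‖∑ b ∈ T, β b * sy h b‖ ^ 2 with hg
  -- splitting
  rw [← sum_filter_add_sum_filter_not S (fun h => B ^ 4 < (nm h : ℝ))]
  set Sh := S.filter (fun h => B ^ 4 < (nm h : ℝ)) with hSh
  set S' := S.filter (fun h => ¬ B ^ 4 < (nm h : ℝ)) with hS'
  rw [← sum_filter_add_sum_filter_not S' (fun h => (nm (kv (kc h).1) : ℝ) ≤ L)]
  set Ss := S'.filter (fun h => (nm (kv (kc h).1) : ℝ) ≤ L) with hSs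
  set S'' := S'.filter (fun h => ¬ (nm (kv (kc h).1) : ℝ) ≤ L) with hS''
  rw [← sum_filter_add_sum_filter_not S'' (fun h => (nm (kv (kc h).1) : ℝ) ≤ B ^ (1 - δ))]
  set Sm := S''.filter (fun h => (nm (kv (kc h).1) : ℝ) ≤ B ^ (1 - δ)) with hSm
  set St := S''.filter (fun h => ¬ (nm (kv (kc h).1) : ℝ) ≤ B ^ (1 - δ)) with hSt
  have hSm' : ∀ h ∈ Sm, h ≠ 0 ∧ L < nm (kv (kc h).1) ∧ (nm (kv (kc h).1) : ℝ) ≤ B ^ (1 - δ) := by
    intro h hh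
    simp only [hSm, hS'', hS', mem_filter, not_le] at hh
    exact ⟨(hS h hh.1.1.1).1, hh.1.2, hh.2⟩
  have hSt' : ∀ h ∈ St, h ≠ 0 ∧ B ^ (1 - δ) < nm (kv (kc h).1) := by
    intro h hh
    simp only [hSt, hS'', hS', mem_filter, not_le] at hh
    exact ⟨(hS h hh.1.1.1).1, hh.2⟩
  have aH := huge_part H hB hK (hKB.trans (Real.rpow_le_rpow_of_exponent_le hB (by linarith)))
    T hT β Sh (fun h hh => by
      rw [hSh, mem_filter] at hh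
      exact ⟨(hS h hh.1).1, hh.2⟩)
  have aS := h3 K L R hK (by linarith) hR T hTp β Ss (fun h hh => by
      simp only [hSs, hS', mem_filter, not_lt] at hh
      obtain ⟨⟨hh1, hh2⟩, hh3⟩ := hh
      obtain ⟨s1, s2, s3, s4⟩ := kc_spec (hS h hh1).1
      refine ⟨(hS h hh1).1, (hS h hh1).2, hh3, hRm _ s2 ?_⟩
      have e1 := kc_nm (hS h hh1).1
      have e2 := one_le_nmkv s1
      have e3 := one_le_nm' s2
      have e4 : (nm (kc h).2 : ℝ) ≤ (nm (kc h).2 : ℝ) ^ 3 := by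
        nlinarith [sq_nonneg ((nm (kc h).2 : ℝ) - 1)]
      have e5 : (nm (kc h).2 : ℝ) ^ 3 ≤ nm (kv (kc h).1) * (nm (kc h).2 : ℝ) ^ 3 := by
        have : (0 : ℝ) ≤ (nm (kc h).2 : ℝ) ^ 3 := by positivity
        nlinarith
      linarith)
  have aM := h1 B K L E hB hK hL hE0 T hT β cop (fun m => sum_mask_le (norm_cop_le m))
    (Sm.image kc) (fun q hq => by
      obtain ⟨g1, g2, h, hh, rfl⟩ := image_kc_spec (fun h hh => (hSm' h hh).1) hq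
      exact ⟨g1, g2, (hSm' h hh).2.1.le, (hSm' h hh).2.2⟩)
  have aT := h2 B K E hB hK hKB hE0 T hT β cop (fun m => sum_mask_le (norm_cop_le m))
    (St.image kc) (fun q hq => by
      obtain ⟨g1, g2, h, hh, rfl⟩ := image_kc_spec (fun h hh => (hSt' h hh).1) hq
      exact ⟨g1, g2, (hSt' h hh).2.le⟩)
  rw [← eng_pull H hTp β K Sm (fun h hh => (hSm' h hh).1)] at aM
  rw [← eng_pull H hTp β K St (fun h hh => (hSt' h hh).1)] at aT
  have hB1 : B ^ (1 - δ / 2) ≤ B ^ (-(δ / 12)) * B := by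
    nth_rewrite 3 [← Real.rpow_one B]
    rw [← Real.rpow_add hB0]
    exact Real.rpow_le_rpow_of_exponent_le hB (by linarith)
  have hB2 : B ^ (-(1 / 2) : ℝ) ≤ B ^ (-(δ / 12)) * B := by
    nth_rewrite 3 [← Real.rpow_one B]
    rw [← Real.rpow_add hB0]
    exact Real.rpow_le_rpow_of_exponent_le hB (by linarith)
  set Kp := K ^ ((1 : ℝ) / 3) with hKp
  have hKp0 : 0 ≤ Kp := by positivity
  set Lp := L ^ (-(1 : ℝ) / 3) with hLp
  have hLp0 : 0 ≤ Lp := by positivity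
  set Bp := B ^ (-(δ / 12)) with hBp
  have hBp0 : 0 ≤ Bp := by positivity
  set N := ∑ v ∈ ncs L, ‖∑ b ∈ T, β b * sy v b‖ ^ 2 with hN
  have hN0 : 0 ≤ N := sum_nonneg fun _ _ => by positivity
  calc ∑ h ∈ Sh, g h + (∑ h ∈ Ss, g h + (∑ h ∈ Sm, g h + ∑ h ∈ St, g h))
      ≤ 6400 * Kp * (Bp * B) * E + (C3 * Kp * (N + L * R ^ 2) +
        (C1 * (Kp * (Lp + Bp) * B) * E + C2 * (Kp * (Bp * B)) * E)) := by
        refine add_le_add (aH.trans (by gcongr)) (add_le_add aS (add_le_add aM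
          (aT.trans (by gcongr))))
    _ ≤ (C1 + C2 + C3 + 6400) * Kp * (N + L * R ^ 2 + (Lp + Bp) * B * E) := by
        have x1 : 0 ≤ Kp * (N + L * R ^ 2) := by positivity
        have x2 : 0 ≤ Kp * (Lp * B * E) := by positivity
        have x3 : 0 ≤ Kp * (Bp * B * E) := by positivity
        nlinarith [mul_nonneg hC1.le x1, mul_nonneg hC2.le x1, mul_nonneg hC3.le x2,
          mul_nonneg hC3.le x3, mul_nonneg hC2.le x2, mul_nonneg hC1.le x3]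

/-- **non-cubes, critical range** -/
theorem noncube_omC (H : SyFacts) (hL1 : L1Prop) (hHB : HBProp) {η : ℝ} (hη : 0 < η)
    (hη2 : η ≤ 1 / 2) :
    ∃ C : ℝ, 0 < C ∧ ∀ B K L R R2 : ℝ, 1 ≤ B → 0 < K → K ≤ B ^ (1 + 3 * η / 5) → 1 ≤ L → 0 ≤ R →
      0 ≤ R2 →
      ∀ T : Finset Eis, (∀ b ∈ T, IsPrim b ∧ Squarefree b ∧ (nm b : ℝ) ≤ B) → ∀ β : Eis → ℂ,
      (∀ m : Eis, m ≠ 0 → (nm m : ℝ) ≤ B ^ 4 → ∑ b ∈ T, ‖β b * (1 - cop m b)‖ ≤ R) →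
      (∀ m : Eis, m ≠ 0 → (nm m : ℝ) ≤ B ^ 4 → ∑ b ∈ T, ‖β b * (1 - cop m b)‖ ^ 2 ≤ R2) →
      ∀ 𝒞 : Finset Ker, (∀ κ : Ker, Good κ → (nm (kv κ) : ℝ) ≤ B ^ (1 + η) → κ ∈ 𝒞) →
      ∀ S : Finset Eis, (∀ h ∈ S, h ≠ 0 ∧ (¬ ∃ t, h = t ^ 3)) →
      ∑ h ∈ S, omx (K / nm h) * ‖∑ b ∈ T, β b * sy h b‖ ^ 2
        ≤ C * K ^ ((1 : ℝ) / 3) * (∑ v ∈ ncs L, ‖∑ b ∈ T, β b * sy v b‖ ^ 2 + L * R ^ 2 +
          (L ^ (-(1 : ℝ) / 3) + B ^ (-(η / 12))) * B * ∑ b ∈ T, ‖β b‖ ^ 2 +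
          (B ^ (-(1 - η) / 3) * ∑ κ ∈ 𝒞, ‖∑ b ∈ T, β b * sy (kv κ) b‖ ^ 2
            + B ^ (1 + η / 2) * R2)) := by
  classical
  obtain ⟨C1, hC1, h1⟩ := eng_mid H hL1 hHB hη hη2
  obtain ⟨C2, hC2, h2⟩ := eng_tailC H hL1 hHB hη hη2
  obtain ⟨C3, hC3, h3⟩ := small_part H
  obtain ⟨C4, hC4, h4⟩ := crit_part H hL1 hHB hη (by linarith)
  refine ⟨C1 + C2 + C3 + C4 + 6400, by positivity, ?_⟩
  intro B K L R R2 hB hK hKB hL hR hR2 T hT β hRm hR2m 𝒞 h𝒞 S hS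
  have hB0 : (0 : ℝ) < B := by linarith
  have hTp : ∀ b ∈ T, IsPrim b := fun b hb => (hT b hb).1
  set E : ℝ := ∑ b ∈ T, ‖β b‖ ^ 2 with hE
  have hE0 : 0 ≤ E := sum_nonneg fun _ _ => by positivity
  set g : Eis → ℝ := fun h => omx (K / nm h) * ‖∑ b ∈ T, β b * sy h b‖ ^ 2 with hg
  -- splitting
  rw [← sum_filter_add_sum_filter_not S (fun h => B ^ 4 < (nm h : ℝ))]
  set Sh := S.filter (fun h => B ^ 4 < (nm h : ℝ)) with hSh
  set S' := S.filter (fun h => ¬ B ^ 4 < (nm h : ℝ)) with hS'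
  rw [← sum_filter_add_sum_filter_not S' (fun h => (nm (kv (kc h).1) : ℝ) ≤ L)]
  set Ss := S'.filter (fun h => (nm (kv (kc h).1) : ℝ) ≤ L) with hSs
  set S'' := S'.filter (fun h => ¬ (nm (kv (kc h).1) : ℝ) ≤ L) with hS''
  rw [← sum_filter_add_sum_filter_not S'' (fun h => (nm (kv (kc h).1) : ℝ) ≤ B ^ (1 - η))]
  set Sm := S''.filter (fun h => (nm (kv (kc h).1) : ℝ) ≤ B ^ (1 - η)) with hSm
  set S3 := S''.filter (fun h => ¬ (nm (kv (kc h).1) : ℝ) ≤ B ^ (1 - η)) with hS3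
  rw [← sum_filter_add_sum_filter_not S3 (fun h => (nm (kv (kc h).1) : ℝ) ≤ B ^ (1 + η))]
  set Sc := S3.filter (fun h => (nm (kv (kc h).1) : ℝ) ≤ B ^ (1 + η)) with hSc
  set St := S3.filter (fun h => ¬ (nm (kv (kc h).1) : ℝ) ≤ B ^ (1 + η)) with hSt
  have hSm' : ∀ h ∈ Sm, h ≠ 0 ∧ L < nm (kv (kc h).1) ∧ (nm (kv (kc h).1) : ℝ) ≤ B ^ (1 - η) := by
    intro h hh
    simp only [hSm, hS'', hS', mem_filter, not_le] at hh
    exact ⟨(hS h hh.1.1.1).1, hh.1.2, hh.2⟩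
  have hSt' : ∀ h ∈ St, h ≠ 0 ∧ B ^ (1 + η) < nm (kv (kc h).1) := by
    intro h hh
    simp only [hSt, hS3, hS'', hS', mem_filter, not_le] at hh
    exact ⟨(hS h hh.1.1.1.1).1, hh.2⟩
  have hmB : ∀ h ∈ S', (kc h).2 ≠ 0 ∧ (nm (kc h).2 : ℝ) ≤ B ^ 4 := by
    intro h hh
    simp only [hS', mem_filter, not_lt] at hh
    obtain ⟨hh1, hh2⟩ := hh
    obtain ⟨s1, s2, s3, s4⟩ := kc_spec (hS h hh1).1
    refine ⟨s2, ?_⟩
    have e1 := kc_nm (hS h hh1).1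
    have e2 := one_le_nmkv s1
    have e3 := one_le_nm' s2
    have e4 : (nm (kc h).2 : ℝ) ≤ (nm (kc h).2 : ℝ) ^ 3 := by
      nlinarith [sq_nonneg ((nm (kc h).2 : ℝ) - 1)]
    have e5 : (nm (kc h).2 : ℝ) ^ 3 ≤ nm (kv (kc h).1) * (nm (kc h).2 : ℝ) ^ 3 := by
      have : (0 : ℝ) ≤ (nm (kc h).2 : ℝ) ^ 3 := by positivity
      nlinarith
    linarith
  have aH := huge_part H hB hK (hKB.trans (Real.rpow_le_rpow_of_exponent_le hB (by linarith)))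
    T hT β Sh (fun h hh => by
      rw [hSh, mem_filter] at hh
      exact ⟨(hS h hh.1).1, hh.2⟩)
  have aS := h3 K L R hK (by linarith) hR T hTp β Ss (fun h hh => by
      rw [hSs, mem_filter] at hh
      obtain ⟨m1, m2⟩ := hmB h hh.1
      have hhS := (mem_filter.mp hh.1).1
      exact ⟨(hS h hhS).1, (hS h hhS).2, hh.2, hRm _ m1 m2⟩)
  have aM := h1 B K L E hB hK hL hE0 T hT β cop (fun m => sum_mask_le (norm_cop_le m))
    (Sm.image kc) (fun q hq => by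
      obtain ⟨g1, g2, h, hh, rfl⟩ := image_kc_spec (fun h hh => (hSm' h hh).1) hq
      exact ⟨g1, g2, (hSm' h hh).2.1.le, (hSm' h hh).2.2⟩)
  have aC := h4 B K R2 hB hK hR2 T hT β Sc 𝒞 (fun h hh => by
      rw [hSc, mem_filter, hS3, mem_filter, hS'', mem_filter, not_le] at hh
      obtain ⟨⟨⟨hh1, hh2⟩, hh3⟩, hh4⟩ := hh
      obtain ⟨m1, m2⟩ := hmB h hh1
      have hhS := (mem_filter.mp hh1).1
      obtain ⟨s1, s2, s3, s4⟩ := kc_spec (hS h hhS).1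
      exact ⟨(hS h hhS).1, h𝒞 _ s1 hh4, (not_le.mp hh3).le, hh4, hR2m _ m1 m2⟩)
  have aT := h2 B K E hB hK hKB hE0 T hT β cop (fun m => sum_mask_le (norm_cop_le m))
    (St.image kc) (fun q hq => by
      obtain ⟨g1, g2, h, hh, rfl⟩ := image_kc_spec (fun h hh => (hSt' h hh).1) hq
      exact ⟨g1, g2, (hSt' h hh).2.le⟩)
  rw [← eng_pull H hTp β K Sm (fun h hh => (hSm' h hh).1)] at aM
  rw [← eng_pull H hTp β K St (fun h hh => (hSt' h hh).1)] at aT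
  have hB1 : B ^ (1 - η / 8) ≤ B ^ (-(η / 12)) * B := by
    nth_rewrite 3 [← Real.rpow_one B]
    rw [← Real.rpow_add hB0]
    exact Real.rpow_le_rpow_of_exponent_le hB (by linarith)
  have hB2 : B ^ (-(1 / 2) : ℝ) ≤ B ^ (-(η / 12)) * B := by
    nth_rewrite 3 [← Real.rpow_one B]
    rw [← Real.rpow_add hB0]
    exact Real.rpow_le_rpow_of_exponent_le hB (by linarith)
  set Kp := K ^ ((1 : ℝ) / 3) with hKp
  have hKp0 : 0 ≤ Kp := by positivity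
  set Lp := L ^ (-(1 : ℝ) / 3) with hLp
  have hLp0 : 0 ≤ Lp := by positivity
  set Bp := B ^ (-(η / 12)) with hBp
  have hBp0 : 0 ≤ Bp := by positivity
  set N := ∑ v ∈ ncs L, ‖∑ b ∈ T, β b * sy v b‖ ^ 2 with hN
  have hN0 : 0 ≤ N := sum_nonneg fun _ _ => by positivity
  set Q := B ^ (-(1 - η) / 3) * ∑ κ ∈ 𝒞, ‖∑ b ∈ T, β b * sy (kv κ) b‖ ^ 2
            + B ^ (1 + η / 2) * R2 with hQ
  have hQ0 : 0 ≤ Q := by
    have : 0 ≤ ∑ κ ∈ 𝒞, ‖∑ b ∈ T, β b * sy (kv κ) b‖ ^ 2 := sum_nonneg fun _ _ => by positivity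
    positivity
  calc ∑ h ∈ Sh, g h + (∑ h ∈ Ss, g h + (∑ h ∈ Sm, g h + (∑ h ∈ Sc, g h + ∑ h ∈ St, g h)))
      ≤ 6400 * Kp * (Bp * B) * E + (C3 * Kp * (N + L * R ^ 2) +
        (C1 * (Kp * (Lp + Bp) * B) * E + (C4 * Kp * Q + C2 * (Kp * (Bp * B)) * E))) := by
        refine add_le_add (aH.trans (by gcongr)) (add_le_add aS (add_le_add aM
          (add_le_add aC (aT.trans (by gcongr)))))
    _ ≤ (C1 + C2 + C3 + C4 + 6400) * Kp * (N + L * R ^ 2 + (Lp + Bp) * B * E + Q) := by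
        have x1 : 0 ≤ Kp * (N + L * R ^ 2) := by positivity
        have x2 : 0 ≤ Kp * (Lp * B * E) := by positivity
        have x3 : 0 ≤ Kp * (Bp * B * E) := by positivity
        have x4 : 0 ≤ Kp * Q := by positivity
        nlinarith [mul_nonneg hC1.le x1, mul_nonneg hC2.le x1, mul_nonneg hC3.le x2,
          mul_nonneg hC3.le x3, mul_nonneg hC2.le x2, mul_nonneg hC1.le x3,
          mul_nonneg hC4.le x1, mul_nonneg hC4.le x2, mul_nonneg hC4.le x3,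
          mul_nonneg hC1.le x4, mul_nonneg hC2.le x4, mul_nonneg hC3.le x4]

end Crest.Agent.R012.NonCube52
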