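import Mathlib

/-!
# Row 12, part (P3)+(P4): the 3-4-1 argument and bounds for the derivatives of `L'/L`
on `Re s > 1`, in abstract form (helper994).

Everything is about pairs of coefficient sequences `a l : ℕ → ℂ` with `log · a = a ⍟ l`,
`a 1 = 1`, both with abscissa of absolute convergence `≤ 1` (`LogPair a l`).
For the application `a n = ∑_{b primary, nm b = n} ψ b` and
`l n = ∑_{b primary, nm b = n} Λ b ψ b`.

* `LogPair.ne_zero`      : `LSeries a s ≠ 0` for `1 < re s` (automatic)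
* `three_four_one`       : `1 ≤ ‖L₀(x)‖³ ‖L₁(x+it)‖⁴ ‖L₂(x+2it)‖`
* `lower_bound`          : `‖L₁(x+it)‖ ≥ 1/(16 C³ M M'³)`
* `iteratedDeriv_bound`  : bound for the `k`-th derivative of `LSeries l₁`
* `main`                 : everything together, polylog form.
-/

set_option autoImplicit false

open Complex Filter Topology LSeries
open scoped LSeries.notation

namespace Crest.Agent.R012.P34994

noncomputable section

/-- `a` and `l` are related like `ψ` and `Λ ψ`. -/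
structure LogPair (a l : ℕ → ℂ) : Prop where
  one : a 1 = 1
  absA : abscissaOfAbsConv a ≤ 1
  absL : abscissaOfAbsConv l ≤ 1
  conv : ∀ n : ℕ, n ≠ 0 → logMul a n = (a ⍟ l) n

variable {a l : ℕ → ℂ}

lemma abs_lt {f : ℕ → ℂ} (hf : abscissaOfAbsConv f ≤ 1) {s : ℂ} (hs : 1 < s.re) :
    abscissaOfAbsConv f < s.re :=
  lt_of_le_of_lt hf (by exact_mod_cast hs)

lemma LogPair.logMul_eq (h : LogPair a l) {s : ℂ} (hs : 1 < s.re) :
    LSeries (logMul a) s = LSeries a s * LSeries l s := by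
  rw [← LSeries_convolution (abs_lt h.absA hs) (abs_lt h.absL hs)]
  exact LSeries_congr (fun {n} hn => h.conv n hn) s

lemma LogPair.hasDerivAt (h : LogPair a l) {s : ℂ} (hs : 1 < s.re) :
    HasDerivAt (LSeries a) (-(LSeries a s * LSeries l s)) s := by
  have := LSeries_hasDerivAt (abs_lt h.absA hs)
  rwa [h.logMul_eq hs] at this

lemma LogPair.hasDerivAt_line (h : LogPair a l) (t : ℝ) {x : ℝ} (hx : 1 < x) :
    HasDerivAt (fun y : ℝ => LSeries a (y + t * I))
      (-(LSeries a (x + t * I) * LSeries l (x + t * I))) x := by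
  have h1 : HasDerivAt (LSeries a) (-(LSeries a (x + t * I) * LSeries l (x + t * I)))
      (x + t * I) := h.hasDerivAt (by simpa using hx)
  have h2 : HasDerivAt (fun z : ℂ => z + t * I) 1 (x : ℂ) := (hasDerivAt_id _).add_const _
  have h3 := HasDerivAt.comp (x : ℂ) h1 h2
  have h4 := h3.comp_ofReal
  simpa [Function.comp_def] using h4

/-- the limit at infinity along a horizontal line -/
lemma tendsto_line {f : ℕ → ℂ} (hf : abscissaOfAbsConv f ≤ 1) (t : ℝ) :
    Tendsto (fun x : ℝ => LSeries f (x + t * I)) atTop (𝓝 (f 1)) := by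
  set g : ℕ → ℂ := fun n => f n * (n : ℂ) ^ (-(t * I)) with hg
  have hterm : ∀ (x : ℝ) (n : ℕ), term f (x + t * I) n = term g x n := by
    intro x n
    rcases eq_or_ne n 0 with rfl | hn
    · simp
    · rw [term_of_ne_zero hn, term_of_ne_zero hn, hg]
      have hn' : (n : ℂ) ≠ 0 := by exact_mod_cast hn
      simp only
      rw [cpow_add _ _ hn', cpow_neg]
      field_simp
  have hL : ∀ x : ℝ, LSeries f (x + t * I) = LSeries g x := by
    intro x
    unfold LSeries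
    exact tsum_congr (hterm x)
  have hsum : LSeriesSummable g (2 : ℝ) := by
    have : LSeriesSummable f ((2 : ℝ) + t * I) :=
      LSeriesSummable_of_abscissaOfAbsConv_lt_re (abs_lt hf (by simp))
    unfold LSeriesSummable at this ⊢
    exact this.congr (fun n => hterm 2 n)
  have hg' : abscissaOfAbsConv g < ⊤ :=
    lt_of_le_of_lt hsum.abscissaOfAbsConv_le (EReal.coe_lt_top _)
  have := LSeries.tendsto_atTop hg'
  simp_rw [hL]
  have hg1 : g 1 = f 1 := by simp [hg]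
  rwa [hg1] at this

lemma continuousOn_line {f : ℕ → ℂ} (hf : abscissaOfAbsConv f ≤ 1) (t : ℝ) :
    ContinuousOn (fun x : ℝ => LSeries f (x + t * I)) (Set.Ioi 1) := by
  intro x hx
  have h1 : ContinuousAt (LSeries f) (x + t * I) :=
    (LSeries_hasDerivAt (abs_lt hf (by simpa using hx))).continuousAt
  have h2 : ContinuousAt (fun y : ℝ => (y : ℂ) + t * I) x := by fun_prop
  exact (ContinuousAt.comp (f := fun y : ℝ => (y : ℂ) + t * I) h1 h2).continuousWithinAt

/-- Non-vanishing on `Re s > 1` is automatic. -/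
theorem LogPair.ne_zero (h : LogPair a l) {s : ℂ} (hs : 1 < s.re) : LSeries a s ≠ 0 := by
  intro h0
  -- on the line through `s`, `g' = -P g`
  set t := s.im
  set x₀ := s.re
  have hs' : s = (x₀ : ℂ) + t * I := (Complex.re_add_im s).symm
  set P : ℝ → ℂ := fun x => LSeries l (max x x₀ + t * I) with hP
  have hPc : Continuous P := by
    rw [continuous_iff_continuousAt]
    intro x
    have h1 : ContinuousAt (LSeries l) (((max x x₀ : ℝ) : ℂ) + t * I) :=
      (LSeries_hasDerivAt (abs_lt h.absL (by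
        simp only [add_re, ofReal_re, mul_re, I_re, mul_zero, ofReal_im, I_im, mul_one, sub_self,
          add_zero]
        exact lt_of_lt_of_le hs (le_max_right _ _)))).continuousAt
    have h2 : ContinuousAt (fun y : ℝ => ((max y x₀ : ℝ) : ℂ) + t * I) x := by fun_prop
    exact ContinuousAt.comp (f := fun y : ℝ => ((max y x₀ : ℝ) : ℂ) + t * I) h1 h2
  set E : ℝ → ℂ := fun x => Complex.exp (∫ u in x₀..x, P u) with hE
  have hEd : ∀ x, HasDerivAt E (E x * P x) x := by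
    intro x
    have := (intervalIntegral.integral_hasDerivAt_right (hPc.intervalIntegrable x₀ x)
      (hPc.stronglyMeasurableAtFilter _ _) hPc.continuousAt)
    exact this.cexp
  set F : ℝ → ℂ := fun x => LSeries a (x + t * I) * E x with hF
  have hFd : ∀ x, x₀ ≤ x → HasDerivAt F 0 x := by
    intro x hx
    have h1 := (h.hasDerivAt_line t (lt_of_lt_of_le hs hx)).mul (hEd x)
    have h2 : P x = LSeries l (x + t * I) := by simp only [hP, max_eq_left hx]
    rw [h2] at h1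
    refine h1.congr_deriv ?_
    ring
  have hconst : ∀ x, x₀ ≤ x → F x = 0 := by
    intro x hx
    have hF0 : F x₀ = 0 := by
      simp only [hF]
      rw [← hs', h0, zero_mul]
    have := (convex_Icc x₀ x).norm_image_sub_le_of_norm_hasDerivWithin_le (f := F)
      (f' := fun _ => 0) (C := 0) (x := x₀) (y := x)
      (fun y hy => (hFd y hy.1).hasDerivWithinAt) (by simp) ⟨le_rfl, hx⟩ ⟨hx, le_rfl⟩
    rw [zero_mul, hF0, sub_zero] at this
    exact norm_le_zero_iff.mp this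
  have hzero : ∀ x, x₀ ≤ x → LSeries a (x + t * I) = 0 := by
    intro x hx
    have := hconst x hx
    rcases mul_eq_zero.mp this with h1 | h1
    · exact h1
    · exact absurd h1 (Complex.exp_ne_zero _)
  have hlim := tendsto_line h.absA t
  rw [h.one] at hlim
  have hlim0 : Tendsto (fun x : ℝ => LSeries a (x + t * I)) atTop (𝓝 0) := by
    refine tendsto_const_nhds.congr' ?_
    filter_upwards [eventually_ge_atTop x₀] with x hx
    exact (hzero x hx).symm
  exact one_ne_zero (tendsto_nhds_unique hlim hlim0)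

/-- derivative of `log ‖L‖` along a horizontal line -/
lemma LogPair.hasDerivAt_logNorm (h : LogPair a l) (t : ℝ) {x : ℝ} (hx : 1 < x) :
    HasDerivAt (fun y : ℝ => Real.log ‖LSeries a (y + t * I)‖)
      (-(LSeries l (x + t * I)).re) x := by
  have hne : LSeries a (x + t * I) ≠ 0 := h.ne_zero (by simpa using hx)
  have h1 := (h.hasDerivAt_line t hx).norm_sq
  have hpos : 0 < ‖LSeries a (x + t * I)‖ := norm_pos_iff.mpr hne
  have h2 := h1.log (by positivity)
  have h3 : (fun y : ℝ => Real.log ‖LSeries a (y + t * I)‖) =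
      fun y : ℝ => (1 / 2) * Real.log (‖LSeries a (y + t * I)‖ ^ 2) := by
    funext y
    rw [Real.log_pow]
    push_cast
    ring
  rw [h3]
  have h4 := h2.const_mul (1 / 2 : ℝ)
  refine h4.congr_deriv ?_
  have h5 : inner ℝ (LSeries a (x + t * I)) (-(LSeries a (x + t * I) * LSeries l (x + t * I))) =
      -(‖LSeries a (x + t * I)‖ ^ 2 * (LSeries l (x + t * I)).re) := by
    rw [Complex.inner]
    have : -(LSeries a (x + t * I) * LSeries l (x + t * I)) *
        starRingEnd ℂ (LSeries a (x + t * I)) =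
        -(((‖LSeries a (x + t * I)‖ ^ 2 : ℝ) : ℂ) * LSeries l (x + t * I)) := by
      rw [← Complex.normSq_eq_norm_sq, Complex.normSq_eq_conj_mul_self]
      ring
    rw [this, neg_re, re_ofReal_mul]
  rw [h5]
  field_simp

/-- the 3-4-1 inequality -/
theorem three_four_one {a₀ a₁ a₂ l₀ l₁ l₂ : ℕ → ℂ} (h₀ : LogPair a₀ l₀) (h₁ : LogPair a₁ l₁)
    (h₂ : LogPair a₂ l₂)
    (pos : ∀ (n : ℕ) (z : ℂ), n ≠ 0 → ‖z‖ = 1 → 0 ≤ (3 * l₀ n + 4 * (l₁ n * z) + l₂ n * z ^ 2).re)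
    (t : ℝ) {x : ℝ} (hx : 1 < x) :
    1 ≤ ‖LSeries a₀ x‖ ^ 3 * ‖LSeries a₁ (x + t * I)‖ ^ 4 *
      ‖LSeries a₂ (x + (2 * t : ℝ) * I)‖ := by
  set f : ℝ → ℝ := fun y => 3 * Real.log ‖LSeries a₀ (y + (0 : ℝ) * I)‖ +
    4 * Real.log ‖LSeries a₁ (y + t * I)‖ + Real.log ‖LSeries a₂ (y + (2 * t : ℝ) * I)‖ with hf
  have hfd : ∀ y : ℝ, 1 < y → HasDerivAt f (-(3 * (LSeries l₀ (y + (0 : ℝ) * I)).re +
      4 * (LSeries l₁ (y + t * I)).re + (LSeries l₂ (y + (2 * t : ℝ) * I)).re)) y := by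
    intro y hy
    have := (((h₀.hasDerivAt_logNorm 0 hy).const_mul 3).add
      ((h₁.hasDerivAt_logNorm t hy).const_mul 4)).add (h₂.hasDerivAt_logNorm (2 * t) hy)
    refine this.congr_deriv ?_
    ring
  have hpos : ∀ y : ℝ, 1 < y → 0 ≤ 3 * (LSeries l₀ (y + (0 : ℝ) * I)).re +
      4 * (LSeries l₁ (y + t * I)).re + (LSeries l₂ (y + (2 * t : ℝ) * I)).re := by
    intro y hy
    have s0 : LSeriesSummable l₀ (y + (0 : ℝ) * I) :=
      LSeriesSummable_of_abscissaOfAbsConv_lt_re (abs_lt h₀.absL (by simpa using hy))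
    have s1 : LSeriesSummable l₁ (y + t * I) :=
      LSeriesSummable_of_abscissaOfAbsConv_lt_re (abs_lt h₁.absL (by simpa using hy))
    have s2 : LSeriesSummable l₂ (y + (2 * t : ℝ) * I) :=
      LSeriesSummable_of_abscissaOfAbsConv_lt_re (abs_lt h₂.absL (by simpa using hy))
    unfold LSeriesSummable at s0 s1 s2
    have hs : HasSum (fun n => (3 * term l₀ (y + (0 : ℝ) * I) n + 4 * term l₁ (y + t * I) n +
        term l₂ (y + (2 * t : ℝ) * I) n).re)
        ((3 * LSeries l₀ (y + (0 : ℝ) * I) + 4 * LSeries l₁ (y + t * I) +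
        LSeries l₂ (y + (2 * t : ℝ) * I)).re) :=
      Complex.hasSum_re (((s0.hasSum.mul_left 3).add (s1.hasSum.mul_left 4)).add s2.hasSum)
    have e1 : 3 * (LSeries l₀ (y + (0 : ℝ) * I)).re +
      4 * (LSeries l₁ (y + t * I)).re + (LSeries l₂ (y + (2 * t : ℝ) * I)).re =
      (3 * LSeries l₀ (y + (0 : ℝ) * I) + 4 * LSeries l₁ (y + t * I) +
        LSeries l₂ (y + (2 * t : ℝ) * I)).re := by
      simp
    rw [e1, ← hs.tsum_eq]
    refine tsum_nonneg (fun n => ?_)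
    rcases eq_or_ne n 0 with rfl | hn
    · simp
    · rw [term_of_ne_zero hn, term_of_ne_zero hn, term_of_ne_zero hn]
      have hn' : (n : ℂ) ≠ 0 := by exact_mod_cast hn
      set z : ℂ := (n : ℂ) ^ (-(t * I)) with hz
      have hzn : ‖z‖ = 1 := by
        rw [hz, Complex.norm_natCast_cpow_of_pos (Nat.pos_of_ne_zero hn)]
        simp
      have hny : (0 : ℝ) < (n : ℝ) ^ y := by positivity
      have e0 : (n : ℂ) ^ ((y : ℂ) + (0 : ℝ) * I) = (((n : ℝ) ^ y : ℝ) : ℂ) := by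
        rw [Complex.ofReal_cpow (Nat.cast_nonneg n)]
        simp
      have ex1 : (n : ℂ) ^ ((y : ℂ) + t * I) * z = (((n : ℝ) ^ y : ℝ) : ℂ) := by
        rw [hz, ← cpow_add _ _ hn', Complex.ofReal_cpow (Nat.cast_nonneg n)]
        simp
      have ex2 : (n : ℂ) ^ ((y : ℂ) + (2 * t : ℝ) * I) * z ^ 2 = (((n : ℝ) ^ y : ℝ) : ℂ) := by
        rw [hz, pow_two, ← cpow_add _ _ hn', ← cpow_add _ _ hn',
          Complex.ofReal_cpow (Nat.cast_nonneg n)]
        congr 1
        push_cast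
        ring
      have hz0 : z ≠ 0 := by
        intro h
        rw [h, norm_zero] at hzn
        exact zero_ne_one hzn
      have hN : (((n : ℝ) ^ y : ℝ) : ℂ) ≠ 0 := by exact_mod_cast hny.ne'
      have d1 : l₁ n / (n : ℂ) ^ ((y : ℂ) + t * I) = l₁ n * z / (((n : ℝ) ^ y : ℝ) : ℂ) := by
        rw [← ex1]
        field_simp
      have d2 : l₂ n / (n : ℂ) ^ ((y : ℂ) + (2 * t : ℝ) * I) =
          l₂ n * z ^ 2 / (((n : ℝ) ^ y : ℝ) : ℂ) := by
        rw [← ex2]
        field_simp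
      rw [e0, d1, d2]
      have : 3 * (l₀ n / (((n : ℝ) ^ y : ℝ) : ℂ)) + 4 * (l₁ n * z / (((n : ℝ) ^ y : ℝ) : ℂ)) +
          l₂ n * z ^ 2 / (((n : ℝ) ^ y : ℝ) : ℂ) =
          (3 * l₀ n + 4 * (l₁ n * z) + l₂ n * z ^ 2) / (((n : ℝ) ^ y : ℝ) : ℂ) := by ring
      rw [this, Complex.div_ofReal_re]
      exact div_nonneg (pos n z hn hzn) hny.le
  -- `f` is antitone on `(1, ∞)` and tends to `0`
  have hanti : AntitoneOn f (Set.Ici x) := by
    refine antitoneOn_of_deriv_nonpos (convex_Ici x) ?_ ?_ ?_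
    · intro y hy
      exact (hfd y (lt_of_lt_of_le hx hy)).continuousAt.continuousWithinAt
    · intro y hy
      rw [interior_Ici] at hy
      exact (hfd y (hx.trans hy)).differentiableAt.differentiableWithinAt
    · intro y hy
      rw [interior_Ici] at hy
      rw [(hfd y (hx.trans hy)).deriv]
      have := hpos y (hx.trans hy)
      linarith
  have hlim : Tendsto f atTop (𝓝 0) := by
    have LL : ∀ (a l : ℕ → ℂ), LogPair a l → ∀ t : ℝ,
        Tendsto (fun y : ℝ => Real.log ‖LSeries a (y + t * I)‖) atTop (𝓝 0) := by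
      intro a l h t
      have h1 := (tendsto_line h.absA t).norm
      rw [h.one, norm_one] at h1
      have h2 := h1.log one_ne_zero
      rwa [Real.log_one] at h2
    have := (((LL _ _ h₀ 0).const_mul 3).add ((LL _ _ h₁ t).const_mul 4)).add (LL _ _ h₂ (2 * t))
    simpa [hf] using this
  have hfx : 0 ≤ f x := by
    refine le_of_tendsto hlim ?_
    filter_upwards [eventually_ge_atTop x] with y hy
    exact hanti (Set.mem_Ici.mpr le_rfl) (Set.mem_Ici.mpr hy) hy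
  have n0 : 0 < ‖LSeries a₀ (x + (0 : ℝ) * I)‖ := norm_pos_iff.mpr (h₀.ne_zero (by simpa using hx))
  have n1 : 0 < ‖LSeries a₁ (x + t * I)‖ := norm_pos_iff.mpr (h₁.ne_zero (by simpa using hx))
  have n2 : 0 < ‖LSeries a₂ (x + (2 * t : ℝ) * I)‖ :=
    norm_pos_iff.mpr (h₂.ne_zero (by simpa using hx))
  have e : ‖LSeries a₀ x‖ ^ 3 * ‖LSeries a₁ (x + t * I)‖ ^ 4 *
      ‖LSeries a₂ (x + (2 * t : ℝ) * I)‖ = Real.exp (f x) := by
    simp only [hf]
    rw [Real.exp_add, Real.exp_add, Real.exp_log n2,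
      show (3 : ℝ) * Real.log ‖LSeries a₀ (x + (0 : ℝ) * I)‖ =
        ((3 : ℕ) : ℝ) * Real.log ‖LSeries a₀ (x + (0 : ℝ) * I)‖ by norm_num,
      show (4 : ℝ) * Real.log ‖LSeries a₁ (x + t * I)‖ =
        ((4 : ℕ) : ℝ) * Real.log ‖LSeries a₁ (x + t * I)‖ by norm_num,
      Real.exp_nat_mul, Real.exp_nat_mul, Real.exp_log n0, Real.exp_log n1]
    simp
  rw [e]
  exact Real.one_le_exp hfx

/-- Lower bound for `L₁` on a horizontal line, from an upper bound `M` for `L₂` on the line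
`2t`, an upper bound `M'` for `L₁'` on the line `t` and a simple pole bound for `L₀`. -/
theorem lower_bound {a₀ a₁ a₂ l₀ l₁ l₂ : ℕ → ℂ} (h₀ : LogPair a₀ l₀) (h₁ : LogPair a₁ l₁)
    (h₂ : LogPair a₂ l₂)
    (pos : ∀ (n : ℕ) (z : ℂ), n ≠ 0 → ‖z‖ = 1 → 0 ≤ (3 * l₀ n + 4 * (l₁ n * z) + l₂ n * z ^ 2).re)
    (t : ℝ) {C M M' : ℝ} (hC : 1 ≤ C) (hM1 : 1 ≤ M) (hM1' : 1 ≤ M')
    (hC0 : ∀ x : ℝ, 1 < x → x ≤ 2 → ‖LSeries a₀ x‖ ≤ C / (x - 1))
    (hM : ∀ x : ℝ, 1 < x → x ≤ 2 → ‖LSeries a₂ (x + (2 * t : ℝ) * I)‖ ≤ M)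
    (hM' : ∀ x : ℝ, 1 < x → x ≤ 2 → ‖deriv (LSeries a₁) (x + t * I)‖ ≤ M')
    {x : ℝ} (hx1 : 1 < x) (hx2 : x ≤ 2) :
    1 / (16 * C ^ 3 * M * M' ^ 3) ≤ ‖LSeries a₁ (x + t * I)‖ := by
  have hC' : 0 < C := by linarith
  have hMp : 0 < M := by linarith
  have hMp' : 0 < M' := by linarith
  set y : ℝ := 1 / (16 * C ^ 3 * M * M' ^ 4) with hy
  have hy0 : 0 < y := by positivity
  have hy1 : y ≤ 1 := by
    rw [hy, div_le_one (by positivity)]
    have e1 : 1 ≤ C ^ 3 := one_le_pow₀ hC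
    have e2 : 1 ≤ M' ^ 4 := one_le_pow₀ hM1'
    have e3 : 1 ≤ C ^ 3 * M := one_le_mul_of_one_le_of_one_le e1 hM1
    have e4 : 1 ≤ C ^ 3 * M * M' ^ 4 := one_le_mul_of_one_le_of_one_le e3 e2
    linarith
  have hyM : M' * y = 1 / (16 * C ^ 3 * M * M' ^ 3) := by
    rw [hy]
    field_simp
  have key : ∀ z : ℝ, y ≤ z - 1 → z ≤ 2 → 2 * M' * y ≤ ‖LSeries a₁ (z + t * I)‖ := by
    intro z hz hz2
    have hz1 : 1 < z := by linarith
    have hzp : 0 < z - 1 := by linarith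
    have h := three_four_one h₀ h₁ h₂ pos t hz1
    have h3 : 1 ≤ (C / (z - 1)) ^ 3 * ‖LSeries a₁ (z + t * I)‖ ^ 4 * M := by
      refine h.trans ?_
      have := hC0 z hz1 hz2
      have := hM z hz1 hz2
      gcongr
    have h4 : (z - 1) ^ 3 / (C ^ 3 * M) ≤ ‖LSeries a₁ (z + t * I)‖ ^ 4 := by
      rw [div_le_iff₀ (by positivity)]
      calc (z - 1) ^ 3 = (z - 1) ^ 3 * 1 := (mul_one _).symm
        _ ≤ (z - 1) ^ 3 * ((C / (z - 1)) ^ 3 * ‖LSeries a₁ (z + t * I)‖ ^ 4 * M) := by gcongr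
        _ = ‖LSeries a₁ (z + t * I)‖ ^ 4 * (C ^ 3 * M) := by
            field_simp
    have h5 : (2 * M' * y) ^ 4 ≤ ‖LSeries a₁ (z + t * I)‖ ^ 4 := by
      refine le_trans ?_ h4
      have h6 : (2 * M' * y) ^ 4 = y ^ 3 / (C ^ 3 * M) := by
        have e : y ^ 4 = y ^ 3 * (1 / (16 * C ^ 3 * M * M' ^ 4)) := by rw [← hy]; ring
        rw [mul_pow, e]
        field_simp
        norm_num
      rw [h6]
      gcongr
    exact (pow_le_pow_iff_left₀ (by positivity) (norm_nonneg _) (by norm_num)).mp h5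
  rw [← hyM]
  rcases le_or_gt y (x - 1) with h | h
  · have := key x h hx2
    have : 0 < M' * y := by positivity
    linarith
  · have hw := key (1 + y) (by linarith) (by linarith)
    have hdiff := (convex_Icc x (1 + y)).norm_image_sub_le_of_norm_hasDerivWithin_le
      (f := fun u : ℝ => LSeries a₁ (u + t * I)) (f' := fun u : ℝ => deriv (LSeries a₁) (u + t * I))
      (C := M') (x := x) (y := 1 + y)
      (fun u hu => by
        have hu1 : 1 < u := lt_of_lt_of_le hx1 hu.1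
        have := h₁.hasDerivAt_line t hu1
        have e : deriv (LSeries a₁) (u + t * I) =
            -(LSeries a₁ (u + t * I) * LSeries l₁ (u + t * I)) :=
          (h₁.hasDerivAt (by simpa using hu1)).deriv
        rw [e]
        exact this.hasDerivWithinAt)
      (fun u hu => hM' u (lt_of_lt_of_le hx1 hu.1) (by linarith [hu.2]))
      ⟨le_rfl, by linarith⟩ ⟨by linarith, le_rfl⟩
    have h6 : ‖(1 + y) - x‖ ≤ y := by
      rw [Real.norm_eq_abs, abs_le]
      constructor <;> linarith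
    have h7 : ‖LSeries a₁ ((1 + y : ℝ) + t * I)‖ - ‖LSeries a₁ (x + t * I)‖ ≤
        ‖LSeries a₁ ((1 + y : ℝ) + t * I) - LSeries a₁ (x + t * I)‖ := norm_sub_norm_le _ _
    have h8 : M' * ‖(1 + y) - x‖ ≤ M' * y := by gcongr
    linarith

/-- positivity input of the 3-4-1 argument, for sums `l n = ∑ w b ψ b` -/
theorem pos_of_sum {ι : Type*} (S : Finset ι) (w : ι → ℝ) (hw : ∀ b ∈ S, 0 ≤ w b) (ψ : ι → ℂ)
    (hψ : ∀ b ∈ S, ‖ψ b‖ ≤ 1) (z : ℂ) (hz : ‖z‖ = 1) :
    0 ≤ (3 * (∑ b ∈ S, (w b : ℂ)) + 4 * ((∑ b ∈ S, (w b : ℂ) * ψ b) * z) +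
      (∑ b ∈ S, (w b : ℂ) * ψ b ^ 2) * z ^ 2).re := by
  have e : 3 * (∑ b ∈ S, (w b : ℂ)) + 4 * ((∑ b ∈ S, (w b : ℂ) * ψ b) * z) +
      (∑ b ∈ S, (w b : ℂ) * ψ b ^ 2) * z ^ 2 =
      ∑ b ∈ S, (w b : ℂ) * (3 + 4 * (ψ b * z) + (ψ b * z) ^ 2) := by
    rw [Finset.sum_mul, Finset.sum_mul, Finset.mul_sum, Finset.mul_sum, ← Finset.sum_add_distrib,
      ← Finset.sum_add_distrib]
    refine Finset.sum_congr rfl (fun b _ => ?_)
    ring
  rw [e, Complex.re_sum]
  refine Finset.sum_nonneg (fun b hb => ?_)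
  rw [re_ofReal_mul]
  refine mul_nonneg (hw b hb) ?_
  set u := ψ b * z with hu
  have hun : ‖u‖ ≤ 1 := by
    rw [hu, norm_mul, hz, mul_one]
    exact hψ b hb
  have h1 : u.re ^ 2 + u.im ^ 2 ≤ 1 := by
    have := Complex.normSq_eq_norm_sq u
    rw [Complex.normSq_apply] at this
    have h2 : ‖u‖ ^ 2 ≤ 1 := pow_le_one₀ (norm_nonneg _) hun
    nlinarith
  have h2 : (3 + 4 * u + u ^ 2).re = 3 + 4 * u.re + (u.re ^ 2 - u.im ^ 2) := by
    simp [pow_two]
  rw [h2]
  nlinarith [sq_nonneg (1 + u.re)]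

lemma LogPair.iteratedDeriv_succ_eq (h : LogPair a l) (k : ℕ) {s : ℂ} (hs : 1 < s.re) :
    iteratedDeriv (k + 1) (LSeries a) s = -∑ i ∈ Finset.range (k + 1),
      (k.choose i : ℂ) * iteratedDeriv i (LSeries l) s * iteratedDeriv (k - i) (LSeries a) s := by
  have hcl : ContDiffAt ℂ k (LSeries l) s :=
    (LSeries_analyticOnNhd l s (abs_lt h.absL hs)).contDiffAt
  have hca : ContDiffAt ℂ k (LSeries a) s :=
    (LSeries_analyticOnNhd a s (abs_lt h.absA hs)).contDiffAt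
  rw [← iteratedDeriv_mul hcl hca, iteratedDeriv_succ']
  have hev : deriv (LSeries a) =ᶠ[𝓝 s] -(LSeries l * LSeries a) := by
    have ho : IsOpen {z : ℂ | 1 < z.re} := isOpen_lt continuous_const continuous_re
    filter_upwards [ho.mem_nhds hs] with z hz
    rw [(h.hasDerivAt hz).deriv]
    simp only [Pi.neg_apply, Pi.mul_apply]
    ring
  rw [hev.iteratedDeriv_eq k, iteratedDeriv_neg]

/-- Bounds for the derivatives of `LSeries l = -L'/L`. -/
theorem iteratedDeriv_bound (B : ℝ) (hB : 1 ≤ B) (k : ℕ) : ∃ D : ℝ, 1 ≤ D ∧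
    ∀ i ≤ k, ∀ (a l : ℕ → ℂ), LogPair a l → ∀ (s : ℂ), 1 < s.re → ∀ T : ℝ, 1 ≤ T →
      (∀ j ≤ i + 1, ‖iteratedDeriv j (LSeries a) s‖ ≤ B * T ^ (j + 1)) →
      1 / (B * T ^ 7) ≤ ‖LSeries a s‖ →
      ‖iteratedDeriv i (LSeries l) s‖ ≤ D * T ^ (9 * (i + 1)) := by
  have step : ∀ (i : ℕ) (D : ℝ), 1 ≤ D →
      ∀ (a l : ℕ → ℂ), LogPair a l → ∀ (s : ℂ), 1 < s.re → ∀ T : ℝ, 1 ≤ T →
      (∀ j ≤ i + 1, ‖iteratedDeriv j (LSeries a) s‖ ≤ B * T ^ (j + 1)) →
      1 / (B * T ^ 7) ≤ ‖LSeries a s‖ →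
      (∀ j < i, ‖iteratedDeriv j (LSeries l) s‖ ≤ D * T ^ (9 * (j + 1))) →
      ‖iteratedDeriv i (LSeries l) s‖ ≤ B ^ 2 * (1 + 2 ^ i * D) * T ^ (9 * (i + 1)) := by
    intro i D hD a l h s hs T hT hj hlow hind
    have hT0 : 0 < T := by linarith
    have hB0 : 0 < B := by linarith
    have e := h.iteratedDeriv_succ_eq i hs
    rw [Finset.sum_range_succ, Nat.choose_self, Nat.sub_self, iteratedDeriv_zero] at e
    have e2 : iteratedDeriv i (LSeries l) s * LSeries a s =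
        -iteratedDeriv (i + 1) (LSeries a) s - ∑ j ∈ Finset.range i,
      (i.choose j : ℂ) * iteratedDeriv j (LSeries l) s * iteratedDeriv (i - j) (LSeries a) s := by
      rw [e]
      push_cast
      ring
    have h1 : ‖iteratedDeriv i (LSeries l) s‖ * ‖LSeries a s‖ ≤
        B * T ^ (i + 2) + ∑ j ∈ Finset.range i, (i.choose j : ℝ) * (B * D * T ^ (9 * i + 2)) := by
      rw [← norm_mul, e2]
      refine (norm_sub_le _ _).trans ?_
      rw [norm_neg]
      refine add_le_add (hj (i + 1) le_rfl) ((norm_sum_le _ _).trans (Finset.sum_le_sum ?_))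
      intro j hjr
      rw [Finset.mem_range] at hjr
      rw [norm_mul, norm_mul, Complex.norm_natCast, mul_assoc]
      refine mul_le_mul_of_nonneg_left ?_ (Nat.cast_nonneg _)
      calc ‖iteratedDeriv j (LSeries l) s‖ * ‖iteratedDeriv (i - j) (LSeries a) s‖
          ≤ (D * T ^ (9 * (j + 1))) * (B * T ^ (i - j + 1)) := by
            have := hind j hjr
            have := hj (i - j) (by omega)
            gcongr
        _ = B * D * T ^ (9 * (j + 1) + (i - j + 1)) := by ring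
        _ ≤ B * D * T ^ (9 * i + 2) := by
            have : 9 * (j + 1) + (i - j + 1) ≤ 9 * i + 2 := by omega
            gcongr
    rw [← Finset.sum_mul] at h1
    have h2 : (∑ j ∈ Finset.range i, (i.choose j : ℝ)) ≤ 2 ^ i := by
      have h3 : (∑ j ∈ Finset.range (i + 1), i.choose j) = 2 ^ i := Nat.sum_range_choose i
      have h4 : (∑ j ∈ Finset.range (i + 1), (i.choose j : ℝ)) = 2 ^ i := by exact_mod_cast h3
      rw [← h4, Finset.sum_range_succ]
      have : (0 : ℝ) ≤ i.choose i := Nat.cast_nonneg _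
      linarith
    have h5 : ‖iteratedDeriv i (LSeries l) s‖ * ‖LSeries a s‖ ≤
        B * (1 + 2 ^ i * D) * T ^ (9 * i + 2) := by
      refine h1.trans ?_
      have h6 : T ^ (i + 2) ≤ T ^ (9 * i + 2) := pow_le_pow_right₀ hT (by omega)
      calc B * T ^ (i + 2) + (∑ j ∈ Finset.range i, (i.choose j : ℝ)) * (B * D * T ^ (9 * i + 2))
          ≤ B * T ^ (9 * i + 2) + 2 ^ i * (B * D * T ^ (9 * i + 2)) := by gcongr
        _ = _ := by ring
    have h7 : ‖iteratedDeriv i (LSeries l) s‖ * (1 / (B * T ^ 7)) ≤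
        B * (1 + 2 ^ i * D) * T ^ (9 * i + 2) :=
      (mul_le_mul_of_nonneg_left hlow (norm_nonneg _)).trans h5
    rw [mul_one_div, div_le_iff₀ (by positivity)] at h7
    refine h7.trans (le_of_eq ?_)
    have : 9 * (i + 1) = (9 * i + 2) + 7 := by ring
    rw [this, pow_add T (9 * i + 2) 7]
    ring
  induction k with
  | zero =>
    refine ⟨B ^ 2 * (1 + 2 ^ 0 * 1), ?_, ?_⟩
    · have : 1 ≤ B ^ 2 := one_le_pow₀ hB
      nlinarith
    · intro i hi a l h s hs T hT hj hlow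
      obtain rfl : i = 0 := by omega
      exact step 0 1 le_rfl a l h s hs T hT hj hlow (fun j hj => by omega)
  | succ k ih =>
    obtain ⟨D, hD, hDk⟩ := ih
    have hBsq : 1 ≤ B ^ 2 := one_le_pow₀ hB
    have h2k : (1 : ℝ) ≤ 2 ^ (k + 1) := one_le_pow₀ (by norm_num)
    refine ⟨max D (B ^ 2 * (1 + 2 ^ (k + 1) * D)), hD.trans (le_max_left _ _), ?_⟩
    intro i hi a l h s hs T hT hj hlow
    have hTp : 0 ≤ T ^ (9 * (i + 1)) := by positivity
    rcases Nat.lt_or_ge i (k + 1) with h1 | h1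
    · exact (hDk i (by omega) a l h s hs T hT hj hlow).trans
        (mul_le_mul_of_nonneg_right (le_max_left _ _) hTp)
    · obtain rfl : i = k + 1 := by omega
      refine (step (k + 1) D hD a l h s hs T hT hj hlow (fun j hjk => ?_)).trans
        (mul_le_mul_of_nonneg_right (le_max_right _ _) hTp)
      exact hDk j (by omega) a l h s hs T hT (fun j' hj' => hj j' (by omega)) hlow

/-- The size parameter. -/
def TT (Q : ℝ) (s : ℂ) : ℝ := Real.log (Q * (|s.im| + 2))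

lemma one_le_TT {Q : ℝ} (hQ : 2 ≤ Q) (s : ℂ) : 1 ≤ TT Q s := by
  unfold TT
  rw [Real.le_log_iff_exp_le (by positivity)]
  have h1 : Real.exp 1 < 3 := Real.exp_one_lt_three
  nlinarith [abs_nonneg s.im]

/-- **(P3)+(P4)**: polylogarithmic bounds for the derivatives of `LSeries l₁ = -L₁'/L₁`. -/
theorem main (k : ℕ) (C₀ : ℝ) (hC₀ : 1 ≤ C₀) : ∃ K : ℝ, 1 ≤ K ∧
    ∀ (a₀ a₁ a₂ l₀ l₁ l₂ : ℕ → ℂ), LogPair a₀ l₀ → LogPair a₁ l₁ → LogPair a₂ l₂ →
    (∀ (n : ℕ) (z : ℂ), n ≠ 0 → ‖z‖ = 1 → 0 ≤ (3 * l₀ n + 4 * (l₁ n * z) + l₂ n * z ^ 2).re) →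
    ∀ Q : ℝ, 2 ≤ Q →
    (∀ x : ℝ, 1 < x → x ≤ 2 → ‖LSeries a₀ x‖ ≤ C₀ / (x - 1)) →
    (∀ s : ℂ, 1 < s.re → s.re ≤ 2 →
      ‖LSeries a₂ s‖ ≤ C₀ * Real.log (Q * (|s.im| + 2))) →
    (∀ j ≤ k + 1, ∀ s : ℂ, 1 < s.re → s.re ≤ 2 →
      ‖iteratedDeriv j (LSeries a₁) s‖ ≤ C₀ * Real.log (Q * (|s.im| + 2)) ^ (j + 1)) →
    ∀ s : ℂ, 1 < s.re → s.re ≤ 2 →
      ‖iteratedDeriv k (LSeries l₁) s‖ ≤ K * Real.log (Q * (|s.im| + 2)) ^ (9 * (k + 1)) := by
  have hB : 1 ≤ 32 * C₀ ^ 7 := by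
    have : 1 ≤ C₀ ^ 7 := one_le_pow₀ hC₀
    linarith
  obtain ⟨D, hD, hDk⟩ := iteratedDeriv_bound (32 * C₀ ^ 7) hB k
  refine ⟨D, hD, ?_⟩
  intro a₀ a₁ a₂ l₀ l₁ l₂ h₀ h₁ h₂ pos Q hQ hp h2 h1 s hs1 hs2
  have hC00 : 0 < C₀ := by linarith
  have hT1 := one_le_TT hQ s
  have hTdef : TT Q s = Real.log (Q * (|s.im| + 2)) := rfl
  rw [← hTdef]
  have hT0 : 0 < TT Q s := by linarith
  refine hDk k le_rfl a₁ l₁ h₁ s hs1 (TT Q s) hT1 ?_ ?_
  · intro j hj
    refine (h1 j hj s hs1 hs2).trans ?_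
    rw [← hTdef]
    have h7 : C₀ ≤ 32 * C₀ ^ 7 := by
      have : C₀ ^ 1 ≤ C₀ ^ 7 := pow_le_pow_right₀ hC₀ (by norm_num)
      rw [pow_one] at this
      have : 0 < C₀ ^ 7 := by positivity
      linarith
    gcongr
  · have hs : s = (s.re : ℂ) + s.im * I := (Complex.re_add_im s).symm
    have hM1 : 1 ≤ C₀ * (2 * TT Q s) := by nlinarith
    have hM1' : 1 ≤ C₀ * TT Q s ^ 2 :=
      one_le_mul_of_one_le_of_one_le hC₀ (one_le_pow₀ hT1)
    have hlb := lower_bound h₀ h₁ h₂ pos s.im (C := C₀) (M := C₀ * (2 * TT Q s))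
      (M' := C₀ * TT Q s ^ 2) hC₀ hM1 hM1' hp ?_ ?_ hs1 hs2
    · rw [← hs] at hlb
      refine le_trans (le_of_eq ?_) hlb
      congr 1
      ring
    · intro x hx1 hx2
      refine (h2 _ (by simpa using hx1) (by simpa using hx2)).trans ?_
      gcongr
      have e1 : ((x : ℂ) + ((2 * s.im : ℝ) : ℂ) * I).im = 2 * s.im := by simp
      rw [e1, hTdef]
      have h3 : Real.log (Q * (|2 * s.im| + 2)) ≤ Real.log (2 * (Q * (|s.im| + 2))) := by
        apply Real.log_le_log (by positivity)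
        rw [abs_mul, abs_two]
        nlinarith [abs_nonneg s.im]
      refine h3.trans ?_
      rw [Real.log_mul (by norm_num) (by positivity)]
      have h4 : Real.log 2 ≤ Real.log (Q * (|s.im| + 2)) := by
        apply Real.log_le_log (by norm_num)
        nlinarith [abs_nonneg s.im]
      linarith
    · intro x hx1 hx2
      have := h1 1 (by omega) (x + s.im * I) (by simpa using hx1) (by simpa using hx2)
      rw [iteratedDeriv_one] at this
      refine this.trans (le_of_eq ?_)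
      simp [TT]

end

end Crest.Agent.R012.P34994
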