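import Crest.Agent.R012.PSpec_355
import Crest.Agent.R001.SW.EF

/-!
# Row 12 (P), (A1): continuation and bounds for Dirichlet series with `|S(N)| ≤ Q √N`

`theorem A1 : A1_Prop`.
-/

set_option autoImplicit false
set_option maxHeartbeats 1000000
set_option linter.unusedSimpArgs false

noncomputable section

open Finset Complex

namespace Crest.Agent.R012.PA1766

open Crest.Agent.R001.SW (Sm E dl norm_dl_le summable_rpow_aux tsum_tail_le sum_range_E Sm_zero
  sum_Icc_rpow_le)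

section
variable {f : ℕ → ℂ} {Q : ℝ} (hQ0 : 0 ≤ Q) (hQ : ∀ n : ℕ, ‖Sm f n‖ ≤ Q * Real.sqrt n)

include hQ0 hQ

lemma norm_term_le (s : ℂ) (hs : -1 ≤ s.re) (n : ℕ) :
    ‖Sm f (n + 1) * dl s (n + 1)‖ ≤
      Q * ‖s‖ * ((n + 1 : ℕ) : ℝ) ^ (-(s.re - 1 / 2) - 1) := by
  have hn : (0 : ℝ) < ((n + 1 : ℕ) : ℝ) := by positivity
  rw [norm_mul]
  have h1 := norm_dl_le s hs (n := n + 1) (by omega)
  calc ‖Sm f (n + 1)‖ * ‖dl s (n + 1)‖
      ≤ (Q * Real.sqrt ((n + 1 : ℕ) : ℝ)) * (‖s‖ * ((n + 1 : ℕ) : ℝ) ^ (-s.re - 1)) :=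
        mul_le_mul (hQ _) h1 (norm_nonneg _) (by positivity)
    _ = Q * ‖s‖ * (((n + 1 : ℕ) : ℝ) ^ ((1 : ℝ) / 2) * ((n + 1 : ℕ) : ℝ) ^ (-s.re - 1)) := by
        rw [Real.sqrt_eq_rpow]; ring
    _ = _ := by
        rw [← Real.rpow_add hn]
        congr 2
        ring

lemma summable_E {s : ℂ} (hs : 1 / 2 < s.re) :
    Summable (fun n : ℕ => Sm f (n + 1) * dl s (n + 1)) := by
  refine Summable.of_norm_bounded
    (g := fun n : ℕ => Q * ‖s‖ * ((n + 1 : ℕ) : ℝ) ^ (-(s.re - 1 / 2) - 1))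
    ((summable_rpow_aux (by linarith)).mul_left _) (fun n => norm_term_le hQ0 hQ s (by linarith) n)

/-- truncated bound -/
lemma norm_E_le_trunc {s : ℂ} (hs : 1 / 2 < s.re) {N : ℕ} (hN : 1 ≤ N) :
    ‖E f s‖ ≤ ∑ n ∈ Icc 1 N, ‖f n‖ * (n : ℝ) ^ (-s.re) + Q * (N : ℝ) ^ (-(s.re - 1 / 2)) +
      Q * ‖s‖ * ((N : ℝ) ^ (-(s.re - 1 / 2)) / (s.re - 1 / 2)) := by
  have hN0 : (0 : ℝ) < N := by exact_mod_cast hN
  have hσ : 0 < s.re - 1 / 2 := by linarith
  have h0 : E f s = ∑ n ∈ range N, Sm f (n + 1) * dl s (n + 1) +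
      ∑' n : ℕ, Sm f (n + N + 1) * dl s (n + N + 1) := by
    unfold E
    rw [← Summable.sum_add_tsum_nat_add N (summable_E hQ0 hQ hs)]
  have ht : ‖∑' n : ℕ, Sm f (n + N + 1) * dl s (n + N + 1)‖ ≤
      Q * ‖s‖ * ((N : ℝ) ^ (-(s.re - 1 / 2)) / (s.re - 1 / 2)) := by
    have hsum : Summable (fun n : ℕ => Q * ‖s‖ * ((n + N + 1 : ℕ) : ℝ) ^ (-(s.re - 1 / 2) - 1)) := by
      apply Summable.mul_left
      exact (summable_nat_add_iff N).mpr (summable_rpow_aux hσ)
    have hle : ∀ n : ℕ, ‖Sm f (n + N + 1) * dl s (n + N + 1)‖ ≤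
        Q * ‖s‖ * ((n + N + 1 : ℕ) : ℝ) ^ (-(s.re - 1 / 2) - 1) := fun n =>
      norm_term_le hQ0 hQ s (by linarith) (n + N)
    have hs' : Summable (fun n : ℕ => ‖Sm f (n + N + 1) * dl s (n + N + 1)‖) :=
      Summable.of_nonneg_of_le (fun _ => norm_nonneg _) hle hsum
    refine (norm_tsum_le_tsum_norm hs').trans ((Summable.tsum_le_tsum hle hs' hsum).trans ?_)
    rw [tsum_mul_left]
    exact mul_le_mul_of_nonneg_left (tsum_tail_le hσ hN) (by positivity)
  rw [h0, sum_range_E]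
  refine (norm_add_le _ _).trans (add_le_add ?_ ht)
  refine (norm_sub_le _ _).trans (add_le_add ?_ ?_)
  · refine (norm_sum_le _ _).trans (Finset.sum_le_sum fun n hn => ?_)
    have hn1 := (mem_Icc.mp hn).1
    rw [norm_mul, Complex.norm_natCast_cpow_of_pos hn1, Complex.neg_re]
  · rw [norm_mul, Complex.norm_natCast_cpow_of_pos (Nat.succ_pos N), Complex.neg_re]
    calc ‖Sm f N‖ * ((N + 1 : ℕ) : ℝ) ^ (-s.re)
        ≤ (Q * Real.sqrt N) * (N : ℝ) ^ (-s.re) := by
          refine mul_le_mul (hQ N) ?_ (by positivity) (by positivity)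
          apply Real.rpow_le_rpow_of_nonpos hN0 _ (by linarith)
          push_cast; linarith
      _ = Q * ((N : ℝ) ^ ((1 : ℝ) / 2) * (N : ℝ) ^ (-s.re)) := by
          rw [Real.sqrt_eq_rpow]; ring
      _ = _ := by
          rw [← Real.rpow_add hN0]
          congr 2
          ring

lemma differentiableOn_E : DifferentiableOn ℂ (E f) {s | 1 / 2 < s.re} := by
  have hopen : ∀ (δ R : ℝ), IsOpen {s : ℂ | 1 / 2 + δ < s.re ∧ ‖s‖ < R} := fun δ R =>
    (isOpen_lt continuous_const Complex.continuous_re).inter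
      (isOpen_lt continuous_norm continuous_const)
  intro s hs
  have hs0 : 1 / 2 < s.re := hs
  set δ := (s.re - 1 / 2) / 2 with hδ
  have hδ0 : 0 < δ := by rw [hδ]; linarith
  set R := ‖s‖ + 1 with hR
  have hd : DifferentiableOn ℂ (E f) {s : ℂ | 1 / 2 + δ < s.re ∧ ‖s‖ < R} := by
    unfold E
    refine Complex.differentiableOn_tsum_of_summable_norm
      (u := fun n : ℕ => Q * R * ((n + 1 : ℕ) : ℝ) ^ (-δ - 1))
      ((summable_rpow_aux hδ0).mul_left _) ?_ (hopen δ R) ?_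
    · intro n
      apply DifferentiableOn.const_mul
      unfold dl
      intro w _
      apply DifferentiableAt.differentiableWithinAt
      have h1 : ((n + 1 : ℕ) : ℂ) ≠ 0 := by exact_mod_cast Nat.succ_ne_zero n
      have h2 : ((n + 1 + 1 : ℕ) : ℂ) ≠ 0 := by exact_mod_cast Nat.succ_ne_zero (n + 1)
      apply DifferentiableAt.sub
      · exact (differentiableAt_id.neg).const_cpow (Or.inl h1)
      · exact (differentiableAt_id.neg).const_cpow (Or.inl h2)
    · intro n w hw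
      refine (norm_term_le hQ0 hQ w (by linarith [hw.1]) n).trans ?_
      apply mul_le_mul
      · exact mul_le_mul_of_nonneg_left hw.2.le hQ0
      · apply Real.rpow_le_rpow_of_exponent_le
        · have : (1 : ℕ) ≤ n + 1 := by omega
          exact_mod_cast this
        · linarith [hw.1]
      · positivity
      · positivity
  have hmem : s ∈ {s : ℂ | 1 / 2 + δ < s.re ∧ ‖s‖ < R} := by
    constructor
    · rw [hδ]; linarith
    · rw [hR]; linarith
  exact ((hd s hmem).differentiableAt ((hopen δ R).mem_nhds hmem)).differentiableWithinAt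

/-- `E f = LSeries f` where the latter converges -/
lemma E_eq_LSeries {s : ℂ} (hs : 1 / 2 < s.re) (hL : LSeriesSummable f s) :
    E f s = LSeries f s := by
  have h1 := (summable_E hQ0 hQ hs).hasSum.tendsto_sum_nat
  have hE : (∑' n : ℕ, Sm f (n + 1) * dl s (n + 1)) = E f s := rfl
  rw [hE] at h1
  simp_rw [sum_range_E] at h1
  have h2 : Filter.Tendsto (fun N : ℕ => ∑ n ∈ Icc 1 N, f n * (n : ℂ) ^ (-s)) Filter.atTop
      (nhds (LSeries f s)) := by
    have h3 := (hL.hasSum.tendsto_sum_nat).comp (Filter.tendsto_add_atTop_nat 1)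
    refine h3.congr fun N => ?_
    simp only [Function.comp]
    rw [Finset.range_eq_Ico, Finset.sum_eq_sum_Ico_succ_bot (by omega), LSeries.term_zero, zero_add]
    refine Finset.sum_congr ?_ fun n hn => ?_
    · ext n; simp only [mem_Ico, mem_Icc]; omega
    · have : n ≠ 0 := by
        have := (mem_Ico.mp hn).1
        omega
      rw [LSeries.term_of_ne_zero this, Complex.cpow_neg, div_eq_mul_inv]
  have h4 : Filter.Tendsto (fun N : ℕ => Sm f N * ((N + 1 : ℕ) : ℂ) ^ (-s)) Filter.atTop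
      (nhds 0) := by
    rw [tendsto_zero_iff_norm_tendsto_zero]
    have h5 : Filter.Tendsto (fun N : ℕ => Q * ((N + 1 : ℕ) : ℝ) ^ (-(s.re - 1 / 2))) Filter.atTop
        (nhds 0) := by
      have h6 : Filter.Tendsto (fun N : ℕ => ((N + 1 : ℕ) : ℝ) ^ (-(s.re - 1 / 2))) Filter.atTop
          (nhds 0) :=
        (tendsto_rpow_neg_atTop (by linarith)).comp
          (tendsto_natCast_atTop_atTop.comp (Filter.tendsto_add_atTop_nat 1))
      simpa using h6.const_mul Q
    refine squeeze_zero (fun _ => norm_nonneg _) (fun N => ?_) h5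
    rw [norm_mul, Complex.norm_natCast_cpow_of_pos (Nat.succ_pos N), Complex.neg_re]
    have hN0 : (0 : ℝ) < ((N + 1 : ℕ) : ℝ) := by positivity
    calc ‖Sm f N‖ * ((N + 1 : ℕ) : ℝ) ^ (-s.re)
        ≤ (Q * Real.sqrt ((N + 1 : ℕ) : ℝ)) * ((N + 1 : ℕ) : ℝ) ^ (-s.re) := by
          refine mul_le_mul_of_nonneg_right ((hQ N).trans ?_) (by positivity)
          apply mul_le_mul_of_nonneg_left _ hQ0
          apply Real.sqrt_le_sqrt
          push_cast; linarith
      _ = Q * (((N + 1 : ℕ) : ℝ) ^ ((1 : ℝ) / 2) * ((N + 1 : ℕ) : ℝ) ^ (-s.re)) := by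
          rw [Real.sqrt_eq_rpow]; ring
      _ = _ := by
          rw [← Real.rpow_add hN0]
          congr 2
          ring
  have h7 := h2.sub h4
  rw [sub_zero] at h7
  exact tendsto_nhds_unique h1 h7

end

/-- Abel summation against a decreasing weight. -/
lemma sum_mul_le_of_antitone {r w : ℕ → ℝ} {C : ℝ} (hr : ∀ N : ℕ, ∑ n ∈ Icc 1 N, r n ≤ C * N)
    (hw : ∀ n : ℕ, 1 ≤ n → w (n + 1) ≤ w n) (hw0 : ∀ n : ℕ, 0 ≤ w n) (N : ℕ) :
    ∑ n ∈ Icc 1 N, r n * w n ≤ C * ∑ n ∈ Icc 1 N, w n := by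
  have key : ∀ N : ℕ, (C * N - ∑ n ∈ Icc 1 N, r n) * w N ≤
      C * ∑ n ∈ Icc 1 N, w n - ∑ n ∈ Icc 1 N, r n * w n := by
    intro N
    induction N with
    | zero => simp
    | succ N ih =>
      rw [Finset.sum_Icc_succ_top (by omega), Finset.sum_Icc_succ_top (by omega),
        Finset.sum_Icc_succ_top (by omega)]
      push_cast
      have hD : 0 ≤ C * N - ∑ n ∈ Icc 1 N, r n := by linarith [hr N]
      rcases Nat.eq_zero_or_pos N with h0 | h0
      · subst h0
        simp only [Nat.cast_zero, mul_zero, zero_add, Finset.Icc_self]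
        simp
        exact le_of_eq (by ring)
      · have h1 := mul_le_mul_of_nonneg_left (hw N h0) hD
        nlinarith
  have h1 := key N
  have h2 : 0 ≤ (C * N - ∑ n ∈ Icc 1 N, r n) * w N :=
    mul_nonneg (by linarith [hr N]) (hw0 N)
  linarith

theorem A1 : P355.A1_Prop := by
  intro C0 η hη hη1
  refine ⟨4 * |C0| / η + 7, by positivity, ?_⟩
  intro r f Q hQ1 hr0 hrs hTw
  have hQ0 : 0 ≤ Q := by linarith
  have hS : ∀ n : ℕ, ‖Sm f n‖ ≤ Q * Real.sqrt n := hTw.f_sum
  refine ⟨E f, differentiableOn_E hQ0 hS, ?_, ?_⟩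
  · intro s hs
    refine E_eq_LSeries hQ0 hS (by linarith) ?_
    refine LSeriesSummable_of_sum_norm_bigO (r := 1) ?_ zero_le_one hs
    refine Asymptotics.IsBigO.of_bound C0 (Filter.Eventually.of_forall fun n => ?_)
    rw [Real.norm_of_nonneg (Finset.sum_nonneg fun _ _ => norm_nonneg _), Real.rpow_one,
      Real.norm_of_nonneg (Nat.cast_nonneg n)]
    exact (Finset.sum_le_sum fun k _ => hTw.f_le k).trans (hrs n)
  · intro s h1 h3
    set T : ℝ := Q * (2 + |s.im|) with hT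
    have hT2 : 2 ≤ T := by rw [hT]; nlinarith [abs_nonneg s.im]
    have hT0 : 0 < T := by linarith
    set N : ℕ := ⌈T ^ 2⌉₊ with hN
    have hN1 : T ^ 2 ≤ N := Nat.le_ceil _
    have hN2 : (N : ℝ) ≤ 2 * T ^ 2 := by
      have := Nat.ceil_lt_add_one (show 0 ≤ T ^ 2 by positivity)
      nlinarith
    have hNpos : 1 ≤ N := Nat.ceil_pos.mpr (by positivity)
    have hN0 : (0 : ℝ) < N := by exact_mod_cast hNpos
    have hNR : (1 : ℝ) ≤ N := by exact_mod_cast hNpos
    have hre : 1 / 2 < s.re := by linarith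
    have hb := norm_E_le_trunc hQ0 hS hre hNpos
    have hTη : 0 < T ^ η := by positivity
    -- first term
    have t1 : ∑ n ∈ Icc 1 N, ‖f n‖ * (n : ℝ) ^ (-s.re) ≤ 4 * |C0| / η * T ^ η := by
      have a1 : ∑ n ∈ Icc 1 N, ‖f n‖ * (n : ℝ) ^ (-s.re) ≤
          ∑ n ∈ Icc 1 N, r n * (n : ℝ) ^ (η / 2 - 1) := by
        refine Finset.sum_le_sum fun n hn => ?_
        have hn1 : (1 : ℝ) ≤ n := by exact_mod_cast (Finset.mem_Icc.mp hn).1
        apply mul_le_mul (hTw.f_le n) _ (by positivity) (hr0 n)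
        exact Real.rpow_le_rpow_of_exponent_le hn1 (by linarith)
      have a2 : ∑ n ∈ Icc 1 N, r n * (n : ℝ) ^ (η / 2 - 1) ≤
          C0 * ∑ n ∈ Icc 1 N, (n : ℝ) ^ (η / 2 - 1) := by
        refine sum_mul_le_of_antitone (w := fun n => (n : ℝ) ^ (η / 2 - 1)) hrs ?_ ?_ N
        · intro n hn
          have hn0 : (0 : ℝ) < n := by exact_mod_cast hn
          apply Real.rpow_le_rpow_of_nonpos hn0 _ (by linarith)
          push_cast; linarith
        · intro n; positivity
      have a3 := sum_Icc_rpow_le (η := η / 2) (by linarith) (by linarith) N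
      have a4 : (N : ℝ) ^ (η / 2) ≤ 2 * T ^ η := by
        calc (N : ℝ) ^ (η / 2) ≤ (2 * T ^ 2) ^ (η / 2) := by gcongr
          _ = 2 ^ (η / 2) * (T ^ 2) ^ (η / 2) := Real.mul_rpow (by norm_num) (by positivity)
          _ = 2 ^ (η / 2) * T ^ η := by
              congr 1
              rw [← Real.rpow_natCast, ← Real.rpow_mul hT0.le]
              congr 1
              push_cast; ring
          _ ≤ 2 * T ^ η := by
              have : (2 : ℝ) ^ (η / 2) ≤ 2 ^ (1 : ℝ) :=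
                Real.rpow_le_rpow_of_exponent_le (by norm_num) (by linarith)
              rw [Real.rpow_one] at this
              gcongr
      have a5 : 0 ≤ ∑ n ∈ Icc 1 N, (n : ℝ) ^ (η / 2 - 1) :=
        Finset.sum_nonneg fun _ _ => by positivity
      calc ∑ n ∈ Icc 1 N, ‖f n‖ * (n : ℝ) ^ (-s.re)
          ≤ C0 * ∑ n ∈ Icc 1 N, (n : ℝ) ^ (η / 2 - 1) := a1.trans a2
        _ ≤ |C0| * ∑ n ∈ Icc 1 N, (n : ℝ) ^ (η / 2 - 1) := by
            gcongr; exact le_abs_self C0
        _ ≤ |C0| * (2 * T ^ η / (η / 2)) := by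
            gcongr
            exact a3.trans (div_le_div_of_nonneg_right a4 (by linarith))
        _ = _ := by field_simp; ring
    -- the common power
    have hp : (N : ℝ) ^ (-(s.re - 1 / 2)) ≤ T ^ η / T := by
      calc (N : ℝ) ^ (-(s.re - 1 / 2)) ≤ (N : ℝ) ^ ((η - 1) / 2) :=
            Real.rpow_le_rpow_of_exponent_le hNR (by linarith)
        _ ≤ (T ^ 2) ^ ((η - 1) / 2) :=
            Real.rpow_le_rpow_of_nonpos (by positivity) hN1 (by linarith)
        _ = T ^ (η - 1) := by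
            rw [← Real.rpow_natCast, ← Real.rpow_mul hT0.le]
            congr 1
            push_cast; ring
        _ = T ^ η / T := Real.rpow_sub_one hT0.ne' _
    have hpos : 0 < (N : ℝ) ^ (-(s.re - 1 / 2)) := by positivity
    have hQT : Q ≤ T := by rw [hT]; nlinarith [abs_nonneg s.im]
    have t2 : Q * (N : ℝ) ^ (-(s.re - 1 / 2)) ≤ T ^ η := by
      calc Q * (N : ℝ) ^ (-(s.re - 1 / 2)) ≤ T * (T ^ η / T) := by gcongr
        _ = T ^ η := by field_simp
    have t3 : Q * ‖s‖ * ((N : ℝ) ^ (-(s.re - 1 / 2)) / (s.re - 1 / 2)) ≤ 6 * T ^ η := by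
      have hs : ‖s‖ ≤ 3 / 2 * (2 + |s.im|) := by
        have h := Complex.norm_le_abs_re_add_abs_im s
        rw [abs_of_nonneg (show 0 ≤ s.re by linarith)] at h
        linarith [abs_nonneg s.im]
      have e1 : Q * ‖s‖ ≤ 3 / 2 * T := by
        calc Q * ‖s‖ ≤ Q * (3 / 2 * (2 + |s.im|)) := by gcongr
          _ = 3 / 2 * T := by rw [hT]; ring
      have e2 : (N : ℝ) ^ (-(s.re - 1 / 2)) / (s.re - 1 / 2) ≤ 4 * (T ^ η / T) := by
        rw [div_le_iff₀ (by linarith)]
        have : 0 < T ^ η / T := by positivity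
        nlinarith
      calc Q * ‖s‖ * ((N : ℝ) ^ (-(s.re - 1 / 2)) / (s.re - 1 / 2)) ≤
          (3 / 2 * T) * (4 * (T ^ η / T)) := by
            apply mul_le_mul e1 e2 (div_nonneg hpos.le (by linarith)) (by positivity)
        _ = 6 * T ^ η := by field_simp; ring
    calc ‖E f s‖ ≤ 4 * |C0| / η * T ^ η + T ^ η + 6 * T ^ η := by linarith
      _ = (4 * |C0| / η + 7) * T ^ η := by ring

end Crest.Agent.R012.PA1766
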