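import Crest.Agent.R012.ThetaCube_131
import Crest.Agent.R012.CstDefs_566

/-!
# Row 12: `Σ_{b primary} PE(b) u(N(b)/Y) = kap 1 · Y ∫ u + O(√Y)` for smooth compactly supported `u`
-/

set_option autoImplicit false

noncomputable section

open MeasureTheory Complex Set Filter Topology
open scoped ContDiff

namespace Crest.Agent.R012.PES131

open Crest.Agent.R012 Crest.Agent.R012.Eis Crest.Agent.R012.Mob705 Crest.Agent.R012.Theta131
  Crest.Agent.R012.MC

open Classical in
theorem pe_smooth {u : ℝ → ℝ} (hu : Wgt u) : ∃ K : ℝ, 0 ≤ K ∧ ∀ Y : ℝ, 0 < Y →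
    |(∑' b : Eis, if IsPrim b then PE b * u (nm b / Y) else 0) -
      kap 1 * Y * ∫ x in Ioi (0 : ℝ), u x| ≤ K * Real.sqrt Y := by
  classical
  obtain ⟨c1, c2, hc1, hc12, hsupp⟩ := hu.exists_bounds
  have hd1 : ContDiff ℝ 1 u := hu.smooth.of_le (by exact_mod_cast le_top)
  have hdiff : Differentiable ℝ u := hd1.differentiable (by norm_num)
  have hcd : Continuous (deriv u) := hd1.continuous_deriv le_rfl
  have hcs : HasCompactSupport (deriv u) := hu.cpt.deriv
  have hint : Integrable (deriv u) := hcd.integrable_of_hasCompactSupport hcs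
  have hu0 : ∀ x, c2 < x → u x = 0 := fun x hx => by
    by_contra h
    linarith [(hsupp x h).2]
  have hdu0 : ∀ x, c2 < x → deriv u x = 0 := by
    intro x hx
    have h1 : u =ᶠ[𝓝 x] fun _ => 0 := by
      filter_upwards [lt_mem_nhds hx] with y hy using hu0 y hy
    rw [h1.deriv_eq]; simp
  have htend : Tendsto u atTop (𝓝 0) := by
    refine tendsto_const_nhds.congr' ?_
    filter_upwards [eventually_gt_atTop c2] with x hx using (hu0 x hx).symm
  have htail : ∀ a : ℝ, ∫ x in Ici a, deriv u x = - u a := by
    intro a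
    rw [integral_Ici_eq_integral_Ioi, integral_Ioi_of_hasDerivAt_of_tendsto
      (f := u) (m := 0) hdiff.continuous.continuousWithinAt
      (fun x _ => (hdiff x).hasDerivAt) hint.integrableOn htend]
    ring
  -- integration by parts
  have hparts : ∫ x in Ioi (0 : ℝ), (deriv u x * x + u x) = 0 := by
    have hcont : Continuous fun x : ℝ => deriv u x * x + u x :=
      (hcd.mul continuous_id).add hdiff.continuous
    have hsup : HasCompactSupport fun x : ℝ => deriv u x * x + u x :=
      (hcs.mul_right).add hu.cpt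
    have ht2 : Tendsto (fun x : ℝ => u x * x) atTop (𝓝 0) := by
      refine tendsto_const_nhds.congr' ?_
      filter_upwards [eventually_gt_atTop c2] with x hx
      rw [hu0 x hx, zero_mul]
    rw [integral_Ioi_of_hasDerivAt_of_tendsto (f := fun x : ℝ => u x * x) (m := 0)
      (hdiff.continuous.mul continuous_id).continuousWithinAt
      (fun x _ => by
        have := (hdiff x).hasDerivAt.mul (hasDerivAt_id x)
        rw [mul_one] at this
        exact this)
      (hcont.integrable_of_hasCompactSupport hsup).integrableOn ht2]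
    simp
  have huI : IntegrableOn u (Ioi 0) :=
    (hdiff.continuous.integrable_of_hasCompactSupport hu.cpt).integrableOn
  have hduxI : IntegrableOn (fun x : ℝ => deriv u x * x) (Ioi 0) :=
    ((hcd.mul continuous_id).integrable_of_hasCompactSupport hcs.mul_right).integrableOn
  have hparts2 : ∫ x in Ioi (0 : ℝ), deriv u x * x = - ∫ x in Ioi (0 : ℝ), u x := by
    rw [integral_add hduxI huI] at hparts
    linarith
  have hsqI : IntegrableOn (fun x : ℝ => |deriv u x| * Real.sqrt x) (Ioi 0) := by
    have h1 : Continuous fun x : ℝ => |deriv u x| * Real.sqrt x := hcd.abs.mul Real.continuous_sqrt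
    have h2 : HasCompactSupport fun x : ℝ => |deriv u x| * Real.sqrt x := by
      refine HasCompactSupport.mul_right ?_
      have := hcs.norm
      simpa only [Real.norm_eq_abs] using this
    exact (h1.integrable_of_hasCompactSupport h2).integrableOn
  refine ⟨KA * ∫ x in Ioi (0 : ℝ), |deriv u x| * Real.sqrt x, ?_, fun Y hY => ?_⟩
  · have := KA_nonneg
    exact mul_nonneg this (setIntegral_nonneg measurableSet_Ioi fun x _ => by positivity)
  -- the finite sum
  have hsum : (∑' b : Eis, if IsPrim b then PE b * u (nm b / Y) else 0) =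
      ∑ b ∈ pb (Y * c2), PE b * u (nm b / Y) := by
    rw [tsum_eq_sum (s := pb (Y * c2))]
    · refine Finset.sum_congr rfl fun b hb => ?_
      rw [if_pos (mem_pb.mp hb).2]
    · intro b hb
      by_cases hp : IsPrim b
      · rw [if_pos hp]
        have h1 : Y * c2 < nm b := by
          by_contra h
          push Not at h
          exact hb (mem_pb.mpr ⟨h, hp⟩)
        rw [hu0 _ (by rw [lt_div_iff₀ hY]; linarith), mul_zero]
      · rw [if_neg hp]
  set G : ℝ → ℝ := fun y => ∑ b ∈ pb (Y * c2), PE b * (Ici ((nm b : ℝ) / Y)).indicator (deriv u) y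
    with hG
  have hGI : Integrable G := by
    refine integrable_finsetSum _ fun b _ => ?_
    exact (hint.indicator measurableSet_Ici).const_mul _
  have hGint : ∫ y in Ioi (0 : ℝ), G y = - ∑ b ∈ pb (Y * c2), PE b * u (nm b / Y) := by
    rw [hG, integral_finsetSum _ (fun b _ =>
      ((hint.indicator measurableSet_Ici).const_mul _).integrableOn), ← Finset.sum_neg_distrib]
    refine Finset.sum_congr rfl fun b hb => ?_
    have hpos : (0 : ℝ) < nm b := by exact_mod_cast nm_pos.mpr (mem_pb.mp hb).2.ne_zero
    have hpos2 : 0 < (nm b : ℝ) / Y := by positivity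
    rw [integral_const_mul, setIntegral_indicator measurableSet_Ici,
      (inter_eq_right.mpr fun x hx => lt_of_lt_of_le hpos2 hx : Ioi (0 : ℝ) ∩ Ici ((nm b : ℝ) / Y) = _), htail]
    ring
  have hGeq : ∀ y ∈ Ioi (0 : ℝ), G y = deriv u y * AP (Y * y) := by
    intro y hy
    have hy' : 0 < y := hy
    rcases le_or_gt y c2 with h | h
    · have e1 : AP (Y * y) = ∑ b ∈ pb (Y * c2), (if (nm b : ℝ) / Y ≤ y then PE b else 0) := by
        unfold AP
        rw [← Finset.sum_filter]
        refine Finset.sum_congr ?_ fun _ _ => rfl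
        ext b
        rw [Finset.mem_filter, mem_pb, mem_pb, div_le_iff₀ hY]
        constructor
        · rintro ⟨h1, h2⟩
          refine ⟨⟨?_, h2⟩, by linarith⟩
          have : Y * y ≤ Y * c2 := by gcongr
          linarith
        · rintro ⟨⟨_, h2⟩, h3⟩
          exact ⟨by linarith, h2⟩
      rw [e1, hG, Finset.mul_sum]
      refine Finset.sum_congr rfl fun b _ => ?_
      rw [indicator_apply]
      by_cases hb : (nm b : ℝ) / Y ≤ y
      · rw [if_pos (show y ∈ Ici ((nm b : ℝ) / Y) from hb), if_pos hb]; ring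
      · rw [if_neg (show y ∉ Ici ((nm b : ℝ) / Y) from hb), if_neg hb]; ring
    · rw [hdu0 y h, zero_mul, hG]
      refine Finset.sum_eq_zero fun b _ => ?_
      rw [indicator_apply, hdu0 y h]
      simp
  have e2 : (∑ b ∈ pb (Y * c2), PE b * u (nm b / Y)) - kap 1 * Y * ∫ x in Ioi (0 : ℝ), u x =
      -∫ y in Ioi (0 : ℝ), (G y - kap 1 * Y * (deriv u y * y)) := by
    rw [integral_sub hGI.integrableOn (hduxI.const_mul _), integral_const_mul, hGint, hparts2]
    ring
  rw [hsum, e2, abs_neg, ← Real.norm_eq_abs]
  refine (norm_integral_le_integral_norm _).trans ?_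
  have e3 : KA * (∫ x in Ioi (0 : ℝ), |deriv u x| * Real.sqrt x) * Real.sqrt Y =
      ∫ x in Ioi (0 : ℝ), KA * Real.sqrt Y * (|deriv u x| * Real.sqrt x) := by
    rw [integral_const_mul]; ring
  rw [e3]
  refine setIntegral_mono_on
    ((hGI.integrableOn.sub (Integrable.const_mul hduxI (kap 1 * Y))).norm)
    (Integrable.const_mul hsqI _) measurableSet_Ioi ?_
  intro y hy
  have hy' : 0 < y := hy
  rw [Real.norm_eq_abs, hGeq y hy]
  have h1 := AP_asymp (Y := Y * y) (by positivity)
  have e4 : deriv u y * AP (Y * y) - kap 1 * Y * (deriv u y * y) =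
      deriv u y * (AP (Y * y) - kap 1 * (Y * y)) := by ring
  rw [e4, abs_mul]
  calc |deriv u y| * |AP (Y * y) - kap 1 * (Y * y)| ≤ |deriv u y| * (KA * Real.sqrt (Y * y)) := by
        gcongr
    _ = _ := by rw [Real.sqrt_mul hY.le]; ring

end Crest.Agent.R012.PES131
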