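import Crest.Agent.SW.Engine3_259

/-!
# Row 12, part (P), steps (5)+(6): from derivative bounds of a Dirichlet series to partial sums

Wrapper around `Crest.Agent.SW.engine`.  If `‖a n‖ ≤ C0 (1 + log n)` and all derivatives of
`LSeries a` are bounded on `1 < Re s ≤ 2` by powers of `log (Q (|Im s| + 2))`, then
`∑_{n ≤ x} a n n^{-iu} ≪ x / (log x)^A` uniformly for `Q (|u| + 2) ≤ (log x)^C`.
-/

set_option autoImplicit false

open Complex

namespace Crest.Agent.R012.PInv255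

noncomputable section

/-- `(1 + log y)^B ≤ C y^δ` for `y ≥ 1`. -/
theorem one_add_log_pow_le (B : ℕ) (δ : ℝ) (hδ : 0 < δ) :
    ∃ C : ℝ, 1 ≤ C ∧ ∀ y : ℝ, 1 ≤ y → (1 + Real.log y) ^ B ≤ C * y ^ δ := by
  set e : ℝ := δ / (B + 1) with he
  have hB : (0 : ℝ) < B + 1 := by positivity
  have he0 : 0 < e := by positivity
  refine ⟨(1 + 1 / e) ^ B, one_le_pow₀ (by have : 0 < 1 / e := by positivity
                                           linarith), fun y hy => ?_⟩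
  have hy0 : 0 ≤ y := by linarith
  have h1 : 1 + Real.log y ≤ (1 + 1 / e) * y ^ e := by
    have h2 : (1 : ℝ) ≤ y ^ e := Real.one_le_rpow hy he0.le
    have h3 := Real.log_le_rpow_div hy0 he0
    calc 1 + Real.log y ≤ y ^ e + y ^ e / e := add_le_add h2 h3
      _ = _ := by ring
  have hl : 0 ≤ Real.log y := Real.log_nonneg hy
  calc (1 + Real.log y) ^ B ≤ ((1 + 1 / e) * y ^ e) ^ B := by gcongr
    _ = (1 + 1 / e) ^ B * (y ^ e) ^ B := mul_pow _ _ _
    _ ≤ (1 + 1 / e) ^ B * y ^ δ := by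
        gcongr
        rw [← Real.rpow_natCast, ← Real.rpow_mul hy0]
        apply Real.rpow_le_rpow_of_exponent_le hy
        rw [he, div_mul_eq_mul_div, div_le_iff₀ hB]
        nlinarith

theorem log_split {Q t : ℝ} (hQ : 1 ≤ Q) :
    Real.log (Q * (|t| + 2)) ≤ (1 + Real.log Q) * (1 + Real.log (|t| + 2)) := by
  have ht : 0 < |t| + 2 := by positivity
  rw [Real.log_mul (by linarith) ht.ne']
  have h1 := Real.log_nonneg hQ
  have h2 : 0 ≤ Real.log (|t| + 2) := Real.log_nonneg (by linarith [abs_nonneg t])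
  nlinarith

/-- polylogarithmic growth is dominated by `(1+|t|)^(1/2)` times a power of `1 + log Q`. -/
theorem polylog_le (B : ℕ) : ∃ C : ℝ, 1 ≤ C ∧ ∀ Q t : ℝ, 1 ≤ Q →
    (Real.log (Q * (|t| + 2))) ^ B ≤ C * (1 + Real.log Q) ^ B * (1 + |t|) ^ (1 / 2 : ℝ) := by
  obtain ⟨C, hC, h⟩ := one_add_log_pow_le B (1 / 2) (by norm_num)
  refine ⟨2 * C, by linarith, fun Q t hQ => ?_⟩
  have ht : 0 ≤ |t| := abs_nonneg t
  have h0 : 0 ≤ Real.log (Q * (|t| + 2)) := Real.log_nonneg (by nlinarith)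
  have hq := Real.log_nonneg hQ
  have h2 : 0 ≤ Real.log (|t| + 2) := Real.log_nonneg (by linarith)
  have h3 := h (|t| + 2) (by linarith)
  have h4 : (|t| + 2) ^ (1 / 2 : ℝ) ≤ 2 * (1 + |t|) ^ (1 / 2 : ℝ) := by
    calc (|t| + 2) ^ (1 / 2 : ℝ) ≤ (2 * (1 + |t|)) ^ (1 / 2 : ℝ) := by
          gcongr; linarith
      _ = 2 ^ (1 / 2 : ℝ) * (1 + |t|) ^ (1 / 2 : ℝ) :=
          Real.mul_rpow (by norm_num) (by positivity)
      _ ≤ 2 * (1 + |t|) ^ (1 / 2 : ℝ) := by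
          gcongr
          calc (2 : ℝ) ^ (1 / 2 : ℝ) ≤ 2 ^ (1 : ℝ) :=
                Real.rpow_le_rpow_of_exponent_le (by norm_num) (by norm_num)
            _ = 2 := Real.rpow_one 2
  calc (Real.log (Q * (|t| + 2))) ^ B
      ≤ ((1 + Real.log Q) * (1 + Real.log (|t| + 2))) ^ B := by
        gcongr; exact log_split hQ
    _ = (1 + Real.log Q) ^ B * (1 + Real.log (|t| + 2)) ^ B := mul_pow _ _ _
    _ ≤ (1 + Real.log Q) ^ B * (C * (|t| + 2) ^ (1 / 2 : ℝ)) := by gcongr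
    _ ≤ (1 + Real.log Q) ^ B * (C * (2 * (1 + |t|) ^ (1 / 2 : ℝ))) := by gcongr
    _ = 2 * C * (1 + Real.log Q) ^ B * (1 + |t|) ^ (1 / 2 : ℝ) := by ring

/-- **Partial sums from derivative bounds**, general form with explicit dependence on `Q`:
the saving is an arbitrary power of `log x`, the loss a fixed power of `1 + log Q`. -/
theorem sum_le_general (C0 : ℝ) (B : ℕ → ℕ) (m : ℕ) :
    ∃ D : ℝ, 0 < D ∧ ∀ (a : ℕ → ℂ) (Q : ℝ), 1 ≤ Q →
      (∀ n : ℕ, 1 ≤ n → ‖a n‖ ≤ C0 * (1 + Real.log n)) →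
      (∀ s : ℂ, 1 < s.re → s.re ≤ 2 →
        ‖iteratedDeriv (2 * m + 1) (LSeries a) s‖ ≤
          B (2 * m + 1) * (Real.log (Q * (|s.im| + 2))) ^ B (2 * m + 1)) →
      ∀ x : ℝ, 2 ≤ x → ‖∑ n ∈ Finset.Icc 1 ⌊x⌋₊, a n‖ ≤
        D * (1 + Real.log Q) ^ B (2 * m + 1) * x / Real.log x ^ m := by
  obtain ⟨C, hC, hE⟩ := Crest.Agent.SW.engine m
  obtain ⟨C', hC', hP⟩ := polylog_le (B (2 * m + 1))
  set b := B (2 * m + 1) with hb
  set c0 : ℝ := max C0 1 with hc0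
  have hc01 : 1 ≤ c0 := le_max_right _ _
  have hc00 : 0 < c0 := by linarith
  refine ⟨c0 * C * ((b + 1) * C'), by positivity, ?_⟩
  intro a Q hQ ha hd x hx
  have hq := Real.log_nonneg hQ
  have h1Q : (1 : ℝ) ≤ (1 + Real.log Q) ^ b := one_le_pow₀ (by linarith)
  have hLS : LSeries (fun n => (c0 : ℂ)⁻¹ * a n) = fun s => (c0 : ℂ)⁻¹ * LSeries a s := by
    funext s
    have := LSeries_smul a (c0 : ℂ)⁻¹ s
    simpa [Pi.smul_apply, smul_eq_mul, Pi.smul_def] using this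
  have key := hE (fun n => (c0 : ℂ)⁻¹ * a n) ((b + 1) * C' * (1 + Real.log Q) ^ b) ?_ ?_ ?_ x hx
  · rw [← Finset.mul_sum, norm_mul, norm_inv, Complex.norm_real, Real.norm_of_nonneg hc00.le,
      inv_mul_le_iff₀ hc00] at key
    refine key.trans (le_of_eq ?_)
    ring
  · have : (0 : ℝ) ≤ b := Nat.cast_nonneg _
    have h1 : (1 : ℝ) ≤ (b + 1) * C' := by nlinarith
    nlinarith
  · intro n hn
    rw [norm_mul, norm_inv, Complex.norm_real, Real.norm_of_nonneg hc00.le, inv_mul_le_iff₀ hc00]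
    refine (ha n hn).trans ?_
    have : 0 ≤ Real.log n := Real.log_nonneg (by exact_mod_cast hn)
    gcongr
    exact le_max_left _ _
  · intro s h1 h2
    rw [hLS, iteratedDeriv_const_mul_field, norm_mul, norm_inv, Complex.norm_real,
      Real.norm_of_nonneg hc00.le, inv_mul_le_iff₀ hc00]
    have hb0 : (0 : ℝ) ≤ b := Nat.cast_nonneg _
    have hlog : 0 ≤ Real.log (Q * (|s.im| + 2)) :=
      Real.log_nonneg (by nlinarith [abs_nonneg s.im])
    calc ‖iteratedDeriv (2 * m + 1) (LSeries a) s‖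
        ≤ b * (Real.log (Q * (|s.im| + 2))) ^ b := hd s h1 h2
      _ ≤ (b + 1) * (C' * (1 + Real.log Q) ^ b * (1 + |s.im|) ^ (1 / 2 : ℝ)) := by
          gcongr
          · linarith
          · exact hP Q s.im hQ
      _ = 1 * ((b + 1) * C' * (1 + Real.log Q) ^ b * (1 + |s.im|) ^ (1 / 2 : ℝ)) := by ring
      _ ≤ c0 * ((b + 1) * C' * (1 + Real.log Q) ^ b * (1 + |s.im|) ^ (1 / 2 : ℝ)) := by
          gcongr

/-- for `Q ≤ (log x)^C`, `(1 + log Q)^B ≤ K log x` -/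
theorem loglog_le (B C : ℕ) : ∃ K : ℝ, 0 < K ∧ ∀ Q x : ℝ, 1 ≤ Q → 2 ≤ x →
    Q ≤ Real.log x ^ C → (1 + Real.log Q) ^ B ≤ K * Real.log x := by
  obtain ⟨K, hK, h⟩ := one_add_log_pow_le B (1 / (C + 1)) (by positivity)
  refine ⟨K * 2, by linarith, fun Q x hQ hx hQx => ?_⟩
  have hl : 1 / 2 ≤ Real.log x := Crest.Agent.SW.log_half hx
  have hlx : 0 < Real.log x := by linarith
  refine (h Q hQ).trans ?_
  have h1 : Q ^ (1 / (C + 1 : ℝ)) ≤ 2 * Real.log x := by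
    rcases Nat.eq_zero_or_pos C with rfl | hC
    · simp only [pow_zero] at hQx
      have : Q = 1 := le_antisymm hQx hQ
      rw [this, Real.one_rpow]
      linarith
    · have hlx1 : 1 ≤ Real.log x := by
        by_contra hlt
        push Not at hlt
        have : Real.log x ^ C < 1 := pow_lt_one₀ hlx.le hlt (by omega)
        linarith
      calc Q ^ (1 / (C + 1 : ℝ)) ≤ (Real.log x ^ C) ^ (1 / (C + 1 : ℝ)) := by gcongr
        _ = Real.log x ^ ((C : ℝ) * (1 / (C + 1))) := by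
            rw [← Real.rpow_natCast, ← Real.rpow_mul hlx.le]
        _ ≤ Real.log x ^ (1 : ℝ) := by
            apply Real.rpow_le_rpow_of_exponent_le hlx1
            rw [mul_one_div, div_le_one (by positivity)]
            linarith
        _ = Real.log x := Real.rpow_one _
        _ ≤ 2 * Real.log x := by linarith
  calc K * Q ^ (1 / (C + 1 : ℝ)) ≤ K * (2 * Real.log x) := by gcongr
    _ = K * 2 * Real.log x := by ring

/-- **(P5)+(P6)** `∑_{n ≤ x} a n ≪ x / (log x)^A`, uniformly for `Q ≤ (log x)^C`. -/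
theorem sum_le (C0 : ℝ) (B : ℕ → ℕ) (A C : ℕ) :
    ∃ D : ℝ, 0 < D ∧ ∀ (a : ℕ → ℂ) (Q : ℝ), 1 ≤ Q →
      (∀ n : ℕ, 1 ≤ n → ‖a n‖ ≤ C0 * (1 + Real.log n)) →
      (∀ k : ℕ, ∀ s : ℂ, 1 < s.re → s.re ≤ 2 →
        ‖iteratedDeriv k (LSeries a) s‖ ≤ B k * (Real.log (Q * (|s.im| + 2))) ^ B k) →
      ∀ x : ℝ, 2 ≤ x → Q ≤ Real.log x ^ C →
        ‖∑ n ∈ Finset.Icc 1 ⌊x⌋₊, a n‖ ≤ D * x / Real.log x ^ A := by
  obtain ⟨D, hD, h⟩ := sum_le_general C0 B (A + 1)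
  obtain ⟨K, hK, hl⟩ := loglog_le (B (2 * (A + 1) + 1)) C
  refine ⟨D * K, by positivity, fun a Q hQ ha hd x hx hQx => ?_⟩
  have hlx : 0 < Real.log x := by linarith [Crest.Agent.SW.log_half hx]
  have hx0 : 0 < x := by linarith
  calc ‖∑ n ∈ Finset.Icc 1 ⌊x⌋₊, a n‖
      ≤ D * (1 + Real.log Q) ^ B (2 * (A + 1) + 1) * x / Real.log x ^ (A + 1) :=
        h a Q hQ ha (hd _) x hx
    _ ≤ D * (K * Real.log x) * x / Real.log x ^ (A + 1) := by
        gcongr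
        exact hl Q x hQ hx hQx
    _ = D * K * x / Real.log x ^ A := by
        rw [pow_succ]
        field_simp

/-- the twisted sequence `a n n^{-iu}` -/
def tw (a : ℕ → ℂ) (u : ℝ) (n : ℕ) : ℂ := a n * (n : ℂ) ^ (-(u * I))

theorem norm_tw_le (a : ℕ → ℂ) (u : ℝ) {n : ℕ} (hn : 1 ≤ n) : ‖tw a u n‖ = ‖a n‖ := by
  unfold tw
  have hn0 : (0 : ℝ) < n := by exact_mod_cast hn
  rw [norm_mul, ← Complex.ofReal_natCast, Complex.norm_cpow_eq_rpow_re_of_pos hn0]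
  simp

theorem LSeries_tw (a : ℕ → ℂ) (u : ℝ) (s : ℂ) : LSeries (tw a u) s = LSeries a (s + u * I) := by
  unfold LSeries
  congr 1
  funext n
  rcases Nat.eq_zero_or_pos n with rfl | hn
  · simp
  · have hn0 : (n : ℂ) ≠ 0 := by exact_mod_cast hn.ne'
    rw [LSeries.term_of_ne_zero hn.ne', LSeries.term_of_ne_zero hn.ne', tw, Complex.cpow_neg,
      Complex.cpow_add _ _ hn0]
    field_simp

theorem iteratedDeriv_tw (a : ℕ → ℂ) (u : ℝ) (k : ℕ) (s : ℂ) :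
    iteratedDeriv k (LSeries (tw a u)) s = iteratedDeriv k (LSeries a) (s + u * I) := by
  have h : LSeries (tw a u) = fun s => LSeries a (s + u * I) := funext (LSeries_tw a u)
  rw [h, iteratedDeriv_comp_add_const]

/-- **(P5)+(P6), twisted form** `∑_{n ≤ x} a n n^{-iu} ≪ x / (log x)^A`, uniformly for
`Q (|u| + 2) ≤ (log x)^C`. -/
theorem sum_tw_le (C0 : ℝ) (B : ℕ → ℕ) (A C : ℕ) :
    ∃ D : ℝ, 0 < D ∧ ∀ (a : ℕ → ℂ) (Q : ℝ), 1 ≤ Q →
      (∀ n : ℕ, 1 ≤ n → ‖a n‖ ≤ C0 * (1 + Real.log n)) →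
      (∀ k : ℕ, ∀ s : ℂ, 1 < s.re → s.re ≤ 2 →
        ‖iteratedDeriv k (LSeries a) s‖ ≤ B k * (Real.log (Q * (|s.im| + 2))) ^ B k) →
      ∀ (x u : ℝ), 2 ≤ x → Q * (|u| + 2) ≤ Real.log x ^ C →
        ‖∑ n ∈ Finset.Icc 1 ⌊x⌋₊, a n * (n : ℂ) ^ (-(u * I))‖ ≤ D * x / Real.log x ^ A := by
  obtain ⟨D, hD, h⟩ := sum_le C0 B A C
  refine ⟨D, hD, fun a Q hQ ha hd x u hx hQx => ?_⟩
  have hu := abs_nonneg u
  refine h (tw a u) (Q * (|u| + 2)) (by nlinarith) ?_ ?_ x hx hQx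
  · intro n hn
    rw [norm_tw_le a u hn]
    exact ha n hn
  · intro k s h1 h2
    rw [iteratedDeriv_tw]
    refine (hd k (s + u * I) (by simpa using h1) (by simpa using h2)).trans ?_
    have him : (s + u * I).im = s.im + u := by simp
    rw [him]
    have h3 : |s.im + u| ≤ |s.im| + |u| := abs_add_le _ _
    have h4 := abs_nonneg s.im
    have h5 := abs_nonneg (s.im + u)
    have h6 : 0 ≤ Real.log (Q * (|s.im + u| + 2)) := Real.log_nonneg (by nlinarith)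
    have h7 : Q * (|s.im + u| + 2) ≤ Q * (|u| + 2) * (|s.im| + 2) := by
      nlinarith [mul_nonneg hu h4]
    have h8 : 0 < Q * (|s.im + u| + 2) := by nlinarith
    have h9 := Real.log_le_log h8 h7
    gcongr

end

end Crest.Agent.R012.PInv255
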