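import Crest.Agent.R012.PInv_255
import Crest.Agent.R012.PSer_47
import Crest.Agent.R012.P34_994

/-!
# Row 12, part (P): Siegel–Walfisz over `ℤ[ω]`, abstract form

Assembly of (P0) `PSer_47`, (P2) bounds for `L^{(j)}` on `Re s > 1` (hypotheses `P2Prop`, `P2One`),
(P3)+(P4) `P34_994`, (P5)+(P6) `PInv_255`.
-/

set_option autoImplicit false

open Complex Filter Topology LSeries
open scoped LSeries.notation

namespace Crest.Agent.R012.PSW255

open Crest.Agent.R012 Crest.Agent.R012.Eis PSer47 P34994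

noncomputable section

/-- (P2): bounds for the derivatives of `L(s, ψ)` on `1 < Re s ≤ 2`. -/
def P2Prop : Prop := ∀ j : ℕ, ∃ C : ℝ, 1 ≤ C ∧ ∀ (ψ : Eis → ℂ) (Q : ℝ), IsChar ψ → 1 ≤ Q →
  (∀ N : ℕ, ‖∑ b ∈ primBall N, ψ b‖ ≤ Q * Real.sqrt N) → ∀ s : ℂ, 1 < s.re → s.re ≤ 2 →
  ‖iteratedDeriv j (LSeries (push ψ)) s‖ ≤ C * Real.log (Q * (|s.im| + 2)) ^ (j + 1)

/-- (P2) for the trivial character at real points -/
def P2One : Prop := ∃ C : ℝ, 1 ≤ C ∧ ∀ x : ℝ, 1 < x → x ≤ 2 →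
  ‖LSeries (push (fun _ => 1)) x‖ ≤ C / (x - 1)

theorem convolution_comm' (f g : ℕ → ℂ) : f ⍟ g = g ⍟ f := by
  ext n
  rw [LSeries.convolution_def, LSeries.convolution_def]
  refine Finset.sum_nbij' Prod.swap Prod.swap ?_ ?_ ?_ ?_ ?_
  · intro p hp
    rw [Nat.mem_divisorsAntidiagonal] at hp ⊢
    exact ⟨by rw [← hp.1]; exact mul_comm _ _, hp.2⟩
  · intro p hp
    rw [Nat.mem_divisorsAntidiagonal] at hp ⊢
    exact ⟨by rw [← hp.1]; exact mul_comm _ _, hp.2⟩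
  · intro p _; rfl
  · intro p _; rfl
  · intro p _; exact mul_comm _ _

theorem absc_push {ψ : Eis → ℂ} (hψ : ∀ b, IsPrim b → ‖ψ b‖ ≤ 1) :
    abscissaOfAbsConv (push ψ) ≤ 1 := by
  refine abscissaOfAbsConv_le_of_forall_lt_LSeriesSummable' (x := 1) (fun y hy => ?_)
  have hy' : (1 : ℝ) < y := by exact_mod_cast hy
  refine LSeriesSummable_of_sum_norm_bigO (r := 1) ?_ zero_le_one (by simpa using hy')
  refine Asymptotics.IsBigO.of_bound 18 (Eventually.of_forall fun N => ?_)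
  rw [Real.rpow_one, Real.norm_natCast, Real.norm_of_nonneg (by positivity)]
  exact sum_norm_push_le hψ N

theorem absc_LamPsi {ψ : Eis → ℂ} (hψ : ∀ b, IsPrim b → ‖ψ b‖ ≤ 1) :
    abscissaOfAbsConv (push (LamPsi ψ)) ≤ 1 := by
  refine abscissaOfAbsConv_le_of_forall_lt_LSeriesSummable' (x := 1) (fun y hy => ?_)
  have hy' : (1 : ℝ) < y := by exact_mod_cast hy
  have h := Crest.Agent.SW.summable_of_log (fun n => (2 : ℂ)⁻¹ * push (LamPsi ψ) n) (fun n hn => ?_)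
    (s := (y : ℂ)) (by simpa using hy')
  · have h2 := LSeriesSummable.smul (2 : ℂ) h
    refine (LSeriesSummable_congr _ (fun {n} _ => ?_)).mp h2
    simp [Pi.smul_apply]
  · rw [norm_mul, norm_inv]
    have h1 := norm_push_LamPsi_le hψ n
    have h0 : ‖(2 : ℂ)‖ = 2 := by simp
    rw [h0]
    linarith

theorem logPair {ψ : Eis → ℂ} (h : IsChar ψ) : LogPair (push ψ) (push (LamPsi ψ)) where
  one := by rw [push_one, h.one]
  absA := absc_push fun _ hb => h.norm_le hb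
  absL := absc_LamPsi fun _ hb => h.norm_le hb
  conv n _ := by
    rw [← conv_LamPsi h, convolution_comm']

theorem pos {ψ : Eis → ℂ} (h : IsChar ψ) (n : ℕ) (z : ℂ) (hz : ‖z‖ = 1) :
    0 ≤ (3 * push (LamPsi fun _ => 1) n + 4 * (push (LamPsi ψ) n * z) +
      push (LamPsi fun b => ψ b ^ 2) n * z ^ 2).re := by
  have := pos_of_sum (fib n) Lam (fun b _ => Lam_nonneg b) ψ
    (fun b hb => h.norm_le (mem_fib.mp hb).2) z hz
  simpa [push, LamPsi] using this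

/-- bounds for all derivatives of `-L'/L` -/
theorem deriv_bound (h2 : P2Prop) (h1 : P2One) : ∃ B : ℕ → ℕ, ∀ (ψ : Eis → ℂ) (Q : ℝ),
    IsChar ψ → 2 ≤ Q → (∀ N : ℕ, ‖∑ b ∈ primBall N, ψ b‖ ≤ Q * Real.sqrt N) →
    (∀ N : ℕ, ‖∑ b ∈ primBall N, ψ b ^ 2‖ ≤ Q * Real.sqrt N) →
    ∀ k : ℕ, ∀ s : ℂ, 1 < s.re → s.re ≤ 2 →
      ‖iteratedDeriv k (LSeries (push (LamPsi ψ))) s‖ ≤
        B k * Real.log (Q * (|s.im| + 2)) ^ B k := by
  choose c hc1 hc using h2
  obtain ⟨c1, hc11, hc1'⟩ := h1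
  -- a common constant for `j ≤ k + 1`
  set M : ℕ → ℝ := fun k => c1 + ∑ j ∈ Finset.range (k + 2), c j with hM
  have hcpos : ∀ j, 0 ≤ c j := fun j => by linarith [hc1 j]
  have hMc : ∀ k, ∀ j ≤ k + 1, c j ≤ M k := fun k j hj => by
    have : c j ≤ ∑ j ∈ Finset.range (k + 2), c j :=
      Finset.single_le_sum (f := c) (fun j _ => hcpos j) (Finset.mem_range.mpr (by omega))
    simp only [hM]; linarith
  have hM1 : ∀ k, c1 ≤ M k := fun k => by
    have : 0 ≤ ∑ j ∈ Finset.range (k + 2), c j := Finset.sum_nonneg fun j _ => hcpos j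
    simp only [hM]; linarith
  have hmain := fun k => P34994.main k (M k) (hc11.trans (hM1 k))
  choose K hK1 hK using hmain
  refine ⟨fun k => max ⌈K k⌉₊ (9 * (k + 1)), ?_⟩
  intro ψ Q hψ hQ hs hs2 k s hs1 hs2'
  have hlog : ∀ s : ℂ, 1 ≤ Real.log (Q * (|s.im| + 2)) := fun s => P34994.one_le_TT hQ s
  have key := hK k (push fun _ => 1) (push ψ) (push fun b => ψ b ^ 2) (push (LamPsi fun _ => 1))
    (push (LamPsi ψ)) (push (LamPsi fun b => ψ b ^ 2)) (logPair isChar_one) (logPair hψ)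
    (logPair hψ.sq) (fun n z _ hz => pos hψ n z hz) Q hQ ?_ ?_ ?_ s hs1 hs2'
  · refine key.trans ?_
    have hl := hlog s
    have h3 : K k ≤ ((max ⌈K k⌉₊ (9 * (k + 1)) : ℕ) : ℝ) :=
      (Nat.le_ceil _).trans (by exact_mod_cast le_max_left _ _)
    have h4 : (0 : ℝ) ≤ K k := by linarith [hK1 k]
    have h5 : Real.log (Q * (|s.im| + 2)) ^ (9 * (k + 1)) ≤
        Real.log (Q * (|s.im| + 2)) ^ (max ⌈K k⌉₊ (9 * (k + 1))) :=
      pow_le_pow_right₀ hl (le_max_right _ _)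
    exact mul_le_mul h3 h5 (by positivity) (by positivity)
  · intro x hx1 hx2
    refine (hc1' x hx1 hx2).trans ?_
    have : 0 < x - 1 := by linarith
    gcongr
    exact hM1 k
  · intro s h1 h2
    have := hc 0 (fun b => ψ b ^ 2) Q hψ.sq (by linarith) hs2 s h1 h2
    rw [iteratedDeriv_zero] at this
    refine this.trans ?_
    have hl := hlog s
    rw [zero_add, pow_one]
    gcongr
    exact hMc k 0 (by omega)
  · intro j hj s h1 h2
    refine (hc j ψ Q hψ (by linarith) hs s h1 h2).trans ?_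
    have hl := hlog s
    gcongr
    exact hMc k j hj

/-- **Siegel–Walfisz with von Mangoldt weight**, twisted by `nm b ^ (it)`. -/
theorem SW_Lam (h2 : P2Prop) (h1 : P2One) (A C : ℕ) : ∃ K : ℝ, 0 < K ∧
    ∀ (ψ : Eis → ℂ) (Q : ℝ), IsChar ψ → 1 ≤ Q →
    (∀ N : ℕ, ‖∑ b ∈ primBall N, ψ b‖ ≤ Q * Real.sqrt N) →
    (∀ N : ℕ, ‖∑ b ∈ primBall N, ψ b ^ 2‖ ≤ Q * Real.sqrt N) →
    ∀ (t x : ℝ), 2 ≤ x → Q * (|t| + 2) ≤ Real.log x ^ C →
      ‖∑ b ∈ primBall ⌊x⌋₊, (Lam b : ℂ) * ψ b * (nm b : ℂ) ^ (t * I)‖ ≤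
        K * x / Real.log x ^ A := by
  obtain ⟨B, hB⟩ := deriv_bound h2 h1
  obtain ⟨D, hD, h⟩ := PInv255.sum_tw_le 2 B A (2 * C)
  refine ⟨D, hD, fun ψ Q hψ hQ hs hs2 t x hx hQx => ?_⟩
  have ht := abs_nonneg t
  have key := h (push (LamPsi ψ)) (2 * Q) (by linarith) ?_ ?_ x (-t) hx ?_
  · refine le_trans (le_of_eq ?_) key
    congr 1
    rw [← sum_push]
    refine Finset.sum_congr rfl fun n _ => ?_
    unfold push
    rw [Finset.sum_mul]
    refine Finset.sum_congr rfl fun b hb => ?_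
    rw [mem_fib] at hb
    simp only [LamPsi, hb.1, Complex.ofReal_neg, neg_mul, neg_neg]
  · intro n hn
    refine (norm_push_LamPsi_le (fun b hb => hψ.norm_le hb) n).trans ?_
    linarith
  · intro k s h1 h2
    refine hB ψ (2 * Q) hψ (by linarith) (fun N => (hs N).trans ?_) (fun N => (hs2 N).trans ?_)
      k s h1 h2
    · gcongr; linarith
    · gcongr; linarith
  · rw [abs_neg, mul_assoc, pow_mul]
    have h3 : 2 ≤ Real.log x ^ C := le_trans (by nlinarith) hQx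
    calc 2 * (Q * (|t| + 2)) ≤ Real.log x ^ C * Real.log x ^ C := by
          apply mul_le_mul h3 hQx (by positivity) (by linarith)
      _ = (Real.log x ^ 2) ^ C := by rw [← mul_pow, pow_two]

end

end Crest.Agent.R012.PSW255
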