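import Crest.Agent.R012.T1x_671

/-!
# Row 12 (helper286): pair sums for (T13)

`pair_sum k` : `∑_{b₁,b₂ ∈ 𝓑} τ(b₁b₂)^k N(gE b₁ b₂) ≤ C B² (1 + log B)^c`.
-/

set_option autoImplicit false

noncomputable section

namespace Crest.Agent.R012.PairSum286

open Crest.Agent.R012 Crest.Agent.R012.Eis Crest.Agent.R012.Div277 Crest.Agent.R012.T411
open Finset

lemma gE_dvd_left {b₁ b₂ : Eis} (h1 : SqP b₁) : gE b₁ b₂ ∣ b₁ :=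
  ⟨kE b₁ b₂, (T1x671.gE_mul_kE b₂ h1).symm⟩

lemma gE_dvd_right {b₁ b₂ : Eis} (h2 : SqP b₂) : gE b₁ b₂ ∣ b₂ :=
  ⟨kE b₂ b₁, (T1x671.gE_mul_kE' b₁ h2).symm⟩

open Classical in
/-- `∑_{b ∈ primBall X, e ∣ b} τ(b)^k ≤ τ(e)^k (X / N e) (100 (1 + log X))^(2^k)` -/
lemma sum_tau_dvd_le (k X : ℕ) {e : Eis} (he : IsPrim e) :
    ∑ b ∈ (primBall X).filter (fun b => e ∣ b), (tau b : ℝ) ^ k ≤
      (tau e : ℝ) ^ k * ((X : ℝ) / nm e) * (100 * (1 + Real.log X)) ^ (2 ^ k) := by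
  have hep : (0 : ℝ) < nm e := by exact_mod_cast nm_pos.mpr he.ne_zero
  rw [primBall_filter_dvd X he, Finset.sum_map]
  have h1 : ∑ m ∈ primBall (X / nm e), (tau (mulEmb e he.ne_zero m) : ℝ) ^ k ≤
      (tau e : ℝ) ^ k * ∑ m ∈ nz (X / nm e), (tau m : ℝ) ^ k := by
    rw [Finset.mul_sum]
    refine le_trans (Finset.sum_le_sum (g := fun m => (tau e : ℝ) ^ k * (tau m : ℝ) ^ k)
      (fun m _ => ?_)) (Finset.sum_le_sum_of_subset_of_nonneg (primBall_subset_nz _)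
        (fun _ _ _ => by positivity))
    rw [← mul_pow, mulEmb_apply]
    gcongr
    exact_mod_cast tau_mul_le e m
  refine h1.trans ?_
  have h2 := sum_tau_pow_le k (X / nm e)
  rw [mul_assoc]
  refine mul_le_mul_of_nonneg_left (h2.trans ?_) (by positivity)
  have h3 : ((X / nm e : ℕ) : ℝ) ≤ (X : ℝ) / nm e := Nat.cast_div_le
  have h4 : (0 : ℝ) ≤ 100 * (1 + Real.log ((X / nm e : ℕ) : ℝ)) :=
    mul_nonneg (by norm_num) (one_add_log_nonneg _)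
  rcases Nat.eq_zero_or_pos (X / nm e) with h0 | h0
  · rw [h0]
    have : (0 : ℝ) ≤ 100 * (1 + Real.log X) := mul_nonneg (by norm_num) (one_add_log_nonneg _)
    simp only [Nat.cast_zero, zero_mul]
    positivity
  · have h5 : Real.log ((X / nm e : ℕ) : ℝ) ≤ Real.log X :=
      Real.log_le_log (by exact_mod_cast h0) (by exact_mod_cast Nat.div_le_self _ _)
    gcongr

/-- the pair sum, explicit -/
theorem pair_sum_nat (k X : ℕ) (𝓑 : Finset Eis) (hsq : ∀ b ∈ 𝓑, SqP b)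
    (hX : ∀ b ∈ 𝓑, nm b ≤ X) :
    ∑ b₁ ∈ 𝓑, ∑ b₂ ∈ 𝓑, ((tau b₁ : ℝ) * tau b₂) ^ k * nm (gE b₁ b₂) ≤
      (X : ℝ) ^ 2 * (100 * (1 + Real.log X)) ^ (2 * 2 ^ k + 2 ^ (2 * k)) := by
  classical
  set L : ℝ := 100 * (1 + Real.log X) with hL
  have hL0 : 0 ≤ L := mul_nonneg (by norm_num) (one_add_log_nonneg _)
  have key : ∀ b₁ ∈ 𝓑, ∀ b₂ ∈ 𝓑, ((tau b₁ : ℝ) * tau b₂) ^ k * nm (gE b₁ b₂) ≤
      ∑ e ∈ primBall X, if e ∣ b₁ ∧ e ∣ b₂ then (nm e : ℝ) * ((tau b₁ : ℝ) ^ k * (tau b₂ : ℝ) ^ k)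
        else 0 := by
    intro b₁ h1 b₂ h2
    have hd1 := gE_dvd_left (b₂ := b₂) (hsq b₁ h1)
    have hd2 := gE_dvd_right (b₁ := b₁) (hsq b₂ h2)
    have hmem : gE b₁ b₂ ∈ primBall X := by
      rw [mem_primBall]
      exact ⟨(nm_le_of_dvd (hsq b₁ h1).1.ne_zero hd1).trans (hX b₁ h1), T1x671.isPrim_gE b₁ b₂⟩
    refine le_trans (le_of_eq ?_) (Finset.single_le_sum (f := fun e => if e ∣ b₁ ∧ e ∣ b₂ then
      (nm e : ℝ) * ((tau b₁ : ℝ) ^ k * (tau b₂ : ℝ) ^ k) else 0) (fun e _ => ?_) hmem)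
    · simp only [hd1, hd2, and_self, if_true]
      rw [mul_pow]; ring
    · split_ifs <;> positivity
  calc ∑ b₁ ∈ 𝓑, ∑ b₂ ∈ 𝓑, ((tau b₁ : ℝ) * tau b₂) ^ k * nm (gE b₁ b₂)
      ≤ ∑ b₁ ∈ 𝓑, ∑ b₂ ∈ 𝓑, ∑ e ∈ primBall X, (if e ∣ b₁ ∧ e ∣ b₂ then
          (nm e : ℝ) * ((tau b₁ : ℝ) ^ k * (tau b₂ : ℝ) ^ k) else 0) :=
        Finset.sum_le_sum fun b₁ h1 => Finset.sum_le_sum fun b₂ h2 => key b₁ h1 b₂ h2
    _ = ∑ e ∈ primBall X, (nm e : ℝ) *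
          (∑ b ∈ 𝓑.filter (fun b => e ∣ b), (tau b : ℝ) ^ k) ^ 2 := by
        rw [Finset.sum_comm' (s' := fun b₂ => 𝓑) (t' := 𝓑) (by tauto)]
        have e1 : ∀ b₂ ∈ 𝓑, ∑ b₁ ∈ 𝓑, ∑ e ∈ primBall X, (if e ∣ b₁ ∧ e ∣ b₂ then
          (nm e : ℝ) * ((tau b₁ : ℝ) ^ k * (tau b₂ : ℝ) ^ k) else 0) =
            ∑ e ∈ primBall X, ∑ b₁ ∈ 𝓑, (if e ∣ b₁ ∧ e ∣ b₂ then
          (nm e : ℝ) * ((tau b₁ : ℝ) ^ k * (tau b₂ : ℝ) ^ k) else 0) :=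
          fun b₂ _ => Finset.sum_comm
        rw [Finset.sum_congr rfl e1, Finset.sum_comm]
        refine Finset.sum_congr rfl fun e _ => ?_
        rw [sq, Finset.sum_mul_sum, Finset.mul_sum, Finset.sum_filter]
        rw [Finset.sum_comm]
        refine Finset.sum_congr rfl fun b₁ _ => ?_
        by_cases hd : e ∣ b₁
        · simp only [hd, true_and, if_true]
          rw [Finset.mul_sum, Finset.sum_filter]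
        · simp [hd]
    _ ≤ ∑ e ∈ primBall X, (nm e : ℝ) *
          ((tau e : ℝ) ^ k * ((X : ℝ) / nm e) * L ^ (2 ^ k)) ^ 2 := by
        refine Finset.sum_le_sum fun e he => ?_
        have he' := mem_primBall.mp he
        refine mul_le_mul_of_nonneg_left ?_ (by positivity)
        refine pow_le_pow_left₀ (Finset.sum_nonneg fun _ _ => by positivity) ?_ 2
        refine le_trans ?_ (sum_tau_dvd_le k X he'.2)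
        refine Finset.sum_le_sum_of_subset_of_nonneg ?_ (fun _ _ _ => by positivity)
        intro b hb
        rw [Finset.mem_filter] at hb ⊢
        exact ⟨mem_primBall.mpr ⟨hX b hb.1, (hsq b hb.1).1⟩, hb.2⟩
    _ = (X : ℝ) ^ 2 * L ^ (2 * 2 ^ k) * ∑ e ∈ primBall X, ((tau e : ℝ) ^ (2 * k) / nm e) := by
        rw [Finset.mul_sum]
        refine Finset.sum_congr rfl fun e he => ?_
        have hep : (nm e : ℝ) ≠ 0 := by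
          exact_mod_cast (nm_pos.mpr (mem_primBall.mp he).2.ne_zero).ne'
        rw [mul_pow, mul_pow, div_pow, ← pow_mul, ← pow_mul]
        field_simp
        ring
    _ ≤ (X : ℝ) ^ 2 * L ^ (2 * 2 ^ k) * L ^ (2 ^ (2 * k)) := by
        refine mul_le_mul_of_nonneg_left ?_ (by positivity)
        refine le_trans (Finset.sum_le_sum_of_subset_of_nonneg (primBall_subset_nz X)
          (fun _ _ _ => by positivity)) (sum_tau_pow_div_le (2 * k) X)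
    _ = (X : ℝ) ^ 2 * L ^ (2 * 2 ^ k + 2 ^ (2 * k)) := by rw [mul_assoc, ← pow_add]

/-- logarithm bookkeeping: `100 (1 + log ⌊2B⌋) ≤ 200 (1 + log B)` -/
lemma log_floor_le {B : ℝ} (hB : 1 ≤ B) :
    100 * (1 + Real.log (⌊2 * B⌋₊ : ℝ)) ≤ 200 * (1 + Real.log B) := by
  have h1 : (1 : ℝ) ≤ (⌊2 * B⌋₊ : ℝ) := by
    have : 1 ≤ ⌊2 * B⌋₊ := Nat.le_floor (by push_cast; linarith)
    exact_mod_cast this
  have h2 : Real.log (⌊2 * B⌋₊ : ℝ) ≤ Real.log (2 * B) :=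
    Real.log_le_log (by linarith) (Nat.floor_le (by linarith))
  rw [Real.log_mul (by norm_num) (by linarith)] at h2
  have h3 := Real.log_two_lt_d9
  have h4 : 0 ≤ Real.log B := Real.log_nonneg hB
  linarith

/-- the pair sum with gcd, `τ(b₁)τ(b₂)` -/
theorem pair_sum' (k : ℕ) : ∃ (C : ℝ) (c : ℕ), 0 < C ∧ ∀ (B : ℝ) (𝓑 : Finset Eis), 1 ≤ B →
    (∀ b ∈ 𝓑, SqP b) → (∀ b ∈ 𝓑, (nm b : ℝ) ≤ 2 * B) →
    ∑ b₁ ∈ 𝓑, ∑ b₂ ∈ 𝓑, ((tau b₁ : ℝ) * tau b₂) ^ k * nm (gE b₁ b₂) ≤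
      C * B ^ 2 * (1 + Real.log B) ^ c := by
  refine ⟨4 * 200 ^ (2 * 2 ^ k + 2 ^ (2 * k)), 2 * 2 ^ k + 2 ^ (2 * k), by positivity, ?_⟩
  intro B 𝓑 hB hsq hhi
  have h := pair_sum_nat k ⌊2 * B⌋₊ 𝓑 hsq (fun b hb => Nat.le_floor (hhi b hb))
  refine h.trans ?_
  have h1 := log_floor_le hB
  have h2 : (⌊2 * B⌋₊ : ℝ) ≤ 2 * B := Nat.floor_le (by linarith)
  have h3 : (0 : ℝ) ≤ 100 * (1 + Real.log (⌊2 * B⌋₊ : ℝ)) :=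
    mul_nonneg (by norm_num) (one_add_log_nonneg _)
  calc (⌊2 * B⌋₊ : ℝ) ^ 2 * (100 * (1 + Real.log (⌊2 * B⌋₊ : ℝ))) ^ (2 * 2 ^ k + 2 ^ (2 * k))
      ≤ (2 * B) ^ 2 * (200 * (1 + Real.log B)) ^ (2 * 2 ^ k + 2 ^ (2 * k)) := by gcongr
    _ = _ := by rw [mul_pow, mul_pow]; ring

/-- the pair sum with gcd, `τ(b₁)^k τ(b₂)^k` (form used by `T13_541`) -/
theorem pair_sum_mul (k : ℕ) : ∃ (C : ℝ) (c : ℕ), 0 ≤ C ∧ ∀ (B : ℝ) (𝓑 : Finset Eis), 1 ≤ B →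
    (∀ b ∈ 𝓑, SqP b) → (∀ b ∈ 𝓑, (nm b : ℝ) ≤ 2 * B) →
    ∑ b₁ ∈ 𝓑, ∑ b₂ ∈ 𝓑, (tau b₁ : ℝ) ^ k * (tau b₂ : ℝ) ^ k * nm (gE b₁ b₂) ≤
      C * B ^ 2 * (1 + Real.log B) ^ c := by
  obtain ⟨C, c, hC, h⟩ := pair_sum' k
  refine ⟨C, c, hC.le, fun B 𝓑 hB hsq hhi => le_trans (le_of_eq ?_) (h B 𝓑 hB hsq hhi)⟩
  refine Finset.sum_congr rfl fun b₁ _ => Finset.sum_congr rfl fun b₂ _ => ?_
  rw [mul_pow]

/-- the pair sum with gcd, `τ(b₁b₂)` -/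
theorem pair_sum (k : ℕ) : ∃ (C : ℝ) (c : ℕ), 0 < C ∧ ∀ (B : ℝ) (𝓑 : Finset Eis), 1 ≤ B →
    (∀ b ∈ 𝓑, SqP b) → (∀ b ∈ 𝓑, (nm b : ℝ) ≤ 2 * B) →
    ∑ b₁ ∈ 𝓑, ∑ b₂ ∈ 𝓑, (tau (b₁ * b₂) : ℝ) ^ k * nm (gE b₁ b₂) ≤
      C * B ^ 2 * (1 + Real.log B) ^ c := by
  obtain ⟨C, c, hC, h⟩ := pair_sum' k
  refine ⟨C, c, hC, fun B 𝓑 hB hsq hhi => le_trans ?_ (h B 𝓑 hB hsq hhi)⟩
  refine Finset.sum_le_sum fun b₁ _ => Finset.sum_le_sum fun b₂ _ => ?_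
  gcongr
  exact_mod_cast tau_mul_le b₁ b₂

/-- the pair sum without gcd -/
theorem pair_sum_tau (k : ℕ) : ∃ (C : ℝ) (c : ℕ), 0 < C ∧ ∀ (B : ℝ) (𝓑 : Finset Eis), 1 ≤ B →
    (∀ b ∈ 𝓑, SqP b) → (∀ b ∈ 𝓑, (nm b : ℝ) ≤ 2 * B) →
    ∑ b₁ ∈ 𝓑, ∑ b₂ ∈ 𝓑, (tau (b₁ * b₂) : ℝ) ^ k ≤ C * B ^ 2 * (1 + Real.log B) ^ c := by
  obtain ⟨C, c, hC, h⟩ := pair_sum k
  refine ⟨C, c, hC, fun B 𝓑 hB hsq hhi => le_trans ?_ (h B 𝓑 hB hsq hhi)⟩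
  refine Finset.sum_le_sum fun b₁ _ => Finset.sum_le_sum fun b₂ _ => ?_
  have : (1 : ℝ) ≤ nm (gE b₁ b₂) := by
    exact_mod_cast nm_pos.mpr (T1x671.isPrim_gE b₁ b₂).ne_zero
  exact le_mul_of_one_le_right (by positivity) this

/-- the diagonal sum -/
theorem diag_sum (k : ℕ) : ∃ (C : ℝ) (c : ℕ), 0 < C ∧ ∀ (B : ℝ) (𝓑 : Finset Eis), 1 ≤ B →
    (∀ b ∈ 𝓑, SqP b) → (∀ b ∈ 𝓑, (nm b : ℝ) ≤ 2 * B) →
    ∑ b ∈ 𝓑, (tau b : ℝ) ^ k ≤ C * B * (1 + Real.log B) ^ c := by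
  refine ⟨2 * 200 ^ (2 ^ k), 2 ^ k, by positivity, ?_⟩
  intro B 𝓑 hB hsq hhi
  have h : ∑ b ∈ 𝓑, (tau b : ℝ) ^ k ≤ ∑ b ∈ nz ⌊2 * B⌋₊, (tau b : ℝ) ^ k :=
    Finset.sum_le_sum_of_subset_of_nonneg
      (fun b hb => mem_nz.mpr ⟨(hsq b hb).1.ne_zero, Nat.le_floor (hhi b hb)⟩)
      (fun _ _ _ => by positivity)
  refine h.trans ((sum_tau_pow_le k _).trans ?_)
  have h1 := log_floor_le hB
  have h2 : (⌊2 * B⌋₊ : ℝ) ≤ 2 * B := Nat.floor_le (by linarith)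
  have h3 : (0 : ℝ) ≤ 100 * (1 + Real.log (⌊2 * B⌋₊ : ℝ)) :=
    mul_nonneg (by norm_num) (one_add_log_nonneg _)
  calc (⌊2 * B⌋₊ : ℝ) * (100 * (1 + Real.log (⌊2 * B⌋₊ : ℝ))) ^ (2 ^ k)
      ≤ (2 * B) * (200 * (1 + Real.log B)) ^ (2 ^ k) := by gcongr
    _ = _ := by rw [mul_pow]; ring

/-- `card 𝓑 ≤ C B` -/
theorem card_le {B : ℝ} (hB : 1 ≤ B) {𝓑 : Finset Eis} (hsq : ∀ b ∈ 𝓑, SqP b)
    (hhi : ∀ b ∈ 𝓑, (nm b : ℝ) ≤ 2 * B) : (𝓑.card : ℝ) ≤ 200 * B := by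
  have h : 𝓑 ⊆ nz ⌊2 * B⌋₊ := fun b hb =>
    mem_nz.mpr ⟨(hsq b hb).1.ne_zero, Nat.le_floor (hhi b hb)⟩
  have h1 : (𝓑.card : ℝ) ≤ ((nz ⌊2 * B⌋₊).card : ℝ) := by exact_mod_cast Finset.card_le_card h
  have h2 := card_nz_le ⌊2 * B⌋₊
  have h3 : (⌊2 * B⌋₊ : ℝ) ≤ 2 * B := Nat.floor_le (by linarith)
  linarith

end Crest.Agent.R012.PairSum286
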