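import Crest.Agent.R012.Weight_695

/-!
# Row 12 (M-U), part 4: unfolding for complex functions, the pairing with a pseudo-Eisenstein series
-/

set_option autoImplicit false

noncomputable section

open MeasureTheory Complex
open scoped ENNReal

namespace Crest.Agent.R012.K695

open Eis

/-! ### The degenerate frames form a null set -/

lemma continuous_det2 : Continuous det2 := by unfold det2; fun_prop

lemma measurable_det2 : Measurable det2 := continuous_det2.measurable

lemma measurableSet_deg : MeasurableSet {M : Frm | det2 M = 0} :=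
  measurable_det2 (measurableSet_singleton 0)

lemma volume_deg_fiber {u : Vec} (hu : u ≠ 0) :
    (volume : Measure Vec) {v : Vec | u.1 * v.2 - u.2 * v.1 = 0} = 0 := by
  let s : Submodule ℝ Vec :=
    { carrier := {v : Vec | u.1 * v.2 - u.2 * v.1 = 0}
      add_mem' := by
        intro a b ha hb
        simp only [Set.mem_ofPred_eq, Prod.fst_add, Prod.snd_add] at *
        linear_combination ha + hb
      zero_mem' := by simp
      smul_mem' := by
        intro c a ha
        simp only [Set.mem_ofPred_eq, Prod.smul_fst, Prod.smul_snd, Complex.real_smul] at *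
        linear_combination (c : ℂ) * ha }
  have hs : s ≠ ⊤ := by
    intro h
    apply hu
    have h1 : ((0, 1) : Vec) ∈ s := h ▸ Submodule.mem_top
    have h2 : ((1, 0) : Vec) ∈ s := h ▸ Submodule.mem_top
    have h1' : u.1 * (1 : ℂ) - u.2 * 0 = 0 := h1
    have h2' : u.1 * (0 : ℂ) - u.2 * 1 = 0 := h2
    ext1
    · simpa using h1'
    · simpa using h2'
  exact Measure.addHaar_submodule (volume : Measure Vec) s hs

theorem volume_deg : (volume : Measure Frm) {M : Frm | det2 M = 0} = 0 := by
  have h : (volume : Measure Frm) = (volume : Measure Vec).prod (volume : Measure Vec) := rfl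
  rw [h, Measure.measure_prod_null measurableSet_deg]
  have h1 : ∀ᵐ u : Vec ∂volume, u ≠ 0 := by
    rw [ae_iff]
    simp
  filter_upwards [h1] with u hu
  exact volume_deg_fiber hu

lemma ae_det_ne : ∀ᵐ M : Frm ∂volume, det2 M ≠ 0 := by
  rw [ae_iff]
  simpa using volume_deg

/-- Unfolding for nonnegative functions, without vanishing assumption. -/
theorem lintegral_nu_tsum' {Δ : Subgroup Gam} {q : Eis} (hL : IsLev Δ q) {f : Frm → ℝ≥0∞}
    (hf : Measurable f) :
    ∫⁻ M, ∑' g : Δ, f (act g.1 M) ∂(nu Δ q) = ∫⁻ M, f M := by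
  classical
  have hD : MeasurableSet {M : Frm | det2 M ≠ 0} := measurableSet_deg.compl
  have h := lintegral_nu_tsum hL (f := {M : Frm | det2 M ≠ 0}.indicator f) (hf.indicator hD)
    (fun M hM => by simp [hM])
  have hac : nu Δ q ≪ (volume : Measure Frm) := withDensity_absolutelyContinuous _ _
  have h1 : ∀ᵐ M ∂(nu Δ q), det2 M ≠ 0 := hac.ae_le ae_det_ne
  rw [show ∫⁻ M, ∑' g : Δ, f (act g.1 M) ∂(nu Δ q) =
    ∫⁻ M, ∑' g : Δ, {M : Frm | det2 M ≠ 0}.indicator f (act g.1 M) ∂(nu Δ q) from ?_, h]
  · apply lintegral_congr_ae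
    filter_upwards [ae_det_ne] with M hM
    simp [hM]
  · apply lintegral_congr_ae
    filter_upwards [h1] with M hM
    apply tsum_congr
    intro g
    simp [hM]

/-- The abstract passage from an identity for nonnegative functions to complex functions. -/
lemma hasSum_of_lintegral {X ι : Type*} [MeasurableSpace X] [Countable ι] {T : ι → X → X}
    (hT : ∀ i, Measurable (T i)) {μ0 μ1 : Measure X}
    (h : ∀ f : X → ℝ≥0∞, Measurable f → ∑' i, ∫⁻ x, f (T i x) ∂μ0 = ∫⁻ x, f x ∂μ1)
    {f : X → ℂ} (hf : Integrable f μ1) :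
    HasSum (fun i => ∫ x, f (T i x) ∂μ0) (∫ x, f x ∂μ1) := by
  have hμ : μ1 = Measure.sum (fun i => μ0.map (T i)) := by
    ext s hs
    rw [Measure.sum_apply _ hs]
    have h1 := h (s.indicator 1) (measurable_one.indicator hs)
    rw [lintegral_indicator_one hs] at h1
    rw [← h1]
    apply tsum_congr
    intro i
    rw [Measure.map_apply (hT i) hs]
    have h2 : (fun x => s.indicator (1 : X → ℝ≥0∞) (T i x)) = (T i ⁻¹' s).indicator 1 := rfl
    rw [h2, lintegral_indicator_one (hT i hs)]
  have hf' : Integrable f (Measure.sum (fun i => μ0.map (T i))) := hμ ▸ hf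
  have h3 := hasSum_integral_measure hf'
  rw [← hμ] at h3
  have h4 : ∀ i, ∫ x, f x ∂(μ0.map (T i)) = ∫ x, f (T i x) ∂μ0 := by
    intro i
    have hfi : Integrable f (μ0.map (T i)) := hf'.mono_measure (Measure.le_sum _ _)
    rw [integral_map (hT i).aemeasurable hfi.aestronglyMeasurable]
  simpa only [h4] using h3

/-- Unfolding for complex functions. -/
theorem integral_nu_tsum {Δ : Subgroup Gam} {q : Eis} (hL : IsLev Δ q) {f : Frm → ℂ}
    (hfm : Measurable f) (hf : Integrable f) :
    Integrable (fun M => ∑' g : Δ, f (act g.1 M)) (nu Δ q) ∧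
    ∫ M, ∑' g : Δ, f (act g.1 M) ∂(nu Δ q) = ∫ M, f M := by
  have key : ∀ f : Frm → ℝ≥0∞, Measurable f →
      ∑' g : Δ, ∫⁻ M, f (act g.1 M) ∂(nu Δ q) = ∫⁻ M, f M := by
    intro f hf
    have hm' : ∀ g : Δ, AEMeasurable (fun M => f (act g.1 M)) (nu Δ q) :=
      fun g => (hf.comp (measurable_act g.1)).aemeasurable
    rw [← lintegral_tsum hm']
    exact lintegral_nu_tsum' hL hf
  have hfin : ∑' g : Δ, ∫⁻ M, ‖f (act g.1 M)‖ₑ ∂(nu Δ q) ≠ ∞ := by
    rw [key (fun M => ‖f M‖ₑ) hfm.enorm]
    exact hf.2.ne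
  have hm : ∀ g : Δ, AEStronglyMeasurable (fun M => f (act g.1 M)) (nu Δ q) :=
    fun g => (hfm.comp (measurable_act g.1)).aestronglyMeasurable
  have hmt : Measurable (fun M => ∑' g : Δ, f (act g.1 M)) :=
    Measurable.tsum fun g => hfm.comp (measurable_act g.1)
  constructor
  · refine ⟨hmt.aestronglyMeasurable, ?_⟩
    have h1 : ∫⁻ M, ‖∑' g : Δ, f (act g.1 M)‖ₑ ∂(nu Δ q) ≤
        ∫⁻ M, ∑' g : Δ, ‖f (act g.1 M)‖ₑ ∂(nu Δ q) := by
      apply lintegral_mono
      intro M
      exact enorm_tsum_le_tsum_enorm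
    refine lt_of_le_of_lt h1 ?_
    rw [lintegral_tsum (fun g => (hm g).enorm)]
    exact hfin.lt_top
  · rw [integral_tsum hm hfin]
    exact (hasSum_of_lintegral (fun g : Δ => measurable_act g.1) key hf).tsum_eq

end Crest.Agent.R012.K695
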