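import Crest.Agent.R012.Defs

/-!
# Parseval for functions on `ℂ / a·ℤ[ω]`  (row 12, part (M-F), helper499)

* `par a` : the fundamental parallelogram `{a (x + y ω) : 0 < x, y ≤ 1}`
* `covol a = ‖a‖² √3 / 2`
* `frq a u = u / (a √-3)`, `u ∈ ℤ[ω]`: the frequencies, `z ↦ eC (frq a u * z)` is `a ℤ[ω]`-periodic
* `fco a f u = covol⁻¹ ∫_{par a} f z * eC (-(frq a u * z))`
* `hasSum_sq_fco`, `hasSum_inner_fco` : Parseval
-/

set_option autoImplicit false

noncomputable section

open MeasureTheory Complex Set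
open scoped ComplexConjugate ENNReal

namespace Crest.Agent.R012.Parseval499

open Crest.Agent.R012

/-! ### the linear parametrisation -/

/-- `(x, y) ↦ a (x + y ω)`. -/
def Lm (a : ℂ) (x : Fin 2 → ℝ) : ℂ := a * ((x 0 : ℂ) + (x 1 : ℂ) * wC)

/-- covolume of `a ℤ[ω]`. -/
def covol (a : ℂ) : ℝ := ‖a‖ ^ 2 * (Real.sqrt 3 / 2)

lemma covol_pos {a : ℂ} (ha : a ≠ 0) : 0 < covol a := by
  unfold covol
  have : 0 < ‖a‖ := norm_pos_iff.mpr ha
  positivity

/-- the inverse of `Lm`. -/
def Lminv (a : ℂ) (z : ℂ) : Fin 2 → ℝ :=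
  ![(z / a).re + (z / a).im / Real.sqrt 3, 2 * (z / a).im / Real.sqrt 3]

lemma sqrt3_ne : Real.sqrt 3 ≠ 0 := by positivity

lemma Lminv_Lm {a : ℂ} (ha : a ≠ 0) (x : Fin 2 → ℝ) : Lminv a (Lm a x) = x := by
  have h : Lm a x / a = (x 0 : ℂ) + (x 1 : ℂ) * wC := by
    unfold Lm; field_simp
  have h3 := sqrt3_ne
  have hre : (Lm a x / a).re = x 0 - x 1 / 2 := by
    rw [h]; simp [wC]; ring
  have him : (Lm a x / a).im = x 1 * (Real.sqrt 3 / 2) := by
    rw [h]; simp [wC]
  ext i
  fin_cases i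
  · simp only [Lminv, hre, him]
    simp; field_simp; ring
  · simp only [Lminv, hre, him]
    simp; field_simp

lemma Lm_Lminv {a : ℂ} (ha : a ≠ 0) (z : ℂ) : Lm a (Lminv a z) = z := by
  have h3 := sqrt3_ne
  have h : (((Lminv a z 0 : ℝ) : ℂ) + ((Lminv a z 1 : ℝ) : ℂ) * wC) = z / a := by
    apply Complex.ext
    · simp [Lminv, wC]; field_simp; ring
    · simp [Lminv, wC]; field_simp
  unfold Lm
  rw [h]; field_simp

lemma continuous_Lm (a : ℂ) : Continuous (Lm a) := by
  unfold Lm; fun_prop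

lemma continuous_Lminv (a : ℂ) : Continuous (Lminv a) := by
  unfold Lminv
  refine continuous_pi fun i => ?_
  fin_cases i
  · simp; fun_prop
  · simp; fun_prop

/-- `Lm` as a homeomorphism. -/
def LmH (a : ℂ) (ha : a ≠ 0) : (Fin 2 → ℝ) ≃ₜ ℂ where
  toFun := Lm a
  invFun := Lminv a
  left_inv := Lminv_Lm ha
  right_inv := Lm_Lminv ha
  continuous_toFun := continuous_Lm a
  continuous_invFun := continuous_Lminv a

@[simp] lemma LmH_apply (a : ℂ) (ha : a ≠ 0) (x : Fin 2 → ℝ) : LmH a ha x = Lm a x := rfl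

/-- matrix of `Lm`. -/
def LmM (a : ℂ) : Matrix (Fin 2) (Fin 2) ℝ := !![a.re, (a * wC).re; a.im, (a * wC).im]

lemma det_LmM (a : ℂ) : (LmM a).det = covol a := by
  have h3 : Real.sqrt 3 * Real.sqrt 3 = 3 := Real.mul_self_sqrt (by norm_num)
  have hn : ‖a‖ ^ 2 = a.re * a.re + a.im * a.im := by
    rw [← Complex.normSq_eq_norm_sq, Complex.normSq_apply]
  simp [LmM, Matrix.det_fin_two, covol, hn, wC]
  ring

lemma map_Lm {a : ℂ} (ha : a ≠ 0) :
    Measure.map (Lm a) volume = ENNReal.ofReal (covol a)⁻¹ • (volume : Measure ℂ) := by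
  have hdet : LinearMap.det (Matrix.toLin' (LmM a)) ≠ 0 := by
    rw [LinearMap.det_toLin', det_LmM]; exact (covol_pos ha).ne'
  have h1 := Real.map_linearMap_volume_pi_eq_smul_volume_pi hdet
  rw [LinearMap.det_toLin', det_LmM, abs_of_pos (inv_pos.mpr (covol_pos ha))] at h1
  have hcomp : Lm a = Complex.measurableEquivPi.symm ∘ (Matrix.toLin' (LmM a)) := by
    funext x
    simp only [Function.comp_apply, Complex.measurableEquivPi_symm_apply, Matrix.toLin'_apply]
    apply Complex.ext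
    · simp [Lm, LmM, Matrix.mulVec, dotProduct, Fin.sum_univ_two]; ring
    · simp [Lm, LmM, Matrix.mulVec, dotProduct, Fin.sum_univ_two]; ring
  have hmeas : Measurable (Matrix.toLin' (LmM a)) :=
    (LinearMap.continuous_of_finiteDimensional _).measurable
  rw [hcomp, ← Measure.map_map Complex.measurableEquivPi.symm.measurable hmeas, h1,
    Measure.map_smul, Complex.volume_preserving_equiv_pi.symm.map_eq]

/-- the unit box `(0,1]²`. -/
def box : Set (Fin 2 → ℝ) := {x | ∀ i, x i ∈ Ioc ((0 : Fin 2 → ℝ) i) ((0 : Fin 2 → ℝ) i + 1)}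

lemma measurableSet_box : MeasurableSet box := by
  unfold box
  exact MeasurableSet.univ_pi' (fun i => measurableSet_Ioc)

/-- the fundamental parallelogram of `a ℤ[ω]`. -/
def par (a : ℂ) : Set ℂ := Lm a '' box

lemma par_eq_preimage {a : ℂ} (ha : a ≠ 0) : par a = Lminv a ⁻¹' box := by
  ext z
  constructor
  · rintro ⟨x, hx, rfl⟩
    simpa [Lminv_Lm ha] using hx
  · intro hz
    exact ⟨Lminv a z, hz, Lm_Lminv ha z⟩

lemma preimage_par {a : ℂ} (ha : a ≠ 0) : Lm a ⁻¹' par a = box := by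
  ext x
  constructor
  · rintro ⟨y, hy, hxy⟩
    have := congrArg (Lminv a) hxy
    rw [Lminv_Lm ha, Lminv_Lm ha] at this
    rwa [← this]
  · intro hx; exact ⟨x, hx, rfl⟩

lemma measurableSet_par {a : ℂ} (ha : a ≠ 0) : MeasurableSet (par a) := by
  rw [par_eq_preimage ha]
  exact (continuous_Lminv a).measurable measurableSet_box

lemma volume_eq_smul_map {a : ℂ} (ha : a ≠ 0) :
    (volume : Measure ℂ) = ENNReal.ofReal (covol a) • Measure.map (Lm a) volume := by
  rw [map_Lm ha, smul_smul, ← ENNReal.ofReal_mul (covol_pos ha).le,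
    mul_inv_cancel₀ (covol_pos ha).ne', ENNReal.ofReal_one, one_smul]

lemma lintegral_par {a : ℂ} (ha : a ≠ 0) (f : ℂ → ℝ≥0∞) :
    ∫⁻ z in par a, f z = ENNReal.ofReal (covol a) * ∫⁻ x in box, f (Lm a x) := by
  have h : (volume : Measure ℂ).restrict (par a)
      = ENNReal.ofReal (covol a) •
        (Measure.map (LmH a ha).toMeasurableEquiv (volume.restrict box)) := by
    conv_lhs => rw [volume_eq_smul_map ha]
    rw [Measure.restrict_smul]
    congr 1
    have := (LmH a ha).toMeasurableEquiv.restrict_map (volume : Measure (Fin 2 → ℝ)) (par a)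
    have e : ((LmH a ha).toMeasurableEquiv : (Fin 2 → ℝ) → ℂ) = Lm a := rfl
    rw [e] at this ⊢
    rw [this, preimage_par ha]
  rw [h, lintegral_smul_measure, lintegral_map_equiv]
  rfl

lemma integral_par {a : ℂ} (ha : a ≠ 0) {E : Type*} [NormedAddCommGroup E] [NormedSpace ℝ E]
    (f : ℂ → E) :
    ∫ z in par a, f z = (covol a) • ∫ x in box, f (Lm a x) := by
  have h : (volume : Measure ℂ).restrict (par a)
      = ENNReal.ofReal (covol a) •
        (Measure.map (LmH a ha).toMeasurableEquiv (volume.restrict box)) := by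
    conv_lhs => rw [volume_eq_smul_map ha]
    rw [Measure.restrict_smul]
    congr 1
    have := (LmH a ha).toMeasurableEquiv.restrict_map (volume : Measure (Fin 2 → ℝ)) (par a)
    have e : ((LmH a ha).toMeasurableEquiv : (Fin 2 → ℝ) → ℂ) = Lm a := rfl
    rw [e] at this ⊢
    rw [this, preimage_par ha]
  rw [h, integral_smul_measure, integral_map_equiv, ENNReal.toReal_ofReal (covol_pos ha).le]
  rfl

/-! ### Fourier coefficients -/

/-- `√-3 = 1 + 2ω`. -/
def s3 : Eis := ⟨1, 2⟩

lemma toC_s3 : toC s3 = (Real.sqrt 3 : ℂ) * Complex.I := by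
  apply Complex.ext
  · simp [s3, toC_re]
  · simp [s3, toC_im]

lemma toC_s3_ne : toC s3 ≠ 0 := by
  rw [toC_s3]
  have := sqrt3_ne
  simp [Complex.ext_iff]

/-- the frequency attached to `u ∈ ℤ[ω]`. -/
def frq (a : ℂ) (u : Eis) : ℂ := toC u / (a * toC s3)

lemma eC_add (z w : ℂ) : eC (z + w) = eC z * eC w := by
  unfold eC
  rw [← Complex.exp_add, map_add]
  congr 1; ring

lemma eC_zero : eC 0 = 1 := by simp [eC]

lemma eC_neg (z : ℂ) : eC (-z) = conj (eC z) := by
  unfold eC
  rw [← Complex.exp_conj]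
  congr 1
  simp only [map_mul, map_add, Complex.conj_conj, Complex.conj_I, map_neg, Complex.conj_ofReal,
    map_ofNat]
  ring

lemma eC_eq (z : ℂ) : eC z = Complex.exp ((2 * Real.pi * (2 * z.re) : ℝ) * Complex.I) := by
  unfold eC
  rw [Complex.add_conj]
  congr 1
  push_cast
  ring

lemma norm_eC (z : ℂ) : ‖eC z‖ = 1 := by
  rw [eC_eq, Complex.norm_exp_ofReal_mul_I]

lemma continuous_eC : Continuous eC := by
  unfold eC; fun_prop

lemma eC_int_re {z : ℂ} {n : ℤ} (h : 2 * z.re = n) : eC z = 1 := by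
  rw [eC_eq, h, Complex.exp_eq_one_iff]
  exact ⟨n, by push_cast; ring⟩

/-- `2 Re(v / √-3) = im v`. -/
lemma two_re_div_s3 (v : Eis) : 2 * (toC v / toC s3).re = v.im := by
  have h3 : Real.sqrt 3 * Real.sqrt 3 = 3 := Real.mul_self_sqrt (by norm_num)
  have hs := sqrt3_ne
  rw [toC_s3]
  have : toC v / ((Real.sqrt 3 : ℂ) * Complex.I) = -Complex.I * toC v / (Real.sqrt 3 : ℂ) := by
    have : (Real.sqrt 3 : ℂ) ≠ 0 := by exact_mod_cast hs
    field_simp
    ring_nf
    simp [Complex.I_sq]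
  rw [this, Complex.div_ofReal_re]
  simp [toC_im]
  field_simp

lemma eC_toC_div_s3 (v : Eis) : eC (toC v / toC s3) = 1 :=
  eC_int_re (two_re_div_s3 v)

/-- the index map `ℤ[ω] ≃ ℤ²`. -/
def idx : Eis ≃ (Fin 2 → ℤ) where
  toFun u := ![u.im, u.re - u.im]
  invFun n := ⟨n 0 + n 1, n 0⟩
  left_inv u := by ext <;> simp
  right_inv n := by
    ext i; fin_cases i <;> simp

lemma eC_frq_Lm {a : ℂ} (ha : a ≠ 0) (u : Eis) (x : Fin 2 → ℝ) :
    eC (frq a u * Lm a x) = Complex.exp ((2 * Real.pi * (idx u 0 * x 0 + idx u 1 * x 1) : ℝ)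
      * Complex.I) := by
  rw [eC_eq]
  congr 2
  push_cast
  have h1 : frq a u * Lm a x = (x 0 : ℂ) * (toC u / toC s3) + (x 1 : ℂ) * (toC (Eis.w * u) / toC s3) := by
    unfold frq Lm
    have := toC_s3_ne
    rw [map_mul, toC_w]
    field_simp
  have h2 : 2 * (frq a u * Lm a x).re = idx u 0 * x 0 + idx u 1 * x 1 := by
    rw [h1, Complex.add_re, Complex.re_ofReal_mul, Complex.re_ofReal_mul, mul_add,
      ← mul_assoc, ← mul_assoc, mul_comm 2 (x 0), mul_comm 2 (x 1), mul_assoc, mul_assoc,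
      two_re_div_s3, two_re_div_s3]
    simp [idx]
    ring
  have h3 := congrArg (fun t : ℝ => (t : ℂ)) h2
  push_cast at h3
  rw [h3]

/-- Fourier coefficient of `f` at the frequency `u / (a √-3)` on `ℂ / a ℤ[ω]`. -/
def fco (a : ℂ) (f : ℂ → ℂ) (u : Eis) : ℂ :=
  (covol a : ℂ)⁻¹ * ∫ z in par a, f z * eC (-(frq a u * z))

/-- In this file we normalise the measure on `ℝ / ℤ` to have total volume 1. -/
local instance : MeasureSpace UnitAddCircle := ⟨AddCircle.haarAddCircle⟩

local instance : Measure.IsAddHaarMeasure (volume : Measure UnitAddCircle) :=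
  inferInstanceAs (Measure.IsAddHaarMeasure AddCircle.haarAddCircle)

local instance : IsProbabilityMeasure (volume : Measure UnitAddCircle) :=
  inferInstanceAs (IsProbabilityMeasure AddCircle.haarAddCircle)

/-- pull back to the torus. -/
def pull (a : ℂ) (f : ℂ → ℂ) (t : UnitAddTorus (Fin 2)) : ℂ :=
  f (Lm a ((UnitAddTorus.measurableEquivPiIoc (0 : Fin 2 → ℝ) t).1))

lemma equivIoc_coe_of_mem (x : ℝ) (hx : x ∈ Ioc (0 : ℝ) (0 + 1)) :
    ((AddCircle.equivIoc (1 : ℝ) 0 (x : AddCircle (1:ℝ))) : ℝ) = x := by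
  have : ((AddCircle.equivIoc (1 : ℝ) 0).symm ⟨x, hx⟩) = (x : AddCircle (1:ℝ)) := rfl
  rw [← this, Equiv.apply_symm_apply]

lemma pull_mk (a : ℂ) (f : ℂ → ℂ) {x : Fin 2 → ℝ} (hx : x ∈ box) :
    pull a f (fun i => (x i : UnitAddCircle)) = f (Lm a x) := by
  unfold pull
  congr 2
  rw [UnitAddTorus.coe_measurableEquivPiIoc_apply]
  funext i
  exact equivIoc_coe_of_mem (x i) (by simpa using hx i)

lemma mFourier_mk (n : Fin 2 → ℤ) (x : Fin 2 → ℝ) :
    UnitAddTorus.mFourier n (fun i => (x i : UnitAddCircle)) =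
      Complex.exp ((2 * Real.pi * (n 0 * x 0 + n 1 * x 1) : ℝ) * Complex.I) := by
  simp only [UnitAddTorus.mFourier, ContinuousMap.coe_mk, Fin.prod_univ_two, fourier_coe_apply]
  rw [← Complex.exp_add]
  congr 1
  push_cast
  ring

lemma mFourierCoeff_pull {a : ℂ} (ha : a ≠ 0) (f : ℂ → ℂ) (u : Eis) :
    UnitAddTorus.mFourierCoeff (pull a f) (idx u) = fco a f u := by
  rw [UnitAddTorus.mFourierCoeff_eq_integral _ _ (0 : Fin 2 → ℝ)]
  unfold fco
  rw [integral_par ha, Complex.real_smul, ← mul_assoc,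
    inv_mul_cancel₀ (by exact_mod_cast (covol_pos ha).ne'), one_mul]
  refine setIntegral_congr_fun measurableSet_box ?_
  intro x hx
  simp only [smul_eq_mul]
  rw [pull_mk a f hx, mul_comm, eC_neg, eC_frq_Lm ha, ← Complex.exp_conj, mFourier_mk]
  congr 2
  simp only [map_mul, Complex.conj_I, Complex.conj_ofReal, Pi.neg_apply]
  push_cast
  ring

lemma restrict_par {a : ℂ} (ha : a ≠ 0) : (volume : Measure ℂ).restrict (par a)
      = ENNReal.ofReal (covol a) •
        (Measure.map (LmH a ha).toMeasurableEquiv (volume.restrict box)) := by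
  conv_lhs => rw [volume_eq_smul_map ha]
  rw [Measure.restrict_smul]
  congr 1
  have := (LmH a ha).toMeasurableEquiv.restrict_map (volume : Measure (Fin 2 → ℝ)) (par a)
  have e : ((LmH a ha).toMeasurableEquiv : (Fin 2 → ℝ) → ℂ) = Lm a := rfl
  rw [e] at this ⊢
  rw [this, preimage_par ha]

lemma restrict_box {a : ℂ} (ha : a ≠ 0) : 
    Measure.map (LmH a ha).toMeasurableEquiv (volume.restrict box) =
      ENNReal.ofReal (covol a)⁻¹ • (volume : Measure ℂ).restrict (par a) := by
  rw [restrict_par ha, smul_smul, ← ENNReal.ofReal_mul (inv_pos.mpr (covol_pos ha)).le,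
    inv_mul_cancel₀ (covol_pos ha).ne', ENNReal.ofReal_one, one_smul]

lemma memLp_comp_Lm {a : ℂ} (ha : a ≠ 0) {f : ℂ → ℂ} (hf : MemLp f 2 (volume.restrict (par a))) :
    MemLp (fun x => f (Lm a x)) 2 (volume.restrict box) := by
  have h1 : MemLp f 2 (Measure.map (LmH a ha).toMeasurableEquiv (volume.restrict box)) := by
    rw [restrict_box ha]
    exact hf.smul_measure ENNReal.ofReal_ne_top
  exact h1.comp_of_map (LmH a ha).toMeasurableEquiv.measurable.aemeasurable

lemma memLp_pull {a : ℂ} (ha : a ≠ 0) {f : ℂ → ℂ} (hf : MemLp f 2 (volume.restrict (par a))) :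
    MemLp (pull a f) 2 (volume : Measure (UnitAddTorus (Fin 2))) := by
  have h1 := memLp_comp_Lm ha hf
  have h2 : MemLp (fun x : {x : Fin 2 → ℝ // x ∈ box} => f (Lm a x.1)) 2
      (Measure.comap Subtype.val volume) :=
    h1.comp_measurePreserving (measurePreserving_subtype_coe measurableSet_box)
  exact h2.comp_measurePreserving (UnitAddTorus.measurePreserving_equivPiIoc (0 : Fin 2 → ℝ))

lemma integral_pull {a : ℂ} (ha : a ≠ 0) {E : Type*} [NormedAddCommGroup E] [NormedSpace ℝ E]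
    (F : ℂ → E) :
    ∫ t : UnitAddTorus (Fin 2), F (Lm a ((UnitAddTorus.measurableEquivPiIoc (0 : Fin 2 → ℝ) t).1))
      = (covol a)⁻¹ • ∫ z in par a, F z := by
  rw [integral_par ha, smul_smul, inv_mul_cancel₀ (covol_pos ha).ne', one_smul,
    UnitAddTorus.integral_preimage _ (0 : Fin 2 → ℝ)]
  refine setIntegral_congr_fun measurableSet_box ?_
  intro x hx
  simp only
  congr 2
  rw [UnitAddTorus.coe_measurableEquivPiIoc_apply]
  funext i
  exact equivIoc_coe_of_mem (x i) (by simpa using hx i)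

lemma mFourierCoeff_congr {f g : UnitAddTorus (Fin 2) → ℂ} (h : f =ᵐ[volume] g) (n : Fin 2 → ℤ) :
    UnitAddTorus.mFourierCoeff f n = UnitAddTorus.mFourierCoeff g n := by
  unfold UnitAddTorus.mFourierCoeff
  refine integral_congr_ae ?_
  filter_upwards [h] with t ht
  simp only [ht]

/-- **Parseval** on `ℂ / a ℤ[ω]`. -/
theorem hasSum_sq_fco {a : ℂ} (ha : a ≠ 0) {f : ℂ → ℂ} (hf : MemLp f 2 (volume.restrict (par a))) :
    HasSum (fun u : Eis => ‖fco a f u‖ ^ 2) ((covol a)⁻¹ * ∫ z in par a, ‖f z‖ ^ 2) := by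
  have hp := memLp_pull ha hf
  have h := UnitAddTorus.hasSum_sq_mFourierCoeff (hp.toLp (pull a f))
  have h1 : ∫ t, ‖(hp.toLp (pull a f) : UnitAddTorus (Fin 2) → ℂ) t‖ ^ 2 =
      (covol a)⁻¹ * ∫ z in par a, ‖f z‖ ^ 2 := by
    rw [← smul_eq_mul, ← integral_pull ha (fun z => ‖f z‖ ^ 2)]
    refine integral_congr_ae ?_
    filter_upwards [hp.coeFn_toLp] with t ht
    rw [ht]
    rfl
  rw [h1] at h
  have h2 := (idx.hasSum_iff).mpr h
  have h3 : (fun u : Eis => ‖fco a f u‖ ^ 2) = (fun i => ‖UnitAddTorus.mFourierCoeff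
      (hp.toLp (pull a f) : UnitAddTorus (Fin 2) → ℂ) i‖ ^ 2) ∘ idx := by
    funext u
    simp only [Function.comp_apply]
    rw [mFourierCoeff_congr hp.coeFn_toLp, mFourierCoeff_pull ha]
  rw [h3]
  exact h2

/-- **Parseval** on `ℂ / a ℤ[ω]`, inner product version. -/
theorem hasSum_inner_fco {a : ℂ} (ha : a ≠ 0) {f g : ℂ → ℂ}
    (hf : MemLp f 2 (volume.restrict (par a))) (hg : MemLp g 2 (volume.restrict (par a))) :
    HasSum (fun u : Eis => conj (fco a f u) * fco a g u)
      ((covol a : ℂ)⁻¹ * ∫ z in par a, conj (f z) * g z) := by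
  have hp := memLp_pull ha hf
  have hq := memLp_pull ha hg
  have h := UnitAddTorus.hasSum_prod_mFourierCoeff (hp.toLp (pull a f)) (hq.toLp (pull a g))
  have h1 : ∫ t, conj ((hp.toLp (pull a f) : UnitAddTorus (Fin 2) → ℂ) t) *
      (hq.toLp (pull a g) : UnitAddTorus (Fin 2) → ℂ) t =
      (covol a : ℂ)⁻¹ * ∫ z in par a, conj (f z) * g z := by
    have := integral_pull ha (fun z => conj (f z) * g z)
    rw [Complex.real_smul, Complex.ofReal_inv] at this
    rw [← this]
    refine integral_congr_ae ?_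
    filter_upwards [hp.coeFn_toLp, hq.coeFn_toLp] with t ht hs
    rw [ht, hs]
    rfl
  rw [h1] at h
  have h2 := (idx.hasSum_iff).mpr h
  have h3 : (fun u : Eis => conj (fco a f u) * fco a g u) = (fun i =>
      conj (UnitAddTorus.mFourierCoeff (hp.toLp (pull a f) : UnitAddTorus (Fin 2) → ℂ) i) *
      UnitAddTorus.mFourierCoeff (hq.toLp (pull a g) : UnitAddTorus (Fin 2) → ℂ) i) ∘ idx := by
    funext u
    simp only [Function.comp_apply]
    rw [mFourierCoeff_congr hp.coeFn_toLp, mFourierCoeff_congr hq.coeFn_toLp,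
      mFourierCoeff_pull ha, mFourierCoeff_pull ha]
  rw [h3]
  exact h2

/-- **Bessel** (finite set of frequencies). -/
theorem sum_sq_fco_le {a : ℂ} (ha : a ≠ 0) {f : ℂ → ℂ} (hf : MemLp f 2 (volume.restrict (par a)))
    (S : Finset Eis) :
    ∑ u ∈ S, ‖fco a f u‖ ^ 2 ≤ (covol a)⁻¹ * ∫ z in par a, ‖f z‖ ^ 2 :=
  sum_le_hasSum S (fun _ _ => by positivity) (hasSum_sq_fco ha hf)

/-! ### tiling and unfolding -/

/-- floor of a complex number with respect to `a ℤ[ω]` and the half-open box `(0,1]²`. -/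
def fl (a : ℂ) (z : ℂ) : Eis := ⟨⌈Lminv a z 0⌉ - 1, ⌈Lminv a z 1⌉ - 1⟩

lemma Lminv_add {a : ℂ} (ha : a ≠ 0) (z : ℂ) (t : Eis) (i : Fin 2) :
    Lminv a (z + a * toC t) i = Lminv a z i + (![t.re, t.im] i : ℤ) := by
  have h : z + a * toC t = Lm a (fun i => Lminv a z i + (![t.re, t.im] i : ℤ)) := by
    conv_lhs => rw [← Lm_Lminv ha z]
    unfold Lm
    rw [toC_apply]
    push_cast
    ring
  rw [h, Lminv_Lm ha]

lemma mem_par_iff {a : ℂ} (ha : a ≠ 0) (z : ℂ) :
    z ∈ par a ↔ ∀ i, Lminv a z i ∈ Ioc (0 : ℝ) 1 := by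
  rw [par_eq_preimage ha]
  simp [box]

/-- every `z` is in exactly one translate. -/
lemma existsUnique_mem_par {a : ℂ} (ha : a ≠ 0) (z : ℂ) : ∃! t : Eis, z - a * toC t ∈ par a := by
  have key : ∀ t : Eis, z - a * toC t ∈ par a ↔ t = fl a z := by
    intro t
    have h : z - a * toC t = z + a * toC (-t) := by rw [map_neg]; ring
    rw [h, mem_par_iff ha]
    constructor
    · intro hi
      have h0 := hi 0
      have h1 := hi 1
      rw [Lminv_add ha] at h0 h1
      simp at h0 h1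
      unfold fl
      apply Eis.ext'
      · have : ⌈Lminv a z 0⌉ = t.re + 1 := by
          rw [Int.ceil_eq_iff]; push_cast; constructor <;> linarith [h0.1, h0.2]
        simp [this]
      · have : ⌈Lminv a z 1⌉ = t.im + 1 := by
          rw [Int.ceil_eq_iff]; push_cast; constructor <;> linarith [h1.1, h1.2]
        simp [this]
    · intro ht i
      rw [ht, Lminv_add ha]
      have c0 := Int.ceil_lt_add_one (Lminv a z 0)
      have c1 := Int.ceil_lt_add_one (Lminv a z 1)
      have d0 := Int.le_ceil (Lminv a z 0)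
      have d1 := Int.le_ceil (Lminv a z 1)
      fin_cases i
      · simp [fl]; constructor <;> linarith
      · simp [fl]; constructor <;> linarith
  exact ⟨fl a z, (key _).mpr rfl, fun t ht => (key t).mp ht⟩

instance : Countable Eis := by
  refine Function.Injective.countable (f := fun z : Eis => (z.re, z.im)) ?_
  intro x y h
  simp only [Prod.mk.injEq] at h
  exact Eis.ext' h.1 h.2

/-- the translate of the parallelogram. -/
def cell (a : ℂ) (t : Eis) : Set ℂ := (fun z => z - a * toC t) ⁻¹' par a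

lemma measurableSet_cell {a : ℂ} (ha : a ≠ 0) (t : Eis) : MeasurableSet (cell a t) :=
  (measurable_sub_const _) (measurableSet_par ha)

lemma iUnion_cell {a : ℂ} (ha : a ≠ 0) : ⋃ t, cell a t = univ := by
  rw [eq_univ_iff_forall]
  intro z
  obtain ⟨t, ht, -⟩ := existsUnique_mem_par ha z
  exact mem_iUnion.mpr ⟨t, ht⟩

lemma pairwise_disjoint_cell {a : ℂ} (ha : a ≠ 0) : Pairwise (Function.onFun Disjoint (cell a)) := by
  intro s t hst
  rw [Function.onFun, Set.disjoint_left]
  intro z hs ht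
  exact hst ((existsUnique_mem_par ha z).unique hs ht)

lemma lintegral_cell (a : ℂ) (t : Eis) (f : ℂ → ℝ≥0∞) :
    ∫⁻ z in cell a t, f z = ∫⁻ z in par a, f (z + a * toC t) := by
  have h := (measurePreserving_sub_right (volume : Measure ℂ) (a * toC t)).setLIntegral_comp_preimage_emb
    (MeasurableEquiv.subRight (a * toC t)).measurableEmbedding
    (fun z => f (z + a * toC t)) (par a)
  rw [← h]
  simp [cell]

lemma integral_cell (a : ℂ) (t : Eis) {E : Type*} [NormedAddCommGroup E] [NormedSpace ℝ E]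
    (f : ℂ → E) :
    ∫ z in cell a t, f z = ∫ z in par a, f (z + a * toC t) := by
  have h := (measurePreserving_sub_right (volume : Measure ℂ) (a * toC t)).setIntegral_preimage_emb
    (MeasurableEquiv.subRight (a * toC t)).measurableEmbedding
    (fun z => f (z + a * toC t)) (par a)
  rw [← h]
  simp [cell]

/-- tiling for `ℝ≥0∞`-valued functions. -/
theorem lintegral_eq_tsum_par {a : ℂ} (ha : a ≠ 0) (f : ℂ → ℝ≥0∞) :
    ∫⁻ z, f z = ∑' t : Eis, ∫⁻ z in par a, f (z + a * toC t) := by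
  rw [← setLIntegral_univ, ← iUnion_cell ha,
    lintegral_iUnion (measurableSet_cell ha) (pairwise_disjoint_cell ha)]
  simp_rw [lintegral_cell]

/-- tiling for integrable functions. -/
theorem hasSum_integral_par {a : ℂ} (ha : a ≠ 0) {E : Type*} [NormedAddCommGroup E]
    [NormedSpace ℝ E] {f : ℂ → E} (hf : Integrable f) :
    HasSum (fun t : Eis => ∫ z in par a, f (z + a * toC t)) (∫ z, f z) := by
  have h := hasSum_integral_iUnion (μ := (volume : Measure ℂ)) (f := f) (measurableSet_cell ha)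
    (pairwise_disjoint_cell ha) (by rw [iUnion_cell ha]; exact hf.integrableOn)
  rw [iUnion_cell ha, setIntegral_univ] at h
  simpa only [integral_cell] using h

lemma eC_frq_period {a : ℂ} (ha : a ≠ 0) (u t : Eis) : eC (frq a u * (a * toC t)) = 1 := by
  have : frq a u * (a * toC t) = toC (u * t) / toC s3 := by
    unfold frq
    rw [map_mul]
    have := toC_s3_ne
    field_simp
  rw [this, eC_toC_div_s3]

lemma eC_frq_neg_add {a : ℂ} (ha : a ≠ 0) (u t : Eis) (z : ℂ) :
    eC (-(frq a u * (z + a * toC t))) = eC (-(frq a u * z)) := by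
  rw [eC_neg, eC_neg, mul_add, eC_add, eC_frq_period ha, mul_one]

/-- **Unfolding** : Fourier coefficient of the periodisation. -/
theorem fco_unfold {a : ℂ} (ha : a ≠ 0) {φ : ℂ → ℂ} (hφ : Integrable φ) (u : Eis) :
    fco a (fun z => ∑' t : Eis, φ (z + a * toC t)) u =
      (covol a : ℂ)⁻¹ * ∫ z, φ z * eC (-(frq a u * z)) := by
  unfold fco
  congr 1
  have hint : Integrable (fun z => φ z * eC (-(frq a u * z))) := by
    refine hφ.mul_bdd (c := 1) ?_ ?_
    · exact (continuous_eC.comp (by fun_prop)).aestronglyMeasurable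
    · exact Filter.Eventually.of_forall fun z => by rw [norm_eC]
  have h1 := (hasSum_integral_par ha hint).tsum_eq
  rw [← h1]
  simp only [eC_frq_neg_add ha]
  rw [← integral_tsum]
  · refine integral_congr_ae (Filter.Eventually.of_forall fun z => ?_)
    simp only
    rw [tsum_mul_right]
  · intro t
    refine AEStronglyMeasurable.mul ?_ (continuous_eC.comp (by fun_prop)).aestronglyMeasurable
    exact ((measurePreserving_add_right (volume : Measure ℂ) (a * toC t)).integrable_comp_of_integrable hφ).aestronglyMeasurable.restrict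
  · have h2 := lintegral_eq_tsum_par ha (fun z => ‖φ z‖ₑ)
    have h3 : ∑' t : Eis, ∫⁻ z in par a, ‖φ (z + a * toC t) * eC (-(frq a u * z))‖ₑ =
        ∑' t : Eis, ∫⁻ z in par a, ‖φ (z + a * toC t)‖ₑ := by
      refine tsum_congr fun t => lintegral_congr fun z => ?_
      rw [enorm_mul, ← ofReal_norm (eC _), norm_eC, ENNReal.ofReal_one, mul_one]
    rw [h3, ← h2]
    exact hφ.2.ne

end Crest.Agent.R012.Parseval499
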