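import Crest.Agent.R012.PsiRel_283
import Crest.Agent.R012.SpecM_49

/-!
# Row 12, item MR / H1: residue relations (algebraic part)

For a family of weights `f X : Eis → ℂ` with `f X (p c) = N(p)^{-a} f (X/N p) c` (finite support),
and `κ = 4/3 - a`, assume

* (i)  `Psi h (f X) / X^κ → R h` for all `h`,
* (ii) `PsiP p h (f X) / X^κ → N/(N+1) * R h` for all primary primes `p` and all `h`.

Then (`Rel785`) `R (h p) = N^{-2/3} conj (gs h p) R h`, `R (h p^2) = 0` (`p ∤ h`) and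
`R (h p^3) = R h` (all `h`).

Output in terms of `SpecM_49`: `rhoRel_of_tendsto : ... → RhoRel ρ`,
`rhoRel_of_MS1 : MS1 ρ → STp → RhoRel ρ`; consequences of `RhoRel`: `RhoRel.sqfree`,
`RhoRel.cube`, `RhoRel.zero`.
-/

set_option autoImplicit false
set_option linter.unusedSimpArgs false
set_option linter.unusedVariables false

noncomputable section

open Complex Filter Topology

namespace Crest.Agent.R012.Res785

open Crest.Agent.R012 Crest.Agent.R012.Eis Crest.Agent.R012.GaussLoc283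

/-! ### Abstract families -/

/-- a family of weights which scales well. -/
structure Fam (f : ℝ → Eis → ℂ) (a : ℝ) : Prop where
  fin : ∀ X : ℝ, 0 < X → (Function.support (f X)).Finite
  scale : ∀ X : ℝ, 0 < X → ∀ p c : Eis, p ≠ 0 →
    f X (p * c) = (((nm p : ℝ) ^ (-a) : ℝ) : ℂ) * f (X / nm p) c

variable {f : ℝ → Eis → ℂ} {a κ : ℝ} {R : Eis → ℂ}

lemma Fam.summable (hf : Fam f a) {X : ℝ} (hX : 0 < X) (h : Eis) : Summable (psiT h (f X)) :=
  summable_psiT_of_finite (hf.fin X hX)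

lemma PsiP_mul_left (p h : Eis) (α : ℂ) (g : Eis → ℂ) :
    PsiP p h (fun c => α * g c) = α * PsiP p h g := by
  classical
  unfold PsiP
  rw [← tsum_mul_left]
  apply tsum_congr
  intro c
  unfold psiPT
  split_ifs
  · ring
  · simp

lemma Fam.PsiP_scale (hf : Fam f a) {X : ℝ} (hX : 0 < X) (p h : Eis) {q : Eis} (hq : q ≠ 0) :
    PsiP p h (fun c => f X (q * c)) = (((nm q : ℝ) ^ (-a) : ℝ) : ℂ) * PsiP p h (f (X / nm q)) := by
  rw [← PsiP_mul_left]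
  congr 1
  funext c
  exact hf.scale X hX q c hq

/-- limit of a rescaled sum. -/
lemma tendsto_scale {F : ℝ → ℂ} {L : ℂ} (n : ℝ) (hn : 0 < n)
    (hF : Tendsto (fun X : ℝ => F X / ((X ^ κ : ℝ) : ℂ)) atTop (𝓝 L)) :
    Tendsto (fun X : ℝ => F (X / n) / ((X ^ κ : ℝ) : ℂ)) atTop
      (𝓝 (((n ^ (-κ) : ℝ) : ℂ) * L)) := by
  have h1 : Tendsto (fun X : ℝ => X / n) atTop atTop := tendsto_id.atTop_div_const hn
  have h2 := (hF.comp h1).const_mul (((n ^ (-κ) : ℝ) : ℂ))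
  refine h2.congr' ?_
  filter_upwards [eventually_gt_atTop (0 : ℝ)] with X hX
  simp only [Function.comp]
  have h3 : ((X / n) ^ κ : ℝ) = X ^ κ * n ^ (-κ) := by
    rw [Real.div_rpow hX.le hn.le, Real.rpow_neg hn.le, div_eq_mul_inv]
  have h4 : (n ^ (-κ) : ℝ) ≠ 0 := (Real.rpow_pos_of_pos hn _).ne'
  have h5 : (X ^ κ : ℝ) ≠ 0 := (Real.rpow_pos_of_pos hX _).ne'
  rw [h3]
  have h4' : (((n ^ (-κ) : ℝ)) : ℂ) ≠ 0 := by exact_mod_cast h4
  have h5' : (((X ^ κ : ℝ)) : ℂ) ≠ 0 := by exact_mod_cast h5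
  push_cast
  field_simp

/-- the hypotheses (i), (ii). -/
structure Lim (f : ℝ → Eis → ℂ) (κ : ℝ) (R : Eis → ℂ) : Prop where
  one : ∀ h : Eis, Tendsto (fun X : ℝ => Psi h (f X) / ((X ^ κ : ℝ) : ℂ)) atTop (𝓝 (R h))
  lev : ∀ p : Eis, Prime p → IsPrim p → ∀ h : Eis,
    Tendsto (fun X : ℝ => PsiP p h (f X) / ((X ^ κ : ℝ) : ℂ)) atTop
      (𝓝 (((nm p : ℂ) / (nm p + 1)) * R h))

lemma Fam.lev_scale (hf : Fam f a) (hL : Lim f κ R) {p : Eis} (hpp : Prime p) (hp : IsPrim p)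
    (h : Eis) {q : Eis} (hq : q ≠ 0) :
    Tendsto (fun X : ℝ => PsiP p h (fun c => f X (q * c)) / ((X ^ κ : ℝ) : ℂ)) atTop
      (𝓝 ((((nm q : ℝ) ^ (-(a + κ)) : ℝ) : ℂ) * (((nm p : ℂ) / (nm p + 1)) * R h))) := by
  have hn : (0 : ℝ) < nm q := by exact_mod_cast nm_pos.mpr hq
  have h1 := (tendsto_scale (κ := κ) (nm q : ℝ) hn (hL.lev p hpp hp h)).const_mul
    ((((nm q : ℝ) ^ (-a) : ℝ) : ℂ))
  have h2 : (((nm q : ℝ) ^ (-a) : ℝ) : ℂ) * ((((nm q : ℝ) ^ (-κ) : ℝ) : ℂ) *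
      (((nm p : ℂ) / (nm p + 1)) * R h)) =
      (((nm q : ℝ) ^ (-(a + κ)) : ℝ) : ℂ) * (((nm p : ℂ) / (nm p + 1)) * R h) := by
    rw [← mul_assoc, ← Complex.ofReal_mul, ← Real.rpow_add hn]
    congr 3
    ring
  rw [h2] at h1
  refine h1.congr' ?_
  filter_upwards [eventually_gt_atTop (0 : ℝ)] with X hX
  rw [hf.PsiP_scale hX p h hq]
  ring

/-- the relations between the limits. -/
structure Rel785 (R : Eis → ℂ) : Prop where
  one_p : ∀ p h : Eis, Prime p → IsPrim p → ¬ p ∣ h →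
    R (h * p) = (((nm p : ℝ) ^ (-(2 : ℝ) / 3) : ℝ) : ℂ) * (starRingEnd ℂ) (gs h p) * R h
  two_p : ∀ p h : Eis, Prime p → IsPrim p → ¬ p ∣ h → R (h * p ^ 2) = 0
  three_p : ∀ p h : Eis, Prime p → IsPrim p → R (h * p ^ 3) = R h

lemma nm_prime_pos {p : Eis} (hp : IsPrim p) : (0 : ℝ) < nm p := by
  exact_mod_cast nm_pos.mpr hp.ne_zero

/-- **Residue relations.** -/
theorem rel_of_lim (hf : Fam f a) (haκ : a + κ = 4 / 3) (hL : Lim f κ R) : Rel785 R := by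
  refine ⟨?_, ?_, ?_⟩
  · intro p h hpp hp hh
    have hN : (0 : ℝ) < nm p := nm_prime_pos hp
    have hN1 : ((nm p : ℂ) + 1) ≠ 0 := by
      have : ((nm p : ℝ) + 1 : ℝ) ≠ 0 := by positivity
      exact_mod_cast this
    have hNc : (nm p : ℂ) ≠ 0 := by
      have : (nm p : ℝ) ≠ 0 := hN.ne'
      exact_mod_cast this
    have h1 := hL.one h
    have h2 := hL.lev p hpp hp h
    have h3 := (hf.lev_scale hL hpp hp (h * p) hp.ne_zero).const_mul (gs h p)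
    have h4 := h2.add h3
    have h5 : R h = ((nm p : ℂ) / (nm p + 1)) * R h + gs h p *
        ((((nm p : ℝ) ^ (-(a + κ)) : ℝ) : ℂ) * (((nm p : ℂ) / (nm p + 1)) * R (h * p))) := by
      refine tendsto_nhds_unique h1 (h4.congr' ?_)
      filter_upwards [eventually_gt_atTop (0 : ℝ)] with X hX
      rw [Psi_zero hp hpp hh (hf.summable hX h)]
      ring
    rw [haκ] at h5
    -- `N^{-4/3} * N = N^{-1/3}`
    have h6 := gs_prime_mul_conj syAx hp hpp hh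
    have h7 : (((nm p : ℝ) ^ (-(4 / 3 : ℝ)) : ℝ) : ℂ) * (((nm p : ℝ) ^ ((2 : ℝ) / 3) : ℝ) : ℂ) *
        (((nm p : ℝ) ^ ((2 : ℝ) / 3) : ℝ) : ℂ) = 1 := by
      rw [← Complex.ofReal_mul, ← Complex.ofReal_mul, ← Real.rpow_add hN, ← Real.rpow_add hN]
      norm_num
    have h8 : (((nm p : ℝ) ^ (-(2 : ℝ) / 3) : ℝ) : ℂ) * (((nm p : ℝ) ^ ((2 : ℝ) / 3) : ℝ) : ℂ)
        = 1 := by
      rw [← Complex.ofReal_mul, ← Real.rpow_add hN]
      norm_num
    have h9 : (((nm p : ℝ) ^ ((2 : ℝ) / 3) : ℝ) : ℂ) ≠ 0 := by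
      intro h0; rw [h0, mul_zero] at h8; exact zero_ne_one h8
    -- `R h = gs h p * N^{-4/3} * N * R (h p)`
    have h10 : R h = gs h p * ((((nm p : ℝ) ^ (-(4 / 3 : ℝ)) : ℝ) : ℂ) *
        ((nm p : ℂ) * R (h * p))) := by
      field_simp at h5
      linear_combination h5
    -- multiply by `conj (gs h p)`
    have h11 : (starRingEnd ℂ) (gs h p) * R h =
        (nm p : ℂ) * ((((nm p : ℝ) ^ (-(4 / 3 : ℝ)) : ℝ) : ℂ) * ((nm p : ℂ) * R (h * p))) := by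
      rw [h10, ← h6]; ring
    have h12 : (nm p : ℂ) * (nm p : ℂ) * (((nm p : ℝ) ^ (-(4 / 3 : ℝ)) : ℝ) : ℂ) =
        (((nm p : ℝ) ^ ((2 : ℝ) / 3) : ℝ) : ℂ) := by
      have : ((nm p : ℝ)) * (nm p : ℝ) * (nm p : ℝ) ^ (-(4 / 3 : ℝ)) =
          (nm p : ℝ) ^ ((2 : ℝ) / 3) := by
        have e : (nm p : ℝ) * (nm p : ℝ) = (nm p : ℝ) ^ (2 : ℝ) := by
          rw [Real.rpow_two]; ring
        rw [e, ← Real.rpow_add hN]; norm_num
      rw [← this]; push_cast; ring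
    have h13 : (starRingEnd ℂ) (gs h p) * R h =
        (((nm p : ℝ) ^ ((2 : ℝ) / 3) : ℝ) : ℂ) * R (h * p) := by
      rw [h11, ← h12]; ring
    rw [mul_assoc, h13, ← mul_assoc, h8, one_mul]
  · intro p h hpp hp hh
    have hN : (0 : ℝ) < nm p := nm_prime_pos hp
    have hN1 : ((nm p : ℂ) + 1) ≠ 0 := by
      have : ((nm p : ℝ) + 1 : ℝ) ≠ 0 := by positivity
      exact_mod_cast this
    have hNc : (nm p : ℂ) ≠ 0 := by
      have : (nm p : ℝ) ≠ 0 := hN.ne'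
      exact_mod_cast this
    have hp3 : p ^ 3 ≠ 0 := pow_ne_zero 3 hp.ne_zero
    have h1 := hL.one (h * p ^ 2)
    have h2 := hL.lev p hpp hp (h * p ^ 2)
    have h3 := (hf.lev_scale hL hpp hp (h * p ^ 2) hp3).const_mul ((nm p : ℂ) ^ 2)
    have h4 := h2.sub h3
    have h5 : R (h * p ^ 2) = ((nm p : ℂ) / (nm p + 1)) * R (h * p ^ 2) - (nm p : ℂ) ^ 2 *
        ((((nm (p ^ 3) : ℝ) ^ (-(a + κ)) : ℝ) : ℂ) *
          (((nm p : ℂ) / (nm p + 1)) * R (h * p ^ 2))) := by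
      refine tendsto_nhds_unique h1 (h4.congr' ?_)
      filter_upwards [eventually_gt_atTop (0 : ℝ)] with X hX
      rw [Psi_two hp hpp hh (hf.summable hX _)]
      ring
    rw [haκ] at h5
    have h7 : (((nm (p ^ 3) : ℝ) ^ (-(4 / 3 : ℝ)) : ℝ) : ℂ) * (nm p : ℂ) ^ 4 = 1 := by
      have : ((nm (p ^ 3) : ℝ) ^ (-(4 / 3 : ℝ)) : ℝ) * (nm p : ℝ) ^ 4 = 1 := by
        rw [nm_pow]
        push_cast
        rw [← Real.rpow_natCast (nm p : ℝ) 3, ← Real.rpow_mul hN.le,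
          ← Real.rpow_natCast (nm p : ℝ) 4, ← Real.rpow_add hN]
        norm_num
      exact_mod_cast this
    set r := R (h * p ^ 2) with hr
    set y := (((nm (p ^ 3) : ℝ) ^ (-(4 / 3 : ℝ)) : ℝ) : ℂ) with hy
    -- multiply by `N+1` and `N`
    have h8 : r * ((nm p : ℂ) + 1) = (nm p : ℂ) * r - (nm p : ℂ) ^ 3 * y * r := by
      field_simp at h5
      linear_combination h5
    have h9 : r * (1 + (nm p : ℂ) ^ 3 * y) = 0 := by linear_combination h8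
    have h10 : r * ((nm p : ℂ) + 1) = 0 := by
      linear_combination (nm p : ℂ) * h9 - r * h7
    exact (mul_eq_zero.mp h10).resolve_right hN1
  · intro p h hpp hp
    have hN : (0 : ℝ) < nm p := nm_prime_pos hp
    have hN1 : ((nm p : ℂ) + 1) ≠ 0 := by
      have : ((nm p : ℝ) + 1 : ℝ) ≠ 0 := by positivity
      exact_mod_cast this
    have hNc : (nm p : ℂ) ≠ 0 := by
      have : (nm p : ℝ) ≠ 0 := hN.ne'
      exact_mod_cast this
    have h1 := hL.lev p hpp hp (h * p ^ 3)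
    have h2 := hL.lev p hpp hp h
    simp only [PsiP_cube hpp] at h1
    have h3 := tendsto_nhds_unique h1 h2
    have h4 : (nm p : ℂ) / (nm p + 1) ≠ 0 := div_ne_zero hNc hN1
    exact mul_left_cancel₀ h4 h3

end Crest.Agent.R012.Res785
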