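import Crest.Agent.R012.Four_813
import Crest.Agent.R012.TestFn_286

/-!
# Row 12 (M-R, H3): a smooth bump `φ` on `ℂ` with `|φ^(ξ)| ≥ c` for `|ξ| ≤ X₀`
-/

set_option autoImplicit false

noncomputable section

open MeasureTheory Set Filter
open scoped ENNReal Topology ContDiff

namespace Crest.Agent.R012.ResPhi61

open Crest.Agent.R012 Four813 TestFn286

lemma eC_re (z : ℂ) : (eC z).re = Real.cos (4 * Real.pi * z.re) := by
  unfold eC
  have : 2 * (Real.pi : ℂ) * Complex.I * (z + (starRingEnd ℂ) z)
      = ((4 * Real.pi * z.re : ℝ) : ℂ) * Complex.I := by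
    rw [Complex.add_conj]; push_cast; ring
  rw [this, Complex.exp_ofReal_mul_I_re]

lemma norm_eC (z : ℂ) : ‖eC z‖ = 1 := by
  unfold eC
  have : 2 * (Real.pi : ℂ) * Complex.I * (z + (starRingEnd ℂ) z)
      = ((4 * Real.pi * z.re : ℝ) : ℂ) * Complex.I := by
    rw [Complex.add_conj]; push_cast; ring
  rw [this, Complex.norm_exp_ofReal_mul_I]

theorem exists_phi (X0 : ℝ) (hX : 1 ≤ X0) : ∃ (φ : ℂ → ℂ) (c : ℝ), 0 < c ∧ SP 1 φ ∧
    (∀ z, ‖φ z‖ ≤ 1) ∧ ∀ ξ : ℂ, ‖ξ‖ ≤ X0 → c ≤ ‖phat φ ξ‖ := by
  have hX0 : 0 < X0 := by linarith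
  set R : ℝ := 1 / (12 * X0) with hR
  have hR0 : 0 < R := by positivity
  have hR1 : R ≤ 1 := by
    rw [hR, div_le_one (by positivity)]; linarith
  let f : ContDiffBump (0 : ℂ) := ⟨R / 2, R, by positivity, by linarith⟩
  set φ : ℂ → ℂ := fun z => ((f z : ℝ) : ℂ) with hφ
  have hfint : Integrable (fun z => f z) (volume : Measure ℂ) := f.integrable
  have hfpos : 0 < ∫ z, f z := f.integral_pos
  refine ⟨φ, (1 / 2) * ∫ z, f z, by positivity, ⟨?_, ?_⟩, ?_, ?_⟩
  · exact Complex.ofRealCLM.contDiff.comp f.contDiff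
  · intro z hz
    have : z ∉ Metric.ball (0 : ℂ) f.rOut := by
      rw [mem_ball_zero_iff, not_lt]
      exact (hR1.trans hz.le)
    have h2 : f z = 0 := by
      rw [← Function.notMem_support, f.support_eq]; exact this
    simp [hφ, h2]
  · intro z
    simp only [hφ, Complex.norm_real, Real.norm_eq_abs]
    rw [abs_of_nonneg f.nonneg]
    exact f.le_one
  · intro ξ hξ
    have hi : Integrable (fun s => φ s * eC (-(ξ * s))) := by
      have hc : Continuous fun s : ℂ => eC (-(ξ * s)) := by
        unfold eC
        fun_prop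
      refine (hfint.ofReal (𝕜 := ℂ)).mul_bdd (c := 1) hc.aestronglyMeasurable ?_
      exact Filter.Eventually.of_forall fun s => by rw [norm_eC]
    have h1 : (phat φ ξ).re = ∫ s, f s * Real.cos (4 * Real.pi * (-(ξ * s)).re) := by
      unfold phat
      have := (integral_re (f := fun s => φ s * eC (-(ξ * s))) hi).symm
      simp only [RCLike.re_eq_complex_re] at this
      rw [this]
      refine integral_congr_ae (Filter.Eventually.of_forall fun s => ?_)
      simp only [hφ, Complex.re_ofReal_mul, eC_re]
    have h2 : (1 / 2) * ∫ z, f z ≤ (phat φ ξ).re := by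
      rw [h1, ← integral_const_mul]
      have hre := hi.re
      refine integral_mono (hfint.const_mul _) ?_ fun s => ?_
      · refine hre.congr (Filter.Eventually.of_forall fun s => ?_)
        simp only [hφ, RCLike.re_eq_complex_re, Complex.re_ofReal_mul, eC_re]
      · by_cases hs : s ∈ Metric.ball (0 : ℂ) f.rOut
        · have hs' : ‖s‖ < R := by simpa using hs
          have h3 : |4 * Real.pi * (-(ξ * s)).re| ≤ Real.pi / 3 := by
            rw [abs_mul, abs_of_pos (by positivity : 0 < 4 * Real.pi)]
            have h4 : |(-(ξ * s)).re| ≤ X0 * R := by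
              refine (Complex.abs_re_le_norm _).trans ?_
              rw [norm_neg, norm_mul]
              exact mul_le_mul hξ hs'.le (norm_nonneg _) hX0.le
            have h5 : X0 * R = 1 / 12 := by rw [hR]; field_simp
            rw [h5] at h4
            nlinarith [Real.pi_pos]
          have h6 : (1 : ℝ) / 2 ≤ Real.cos (4 * Real.pi * (-(ξ * s)).re) := by
            rw [← Real.cos_abs, ← Real.cos_pi_div_three]
            refine Real.cos_le_cos_of_nonneg_of_le_pi (abs_nonneg _) ?_ h3
            linarith [Real.pi_pos]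
          have h7 : 0 ≤ f s := f.nonneg
          simp only
          nlinarith
        · have h2 : f s = 0 := by
            rw [← Function.notMem_support, f.support_eq]; exact hs
          simp [h2]
    exact h2.trans (Complex.re_le_norm _)

end Crest.Agent.R012.ResPhi61
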