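import Crest.Agent.R012.ResLim_61
import Crest.Agent.R012.ResPhi_61
import Crest.Agent.R012.Slice_384
import Crest.Agent.R012.StripIneq_813
import Crest.Agent.R012.LocFin_499
import Crest.Agent.R012.CF_61

/-!
# Row 12 (M-R, H3): from the vanishing of the Gram main term to `o(B^(4/3))`
-/

set_option autoImplicit false

noncomputable section

open MeasureTheory Set Filter
open scoped ENNReal Topology ContDiff

namespace Crest.Agent.R012.ResLev61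

open Crest.Agent.R012 Eis StripCo813 Four813 TestFn286 Trace384 Slice384 StripIneq813
open Crest.Agent.R012.ResLim61 Crest.Agent.R012.ResPhi61 Crest.Agent.R012.Parseval499

/-- dilation by `√B`. -/
def dilB (B : ℝ) (F : ℂ × ℂ → ℂ) : ℂ × ℂ → ℂ := fun u => F (((Real.sqrt B)⁻¹ : ℝ) • u)

/-- `F` is continuous and supported in `a ≤ |u₁| ≤ b`, `|u₂| ≤ b`. -/
structure CF (a b : ℝ) (F : ℂ × ℂ → ℂ) : Prop where
  cont : Continuous F
  supp : ∀ u, F u ≠ 0 → a ≤ ‖u.1‖ ∧ ‖u.1‖ ≤ b ∧ ‖u.2‖ ≤ b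

lemma nq_smul (c : ℝ) (q : ℂ) (u : ℂ × ℂ) : nq q (c • u) = c • nq q u := by
  simp only [nq, Prod.smul_mk, Prod.smul_fst, Prod.smul_snd]
  ext
  · simp only [Complex.real_smul]; ring
  · rfl

lemma OrbDeriv.dil {F F1 F2 F12 : ℂ × ℂ → ℂ} (h : OrbDeriv F F1 F2 F12) (B : ℝ) :
    OrbDeriv (dilB B F) (dilB B F1) (dilB B F2) (dilB B F12) where
  c0 := h.c0.comp (continuous_const_smul _)
  c1 := h.c1.comp (continuous_const_smul _)
  c2 := h.c2.comp (continuous_const_smul _)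
  c12 := h.c12.comp (continuous_const_smul _)
  d1 u := by
    have := h.d1 (((Real.sqrt B)⁻¹ : ℝ) • u)
    simpa only [dilB, nq_smul] using this
  d2 u := by
    have := h.d2 (((Real.sqrt B)⁻¹ : ℝ) • u)
    simpa only [dilB, nq_smul] using this
  d12 u := by
    have := h.d12 (((Real.sqrt B)⁻¹ : ℝ) • u)
    simpa only [dilB, nq_smul] using this

lemma CF.mono {a b b' : ℝ} {F : ℂ × ℂ → ℂ} (h : CF a b F) (hb : b ≤ b') : CF a b' F :=
  ⟨h.cont, fun u hu => ⟨(h.supp u hu).1, (h.supp u hu).2.1.trans hb, (h.supp u hu).2.2.trans hb⟩⟩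

lemma CF.add {a b : ℝ} {F G : ℂ × ℂ → ℂ} (hF : CF a b F) (hG : CF a b G) :
    CF a b (fun u => F u + G u) := by
  refine ⟨hF.cont.add hG.cont, fun u hu => ?_⟩
  by_cases h : F u = 0
  · have : G u ≠ 0 := fun h' => hu (by rw [h, h', add_zero])
    exact hG.supp u this
  · exact hF.supp u h

lemma CF_prodF {a b : ℝ} (ha : 0 < a) {U φ : ℂ → ℂ} (hU : SU a b U) (hφ : SP 1 φ) :
    CF a b (prodF U φ) := by
  refine ⟨continuous_prodF ha hU.cd.continuous hU.supp hφ.cd.continuous, fun u hu => ?_⟩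
  unfold prodF at hu
  have h1 : U u.1 ≠ 0 := left_ne_zero_of_mul hu
  have h2 : φ (u.2 / u.1) ≠ 0 := right_ne_zero_of_mul hu
  have h3 : a ≤ ‖u.1‖ := by
    by_contra hc; exact h1 (hU.supp _ (Or.inl (not_le.mp hc)))
  have h4 : ‖u.1‖ ≤ b := by
    by_contra hc; exact h1 (hU.supp _ (Or.inr (not_le.mp hc)))
  have h5 : ‖u.2 / u.1‖ ≤ 1 := by
    by_contra hc; exact h2 (hφ.supp _ (not_le.mp hc))
  have h6 : 0 < ‖u.1‖ := ha.trans_le h3
  rw [norm_div, div_le_one h6] at h5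
  exact ⟨h3, h4, h5.trans h4⟩

lemma CF_D1 {a b : ℝ} (ha : 0 < a) {U φ : ℂ → ℂ} (hU : SU a b U) (hφ : SP 1 φ) (c : ℂ) :
    CF a b (D1 c U φ) := by
  unfold D1
  exact ((CF_prodF ha hU.DrU (hφ.Rm c)).add (CF_prodF ha hU.DtU (hφ.Im' c))).add
    (CF_prodF ha hU (hφ.Dm c))

lemma CF_D12 {a b : ℝ} (ha : 0 < a) {U φ : ℂ → ℂ} (hU : SU a b U) (hφ : SP 1 φ) (c c' : ℂ) :
    CF a b (D12 c c' U φ) := by
  unfold D12
  exact ((CF_D1 ha hU.DrU (hφ.Rm c) c').add (CF_D1 ha hU.DtU (hφ.Im' c) c')).add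
    (CF_D1 ha hU (hφ.Dm c) c')

lemma EE_eq_EC (a : Eis × Eis → ℂ) (F : ℂ × ℂ → ℂ) (M : K695.Frm) : EE a F M = K695.EC a F M := by
  unfold EE rsum K695.EC
  refine tsum_congr fun r => ?_
  rw [← LocFin499.rowc_eq_rowv]; rfl

lemma suppIn_dil {a b B : ℝ} (hB : 0 < B) {F : ℂ × ℂ → ℂ} (hF : CF a b F) :
    SuppIn (Real.sqrt B * b) (dilB B F) := by
  intro u hu
  by_contra h
  obtain ⟨_, h2, h3⟩ := hF.supp _ h
  have hs : 0 < Real.sqrt B := Real.sqrt_pos.mpr hB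
  have e1 : ‖(((Real.sqrt B)⁻¹ : ℝ) • u).1‖ = (Real.sqrt B)⁻¹ * ‖u.1‖ := by
    rw [Prod.smul_fst, norm_smul, Real.norm_of_nonneg (by positivity)]
  have e2 : ‖(((Real.sqrt B)⁻¹ : ℝ) • u).2‖ = (Real.sqrt B)⁻¹ * ‖u.2‖ := by
    rw [Prod.smul_snd, norm_smul, Real.norm_of_nonneg (by positivity)]
  rw [e1, inv_mul_le_iff₀ hs] at h2
  rw [e2, inv_mul_le_iff₀ hs] at h3
  have : ‖u‖ ≤ Real.sqrt B * b := by rw [Prod.norm_def]; exact max_le h2 h3
  linarith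

/-- smooth weights supported in `[a, b]`. -/
structure SW (a b : ℝ) (w : ℝ → ℂ) : Prop where
  apos : 0 < a
  ab : a ≤ b
  cd : ContDiff ℝ ∞ w
  supp : ∀ x, x < a ∨ b < x → w x = 0

lemma SW.wc {a b : ℝ} {w : ℝ → ℂ} (h : SW a b w) : WC w (deriv w) a b where
  apos := h.apos
  ab := h.ab
  der x := (h.cd.differentiable (by simp) x).hasDerivAt
  cont := h.cd.continuous_deriv (by simp)
  lo x hx := h.supp x (Or.inl hx)
  hi x hx := h.supp x (Or.inr hx)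

lemma SW.xd {a b : ℝ} {w : ℝ → ℂ} (h : SW a b w) : SW a b (xd (deriv w)) where
  apos := h.apos
  ab := h.ab
  cd := by
    unfold ResLim61.xd
    refine ContDiff.mul Complex.ofRealCLM.contDiff ?_
    exact (contDiff_infty_iff_deriv.mp h.cd).2
  supp x hx := by
    have hev : w =ᶠ[𝓝 x] fun _ => 0 := by
      rcases hx with hx | hx
      · filter_upwards [gt_mem_nhds hx] with y hy using h.supp y (Or.inl hy)
      · filter_upwards [lt_mem_nhds hx] with y hy using h.supp y (Or.inr hy)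
    have : deriv w x = 0 := by rw [hev.deriv_eq]; simp
    simp [ResLim61.xd, this]

lemma SU_rad {a b B : ℝ} (hB : 0 < B) {w : ℝ → ℂ} (h : SW a b w) :
    SU (Real.sqrt (a * B)) (Real.sqrt (b * B)) (rad w B) where
  cd := by
    unfold rad
    refine h.cd.comp ?_
    exact (contDiff_norm_sq ℝ).div_const B
  supp z hz := by
    unfold rad
    have hb : 0 ≤ b := h.apos.le.trans h.ab
    have ha := h.apos
    apply h.supp
    rcases hz with hz | hz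
    · left
      rw [div_lt_iff₀ hB]
      calc ‖z‖ ^ 2 < (Real.sqrt (a * B)) ^ 2 := by
            exact pow_lt_pow_left₀ hz (norm_nonneg _) (by norm_num)
        _ = a * B := Real.sq_sqrt (by positivity)
    · right
      rw [lt_div_iff₀ hB]
      calc b * B = (Real.sqrt (b * B)) ^ 2 := (Real.sq_sqrt (by positivity)).symm
        _ < ‖z‖ ^ 2 := pow_lt_pow_left₀ hz (Real.sqrt_nonneg _) (by norm_num)

lemma dil_tens {B : ℝ} (hB : 0 < B) (w : ℝ → ℂ) (φ : ℂ → ℂ) :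
    dilB B (prodF (rad w 1) φ) = tens (rad w B) φ := by
  funext u
  have hs : 0 < Real.sqrt B := Real.sqrt_pos.mpr hB
  simp only [dilB, prodF, tens, rad, Prod.smul_fst, Prod.smul_snd]
  congr 2
  · rw [norm_smul, Real.norm_of_nonneg (by positivity), mul_pow, inv_pow, Real.sq_sqrt hB.le]
    ring
  · simp only [Complex.real_smul]
    have : (((Real.sqrt B)⁻¹ : ℝ) : ℂ) ≠ 0 := by
      rw [Ne, Complex.ofReal_eq_zero]; positivity
    rw [mul_div_mul_left _ _ this]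

lemma lint_add4 {α : Type*} [MeasurableSpace α] {μ : Measure α} {f0 f1 f2 f3 : α → ℝ≥0∞}
    (m0 : Measurable f0) (m1 : Measurable f1) (m2 : Measurable f2) :
    ∫⁻ x, (f0 x + f1 x + f2 x + f3 x) ∂μ =
      ∫⁻ x, f0 x ∂μ + ∫⁻ x, f1 x ∂μ + ∫⁻ x, f2 x ∂μ + ∫⁻ x, f3 x ∂μ := by
  rw [lintegral_add_left (f := fun x => f0 x + f1 x + f2 x) ((m0.add m1).add m2),
    lintegral_add_left (f := fun x => f0 x + f1 x) (m0.add m1), lintegral_add_left m0]

lemma swap3 {f : Fr → ℝ≥0∞} (hf : Measurable f) {K : ℝ≥0∞} (hK : K ≠ ⊤) (A P : Set ℂ) :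
    ∫⁻ v in A, ∫⁻ e in A, K * ∫⁻ x in P, f (frame v e x 0) =
      K * ∫⁻ v in A, ∫⁻ x in P, ∫⁻ e in A, f (frame v e x 0) := by
  rw [← lintegral_const_mul' _ _ hK]
  refine lintegral_congr fun v => ?_
  rw [lintegral_const_mul' _ _ hK]
  congr 1
  rw [lintegral_lintegral_swap]
  refine Measurable.aemeasurable (hf.comp ?_)
  unfold frame
  fun_prop

lemma SW.exists_bound {a b : ℝ} {w : ℝ → ℂ} (h : SW a b w) : ∃ M : ℝ, ∀ x, ‖w x‖ ≤ M := by
  obtain ⟨M, hM⟩ := (isCompact_Icc (a := a) (b := b)).exists_bound_of_continuousOn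
    h.cd.continuous.continuousOn
  refine ⟨max M 0, fun x => ?_⟩
  by_cases hx : x ∈ Icc a b
  · exact (hM x hx).trans (le_max_left _ _)
  · rw [mem_Icc, not_and_or, not_le, not_le] at hx
    rw [h.supp x hx, norm_zero]
    exact le_max_right _ _

lemma exists_nice {a b B : ℝ} (hB : 0 < B) {w : ℝ → ℂ} (hw : SW a b w) {φ : ℂ → ℂ}
    (hφ : SP 1 φ) (hφ1 : ∀ z, ‖φ z‖ ≤ 1) : ∃ M R : ℝ, Nice (rad w B) φ M R := by
  obtain ⟨M, hM⟩ := hw.exists_bound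
  have hSU := SU_rad hB hw
  refine ⟨max M 1, max (Real.sqrt (b * B)) 1, hSU.cd.continuous.measurable,
    hφ.cd.continuous.measurable, fun z => (hM _).trans (le_max_left _ _),
    fun z => (hφ1 z).trans (le_max_right _ _), fun z hz => ?_, fun z hz => ?_, ?_⟩
  · exact hSU.supp z (Or.inr ((le_max_left _ _).trans_lt hz))
  · exact hφ.supp z ((le_max_right _ _).trans_lt hz)
  · refine hSU.supp 0 (Or.inl ?_)
    rw [norm_zero]
    exact Real.sqrt_pos.mpr (mul_pos hw.apos hB)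

/-! ### the core inequality -/

section core

variable {Δ : Subgroup K695.Gam} {q : Eis} {ψ : Eis → ℂ} {W : ℂ → ℝ≥0∞}

/-- the level norm of `E_{ψ,F}`. -/
def LN (Δ : Subgroup K695.Gam) (q : Eis) (ψ : Eis → ℂ) (W : ℂ → ℝ≥0∞) (F : ℂ × ℂ → ℂ) : ℝ≥0∞ :=
  ∫⁻ M, W (K695.det2 M) * ‖K695.EC (coefK (ker ψ)) F M‖ₑ ^ 2 ∂(K695.nu Δ q)

lemma strip_LN (H : K695.SyAPI) (hL : K695.IsLev Δ q) (ha : K695.IsCoef Δ (coefK (ker ψ)))
    (hW : Measurable W) (hW1 : ∀ z : ℂ, 1 ≤ ‖z‖ → ‖z‖ ≤ 4 → 1 ≤ W z)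
    {F : ℂ × ℂ → ℂ} (hF : Measurable F) :
    ∫⁻ M in strip 1, ‖K695.EC (coefK (ker ψ)) F M‖ₑ ^ 2 ≤
      ENNReal.ofReal (1 + 313600 * 1 ^ 4) * LN Δ q ψ W F :=
  strip_nu_w hL ((K695.measurable_EC hF).enorm.pow_const 2)
    (fun _ hg M => normsq_EC_act H ha F hg M) hW hW1 one_pos

/-- volume of the annulus. -/
lemma vol_ann_pos : (volume (ann 1 2) : ℝ≥0∞) ≠ 0 := by
  have h1 : Metric.ball ((3/2 : ℝ) : ℂ) (1/2) ⊆ ann 1 2 := by
    intro z hz
    rw [mem_ball_iff_norm] at hz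
    have h3 : ‖((3/2 : ℝ) : ℂ)‖ = 3/2 := by
      rw [Complex.norm_real, Real.norm_of_nonneg (by norm_num)]
    constructor
    · have := norm_sub_norm_le ((3/2 : ℝ) : ℂ) z
      rw [norm_sub_rev] at this
      rw [h3] at this; linarith
    · have := norm_sub_norm_le z ((3/2 : ℝ) : ℂ)
      rw [h3] at this; linarith
  have h2 : (volume (Metric.ball ((3/2 : ℝ) : ℂ) (1/2)) : ℝ≥0∞) ≠ 0 :=
    (Metric.measure_ball_pos volume _ (by norm_num)).ne'
  exact fun h => h2 (measure_mono_null h1 h)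

theorem core_ineq (H : K695.SyAPI) (Hs : CharSum852.SyFacts) (hL : K695.IsLev Δ q)
    {K : ℝ} (hψ : ∀ d, ‖ψ d‖ ≤ K) (ha : K695.IsCoef Δ (coefK (ker ψ)))
    (hW : Measurable W) (hW1 : ∀ z : ℂ, 1 ≤ ‖z‖ → ‖z‖ ≤ 4 → 1 ≤ W z)
    {a b : ℝ} {w : ℝ → ℂ} (hw : SW a b w) {φ : ℂ → ℂ} (hφ : SP 1 φ) (hφ1 : ∀ z, ‖φ z‖ ≤ 1)
    {u : Eis} {c : ℝ} (hc : 0 < c)
    (hc2 : ∀ ξ : ℂ, ‖ξ‖ ≤ 2 * ‖frq 3 u‖ → c ≤ ‖phat φ ξ‖) {B : ℝ} (hB : 0 < B) :
    ENNReal.ofReal (c ^ 2 / 16) * volume (ann 1 2) * ∫⁻ e in ann 1 2, ‖Sg ψ (rad w B) u e‖ₑ ^ 2 ≤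
      ENNReal.ofReal (Parseval499.covol 3) * (4 * (ENNReal.ofReal (1 + 313600 * 1 ^ 4) *
        (LN Δ q ψ W (dilB B (prodF (rad w 1) φ)) + LN Δ q ψ W (dilB B (D1 1 (rad w 1) φ))
        + LN Δ q ψ W (dilB B (D1 Complex.I (rad w 1) φ))
        + LN Δ q ψ W (dilB B (D12 1 Complex.I (rad w 1) φ))))) := by
  have hSU := SU_rad one_pos hw
  have hsa : 0 < Real.sqrt (a * 1) := Real.sqrt_pos.mpr (by have := hw.apos; linarith)
  have hod := OrbDeriv.dil (orbDeriv_prodF hsa hSU hφ) B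
  have s0 := suppIn_dil hB (CF_prodF hsa hSU hφ)
  have s1 := suppIn_dil hB (CF_D1 hsa hSU hφ 1)
  have s2 := suppIn_dil hB (CF_D1 hsa hSU hφ Complex.I)
  have s12 := suppIn_dil hB (CF_D12 hsa hSU hφ 1 Complex.I)
  have hsl := slice (r := 1) one_pos hod s0 s1 s2 s12 (coefK (ker ψ))
  have hm0 := hod.c0.measurable
  have hm1 := hod.c1.measurable
  have hm2 := hod.c2.measurable
  have hm12 := hod.c12.measurable
  simp only [EE_eq_EC, one_pow, ENNReal.ofReal_one, one_mul, mul_one, div_one] at hsl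
  have hst : ∫⁻ M in strip 1, (‖K695.EC (coefK (ker ψ)) (dilB B (prodF (rad w 1) φ)) M‖ₑ ^ 2
      + ‖K695.EC (coefK (ker ψ)) (dilB B (D1 1 (rad w 1) φ)) M‖ₑ ^ 2
      + ‖K695.EC (coefK (ker ψ)) (dilB B (D1 Complex.I (rad w 1) φ)) M‖ₑ ^ 2
      + ‖K695.EC (coefK (ker ψ)) (dilB B (D12 1 Complex.I (rad w 1) φ)) M‖ₑ ^ 2) ≤
      ENNReal.ofReal (1 + 313600 * 1 ^ 4) *
        (LN Δ q ψ W (dilB B (prodF (rad w 1) φ)) + LN Δ q ψ W (dilB B (D1 1 (rad w 1) φ))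
        + LN Δ q ψ W (dilB B (D1 Complex.I (rad w 1) φ))
        + LN Δ q ψ W (dilB B (D12 1 Complex.I (rad w 1) φ))) := by
    have m0 := ((K695.measurable_EC (a := coefK (ker ψ)) hm0).enorm.pow_const 2)
    have m1 := ((K695.measurable_EC (a := coefK (ker ψ)) hm1).enorm.pow_const 2)
    have m2 := ((K695.measurable_EC (a := coefK (ker ψ)) hm2).enorm.pow_const 2)
    rw [lint_add4 m0 m1 m2, mul_add, mul_add, mul_add]
    exact add_le_add (add_le_add (add_le_add (strip_LN H hL ha hW hW1 hm0)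
      (strip_LN H hL ha hW hW1 hm1)) (strip_LN H hL ha hW hW1 hm2)) (strip_LN H hL ha hW hW1 hm12)
  -- the Bessel inequality
  have hsy : ∀ c d, IsPrim d → ‖sy c d‖ ≤ 1 := fun c d _ => CF61.norm_sy_le c d
  obtain ⟨M0, R0, hNice⟩ := exists_nice hB hw hφ hφ1
  have hbes : ∀ v ∈ ann 1 2, ∀ e ∈ ann 1 2,
      ENNReal.ofReal (c ^ 2 / 16) * ‖Sg ψ (rad w B) u e‖ₑ ^ 2 ≤
      ENNReal.ofReal (Parseval499.covol 3) * ∫⁻ x in Parseval499.par 3,
        ‖K695.EC (coefK (ker ψ)) (dilB B (prodF (rad w 1) φ)) (frame v e x 0)‖ₑ ^ 2 := by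
    intro v hv e he
    have hv0 : 0 < ‖v‖ := by linarith [hv.1]
    have he0 : 0 < ‖e‖ := by linarith [he.1]
    have h := special_bessel_lint Hs hψ hsy hNice (norm_pos_iff.mp hv0) (norm_pos_iff.mp he0) {u}
    rw [Finset.sum_singleton] at h
    refine le_trans ?_ (h.trans (le_of_eq ?_))
    · have hr1 : (1:ℝ) / 2 ≤ ‖e / v‖ := by
        rw [norm_div, div_le_div_iff₀ (by norm_num) hv0]
        linarith [he.1, hv.2]
      have hr2 : ‖e / v‖ ≤ 2 := by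
        rw [norm_div, div_le_iff₀ hv0]
        linarith [he.2, hv.1]
      have hp : c ≤ ‖phat φ (frq 3 u * e / v)‖ := by
        apply hc2
        rw [mul_div_assoc, norm_mul, mul_comm]
        exact mul_le_mul_of_nonneg_right hr2 (norm_nonneg _)
      rw [← ofReal_norm, ← ENNReal.ofReal_pow (norm_nonneg _), ← ENNReal.ofReal_mul (by positivity)]
      apply ENNReal.ofReal_le_ofReal
      rw [mul_comm]
      apply mul_le_mul_of_nonneg_left _ (by positivity)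
      calc c ^ 2 / 16 = (1 / 2) ^ 4 * c ^ 2 := by ring
        _ ≤ ‖e / v‖ ^ 4 * ‖phat φ (frq 3 u * e / v)‖ ^ 2 := by
            gcongr
    · congr 1
      refine lintegral_congr fun x => ?_
      rw [dil_tens hB, EK_eq_EC]
  -- integrate
  have hf : Measurable fun M : Fr =>
      ‖K695.EC (coefK (ker ψ)) (dilB B (prodF (rad w 1) φ)) M‖ₑ ^ 2 :=
    (K695.measurable_EC (a := coefK (ker ψ)) hm0).enorm.pow_const 2
  calc ENNReal.ofReal (c ^ 2 / 16) * volume (ann 1 2) * ∫⁻ e in ann 1 2, ‖Sg ψ (rad w B) u e‖ₑ ^ 2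
      = ∫⁻ v in ann 1 2, ∫⁻ e in ann 1 2,
          ENNReal.ofReal (c ^ 2 / 16) * ‖Sg ψ (rad w B) u e‖ₑ ^ 2 := by
        rw [setLIntegral_const, lintegral_const_mul' _ _ ENNReal.ofReal_ne_top]
        ring
    _ ≤ ∫⁻ v in ann 1 2, ∫⁻ e in ann 1 2, ENNReal.ofReal (Parseval499.covol 3) *
          ∫⁻ x in Parseval499.par 3,
        ‖K695.EC (coefK (ker ψ)) (dilB B (prodF (rad w 1) φ)) (frame v e x 0)‖ₑ ^ 2 := by
        refine setLIntegral_mono' (measurableSet_ann 1 2) fun v hv => ?_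
        exact setLIntegral_mono' (measurableSet_ann 1 2) fun e he => hbes v hv e he
    _ = ENNReal.ofReal (Parseval499.covol 3) * ∫⁻ v in ann 1 2, ∫⁻ x in Parseval499.par 3,
          ∫⁻ e in ann 1 2,
        ‖K695.EC (coefK (ker ψ)) (dilB B (prodF (rad w 1) φ)) (frame v e x 0)‖ₑ ^ 2 := by
        exact swap3 hf ENNReal.ofReal_ne_top _ _
    _ ≤ ENNReal.ofReal (Parseval499.covol 3) * (4 * (ENNReal.ofReal (1 + 313600 * 1 ^ 4) *
        (LN Δ q ψ W (dilB B (prodF (rad w 1) φ)) + LN Δ q ψ W (dilB B (D1 1 (rad w 1) φ))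
        + LN Δ q ψ W (dilB B (D1 Complex.I (rad w 1) φ))
        + LN Δ q ψ W (dilB B (D12 1 Complex.I (rad w 1) φ))))) := by
        gcongr
        refine hsl.trans ?_
        gcongr

/-- the Gram input at the given level: no main term. -/
def GramO (Δ : Subgroup K695.Gam) (q : Eis) (ψ : Eis → ℂ) (W : ℂ → ℝ≥0∞) : Prop :=
  ∀ (a b : ℝ) (F : ℂ × ℂ → ℂ), 0 < a → CF a b F →
    Tendsto (fun B : ℝ => LN Δ q ψ W (dilB B F) / ENNReal.ofReal (B ^ ((8:ℝ)/3))) atTop (𝓝 0)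

theorem limit_SgR (H : K695.SyAPI) (Hs : CharSum852.SyFacts) (hL : K695.IsLev Δ q)
    {K : ℝ} (hψ : ∀ d, ‖ψ d‖ ≤ K) (ha : K695.IsCoef Δ (coefK (ker ψ)))
    (hW : Measurable W) (hW1 : ∀ z : ℂ, 1 ≤ ‖z‖ → ‖z‖ ≤ 4 → 1 ≤ W z)
    (hG : GramO Δ q ψ W) {a b : ℝ} {w : ℝ → ℂ} (hw : SW a b w) (u : Eis) :
    Tendsto (fun B : ℝ => SgR ψ w u B 1 / ((B ^ ((4:ℝ)/3) : ℝ) : ℂ)) atTop (𝓝 0) := by
  obtain ⟨φ, c, hc, hφ, hφ1, hc2⟩ := exists_phi (max 1 (2 * ‖frq 3 u‖)) (le_max_left _ _)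
  have hc2' : ∀ ξ : ℂ, ‖ξ‖ ≤ 2 * ‖frq 3 u‖ → c ≤ ‖phat φ ξ‖ :=
    fun ξ hξ => hc2 ξ (hξ.trans (le_max_right _ _))
  -- the annulus integral is small
  set A : ℝ≥0∞ := ENNReal.ofReal (c ^ 2 / 16) * volume (ann 1 2) with hA
  have hA0 : A ≠ 0 := by
    rw [hA]
    exact mul_ne_zero (by rw [Ne, ENNReal.ofReal_eq_zero, not_le]; positivity) vol_ann_pos
  have hAt : A ≠ ⊤ := by
    rw [hA]
    refine ENNReal.mul_ne_top ENNReal.ofReal_ne_top ?_
    have : ann 1 2 ⊆ Metric.closedBall (0:ℂ) 2 := fun z hz => by simpa using hz.2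
    exact ((measure_mono this).trans_lt measure_closedBall_lt_top).ne
  have hsmall : ∀ w : ℝ → ℂ, SW a b w → Tendsto (fun B : ℝ =>
      (∫⁻ e in ann 1 2, ‖Sg ψ (rad w B) u e‖ₑ ^ 2) / ENNReal.ofReal (B ^ ((8:ℝ)/3))) atTop (𝓝 0) := by
    intro w hw
    have hSU := SU_rad one_pos hw
    have hsa : 0 < Real.sqrt (a * 1) := Real.sqrt_pos.mpr (by have := hw.apos; linarith)
    have g0 := hG _ _ _ hsa (CF_prodF hsa hSU hφ)
    have g1 := hG _ _ _ hsa (CF_D1 hsa hSU hφ 1)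
    have g2 := hG _ _ _ hsa (CF_D1 hsa hSU hφ Complex.I)
    have g12 := hG _ _ _ hsa (CF_D12 hsa hSU hφ 1 Complex.I)
    have gs := ((g0.add g1).add g2).add g12
    simp only [add_zero] at gs
    set C : ℝ≥0∞ := A⁻¹ * (ENNReal.ofReal (Parseval499.covol 3) *
      (4 * ENNReal.ofReal (1 + 313600 * 1 ^ 4))) with hC
    have hCt : C ≠ ⊤ := by
      rw [hC]
      refine ENNReal.mul_ne_top (ENNReal.inv_ne_top.mpr hA0) ?_
      exact ENNReal.mul_ne_top ENNReal.ofReal_ne_top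
        (ENNReal.mul_ne_top (by simp) ENNReal.ofReal_ne_top)
    have gC := ENNReal.Tendsto.const_mul gs (Or.inr hCt)
    rw [mul_zero] at gC
    refine tendsto_of_tendsto_of_tendsto_of_le_of_le' tendsto_const_nhds gC
      (Eventually.of_forall fun _ => bot_le) ?_
    filter_upwards [eventually_gt_atTop (0:ℝ)] with B hB
    have hci := core_ineq H Hs hL hψ ha hW hW1 hw hφ hφ1 hc hc2' hB
    rw [← hA] at hci
    have h1 : ∫⁻ e in ann 1 2, ‖Sg ψ (rad w B) u e‖ₑ ^ 2 ≤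
        A⁻¹ * (A * ∫⁻ e in ann 1 2, ‖Sg ψ (rad w B) u e‖ₑ ^ 2) := by
      rw [← mul_assoc, ENNReal.inv_mul_cancel hA0 hAt, one_mul]
    calc _ ≤ (A⁻¹ * (A * ∫⁻ e in ann 1 2, ‖Sg ψ (rad w B) u e‖ₑ ^ 2)) /
          ENNReal.ofReal (B ^ ((8:ℝ)/3)) := by gcongr
      _ ≤ (A⁻¹ * (ENNReal.ofReal (Parseval499.covol 3) *
          (4 * (ENNReal.ofReal (1 + 313600 * 1 ^ 4) *
        (LN Δ q ψ W (dilB B (prodF (rad w 1) φ)) + LN Δ q ψ W (dilB B (D1 1 (rad w 1) φ))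
        + LN Δ q ψ W (dilB B (D1 Complex.I (rad w 1) φ))
        + LN Δ q ψ W (dilB B (D12 1 Complex.I (rad w 1) φ))))))) /
          ENNReal.ofReal (B ^ ((8:ℝ)/3)) := by gcongr
      _ = _ := by
        simp only [div_eq_mul_inv, hC]
        ring
  have hw1 : SW a b (xd (deriv w)) := hw.xd
  have h2 := (hsmall w hw).add (hsmall _ hw1)
  rw [add_zero] at h2
  have h3 := ENNReal.Tendsto.const_mul h2 (a := (2 : ℝ≥0∞)) (Or.inr (by simp))
  rw [mul_zero] at h3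
  have h4 : Tendsto (fun B : ℝ => ‖SgR ψ w u B 1 / ((B ^ ((4:ℝ)/3) : ℝ) : ℂ)‖ₑ ^ 2) atTop (𝓝 0) := by
    refine tendsto_of_tendsto_of_tendsto_of_le_of_le' tendsto_const_nhds h3
      (Eventually.of_forall fun _ => bot_le) ?_
    filter_upwards [eventually_gt_atTop (0:ℝ)] with B hB
    have hd := dil_trace hw.wc ψ u hB
    have hm : Measurable fun e => ‖Sg ψ (rad w B) u e‖ₑ ^ 2 := by
      have hmr : Measurable (rad w B) := (SU_rad hB hw).cd.continuous.measurable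
      unfold Sg
      refine (Measurable.tsum fun d => ?_).enorm.pow_const 2
      split_ifs
      · exact (hmr.comp (by fun_prop)).const_mul _
      · exact measurable_const
    rw [lintegral_add_left hm] at hd
    have e1 : ‖SgR ψ w u B 1 / ((B ^ ((4:ℝ)/3) : ℝ) : ℂ)‖ₑ ^ 2 =
        ‖SgR ψ w u B 1‖ₑ ^ 2 / ENNReal.ofReal (B ^ ((8:ℝ)/3)) := by
      have hB3 : 0 < B ^ ((4:ℝ)/3) := by positivity
      rw [← ofReal_norm, norm_div, Complex.norm_real, Real.norm_of_nonneg hB3.le,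
        ENNReal.ofReal_div_of_pos hB3, ofReal_norm, div_eq_mul_inv, mul_pow, ← ENNReal.inv_pow,
        ← ENNReal.ofReal_pow hB3.le, ← Real.rpow_natCast (B ^ ((4:ℝ)/3)), ← Real.rpow_mul hB.le]
      norm_num [div_eq_mul_inv]
    rw [e1]
    calc _ ≤ (2 * ((∫⁻ e in ann 1 2, ‖Sg ψ (rad w B) u e‖ₑ ^ 2)
          + ∫⁻ e in ann 1 2, ‖Sg ψ (rad (xd (deriv w)) B) u e‖ₑ ^ 2)) /
          ENNReal.ofReal (B ^ ((8:ℝ)/3)) := by gcongr
      _ = _ := by
        simp only [div_eq_mul_inv]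
        ring
  rw [tendsto_zero_iff_enorm_tendsto_zero]
  have h5 := h4.comp tendsto_id
  have h6 : Tendsto (fun B : ℝ => (‖SgR ψ w u B 1 / ((B ^ ((4:ℝ)/3) : ℝ) : ℂ)‖ₑ ^ 2) ^ ((1:ℝ)/2))
      atTop (𝓝 0) := by
    have := (ENNReal.continuous_rpow_const (y := (1:ℝ)/2)).continuousAt.tendsto.comp h4
    simpa [Function.comp_def] using this
  refine h6.congr fun B => ?_
  rw [← ENNReal.rpow_natCast, ← ENNReal.rpow_mul]
  norm_num

end core

end Crest.Agent.R012.ResLev61
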