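import Mathlib

/-!
# Row 12, (ML): the trace step

For `h : ℝ → ℝ → ℂ` of class `C²` on the unit square, `‖h 0 0‖²` is at most four times the integral
of `‖h‖² + ‖∂₁h‖² + ‖∂₂h‖² + ‖∂₁∂₂h‖²`.  Applied to `h(s,t) = E_F(M n(s + t i))`.
-/

set_option autoImplicit false

noncomputable section

open MeasureTheory Set Filter
open scoped ENNReal Topology

namespace Crest.Agent.R012.Trace384

/-! ### Sobolev inequality on an interval and on a square -/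

lemma value_eq_integral {h h' : ℝ → ℂ} (hd : ∀ s, HasDerivAt h (h' s) s)
    (hc : Continuous h') :
    h 0 = ∫ s in (0:ℝ)..1, (h s - (1 - (s : ℂ)) * h' s) := by
  have hh : Continuous h := continuous_iff_continuousAt.mpr fun s => (hd s).continuousAt
  have hg : ∀ s ∈ uIcc (0:ℝ) 1, HasDerivAt (fun s : ℝ => -((1 - (s : ℂ)) * h s))
      (h s - (1 - (s : ℂ)) * h' s) s := by
    intro s _
    have h1 : HasDerivAt (fun s : ℝ => (1 - (s : ℂ))) (-1) s := by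
      simpa using (Complex.ofRealCLM.hasDerivAt (x := s)).const_sub (1 : ℂ)
    have h2 : HasDerivAt (fun s : ℝ => -((1 - (s : ℂ)) * h s))
        (-(-1 * h s + (1 - (s : ℂ)) * h' s)) s := (h1.mul (hd s)).neg
    refine h2.congr_deriv ?_
    ring
  have := intervalIntegral.integral_eq_sub_of_hasDerivAt hg
    ((by fun_prop : Continuous fun s : ℝ => (h s - (1 - (s : ℂ)) * h' s)).intervalIntegrable _ _)
  rw [this]
  simp

lemma add_sq_le (a b : ℝ≥0∞) : (a + b) ^ 2 ≤ 2 * (a ^ 2 + b ^ 2) := by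
  by_cases ha : a = ∞
  · subst ha; simp
  by_cases hb : b = ∞
  · subst hb; simp
  lift a to NNReal using ha
  lift b to NNReal using hb
  norm_cast
  rw [← NNReal.coe_le_coe]
  push_cast
  nlinarith [sq_nonneg ((a : ℝ) - b)]

lemma lintegral_sq_le {f : ℝ → ℝ≥0∞} (hf : Measurable f) :
    (∫⁻ s in Icc (0:ℝ) 1, f s) ^ 2 ≤ ∫⁻ s in Icc (0:ℝ) 1, f s ^ 2 := by
  have key := ENNReal.lintegral_mul_le_Lp_mul_Lq (volume.restrict (Icc (0:ℝ) 1))
    Real.HolderConjugate.two_two hf.aemeasurable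
    (measurable_const (a := (1 : ℝ≥0∞))).aemeasurable
  simp only [Pi.mul_apply, mul_one, ENNReal.one_rpow, lintegral_const, MeasurableSet.univ,
    Measure.restrict_apply, univ_inter, Real.volume_Icc, sub_zero, ENNReal.ofReal_one, mul_one] at key
  have h2 : ∀ x : ℝ≥0∞, x ^ (2 : ℝ) = x ^ 2 := fun x => by
    rw [← ENNReal.rpow_natCast]; norm_num
  simp only [h2] at key
  calc (∫⁻ s in Icc (0:ℝ) 1, f s) ^ 2
      ≤ ((∫⁻ s in Icc (0:ℝ) 1, f s ^ 2) ^ ((1:ℝ)/2)) ^ 2 := by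
        gcongr
    _ = ∫⁻ s in Icc (0:ℝ) 1, f s ^ 2 := by
        rw [← ENNReal.rpow_natCast, ← ENNReal.rpow_mul]; norm_num

lemma sob1 {h h' : ℝ → ℂ} (hd : ∀ s, HasDerivAt h (h' s) s) (hc : Continuous h') :
    ‖h 0‖ₑ ^ 2 ≤ 2 * ∫⁻ s in Icc (0:ℝ) 1, (‖h s‖ₑ ^ 2 + ‖h' s‖ₑ ^ 2) := by
  have hh : Continuous h := continuous_iff_continuousAt.mpr fun s => (hd s).continuousAt
  have h1 : ‖h 0‖ₑ ≤ ∫⁻ s in Icc (0:ℝ) 1, (‖h s‖ₑ + ‖h' s‖ₑ) := by
    rw [value_eq_integral hd hc, intervalIntegral.integral_of_le zero_le_one,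
      ← integral_Icc_eq_integral_Ioc]
    refine (enorm_integral_le_lintegral_enorm _).trans ?_
    refine setLIntegral_mono (by fun_prop) ?_
    intro s hs
    refine (enorm_sub_le).trans ?_
    gcongr
    rw [enorm_mul]
    have : ‖(1 - (s : ℂ))‖ₑ ≤ 1 := by
      have h2 : ‖(1 - (s : ℂ))‖ ≤ 1 := by
        have : (1 - (s : ℂ)) = ((1 - s : ℝ) : ℂ) := by push_cast; ring
        rw [this, Complex.norm_real, Real.norm_eq_abs, abs_le]
        constructor <;> linarith [hs.1, hs.2]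
      rw [← ofReal_norm]
      exact ENNReal.ofReal_le_one.mpr h2
    calc ‖(1 - (s : ℂ))‖ₑ * ‖h' s‖ₑ ≤ 1 * ‖h' s‖ₑ := by gcongr
      _ = ‖h' s‖ₑ := one_mul _
  calc ‖h 0‖ₑ ^ 2 ≤ (∫⁻ s in Icc (0:ℝ) 1, (‖h s‖ₑ + ‖h' s‖ₑ)) ^ 2 := by gcongr
    _ ≤ ∫⁻ s in Icc (0:ℝ) 1, (‖h s‖ₑ + ‖h' s‖ₑ) ^ 2 := lintegral_sq_le (by fun_prop)
    _ ≤ ∫⁻ s in Icc (0:ℝ) 1, 2 * (‖h s‖ₑ ^ 2 + ‖h' s‖ₑ ^ 2) :=
        lintegral_mono fun s => add_sq_le _ _
    _ = 2 * ∫⁻ s in Icc (0:ℝ) 1, (‖h s‖ₑ ^ 2 + ‖h' s‖ₑ ^ 2) := by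
        rw [lintegral_const_mul' _ _ (by simp)]

lemma sob2 {h h1 h2 h12 : ℝ → ℝ → ℂ}
    (d1 : ∀ s t, HasDerivAt (fun s => h s t) (h1 s t) s)
    (d2 : ∀ s t, HasDerivAt (fun t => h s t) (h2 s t) t)
    (d12 : ∀ s t, HasDerivAt (fun t => h1 s t) (h12 s t) t)
    (c1 : ∀ t, Continuous fun s => h1 s t) (c2 : ∀ s, Continuous fun t => h2 s t)
    (c12 : ∀ s, Continuous fun t => h12 s t) :
    ‖h 0 0‖ₑ ^ 2 ≤ 4 * ∫⁻ s in Icc (0:ℝ) 1, ∫⁻ t in Icc (0:ℝ) 1,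
      (‖h s t‖ₑ ^ 2 + ‖h1 s t‖ₑ ^ 2 + ‖h2 s t‖ₑ ^ 2 + ‖h12 s t‖ₑ ^ 2) := by
  refine (sob1 (h := fun s => h s 0) (h' := fun s => h1 s 0) (fun s => d1 s 0) (c1 0)).trans ?_
  have : ∀ s, ‖h s 0‖ₑ ^ 2 + ‖h1 s 0‖ₑ ^ 2 ≤ 2 * ∫⁻ t in Icc (0:ℝ) 1,
      (‖h s t‖ₑ ^ 2 + ‖h1 s t‖ₑ ^ 2 + ‖h2 s t‖ₑ ^ 2 + ‖h12 s t‖ₑ ^ 2) := by
    intro s
    have e1 := sob1 (h := fun t => h s t) (h' := fun t => h2 s t) (fun t => d2 s t) (c2 s)
    have e2 := sob1 (h := fun t => h1 s t) (h' := fun t => h12 s t) (fun t => d12 s t) (c12 s)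
    refine (add_le_add e1 e2).trans ?_
    rw [← mul_add, ← lintegral_add_left]
    · refine mul_le_mul_right (lintegral_mono fun t => ?_) _
      apply le_of_eq; ring
    · have hc : Continuous fun t => h s t :=
        continuous_iff_continuousAt.mpr fun t => (d2 s t).continuousAt
      have := c2 s
      fun_prop
  calc 2 * ∫⁻ s in Icc (0:ℝ) 1, (‖h s 0‖ₑ ^ 2 + ‖h1 s 0‖ₑ ^ 2)
      ≤ 2 * ∫⁻ s in Icc (0:ℝ) 1, (2 * ∫⁻ t in Icc (0:ℝ) 1,
      (‖h s t‖ₑ ^ 2 + ‖h1 s t‖ₑ ^ 2 + ‖h2 s t‖ₑ ^ 2 + ‖h12 s t‖ₑ ^ 2)) := by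
        gcongr with s; exact this s
    _ = _ := by
        rw [lintegral_const_mul' _ _ (by simp), ← mul_assoc]; norm_num

/-! ### The unipotent group and row sums -/

/-- Right translation by `n(q)` on row vectors. -/
def nq (q : ℂ) (u : ℂ × ℂ) : ℂ × ℂ := (u.1 + q * u.2, u.2)

/-- Right translation by `n(q)` on frames. -/
def nqF (q : ℂ) (M : (ℂ × ℂ) × (ℂ × ℂ)) : (ℂ × ℂ) × (ℂ × ℂ) := (nq q M.1, nq q M.2)

/-- `c η + d ζ`. -/
def rowc (x : ℂ × ℂ) (M : (ℂ × ℂ) × (ℂ × ℂ)) : ℂ × ℂ :=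
  (x.1 * M.1.1 + x.2 * M.2.1, x.1 * M.1.2 + x.2 * M.2.2)

@[simp] lemma nq_zero (u : ℂ × ℂ) : nq 0 u = u := by simp [nq]

@[simp] lemma nqF_zero (M : (ℂ × ℂ) × (ℂ × ℂ)) : nqF 0 M = M := by simp [nqF]

lemma rowc_nqF (x : ℂ × ℂ) (q : ℂ) (M : (ℂ × ℂ) × (ℂ × ℂ)) :
    rowc x (nqF q M) = nq q (rowc x M) := by
  apply Prod.ext
  · simp only [rowc, nqF, nq]; ring
  · simp only [rowc, nqF, nq]

lemma nq_nq (p q : ℂ) (u : ℂ × ℂ) : nq p (nq q u) = nq (q + p) u := by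
  simp only [nq, Prod.mk.injEq, and_true]; ring

/-- The derivatives of `F` along the orbits of `n(q)`:
`F1 = ∂_{Re q} F`, `F2 = ∂_{Im q} F`, `F12 = ∂_{Im q} ∂_{Re q} F`. -/
structure OrbDeriv (F F1 F2 F12 : ℂ × ℂ → ℂ) : Prop where
  c0 : Continuous F
  c1 : Continuous F1
  c2 : Continuous F2
  c12 : Continuous F12
  d1 : ∀ u, HasDerivAt (fun t : ℝ => F (nq (t : ℂ) u)) (F1 u) 0
  d2 : ∀ u, HasDerivAt (fun t : ℝ => F (nq ((t : ℂ) * Complex.I) u)) (F2 u) 0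
  d12 : ∀ u, HasDerivAt (fun t : ℝ => F1 (nq ((t : ℂ) * Complex.I) u)) (F12 u) 0

lemma continuous_nq (u : ℂ × ℂ) : Continuous fun q : ℂ => nq q u := by
  unfold nq; fun_prop

lemma deriv_re_of {F F1 : ℂ × ℂ → ℂ}
    (d1 : ∀ u, HasDerivAt (fun t : ℝ => F (nq (t : ℂ) u)) (F1 u) 0) (u : ℂ × ℂ) (s t : ℝ) :
    HasDerivAt (fun s : ℝ => F (nq ((s : ℂ) + t * Complex.I) u))
      (F1 (nq ((s : ℂ) + t * Complex.I) u)) s := by
  have h := d1 (nq ((s : ℂ) + t * Complex.I) u)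
  have h2 : HasDerivAt (fun r : ℝ => r - s) 1 s := by
    simpa using (hasDerivAt_id s).sub_const s
  have h3 := HasDerivAt.scomp_of_eq (x := s) (h := fun r : ℝ => r - s) h h2 (by simp)
  simp only [Function.comp_def, one_smul] at h3
  refine h3.congr_of_eventuallyEq (Eventually.of_forall fun r => ?_)
  simp only [nq_nq]
  congr 2
  push_cast; ring

lemma deriv_im_of {F F2 : ℂ × ℂ → ℂ}
    (d2 : ∀ u, HasDerivAt (fun t : ℝ => F (nq ((t : ℂ) * Complex.I) u)) (F2 u) 0)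
    (u : ℂ × ℂ) (s t : ℝ) :
    HasDerivAt (fun t : ℝ => F (nq ((s : ℂ) + t * Complex.I) u))
      (F2 (nq ((s : ℂ) + t * Complex.I) u)) t := by
  have h := d2 (nq ((s : ℂ) + t * Complex.I) u)
  have h2 : HasDerivAt (fun r : ℝ => r - t) 1 t := by
    simpa using (hasDerivAt_id t).sub_const t
  have h3 := HasDerivAt.scomp_of_eq (x := t) (h := fun r : ℝ => r - t) h h2 (by simp)
  simp only [Function.comp_def, one_smul] at h3
  refine h3.congr_of_eventuallyEq (Eventually.of_forall fun r => ?_)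
  simp only [nq_nq]
  congr 2
  push_cast; ring

/-- A row sum: `Σ_i a_i F(c_i η + d_i ζ)`. -/
def rsum {ι : Type*} (a : ι → ℂ) (r : ι → ℂ × ℂ) (F : ℂ × ℂ → ℂ)
    (M : (ℂ × ℂ) × (ℂ × ℂ)) : ℂ := ∑' i, a i * F (rowc (r i) M)

/-- The **trace inequality**: the square of a row sum at a frame is bounded by the mean square over
the translates `M n(q)`, `q` in the unit square, of the row sums of the derivatives. -/
theorem trace_ineq {ι : Type*} (a : ι → ℂ) (r : ι → ℂ × ℂ) {F F1 F2 F12 : ℂ × ℂ → ℂ}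
    (hF : OrbDeriv F F1 F2 F12) (M : (ℂ × ℂ) × (ℂ × ℂ)) (S : Finset ι)
    (hS : ∀ i ∉ S, ∀ q : ℂ, q.re ∈ Icc (0:ℝ) 1 → q.im ∈ Icc (0:ℝ) 1 →
      F (nq q (rowc (r i) M)) = 0 ∧ F1 (nq q (rowc (r i) M)) = 0 ∧
      F2 (nq q (rowc (r i) M)) = 0 ∧ F12 (nq q (rowc (r i) M)) = 0) :
    ‖rsum a r F M‖ₑ ^ 2 ≤ 4 * ∫⁻ s in Icc (0:ℝ) 1, ∫⁻ t in Icc (0:ℝ) 1,
      (‖rsum a r F (nqF (s + t * Complex.I) M)‖ₑ ^ 2
        + ‖rsum a r F1 (nqF (s + t * Complex.I) M)‖ₑ ^ 2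
        + ‖rsum a r F2 (nqF (s + t * Complex.I) M)‖ₑ ^ 2
        + ‖rsum a r F12 (nqF (s + t * Complex.I) M)‖ₑ ^ 2) := by
  classical
  -- finite sums
  set G : (ℂ × ℂ → ℂ) → ℝ → ℝ → ℂ := fun H s t =>
    ∑ i ∈ S, a i * H (nq ((s : ℂ) + t * Complex.I) (rowc (r i) M)) with hG
  have hfin : ∀ H ∈ ({F, F1, F2, F12} : Set (ℂ × ℂ → ℂ)), ∀ s ∈ Icc (0:ℝ) 1,
      ∀ t ∈ Icc (0:ℝ) 1, rsum a r H (nqF (s + t * Complex.I) M) = G H s t := by
    intro H hH s hs t ht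
    unfold rsum
    rw [tsum_eq_sum (s := S)]
    · simp only [hG, rowc_nqF]
    · intro i hi
      rw [rowc_nqF]
      have := hS i hi ((s : ℂ) + t * Complex.I) (by simpa using hs) (by simpa using ht)
      rcases hH with rfl | rfl | rfl | rfl
      · rw [this.1, mul_zero]
      · rw [this.2.1, mul_zero]
      · rw [this.2.2.1, mul_zero]
      · rw [this.2.2.2, mul_zero]
  have hcont : ∀ H : ℂ × ℂ → ℂ, Continuous H → (∀ t, Continuous fun s => G H s t) ∧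
      (∀ s, Continuous fun t => G H s t) := by
    intro H hH
    constructor
    · intro t
      refine continuous_finsetSum _ fun i _ => continuous_const.mul (hH.comp ?_)
      exact (continuous_nq _).comp (by fun_prop)
    · intro s
      refine continuous_finsetSum _ fun i _ => continuous_const.mul (hH.comp ?_)
      exact (continuous_nq _).comp (by fun_prop)
  have key := sob2 (h := G F) (h1 := G F1) (h2 := G F2) (h12 := G F12)
    (fun s t => HasDerivAt.fun_sum fun i _ => (deriv_re_of hF.d1 _ s t).const_mul _)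
    (fun s t => HasDerivAt.fun_sum fun i _ => (deriv_im_of hF.d2 _ s t).const_mul _)
    (fun s t => HasDerivAt.fun_sum fun i _ => (deriv_im_of hF.d12 _ s t).const_mul _)
    (hcont F1 hF.c1).1 (hcont F2 hF.c2).2 (hcont F12 hF.c12).2
  have h0 : rsum a r F M = G F 0 0 := by
    have := hfin F (by simp) 0 (by simp) 0 (by simp)
    simpa using this
  rw [h0]
  refine key.trans (le_of_eq ?_)
  congr 1
  refine setLIntegral_congr_fun measurableSet_Icc fun s hs => ?_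
  refine setLIntegral_congr_fun measurableSet_Icc fun t ht => ?_
  rw [hfin F (by simp) s hs t ht, hfin F1 (by simp) s hs t ht, hfin F2 (by simp) s hs t ht,
    hfin F12 (by simp) s hs t ht]

end Crest.Agent.R012.Trace384
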