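import Crest.Agent.R012.Four_813
import Crest.Agent.R012.Trace_384

/-!
# Row 12 (M-R, H3): the dilation trace and the level-`p` limit
-/

set_option autoImplicit false

noncomputable section

open MeasureTheory Set Filter
open scoped ENNReal Topology

namespace Crest.Agent.R012.ResLim61

open Crest.Agent.R012 Eis StripCo813 Four813

/-! ### Radial integrals over an annulus -/

lemma lint_ann (g : ℝ → ℝ≥0∞) (hg : Measurable g) :
    ∫⁻ κ in Icc (1:ℝ) 2, g κ ≤ ∫⁻ e in ann 1 2, g (‖e‖ ^ 2) := by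
  have h1 : (fun r : ℝ => r ^ 2) '' Icc 1 (Real.sqrt 2) = Icc (1:ℝ) 2 := by
    ext y
    constructor
    · rintro ⟨r, ⟨h1, h2⟩, rfl⟩
      refine ⟨by nlinarith, ?_⟩
      have h0 : 0 ≤ r := by linarith
      calc r ^ 2 ≤ (Real.sqrt 2) ^ 2 := pow_le_pow_left₀ h0 h2 2
        _ = 2 := Real.sq_sqrt (by norm_num)
    · rintro ⟨h1, h2⟩
      refine ⟨Real.sqrt y, ⟨?_, Real.sqrt_le_sqrt h2⟩, Real.sq_sqrt (by linarith)⟩
      rw [← Real.sqrt_one]; exact Real.sqrt_le_sqrt h1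
  have hinj : InjOn (fun r : ℝ => r ^ 2) (Icc 1 (Real.sqrt 2)) := by
    intro x hx y hy hxy
    have hx0 : 0 ≤ x := by linarith [hx.1]
    have hy0 : 0 ≤ y := by linarith [hy.1]
    exact (pow_left_inj₀ hx0 hy0 (by norm_num)).mp hxy
  have h2 := lintegral_image_eq_lintegral_abs_deriv_mul (s := Icc 1 (Real.sqrt 2))
    (f := fun r : ℝ => r ^ 2) (f' := fun r => 2 * r) measurableSet_Icc
    (fun x _ => by simpa using (hasDerivAt_pow 2 x).hasDerivWithinAt) hinj g
  rw [h1] at h2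
  rw [h2]
  rw [← lintegral_indicator (measurableSet_ann 1 2), ← Complex.lintegral_comp_polarCoord_symm,
    polarCoord_target, ← lintegral_indicator (measurableSet_Ioi.prod measurableSet_Ioo)]
  have hm : Measurable (fun p : ℝ × ℝ => (Ioi (0:ℝ) ×ˢ Ioo (-Real.pi) Real.pi).indicator
      (fun p : ℝ × ℝ => ENNReal.ofReal p.1 • (ann 1 2).indicator (fun e : ℂ => g (‖e‖ ^ 2))
        (Complex.polarCoord.symm p)) p) := by
    refine Measurable.indicator ?_ (measurableSet_Ioi.prod measurableSet_Ioo)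
    have hc : Measurable (fun p : ℝ × ℝ => Complex.polarCoord.symm p) := by
      have : (fun p : ℝ × ℝ => Complex.polarCoord.symm p)
          = fun p : ℝ × ℝ => (p.1 : ℂ) * (Real.cos p.2 + Real.sin p.2 * Complex.I) := by
        funext p; exact Complex.polarCoord_symm_apply p
      rw [this]
      fun_prop
    have h4 : Measurable ((ann 1 2).indicator (fun e : ℂ => g (‖e‖ ^ 2))) :=
      (hg.comp (by fun_prop)).indicator (measurableSet_ann 1 2)
    exact (ENNReal.measurable_ofReal.comp measurable_fst).mul (h4.comp hc)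
  rw [show (volume : Measure (ℝ × ℝ)) = volume.prod volume from rfl, lintegral_prod _ hm.aemeasurable]
  rw [← lintegral_indicator measurableSet_Icc]
  refine lintegral_mono fun r => ?_
  by_cases hr : r ∈ Icc 1 (Real.sqrt 2)
  · rw [indicator_of_mem hr]
    have hr0 : 0 < r := by linarith [hr.1]
    have hs2 : Real.sqrt 2 ≤ 2 := by
      rw [Real.sqrt_le_left (by norm_num)]; norm_num
    have h3 : ∀ θ ∈ Ioo (-Real.pi) Real.pi, (Ioi (0:ℝ) ×ˢ Ioo (-Real.pi) Real.pi).indicator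
        (fun p : ℝ × ℝ => ENNReal.ofReal p.1 • (ann 1 2).indicator (fun e : ℂ => g (‖e‖ ^ 2))
        (Complex.polarCoord.symm p)) (r, θ) = ENNReal.ofReal r * g (r ^ 2) := by
      intro θ hθ
      have hmem : (r, θ) ∈ (Ioi (0:ℝ) ×ˢ Ioo (-Real.pi) Real.pi) := ⟨hr0, hθ⟩
      have hn : ‖Complex.polarCoord.symm (r, θ)‖ = r := by
        rw [Complex.norm_polarCoord_symm, abs_of_pos hr0]
      have hann : Complex.polarCoord.symm (r, θ) ∈ ann 1 2 := by
        constructor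
        · rw [hn]; exact hr.1
        · rw [hn]; exact hr.2.trans hs2
      rw [indicator_of_mem hmem, indicator_of_mem hann, hn, smul_eq_mul]
    calc ENNReal.ofReal |2 * r| * g (r ^ 2)
        = ENNReal.ofReal r * g (r ^ 2) * ENNReal.ofReal 2 := by
          rw [abs_of_pos (by positivity), ENNReal.ofReal_mul (by norm_num)]; ring
      _ ≤ ENNReal.ofReal r * g (r ^ 2) * volume (Ioo (-Real.pi) Real.pi) := by
          gcongr
          rw [Real.volume_Ioo]
          exact ENNReal.ofReal_le_ofReal (by linarith [Real.pi_gt_three])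
      _ = ∫⁻ θ in Ioo (-Real.pi) Real.pi, ENNReal.ofReal r * g (r ^ 2) := by
          rw [setLIntegral_const]
      _ = ∫⁻ θ in Ioo (-Real.pi) Real.pi, (Ioi (0:ℝ) ×ˢ Ioo (-Real.pi) Real.pi).indicator
        (fun p : ℝ × ℝ => ENNReal.ofReal p.1 • (ann 1 2).indicator (fun e : ℂ => g (‖e‖ ^ 2))
        (Complex.polarCoord.symm p)) (r, θ) := by
          refine (setLIntegral_congr_fun measurableSet_Ioo fun θ hθ => ?_).symm
          exact h3 θ hθ
      _ ≤ _ := setLIntegral_le_lintegral _ _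
  · rw [indicator_of_notMem hr]; exact bot_le

/-! ### The dilation trace -/

/-- `w` is `C¹` with derivative `w'`, and vanishes outside `[a, b]`, `a > 0`. -/
structure WC (w w' : ℝ → ℂ) (a b : ℝ) : Prop where
  apos : 0 < a
  ab : a ≤ b
  der : ∀ x, HasDerivAt w (w' x) x
  cont : Continuous w'
  lo : ∀ x, x < a → w x = 0
  hi : ∀ x, b < x → w x = 0

lemma WC.continuous {w w' : ℝ → ℂ} {a b : ℝ} (h : WC w w' a b) : Continuous w :=
  continuous_iff_continuousAt.mpr fun x => (h.der x).continuousAt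

lemma WC.hi' {w w' : ℝ → ℂ} {a b : ℝ} (h : WC w w' a b) {x : ℝ} (hx : b < x) : w' x = 0 := by
  have h1 : HasDerivAt (fun _ : ℝ => (0 : ℂ)) (w' x) x := by
    refine (h.der x).congr_of_eventuallyEq ?_
    filter_upwards [lt_mem_nhds hx] with y hy
    exact (h.hi y hy).symm
  exact h1.unique (hasDerivAt_const x 0)

/-- the function `x w'(x)`. -/
def xd (w' : ℝ → ℂ) : ℝ → ℂ := fun x => (x : ℂ) * w' x

open Classical in
/-- `Σ ψ(d) conj g(u,d) w(κ N(d)/X)`. -/
def SgR (ψ : Eis → ℂ) (w : ℝ → ℂ) (u : Eis) (X κ : ℝ) : ℂ :=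
  ∑' d : Eis, if IsPrim d then ψ d * (starRingEnd ℂ) (gs u d) * w (κ * nm d / X) else 0

/-- radial weight. -/
def rad (w : ℝ → ℂ) (X : ℝ) : ℂ → ℂ := fun z => w (‖z‖ ^ 2 / X)

lemma Sg_rad (ψ : Eis → ℂ) (w : ℝ → ℂ) (u : Eis) (X : ℝ) (e : ℂ) :
    Sg ψ (rad w X) u e = SgR ψ w u X (‖e‖ ^ 2) := by
  unfold Sg SgR rad
  refine tsum_congr fun d => ?_
  have : ‖toC d * e‖ ^ 2 / X = ‖e‖ ^ 2 * nm d / X := by
    rw [norm_mul, mul_pow, norm_toC_sq]; ring
  rw [this]

/-- the finite version. -/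
def Fs (ψ : Eis → ℂ) (w : ℝ → ℂ) (u : Eis) (X : ℝ) (N : ℕ) (κ : ℝ) : ℂ :=
  ∑ d ∈ primBall N, ψ d * (starRingEnd ℂ) (gs u d) * w (κ * nm d / X)

lemma SgR_eq (ψ : Eis → ℂ) {w : ℝ → ℂ} {b : ℝ} (hw : ∀ x, b < x → w x = 0) (u : Eis) {X : ℝ}
    (hX : 0 < X) {κ : ℝ} (hκ : 1 ≤ κ) : SgR ψ w u X κ = Fs ψ w u X ⌊b * X⌋₊ κ := by
  classical
  unfold SgR Fs
  rw [tsum_eq_sum (s := primBall ⌊b * X⌋₊)]
  · refine Finset.sum_congr rfl fun d hd => ?_
    rw [if_pos (mem_primBall.mp hd).2]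
  · intro d hd
    by_cases hp : IsPrim d
    · rw [if_pos hp]
      have h1 : ⌊b * X⌋₊ < nm d := by
        by_contra h
        exact hd (mem_primBall.mpr ⟨not_lt.mp h, hp⟩)
      have h2 : b * X < nm d := Nat.lt_of_floor_lt h1
      rw [hw, mul_zero]
      rw [lt_div_iff₀ hX]
      have h3 : (0 : ℝ) ≤ nm d := Nat.cast_nonneg _
      nlinarith
    · rw [if_neg hp]

lemma dil_trace {w w' : ℝ → ℂ} {a b : ℝ} (h : WC w w' a b) (ψ : Eis → ℂ) (u : Eis) {X : ℝ}
    (hX : 0 < X) :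
    ‖SgR ψ w u X 1‖ₑ ^ 2 ≤ 2 * ∫⁻ e in ann 1 2,
      (‖Sg ψ (rad w X) u e‖ₑ ^ 2 + ‖Sg ψ (rad (xd w') X) u e‖ₑ ^ 2) := by
  set N := ⌊b * X⌋₊ with hN
  have hb' : ∀ x, b < x → xd w' x = 0 := fun x hx => by simp [xd, h.hi' hx]
  set f : ℝ → ℂ := fun s => Fs ψ w u X N (1 + s) with hf
  set f' : ℝ → ℂ := fun s => ∑ d ∈ primBall N, ψ d * (starRingEnd ℂ) (gs u d) *
    (w' ((1 + s) * nm d / X) * ((nm d / X : ℝ) : ℂ)) with hf'
  have hder : ∀ s, HasDerivAt f (f' s) s := by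
    intro s
    simp only [hf, hf', Fs]
    refine HasDerivAt.fun_sum fun d _ => ?_
    refine HasDerivAt.const_mul _ ?_
    have h1 : HasDerivAt (fun s : ℝ => (1 + s) * nm d / X) (nm d / X) s := by
      have := (((hasDerivAt_id s).const_add 1).mul_const (nm d : ℝ)).div_const X
      simpa using this
    have h2 := (h.der ((1 + s) * nm d / X)).scomp s h1
    refine h2.congr_deriv ?_
    rw [Complex.real_smul]; ring
  have hc' : Continuous f' := by
    simp only [hf']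
    have := h.cont
    fun_prop
  have h0 := Trace384.sob1 hder hc'
  have e0 : f 0 = SgR ψ w u X 1 := by
    rw [SgR_eq ψ h.hi u hX le_rfl, ← hN]; simp [hf]
  rw [e0] at h0
  refine h0.trans ?_
  gcongr 2 * ?_
  set g : ℝ → ℝ≥0∞ := fun κ => ‖Fs ψ w u X N κ‖ₑ ^ 2 + ‖Fs ψ (xd w') u X N κ‖ₑ ^ 2 with hg
  have hgm : Measurable g := by
    have c1 : Continuous fun κ => Fs ψ w u X N κ := by
      unfold Fs
      have := h.continuous
      fun_prop
    have c2 : Continuous fun κ => Fs ψ (xd w') u X N κ := by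
      unfold Fs xd
      have := h.cont
      fun_prop
    exact ((c1.measurable.enorm).pow_const 2).add ((c2.measurable.enorm).pow_const 2)
  have step1 : ∫⁻ s in Icc (0:ℝ) 1, (‖f s‖ₑ ^ 2 + ‖f' s‖ₑ ^ 2) ≤ ∫⁻ s in Icc (0:ℝ) 1, g (1 + s) := by
    refine setLIntegral_mono (hgm.comp (by fun_prop)) fun s hs => ?_
    simp only [hg]
    gcongr ?_ + ?_ ^ 2
    · exact le_rfl
    · have e1 : Fs ψ (xd w') u X N (1 + s) = ((1 + s : ℝ) : ℂ) * f' s := by
        simp only [Fs, hf', xd]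
        rw [Finset.mul_sum]
        refine Finset.sum_congr rfl fun d _ => ?_
        push_cast; ring
      rw [e1, enorm_mul]
      have h1 : (1 : ℝ≥0∞) ≤ ‖((1 + s : ℝ) : ℂ)‖ₑ := by
        rw [← ofReal_norm, Complex.norm_real, Real.norm_of_nonneg (by linarith [hs.1])]
        exact ENNReal.one_le_ofReal.mpr (by linarith [hs.1])
      exact le_mul_of_one_le_left bot_le h1
  refine step1.trans ?_
  have step2 : ∫⁻ s in Icc (0:ℝ) 1, g (1 + s) = ∫⁻ κ in Icc (1:ℝ) 2, g κ := by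
    have := (measurePreserving_add_left (volume : Measure ℝ) 1).setLIntegral_comp_preimage
      (measurableSet_Icc (a := (1:ℝ)) (b := 2)) hgm
    rw [← this]
    congr 2
    ext x
    simp only [mem_preimage, mem_Icc]
    constructor
    · rintro ⟨h1, h2⟩; exact ⟨by linarith, by linarith⟩
    · rintro ⟨h1, h2⟩; exact ⟨by linarith, by linarith⟩
  rw [step2]
  refine (lint_ann g hgm).trans (le_of_eq ?_)
  refine setLIntegral_congr_fun (measurableSet_ann 1 2) fun e he => ?_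
  have h1 : (1 : ℝ) ≤ ‖e‖ ^ 2 := one_le_pow₀ he.1
  simp only [hg, Sg_rad]
  rw [SgR_eq ψ h.hi u hX h1, SgR_eq ψ hb' u hX h1]

end Crest.Agent.R012.ResLim61
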