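import Crest.Agent.R012.Sign_51

/-!
# Row 12, part (Sg): the Fourier transform of `(1+|t|²)^{-4/3}`

`kernel_eq : y^(2/3) ∫_ℂ (1+|t|²)^(-4/3) eC(-(ξ y) t) dt = (π/Γ(4/3)) Kf |ξ| y`.
-/

set_option autoImplicit false
set_option linter.unusedVariables false

noncomputable section

open Real MeasureTheory Set

namespace Crest.Agent.R012.Sg51

open Eis

/-- Gaussian integral on `ℂ` with the character `eC`. -/
lemma gauss_eC {u : ℝ} (hu : 0 < u) (ξ : ℂ) :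
    ∫ t : ℂ, ((exp (-(u * ‖t‖ ^ 2)) : ℝ) : ℂ) * eC (-(ξ * t)) =
      ((π / u * exp (-(4 * π ^ 2 * ‖ξ‖ ^ 2 / u)) : ℝ) : ℂ) := by
  have h := GaussianFourier.integral_cexp_neg_mul_sq_norm_add (V := ℂ) (b := (u : ℂ))
    (by simpa using hu) (-(4 * π : ℝ) * Complex.I) ((starRingEnd ℂ) ξ)
  have e : (fun t : ℂ => ((exp (-(u * ‖t‖ ^ 2)) : ℝ) : ℂ) * eC (-(ξ * t))) =
      fun v : ℂ => Complex.exp (-(u : ℂ) * (‖v‖ : ℂ) ^ 2 +
        (-(4 * π : ℝ) * Complex.I) * ((inner ℝ ((starRingEnd ℂ) ξ) v : ℝ) : ℂ)) := by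
    funext t
    unfold eC
    rw [Complex.ofReal_exp, ← Complex.exp_add]
    congr 1
    have h1 : (inner ℝ ((starRingEnd ℂ) ξ) t : ℝ) = (ξ * t).re := by
      rw [Complex.inner]
      simp [mul_comm]
    have h2 : -(ξ * t) + (starRingEnd ℂ) (-(ξ * t)) = ((-(2 * (ξ * t).re) : ℝ) : ℂ) := by
      rw [Complex.add_conj]
      simp
      ring
    rw [h1, h2]
    push_cast
    ring
  rw [e, h]
  have hfr : Module.finrank ℝ ℂ = 2 := Complex.finrank_real_complex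
  rw [hfr]
  push_cast
  have h3 : (((2 : ℂ)) / 2 : ℂ) = 1 := by norm_num
  rw [h3, Complex.cpow_one]
  congr 2
  rw [Complex.norm_conj]
  have hu' : (u : ℂ) ≠ 0 := by exact_mod_cast hu.ne'
  field_simp
  ring_nf
  simp

/-- `J ξ = ∫_ℂ (1+|t|²)^{-4/3} eC(-ξ t) dt`. -/
def Jf (ξ : ℂ) : ℂ := ∫ t : ℂ, (((1 + ‖t‖ ^ 2) ^ (-(4 : ℝ) / 3) : ℝ) : ℂ) * eC (-(ξ * t))

lemma gamma_rep (s : ℝ) (hs : 0 < s) :
    s ^ (-(4 : ℝ) / 3) = (Gamma (4 / 3))⁻¹ * ∫ u in Ioi (0 : ℝ), u ^ ((1 : ℝ) / 3) * exp (-(s * u)) := by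
  have h := integral_rpow_mul_exp_neg_mul_Ioi (a := 4 / 3) (r := s) (by norm_num) hs
  have e : (4 / 3 - 1 : ℝ) = 1 / 3 := by norm_num
  rw [e] at h
  rw [h]
  have hG : Gamma (4 / 3) ≠ 0 := (Gamma_pos_of_pos (by norm_num)).ne'
  field_simp
  rw [one_div, inv_rpow hs.le, ← rpow_neg hs.le]

lemma norm_eC (z : ℂ) : ‖eC z‖ = 1 := by
  unfold eC
  rw [Complex.norm_exp]
  have : (2 * (Real.pi : ℂ) * Complex.I * (z + (starRingEnd ℂ) z)).re = 0 := by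
    rw [Complex.add_conj]
    simp
  rw [this, Real.exp_zero]

lemma continuous_eC : Continuous eC := by
  unfold eC; fun_prop

lemma integrable_w : Integrable (fun t : ℂ => ((1 : ℝ) + ‖t‖ ^ 2) ^ (-(4 : ℝ) / 3)) := by
  have h := integrable_rpow_neg_one_add_norm_sq (E := ℂ) (r := 8 / 3) (μ := volume)
    (by rw [Complex.finrank_real_complex]; norm_num)
  have e : (-(8 / 3 : ℝ) / 2) = -(4 : ℝ) / 3 := by norm_num
  rw [e] at h
  exact h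

/-- the two-variable integrand -/
def f2 (ξ : ℂ) (p : ℂ × ℝ) : ℂ :=
  ((p.2 ^ ((1 : ℝ) / 3) * exp (-((1 + ‖p.1‖ ^ 2) * p.2)) : ℝ) : ℂ) * eC (-(ξ * p.1))

lemma int_u (s : ℝ) (hs : 0 < s) :
    IntegrableOn (fun u : ℝ => u ^ ((1 : ℝ) / 3) * exp (-(s * u))) (Ioi 0) := by
  have := integrableOn_rpow_mul_exp_neg_mul_rpow (p := 1) (s := (1 : ℝ) / 3) (b := s)
    (by norm_num) (by norm_num) hs
  simpa using this

lemma integrable_f2 (ξ : ℂ) : Integrable (f2 ξ) (volume.prod (volume.restrict (Ioi (0 : ℝ)))) := by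
  have hm : AEStronglyMeasurable (f2 ξ) (volume.prod (volume.restrict (Ioi (0 : ℝ)))) := by
    apply Measurable.aestronglyMeasurable
    unfold f2
    apply Measurable.mul
    · apply Complex.measurable_ofReal.comp
      fun_prop
    · exact continuous_eC.measurable.comp (by fun_prop)
  rw [integrable_prod_iff hm]
  constructor
  · apply Filter.Eventually.of_forall
    intro t
    have h := int_u (1 + ‖t‖ ^ 2) (by positivity)
    exact (h.ofReal (𝕜 := ℂ)).mul_const (eC (-(ξ * t)))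
  · have e : (fun t : ℂ => ∫ u in Ioi (0 : ℝ), ‖f2 ξ (t, u)‖) =
        fun t : ℂ => Gamma (4 / 3) * ((1 : ℝ) + ‖t‖ ^ 2) ^ (-(4 : ℝ) / 3) := by
      funext t
      have hs : (0 : ℝ) < 1 + ‖t‖ ^ 2 := by positivity
      rw [gamma_rep _ hs, ← mul_assoc, mul_inv_cancel₀ (Gamma_pos_of_pos (by norm_num)).ne',
        one_mul]
      apply setIntegral_congr_fun measurableSet_Ioi
      intro u hu
      have hu0 : (0 : ℝ) < u := hu
      simp only [f2]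
      rw [norm_mul, norm_eC, mul_one, Complex.norm_real, Real.norm_of_nonneg]
      have := rpow_nonneg hu0.le ((1 : ℝ) / 3)
      positivity
    rw [e]
    exact integrable_w.const_mul _

lemma Jf_eq (ξ : ℂ) :
    Jf ξ = ((π / Gamma (4 / 3) * ∫ u in Ioi (0 : ℝ), u ^ (-(2 : ℝ) / 3) *
      exp (-(u + 4 * π ^ 2 * ‖ξ‖ ^ 2 / u)) : ℝ) : ℂ) := by
  have hG : Gamma (4 / 3) ≠ 0 := (Gamma_pos_of_pos (by norm_num)).ne'
  have h1 : Jf ξ = ((Gamma (4 / 3))⁻¹ : ℝ) * ∫ t : ℂ, ∫ u in Ioi (0 : ℝ), f2 ξ (t, u) := by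
    unfold Jf
    rw [← integral_const_mul]
    congr 1
    funext t
    have hs : (0 : ℝ) < 1 + ‖t‖ ^ 2 := by positivity
    rw [gamma_rep _ hs]
    simp only [f2]
    rw [integral_mul_const, integral_complex_ofReal]
    push_cast
    ring
  have hsw : ∫ t : ℂ, ∫ u in Ioi (0 : ℝ), f2 ξ (t, u) =
      ∫ u in Ioi (0 : ℝ), ∫ t : ℂ, f2 ξ (t, u) :=
    integral_integral_swap (f := fun (t : ℂ) (u : ℝ) => f2 ξ (t, u)) (integrable_f2 ξ)
  rw [h1, hsw]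
  have h2 : ∫ u in Ioi (0 : ℝ), ∫ t : ℂ, f2 ξ (t, u) =
      ∫ u in Ioi (0 : ℝ), ((π * (u ^ (-(2 : ℝ) / 3) *
        exp (-(u + 4 * π ^ 2 * ‖ξ‖ ^ 2 / u))) : ℝ) : ℂ) := by
    apply setIntegral_congr_fun measurableSet_Ioi
    intro u hu
    have hu0 : (0 : ℝ) < u := hu
    simp only [f2]
    have e : (fun t : ℂ => ((u ^ ((1 : ℝ) / 3) * exp (-((1 + ‖t‖ ^ 2) * u)) : ℝ) : ℂ) *
        eC (-(ξ * t))) = fun t : ℂ => ((u ^ ((1 : ℝ) / 3) * exp (-u) : ℝ) : ℂ) *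
          (((exp (-(u * ‖t‖ ^ 2)) : ℝ) : ℂ) * eC (-(ξ * t))) := by
      funext t
      have : exp (-((1 + ‖t‖ ^ 2) * u)) = exp (-u) * exp (-(u * ‖t‖ ^ 2)) := by
        rw [← exp_add]; congr 1; ring
      rw [this]
      push_cast
      ring
    rw [e, integral_const_mul, gauss_eC hu0]
    rw [← Complex.ofReal_mul]
    congr 1
    have h3 : u ^ ((1 : ℝ) / 3) / u = u ^ (-(2 : ℝ) / 3) := by
      rw [← rpow_sub_one hu0.ne']; norm_num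
    have h4 : exp (-(u + 4 * π ^ 2 * ‖ξ‖ ^ 2 / u)) =
        exp (-u) * exp (-(4 * π ^ 2 * ‖ξ‖ ^ 2 / u)) := by
      rw [← exp_add]; congr 1; ring
    rw [← h3, h4]
    ring
  rw [h2, integral_complex_ofReal, integral_const_mul, ← Complex.ofReal_mul]
  congr 1
  field_simp

/-- **Kernel lemma.** -/
theorem kernel_eq {y : ℝ} (hy : 0 < y) {ξ : ℂ} (hξ : ξ ≠ 0) :
    ((y ^ ((2 : ℝ) / 3) : ℝ) : ℂ) * Jf (ξ * (y : ℂ)) =
      ((π / Gamma (4 / 3) * Kf ‖ξ‖ y : ℝ) : ℂ) := by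
  have ha : 0 < ‖ξ‖ := norm_pos_iff.mpr hξ
  set a := ‖ξ‖ with hadef
  rw [Jf_eq, norm_mul, Complex.norm_real, Real.norm_of_nonneg hy.le, ← hadef,
    ← Complex.ofReal_mul]
  congr 1
  have hs : ∫ u in Ioi (0 : ℝ), u ^ (-(2 : ℝ) / 3) * exp (-(u + 4 * π ^ 2 * (a * y) ^ 2 / u)) =
      (a * y) * ∫ w in Ioi (0 : ℝ), ((a * y) * w) ^ (-(2 : ℝ) / 3) *
        exp (-((a * y) * w + 4 * π ^ 2 * (a * y) ^ 2 / ((a * y) * w))) := by
    have h := integral_comp_mul_left_Ioi (fun u : ℝ => u ^ (-(2 : ℝ) / 3) *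
      exp (-(u + 4 * π ^ 2 * (a * y) ^ 2 / u))) 0 (b := a * y) (by positivity)
    rw [mul_zero] at h
    rw [h, smul_eq_mul, ← mul_assoc, mul_inv_cancel₀ (by positivity), one_mul]
  rw [hs]
  unfold Kf
  have h5 : ∫ w in Ioi (0 : ℝ), ((a * y) * w) ^ (-(2 : ℝ) / 3) *
        exp (-((a * y) * w + 4 * π ^ 2 * (a * y) ^ 2 / ((a * y) * w))) =
      (a * y) ^ (-(2 : ℝ) / 3) * y⁻¹ * ∫ w in Ioi (0 : ℝ), w ^ (-(2 : ℝ) / 3) *
        (y * exp (-(a * (w + 4 * π ^ 2 / w) * y))) := by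
    rw [← integral_const_mul]
    apply setIntegral_congr_fun measurableSet_Ioi
    intro w hw
    have hw0 : (0 : ℝ) < w := hw
    simp only
    rw [mul_rpow (by positivity) hw0.le]
    have e : -((a * y) * w + 4 * π ^ 2 * (a * y) ^ 2 / ((a * y) * w)) =
        -(a * (w + 4 * π ^ 2 / w) * y) := by
      field_simp
    rw [e]
    field_simp
  rw [h5]
  have h6 : y ^ ((2 : ℝ) / 3) * ((a * y) * ((a * y) ^ (-(2 : ℝ) / 3) * y⁻¹)) =
      a ^ ((1 : ℝ) / 3) := by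
    rw [mul_rpow ha.le hy.le]
    have h7 : a * a ^ (-(2 : ℝ) / 3) = a ^ ((1 : ℝ) / 3) := by
      rw [← rpow_one_add' ha.le (by norm_num)]; norm_num
    have h8 : y ^ ((2 : ℝ) / 3) * y ^ (-(2 : ℝ) / 3) = 1 := by
      rw [← rpow_add hy]; norm_num
    calc y ^ ((2 : ℝ) / 3) * ((a * y) * ((a ^ (-(2 : ℝ) / 3) * y ^ (-(2 : ℝ) / 3)) * y⁻¹))
        = (a * a ^ (-(2 : ℝ) / 3)) * (y ^ ((2 : ℝ) / 3) * y ^ (-(2 : ℝ) / 3)) * (y * y⁻¹) := by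
          ring
      _ = _ := by rw [h7, h8, mul_inv_cancel₀ hy.ne']; ring
  calc _ = π / Gamma (4 / 3) * ((y ^ ((2 : ℝ) / 3) *
        ((a * y) * ((a * y) ^ (-(2 : ℝ) / 3) * y⁻¹))) * ∫ w in Ioi (0 : ℝ), w ^ (-(2 : ℝ) / 3) *
        (y * exp (-(a * (w + 4 * π ^ 2 / w) * y)))) := by ring
    _ = _ := by rw [h6]

/-- **Sign of `ρ(1)`, form with the Fourier integrals.**  `ξ r` is any complex number with
`|ξ r| = |r|/(3√3)` (e.g. `r / λ³`). -/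
theorem rho_one_pos_J (ρ : Eis → ℂ) (ξ : Eis → ℂ) (C0 A : ℝ) (hC0 : 0 < C0) (hA : 0 < A)
    (hξ : ∀ r : Eis, ‖ξ r‖ = ‖toC r‖ / (3 * Real.sqrt 3))
    (hle : ∀ r : Eis, r ≠ 0 → ‖ρ r‖ ≤ ‖ρ 1‖)
    (hvan : ∀ r : Eis, ¬ (3 ∣ r.im) → ρ r = 0)
    (hneg : ρ (-1) = ρ 1) (hreal : (ρ 1).im = 0)
    (hid : ((C0 * (y0 ^ ((2 : ℝ) / 3) - y0 ^ (-(2 : ℝ) / 3)) : ℝ) : ℂ) =
      ∑' r : Eis, (if r = 0 then 0 else ρ r * ((A : ℂ) *
        (((y0 ^ (-(2 : ℝ) / 3) : ℝ) : ℂ) * Jf (ξ r * ((y0⁻¹ : ℝ) : ℂ)) -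
          ((y0 ^ ((2 : ℝ) / 3) : ℝ) : ℂ) * Jf (ξ r * ((y0 : ℝ) : ℂ)))))) :
    0 < (ρ 1).re := by
  have hG : 0 < Gamma (4 / 3) := Gamma_pos_of_pos (by norm_num)
  have hy : 0 < y0 := lt_trans one_pos y0_gt
  apply rho_one_pos ρ C0 (A * (π / Gamma (4 / 3))) hC0 (by positivity) hle hvan hneg hreal
  rw [hid]
  apply tsum_congr
  intro r
  split_ifs with hr
  · subst hr
    have : ‖toC (0 : Eis)‖ / (3 * Real.sqrt 3) = 0 := by simp
    rw [this, Bf_zero]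
    simp
  · have hne : ξ r ≠ 0 := by
      intro h0
      have h1 := hξ r
      rw [h0, norm_zero] at h1
      have h2 : ‖toC r‖ ≠ 0 := by
        rw [norm_ne_zero_iff]
        simpa using hr
      have h3 : 0 < ‖toC r‖ / (3 * Real.sqrt 3) := by positivity
      linarith
    have e1 : y0 ^ (-(2 : ℝ) / 3) = (y0⁻¹) ^ ((2 : ℝ) / 3) := by
      rw [inv_rpow hy.le, ← rpow_neg hy.le]; norm_num
    rw [e1, kernel_eq (inv_pos.mpr hy) hne, kernel_eq hy hne, hξ r]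
    unfold Bf
    push_cast
    ring

end Crest.Agent.R012.Sg51
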