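import Crest.Agent.R012.SpecM_49
import Crest.Agent.R012.CharSum_852
import Crest.Agent.R012.GaussInst_880
import Crest.Agent.R012.Prime_666
import Crest.Agent.R012.SgKer_51

/-!
# Row 12, part (Sg): bounds and vanishing for all residues from the 18 values `ρ(u λ^j)`, `j ≤ 2`

`rho_bd` : `‖ρ r‖ ≤ ‖ρ 1‖` for all `r ≠ 0` and `ρ r = 0` unless `3 ∣ r.im`.
-/

set_option autoImplicit false
set_option linter.unusedVariables false

noncomputable section

namespace Crest.Agent.R012.Sg51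

open Eis M49

lemma norm_gs_div {p h : Eis} (hp : Prime p) (hpp : IsPrim p) (hh : ¬ p ∣ h) :
    ‖gs h p / ((Real.sqrt (nm p) : ℝ) : ℂ)‖ = 1 := by
  have hc : IsCoprime h p := ((hp.irreducible.coprime_iff_not_dvd).mpr hh).symm
  rw [norm_div, Gauss880.norm_gs Gauss880.syG hpp hp.irreducible.squarefree hc,
    Complex.norm_real, Real.norm_of_nonneg (Real.sqrt_nonneg _)]
  apply div_self
  have h1 : 0 < nm p := nm_pos.mpr hp.ne_zero
  have : (0 : ℝ) < nm p := by exact_mod_cast h1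
  exact (Real.sqrt_pos.mpr this).ne'

lemma norm_one_p {ρ : Eis → ℂ} (H : RhoRel ρ) {p h : Eis} (hp : Prime p) (hpp : IsPrim p)
    (hh : ¬ p ∣ h) : ‖ρ (h * p)‖ ≤ ‖ρ h‖ := by
  rw [H.one_p p h hp hpp hh, norm_mul, norm_mul, RCLike.norm_conj, norm_gs_div hp hpp hh, one_mul]
  have h1 : 1 ≤ nm p := nm_pos.mpr hp.ne_zero
  have h1' : (1 : ℝ) ≤ nm p := by exact_mod_cast h1
  have h2 : ‖(((nm p : ℝ) ^ (-(1 : ℝ) / 6) : ℝ) : ℂ)‖ ≤ 1 := by
    rw [Complex.norm_real, Real.norm_of_nonneg (by positivity)]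
    apply Real.rpow_le_one_of_one_le_of_nonpos h1' (by norm_num)
  calc _ ≤ 1 * ‖ρ h‖ := mul_le_mul_of_nonneg_right h2 (norm_nonneg _)
    _ = _ := one_mul _

/-- adding a power of a prime not dividing `h`: norm does not increase. -/
lemma norm_pow_p {ρ : Eis → ℂ} (H : RhoRel ρ) {p h : Eis} (hp : Prime p) (hpp : IsPrim p)
    (hh : ¬ p ∣ h) (e : ℕ) : ‖ρ (h * p ^ e)‖ ≤ ‖ρ h‖ := by
  induction e using Nat.strong_induction_on with
  | _ e ih =>
    rcases lt_or_ge e 3 with h3 | h3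
    · interval_cases e
      · simp
      · simpa using norm_one_p H hp hpp hh
      · rw [H.two_p p h hp hpp hh]; simp
    · obtain ⟨k, rfl⟩ := Nat.exists_eq_add_of_le h3
      have e1 : h * p ^ (3 + k) = (h * p ^ k) * p ^ 3 := by ring
      rw [e1, H.three_p p _ hp hpp]
      exact ih k (by omega)

/-- multiplying by a primary number does not increase the norm of `ρ`, if we start from
`u λ^j`. -/
lemma norm_prim {ρ : Eis → ℂ} (H : RhoRel ρ) (r0 : Eis)
    (hr0 : ∀ p : Eis, Prime p → IsPrim p → ¬ p ∣ r0) :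
    ∀ (n : ℕ) (m : Eis), nm m ≤ n → IsPrim m → ‖ρ (r0 * m)‖ ≤ ‖ρ r0‖ := by
  intro n
  induction n with
  | zero =>
    intro m hm hpm
    exact absurd (nm_eq_zero.mp (Nat.le_zero.mp hm)) hpm.ne_zero
  | succ n ih =>
    intro m hm hpm
    by_cases h1 : m = 1
    · subst h1; simp
    · obtain ⟨p, hp, hpp, hpm'⟩ := Gauss880.exists_prim_prime_dvd hpm h1
      obtain ⟨m', hm', hnd⟩ := (FiniteMultiplicity.of_not_isUnit hp.not_isUnit
        hpm.ne_zero).exists_eq_pow_mul_and_not_dvd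
      set e := multiplicity p m with he
      have he1 : e ≠ 0 := by
        intro h0
        rw [h0, pow_zero, one_mul] at hm'
        rw [hm'] at hpm'
        exact hnd hpm'
      have hm'p : IsPrim m' := by
        rw [hm'] at hpm
        exact hpm.of_mul_left (hpp.pow e)
      have hlt : nm m' ≤ n := by
        have h2 : nm m = nm p ^ e * nm m' := by rw [hm', nm_mul, nm_pow]
        have h3 : 1 < nm p := one_lt_nm_of_prime hp
        have h4 : 0 < nm m' := nm_pos.mpr hm'p.ne_zero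
        have h5 : 2 ≤ nm p ^ e := by
          calc 2 ≤ nm p := h3
            _ = nm p ^ 1 := (pow_one _).symm
            _ ≤ nm p ^ e := Nat.pow_le_pow_right (by omega) (Nat.one_le_iff_ne_zero.mpr he1)
        nlinarith
      have hnd' : ¬ p ∣ r0 * m' := by
        intro h
        rcases hp.dvd_or_dvd h with h | h
        · exact hr0 p hp hpp h
        · exact hnd h
      calc ‖ρ (r0 * m)‖ = ‖ρ ((r0 * m') * p ^ e)‖ := by rw [hm']; congr 2; ring
        _ ≤ ‖ρ (r0 * m')‖ := norm_pow_p H hp hpp hnd' e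
        _ ≤ ‖ρ r0‖ := ih m' hlt hm'p

lemma not_dvd_ulam {p u : Eis} (hp : Prime p) (hpp : IsPrim p) (hu : IsUnit u) (k : ℕ) :
    ¬ p ∣ u * lam ^ k := by
  intro h
  rcases hp.dvd_or_dvd h with h | h
  · exact hp.not_isUnit (isUnit_of_dvd_unit h hu)
  · have h2 := hp.dvd_of_dvd_pow h
    have h3 : Associated p lam := (hp.dvd_prime_iff_associated prime_lam).mp h2
    exact hpp.not_lam_dvd h3.symm.dvd

lemma norm_lam_pow {ρ : Eis → ℂ} (hcube : ∀ r : Eis, ρ (lam ^ 3 * r) = ρ r)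
    (h18 : ∀ u : Eis, IsUnit u → ∀ j : ℕ, j ≤ 2 → ‖ρ (u * lam ^ j)‖ ≤ ‖ρ 1‖) (u : Eis)
    (hu : IsUnit u) (k : ℕ) : ‖ρ (u * lam ^ k)‖ ≤ ‖ρ 1‖ := by
  induction k using Nat.strong_induction_on with
  | _ k ih =>
    rcases lt_or_ge k 3 with h3 | h3
    · exact h18 u hu k (by omega)
    · obtain ⟨i, rfl⟩ := Nat.exists_eq_add_of_le h3
      have e1 : u * lam ^ (3 + i) = lam ^ 3 * (u * lam ^ i) := by ring
      rw [e1, hcube]
      exact ih i (by omega)

/-- **Bounds and vanishing of all residues.** -/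
theorem rho_bd {ρ : Eis → ℂ} (H : RhoRel ρ) (hcube : ∀ r : Eis, ρ (lam ^ 3 * r) = ρ r)
    (h18 : ∀ u : Eis, IsUnit u → ∀ j : ℕ, j ≤ 2 → ‖ρ (u * lam ^ j)‖ ≤ ‖ρ 1‖)
    (h18v : ∀ u : Eis, IsUnit u → ∀ j : ℕ, j ≤ 2 → ¬ 3 ∣ (u * lam ^ j).im →
      ρ (u * lam ^ j) = 0) :
    (∀ r : Eis, r ≠ 0 → ‖ρ r‖ ≤ ‖ρ 1‖) ∧ (∀ r : Eis, ¬ (3 ∣ r.im) → ρ r = 0) := by
  have key : ∀ r : Eis, r ≠ 0 → ∃ (k : ℕ) (u m : Eis), IsUnit u ∧ IsPrim m ∧
      r = (u * lam ^ k) * m := by
    intro r hr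
    obtain ⟨k, u, m, hu, hm, rfl⟩ := CharSum852.exists_decomp hr
    exact ⟨k, u, m, hu, hm, by ring⟩
  constructor
  · intro r hr
    obtain ⟨k, u, m, hu, hm, rfl⟩ := key r hr
    exact (norm_prim H _ (fun p hp hpp => not_dvd_ulam hp hpp hu k) (nm m) m le_rfl hm).trans
      (norm_lam_pow hcube h18 u hu k)
  · intro r hr3
    have hr : r ≠ 0 := by rintro rfl; exact hr3 (by simp)
    obtain ⟨k, u, m, hu, hm, rfl⟩ := key r hr
    have hk : k ≤ 2 := by
      by_contra hc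
      push Not at hc
      apply hr3
      have : (3 : Eis) ∣ (u * lam ^ k) * m := by
        apply Dvd.dvd.mul_right
        apply Dvd.dvd.mul_left
        exact three_dvd_lam_sq.trans (pow_dvd_pow lam (by omega))
      exact (three_dvd_iff.mp this).2
    have him : ¬ 3 ∣ (u * lam ^ k).im := by
      intro h
      apply hr3
      have e : (u * lam ^ k) * m = (u * lam ^ k) + (u * lam ^ k) * (m - 1) := by ring
      have h3 : (3 : Eis) ∣ (u * lam ^ k) * (m - 1) := Dvd.dvd.mul_left hm _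
      have h4 := (three_dvd_iff.mp h3).2
      rw [e]
      simp only [QuadraticAlgebra.im_add]
      exact dvd_add h h4
    have hz := h18v u hu k hk him
    have hle := norm_prim H _ (fun p hp hpp => not_dvd_ulam hp hpp hu k) (nm m) m le_rfl hm
    rw [hz, norm_zero] at hle
    exact norm_le_zero_iff.mp hle

end Crest.Agent.R012.Sg51
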