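import Crest.Agent.R012.RhoOne_777
import Crest.Agent.R012.PhiAs_858

/-!
# Row 12: `MS ρ → RhoRel ρ → RhoOne ρ`

The final assembly of the item MTH/MSg: the inversion identity (`Theta131.hid_of`, helper131), the
limits (`PhiAs858.thAs_of_MS`, helper858), the absolute values (`Rho777`, helper777, helper566) and
the sign criterion (`Sg51.rho_one_pos`).
-/

set_option autoImplicit false

noncomputable section

open Filter Topology

namespace Crest.Agent.R012.Sg51

open Eis M49

lemma eps_eq_one {k : Eis} (hk : 3 ∣ k.im) : Theta131.eps k = 1 := by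
  obtain ⟨b, hb⟩ := hk
  unfold Theta131.eps eC
  have h3 : ((Real.sqrt 3 : ℝ) : ℂ) ≠ 0 := by
    exact_mod_cast (Real.sqrt_pos.mpr (by norm_num : (0 : ℝ) < 3)).ne'
  have h1 : toC k / (3 * Poisson381.s3) + (starRingEnd ℂ) (toC k / (3 * Poisson381.s3)) =
      (b : ℂ) := by
    have h2 : toC k - (starRingEnd ℂ) (toC k) = ((2 * (toC k).im : ℝ) : ℂ) * Complex.I := by
      rw [Complex.sub_conj]
    have h4 : toC k / (3 * Poisson381.s3) + (starRingEnd ℂ) (toC k / (3 * Poisson381.s3)) =
        (toC k - (starRingEnd ℂ) (toC k)) / (3 * (((Real.sqrt 3 : ℝ) : ℂ) * Complex.I)) := by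
      rw [map_div₀, map_mul]
      have e1 : (starRingEnd ℂ) Poisson381.s3 = -Poisson381.s3 := by
        apply Complex.ext <;> simp [Poisson381.s3]
      have e2 : (starRingEnd ℂ) (3 : ℂ) = 3 := by
        have := Complex.conj_ofReal 3
        simpa using this
      have e3 : Poisson381.s3 = ((Real.sqrt 3 : ℝ) : ℂ) * Complex.I := by
        apply Complex.ext <;> simp [Poisson381.s3]
      rw [e1, e2, e3]
      have hI := Complex.I_ne_zero
      field_simp
      ring
    rw [h4, h2, toC_im, hb]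
    have hI := Complex.I_ne_zero
    push_cast
    field_simp
  rw [h1, Complex.exp_eq_one_iff]
  exact ⟨b, by ring⟩

/-- **The sign.** -/
theorem rho_one_re_pos {ρ : Eis → ℂ} (H : MS ρ) (HR : RhoRel ρ) : 0 < (ρ 1).re := by
  obtain ⟨hle, hvan⟩ := Rho777.rho_all H HR
  apply rho_one_pos ρ Theta131.C00 1 Theta131.C00_pos one_pos hle hvan (rho_neg H 1)
    (rho_one_im H)
  rw [Theta131.hid_of (PhiAs858.thAs_of_MS H) (lt_trans one_pos y0_gt)]
  apply tsum_congr
  intro r
  by_cases h3 : 3 ∣ r.im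
  · rw [eps_eq_one h3, one_mul]
  · rw [hvan r h3, mul_zero]

/-- **`RhoOne`** from `MS` and `RhoRel`. -/
theorem rhoOne_of_MS {ρ : Eis → ℂ} (H : MS ρ) (HR : RhoRel ρ) : RhoOne ρ :=
  Rho777.rhoOne_of_pos H HR (rho_one_re_pos H HR)

end Crest.Agent.R012.Sg51
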