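import Crest.Agent.R012.MC_777
import Crest.Agent.R012.RhoOneFin_51

/-!
# Row 12, item MC (final): the inputs of `Sg51.rho_one_pos_MS`, and `RhoOne` from the identity
-/

set_option autoImplicit false

noncomputable section

open Complex Filter Topology

namespace Crest.Agent.R012.Rho777

open Crest.Agent.R012 Crest.Agent.R012.Eis Crest.Agent.R012.MC Crest.Agent.R012.M49

lemma kapR_le_one {r : Eis} (hr : r ≠ 0) : kapR r ≤ 1 := by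
  unfold kapR
  split_ifs
  · have h1 : (1 : ℝ) ≤ nm r := by exact_mod_cast nm_pos.mpr hr
    exact Real.rpow_le_one_of_one_le_of_nonpos h1 (by norm_num)
  · exact zero_le_one

/-- input `h18` of `Sg51.rho_one_pos_MS`. -/
theorem h18 {ρ : Eis → ℂ} (hMS : MS ρ) (hρ : RhoRel ρ) :
    ∀ u : Eis, IsUnit u → ∀ j : ℕ, j ≤ 2 → ‖ρ (u * lam ^ j)‖ ≤ ‖ρ 1‖ := by
  intro u hu j hj
  have h := rho_unit_lam hMS hρ hu hj
  have h1 := norm_rho_one hMS hρ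
  have h2 : ‖ρ (u * lam ^ j)‖ ^ 2 ≤ ‖ρ 1‖ ^ 2 := by
    rw [h, h1]
    exact mul_le_of_le_one_right (sq_nonneg _)
      (kapR_le_one (mul_ne_zero hu.ne_zero (pow_ne_zero _ lam_ne_zero)))
  exact (pow_le_pow_iff_left₀ (norm_nonneg _) (norm_nonneg _) (by norm_num)).mp h2

/-- input `h18v` of `Sg51.rho_one_pos_MS`. -/
theorem h18v {ρ : Eis → ℂ} (hMS : MS ρ) (hρ : RhoRel ρ) :
    ∀ u : Eis, IsUnit u → ∀ j : ℕ, j ≤ 2 → ¬ 3 ∣ (u * lam ^ j).im → ρ (u * lam ^ j) = 0 := by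
  intro u hu j hj h3
  have h := rho_unit_lam hMS hρ hu hj
  unfold kapR at h
  rw [if_neg h3, mul_zero] at h
  exact norm_eq_zero.mp (pow_eq_zero_iff (n := 2) (by norm_num) |>.mp h)

/-- `‖ρ r‖ ≤ ‖ρ 1‖` for `r ≠ 0`, and `ρ r = 0` unless `3 ∣ r.im`. -/
theorem rho_all {ρ : Eis → ℂ} (hMS : MS ρ) (hρ : RhoRel ρ) :
    (∀ r : Eis, r ≠ 0 → ‖ρ r‖ ≤ ‖ρ 1‖) ∧ (∀ r : Eis, ¬ (3 ∣ r.im) → ρ r = 0) :=
  Sg51.rho_bd hρ (Sg51.rho_lam3 hMS) (h18 hMS hρ) (h18v hMS hρ)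

/-- `RhoOne` from positivity of the real part. -/
theorem rhoOne_of_pos {ρ : Eis → ℂ} (hMS : MS ρ) (hρ : RhoRel ρ) (hpos : 0 < (ρ 1).re) :
    RhoOne ρ :=
  Sg51.rhoOne_of hpos (Sg51.rho_one_im hMS) (by rw [norm_rho_one hMS hρ])

/-- `RhoOne` from the identity for the theta coefficients. -/
theorem rhoOne_of_ident {ρ : Eis → ℂ} (hMS : MS ρ) (hρ : RhoRel ρ)
    (ξ : Eis → ℂ) (C0 A : ℝ) (hC0 : 0 < C0) (hA : 0 < A)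
    (hξ : ∀ r : Eis, ‖ξ r‖ = ‖toC r‖ / (3 * Real.sqrt 3))
    (eps : Eis → ℂ) (heps : ∀ k : Eis, 3 ∣ k.im → eps k = 1)
    (hid : ((C0 * (Sg51.y0 ^ ((2 : ℝ) / 3) - Sg51.y0 ^ (-(2 : ℝ) / 3)) : ℝ) : ℂ) =
      ∑' r : Eis, (if r = 0 then 0 else (eps r * ρ r) * ((A : ℂ) *
        (((Sg51.y0 ^ (-(2 : ℝ) / 3) : ℝ) : ℂ) * Sg51.Jf (ξ r * ((Sg51.y0⁻¹ : ℝ) : ℂ)) -
          ((Sg51.y0 ^ ((2 : ℝ) / 3) : ℝ) : ℂ) * Sg51.Jf (ξ r * ((Sg51.y0 : ℝ) : ℂ)))))) :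
    RhoOne ρ :=
  rhoOne_of_pos hMS hρ (Sg51.rho_one_pos_MS hMS hρ (h18 hMS hρ) (h18v hMS hρ) ξ C0 A hC0 hA hξ
    eps heps hid)

end Crest.Agent.R012.Rho777
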