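import Crest.Agent.R012.RhoBd_51

/-!
# Row 12, part (Sg): symmetries of the residues from the mean square theorem `MS ρ`

* `rho_limit`  : `SS 0 0 v h X / X^(5/6) → ρ h · mellin v (5/6)`
* `rho_smul`   : if `SS 0 0 v0 h X = z · SS 0 0 v0 h' X` for all `X ≥ 1` then `ρ h = z ρ h'`
* `rho_neg`, `rho_lam3`, `rho_conj`, `rho_one_real`.
-/

set_option autoImplicit false
set_option linter.unusedVariables false

noncomputable section

open Filter Topology MeasureTheory Set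

namespace Crest.Agent.R012.Sg51

open Eis M49

/-! ### a test weight -/

/-- bump function centred at `2`. -/
def bmp : ContDiffBump (2 : ℝ) := ⟨1 / 2, 1, by norm_num, by norm_num⟩

/-- real test weight, supported in `[1,3]`. -/
def v0 (x : ℝ) : ℂ := ((bmp x : ℝ) : ℂ)

lemma v0_supp {x : ℝ} (h : x < 1 ∨ 3 < x) : v0 x = 0 := by
  unfold v0
  have : bmp x = 0 := by
    apply bmp.zero_of_le_dist
    rw [Real.dist_eq]
    show (1 : ℝ) ≤ |x - 2|
    rcases h with h | h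
    · rw [abs_of_neg (by linarith)]; linarith
    · rw [abs_of_pos (by linarith)]; linarith
  rw [this]; simp

lemma Wt_v0 : M49.Wt v0 where
  smooth := by
    unfold v0
    exact Complex.ofRealCLM.contDiff.comp bmp.contDiff
  supp := ⟨1, 3, by norm_num, by norm_num, fun x hx => v0_supp hx⟩

lemma mellin_v0 : ∃ m : ℝ, 0 < m ∧ mellin v0 ((5 : ℂ) / 6) = (m : ℂ) := by
  have hint : IntegrableOn (fun t : ℝ => t ^ (-(1 : ℝ) / 6) * bmp t) (Ioi 0) := by
    have h1 : IntegrableOn (fun t : ℝ => t ^ (-(1 : ℝ) / 6) * bmp t) (Icc 1 3) := by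
      apply ContinuousOn.integrableOn_Icc
      apply ContinuousOn.mul
      · intro t ht
        apply ContinuousAt.continuousWithinAt
        apply Real.continuousAt_rpow_const
        left; have := ht.1; linarith
      · exact bmp.continuous.continuousOn
    apply h1.of_forall_sdiff_eq_zero measurableSet_Ioi
    intro x hx
    have h2 : x < 1 ∨ 3 < x := by
      by_contra hc
      push Not at hc
      exact hx.2 ⟨hc.1, hc.2⟩
    have h3 := v0_supp h2
    unfold v0 at h3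
    have : bmp x = 0 := by exact_mod_cast h3
    rw [this, mul_zero]
  refine ⟨∫ t in Ioi (0 : ℝ), t ^ (-(1 : ℝ) / 6) * bmp t, ?_, ?_⟩
  · rw [setIntegral_pos_iff_support_of_nonneg_ae]
    · have hsub : Ioo (3 / 2 : ℝ) (5 / 2) ⊆
          Function.support (fun t : ℝ => t ^ (-(1 : ℝ) / 6) * bmp t) ∩ Ioi 0 := by
        intro t ht
        have ht0 : (0 : ℝ) < t := by have := ht.1; linarith
        refine ⟨?_, ht0⟩
        have h1 : bmp t = 1 := by
          apply bmp.one_of_mem_closedBall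
          rw [Metric.mem_closedBall, Real.dist_eq, abs_le]
          show -(1 / 2 : ℝ) ≤ t - 2 ∧ t - 2 ≤ 1 / 2
          constructor <;> [linarith [ht.1]; linarith [ht.2]]
        rw [Function.mem_support, h1, mul_one]
        exact (Real.rpow_pos_of_pos ht0 _).ne'
      refine lt_of_lt_of_le ?_ (measure_mono hsub)
      simp
      norm_num
    · filter_upwards [ae_restrict_mem measurableSet_Ioi] with t ht
      have ht0 : (0 : ℝ) < t := ht
      exact mul_nonneg (Real.rpow_nonneg ht0.le _) bmp.nonneg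
    · exact hint
  · unfold mellin
    rw [← integral_complex_ofReal]
    apply setIntegral_congr_fun measurableSet_Ioi
    intro t ht
    have ht0 : (0 : ℝ) < t := ht
    simp only [smul_eq_mul, v0]
    push_cast
    rw [Complex.ofReal_cpow ht0.le]
    congr 2
    push_cast
    norm_num

/-! ### the limit -/

lemma rho_limit {ρ : Eis → ℂ} (H : MS ρ) {v : ℝ → ℂ} (hv : M49.Wt v) (h : Eis) :
    Tendsto (fun X : ℝ => SS 0 0 v h X / ((X ^ ((5 : ℝ) / 6) : ℝ) : ℂ)) atTop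
      (𝓝 (ρ h * mellin v ((5 : ℂ) / 6))) := by
  obtain ⟨C, hC⟩ := H 0 v hv (1 / 6) (by norm_num)
  set N : ℕ := nm h + 1 with hN
  have hmem : h ∈ ball N := by rw [mem_ball]; omega
  -- pointwise bound
  have hb : ∀ X : ℝ, 1 ≤ X → ‖SS 0 0 v h X / ((X ^ ((5 : ℝ) / 6) : ℝ) : ℂ) -
      ρ h * mellin v ((5 : ℂ) / 6)‖ ^ 2 ≤ (|C| * (2 * N) ^ ((1 : ℝ) / 6) * N) * X ^ (-(1 : ℝ) / 2) := by
    intro X hX
    have hX0 : 0 < X := by linarith
    have h1 := hC N X 0 (by omega) hX0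
    have h2 := Finset.single_le_sum (f := fun h' : Eis => ‖SS 0 0 v h' X - (if (0 : ℤ) = 0 then
        ρ h' * mellin v ((5 : ℂ) / 6 + (0 : ℝ) * Complex.I) *
          (X : ℂ) ^ ((5 : ℂ) / 6 + (0 : ℝ) * Complex.I) else 0)‖ ^ 2)
        (fun i _ => by positivity) hmem
    have h3 := h2.trans h1
    simp only [if_true] at h3
    have e0 : (5 : ℂ) / 6 + ((0 : ℝ) : ℂ) * Complex.I = ((5 / 6 : ℝ) : ℂ) := by
      push_cast; ring
    rw [e0] at h3
    have e1 : ((X : ℂ)) ^ (((5 / 6 : ℝ)) : ℂ) = ((X ^ ((5 : ℝ) / 6) : ℝ) : ℂ) := by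
      rw [Complex.ofReal_cpow hX0.le]
    rw [e1] at h3
    have hp : 0 < X ^ ((5 : ℝ) / 6) := Real.rpow_pos_of_pos hX0 _
    have e2 : SS 0 0 v h X / ((X ^ ((5 : ℝ) / 6) : ℝ) : ℂ) - ρ h * mellin v ((5 : ℂ) / 6) =
        (SS 0 0 v h X - ρ h * mellin v (((5 / 6 : ℝ)) : ℂ) * ((X ^ ((5 : ℝ) / 6) : ℝ) : ℂ)) /
          ((X ^ ((5 : ℝ) / 6) : ℝ) : ℂ) := by
      have : ((X ^ ((5 : ℝ) / 6) : ℝ) : ℂ) ≠ 0 := by exact_mod_cast hp.ne'
      have e3 : ((5 : ℂ) / 6) = (((5 / 6 : ℝ)) : ℂ) := by push_cast; ring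
      rw [e3]
      field_simp
    rw [e2, norm_div, div_pow, Complex.norm_real, Real.norm_of_nonneg hp.le, div_le_iff₀ (by positivity)]
    refine h3.trans ?_
    have hNr : (1 : ℝ) ≤ N := by exact_mod_cast (by omega : 1 ≤ N)
    have h4 : ((1 + |(0 : ℝ)|) * (1 + X) * N) ^ ((1 : ℝ) / 6) ≤ ((2 * N) * X) ^ ((1 : ℝ) / 6) := by
      apply Real.rpow_le_rpow (by positivity) _ (by norm_num)
      rw [abs_zero]
      nlinarith
    have h5 : ((2 * (N : ℝ)) * X) ^ ((1 : ℝ) / 6) = (2 * N) ^ ((1 : ℝ) / 6) * X ^ ((1 : ℝ) / 6) :=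
      Real.mul_rpow (by positivity) hX0.le
    have h6 : X ^ (-(1 : ℝ) / 2) * (X ^ ((5 : ℝ) / 6)) ^ 2 = X ^ ((1 : ℝ) / 6) * X := by
      rw [← Real.rpow_natCast, ← Real.rpow_mul hX0.le, ← Real.rpow_add hX0,
        ← Real.rpow_add_one hX0.ne']
      norm_num
    have h0 : (0 : ℝ) ^ 2 = 0 := by norm_num
    rw [h0, add_zero]
    calc C * ((1 + |(0 : ℝ)|) * (1 + X) * N) ^ ((1 : ℝ) / 6) * (N * X)
        ≤ |C| * ((2 * N) ^ ((1 : ℝ) / 6) * X ^ ((1 : ℝ) / 6)) * (N * X) := by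
          rw [← h5]
          apply mul_le_mul_of_nonneg_right _ (by positivity)
          exact mul_le_mul (le_abs_self C) h4 (by positivity) (abs_nonneg _)
      _ = (|C| * (2 * N) ^ ((1 : ℝ) / 6) * N) * (X ^ ((1 : ℝ) / 6) * X) := by ring
      _ = (|C| * (2 * N) ^ ((1 : ℝ) / 6) * N) * (X ^ (-(1 : ℝ) / 2) * (X ^ ((5 : ℝ) / 6)) ^ 2) := by
          rw [h6]
      _ = _ := by ring
  rw [tendsto_iff_norm_sub_tendsto_zero]
  have hlim : Tendsto (fun X : ℝ => (|C| * (2 * N) ^ ((1 : ℝ) / 6) * N) * X ^ (-(1 : ℝ) / 2))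
      atTop (𝓝 0) := by
    have := (tendsto_rpow_neg_atTop (y := 1 / 2) (by norm_num)).const_mul
      (|C| * (2 * N) ^ ((1 : ℝ) / 6) * N)
    rw [mul_zero] at this
    refine this.congr (fun X => ?_)
    norm_num
  have hsq : Tendsto (fun X : ℝ => ‖SS 0 0 v h X / ((X ^ ((5 : ℝ) / 6) : ℝ) : ℂ) -
      ρ h * mellin v ((5 : ℂ) / 6)‖ ^ 2) atTop (𝓝 0) := by
    refine tendsto_of_tendsto_of_tendsto_of_le_of_le' tendsto_const_nhds hlim ?_ ?_
    · exact Eventually.of_forall fun X => by positivity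
    · filter_upwards [eventually_ge_atTop (1 : ℝ)] with X hX using hb X hX
  have h7 := hsq.sqrt
  rw [Real.sqrt_zero] at h7
  refine h7.congr (fun X => ?_)
  rw [Real.sqrt_sq (norm_nonneg _)]

/-- comparison of residues. -/
lemma rho_smul {ρ : Eis → ℂ} (H : MS ρ) {h h' : Eis} (z : ℂ)
    (hz : ∀ X : ℝ, 1 ≤ X → SS 0 0 v0 h X = z * SS 0 0 v0 h' X) : ρ h = z * ρ h' := by
  obtain ⟨m, hm, hm'⟩ := mellin_v0
  have h1 := rho_limit H Wt_v0 h
  have h2 := (rho_limit H Wt_v0 h').const_mul z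
  have h3 : Tendsto (fun X : ℝ => SS 0 0 v0 h X / ((X ^ ((5 : ℝ) / 6) : ℝ) : ℂ)) atTop
      (𝓝 (z * (ρ h' * mellin v0 ((5 : ℂ) / 6)))) := by
    refine h2.congr' ?_
    filter_upwards [eventually_ge_atTop (1 : ℝ)] with X hX
    rw [hz X hX]; ring
  have h4 := tendsto_nhds_unique h1 h3
  rw [hm'] at h4
  have hm0 : (m : ℂ) ≠ 0 := by exact_mod_cast hm.ne'
  apply mul_right_cancel₀ hm0
  rw [h4]; ring

lemma rho_congr {ρ : Eis → ℂ} (H : MS ρ) {h h' : Eis}
    (hg : ∀ d : Eis, IsPrim d → gs h d = gs h' d) : ρ h = ρ h' := by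
  have := rho_smul H (h := h) (h' := h') 1 (fun X _ => by
    rw [one_mul]
    unfold SS
    apply tsum_congr
    intro d
    split_ifs with hd
    · rw [hg d hd]
    · rfl)
  rwa [one_mul] at this

theorem rho_neg {ρ : Eis → ℂ} (H : MS ρ) (h : Eis) : ρ (-h) = ρ h :=
  rho_congr H fun d hd => Gauss880.gs_neg Gauss880.syG hd h

theorem rho_cube_mul {ρ : Eis → ℂ} (H : MS ρ) (h : Eis) {e : Eis}
    (he : ∀ d : Eis, IsPrim d → IsCoprime e d) : ρ (e ^ 3 * h) = ρ h := by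
  apply rho_congr H
  intro d hd
  have hc := he d hd
  rw [mul_comm, Gauss880.gs_mul_of_coprime Gauss880.syG hd h (hc.pow_left (m := 3))]
  have h1 : sy (e ^ 3) d = 1 := by
    have h2 : sy (e ^ 3) d = sy e d ^ 3 := by
      rw [pow_succ, pow_succ, pow_one, Gauss880.syG.mul_left _ _ _ hd,
        Gauss880.syG.mul_left _ _ _ hd]
      ring
    rw [h2, Gauss880.syG.cube e d hd hc]
  rw [h1, map_one, one_mul]

theorem rho_lam3 {ρ : Eis → ℂ} (H : MS ρ) (h : Eis) : ρ (lam ^ 3 * h) = ρ h :=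
  rho_cube_mul H h fun d hd => hd.isCoprime_lam.symm

/-- complex conjugation symmetry. -/
theorem SS_conj (h : Eis) (X : ℝ) :
    SS 0 0 v0 (Eis.conj h) X = (starRingEnd ℂ) (SS 0 0 v0 h X) := by
  unfold SS
  rw [Complex.conj_tsum]
  let e : Eis ≃ Eis := ⟨Eis.conj, Eis.conj, Eis.conj_conj, Eis.conj_conj⟩
  rw [← e.tsum_eq]
  apply tsum_congr
  intro d
  have hiff : IsPrim (e d) ↔ IsPrim d := by
    constructor
    · intro h'
      have := h'.conj
      rwa [show Eis.conj (e d) = d from Eis.conj_conj d] at this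
    · intro h'; exact h'.conj
  by_cases hd : IsPrim d
  · rw [if_pos (hiff.mpr hd), if_pos hd]
    have e1 : gs (Eis.conj h) (e d) = (starRingEnd ℂ) (gs h d) :=
      Gauss880.gs_conj Gauss880.syG hd h
    have e2 : nm (e d) = nm d := nm_conj d
    rw [e1, e2]
    simp only [map_mul, map_div₀, Complex.conj_ofReal]
    have e3 : (starRingEnd ℂ) (v0 (nm d / X)) = v0 (nm d / X) := by
      unfold v0; exact Complex.conj_ofReal _
    rw [e3]
    simp [ang]
  · rw [if_neg (fun h' => hd (hiff.mp h')), if_neg hd, map_zero]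

theorem rho_conj {ρ : Eis → ℂ} (H : MS ρ) (h : Eis) :
    ρ (Eis.conj h) = (starRingEnd ℂ) (ρ h) := by
  obtain ⟨m, hm, hm'⟩ := mellin_v0
  have h1 := rho_limit H Wt_v0 (Eis.conj h)
  have h2 := (Complex.continuous_conj.tendsto _).comp (rho_limit H Wt_v0 h)
  have h3 : Tendsto (fun X : ℝ => SS 0 0 v0 (Eis.conj h) X / ((X ^ ((5 : ℝ) / 6) : ℝ) : ℂ)) atTop
      (𝓝 ((starRingEnd ℂ) (ρ h * mellin v0 ((5 : ℂ) / 6)))) := by
    refine h2.congr (fun X => ?_)
    simp only [Function.comp]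
    rw [SS_conj, map_div₀, Complex.conj_ofReal]
  have h4 := tendsto_nhds_unique h1 h3
  rw [hm', map_mul, Complex.conj_ofReal] at h4
  have hm0 : (m : ℂ) ≠ 0 := by exact_mod_cast hm.ne'
  exact mul_right_cancel₀ hm0 h4

theorem rho_one_im {ρ : Eis → ℂ} (H : MS ρ) : (ρ 1).im = 0 := by
  have := rho_conj H 1
  rw [Eis.conj_one] at this
  exact Complex.conj_eq_iff_im.mp this.symm

end Crest.Agent.R012.Sg51
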