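import Crest.Agent.R012.Spec_T_411
import Crest.Agent.R012.Lat_277
import Crest.Agent.R012.Div_277

/-!
# Row 12: rough numbers and coprimality (helper298, for helper52)

* `card_not_coprime_le`  : general, all primes of `b` at least `z > 1`
* `card_ww`              : `z = ww X`
* `card_rpow`            : `z = X^d1`
* `log_rpow_le_ww`       : `(log X)^K ≤ C (ww X)^(1/8)`
-/

set_option autoImplicit false

noncomputable section

open Finset

namespace Crest.Agent.R012.Rough298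

open Crest.Agent.R012 Crest.Agent.R012.Eis Crest.Agent.R012.Div277 Crest.Agent.R012.Mob705
open Crest.Agent.R012.T411

/-- the primary primes of norm `≥ z` dividing `m`. -/
def bigP (z : ℝ) (m : Eis) : Finset Eis := by
  classical
  exact (pp m).filter (fun p => z ≤ (nm p : ℝ))

lemma mem_bigP {z : ℝ} {m p : Eis} (hm : m ≠ 0) :
    p ∈ bigP z m ↔ IsPP p ∧ p ∣ m ∧ z ≤ (nm p : ℝ) := by
  classical
  unfold bigP
  rw [mem_filter, mem_pp hm, and_assoc]

/-- number of primes `≥ z` of `m`. -/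
lemma pow_card_bigP_le {z : ℝ} (hz : 0 ≤ z) {m : Eis} (hm : m ≠ 0) :
    z ^ (bigP z m).card ≤ nm m := by
  classical
  have hdvd : (∏ p ∈ bigP z m, p) ∣ m := by
    refine Finset.prod_dvd_of_coprime ?_ ?_
    · intro p hp q hq hpq
      exact ((mem_bigP hm).1 (Finset.mem_coe.1 hp)).1.isCoprime
        ((mem_bigP hm).1 (Finset.mem_coe.1 hq)).1 hpq
    · intro p hp
      exact ((mem_bigP hm).1 hp).2.1
  have h1 : nm (∏ p ∈ bigP z m, p) ≤ nm m := nm_le_of_dvd hm hdvd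
  have h2 : (nm (∏ p ∈ bigP z m, p) : ℝ) = ∏ p ∈ bigP z m, (nm p : ℝ) := by
    generalize bigP z m = s
    induction s using Finset.induction_on with
    | empty => simp
    | insert a s ha ih => rw [Finset.prod_insert ha, Finset.prod_insert ha, nm_mul]; push_cast; rw [ih]
  calc z ^ (bigP z m).card = ∏ _p ∈ bigP z m, z := by rw [Finset.prod_const]
    _ ≤ ∏ p ∈ bigP z m, (nm p : ℝ) :=
        Finset.prod_le_prod (fun _ _ => hz) fun p hp => ((mem_bigP hm).1 hp).2.2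
    _ = (nm (∏ p ∈ bigP z m, p) : ℝ) := h2.symm
    _ ≤ nm m := by exact_mod_cast h1

/-- multiples of `p` among nonzero elements of norm `≤ Y`. -/
lemma card_multiples_le {Y : ℝ} (hY : 0 ≤ Y) {p : Eis} (hp : p ≠ 0) (𝓑 : Finset Eis)
    (h : ∀ b ∈ 𝓑, b ≠ 0 ∧ (nm b : ℝ) ≤ Y ∧ p ∣ b) : (𝓑.card : ℝ) ≤ 100 * Y / nm p := by
  classical
  have hp1 : (0 : ℝ) < nm p := by exact_mod_cast nm_pos.2 hp
  have hsub : 𝓑 ⊆ (nz ⌊Y⌋₊).filter (fun n => p ∣ n) := by
    intro b hb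
    obtain ⟨h1, h2, h3⟩ := h b hb
    exact mem_filter.2 ⟨mem_nz.2 ⟨h1, Nat.le_floor h2⟩, h3⟩
  rw [nz_filter_dvd _ hp] at hsub
  have h1 := Finset.card_le_card hsub
  rw [Finset.card_map] at h1
  calc (𝓑.card : ℝ) ≤ ((nz (⌊Y⌋₊ / nm p)).card : ℝ) := by exact_mod_cast h1
    _ ≤ 100 * ((⌊Y⌋₊ / nm p : ℕ) : ℝ) := card_nz_le _
    _ ≤ 100 * ((⌊Y⌋₊ : ℝ) / nm p) := by gcongr; exact Nat.cast_div_le
    _ ≤ 100 * (Y / nm p) := by gcongr; exact Nat.floor_le hY
    _ = _ := by ring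

open Classical in
/-- `#{b ∈ 𝓑 : (m, b) ≠ 1} ≤ (number of primes ≥ z of m) · 200 B / z`. -/
theorem card_not_coprime_le {z B : ℝ} {𝓑 : Finset Eis} {β : Eis → ℂ} (hz : 1 < z) (hB : 0 ≤ B)
    (h : Cls z B 𝓑 β) {m : Eis} (hm : m ≠ 0) :
    ((𝓑.filter (fun b => ¬ IsCoprime m b)).card : ℝ) ≤ (bigP z m).card * (200 * B / z) := by
  have hsub : 𝓑.filter (fun b => ¬ IsCoprime m b) ⊆
      (bigP z m).biUnion (fun p => 𝓑.filter (fun b => p ∣ b)) := by
    intro b hb
    obtain ⟨hb1, hb2⟩ := mem_filter.1 hb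
    have hbp : IsPrim b := (h.sq b hb1).1
    obtain ⟨p, hp, h1, h2⟩ := exists_common_pp hbp (fun hc => hb2 hc.symm)
    exact mem_biUnion.2 ⟨p, (mem_bigP hm).2 ⟨hp, h2, h.rough b hb1 p hp h1⟩,
      mem_filter.2 ⟨hb1, h1⟩⟩
  calc ((𝓑.filter (fun b => ¬ IsCoprime m b)).card : ℝ)
      ≤ (((bigP z m).biUnion (fun p => 𝓑.filter (fun b => p ∣ b))).card : ℝ) := by
        exact_mod_cast Finset.card_le_card hsub
    _ ≤ ((∑ p ∈ bigP z m, (𝓑.filter (fun b => p ∣ b)).card : ℕ) : ℝ) := by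
        exact_mod_cast Finset.card_biUnion_le
    _ = ∑ p ∈ bigP z m, ((𝓑.filter (fun b => p ∣ b)).card : ℝ) := by push_cast; rfl
    _ ≤ ∑ _p ∈ bigP z m, (200 * B / z) := by
        refine Finset.sum_le_sum fun p hp => ?_
        obtain ⟨hp1, hp2, hp3⟩ := (mem_bigP hm).1 hp
        refine (card_multiples_le (Y := 2 * B) (by positivity) hp1.ne_zero _ ?_).trans ?_
        · intro b hb
          obtain ⟨hb1, hb2⟩ := mem_filter.1 hb
          exact ⟨(h.sq b hb1).1.ne_zero, h.hi b hb1, hb2⟩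
        · calc 100 * (2 * B) / (nm p : ℝ) ≤ 100 * (2 * B) / z := by gcongr
            _ = 200 * B / z := by ring
    _ = _ := by rw [Finset.sum_const, nsmul_eq_mul]

/-- number of primes `≥ z` of `m`, `nm m ≤ X^4`. -/
lemma card_bigP_mul_log_le {z X : ℝ} (hz : 1 < z) (hX : 1 ≤ X) {m : Eis} (hm : m ≠ 0)
    (hmX : (nm m : ℝ) ≤ X ^ 4) : ((bigP z m).card : ℝ) * Real.log z ≤ 4 * Real.log X := by
  have hz0 : 0 < z := by linarith
  have h1 := (pow_card_bigP_le hz0.le hm).trans hmX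
  have h2 := Real.log_le_log (by positivity) h1
  rw [Real.log_pow, Real.log_pow] at h2
  exact_mod_cast h2

lemma log_two_le {X : ℝ} (hX : 2 ≤ X) : 0.69 ≤ Real.log X := by
  have h1 : Real.log 2 ≤ Real.log X := Real.log_le_log (by norm_num) hX
  have h2 := Real.log_two_gt_d9
  linarith

lemma one_lt_ww {X : ℝ} (hX : 2 ≤ X) : 1 < ww X := by
  unfold ww
  rw [← Real.exp_zero]
  have := log_two_le hX
  exact Real.exp_lt_exp.2 (Real.rpow_pos_of_pos (by linarith) _)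

lemma log_ww_ge {X : ℝ} (hX : 2 ≤ X) : 0.69 ≤ Real.log (ww X) := by
  unfold ww
  rw [Real.log_exp]
  have h0 := log_two_le hX
  rcases le_or_gt 1 (Real.log X) with h1 | h1
  · have : 1 ≤ Real.log X ^ ((2 : ℝ) / 3) := Real.one_le_rpow h1 (by norm_num)
    linarith
  · calc (0.69 : ℝ) ≤ Real.log X := h0
      _ = Real.log X ^ (1 : ℝ) := (Real.rpow_one _).symm
      _ ≤ Real.log X ^ ((2 : ℝ) / 3) :=
        Real.rpow_le_rpow_of_exponent_ge (by linarith) h1.le (by norm_num)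

open Classical in
/-- **(R)** for `w = ww X`. -/
theorem card_ww {X B : ℝ} (hX : 2 ≤ X) (hB : 0 ≤ B) {𝓑 : Finset Eis} {β : Eis → ℂ}
    (h : Cls (ww X) B 𝓑 β) {m : Eis} (hm : m ≠ 0) (hmX : (nm m : ℝ) ≤ X ^ 4) :
    ((𝓑.filter (fun b => ¬ IsCoprime m b)).card : ℝ) ≤ 1200 * Real.log X * B / ww X := by
  have hw := one_lt_ww hX
  have hw0 : 0 < ww X := by linarith
  have hL := log_two_le hX
  have h1 := card_not_coprime_le hw hB h hm
  have h2 := card_bigP_mul_log_le hw (by linarith) hm hmX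
  have h3 := log_ww_ge hX
  have h4 : ((bigP (ww X) m).card : ℝ) ≤ 6 * Real.log X := by
    have h5 : ((bigP (ww X) m).card : ℝ) * 0.69 ≤ ((bigP (ww X) m).card : ℝ) * Real.log (ww X) := by
      gcongr
    nlinarith
  calc _ ≤ _ := h1
    _ ≤ 6 * Real.log X * (200 * B / ww X) := by gcongr
    _ = _ := by ring

open Classical in
/-- **(R)** for `w = X^d1`. -/
theorem card_rpow {X B d1 : ℝ} (hX : 2 ≤ X) (hd : 0 < d1) (hB : 0 ≤ B) {𝓑 : Finset Eis}
    {β : Eis → ℂ} (h : Cls (X ^ d1) B 𝓑 β) {m : Eis} (hm : m ≠ 0) (hmX : (nm m : ℝ) ≤ X ^ 4) :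
    ((𝓑.filter (fun b => ¬ IsCoprime m b)).card : ℝ) ≤ 800 / d1 * B * X ^ (-d1) := by
  have hX0 : 0 < X := by linarith
  have hz : 1 < X ^ d1 := Real.one_lt_rpow (by linarith) hd
  have hL := log_two_le hX
  have h1 := card_not_coprime_le hz hB h hm
  have h2 := card_bigP_mul_log_le hz (by linarith) hm hmX
  rw [Real.log_rpow hX0] at h2
  have h4 : ((bigP (X ^ d1) m).card : ℝ) ≤ 4 / d1 := by
    rw [le_div_iff₀ hd]
    have h5 : (((bigP (X ^ d1) m).card : ℝ) * d1) * Real.log X ≤ 4 * Real.log X := by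
      linarith
    exact le_of_mul_le_mul_right h5 (by linarith)
  calc _ ≤ _ := h1
    _ ≤ 4 / d1 * (200 * B / X ^ d1) := by gcongr
    _ = _ := by rw [Real.rpow_neg hX0.le]; field_simp; ring

/-- **(W)** powers of `log X` are at most `C (ww X)^(1/8)`. -/
theorem log_rpow_le_ww (K : ℝ) : ∃ C : ℝ, 0 < C ∧ ∀ X : ℝ, 2 ≤ X →
    Real.log X ^ K ≤ C * (ww X) ^ ((1 : ℝ) / 8) := by
  obtain ⟨n, hn⟩ := exists_nat_ge (3 * K / 2)
  refine ⟨n.factorial * 8 ^ n + (0.69 : ℝ) ^ K + 1, by positivity, ?_⟩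
  intro X hX
  have hL := log_two_le hX
  have hL0 : 0 < Real.log X := by linarith
  have hw : (ww X) ^ ((1 : ℝ) / 8) = Real.exp (Real.log X ^ ((2 : ℝ) / 3) / 8) := by
    unfold ww
    rw [← Real.exp_mul]; congr 1; ring
  rw [hw]
  set y : ℝ := Real.log X ^ ((2 : ℝ) / 3) with hy
  have hy0 : 0 < y := Real.rpow_pos_of_pos hL0 _
  have hexp : 1 ≤ Real.exp (y / 8) := Real.one_le_exp (by positivity)
  have hLy : Real.log X ^ K = y ^ (3 * K / 2) := by
    rw [hy, ← Real.rpow_mul hL0.le]; congr 1; ring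
  have hc1 : (0 : ℝ) ≤ (n.factorial : ℝ) * 8 ^ n := by positivity
  have hc2 : (0 : ℝ) ≤ (0.69 : ℝ) ^ K := by positivity
  rcases le_or_gt 1 (Real.log X) with h1 | h1
  · have hy1 : 1 ≤ y := Real.one_le_rpow h1 (by norm_num)
    have h2 : y ^ (3 * K / 2) ≤ y ^ n := by
      rw [← Real.rpow_natCast]
      exact Real.rpow_le_rpow_of_exponent_le hy1 hn
    have h3 : (y / 8) ^ n / n.factorial ≤ Real.exp (y / 8) :=
      Real.pow_div_factorial_le_exp _ (by positivity) n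
    have h4 : y ^ n ≤ n.factorial * 8 ^ n * Real.exp (y / 8) := by
      have hf : (0 : ℝ) < n.factorial := by exact_mod_cast n.factorial_pos
      have h5 : (y / 8) ^ n ≤ Real.exp (y / 8) * n.factorial := (div_le_iff₀ hf).1 h3
      calc y ^ n = (y / 8) ^ n * 8 ^ n := by rw [← mul_pow]; congr 1; ring
        _ ≤ (Real.exp (y / 8) * n.factorial) * 8 ^ n := by gcongr
        _ = _ := by ring
    rw [hLy]
    nlinarith
  · have h2 : Real.log X ^ K ≤ (0.69 : ℝ) ^ K + 1 := by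
      rcases le_or_gt 0 K with hK | hK
      · have : Real.log X ^ K ≤ 1 := Real.rpow_le_one hL0.le h1.le hK
        linarith
      · have : Real.log X ^ K ≤ (0.69 : ℝ) ^ K :=
          Real.rpow_le_rpow_of_nonpos (by norm_num) hL hK.le
        linarith
    nlinarith

end Crest.Agent.R012.Rough298
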