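import Crest.Agent.R012.NearHalf_828
import Crest.Agent.R012.SieveUse_50

/-!
# Row 12, item SNH (helper828): `SNH_assembly : TIPart → LPart → CrPart → CompPart → SNH_Prop`
-/

set_option autoImplicit false

noncomputable section

open Complex Filter Topology

namespace Crest.Agent.R012.NearHalf828

open Crest.Agent.R012 Eis Buch420 Main48

namespace Asm828

lemma sum_powerset_split' (A : Finset PrP) (F : Finset PrP → ℂ) (h0 : F ∅ = 0) :
    ∑ T ∈ A.powerset, F T = ∑ p ∈ A, F {p} + ∑ T ∈ A.powerset.filter (fun T => 2 ≤ T.card), F T := by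
  classical
  have hinj : Set.InjOn (fun p : PrP => ({p} : Finset PrP)) A := fun a _ b _ hab =>
    Finset.singleton_injective hab
  rw [← Finset.sum_image (f := F) hinj, ← Finset.sum_union]
  · symm
    refine Finset.sum_subset ?_ ?_
    · intro T hT
      rcases Finset.mem_union.mp hT with hT | hT
      · rw [Finset.mem_image] at hT
        obtain ⟨p, hp, rfl⟩ := hT
        rw [Finset.mem_powerset]
        exact Finset.singleton_subset_iff.mpr hp
      · exact (Finset.mem_filter.mp hT).1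
    · intro T hT hT'
      rw [Finset.mem_union, not_or] at hT'
      have h2 : ¬ 2 ≤ T.card := fun h => hT'.2 (Finset.mem_filter.mpr ⟨hT, h⟩)
      have h1 : T.card ≠ 1 := by
        intro h1
        obtain ⟨p, rfl⟩ := Finset.card_eq_one.mp h1
        exact hT'.1 (Finset.mem_image.mpr
          ⟨p, Finset.mem_powerset.mp hT (Finset.mem_singleton_self p), rfl⟩)
      have h3 : T = ∅ := Finset.card_eq_zero.mp (by omega)
      rw [h3]; exact h0
  · rw [Finset.disjoint_left]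
    intro T hT hT'
    rw [Finset.mem_image] at hT
    obtain ⟨p, hp, rfl⟩ := hT
    have := (Finset.mem_filter.mp hT').2
    simp at this

open Classical in
/-- step 1: primes in `[w, z)`, level `X^0.05`. -/
lemma step1 {X : ℕ} (hX : 3 ≤ X) (hwz : wX X ≤ zX X) (F : Finset PrP → ℂ) :
    ∑ T ∈ ((UX X).filter (fun p => ¬ (nm p.1 : ℝ) < zX X)).powerset, F T =
      ∑ I ∈ ((Uw X).filter (fun p => (nm p.1 : ℝ) < zX X)).powerset.filter
        (fun I => nu PrP.N I < D1 X), (-1 : ℂ) ^ I.card * ∑ J ∈ (Uw X \ I).powerset, F (I ∪ J) +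
      ∑ I ∈ ((Uw X).filter (fun p => (nm p.1 : ℝ) < zX X)).powerset.filter
        (fun I => Cr PrP.N (D1 X) I), (-1 : ℂ) ^ I.card *
      ∑ J ∈ ((Uw X \ I).filter (fun p => Ab I p)).powerset, F (I ∪ J) := by
  have hX1 : (1 : ℝ) < X := by
    have : (3 : ℝ) ≤ X := by exact_mod_cast hX
    linarith
  have hD : 1 < D1 X := Real.one_lt_rpow hX1 (by norm_num)
  have h := buchstab PrP.one_le_N hD (Uw X) (fun p => (nm p.1 : ℝ) < zX X) (by
    intro p q hpq hq
    have h1 := PrP.nm_le_of_le hpq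
    have h2 : (nm p.1 : ℝ) ≤ nm q.1 := by exact_mod_cast h1
    linarith) F
  have e : (Uw X).filter (fun p => ¬ (nm p.1 : ℝ) < zX X) =
      (UX X).filter (fun p => ¬ (nm p.1 : ℝ) < zX X) := by
    unfold Uw
    ext p
    simp only [Finset.mem_filter]
    constructor
    · rintro ⟨⟨h1, -⟩, h2⟩; exact ⟨h1, h2⟩
    · rintro ⟨h1, h2⟩
      exact ⟨⟨h1, by push Not at h2 ⊢; linarith⟩, h2⟩
  rw [← e]
  convert h

open Classical in
/-- step 2: primes `< w`, level `X^0.1`. -/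
lemma step2 {X : ℕ} (hX : 3 ≤ X) (I : Finset PrP) (F : Finset PrP → ℂ) :
    ∑ J ∈ (Uw X \ I).powerset, F (I ∪ J) =
      ∑ E ∈ ((UX X \ I).filter (fun p => (nm p.1 : ℝ) < wX X)).powerset.filter
        (fun E => nu PrP.N E < D2 X), (-1 : ℂ) ^ E.card *
        ∑ J ∈ ((UX X \ I) \ E).powerset, F (I ∪ (E ∪ J)) +
      ∑ E ∈ ((UX X \ I).filter (fun p => (nm p.1 : ℝ) < wX X)).powerset.filter
        (fun E => Cr PrP.N (D2 X) E), (-1 : ℂ) ^ E.card *
        ∑ J ∈ (((UX X \ I) \ E).filter (fun p => Ab E p)).powerset, F (I ∪ (E ∪ J)) := by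
  have hX1 : (1 : ℝ) < X := by
    have : (3 : ℝ) ≤ X := by exact_mod_cast hX
    linarith
  have hD : 1 < D2 X := Real.one_lt_rpow hX1 (by norm_num)
  have h := buchstab PrP.one_le_N hD (UX X \ I) (fun p => (nm p.1 : ℝ) < wX X) (by
    intro p q hpq hq
    have h1 := PrP.nm_le_of_le hpq
    have h2 : (nm p.1 : ℝ) ≤ nm q.1 := by exact_mod_cast h1
    linarith) (fun J => F (I ∪ J))
  have e : (UX X \ I).filter (fun p => ¬ (nm p.1 : ℝ) < wX X) = Uw X \ I := by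
    unfold Uw
    ext p
    simp only [Finset.mem_filter, Finset.mem_sdiff]
    tauto
  rw [← e]
  convert h

open Classical in
/-- the complete identity -/
lemma identity {X : ℕ} (hX : 3 ≤ X) (hwz : wX X ≤ zX X) (F : Finset PrP → ℂ) (h0 : F ∅ = 0) :
    ∑ p ∈ (UX X).filter (fun p => ¬ (nm p.1 : ℝ) < zX X), F {p} =
      ∑ I ∈ ((Uw X).filter (fun p => (nm p.1 : ℝ) < zX X)).powerset.filter
        (fun I => nu PrP.N I < D1 X), (-1 : ℂ) ^ I.card *
        ∑ E ∈ ((UX X \ I).filter (fun p => (nm p.1 : ℝ) < wX X)).powerset.filter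
          (fun E => nu PrP.N E < D2 X), (-1 : ℂ) ^ E.card *
          ∑ J ∈ ((UX X \ I) \ E).powerset, F (I ∪ (E ∪ J)) +
      ∑ I ∈ ((Uw X).filter (fun p => (nm p.1 : ℝ) < zX X)).powerset.filter
        (fun I => nu PrP.N I < D1 X), (-1 : ℂ) ^ I.card *
        ∑ E ∈ ((UX X \ I).filter (fun p => (nm p.1 : ℝ) < wX X)).powerset.filter
          (fun E => Cr PrP.N (D2 X) E), (-1 : ℂ) ^ E.card *
          ∑ J ∈ (((UX X \ I) \ E).filter (fun p => Ab E p)).powerset, F (I ∪ (E ∪ J)) +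
      ∑ I ∈ ((Uw X).filter (fun p => (nm p.1 : ℝ) < zX X)).powerset.filter
        (fun I => Cr PrP.N (D1 X) I), (-1 : ℂ) ^ I.card *
      ∑ J ∈ ((Uw X \ I).filter (fun p => Ab I p)).powerset, F (I ∪ J) -
      ∑ T ∈ ((UX X).filter (fun p => ¬ (nm p.1 : ℝ) < zX X)).powerset.filter (fun T => 2 ≤ T.card),
        F T := by
  have h1 := sum_powerset_split' ((UX X).filter (fun p => ¬ (nm p.1 : ℝ) < zX X)) F h0
  have h2 := step1 hX hwz F
  have h3 : ∑ I ∈ ((Uw X).filter (fun p => (nm p.1 : ℝ) < zX X)).powerset.filter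
        (fun I => nu PrP.N I < D1 X), (-1 : ℂ) ^ I.card * ∑ J ∈ (Uw X \ I).powerset, F (I ∪ J) =
      ∑ I ∈ ((Uw X).filter (fun p => (nm p.1 : ℝ) < zX X)).powerset.filter
        (fun I => nu PrP.N I < D1 X), (-1 : ℂ) ^ I.card *
        ∑ E ∈ ((UX X \ I).filter (fun p => (nm p.1 : ℝ) < wX X)).powerset.filter
          (fun E => nu PrP.N E < D2 X), (-1 : ℂ) ^ E.card *
          ∑ J ∈ ((UX X \ I) \ E).powerset, F (I ∪ (E ∪ J)) +
      ∑ I ∈ ((Uw X).filter (fun p => (nm p.1 : ℝ) < zX X)).powerset.filter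
        (fun I => nu PrP.N I < D1 X), (-1 : ℂ) ^ I.card *
        ∑ E ∈ ((UX X \ I).filter (fun p => (nm p.1 : ℝ) < wX X)).powerset.filter
          (fun E => Cr PrP.N (D2 X) E), (-1 : ℂ) ^ E.card *
          ∑ J ∈ (((UX X \ I) \ E).filter (fun p => Ab E p)).powerset, F (I ∪ (E ∪ J)) := by
    rw [← Finset.sum_add_distrib]
    refine Finset.sum_congr rfl fun I _ => ?_
    rw [step2 hX I F, mul_add]
  rw [h3] at h2
  rw [← h2, h1]
  ring

open Classical in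
lemma lhs_eq (l : ℤ) {X : ℕ} (hX : 3 ≤ X) (α : Finset PrP → ℂ) {V₁ V₂ : ℝ}
    (hV1 : (X : ℝ) ^ (0.495 : ℝ) ≤ V₁) :
    ∑ S ∈ (UX X).powerset, ∑ p ∈ (UX X).filter (fun p => V₁ ≤ nm p.1 ∧ (nm p.1 : ℝ) ≤ V₂),
        α S * FX l X (prd S * p.1) =
      ∑ p ∈ (UX X).filter (fun p => ¬ (nm p.1 : ℝ) < zX X), Fa l X α V₁ V₂ {p} := by
  have hX1 : (1 : ℝ) ≤ X := by
    have : (3 : ℝ) ≤ X := by exact_mod_cast hX
    linarith
  have hz : zX X ≤ V₁ :=
    (Real.rpow_le_rpow_of_exponent_le hX1 (by norm_num : (0.06 : ℝ) ≤ 0.495)).trans hV1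
  rw [Finset.sum_comm]
  unfold Fa
  simp only [prd_singleton]
  rw [← Finset.sum_filter, Finset.filter_filter]
  refine Finset.sum_congr ?_ fun _ _ => rfl
  ext p
  simp only [Finset.mem_filter]
  constructor
  · rintro ⟨h1, h2, h3⟩
    exact ⟨h1, not_lt.mpr (hz.trans h2), h2, h3⟩
  · rintro ⟨h1, -, h2, h3⟩
    exact ⟨h1, h2, h3⟩

end Asm828

open Asm828 in
/-- **The four parts give `SNH_Prop`.** -/
theorem snh_assembly : SNH_assembly := by
  classical
  intro hTI hL hCr hComp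
  obtain ⟨η0, hη0, hComp⟩ := hComp
  refine ⟨min η0 0.005, lt_min hη0 (by norm_num), fun l A => ?_⟩
  obtain ⟨δ, K1, X1, hδ, h1⟩ := hTI l
  obtain ⟨K2, X2, h2⟩ := hL l A
  obtain ⟨K3, X3, h3⟩ := hCr l A
  obtain ⟨K4, X4, h4⟩ := hComp l A
  have ev : ∀ᶠ X : ℕ in atTop, (3 ≤ X ∧ X1 ≤ X ∧ X2 ≤ X ∧ X3 ≤ X ∧ X4 ≤ X) ∧ 1 ≤ LX X ∧
      wX X ≤ (X : ℝ) ^ (0.06 : ℝ) ∧
      (X : ℝ) ^ (5 / 6 - δ) * LX X ^ (A : ℝ) ≤ (X : ℝ) ^ ((5 : ℝ) / 6) := by
    filter_upwards [SieveUse50.ev_pow (a := 5 / 6 - δ) (b := 5 / 6) (by linarith) (A : ℝ),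
      SieveUse50.ev_LX 1, SieveUse50.ev_wX (e := 0.06) (by norm_num), eventually_ge_atTop 3,
      eventually_ge_atTop X1, eventually_ge_atTop X2, eventually_ge_atTop X3,
      eventually_ge_atTop X4] with X a1 a2 a3 a4 a5 a6 a7 a8
    exact ⟨⟨a4, a5, a6, a7, a8⟩, a2, a3, a1⟩
  obtain ⟨X0, hX0⟩ := eventually_atTop.mp ev
  refine ⟨|K1| + K2 + K3 + K4, X0, fun X hX α V₁ V₂ hα hV1 hV2 => ?_⟩
  obtain ⟨⟨g3, g1, g2, g33, g4⟩, gL, gw, gp⟩ := hX0 X hX
  have hX3 : (3 : ℝ) ≤ X := by exact_mod_cast g3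
  have hX1 : (1 : ℝ) ≤ X := by linarith
  have hXpos : (0 : ℝ) < X := by linarith
  have hV1' : (X : ℝ) ^ (0.495 : ℝ) ≤ V₁ := by
    refine le_trans (Real.rpow_le_rpow_of_exponent_le hX1 ?_) hV1
    have := min_le_right η0 (0.005 : ℝ)
    linarith
  have hV2' : V₂ ≤ (X : ℝ) ^ (0.505 : ℝ) := by
    refine le_trans hV2 (Real.rpow_le_rpow_of_exponent_le hX1 ?_)
    have := min_le_right η0 (0.005 : ℝ)
    linarith
  have hV1'' : (X : ℝ) ^ (1 / 2 - η0) ≤ V₁ := by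
    refine le_trans (Real.rpow_le_rpow_of_exponent_le hX1 ?_) hV1
    have := min_le_left η0 (0.005 : ℝ)
    linarith
  have hV2'' : V₂ ≤ (X : ℝ) ^ (1 / 2 + η0) := by
    refine le_trans hV2 (Real.rpow_le_rpow_of_exponent_le hX1 ?_)
    have := min_le_left η0 (0.005 : ℝ)
    linarith
  have hF0 : Fa l X α V₁ V₂ ∅ = 0 := by
    unfold Fa
    rw [if_neg]
    rintro ⟨h, -⟩
    have hn1 : nm (prd ∅) = 1 := by rw [prd_empty]; simp
    rw [hn1] at h
    have h5 : (1 : ℝ) < (X : ℝ) ^ (0.495 : ℝ) := Real.one_lt_rpow (by linarith) (by norm_num)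
    push_cast at h
    linarith
  rw [lhs_eq l g3 α hV1', identity g3 gw _ hF0]
  have b1 := h1 X g1 α V₁ V₂ hα hV1' hV2'
    (((Uw X).filter (fun p => (nm p.1 : ℝ) < zX X)).powerset.filter (fun I => nu PrP.N I < D1 X))
    (fun I => ((UX X \ I).filter (fun p => (nm p.1 : ℝ) < wX X)).powerset.filter
          (fun E => nu PrP.N E < D2 X))
    (by
      intro I hI
      rw [Finset.mem_filter, Finset.mem_powerset] at hI
      refine ⟨fun p hp => ?_, hI.2⟩
      have := (Finset.mem_filter.mp (hI.1 hp)).1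
      unfold Uw at this
      exact (Finset.mem_filter.mp this).1)
    (by
      intro I _ E hE
      rw [Finset.mem_filter, Finset.mem_powerset] at hE
      exact ⟨fun p hp => (Finset.mem_filter.mp (hE.1 hp)).1, hE.2⟩)
  have b2 := h2 X g2 α V₁ V₂ hα hV1' hV2'
  have b3 := h3 X g33 α V₁ V₂ hα hV1' hV2'
  have b4 := h4 X g4 α V₁ V₂ hα hV1'' hV2''
  have hLA : 0 < LX X ^ A := by positivity
  have b1' : K1 * (X : ℝ) ^ (5 / 6 - δ) ≤ |K1| * (X : ℝ) ^ ((5 : ℝ) / 6) / LX X ^ A := by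
    rw [le_div_iff₀ hLA]
    rw [Real.rpow_natCast] at gp
    calc K1 * (X : ℝ) ^ (5 / 6 - δ) * LX X ^ A ≤ |K1| * (X : ℝ) ^ (5 / 6 - δ) * LX X ^ A := by
          gcongr
          exact le_abs_self K1
      _ = |K1| * ((X : ℝ) ^ (5 / 6 - δ) * LX X ^ A) := by ring
      _ ≤ |K1| * (X : ℝ) ^ ((5 : ℝ) / 6) := by gcongr
  refine (norm_sub_le _ _).trans ?_
  refine (add_le_add ((norm_add_le _ _).trans (add_le_add ((norm_add_le _ _).trans
    (add_le_add (b1.trans b1') b2)) b3)) b4).trans (le_of_eq ?_)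
  ring

end Crest.Agent.R012.NearHalf828
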