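import Crest.Agent.R012.NearHalf_828
import Crest.Agent.R012.Sep_290

/-!
# Row 12, item SNH (helper828): the engine

* `engine_ix` : index form with a range `lo i < N(b) ≤ hi i` and a cross condition `u i < v b`
  is bounded by dyadic blocks of `Ix` without cross condition.
* `reindex` : `∑_G c_G ∑_{T ⊆ UX \ G, C G T} λ_T Fa (G ∪ T)` is such an index form.
* `rk`, `rkm` : rank functions; `ab_iff` : `(∀ p ∈ T, Ab G p) ↔ rkm G < rkm T`.
-/

set_option autoImplicit false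

noncomputable section

open Complex Filter Topology

namespace Crest.Agent.R012.SNHEng828

open Crest.Agent.R012 Eis Buch420 Main48 NearHalf828

/-! ### `Fl` vanishes on non-squarefree products -/

lemma Fl_of_not_squarefree {l : ℤ} {n : Eis} (h : ¬ Squarefree n) : Fl l n = 0 := by
  unfold Fl; rw [if_neg h]

lemma not_squarefree_of_not_disjoint {S T : Finset PrP} (h : ¬ Disjoint S T) :
    ¬ Squarefree (prd S * prd T) := by
  rw [Finset.not_disjoint_iff] at h
  obtain ⟨p, hp1, hp2⟩ := h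
  intro hs
  have : p.1 * p.1 ∣ prd S * prd T := mul_dvd_mul (dvd_prd_iff.mpr hp1) (dvd_prd_iff.mpr hp2)
  exact p.prime.not_isUnit (hs _ this)

lemma Fl_of_not_disjoint {l : ℤ} {S T : Finset PrP} (h : ¬ Disjoint S T) :
    Fl l (prd S * prd T) = 0 := Fl_of_not_squarefree (not_squarefree_of_not_disjoint h)

lemma nm_prd_pos (T : Finset PrP) : (0 : ℝ) < nm (prd T) := by
  exact_mod_cast nm_pos.mpr (prd_ne_zero T)

/-! ### The engine -/

/-- the block `B < N(b) ≤ 2B` -/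
def bl (B : ℝ) (T : Finset PrP) : Prop := B < nm (prd T) ∧ (nm (prd T) : ℝ) ≤ 2 * B

open Classical in
lemma block_sum {B0 : ℝ} (hB0 : 1 ≤ B0) (T : Finset PrP) (h1 : B0 < nm (prd T)) (n : ℕ)
    (h2 : (nm (prd T) : ℝ) ≤ B0 * 2 ^ n) :
    ∑ k ∈ Finset.range n, (if bl (B0 * 2 ^ k) T then (1 : ℂ) else 0) = 1 := by
  induction n with
  | zero => rw [pow_zero, mul_one] at h2; linarith
  | succ n ih =>
    rw [Finset.sum_range_succ]
    by_cases hc : (nm (prd T) : ℝ) ≤ B0 * 2 ^ n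
    · rw [ih hc, if_neg, add_zero]
      intro hb; exact absurd hb.1 (not_lt.mpr hc)
    · rw [if_pos, Finset.sum_eq_zero, zero_add]
      · intro k hk
        rw [if_neg]
        intro hb
        have h3 : B0 * 2 ^ (k + 1) ≤ B0 * 2 ^ n := by
          apply mul_le_mul_of_nonneg_left _ (by linarith)
          exact pow_le_pow_right₀ (by norm_num) (Finset.mem_range.mp hk)
        rw [pow_succ] at h3
        have := hb.2
        apply hc; linarith
      · refine ⟨not_le.mp hc, ?_⟩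
        rw [pow_succ] at h2; linarith

open Classical in
/-- the kernel with a range -/
def Kf (l : ℤ) {ι : Type} (a : ι → Finset PrP) (α : ι → ℂ) (lo hi : ι → ℝ)
    (lam : Finset PrP → ℂ) (i : ι) (T : Finset PrP) : ℂ :=
  if lo i < nm (prd T) ∧ (nm (prd T) : ℝ) ≤ hi i then α i * lam T * Fl l (prd (a i) * prd T) else 0

open Classical in
lemma engine_block (l : ℤ) (X : ℕ) {ι : Type} (I : Finset ι) (a : ι → Finset PrP) (α : ι → ℂ)
    (lo hi : ι → ℝ) (lam : Finset PrP → ℂ) (B : ℝ) (u : ι → ℕ) (v : Finset PrP → ℕ) (M : ℕ)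
    (hM : 1 ≤ M) (hu : ∀ i ∈ I, u i < M) (hv : ∀ T ∈ (UX X).powerset, v T ≤ M) (Q : ℝ)
    (hQ : ∀ φ : ℕ → ℂ, (∀ n, ‖φ n‖ ≤ 1) → ∀ α' : ι → ℂ, (∀ i, ‖α' i‖ ≤ ‖α i‖) →
      ∀ g : ι → ℝ, ‖Ix l X I a g α' (fun T => if bl B T then φ (v T) * lam T else 0)‖ ≤ Q) :
    ‖∑ i ∈ I, ∑ T ∈ (UX X).powerset, (if u i < v T then (1 : ℂ) else 0) *
          (if bl B T then Kf l a α lo hi lam i T else 0)‖ ≤ (2 + Real.log M) * (2 * Q) := by
  refine Sep290.sep_bilin _ _ (fun i T => if bl B T then Kf l a α lo hi lam i T else 0) u v M hM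
    hu hv (2 * Q) ?_
  intro x y hx hy
  obtain ⟨φ, hφ⟩ : ∃ φ : ℕ → ℂ, φ = fun n => if n ≤ M then y n else 0 := ⟨_, rfl⟩
  have hφ1 : ∀ n, ‖φ n‖ ≤ 1 := by
    intro n
    rw [hφ]
    show ‖if n ≤ M then y n else 0‖ ≤ 1
    split_ifs with h
    · exact hy n h
    · simp
  have hφM : ∀ n, n ≤ M → φ n = y n := by
    intro n hn; rw [hφ]; exact if_pos hn
  have hα' : ∀ i, ‖x (u i) * α i‖ ≤ ‖α i‖ := by
    intro i
    rw [norm_mul]
    exact mul_le_of_le_one_left (norm_nonneg _) (hx _)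
  have e : ∑ i ∈ I, ∑ T ∈ (UX X).powerset, x (u i) * y (v T) *
        (if bl B T then Kf l a α lo hi lam i T else 0) =
      Ix l X I a hi (fun i => x (u i) * α i) (fun T => if bl B T then φ (v T) * lam T else 0) -
      Ix l X I a (fun i => min (lo i) (hi i)) (fun i => x (u i) * α i)
        (fun T => if bl B T then φ (v T) * lam T else 0) := by
    unfold Ix
    rw [← Finset.sum_sub_distrib]
    refine Finset.sum_congr rfl fun i _ => ?_
    rw [← mul_sub, ← Finset.sum_sub_distrib, Finset.mul_sum]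
    refine Finset.sum_congr rfl fun T hT => ?_
    rw [← hφM _ (hv T hT)]
    unfold Kf
    by_cases hb : bl B T
    · simp only [if_pos hb]
      by_cases h2 : (nm (prd T) : ℝ) ≤ hi i
      · by_cases h3 : lo i < nm (prd T)
        · rw [if_pos ⟨h3, h2⟩, if_pos h2, if_neg]
          · ring
          · intro h; exact absurd (h.trans (min_le_left _ _)) (not_le.mpr h3)
        · rw [if_neg (fun h => h3 h.1), if_pos h2, if_pos (le_min (not_lt.mp h3) h2)]
          ring
      · rw [if_neg (fun h => h2 h.2), if_neg h2, if_neg]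
        · ring
        · intro h; exact h2 (h.trans (min_le_right _ _))
    · simp only [if_neg hb]
      simp
  rw [e]
  refine (norm_sub_le _ _).trans ?_
  have q1 := hQ φ hφ1 (fun i => x (u i) * α i) hα' hi
  have q2 := hQ φ hφ1 (fun i => x (u i) * α i) hα' (fun i => min (lo i) (hi i))
  linarith

open Classical in
lemma engine_dyadic (l : ℤ) (X : ℕ) {ι : Type} (I : Finset ι) (a : ι → Finset PrP) (α : ι → ℂ)
    (lo hi : ι → ℝ) (hhi : ∀ i ∈ I, hi i * nm (prd (a i)) ≤ X) (lam : Finset PrP → ℂ) {B0 : ℝ}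
    (hB0 : 1 ≤ B0) (m : ℕ)
    (hlam : ∀ i ∈ I, ∀ T ∈ (UX X).powerset, lo i < nm (prd T) → (nm (prd T) : ℝ) ≤ hi i →
      lam T ≠ 0 → B0 < nm (prd T) ∧ (nm (prd T) : ℝ) ≤ B0 * 2 ^ m)
    (u : ι → ℕ) (v : Finset PrP → ℕ) :
    ∑ i ∈ I, ∑ T ∈ (UX X).powerset,
      (if (lo i < nm (prd T) ∧ (nm (prd T) : ℝ) ≤ hi i) ∧ u i < v T then
        α i * lam T * Fl l (prd (a i) * prd T) else 0) =
      ∑ k ∈ Finset.range m, ∑ i ∈ I.filter (fun i => (nm (prd (a i)) : ℝ) ≤ X / (B0 * 2 ^ k)),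
        ∑ T ∈ (UX X).powerset, (if u i < v T then (1 : ℂ) else 0) *
          (if bl (B0 * 2 ^ k) T then Kf l a α lo hi lam i T else 0) := by
  have h2 : ∀ k ∈ Finset.range m,
      ∑ i ∈ I.filter (fun i => (nm (prd (a i)) : ℝ) ≤ X / (B0 * 2 ^ k)),
        ∑ T ∈ (UX X).powerset, (if u i < v T then (1 : ℂ) else 0) *
          (if bl (B0 * 2 ^ k) T then Kf l a α lo hi lam i T else 0) =
      ∑ i ∈ I, ∑ T ∈ (UX X).powerset, (if u i < v T then (1 : ℂ) else 0) *
        (if bl (B0 * 2 ^ k) T then Kf l a α lo hi lam i T else 0) := by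
    intro k _
    refine Finset.sum_subset (Finset.filter_subset _ _) fun i hi' hni => ?_
    refine Finset.sum_eq_zero fun T _ => ?_
    have hn : ¬ (nm (prd (a i)) : ℝ) ≤ X / (B0 * 2 ^ k) := fun h =>
      hni (Finset.mem_filter.mpr ⟨hi', h⟩)
    by_cases hb : bl (B0 * 2 ^ k) T
    · rw [if_pos hb]
      have : Kf l a α lo hi lam i T = 0 := by
        unfold Kf
        rw [if_neg]
        rintro ⟨-, h4⟩
        apply hn
        rw [le_div_iff₀ (by positivity)]
        have h5 := hhi i hi'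
        have h6 := nm_prd_pos (a i)
        have h7 : B0 * 2 ^ k ≤ hi i := (le_of_lt hb.1).trans h4
        calc (nm (prd (a i)) : ℝ) * (B0 * 2 ^ k) ≤ (nm (prd (a i)) : ℝ) * hi i :=
              mul_le_mul_of_nonneg_left h7 h6.le
          _ = hi i * nm (prd (a i)) := mul_comm _ _
          _ ≤ X := h5
      rw [this, mul_zero]
    · rw [if_neg hb, mul_zero]
  rw [Finset.sum_congr rfl h2, Finset.sum_comm (s := Finset.range m)]
  refine Finset.sum_congr rfl fun i hi' => ?_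
  rw [Finset.sum_comm (s := Finset.range m)]
  refine Finset.sum_congr rfl fun T hT => ?_
  rw [← Finset.mul_sum]
  have h3 : ∑ k ∈ Finset.range m, (if bl (B0 * 2 ^ k) T then Kf l a α lo hi lam i T else 0) =
      (∑ k ∈ Finset.range m, (if bl (B0 * 2 ^ k) T then (1 : ℂ) else 0)) *
        Kf l a α lo hi lam i T := by
    rw [Finset.sum_mul]
    refine Finset.sum_congr rfl fun k _ => ?_
    split_ifs <;> simp
  rw [h3]
  unfold Kf
  by_cases hr : lo i < nm (prd T) ∧ (nm (prd T) : ℝ) ≤ hi i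
  · rw [if_pos hr]
    by_cases hl : lam T = 0
    · rw [hl]; simp
    · have h4 := hlam i hi' T hT hr.1 hr.2 hl
      rw [block_sum hB0 T h4.1 m h4.2]
      by_cases hc : u i < v T
      · rw [if_pos ⟨hr, hc⟩, if_pos hc]; ring
      · rw [if_neg (fun h => hc h.2), if_neg hc]; ring
  · rw [if_neg (fun h => hr h.1), if_neg hr]; ring

open Classical in
/-- **The engine**: index form with range and cross condition, in terms of dyadic `Ix`. -/
theorem engine_ix (l : ℤ) (X : ℕ) {ι : Type} (I : Finset ι) (a : ι → Finset PrP) (α : ι → ℂ)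
    (lo hi : ι → ℝ) (hhi : ∀ i ∈ I, hi i * nm (prd (a i)) ≤ X) (lam : Finset PrP → ℂ) {B0 : ℝ}
    (hB0 : 1 ≤ B0) (m : ℕ)
    (hlam : ∀ i ∈ I, ∀ T ∈ (UX X).powerset, lo i < nm (prd T) → (nm (prd T) : ℝ) ≤ hi i →
      lam T ≠ 0 → B0 < nm (prd T) ∧ (nm (prd T) : ℝ) ≤ B0 * 2 ^ m)
    (u : ι → ℕ) (v : Finset PrP → ℕ) (M : ℕ) (hM : 1 ≤ M) (hu : ∀ i ∈ I, u i < M)
    (hv : ∀ T ∈ (UX X).powerset, v T ≤ M) (Q : ℝ)
    (hQ : ∀ k < m, ∀ φ : ℕ → ℂ, (∀ n, ‖φ n‖ ≤ 1) → ∀ α' : ι → ℂ, (∀ i, ‖α' i‖ ≤ ‖α i‖) →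
      ∀ g : ι → ℝ, ‖Ix l X (I.filter (fun i => (nm (prd (a i)) : ℝ) ≤ X / (B0 * 2 ^ k))) a g α'
        (fun T => if bl (B0 * 2 ^ k) T then φ (v T) * lam T else 0)‖ ≤ Q) :
    ‖∑ i ∈ I, ∑ T ∈ (UX X).powerset,
      (if (lo i < nm (prd T) ∧ (nm (prd T) : ℝ) ≤ hi i) ∧ u i < v T then
        α i * lam T * Fl l (prd (a i) * prd T) else 0)‖ ≤ m * ((2 + Real.log M) * (2 * Q)) := by
  rw [engine_dyadic l X I a α lo hi hhi lam hB0 m hlam u v]
  refine (norm_sum_le _ _).trans ?_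
  have h5 : ∀ k ∈ Finset.range m,
      ‖∑ i ∈ I.filter (fun i => (nm (prd (a i)) : ℝ) ≤ X / (B0 * 2 ^ k)),
        ∑ T ∈ (UX X).powerset, (if u i < v T then (1 : ℂ) else 0) *
          (if bl (B0 * 2 ^ k) T then Kf l a α lo hi lam i T else 0)‖ ≤
        (2 + Real.log M) * (2 * Q) := by
    intro k hk
    exact engine_block l X _ a α lo hi lam (B0 * 2 ^ k) u v M hM
      (fun i hi' => hu i (Finset.mem_filter.mp hi').1) hv Q (hQ k (Finset.mem_range.mp hk))
  refine (Finset.sum_le_sum h5).trans ?_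
  rw [Finset.sum_const, Finset.card_range, nsmul_eq_mul]

/-! ### Ranks -/

open Classical in
/-- rank of a prime among the primes of norm `≤ X` -/
def rk (X : ℕ) (p : PrP) : ℕ := ((UX X).filter (fun q => q < p)).card

lemma rk_lt_iff {X : ℕ} {p q : PrP} (hp : p ∈ UX X) : rk X p < rk X q ↔ p < q := by
  classical
  unfold rk
  constructor
  · intro h
    by_contra hc
    push Not at hc
    refine absurd h (not_lt.mpr (Finset.card_le_card ?_))
    intro x hx
    rw [Finset.mem_filter] at hx ⊢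
    exact ⟨hx.1, lt_of_lt_of_le hx.2 hc⟩
  · intro h
    apply Finset.card_lt_card
    rw [Finset.ssubset_iff_of_subset]
    · exact ⟨p, Finset.mem_filter.mpr ⟨hp, h⟩, fun hx => lt_irrefl _ (Finset.mem_filter.mp hx).2⟩
    · intro x hx
      rw [Finset.mem_filter] at hx ⊢
      exact ⟨hx.1, lt_trans hx.2 h⟩

/-- rank of the smallest prime (`0` for the empty set) -/
def rkm (X : ℕ) (T : Finset PrP) : ℕ := if h : T.Nonempty then rk X (T.min' h) else 0

lemma rk_le_card (X : ℕ) (p : PrP) : rk X p ≤ (UX X).card := Finset.card_filter_le _ _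

lemma rkm_le_card (X : ℕ) (T : Finset PrP) : rkm X T ≤ (UX X).card := by
  unfold rkm
  split_ifs
  · exact rk_le_card X _
  · exact Nat.zero_le _

lemma rkm_lt (X : ℕ) (T : Finset PrP) : rkm X T < (UX X).card + 1 :=
  Nat.lt_succ_of_le (rkm_le_card X T)

/-- the cross condition in terms of ranks -/
lemma ab_iff {X : ℕ} {G T : Finset PrP} (hG : G.Nonempty) (hGX : G ⊆ UX X) (hT : T.Nonempty) :
    (∀ p ∈ T, Ab G p) ↔ rkm X G < rkm X T := by
  unfold rkm
  rw [dif_pos hG, dif_pos hT, rk_lt_iff (hGX (G.min'_mem hG))]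
  constructor
  · intro h
    obtain ⟨q, hq, hqp⟩ := h _ (T.min'_mem hT)
    exact lt_of_le_of_lt (G.min'_le q hq) hqp
  · intro h p hp
    exact ⟨_, G.min'_mem hG, lt_of_lt_of_le h (T.min'_le p hp)⟩

/-- adding a larger prime does not change the rank of the smallest prime -/
lemma rkm_insert {X : ℕ} {T : Finset PrP} (hT : T.Nonempty) {p : PrP} (hp : ∀ q ∈ T, q < p) :
    rkm X (insert p T) = rkm X T := by
  unfold rkm
  rw [dif_pos hT, dif_pos (Finset.insert_nonempty p T)]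
  congr 1
  apply le_antisymm
  · exact Finset.min'_le _ _ (Finset.mem_insert_of_mem (T.min'_mem hT))
  · refine Finset.le_min' _ _ _ fun y hy => ?_
    rcases Finset.mem_insert.mp hy with rfl | hy
    · exact (hp _ (T.min'_mem hT)).le
    · exact T.min'_le y hy

/-! ### Reindexing -/

/-- lower cut -/
def loI (X : ℕ) (V₁ : ℝ) (i : Finset PrP × Finset PrP) : ℝ :=
  max ((⌈V₁ / nm (prd i.2)⌉₊ : ℝ) - 1) (X / (2 * nm (prd (i.1 ∪ i.2))))
/-- upper cut -/
def hiI (X : ℕ) (V₂ : ℝ) (i : Finset PrP × Finset PrP) : ℝ :=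
  min (V₂ / nm (prd i.2)) (X / nm (prd (i.1 ∪ i.2)))

lemma hiI_mul_le (X : ℕ) (V₂ : ℝ) (i : Finset PrP × Finset PrP) :
    hiI X V₂ i * nm (prd (i.1 ∪ i.2)) ≤ X := by
  have h := nm_prd_pos (i.1 ∪ i.2)
  calc hiI X V₂ i * nm (prd (i.1 ∪ i.2)) ≤ (X / nm (prd (i.1 ∪ i.2))) * nm (prd (i.1 ∪ i.2)) :=
        mul_le_mul_of_nonneg_right (min_le_right _ _) h.le
    _ = X := by field_simp

lemma cut_iff {X : ℕ} {V₁ V₂ : ℝ} {S G T : Finset PrP} (hSG : Disjoint S G) (hGT : Disjoint G T) :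
    (loI X V₁ (S, G) < nm (prd T) ∧ (nm (prd T) : ℝ) ≤ hiI X V₂ (S, G)) ↔
      (V₁ ≤ nm (prd (G ∪ T)) ∧ (nm (prd (G ∪ T)) : ℝ) ≤ V₂) ∧
      (X < 2 * nm (prd S * prd (G ∪ T)) ∧ nm (prd S * prd (G ∪ T)) ≤ X) := by
  have hg := nm_prd_pos G
  have hs := nm_prd_pos S
  have e1 : (nm (prd (G ∪ T)) : ℝ) = nm (prd G) * nm (prd T) := by
    rw [prd_union hGT, nm_mul]; push_cast; ring
  have e2 : (nm (prd S * prd (G ∪ T)) : ℝ) = nm (prd S) * (nm (prd G) * nm (prd T)) := by
    rw [nm_mul, prd_union hGT, nm_mul]; push_cast; ring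
  have e3 : (nm (prd (S ∪ G)) : ℝ) = nm (prd S) * nm (prd G) := by
    rw [prd_union hSG, nm_mul]; push_cast; ring
  unfold loI hiI
  simp only
  rw [max_lt_iff, le_min_iff, e1, e3]
  have a1 : ((⌈V₁ / nm (prd G)⌉₊ : ℝ) - 1 < nm (prd T)) ↔ V₁ ≤ nm (prd G) * nm (prd T) := by
    rw [sub_lt_iff_lt_add]
    have : ((⌈V₁ / nm (prd G)⌉₊ : ℝ) < nm (prd T) + 1) ↔ ⌈V₁ / nm (prd G)⌉₊ ≤ nm (prd T) := by
      rw [← Nat.lt_add_one_iff]
      exact_mod_cast Iff.rfl
    rw [this, Nat.ceil_le, div_le_iff₀ hg, mul_comm]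
  have a2 : ((nm (prd T) : ℝ) ≤ V₂ / nm (prd G)) ↔ (nm (prd G) : ℝ) * nm (prd T) ≤ V₂ := by
    rw [le_div_iff₀ hg, mul_comm]
  have a3 : ((X : ℝ) / (2 * (nm (prd S) * nm (prd G))) < nm (prd T)) ↔
      X < 2 * nm (prd S * prd (G ∪ T)) := by
    rw [div_lt_iff₀ (by positivity)]
    have : (X < 2 * nm (prd S * prd (G ∪ T))) ↔ ((X : ℝ) < 2 * nm (prd S * prd (G ∪ T))) := by
      exact_mod_cast Iff.rfl
    rw [this, e2]
    constructor <;> intro h <;> linarith
  have a4 : ((nm (prd T) : ℝ) ≤ X / (nm (prd S) * nm (prd G))) ↔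
      nm (prd S * prd (G ∪ T)) ≤ X := by
    rw [le_div_iff₀ (by positivity)]
    have : (nm (prd S * prd (G ∪ T)) ≤ X) ↔ ((nm (prd S * prd (G ∪ T)) : ℝ) ≤ X) := by
      exact_mod_cast Iff.rfl
    rw [this, e2]
    constructor <;> intro h <;> linarith
  rw [a1, a2, a3, a4]
  tauto

open Classical in
/-- the index set -/
def IxS (X : ℕ) (GG : Finset (Finset PrP)) : Finset (Finset PrP × Finset PrP) :=
  ((UX X).powerset ×ˢ GG).filter (fun i => Disjoint i.1 i.2)

open Classical in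
theorem reindex (l : ℤ) (X : ℕ) (α : Finset PrP → ℂ) (V₁ V₂ : ℝ) (GG : Finset (Finset PrP))
    (c lam : Finset PrP → ℂ) (u v : Finset PrP → ℕ) :
    ∑ G ∈ GG, c G * ∑ T ∈ (UX X \ G).powerset,
      (if u G < v T then lam T * Fa l X α V₁ V₂ (G ∪ T) else 0) =
    ∑ i ∈ IxS X GG, ∑ T ∈ (UX X).powerset,
      (if (loI X V₁ i < nm (prd T) ∧ (nm (prd T) : ℝ) ≤ hiI X V₂ i) ∧ u i.2 < v T then
        (α i.1 * c i.2) * lam T * Fl l (prd (i.1 ∪ i.2) * prd T) else 0) := by
  obtain ⟨tm, htm⟩ : ∃ tm : Finset PrP → Finset PrP → Finset PrP → ℂ, tm = fun S G T =>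
    (if (loI X V₁ (S, G) < nm (prd T) ∧ (nm (prd T) : ℝ) ≤ hiI X V₂ (S, G)) ∧ u G < v T then
        (α S * c G) * lam T * Fl l (prd (S ∪ G) * prd T) else 0) := ⟨_, rfl⟩
  have hR : ∑ i ∈ IxS X GG, ∑ T ∈ (UX X).powerset,
      (if (loI X V₁ i < nm (prd T) ∧ (nm (prd T) : ℝ) ≤ hiI X V₂ i) ∧ u i.2 < v T then
        (α i.1 * c i.2) * lam T * Fl l (prd (i.1 ∪ i.2) * prd T) else 0) =
      ∑ G ∈ GG, ∑ T ∈ (UX X).powerset, ∑ S ∈ (UX X).powerset,
        (if Disjoint S G then tm S G T else 0) := by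
    unfold IxS
    rw [Finset.sum_filter, Finset.sum_product_right]
    refine Finset.sum_congr rfl fun G _ => ?_
    rw [Finset.sum_comm (s := (UX X).powerset) (t := (UX X).powerset)]
    refine Finset.sum_congr rfl fun S _ => ?_
    rw [htm]
    split_ifs with h
    · rfl
    · simp
  rw [hR]
  refine Finset.sum_congr rfl fun G _ => ?_
  have h1 : ∑ T ∈ (UX X).powerset, ∑ S ∈ (UX X).powerset, (if Disjoint S G then tm S G T else 0) =
      ∑ T ∈ (UX X \ G).powerset, ∑ S ∈ (UX X).powerset, (if Disjoint S G then tm S G T else 0) := by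
    symm
    refine Finset.sum_subset (Finset.powerset_mono.mpr Finset.sdiff_subset) fun T hT hnT => ?_
    refine Finset.sum_eq_zero fun S _ => ?_
    split_ifs with hd
    · have hnd : ¬ Disjoint (S ∪ G) T := by
        intro h
        apply hnT
        rw [Finset.mem_powerset] at hT ⊢
        intro p hp
        rw [Finset.mem_sdiff]
        exact ⟨hT hp, fun hpG => (Finset.disjoint_left.mp h (Finset.mem_union_right _ hpG)) hp⟩
      rw [htm]
      simp only [Fl_of_not_disjoint hnd, mul_zero, ite_self]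
    · rfl
  rw [h1, Finset.mul_sum]
  refine Finset.sum_congr rfl fun T hT => ?_
  have hGT : Disjoint G T := by
    rw [Finset.mem_powerset] at hT
    rw [Finset.disjoint_left]
    intro p hp hp'
    exact (Finset.mem_sdiff.mp (hT hp')).2 hp
  by_cases hu : u G < v T
  · rw [if_pos hu]
    unfold Fa
    by_cases hV : V₁ ≤ nm (prd (G ∪ T)) ∧ (nm (prd (G ∪ T)) : ℝ) ≤ V₂
    · rw [if_pos hV, Finset.mul_sum, Finset.mul_sum]
      refine Finset.sum_congr rfl fun S _ => ?_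
      by_cases hd : Disjoint S G
      · rw [if_pos hd, htm]
        simp only
        have hc := cut_iff (X := X) (V₁ := V₁) (V₂ := V₂) hd hGT
        unfold FX
        by_cases hx : X < 2 * nm (prd S * prd (G ∪ T)) ∧ nm (prd S * prd (G ∪ T)) ≤ X
        · rw [if_pos hx, if_pos ⟨hc.mpr ⟨hV, hx⟩, hu⟩, prd_union hGT, prd_union hd]
          ring_nf
        · rw [if_neg hx, if_neg]
          · ring
          · rintro ⟨h, -⟩; exact hx (hc.mp h).2
      · rw [if_neg hd]
        have : FX l X (prd S * prd (G ∪ T)) = 0 := by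
          unfold FX
          split_ifs
          · apply Fl_of_not_disjoint
            intro h
            exact hd (h.mono_right Finset.subset_union_left)
          · rfl
        rw [this]; ring
    · rw [if_neg hV, mul_zero, mul_zero]
      symm
      refine Finset.sum_eq_zero fun S _ => ?_
      split_ifs with hd
      · rw [htm]
        simp only
        rw [if_neg]
        rintro ⟨h, -⟩
        exact hV ((cut_iff (X := X) (V₁ := V₁) (V₂ := V₂) hd hGT).mp h).1
      · rfl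
  · rw [if_neg hu, mul_zero]
    symm
    refine Finset.sum_eq_zero fun S _ => ?_
    split_ifs with hd
    · rw [htm]
      simp only
      rw [if_neg]
      rintro ⟨-, h⟩
      exact hu h
    · rfl

end Crest.Agent.R012.SNHEng828
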