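import Crest.Agent.R012.SieveC_812
import Crest.Agent.R012.Dens_420
import Crest.Agent.R012.SpecMain_48

/-!
# Row 12: primes near `X^(1/2)`, part A: exact identity without the lower bound on the support
-/

set_option autoImplicit false

noncomputable section

namespace Crest.Agent.R012.SNH766

open Finset Eis Buch420 Sieve812

/-- `f` is supported on squarefree `n` of norm `≤ X`. -/
structure Sp (X : ℕ) (f : Eis → ℂ) : Prop where
  sq : ∀ n, f n ≠ 0 → Squarefree n
  le : ∀ n, f n ≠ 0 → nm n ≤ X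

variable {X : ℕ} {f : Eis → ℂ}

lemma f_mul_prd' (hf : Sp X f) {K J : Finset PrP} (h : ¬ Disjoint K J) :
    f (prd K * prd J) = 0 := by
  by_contra hc
  have hs := hf.sq _ hc
  rw [Finset.not_disjoint_iff] at h
  obtain ⟨p, hp, hp'⟩ := h
  exact p.prime.not_isUnit (hs _ (mul_dvd_mul (dvd_prd_iff.mpr hp) (dvd_prd_iff.mpr hp')))

open Classical in
lemma Wt_eq' (hf : Sp X f) (K : Finset PrP) :
    ∑ J ∈ ((UX X \ K).filter (fun p => Ab K p)).powerset, f (prd (K ∪ J)) = Wt X f K := by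
  have h1 : ∀ J ∈ ((UX X \ K).filter (fun p => Ab K p)).powerset,
      f (prd (K ∪ J)) = f (prd K * prd J) := by
    intro J hJ
    rw [Finset.mem_powerset] at hJ
    rw [prd_union]
    rw [Finset.disjoint_left]
    intro x hx hx'
    exact (Finset.mem_sdiff.mp (Finset.mem_filter.mp (hJ hx')).1).2 hx
  rw [Finset.sum_congr rfl h1]
  refine Finset.sum_subset ?_ ?_
  · intro J hJ
    rw [Finset.mem_powerset] at hJ
    rw [Finset.mem_filter, Finset.mem_powerset]
    exact ⟨fun x hx => (Finset.mem_sdiff.mp (Finset.mem_filter.mp (hJ hx)).1).1,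
      fun p hp => (Finset.mem_filter.mp (hJ hp)).2⟩
  · intro J hJ hJ'
    rw [Finset.mem_filter, Finset.mem_powerset] at hJ
    refine f_mul_prd' hf fun hd => hJ' ?_
    rw [Finset.mem_powerset]
    intro x hx
    rw [Finset.mem_filter, Finset.mem_sdiff]
    exact ⟨⟨hJ.1 hx, fun hxK => (Finset.disjoint_left.mp hd) hxK hx⟩, hJ.2 x hx⟩

open Classical in
/-- First application of the Buchstab identity. -/
lemma step1' (hf : Sp X f) {w z D : ℝ} (hwz : w ≤ z) (hD : 1 < D) :
    ∑ T ∈ ((UX X).filter (fun p => z ≤ (nm p.1 : ℝ))).powerset, f (prd T) =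
      ∑ I ∈ (midP X w z).powerset.filter (fun I => nK I < D),
        (-1 : ℂ) ^ I.card *
          ∑ J ∈ ((UX X \ I).filter (fun p => ¬ (nm p.1 : ℝ) < w)).powerset, f (prd (I ∪ J)) +
      ∑ I ∈ (midP X w z).powerset.filter (fun I => Cr PrP.N D I), (-1 : ℂ) ^ I.card * Wt X f I := by
  set U := (UX X).filter (fun p => w ≤ (nm p.1 : ℝ)) with hU
  have hb := buchstab (N := PrP.N) PrP.one_le_N hD U (fun p => (nm p.1 : ℝ) < z)
    (fun p q hpq hq => lt_of_le_of_lt (by exact_mod_cast PrP.nm_le_of_le hpq) hq)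
    (fun T => f (prd T))
  have e1 : U.filter (fun p => ¬ (nm p.1 : ℝ) < z) =
      (UX X).filter (fun p => z ≤ (nm p.1 : ℝ)) := by
    ext p
    simp only [hU, Finset.mem_filter, not_lt]
    constructor
    · rintro ⟨⟨h1, h2⟩, h3⟩; exact ⟨h1, h3⟩
    · rintro ⟨h1, h3⟩; exact ⟨⟨h1, hwz.trans h3⟩, h3⟩
  have e2 : U.filter (fun p => (nm p.1 : ℝ) < z) = midP X w z := by
    ext p
    rw [Finset.mem_filter, Finset.mem_filter, mem_midP, mem_UX]
    exact ⟨fun h => ⟨h.1.1, h.1.2, h.2⟩, fun h => ⟨⟨h.1, h.2.1⟩, h.2.2⟩⟩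
  rw [e1, e2] at hb
  rw [hb]
  have hA : ∀ I ∈ (midP X w z).powerset, (U \ I) = ((UX X \ I).filter
      (fun p => ¬ (nm p.1 : ℝ) < w)) := by
    intro I hI
    ext p
    rw [Finset.mem_sdiff, Finset.mem_filter, Finset.mem_filter, Finset.mem_sdiff, not_lt]
    exact ⟨fun h => ⟨⟨h.1.1, h.2⟩, h.1.2⟩, fun h => ⟨⟨h.1.1, h.2⟩, h.1.2⟩⟩
  have hB : ∀ I ∈ (midP X w z).powerset, ((U \ I).filter (fun p => Ab I p)) =
      ((UX X \ I).filter (fun p => Ab I p)) := by
    intro I hI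
    rw [Finset.mem_powerset] at hI
    ext p
    simp only [hU, Finset.mem_filter, Finset.mem_sdiff]
    constructor
    · rintro ⟨⟨⟨h1, h2⟩, h3⟩, h4⟩; exact ⟨⟨h1, h3⟩, h4⟩
    · rintro ⟨⟨h1, h3⟩, h4⟩
      refine ⟨⟨⟨h1, ?_⟩, h3⟩, h4⟩
      obtain ⟨q, hq, hqp⟩ := h4
      have h5 := (mem_midP.mp (hI hq)).2.1
      have h6 : (nm q.1 : ℝ) ≤ nm p.1 := by exact_mod_cast PrP.nm_le_of_le hqp.le
      linarith
  have s1 : ∑ I ∈ (midP X w z).powerset.filter (fun I => nu PrP.N I < D),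
      (-1 : ℂ) ^ I.card * ∑ J ∈ (U \ I).powerset, f (prd (I ∪ J)) =
      ∑ I ∈ (midP X w z).powerset.filter (fun I => nK I < D),
      (-1 : ℂ) ^ I.card *
        ∑ J ∈ ((UX X \ I).filter (fun p => ¬ (nm p.1 : ℝ) < w)).powerset, f (prd (I ∪ J)) := by
    have hfil : (midP X w z).powerset.filter (fun I => nu PrP.N I < D) =
        (midP X w z).powerset.filter (fun I => nK I < D) :=
      Finset.filter_congr fun I _ => by rw [nK_eq]
    rw [hfil]
    refine Finset.sum_congr rfl fun I hI => ?_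
    rw [hA I (Finset.mem_filter.mp hI).1]
  have s2 : ∑ I ∈ (midP X w z).powerset.filter (fun I => Cr PrP.N D I),
      (-1 : ℂ) ^ I.card * ∑ J ∈ ((U \ I).filter (fun p => Ab I p)).powerset, f (prd (I ∪ J)) =
      ∑ I ∈ (midP X w z).powerset.filter (fun I => Cr PrP.N D I),
        (-1 : ℂ) ^ I.card * Wt X f I := by
    refine Finset.sum_congr rfl fun I hI => ?_
    rw [hB I (Finset.mem_filter.mp hI).1, Wt_eq' hf]
  rw [s1, s2]

open Classical in
lemma step2_key' (hf : Sp X f) {w D Y : ℝ} (hDY : D ≤ Y)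
    (I : Finset PrP) (k1 : ∀ p ∈ I, w ≤ (nm p.1 : ℝ)) (hID : nK I < D) :
      (-1 : ℂ) ^ I.card *
          ∑ J ∈ ((UX X \ I).filter (fun p => ¬ (nm p.1 : ℝ) < w)).powerset, f (prd (I ∪ J)) =
      ∑ I2 ∈ (smP X w).powerset.filter (fun I2 => nK I2 < Y / nK I),
        (-1 : ℂ) ^ (I ∪ I2).card * ∑ n ∈ (primBall X).filter (fun n => prd (I ∪ I2) ∣ n), f n +
      ∑ I2 ∈ (smP X w).powerset.filter (fun I2 => I2.Nonempty ∧ Cr PrP.N (Y / nK I) I2),
        (-1 : ℂ) ^ (I ∪ I2).card * Wt X f (I ∪ I2) := by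
  have hDI : 1 < Y / nK I := by
    rw [one_lt_div (nK_pos I)]; linarith
  have hb := buchstab (N := PrP.N) PrP.one_le_N hDI (UX X \ I) (fun p => (nm p.1 : ℝ) < w)
    (fun p q hpq hq => lt_of_le_of_lt (by exact_mod_cast PrP.nm_le_of_le hpq) hq)
    (fun J => f (prd (I ∪ J)))
  have e1 : (UX X \ I).filter (fun p => (nm p.1 : ℝ) < w) = smP X w := by
    ext p
    rw [Finset.mem_filter, Finset.mem_sdiff, mem_smP, mem_UX]
    exact ⟨fun h => ⟨h.1.1, h.2⟩, fun h => ⟨⟨h.1, fun hp => by linarith [k1 p hp, h.2]⟩, h.2⟩⟩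
  rw [e1] at hb
  rw [hb, mul_add, Finset.mul_sum, Finset.mul_sum]
  have hdj : ∀ I2 ∈ (smP X w).powerset, Disjoint I I2 := by
    intro I2 h2
    rw [Finset.mem_powerset] at h2
    rw [Finset.disjoint_left]
    intro p hp hp'
    linarith [k1 p hp, (mem_smP.mp (h2 hp')).2]
  have hcard : ∀ I2 ∈ (smP X w).powerset, (-1 : ℂ) ^ (I ∪ I2).card =
      (-1 : ℂ) ^ I.card * (-1 : ℂ) ^ I2.card := by
    intro I2 h2
    rw [Finset.card_union_of_disjoint (hdj I2 h2), pow_add]
  have hfil1 : (smP X w).powerset.filter (fun I2 => nu PrP.N I2 < Y / nK I) =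
      (smP X w).powerset.filter (fun I2 => nK I2 < Y / nK I) :=
    Finset.filter_congr fun I2 _ => by rw [nK_eq I2]
  have hfil2 : (smP X w).powerset.filter (fun I2 => Cr PrP.N (Y / nK I) I2) =
      (smP X w).powerset.filter (fun I2 => I2.Nonempty ∧ Cr PrP.N (Y / nK I) I2) :=
    Finset.filter_congr fun I2 _ => ⟨fun h => ⟨h.1, h⟩, fun h => h.2⟩
  have hss : ∀ I2 : Finset PrP, (UX X \ I) \ I2 = UX X \ (I ∪ I2) := by
    intro I2
    ext p
    rw [Finset.mem_sdiff, Finset.mem_sdiff, Finset.mem_sdiff, Finset.mem_union, not_or, and_assoc]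
  rw [hfil1, hfil2]
  refine congrArg₂ (· + ·) ?_ ?_
  · refine Finset.sum_congr rfl fun I2 hI2 => ?_
    have h2 := (Finset.mem_filter.mp hI2).1
    rw [hcard I2 h2, mul_assoc]
    refine congrArg₂ (· * ·) rfl (congrArg₂ (· * ·) rfl ?_)
    rw [← sum_powerset_multiples f (fun n hn => ⟨hf.sq n hn, hf.le n hn⟩), hss]
    refine Finset.sum_congr rfl fun J _ => ?_
    rw [Finset.union_assoc]
  · refine Finset.sum_congr rfl fun I2 hI2 => ?_
    have h2 := (Finset.mem_filter.mp hI2).1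
    have hne := (Finset.mem_filter.mp hI2).2.1
    rw [hcard I2 h2, mul_assoc]
    refine congrArg₂ (· * ·) rfl (congrArg₂ (· * ·) rfl ?_)
    rw [← Wt_eq' hf]
    have hset : ((UX X \ I) \ I2).filter (fun p => Ab I2 p) =
        (UX X \ (I ∪ I2)).filter (fun p => Ab (I ∪ I2) p) := by
      ext p
      rw [Finset.mem_filter, Finset.mem_filter, hss]
      refine and_congr_right fun hp => ?_
      constructor
      · rintro ⟨q, hq, hqp⟩
        exact ⟨q, Finset.mem_union_right _ hq, hqp⟩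
      · rintro ⟨q, hq, hqp⟩
        rcases Finset.mem_union.mp hq with hq | hq
        · obtain ⟨r, hr⟩ := hne
          refine ⟨r, hr, lt_trans (PrP.lt_of_nm_lt ?_) hqp⟩
          have k2 := (mem_smP.mp ((Finset.mem_powerset.mp h2) hr)).2
          exact_mod_cast lt_of_lt_of_le k2 (k1 q hq)
        · exact ⟨q, hq, hqp⟩
    rw [hset]
    refine Finset.sum_congr rfl fun J _ => ?_
    rw [Finset.union_assoc]

open Classical in
/-- Second application of the Buchstab identity (Legendre formula). -/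
lemma step2' (hf : Sp X f) {w z D Y : ℝ} (hwz : w ≤ z) (hDY : D ≤ Y) :
    ∑ I ∈ (midP X w z).powerset.filter (fun I => nK I < D),
        (-1 : ℂ) ^ I.card *
          ∑ J ∈ ((UX X \ I).filter (fun p => ¬ (nm p.1 : ℝ) < w)).powerset, f (prd (I ∪ J)) =
      ∑ K ∈ TIset X w z D Y, (-1 : ℂ) ^ K.card *
          ∑ n ∈ (primBall X).filter (fun n => prd K ∣ n), f n +
      ∑ K ∈ Lset X w z D Y, (-1 : ℂ) ^ K.card * Wt X f K := by
  have key : ∀ I ∈ (midP X w z).powerset.filter (fun I => nK I < D),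
      (-1 : ℂ) ^ I.card *
          ∑ J ∈ ((UX X \ I).filter (fun p => ¬ (nm p.1 : ℝ) < w)).powerset, f (prd (I ∪ J)) =
      ∑ I2 ∈ (smP X w).powerset.filter (fun I2 => nK I2 < Y / nK I),
        (-1 : ℂ) ^ (I ∪ I2).card * ∑ n ∈ (primBall X).filter (fun n => prd (I ∪ I2) ∣ n), f n +
      ∑ I2 ∈ (smP X w).powerset.filter (fun I2 => I2.Nonempty ∧ Cr PrP.N (Y / nK I) I2),
        (-1 : ℂ) ^ (I ∪ I2).card * Wt X f (I ∪ I2) := by
    intro I hI
    rw [Finset.mem_filter, Finset.mem_powerset] at hI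
    exact step2_key' hf hDY I (fun p hp => (mem_midP.mp (hI.1 hp)).2.1) hI.2
  rw [Finset.sum_congr rfl key, Finset.sum_add_distrib]
  have h1 := sum_pair (X := X) hwz (fun I => nK I < D) (fun I I2 => nK I2 < Y / nK I)
    (fun K => (-1 : ℂ) ^ K.card * ∑ n ∈ (primBall X).filter (fun n => prd K ∣ n), f n)
  have h2 := sum_pair (X := X) hwz (fun I => nK I < D)
    (fun I I2 => I2.Nonempty ∧ Cr PrP.N (Y / nK I) I2) (fun K => (-1 : ℂ) ^ K.card * Wt X f K)
  refine congrArg₂ (· + ·) ?_ ?_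
  · rw [← TIset_eq]
    convert h1 using 2
  · rw [← Lset_eq]
    convert h2 using 4

open Classical in
/-- **The exact sieve decomposition** of the sum over `z`-rough numbers. -/
theorem exact' (hf : Sp X f) {w z D Y : ℝ} (hwz : w ≤ z) (hD : 1 < D) (hDY : D ≤ Y) :
    ∑ T ∈ ((UX X).filter (fun p => z ≤ (nm p.1 : ℝ))).powerset, f (prd T) =
      (∑ K ∈ TIset X w z D Y, (-1 : ℂ) ^ K.card *
          (∑ n ∈ (primBall X).filter (fun n => prd K ∣ n), f n)) +
      ∑ K ∈ Lset X w z D Y, (-1 : ℂ) ^ K.card * Wt X f K +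
      ∑ K ∈ Bset X w z D, (-1 : ℂ) ^ K.card * Wt X f K := by
  rw [step1' hf hwz hD, step2' hf hwz hDY]
  rfl

open Classical in
/-- sum over singletons and composites -/
lemma sum_powerset_split (A : Finset PrP) (F : Finset PrP → ℂ) (h0 : F ∅ = 0) :
    ∑ T ∈ A.powerset, F T = ∑ p ∈ A, F {p} + ∑ T ∈ A.powerset.filter (fun T => 2 ≤ T.card), F T := by
  have hinj : Set.InjOn (fun p : PrP => ({p} : Finset PrP)) A := fun a _ b _ hab =>
    Finset.singleton_injective hab
  rw [← Finset.sum_image (f := F) hinj, ← Finset.sum_union]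
  · symm
    refine Finset.sum_subset ?_ ?_
    · intro T hT
      rcases Finset.mem_union.mp hT with hT | hT
      · rw [Finset.mem_image] at hT
        obtain ⟨p, hp, rfl⟩ := hT
        rw [Finset.mem_powerset]
        exact Finset.singleton_subset_iff.mpr hp
      · exact (Finset.mem_filter.mp hT).1
    · intro T hT hT'
      rw [Finset.mem_union, not_or] at hT'
      have h2 : ¬ 2 ≤ T.card := fun h => hT'.2 (Finset.mem_filter.mpr ⟨hT, h⟩)
      have h1 : T.card ≠ 1 := by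
        intro h1
        obtain ⟨p, rfl⟩ := Finset.card_eq_one.mp h1
        exact hT'.1 (Finset.mem_image.mpr
          ⟨p, Finset.mem_powerset.mp hT (Finset.mem_singleton_self p), rfl⟩)
      have h3 : T = ∅ := Finset.card_eq_zero.mp (by omega)
      rw [h3]; exact h0
  · rw [Finset.disjoint_left]
    intro T hT hT'
    rw [Finset.mem_image] at hT
    obtain ⟨p, -, rfl⟩ := hT
    have := (Finset.mem_filter.mp hT').2
    rw [Finset.card_singleton] at this
    omega

end Crest.Agent.R012.SNH766
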