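import Crest.Agent.R012.SNHa_766

/-!
# Row 12: primes near `X^(1/2)`, part B: conversion to the index form
-/

set_option autoImplicit false

noncomputable section

namespace Crest.Agent.R012.SNH766

open Finset Eis Buch420 Sieve812 Main48

open Classical in
/-- dyadic block of a coefficient sequence -/
def dy (k : ℕ) (β : Finset PrP → ℂ) (T : Finset PrP) : ℂ :=
  if (2 : ℝ) ^ k < nK T ∧ nK T ≤ 2 ^ (k + 1) then β T else 0

lemma nK_nat (T : Finset PrP) : nK T = ((nm (prd T) : ℕ) : ℝ) := rfl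

lemma exists_dyad {n : ℕ} (hn : 2 ≤ n) :
    ∃! k : ℕ, (2 : ℝ) ^ k < n ∧ (n : ℝ) ≤ 2 ^ (k + 1) := by
  have h1 : 2 ≤ n - 1 + 1 := by omega
  refine ⟨Nat.log 2 (n - 1), ⟨?_, ?_⟩, ?_⟩
  · have h2 : 2 ^ Nat.log 2 (n - 1) ≤ n - 1 := Nat.pow_log_le_self 2 (by omega)
    have h3 : 2 ^ Nat.log 2 (n - 1) < n := by omega
    exact_mod_cast h3
  · have h2 : n - 1 < 2 ^ (Nat.log 2 (n - 1) + 1) := Nat.lt_pow_succ_log_self (by norm_num) _
    have h3 : n ≤ 2 ^ (Nat.log 2 (n - 1) + 1) := by omega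
    exact_mod_cast h3
  · intro k ⟨h2, h3⟩
    have h2' : 2 ^ k < n := by exact_mod_cast h2
    have h3' : n ≤ 2 ^ (k + 1) := by exact_mod_cast h3
    symm
    rw [Nat.log_eq_iff (Or.inr ⟨by norm_num, by omega⟩)]
    exact ⟨by omega, by omega⟩

/-- upper cut-off -/
def gU (X : ℕ) {ι : Type} (a : ι → Finset PrP) (v2 : ι → ℝ) (i : ι) : ℝ :=
  min (v2 i) ((X : ℝ) / nK (a i))

/-- lower cut-off -/
def gL (X : ℕ) {ι : Type} (a : ι → Finset PrP) (v1 v2 : ι → ℝ) (i : ι) : ℝ :=
  min (gU X a v2 i) (max ((⌈v1 i⌉ : ℝ) - 1) ((X : ℝ) / (2 * nK (a i))))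

lemma cut_iff (X : ℕ) {ι : Type} (a : ι → Finset PrP) (v1 v2 : ι → ℝ) (i : ι) (T : Finset PrP) :
    ((v1 i ≤ nK T ∧ nK T ≤ v2 i) ∧ X < 2 * nm (prd (a i) * prd T) ∧ nm (prd (a i) * prd T) ≤ X) ↔
      (nK T ≤ gU X a v2 i ∧ ¬ nK T ≤ gL X a v1 v2 i) := by
  have ha := nK_pos (a i)
  have e1 : (nm (prd (a i) * prd T) ≤ X) ↔ nK T ≤ (X : ℝ) / nK (a i) := by
    rw [le_div_iff₀ ha, nm_mul]
    rw [nK_nat, nK_nat]
    rw [mul_comm]
    exact_mod_cast Iff.rfl
  have e2 : (X < 2 * nm (prd (a i) * prd T)) ↔ ¬ (nK T ≤ (X : ℝ) / (2 * nK (a i))) := by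
    rw [not_le, div_lt_iff₀ (by positivity), nm_mul, nK_nat, nK_nat]
    have : ((nm (prd T) : ℕ) : ℝ) * (2 * ((nm (prd (a i)) : ℕ) : ℝ)) =
        ((2 * (nm (prd (a i)) * nm (prd T)) : ℕ) : ℝ) := by push_cast; ring
    rw [this]
    exact_mod_cast Iff.rfl
  have e3 : v1 i ≤ nK T ↔ ¬ (nK T ≤ (⌈v1 i⌉ : ℝ) - 1) := by
    rw [not_le, nK_nat]
    constructor
    · intro h
      have := Int.ceil_lt_add_one (v1 i)
      linarith
    · intro h
      have h2 : (⌈v1 i⌉ : ℝ) < ((nm (prd T) : ℤ) : ℝ) + 1 := by push_cast; linarith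
      have h3 : ⌈v1 i⌉ ≤ (nm (prd T) : ℤ) := by
        have : ⌈v1 i⌉ < (nm (prd T) : ℤ) + 1 := by exact_mod_cast h2
        omega
      have h4 := Int.ceil_le.mp h3
      exact_mod_cast h4
  rw [e1, e2, e3]
  unfold gL gU
  constructor
  · rintro ⟨⟨h1, h2⟩, h3, h4⟩
    refine ⟨le_min h2 h4, ?_⟩
    intro h5
    rcases le_max_iff.mp (le_trans h5 (min_le_right _ _)) with h6 | h6
    · exact h1 h6
    · exact h3 h6
  · rintro ⟨h1, h2⟩
    have h3 : ¬ nK T ≤ max ((⌈v1 i⌉ : ℝ) - 1) ((X : ℝ) / (2 * nK (a i))) := fun h => h2 (le_min h1 h)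
    rw [le_max_iff, not_or] at h3
    exact ⟨⟨h3.1, h1.trans (min_le_left _ _)⟩, h3.2, h1.trans (min_le_right _ _)⟩

lemma gL_le (X : ℕ) {ι : Type} (a : ι → Finset PrP) (v1 v2 : ι → ℝ) (i : ι) :
    gL X a v1 v2 i ≤ gU X a v2 i := min_le_left _ _

open Classical in
/-- term by term conversion. -/
lemma term_eq (l : ℤ) (X : ℕ) {ι : Type} (a : ι → Finset PrP) (v1 v2 : ι → ℝ) (i : ι)
    (β : Finset PrP → ℂ) (T : Finset PrP) :
    (if v1 i ≤ nK T ∧ nK T ≤ v2 i then β T * FX l X (prd (a i) * prd T) else 0) =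
      (if (nm (prd T) : ℝ) ≤ gU X a v2 i then β T * Fl l (prd (a i) * prd T) else 0) -
      (if (nm (prd T) : ℝ) ≤ gL X a v1 v2 i then β T * Fl l (prd (a i) * prd T) else 0) := by
  have h := cut_iff X a v1 v2 i T
  have hL := gL_le X a v1 v2 i
  rw [← nK_nat T]
  by_cases h1 : (v1 i ≤ nK T ∧ nK T ≤ v2 i) ∧ X < 2 * nm (prd (a i) * prd T) ∧
      nm (prd (a i) * prd T) ≤ X
  · have h2 := h.mp h1
    rw [if_pos h1.1, if_pos h2.1, if_neg h2.2, sub_zero]
    unfold FX
    rw [if_pos h1.2]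
  · have h3 : (if v1 i ≤ nK T ∧ nK T ≤ v2 i then β T * FX l X (prd (a i) * prd T) else 0) = 0 := by
      split_ifs with h4
      · unfold FX
        rw [if_neg (fun h5 => h1 ⟨h4, h5⟩), mul_zero]
      · rfl
    rw [h3]
    have h5 : ¬ (nK T ≤ gU X a v2 i ∧ ¬ nK T ≤ gL X a v1 v2 i) := fun h6 => h1 (h.mpr h6)
    by_cases h6 : nK T ≤ gU X a v2 i
    · have h7 : nK T ≤ gL X a v1 v2 i := by
        by_contra h8; exact h5 ⟨h6, h8⟩
      rw [if_pos h6, if_pos h7, sub_self]
    · have h7 : ¬ nK T ≤ gL X a v1 v2 i := fun h8 => h6 (h8.trans hL)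
      rw [if_neg h6, if_neg h7, sub_self]

open Classical in
/-- **Conversion to the index form**: if every dyadic index form is bounded by `M`, then the sum with
the cut-offs `v1 i ≤ N(b) ≤ v2 i`, `X/2 < N(a_i b) ≤ X` is bounded by `2 (log₂ X + 1) M`. -/
theorem ix_conv (l : ℤ) (X : ℕ) {ι : Type} (I : Finset ι) (a : ι → Finset PrP)
    (v1 v2 : ι → ℝ) (α : ι → ℂ) (β : Finset PrP → ℂ) {M R1 R2 : ℝ} (hM0 : 0 ≤ M)
    (hR1 : 1 < R1)
    (hv1 : ∀ i ∈ I, R1 ≤ v1 i) (hv2 : ∀ i ∈ I, v2 i ≤ R2)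
    (hM : ∀ k : ℕ, R1 ≤ 2 ^ (k + 1) → (2 : ℝ) ^ k < R2 → ∀ g : ι → ℝ,
      ‖Ix l X (I.filter (fun i => nK (a i) ≤ (X : ℝ) / 2 ^ k)) a g α (dy k β)‖ ≤ M) :
    ‖∑ i ∈ I, α i * ∑ T ∈ (UX X).powerset,
      if v1 i ≤ nK T ∧ nK T ≤ v2 i then β T * FX l X (prd (a i) * prd T) else 0‖ ≤
      2 * (Nat.log 2 X + 1) * M := by
  -- decomposition of each term
  have h1 : ∀ i ∈ I, ∀ T ∈ (UX X).powerset,
      (if v1 i ≤ nK T ∧ nK T ≤ v2 i then β T * FX l X (prd (a i) * prd T) else 0) =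
      ∑ k ∈ Finset.range (Nat.log 2 X + 1),
        (if v1 i ≤ nK T ∧ nK T ≤ v2 i then dy k β T * FX l X (prd (a i) * prd T) else 0) := by
    intro i hi T hT
    by_cases h2 : v1 i ≤ nK T ∧ nK T ≤ v2 i
    · simp only [if_pos h2]
      by_cases h3 : FX l X (prd (a i) * prd T) = 0
      · simp [h3]
      · have h4 : nm (prd (a i) * prd T) ≤ X := by
          unfold FX at h3
          by_contra hc
          exact h3 (if_neg fun h => hc h.2)
        have hTn : 2 ≤ nm (prd T) := by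
          have := hv1 i hi
          have h5 : (1 : ℝ) < nm (prd T) := by
            have := h2.1
            rw [nK_nat] at this
            linarith
          exact_mod_cast h5
        obtain ⟨k, hk, huniq⟩ := exists_dyad hTn
        have hkX : k ∈ Finset.range (Nat.log 2 X + 1) := by
          rw [Finset.mem_range]
          have h5 : 2 ^ k < nm (prd T) := by exact_mod_cast hk.1
          have h6 : nm (prd T) ≤ X := by
            rw [nm_mul] at h4
            have : 0 < nm (prd (a i)) := nm_pos.mpr (prd_ne_zero _)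
            nlinarith
          have h7 : 2 ^ k ≤ X := by omega
          have := Nat.le_log_of_pow_le (by norm_num : 1 < 2) h7
          omega
        rw [Finset.sum_eq_single k]
        · unfold dy
          rw [if_pos (by rw [nK_nat]; exact hk)]
        · intro k' _ hk'
          unfold dy
          rw [if_neg (fun h => hk' (huniq k' (by rw [nK_nat] at h; exact h))), zero_mul]
        · intro h; exact absurd hkX h
    · simp only [if_neg h2]
      simp
  have h2 : (∑ i ∈ I, α i * ∑ T ∈ (UX X).powerset,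
      if v1 i ≤ nK T ∧ nK T ≤ v2 i then β T * FX l X (prd (a i) * prd T) else 0) =
      ∑ k ∈ Finset.range (Nat.log 2 X + 1), ∑ i ∈ I, α i * ∑ T ∈ (UX X).powerset,
        (if v1 i ≤ nK T ∧ nK T ≤ v2 i then dy k β T * FX l X (prd (a i) * prd T) else 0) := by
    rw [Finset.sum_comm]
    refine Finset.sum_congr rfl fun i hi => ?_
    rw [← Finset.mul_sum]
    congr 1
    rw [Finset.sum_comm]
    exact Finset.sum_congr rfl fun T hT => h1 i hi T hT
  rw [h2]
  refine (norm_sum_le _ _).trans ?_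
  have h3 : ∀ k ∈ Finset.range (Nat.log 2 X + 1), ‖∑ i ∈ I, α i * ∑ T ∈ (UX X).powerset,
        (if v1 i ≤ nK T ∧ nK T ≤ v2 i then dy k β T * FX l X (prd (a i) * prd T) else 0)‖ ≤
        2 * M := by
    intro k _
    by_cases hk1 : R1 ≤ 2 ^ (k + 1) ∧ (2 : ℝ) ^ k < R2
    · -- restrict to the indices with `N(a_i) ≤ X/2^k`
      have h4 : (∑ i ∈ I, α i * ∑ T ∈ (UX X).powerset,
          (if v1 i ≤ nK T ∧ nK T ≤ v2 i then dy k β T * FX l X (prd (a i) * prd T) else 0)) =
          ∑ i ∈ I.filter (fun i => nK (a i) ≤ (X : ℝ) / 2 ^ k), α i * ∑ T ∈ (UX X).powerset,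
          (if v1 i ≤ nK T ∧ nK T ≤ v2 i then dy k β T * FX l X (prd (a i) * prd T) else 0) := by
        symm
        refine Finset.sum_subset (Finset.filter_subset _ _) ?_
        intro i hi hi'
        have h5 : ¬ nK (a i) ≤ (X : ℝ) / 2 ^ k := fun h => hi' (Finset.mem_filter.mpr ⟨hi, h⟩)
        refine mul_eq_zero_of_right _ (Finset.sum_eq_zero fun T _ => ?_)
        split_ifs with h6
        · by_cases h7 : (2 : ℝ) ^ k < nK T ∧ nK T ≤ 2 ^ (k + 1)
          · have h8 : FX l X (prd (a i) * prd T) = 0 := by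
              unfold FX
              refine if_neg fun h9 => h5 ?_
              have h10 : (nK (a i)) * nK T ≤ X := by
                have := h9.2
                rw [nm_mul] at this
                rw [nK_nat, nK_nat]
                exact_mod_cast this
              rw [le_div_iff₀ (by positivity)]
              have := nK_pos (a i)
              nlinarith [h7.1]
            rw [h8, mul_zero]
          · unfold dy
            rw [if_neg h7, zero_mul]
        · rfl
      rw [h4]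
      have h5 : (∑ i ∈ I.filter (fun i => nK (a i) ≤ (X : ℝ) / 2 ^ k),
          α i * ∑ T ∈ (UX X).powerset,
          (if v1 i ≤ nK T ∧ nK T ≤ v2 i then dy k β T * FX l X (prd (a i) * prd T) else 0)) =
          Ix l X (I.filter (fun i => nK (a i) ≤ (X : ℝ) / 2 ^ k)) a (gU X a v2) α (dy k β) -
          Ix l X (I.filter (fun i => nK (a i) ≤ (X : ℝ) / 2 ^ k)) a (gL X a v1 v2) α (dy k β) := by
        unfold Ix
        rw [← Finset.sum_sub_distrib]
        refine Finset.sum_congr rfl fun i _ => ?_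
        rw [← mul_sub, ← Finset.sum_sub_distrib]
        congr 1
        exact Finset.sum_congr rfl fun T _ => term_eq l X a v1 v2 i (dy k β) T
      rw [h5]
      refine (norm_sub_le _ _).trans ?_
      have := hM k hk1.1 hk1.2 (gU X a v2)
      have := hM k hk1.1 hk1.2 (gL X a v1 v2)
      linarith
    · have h4 : (∑ i ∈ I, α i * ∑ T ∈ (UX X).powerset,
          (if v1 i ≤ nK T ∧ nK T ≤ v2 i then dy k β T * FX l X (prd (a i) * prd T) else 0)) = 0 := by
        refine Finset.sum_eq_zero fun i hi => ?_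
        refine mul_eq_zero_of_right _ (Finset.sum_eq_zero fun T _ => ?_)
        split_ifs with h6
        · unfold dy
          rw [if_neg, zero_mul]
          rintro ⟨h7, h8⟩
          exact hk1 ⟨(hv1 i hi).trans (h6.1.trans h8), lt_of_lt_of_le h7 (h6.2.trans (hv2 i hi))⟩
        · rfl
      rw [h4, norm_zero]; linarith
  refine (Finset.sum_le_sum h3).trans ?_
  rw [Finset.sum_const, Finset.card_range, nsmul_eq_mul]
  push_cast
  linarith

end Crest.Agent.R012.SNH766
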