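import Crest.Agent.R012.BuchE_420
import Crest.Agent.R012.Dens_420

/-!
# Row 12, item SWB (helper994): Siegel–Walfisz for coefficients of class `ClsB`

Combinatorial core: from a bound for `∑_{p ≤ m} F p` to a bound for `∑_T β T ∏_{p ∈ T} F p`,
where the largest prime of `T` runs over an interval.
-/

set_option autoImplicit false

noncomputable section

namespace Crest.Agent.R012.SWB994

open Finset Eis Buch420

/-- The class of coefficients: `β` lives on nonempty finite sets of primary primes of norm `≥ w`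
(i.e. on squarefree `w`-rough primary numbers `≠ 1`); the largest prime runs over an interval
depending on the other primes, the coefficient is an arbitrary bounded function of the other
primes. -/
structure ClsB (w : ℝ) (β : Finset PrP → ℂ) : Prop where
  empty : β ∅ = 0
  rough : ∀ T, β T ≠ 0 → ∀ p ∈ T, w ≤ (nm p.1 : ℝ)
  ex : ∃ (c : Finset PrP → ℂ) (lo hi : Finset PrP → ℕ), (∀ T, ‖c T‖ ≤ 1) ∧
    ∀ (T : Finset PrP) (p : PrP), (∀ q ∈ T, q < p) →
      β (insert p T) = if lo T ≤ nm p.1 ∧ nm p.1 < hi T then c T else 0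

/-- all `T` with `nm (prd T) ≤ n` -/
def TB (n : ℕ) : Finset (Finset PrP) := (UX n).powerset.filter (fun T => nm (prd T) ≤ n)

lemma nm_le_of_mem {T : Finset PrP} {p : PrP} (h : p ∈ T) : nm p.1 ≤ nm (prd T) :=
  nm_le_of_dvd' (prd_ne_zero T) (dvd_prd_iff.mpr h)

lemma mem_TB {n : ℕ} {T : Finset PrP} : T ∈ TB n ↔ nm (prd T) ≤ n := by
  unfold TB
  rw [Finset.mem_filter, Finset.mem_powerset]
  refine ⟨fun h => h.2, fun h => ⟨fun p hp => ?_, h⟩⟩
  rw [mem_UX]
  exact (nm_le_of_mem hp).trans h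

lemma exists_max {T : Finset PrP} (hT : T.Nonempty) :
    ∃ p ∈ T, ∀ q ∈ T.erase p, q < p := by
  refine ⟨T.max' hT, T.max'_mem hT, fun q hq => ?_⟩
  rw [Finset.mem_erase] at hq
  exact lt_of_le_of_ne (T.le_max' q hq.2) hq.1

lemma ClsB.norm_le {w : ℝ} {β : Finset PrP → ℂ} (h : ClsB w β) (T : Finset PrP) : ‖β T‖ ≤ 1 := by
  rcases T.eq_empty_or_nonempty with rfl | hT
  · rw [h.empty]; simp
  · obtain ⟨p, hp, hlt⟩ := exists_max hT
    obtain ⟨c, lo, hi, hc, hβ⟩ := h.ex
    rw [← Finset.insert_erase hp, hβ _ _ hlt]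
    split_ifs
    · exact hc _
    · simp

/-- Decomposition of a sum over finite sets according to the largest element. -/
lemma sum_powerset_max (U : Finset PrP) (g : Finset PrP → ℂ) :
    ∑ T ∈ U.powerset, g T = g ∅ +
      ∑ T ∈ U.powerset, ∑ p ∈ U.filter (fun p => ∀ q ∈ T, q < p), g (insert p T) := by
  classical
  have h1 : ∑ T ∈ U.powerset, g T = g ∅ + ∑ T ∈ U.powerset.erase ∅, g T :=
    (Finset.add_sum_erase _ _ (Finset.empty_mem_powerset U)).symm
  rw [h1, Finset.sum_sigma' U.powerset (fun T => U.filter (fun p => ∀ q ∈ T, q < p))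
    (fun T p => g (insert p T))]
  congr 1
  symm
  refine Finset.sum_nbij (fun x => insert x.2 x.1) ?_ ?_ ?_ ?_
  · intro x hx
    simp only [Finset.mem_sigma, Finset.mem_powerset, Finset.mem_filter] at hx
    rw [Finset.mem_erase, Finset.mem_powerset]
    exact ⟨Finset.insert_ne_empty _ _, Finset.insert_subset hx.2.1 hx.1⟩
  · rintro ⟨T, p⟩ hx ⟨T', p'⟩ hx' h
    simp only [Finset.mem_coe, Finset.mem_sigma, Finset.mem_powerset, Finset.mem_filter] at hx hx' h
    have hpT : p ∉ T := fun hp => lt_irrefl _ (hx.2.2 p hp)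
    have hpT' : p' ∉ T' := fun hp => lt_irrefl _ (hx'.2.2 p' hp)
    have e1 : p = p' := by
      have a1 : p ∈ insert p' T' := by rw [← h]; exact Finset.mem_insert_self _ _
      have a2 : p' ∈ insert p T := by rw [h]; exact Finset.mem_insert_self _ _
      rw [Finset.mem_insert] at a1 a2
      rcases a1 with a1 | a1
      · exact a1
      rcases a2 with a2 | a2
      · exact a2.symm
      · exact absurd ((hx'.2.2 p a1).trans (hx.2.2 p' a2)) (lt_irrefl _)
    subst e1
    have e2 : T = T' := by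
      rw [← Finset.erase_insert hpT, h, Finset.erase_insert hpT']
    subst e2
    rfl
  · intro T hT
    simp only [Finset.mem_coe, Finset.mem_erase, Finset.mem_powerset] at hT
    obtain ⟨p, hp, hlt⟩ := exists_max (Finset.nonempty_iff_ne_empty.mpr hT.1)
    refine ⟨⟨T.erase p, p⟩, ?_, Finset.insert_erase hp⟩
    simp only [Finset.mem_coe, Finset.mem_sigma, Finset.mem_powerset, Finset.mem_filter]
    exact ⟨(Finset.erase_subset _ _).trans hT.2, hT.2 hp, hlt⟩
  · intro x _
    rfl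

/-- number of `T ⊆ U` with `nm (prd T) * R ≤ n` -/
lemma card_le (S : Finset (Finset PrP)) (n : ℕ) {R : ℝ} (hR : 0 < R)
    (hS : ∀ T ∈ S, (nm (prd T) : ℝ) * R ≤ n) : (S.card : ℝ) ≤ 12 * n / R := by
  classical
  rcases S.eq_empty_or_nonempty with rfl | ⟨T0, hT0⟩
  · simp; positivity
  · have h0 := hS T0 hT0
    have h1 : (1 : ℝ) ≤ nm (prd T0) := by
      have := nm_pos.mpr (prd_ne_zero T0)
      exact_mod_cast this
    have h2 : 1 ≤ (n : ℝ) / R := by
      rw [le_div_iff₀ hR]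
      nlinarith
    have h3 := Dens420.card_nm_le h2 (S.image prd) (fun z hz => by
      rw [Finset.mem_image] at hz
      obtain ⟨T, hT, rfl⟩ := hz
      rw [le_div_iff₀ hR]
      exact hS T hT)
    rw [Finset.card_image_of_injective _ prd_injective] at h3
    rw [mul_div_assoc]
    exact h3

lemma nmpos (p : PrP) : (0 : ℝ) < nm p.1 := Dens420.nm_pos' p

/-- sums over `{p : m < nm p ≤ N}` -/
lemma sum_Ioc (F : PrP → ℂ) {n m N : ℕ} (hN : N ≤ n) (hmN : m ≤ N) :
    ∑ p ∈ (UX n).filter (fun p => m < nm p.1 ∧ nm p.1 ≤ N), F p =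
      ∑ p ∈ UX N, F p - ∑ p ∈ UX m, F p := by
  classical
  have h1 : UX m ⊆ UX N := fun p hp => by rw [mem_UX] at *; omega
  have h2 : (UX n).filter (fun p => m < nm p.1 ∧ nm p.1 ≤ N) = UX N \ UX m := by
    ext p
    simp only [Finset.mem_filter, Finset.mem_sdiff, mem_UX]
    omega
  rw [h2, eq_sub_iff_add_eq, Finset.sum_sdiff h1]

/-- The inner sum over the largest prime. -/
lemma inner_bound {w : ℝ} (hw : 1 ≤ w) {F : PrP → ℂ} (hF : ∀ p, ‖F p‖ ≤ 1) {n : ℕ} {δ : ℝ}
    (hδ : 0 ≤ δ) (hS : ∀ m : ℕ, w ≤ (m : ℝ) + 1 → m ≤ n → ‖∑ p ∈ UX m, F p‖ ≤ δ * m)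
    (K T : Finset PrP) (lo hi z : ℕ) (hz : 0 < z)
    (hw' : ∀ p : PrP, (∀ q ∈ T, q < p) → lo ≤ nm p.1 → nm p.1 < hi → w ≤ (nm p.1 : ℝ)) :
    ‖∑ p ∈ (UX n).filter (fun p => (∀ q ∈ T, q < p) ∧ nm p.1 * z ≤ n ∧ p ∉ K ∧
        lo ≤ nm p.1 ∧ nm p.1 < hi), F p‖ ≤
      2 * δ * n / z +
      (((UX n).filter (fun p => p ∈ K ∧ w ≤ (nm p.1 : ℝ) ∧ nm p.1 * z ≤ n)).card : ℝ) +
      (((UX n).filter (fun p => (∃ q ∈ T, nm q.1 = nm p.1) ∧ w ≤ (nm p.1 : ℝ) ∧
        nm p.1 * z ≤ n)).card : ℝ) := by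
  classical
  set P1 := (UX n).filter (fun p => (∀ q ∈ T, q < p) ∧ nm p.1 * z ≤ n ∧ p ∉ K ∧
        lo ≤ nm p.1 ∧ nm p.1 < hi) with hP1
  set N := n / z with hN
  set m := T.sup (fun q => nm q.1) with hm
  set a := max lo ⌈w⌉₊ with ha
  set P2 := (UX n).filter (fun p => m < nm p.1 ∧ nm p.1 * z ≤ n ∧ a ≤ nm p.1 ∧ nm p.1 < hi) with hP2
  set E1 := (UX n).filter (fun p => p ∈ K ∧ w ≤ (nm p.1 : ℝ) ∧ nm p.1 * z ≤ n) with hE1
  set E2 := (UX n).filter (fun p => (∃ q ∈ T, nm q.1 = nm p.1) ∧ w ≤ (nm p.1 : ℝ) ∧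
        nm p.1 * z ≤ n) with hE2
  have hmq : ∀ q ∈ T, nm q.1 ≤ m := fun q hq => Finset.le_sup (f := fun q : PrP => nm q.1) hq
  have hdiff1 : P1 \ P2 ⊆ E2 := by
    intro p hp
    rw [Finset.mem_sdiff, hP1, hP2, Finset.mem_filter, Finset.mem_filter] at hp
    obtain ⟨⟨hpU, hpT, hpn, hpK, hplo, hphi⟩, hp2⟩ := hp
    have hpw := hw' p hpT hplo hphi
    have hpa : a ≤ nm p.1 := by
      rw [ha, max_le_iff]
      exact ⟨hplo, Nat.ceil_le.mpr hpw⟩
    have hle : nm p.1 ≤ m := by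
      by_contra hc
      push Not at hc
      exact hp2 ⟨hpU, hc, hpn, hpa, hphi⟩
    have hTne : T.Nonempty := by
      by_contra hc
      rw [Finset.not_nonempty_iff_eq_empty] at hc
      have hm0 : m = 0 := by rw [hm, hc]; simp
      have := p.two_le_nm
      omega
    obtain ⟨q, hq, hqm⟩ := Finset.exists_mem_eq_sup T hTne (fun q => nm q.1)
    rw [hE2, Finset.mem_filter]
    refine ⟨hpU, ⟨q, hq, ?_⟩, hpw, hpn⟩
    have h1 := PrP.nm_le_of_le (hpT q hq).le
    have h2 : m = nm q.1 := hqm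
    omega
  have hdiff2 : P2 \ P1 ⊆ E1 := by
    intro p hp
    rw [Finset.mem_sdiff, hP1, hP2, Finset.mem_filter, Finset.mem_filter] at hp
    obtain ⟨⟨hpU, hpm, hpn, hpa, hphi⟩, hp2⟩ := hp
    rw [ha, max_le_iff] at hpa
    have hpT : ∀ q ∈ T, q < p := fun q hq => PrP.lt_of_nm_lt (lt_of_le_of_lt (hmq q hq) hpm)
    rw [hE1, Finset.mem_filter]
    refine ⟨hpU, ?_, Nat.ceil_le.mp hpa.2, hpn⟩
    by_contra hc
    exact hp2 ⟨hpU, hpT, hpn, hc, hpa.1, hphi⟩
  have hP2b : ‖∑ p ∈ P2, F p‖ ≤ 2 * δ * n / z := by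
    set b := min N (hi - 1) with hb
    set a' := max m (a - 1) with ha'
    have ha0 : 0 < a := by
      have h1 : 0 < ⌈w⌉₊ := Nat.ceil_pos.mpr (by linarith)
      have h2 : ⌈w⌉₊ ≤ a := le_max_right _ _
      omega
    by_cases hab : a' < b ∧ 0 < hi
    · obtain ⟨hab, hhi⟩ := hab
      have hNn : N ≤ n := Nat.div_le_self _ _
      have e : P2 = (UX n).filter (fun p => a' < nm p.1 ∧ nm p.1 ≤ b) := by
        rw [hP2]
        ext p
        simp only [Finset.mem_filter]
        have e1 : nm p.1 * z ≤ n ↔ nm p.1 ≤ N := by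
          rw [hN, Nat.le_div_iff_mul_le hz]
        rw [e1]
        refine and_congr_right fun _ => ?_
        rw [ha', hb, max_lt_iff, le_min_iff]
        omega
      rw [e, sum_Ioc F ((min_le_left _ _).trans hNn) hab.le]
      have hwa : w ≤ (a' : ℝ) + 1 := by
        have h1 : ⌈w⌉₊ ≤ a' + 1 := by
          have h2 : ⌈w⌉₊ ≤ a := le_max_right _ _
          have h3 : a - 1 ≤ a' := le_max_right _ _
          omega
        have h4 := Nat.le_ceil w
        have h5 : ((⌈w⌉₊ : ℕ) : ℝ) ≤ (a' : ℝ) + 1 := by exact_mod_cast h1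
        linarith
      have hbN : b ≤ N := min_le_left _ _
      have b1 := hS a' hwa (by omega)
      have hwb : w ≤ (b : ℝ) + 1 := by
        have : (a' : ℝ) ≤ b := by exact_mod_cast hab.le
        linarith
      have b2 := hS b hwb (by omega)
      have hNz : (N : ℝ) ≤ n / z := Nat.cast_div_le
      have hbN' : (b : ℝ) ≤ N := by exact_mod_cast hbN
      have habR : (a' : ℝ) ≤ b := by exact_mod_cast hab.le
      calc ‖∑ p ∈ UX b, F p - ∑ p ∈ UX a', F p‖ ≤ ‖∑ p ∈ UX b, F p‖ + ‖∑ p ∈ UX a', F p‖ :=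
            norm_sub_le _ _
        _ ≤ δ * b + δ * a' := add_le_add b2 b1
        _ ≤ δ * (n / z) + δ * (n / z) := by
            gcongr
            · linarith
            · linarith
        _ = 2 * δ * n / z := by ring
    · have e : P2 = ∅ := by
        rw [Finset.eq_empty_iff_forall_notMem]
        intro p hp
        rw [hP2, Finset.mem_filter] at hp
        obtain ⟨hpU, hpm, hpn, hpa, hphi⟩ := hp
        apply hab
        have e1 : nm p.1 ≤ N := by rw [hN, Nat.le_div_iff_mul_le hz]; exact hpn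
        have h2 := p.two_le_nm
        refine ⟨?_, by omega⟩
        rw [ha', hb, max_lt_iff, lt_min_iff, lt_min_iff]
        omega
      rw [e]
      simp
      positivity
  have hsplit : ∑ p ∈ P1, F p = ∑ p ∈ P2, F p - ∑ p ∈ P2 \ P1, F p + ∑ p ∈ P1 \ P2, F p := by
    have h1 : ∑ p ∈ P1, F p = ∑ p ∈ P1 \ P2, F p + ∑ p ∈ P1 ∩ P2, F p := by
      rw [← Finset.sum_union (Finset.disjoint_sdiff_inter P1 P2), Finset.sdiff_union_inter]
    have h2 : ∑ p ∈ P2, F p = ∑ p ∈ P2 \ P1, F p + ∑ p ∈ P1 ∩ P2, F p := by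
      rw [Finset.inter_comm, ← Finset.sum_union (Finset.disjoint_sdiff_inter P2 P1),
        Finset.sdiff_union_inter]
    rw [h1, h2]
    ring
  rw [hsplit]
  have hcard : ∀ s : Finset PrP, ‖∑ p ∈ s, F p‖ ≤ s.card := by
    intro s
    refine (norm_sum_le_of_le _ (n := fun _ => 1) (fun p _ => hF p)).trans ?_
    simp
  have c1 : ((P2 \ P1).card : ℝ) ≤ E1.card := by exact_mod_cast Finset.card_le_card hdiff2
  have c2 : ((P1 \ P2).card : ℝ) ≤ E2.card := by exact_mod_cast Finset.card_le_card hdiff1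
  calc _ ≤ ‖∑ p ∈ P2, F p‖ + ‖∑ p ∈ P2 \ P1, F p‖ + ‖∑ p ∈ P1 \ P2, F p‖ :=
        (norm_add_le _ _).trans (by gcongr; exact norm_sub_le _ _)
    _ ≤ _ := by
        have := hcard (P2 \ P1)
        have := hcard (P1 \ P2)
        linarith

set_option maxHeartbeats 2000000 in
/-- Abstract form. -/
theorem core {w : ℝ} (hw : 1 ≤ w) {β : Finset PrP → ℂ} (hβ : ClsB w β) {F : PrP → ℂ}
    (hF : ∀ p, ‖F p‖ ≤ 1) {n : ℕ} {δ : ℝ} (hδ : 0 ≤ δ)
    (hS : ∀ m : ℕ, w ≤ (m : ℝ) + 1 → m ≤ n → ‖∑ p ∈ UX m, F p‖ ≤ δ * m) (K : Finset PrP) :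
    ‖∑ T ∈ (TB n).filter (fun T => Disjoint T K), β T * ∏ p ∈ T, F p‖ ≤
      2 * δ * n * (∑ T ∈ (UX n).powerset, 1 / (nm (prd T) : ℝ)) + 12 * n * K.card / w +
      24 * n / w * (∑ p ∈ UX n, 1 / (nm p.1 : ℝ)) := by
  classical
  obtain ⟨c, lo, hi, hc, hβ'⟩ := hβ.ex
  set U := UX n with hU
  set g : Finset PrP → ℂ := fun T => if nm (prd T) ≤ n ∧ Disjoint T K then
    β T * ∏ p ∈ T, F p else 0 with hg
  have h1 : ∑ T ∈ (TB n).filter (fun T => Disjoint T K), β T * ∏ p ∈ T, F p =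
      ∑ T ∈ U.powerset, g T := by
    rw [hg, ← Finset.sum_filter]
    refine Finset.sum_congr ?_ fun _ _ => rfl
    unfold TB
    rw [Finset.filter_filter]
  have h2 : g ∅ = 0 := by rw [hg]; simp [hβ.empty]
  rw [h1, sum_powerset_max, h2, zero_add]
  -- bounds for the inner sums
  set E1 : Finset PrP → Finset PrP := fun T =>
    U.filter (fun p => p ∈ K ∧ w ≤ (nm p.1 : ℝ) ∧ nm p.1 * nm (prd T) ≤ n) with hE1
  set E2 : Finset PrP → Finset PrP := fun T =>
    U.filter (fun p => (∃ q ∈ T, nm q.1 = nm p.1) ∧ w ≤ (nm p.1 : ℝ) ∧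
        nm p.1 * nm (prd T) ≤ n) with hE2
  have hprodF : ∀ T : Finset PrP, ‖∏ p ∈ T, F p‖ ≤ 1 := by
    intro T
    rw [norm_prod]
    exact Finset.prod_le_one (fun p _ => norm_nonneg _) (fun p _ => hF p)
  have h3 : ∀ T ∈ U.powerset, ‖∑ p ∈ U.filter (fun p => ∀ q ∈ T, q < p), g (insert p T)‖ ≤
      2 * δ * n / nm (prd T) + (E1 T).card + (E2 T).card := by
    intro T _
    have hz : 0 < nm (prd T) := nm_pos.mpr (prd_ne_zero T)
    have hRHS : 0 ≤ 2 * δ * n / nm (prd T) + ((E1 T).card : ℝ) + (E2 T).card := by positivity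
    by_cases hcT : c T = 0 ∨ ¬ Disjoint T K
    · have : ∑ p ∈ U.filter (fun p => ∀ q ∈ T, q < p), g (insert p T) = 0 := by
        refine Finset.sum_eq_zero fun p hp => ?_
        rw [Finset.mem_filter] at hp
        simp only [hg]
        rcases hcT with hcT | hcT
        · rw [hβ' T p hp.2, hcT]; simp
        · rw [if_neg]
          rintro ⟨-, h⟩
          exact hcT (h.mono_left (Finset.subset_insert _ _))
      rw [this, norm_zero]
      exact hRHS
    · push Not at hcT
      obtain ⟨hcT, hTK⟩ := hcT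
      have hterm : ∑ p ∈ U.filter (fun p => ∀ q ∈ T, q < p), g (insert p T) =
          c T * (∏ p ∈ T, F p) * ∑ p ∈ U.filter (fun p => (∀ q ∈ T, q < p) ∧
            nm p.1 * nm (prd T) ≤ n ∧ p ∉ K ∧ lo T ≤ nm p.1 ∧ nm p.1 < hi T), F p := by
        rw [← Finset.filter_filter, Finset.sum_filter (s := U.filter (fun p => ∀ q ∈ T, q < p)),
          Finset.mul_sum]
        refine Finset.sum_congr rfl fun p hp => ?_
        rw [Finset.mem_filter] at hp
        have hpT : p ∉ T := fun h => lt_irrefl _ (hp.2 p h)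
        have hdj : Disjoint (insert p T) K ↔ p ∉ K := by
          rw [Finset.disjoint_insert_left]
          exact ⟨fun h => h.1, fun h => ⟨h, hTK⟩⟩
        have hgp : g (insert p T) = if nm p.1 * nm (prd T) ≤ n ∧ p ∉ K then
            (if lo T ≤ nm p.1 ∧ nm p.1 < hi T then c T else 0) * (F p * ∏ x ∈ T, F x) else 0 := by
          simp only [hg]
          rw [prd_insert hpT, nm_mul, hβ' T p hp.2, Finset.prod_insert hpT]
          exact if_congr (and_congr_right fun _ => hdj) rfl rfl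
        rw [hgp]
        by_cases c1 : nm p.1 * nm (prd T) ≤ n
        · by_cases c2 : p ∈ K
          · rw [if_neg (fun h => h.2 c2), if_neg (fun h => h.2.1 c2), mul_zero]
          · rw [if_pos ⟨c1, c2⟩]
            by_cases c3 : lo T ≤ nm p.1 ∧ nm p.1 < hi T
            · rw [if_pos c3, if_pos ⟨c1, c2, c3.1, c3.2⟩]
              ring
            · rw [if_neg c3, if_neg (fun h => c3 h.2.2), zero_mul, mul_zero]
        · rw [if_neg (fun h => c1 h.1), if_neg (fun h => c1 h.1), mul_zero]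
      rw [hterm]
      have hw' : ∀ p : PrP, (∀ q ∈ T, q < p) → lo T ≤ nm p.1 → nm p.1 < hi T →
          w ≤ (nm p.1 : ℝ) := by
        intro p hp h1 h2
        refine hβ.rough (insert p T) ?_ p (Finset.mem_insert_self _ _)
        rw [hβ' T p hp, if_pos ⟨h1, h2⟩]
        exact hcT
      have hin := inner_bound hw hF hδ hS K T (lo T) (hi T) (nm (prd T)) hz hw'
      rw [norm_mul, norm_mul]
      calc ‖c T‖ * ‖∏ p ∈ T, F p‖ * ‖∑ p ∈ U.filter (fun p => (∀ q ∈ T, q < p) ∧
            nm p.1 * nm (prd T) ≤ n ∧ p ∉ K ∧ lo T ≤ nm p.1 ∧ nm p.1 < hi T), F p‖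
          ≤ 1 * 1 * (2 * δ * n / nm (prd T) + (E1 T).card + (E2 T).card) := by
            gcongr
            · exact hc T
            · exact hprodF T
        _ = _ := by ring
  refine (norm_sum_le_of_le _ h3).trans ?_
  rw [Finset.sum_add_distrib, Finset.sum_add_distrib]
  have hw0 : 0 < w := by linarith
  -- first term
  have t1 : ∑ T ∈ U.powerset, 2 * δ * n / (nm (prd T) : ℝ) =
      2 * δ * n * (∑ T ∈ U.powerset, 1 / (nm (prd T) : ℝ)) := by
    rw [Finset.mul_sum]
    refine Finset.sum_congr rfl fun T _ => by ring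
  -- second term
  have t2 : ∑ T ∈ U.powerset, ((E1 T).card : ℝ) ≤ 12 * n * K.card / w := by
    have e1 : ∀ T ∈ U.powerset, ((E1 T).card : ℝ) ≤
        ∑ p ∈ K, if w ≤ (nm p.1 : ℝ) ∧ nm p.1 * nm (prd T) ≤ n then (1 : ℝ) else 0 := by
      intro T _
      rw [← Finset.sum_filter, Finset.sum_const, nsmul_eq_mul, mul_one]
      have : E1 T ⊆ K.filter (fun p => w ≤ (nm p.1 : ℝ) ∧ nm p.1 * nm (prd T) ≤ n) := by
        intro p hp
        rw [hE1, Finset.mem_filter] at hp
        rw [Finset.mem_filter]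
        exact ⟨hp.2.1, hp.2.2⟩
      exact_mod_cast Finset.card_le_card this
    refine (Finset.sum_le_sum e1).trans ?_
    rw [Finset.sum_comm]
    have e2 : ∀ p ∈ K, (∑ T ∈ U.powerset, if w ≤ (nm p.1 : ℝ) ∧ nm p.1 * nm (prd T) ≤ n
        then (1 : ℝ) else 0) ≤ 12 * n / w := by
      intro p _
      rw [← Finset.sum_filter, Finset.sum_const, nsmul_eq_mul, mul_one]
      refine card_le _ n hw0 fun T hT => ?_
      rw [Finset.mem_filter] at hT
      have h1 : ((nm p.1 * nm (prd T) : ℕ) : ℝ) ≤ n := by exact_mod_cast hT.2.2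
      push_cast at h1
      have h2 : (0 : ℝ) ≤ nm (prd T) := by positivity
      nlinarith [hT.2.1]
    refine (Finset.sum_le_sum e2).trans ?_
    rw [Finset.sum_const, nsmul_eq_mul]
    apply le_of_eq
    ring
  -- third term
  have t3 : ∑ T ∈ U.powerset, ((E2 T).card : ℝ) ≤
      24 * n / w * (∑ p ∈ UX n, 1 / (nm p.1 : ℝ)) := by
    have e1 : ∀ T ∈ U.powerset, ((E2 T).card : ℝ) ≤
        ∑ q ∈ U, if q ∈ T ∧ w ≤ (nm q.1 : ℝ) ∧ nm q.1 * nm (prd T) ≤ n then (2 : ℝ) else 0 := by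
      intro T hT
      rw [Finset.mem_powerset] at hT
      set Q := U.filter (fun q => q ∈ T ∧ w ≤ (nm q.1 : ℝ) ∧ nm q.1 * nm (prd T) ≤ n) with hQ
      have hsub : E2 T ⊆ Q.biUnion (fun q => U.filter (fun p => nm p.1 = nm q.1)) := by
        intro p hp
        rw [hE2, Finset.mem_filter] at hp
        obtain ⟨hpU, ⟨q, hqT, hqp⟩, hpw, hpn⟩ := hp
        rw [Finset.mem_biUnion]
        refine ⟨q, ?_, ?_⟩
        · rw [hQ, Finset.mem_filter]
          exact ⟨hT hqT, hqT, by rw [hqp]; exact hpw, by rw [hqp]; exact hpn⟩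
        · rw [Finset.mem_filter]; exact ⟨hpU, hqp.symm⟩
      have hc2 : ∀ q : PrP, (U.filter (fun p => nm p.1 = nm q.1)).card ≤ 2 := by
        intro q
        have h1 := Cheb420.card_nm_eq_le ((U.image (fun p : PrP => p.1)))
          (fun z hz => by
            rw [Finset.mem_image] at hz
            obtain ⟨p, _, rfl⟩ := hz
            exact p.2) (nm q.1)
        have h2 : (U.filter (fun p => nm p.1 = nm q.1)).card =
            ((U.image (fun p : PrP => p.1)).filter (fun z => nm z = nm q.1)).card := by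
          rw [Finset.filter_image]
          exact (Finset.card_image_of_injective _ (fun a b h => Subtype.ext h)).symm
        omega
      have h1 : (E2 T).card ≤ Q.card * 2 :=
        (Finset.card_le_card hsub).trans (Finset.card_biUnion_le_card_mul _ _ _ fun q _ => hc2 q)
      rw [← Finset.sum_filter, Finset.sum_const, nsmul_eq_mul]
      exact_mod_cast h1
    refine (Finset.sum_le_sum e1).trans ?_
    rw [Finset.sum_comm, Finset.mul_sum]
    refine Finset.sum_le_sum fun q hq => ?_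
    by_cases hqw : w ≤ (nm q.1 : ℝ)
    · rw [← Finset.sum_filter, Finset.sum_const, nsmul_eq_mul]
      set S := U.powerset.filter (fun T => q ∈ T ∧ w ≤ (nm q.1 : ℝ) ∧ nm q.1 * nm (prd T) ≤ n)
        with hSdef
      have hinj : Set.InjOn (fun T : Finset PrP => T.erase q) (S : Set (Finset PrP)) := by
        intro T hT T' hT' h
        rw [Finset.mem_coe, hSdef, Finset.mem_filter] at hT hT'
        simp only at h
        rw [← Finset.insert_erase hT.2.1, h, Finset.insert_erase hT'.2.1]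
      have hq0 : (0 : ℝ) < nm q.1 := nmpos q
      have hcard : (S.card : ℝ) ≤ 12 * n / ((nm q.1 : ℝ) * nm q.1) := by
        rw [← Finset.card_image_of_injOn hinj]
        refine card_le _ n (by positivity) ?_
        intro T' hT'
        rw [Finset.mem_image] at hT'
        obtain ⟨T, hT, rfl⟩ := hT'
        rw [hSdef, Finset.mem_filter] at hT
        have h4 : nm (prd T) = nm q.1 * nm (prd (T.erase q)) := by
          conv_lhs => rw [← Finset.insert_erase hT.2.1]
          rw [prd_insert (Finset.notMem_erase _ _), nm_mul]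
        have h5 := hT.2.2.2
        rw [h4] at h5
        have h6 : ((nm q.1 * (nm q.1 * nm (prd (T.erase q))) : ℕ) : ℝ) ≤ n := by exact_mod_cast h5
        push_cast at h6
        calc (nm (prd (T.erase q)) : ℝ) * (nm q.1 * nm q.1) =
            nm q.1 * (nm q.1 * nm (prd (T.erase q))) := by ring
          _ ≤ n := h6
      calc (S.card : ℝ) * 2 ≤ 12 * n / ((nm q.1 : ℝ) * nm q.1) * 2 := by gcongr
        _ ≤ 12 * n / (w * nm q.1) * 2 := by gcongr
        _ = 24 * n / w * (1 / nm q.1) := by field_simp; ring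
    · have : (∑ T ∈ U.powerset, if q ∈ T ∧ w ≤ (nm q.1 : ℝ) ∧ nm q.1 * nm (prd T) ≤ n
          then (2 : ℝ) else 0) = 0 := by
        refine Finset.sum_eq_zero fun T _ => ?_
        rw [if_neg]
        rintro ⟨-, h, -⟩
        exact hqw h
      rw [this]
      positivity
  rw [t1]
  linarith

end Crest.Agent.R012.SWB994
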