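import Crest.Agent.R012.SWB_994

/-!
# Row 12, item SWB (helper994): closure properties of the class `Main48.SWc`, other shapes of SWB
-/

set_option autoImplicit false

noncomputable section

open Complex

namespace Crest.Agent.R012.SWB994

open Crest.Agent.R012 Eis Buch420 PSer47

/-- general closure lemma: multiply by `φ`, `φ (insert p T) = 1_{lo ≤ nm p < hi} f T`. -/
lemma SWc_mul {β φ : Finset PrP → ℂ} (h : Main48.SWc β) (hφ : ∀ T, ‖φ T‖ ≤ 1)
    (f : Finset PrP → ℂ) (lo' hi' : Finset PrP → ℕ) (hf : ∀ T, ‖f T‖ ≤ 1)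
    (hφf : ∀ (T : Finset PrP) (p : PrP), (∀ q ∈ T, q < p) →
      φ (insert p T) = if lo' T ≤ nm p.1 ∧ nm p.1 < hi' T then f T else 0) :
    Main48.SWc (fun T => φ T * β T) where
  bd T := by
    rw [norm_mul]
    calc ‖φ T‖ * ‖β T‖ ≤ 1 * 1 := by
          gcongr
          · exact hφ T
          · exact h.bd T
      _ = 1 := by norm_num
  int := by
    obtain ⟨c, lo, hi, hc, hβ⟩ := h.int
    refine ⟨fun T => f T * c T, fun T => max (lo' T) (lo T), fun T => min (hi' T) (hi T),
      fun T => ?_, fun T p hp => ?_⟩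
    · rw [norm_mul]
      calc ‖f T‖ * ‖c T‖ ≤ 1 * 1 := by
            gcongr
            · exact hf T
            · exact hc T
        _ = 1 := by norm_num
    · simp only []
      rw [hφf T p hp, hβ T p hp]
      by_cases h1 : lo' T ≤ nm p.1 ∧ nm p.1 < hi' T
      · by_cases h2 : lo T ≤ nm p.1 ∧ nm p.1 < hi T
        · rw [if_pos h1, if_pos h2, if_pos ⟨max_le h1.1 h2.1, lt_min h1.2 h2.2⟩]
        · rw [if_neg h2, mul_zero, if_neg]
          rintro ⟨a, b⟩
          exact h2 ⟨(le_max_right _ _).trans a, b.trans_le (min_le_right _ _)⟩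
      · rw [if_neg h1, zero_mul, if_neg]
        rintro ⟨a, b⟩
        exact h1 ⟨(le_max_left _ _).trans a, b.trans_le (min_le_left _ _)⟩

/-- multiplication by an arbitrary bounded function of the primes except the largest. -/
lemma SWc_mul_fun {β φ : Finset PrP → ℂ} (h : Main48.SWc β) (hφ : ∀ T, ‖φ T‖ ≤ 1)
    (f : Finset PrP → ℂ) (hf : ∀ T, ‖f T‖ ≤ 1)
    (hφf : ∀ (T : Finset PrP) (p : PrP), (∀ q ∈ T, q < p) → φ (insert p T) = f T) :
    Main48.SWc (fun T => φ T * β T) := by
  classical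
  obtain ⟨c, lo, hi, hc, hβ⟩ := h.int
  refine ⟨fun T => ?_, fun T => f T * c T, lo, hi, fun T => ?_, fun T p hp => ?_⟩
  · rw [norm_mul]
    calc ‖φ T‖ * ‖β T‖ ≤ 1 * 1 := by
          gcongr
          · exact hφ T
          · exact h.bd T
      _ = 1 := by norm_num
  · rw [norm_mul]
    calc ‖f T‖ * ‖c T‖ ≤ 1 * 1 := by
          gcongr
          · exact hf T
          · exact hc T
      _ = 1 := by norm_num
  · simp only []
    rw [hφf T p hp, hβ T p hp]
    split_ifs
    · rfl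
    · rw [mul_zero]

open Classical in
/-- dyadic (or any) window for `nm (prd T)`. -/
lemma SWc_window {β : Finset PrP → ℂ} (h : Main48.SWc β) (y1 y2 : ℝ) :
    Main48.SWc (fun T => if y1 < (nm (prd T) : ℝ) ∧ (nm (prd T) : ℝ) ≤ y2 then β T else 0) := by
  have key := SWc_mul (β := β)
    (φ := fun T => if y1 < (nm (prd T) : ℝ) ∧ (nm (prd T) : ℝ) ≤ y2 then 1 else 0) h
    (fun T => by split_ifs <;> simp) (fun _ => 1)
    (fun T => if y1 < 0 then 0 else ⌊y1 / nm (prd T)⌋₊ + 1)
    (fun T => if y2 < 0 then 0 else ⌊y2 / nm (prd T)⌋₊ + 1) (fun T => by simp) ?_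
  · have e : (fun T => if y1 < (nm (prd T) : ℝ) ∧ (nm (prd T) : ℝ) ≤ y2 then β T else 0) =
        (fun T => (if y1 < (nm (prd T) : ℝ) ∧ (nm (prd T) : ℝ) ≤ y2 then (1 : ℂ) else 0) * β T) := by
      funext T
      split_ifs <;> simp
    rw [e]
    exact key
  · intro T p hp
    have hpT : p ∉ T := fun h => lt_irrefl _ (hp p h)
    have hz : (0 : ℝ) < nm (prd T) := Dens420.nm_prd_pos T
    refine if_congr ?_ rfl rfl
    rw [prd_insert hpT, nm_mul]
    push_cast
    refine and_congr ?_ ?_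
    · split_ifs with h1
      · simp only [zero_le, iff_true]
        have : (0 : ℝ) ≤ nm p.1 * nm (prd T) := by positivity
        linarith
      · push Not at h1
        rw [Nat.succ_le_iff, Nat.floor_lt (by positivity), div_lt_iff₀ hz]
    · split_ifs with h1
      · simp only [not_lt_zero, iff_false, not_le]
        have : (0 : ℝ) ≤ nm p.1 * nm (prd T) := by positivity
        linarith
      · push Not at h1
        rw [Nat.lt_succ_iff, Nat.le_floor_iff (by positivity), le_div_iff₀ hz]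

open Classical in
/-- restriction to `T.card = j`. -/
lemma SWc_card {β : Finset PrP → ℂ} (h : Main48.SWc β) (P : ℕ → Prop) :
    Main48.SWc (fun T => if P T.card then β T else 0) := by
  have key := SWc_mul_fun (β := β) (φ := fun T => if P T.card then 1 else 0) h
    (fun T => by split_ifs <;> simp) (fun T => if P (T.card + 1) then 1 else 0)
    (fun T => by split_ifs <;> simp) (fun T p hp => by
      have hpT : p ∉ T := fun h => lt_irrefl _ (hp p h)
      simp only [Finset.card_insert_of_notMem hpT])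
  have e : (fun T => if P T.card then β T else 0) =
      (fun T : Finset PrP => (if P T.card then (1 : ℂ) else 0) * β T) := by
    funext T
    split_ifs <;> simp
  rw [e]
  exact key

/-- conversion: sums over `(UX N).powerset` with a real cut-off. -/
lemma sum_powerset_cut {N : ℕ} (f : Finset PrP → ℂ) (g : ℝ) (hg : g ≤ N) :
    ∑ T ∈ (UX N).powerset, (if (nm (prd T) : ℝ) ≤ g then f T else 0) = ∑ T ∈ TB ⌊g⌋₊, f T := by
  classical
  rw [← Finset.sum_filter]
  refine Finset.sum_congr ?_ fun _ _ => rfl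
  ext T
  rw [Finset.mem_filter, mem_TB, Finset.mem_powerset]
  have hpos := Dens420.nm_prd_pos T
  constructor
  · rintro ⟨_, h⟩
    exact Nat.le_floor h
  · intro h
    have h0 : 0 < ⌊g⌋₊ := lt_of_lt_of_le (by exact_mod_cast hpos) h
    have hg0 : 0 ≤ g := by
      by_contra hc
      push Not at hc
      rw [Nat.floor_of_nonpos hc.le] at h0
      exact absurd h0 (lt_irrefl _)
    have h1 : (nm (prd T) : ℝ) ≤ g := (Nat.le_floor_iff hg0).mp h
    refine ⟨fun p hp => ?_, h1⟩
    rw [mem_UX]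
    have h2 := nm_le_of_mem hp
    have h3 : ((nm (prd T) : ℕ) : ℝ) ≤ N := h1.trans hg
    exact h2.trans (by exact_mod_cast h3)

/-- **SWB, index shape**: sum over all `T ⊆ UX N` with real cut-off `nm (prd T) ≤ g`, twisted by
`nm^{it}`, the primes of `Kp` removed; `N = ⌊X⌋`. -/
theorem SWB_ix (l : ℤ) (A C : ℕ) : ∃ K : ℝ, 0 < K ∧ ∀ (X : ℕ) (w : ℝ) (β : Finset PrP → ℂ),
    2 ≤ X → 1 ≤ w → Real.log X ≤ Real.log w ^ 2 → Main48.SWc β →
    (∀ T, β T ≠ 0 → T.Nonempty ∧ ∀ p ∈ T, w ≤ (nm p.1 : ℝ)) →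
    ∀ (h : Eis) (Kp : Finset PrP) (t g : ℝ), h ≠ 0 → (l = 0 → ¬ ∃ e, h = e ^ 3) →
      (nm h : ℝ) ≤ Real.log X ^ C → (Kp.card : ℝ) ≤ Real.log X ^ C → |t| ≤ Real.log X ^ C →
      0 ≤ g → g ≤ X →
      ‖∑ T ∈ (UX X).powerset, (if (nm (prd T) : ℝ) ≤ g then (if Disjoint T Kp then
        β T * (sy h (prd T) * ang l (prd T) * (nm (prd T) : ℂ) ^ ((t : ℂ) * I)) else 0) else 0)‖ ≤
        K * g / Real.log X ^ A := by
  obtain ⟨K, hK, hSW⟩ := SWB_disj l A C
  refine ⟨K, hK, ?_⟩
  intro X w β hX hw hXw hβ hsupp h Kp t g h0 hh hhX hKX ht hg0 hgX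
  have hX2 : (2 : ℝ) ≤ X := by exact_mod_cast hX
  have h1 := hSW X w β hX2 hw hXw hβ hsupp h Kp t ⌊g⌋₊ h0 hh hhX hKX ht
    ((Nat.floor_le hg0).trans hgX)
  rw [sum_powerset_cut (fun T => if Disjoint T Kp then
        β T * (sy h (prd T) * ang l (prd T) * (nm (prd T) : ℂ) ^ ((t : ℂ) * I)) else 0) g hgX,
    ← Finset.sum_filter]
  refine h1.trans ?_
  have hL : 0 < Real.log X := Real.log_pos (by linarith)
  gcongr
  exact Nat.floor_le hg0

/-- `w = exp((log X)^(2/3))` is admissible. -/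
lemma log_wX_sq {X : ℕ} (hX : 3 ≤ X) : Real.log X ≤ Real.log (Main48.wX X) ^ 2 := by
  have h3 : (3 : ℝ) ≤ X := by exact_mod_cast hX
  have hL : 1 ≤ Real.log X := by
    rw [Real.le_log_iff_exp_le (by linarith)]
    have := Real.exp_one_lt_d9
    linarith
  unfold Main48.wX
  rw [Real.log_exp, ← Real.rpow_natCast, ← Real.rpow_mul (by linarith)]
  calc Real.log X = Real.log X ^ (1 : ℝ) := (Real.rpow_one _).symm
    _ ≤ Real.log X ^ (2 / 3 * ((2 : ℕ) : ℝ)) := by
        apply Real.rpow_le_rpow_of_exponent_le hL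
        norm_num

lemma one_le_wX {X : ℕ} (hX : 1 ≤ X) : 1 ≤ Main48.wX X := by
  unfold Main48.wX
  rw [Real.one_le_exp_iff]
  have : (1 : ℝ) ≤ X := by exact_mod_cast hX
  have h1 : 0 ≤ Real.log X := Real.log_nonneg this
  positivity

/-- `w = X^c` is admissible for large `X`. -/
lemma log_rpow_sq {X c : ℝ} (hX : 1 < X) (hc : 0 < c) (h : 1 / c ^ 2 ≤ Real.log X) :
    Real.log X ≤ Real.log (X ^ c) ^ 2 := by
  rw [Real.log_rpow (by linarith)]
  have hL : 0 < Real.log X := Real.log_pos hX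
  rw [div_le_iff₀ (by positivity)] at h
  nlinarith

end Crest.Agent.R012.SWB994
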