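import Crest.Agent.R012.Schw_922

/-!
# Row 12: Schwartz functions on `ℂ`, part 2

* `fC_comp_mul` : rotation/dilation `f(cz)`
* `integral_radial` : `∫ f(|z|²) dz = π ∫_0^∞ f`
* `fC_radAng_covariant` : `F̂(uξ) = u^{-l} F̂(ξ)`
* `fC_radAng_zero` : value at `0`
* `expSchwartz` : `u ↦ e^{cu} f(e^u)` is Schwartz for `f` Schwartz and `c > 0`
* `fC_radAng_mellin` : separation of variables in `|ξ|`.
-/

set_option autoImplicit false
set_option linter.unusedSimpArgs false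
set_option linter.unusedVariables false

noncomputable section

open Complex MeasureTheory Set Filter
open scoped FourierTransform ContDiff Topology SchwartzMap

namespace Crest.Agent.R012.Schw922

lemma integral_comp_circle (f : ℂ → ℂ) {u : ℂ} (hu : ‖u‖ = 1) : ∫ z, f (u * z) = ∫ z, f z := by
  have hu' : u ∈ Metric.sphere (0 : ℂ) 1 := by simpa using hu
  have h := (rotation ⟨u, hu'⟩).measurePreserving
  have h2 := h.integral_comp (rotation ⟨u, hu'⟩).toHomeomorph.measurableEmbedding f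
  simpa [rotation_apply] using h2

/-- Change of variables `z ↦ c z`. -/
lemma integral_comp_mul (f : ℂ → ℂ) {c : ℂ} (hc : c ≠ 0) :
    ∫ z, f (c * z) = ((‖c‖ ^ 2)⁻¹ : ℝ) * ∫ z, f z := by
  have hn : ‖c‖ ≠ 0 := by simpa using hc
  have h1 : ∫ z, f (c * z) = ∫ z, (fun y => f ((‖c‖ : ℝ) • y)) ((c / ‖c‖) * z) := by
    refine integral_congr_ae (Eventually.of_forall fun z => ?_)
    simp only [real_smul]
    congr 1
    have : (‖c‖ : ℂ) ≠ 0 := by exact_mod_cast hn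
    field_simp
  rw [h1, integral_comp_circle (fun y => f ((‖c‖ : ℝ) • y))]
  · rw [MeasureTheory.Measure.integral_comp_smul, Complex.finrank_real_complex]
    rw [abs_of_nonneg (by positivity), real_smul]
  · simp [hn]

/-- Fourier transform of a dilated/rotated function. -/
lemma fC_comp_mul (f : ℂ → ℂ) {c : ℂ} (hc : c ≠ 0) (ξ : ℂ) :
    fC (fun z => f (c * z)) ξ = ((‖c‖ ^ 2)⁻¹ : ℝ) * fC f (ξ / c) := by
  unfold fC
  rw [← integral_comp_mul (fun z => f z * eC (-(ξ / c * z))) hc]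
  refine integral_congr_ae (Eventually.of_forall fun z => ?_)
  simp only
  congr 3
  field_simp

lemma radAng_mul {W : ℝ → ℂ} (l : ℤ) {u : ℂ} (hu : ‖u‖ = 1) (z : ℂ) :
    radAng W l (u * z) = u ^ l * radAng W l z := by
  unfold radAng
  rw [norm_mul, hu, one_mul, mul_div_assoc, mul_zpow]
  ring

/-- Angular covariance of the Fourier transform. -/
theorem fC_radAng_covariant (W : ℝ → ℂ) (l : ℤ) {u : ℂ} (hu : ‖u‖ = 1) (ξ : ℂ) :
    fC (radAng W l) (u * ξ) = u ^ (-l) * fC (radAng W l) ξ := by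
  have hu0 : u ≠ 0 := by
    intro h; rw [h, norm_zero] at hu; exact zero_ne_one hu
  have h1 := fC_comp_mul (radAng W l) hu0 (u * ξ)
  rw [mul_div_cancel_left₀ _ hu0, hu] at h1
  simp only [one_pow, inv_one, ofReal_one, one_mul] at h1
  rw [← h1]
  have h2 : (fun z => radAng W l (u * z)) = fun z => u ^ l * radAng W l z := by
    funext z; exact radAng_mul l hu z
  rw [h2]
  unfold fC
  rw [← integral_const_mul]
  refine integral_congr_ae (Eventually.of_forall fun z => ?_)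
  simp only
  rw [← mul_assoc, ← mul_assoc, ← zpow_add₀ hu0]
  simp

/-- `F̂(ξ) = (ξ/|ξ|)^{-l} F̂(|ξ|)`. -/
theorem fC_radAng_eq (W : ℝ → ℂ) (l : ℤ) {ξ : ℂ} (hξ : ξ ≠ 0) :
    fC (radAng W l) ξ = (ξ / ‖ξ‖) ^ (-l) * fC (radAng W l) (‖ξ‖ : ℂ) := by
  have hn : ‖ξ‖ ≠ 0 := by simpa using hξ
  have hn' : (‖ξ‖ : ℂ) ≠ 0 := by exact_mod_cast hn
  have hu : ‖ξ / (‖ξ‖ : ℂ)‖ = 1 := by simp [hn]
  have := fC_radAng_covariant W l hu (‖ξ‖ : ℂ)
  rw [div_mul_cancel₀ _ hn'] at this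
  exact this

/-- Integration of radial functions. -/
theorem integral_radial (f : ℝ → ℂ) : ∫ z : ℂ, f (‖z‖ ^ 2) = Real.pi * ∫ x in Ioi (0 : ℝ), f x := by
  rw [← Complex.integral_comp_polarCoord_symm]
  have h1 : ∀ p ∈ polarCoord.target, p.1 • f (‖Complex.polarCoord.symm p‖ ^ 2) =
      (fun r : ℝ => (r : ℂ) * f (r ^ 2)) p.1 * (fun _ : ℝ => (1 : ℂ)) p.2 := by
    intro p hp
    rw [Complex.norm_polarCoord_symm, sq_abs]
    simp
  rw [setIntegral_congr_fun (polarCoord.open_target.measurableSet) h1]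
  rw [polarCoord_target, Measure.volume_eq_prod,
    setIntegral_prod_mul (fun r : ℝ => (r : ℂ) * f (r ^ 2)) (fun _ : ℝ => (1 : ℂ))]
  rw [MeasureTheory.setIntegral_const]
  have h2 : (volume : Measure ℝ).real (Ioo (-Real.pi) Real.pi) = 2 * Real.pi := by
    rw [Real.volume_real_Ioo_of_le (by linarith [Real.pi_pos])]
    ring
  rw [h2]
  have h3 := integral_comp_rpow_Ioi_of_pos (g := f) (p := 2) (by norm_num)
  have h4 : ∫ x in Ioi (0 : ℝ), ((2 : ℝ) * x ^ ((2 : ℝ) - 1)) • f (x ^ (2 : ℝ)) =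
      2 * ∫ x in Ioi (0 : ℝ), (x : ℂ) * f (x ^ 2) := by
    rw [← integral_const_mul]
    refine setIntegral_congr_fun measurableSet_Ioi (fun x hx => ?_)
    rw [show (2 : ℝ) - 1 = 1 by norm_num, Real.rpow_one, Real.rpow_two, real_smul]
    push_cast
    ring
  rw [h4] at h3
  rw [← h3]
  simp only [real_smul, mul_one]
  push_cast
  ring

theorem fC_radAng_zero (W : ℝ → ℂ) (l : ℤ) :
    fC (radAng W l) 0 = if l = 0 then Real.pi * ∫ x in Ioi (0 : ℝ), W x else 0 := by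
  split_ifs with h
  · subst h
    unfold fC
    rw [← integral_radial]
    refine integral_congr_ae (Eventually.of_forall fun z => ?_)
    simp [radAng, eC]
  · -- rotate by `u = exp(i π / l)`, with `u^{-l} = -1`
    have hl : (l : ℂ) ≠ 0 := by exact_mod_cast h
    set u : ℂ := Complex.exp ((Real.pi / l : ℝ) * Complex.I) with hu
    have hu1 : ‖u‖ = 1 := Complex.norm_exp_ofReal_mul_I _
    have h1 := fC_radAng_covariant W l hu1 0
    rw [mul_zero] at h1
    have h2 : u ^ (-l) = -1 := by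
      rw [hu, ← Complex.exp_int_mul]
      have : ((-l : ℤ) : ℂ) * ((Real.pi / l : ℝ) * Complex.I) = -(Real.pi * Complex.I) := by
        push_cast
        field_simp
      rw [this, Complex.exp_neg, Complex.exp_pi_mul_I]
      norm_num
    rw [h2] at h1
    have h3 : (2 : ℂ) * fC (radAng W l) 0 = 0 := by linear_combination h1
    exact (mul_eq_zero.mp h3).resolve_left two_ne_zero

/-! ### Separation of the variable `|ξ|` -/

lemma hasDerivAt_expcomp (f : 𝓢(ℝ, ℂ)) (c u : ℝ) :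
    HasDerivAt (fun u : ℝ => (Real.exp (c * u) : ℂ) * f (Real.exp u))
      (c * ((Real.exp (c * u) : ℂ) * f (Real.exp u)) +
        (Real.exp ((c + 1) * u) : ℂ) * (SchwartzMap.derivCLM ℝ ℂ f) (Real.exp u)) u := by
  have h1 : HasDerivAt (fun u : ℝ => (Real.exp (c * u) : ℂ)) ((Real.exp (c * u) * c : ℝ) : ℂ) u := by
    have : HasDerivAt (fun u : ℝ => Real.exp (c * u)) (Real.exp (c * u) * c) u := by
      have := ((hasDerivAt_id u).const_mul c).exp
      simpa using this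
    exact this.ofReal_comp
  have h2 : HasDerivAt (fun u : ℝ => f (Real.exp u))
      ((Real.exp u) • deriv f (Real.exp u)) u := by
    have hf : HasDerivAt f (deriv f (Real.exp u)) (Real.exp u) :=
      f.differentiableAt.hasDerivAt
    exact hf.scomp u (Real.hasDerivAt_exp u)
  refine (h1.fun_mul h2).congr_deriv ?_
  rw [SchwartzMap.derivCLM_apply]
  rw [show (c + 1) * u = c * u + u by ring, Real.exp_add]
  push_cast
  rw [real_smul]
  push_cast
  ring

lemma contDiff_expcomp (f : 𝓢(ℝ, ℂ)) (c : ℝ) :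
    ContDiff ℝ ∞ (fun u : ℝ => (Real.exp (c * u) : ℂ) * f (Real.exp u)) := by
  refine ContDiff.mul ?_ ?_
  · have : ContDiff ℝ ∞ (fun u : ℝ => Real.exp (c * u)) := by fun_prop
    exact Complex.ofRealCLM.contDiff.comp this
  · exact (f.smooth ⊤).comp Real.contDiff_exp

/-- Sum of the Schwartz seminorms of order at most `N`. -/
def sn {E : Type*} [NormedAddCommGroup E] [NormedSpace ℝ E] (N : ℕ) (f : 𝓢(E, ℂ)) : ℝ :=
  ∑ p ∈ Finset.range (N + 1) ×ˢ Finset.range (N + 1), SchwartzMap.seminorm ℝ p.1 p.2 f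

lemma sn_nonneg {E : Type*} [NormedAddCommGroup E] [NormedSpace ℝ E] (N : ℕ) (f : 𝓢(E, ℂ)) :
    0 ≤ sn N f := Finset.sum_nonneg fun p _ => apply_nonneg _ _

lemma seminorm_le_sn {E : Type*} [NormedAddCommGroup E] [NormedSpace ℝ E] {N k n : ℕ}
    (hk : k ≤ N) (hn : n ≤ N) (f : 𝓢(E, ℂ)) : SchwartzMap.seminorm ℝ k n f ≤ sn N f := by
  unfold sn
  exact Finset.single_le_sum (f := fun p : ℕ × ℕ => SchwartzMap.seminorm ℝ p.1 p.2 f)
    (fun p _ => apply_nonneg _ _)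
    (Finset.mem_product.mpr ⟨Finset.mem_range.mpr (by omega), Finset.mem_range.mpr (by omega)⟩ :
      ((k, n) : ℕ × ℕ) ∈ _)

lemma sn_mono {E : Type*} [NormedAddCommGroup E] [NormedSpace ℝ E] {N N' : ℕ} (h : N ≤ N')
    (f : 𝓢(E, ℂ)) : sn N f ≤ sn N' f := by
  unfold sn
  refine Finset.sum_le_sum_of_subset_of_nonneg ?_ (fun p _ _ => apply_nonneg _ _)
  exact Finset.product_subset_product (Finset.range_mono (by omega)) (Finset.range_mono (by omega))

lemma seminorm_deriv_le (k n : ℕ) (f : 𝓢(ℝ, ℂ)) :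
    SchwartzMap.seminorm ℝ k n (SchwartzMap.derivCLM ℝ ℂ f) ≤ SchwartzMap.seminorm ℝ k (n + 1) f := by
  refine SchwartzMap.seminorm_le_bound' ℝ k n _ (apply_nonneg _ _) fun x => ?_
  have h1 : (SchwartzMap.derivCLM ℝ ℂ f : ℝ → ℂ) = deriv f := by
    funext x; exact SchwartzMap.derivCLM_apply _ _ _
  rw [h1, ← iteratedDeriv_succ']
  exact SchwartzMap.le_seminorm' ℝ k (n + 1) f x

lemma sn_deriv_le (N : ℕ) (f : 𝓢(ℝ, ℂ)) : sn N (SchwartzMap.derivCLM ℝ ℂ f) ≤ ((N + 1) ^ 2 : ℕ) * sn (N + 1) f := by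
  unfold sn
  calc _ ≤ ∑ p ∈ Finset.range (N + 1) ×ˢ Finset.range (N + 1), sn (N + 1) f := by
        refine Finset.sum_le_sum fun p hp => ?_
        rw [Finset.mem_product, Finset.mem_range, Finset.mem_range] at hp
        exact (seminorm_deriv_le _ _ _).trans (seminorm_le_sn (by omega) (by omega) f)
    _ = _ := by
        rw [Finset.sum_const, Finset.card_product, Finset.card_range, nsmul_eq_mul, pow_two]
        rfl

/-- The basic decay estimate. -/
lemma expcomp_decay0 {c : ℝ} (hc : 0 < c) (k : ℕ) :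
    ∃ (C : ℝ) (N : ℕ), 0 ≤ C ∧ ∀ (f : 𝓢(ℝ, ℂ)) (u : ℝ),
      |u| ^ k * ‖(Real.exp (c * u) : ℂ) * f (Real.exp u)‖ ≤ C * sn N f := by
  obtain ⟨m, hm⟩ := exists_nat_ge (c + k)
  refine ⟨k.factorial + k.factorial / c ^ k, m, by positivity, fun f u => ?_⟩
  have hC1 : ∀ x : ℝ, |x| ^ m * ‖f x‖ ≤ sn m f := by
    intro x
    have := SchwartzMap.norm_pow_mul_le_seminorm ℝ f m x
    rw [Real.norm_eq_abs] at this
    exact this.trans (seminorm_le_sn le_rfl (Nat.zero_le _) f)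
  have hC0 : ∀ x : ℝ, ‖f x‖ ≤ sn m f := by
    intro x
    exact (SchwartzMap.norm_le_seminorm ℝ f x).trans (seminorm_le_sn (Nat.zero_le _) (Nat.zero_le _) f)
  have hs := sn_nonneg m f
  have hA : 0 ≤ k.factorial * sn m f := by positivity
  have hB : 0 ≤ sn m f * (k.factorial / c ^ k) := by positivity
  rw [norm_mul, Complex.norm_real, Real.norm_eq_abs, abs_of_pos (Real.exp_pos _)]
  rcases le_total 0 u with hu | hu
  · have h1 : |u| ^ k ≤ k.factorial * Real.exp (k * u) := by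
      rw [abs_of_nonneg hu]
      rcases Nat.eq_zero_or_pos k with hk | hk
      · subst hk; simp
      · have h2 := Real.pow_div_factorial_le_exp u hu k
        have h3 : u ^ k ≤ k.factorial * Real.exp u := by
          rw [div_le_iff₀ (by positivity)] at h2
          linarith
        have h4 : Real.exp u ≤ Real.exp (k * u) := by
          apply Real.exp_le_exp.mpr
          have : (1:ℝ) ≤ k := by exact_mod_cast hk
          nlinarith
        calc u ^ k ≤ k.factorial * Real.exp u := h3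
          _ ≤ _ := by gcongr
    have h5 : Real.exp (k * u) * (Real.exp (c * u)) ≤ Real.exp u ^ m := by
      rw [← Real.exp_add, ← Real.exp_nat_mul]
      apply Real.exp_le_exp.mpr
      nlinarith
    have h6 := hC1 (Real.exp u)
    rw [abs_of_pos (Real.exp_pos _)] at h6
    calc |u| ^ k * (Real.exp (c * u) * ‖f (Real.exp u)‖)
        ≤ (k.factorial * Real.exp (k * u)) * (Real.exp (c * u) * ‖f (Real.exp u)‖) := by gcongr
      _ = k.factorial * ((Real.exp (k * u) * (Real.exp (c * u))) * ‖f (Real.exp u)‖) := by ring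
      _ ≤ k.factorial * (Real.exp u ^ m * ‖f (Real.exp u)‖) := by gcongr
      _ ≤ k.factorial * sn m f := by gcongr
      _ ≤ _ := by linarith
  · have h1 : |u| ^ k * Real.exp (c * u) ≤ k.factorial / c ^ k := by
      rw [abs_of_nonpos hu]
      have hx : 0 ≤ c * (-u) := mul_nonneg hc.le (by linarith)
      have h2 := Real.pow_div_factorial_le_exp (c * (-u)) hx k
      rw [div_le_iff₀ (by positivity), mul_pow] at h2
      rw [le_div_iff₀ (by positivity)]
      have h3 : Real.exp (c * (-u)) * Real.exp (c * u) = 1 := by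
        rw [← Real.exp_add]; simp
      calc (-u) ^ k * Real.exp (c * u) * c ^ k
          = (c ^ k * (-u) ^ k) * Real.exp (c * u) := by ring
        _ ≤ (Real.exp (c * (-u)) * k.factorial) * Real.exp (c * u) := by gcongr
        _ = k.factorial * (Real.exp (c * (-u)) * Real.exp (c * u)) := by ring
        _ = k.factorial := by rw [h3, mul_one]
    calc |u| ^ k * (Real.exp (c * u) * ‖f (Real.exp u)‖)
        = ‖f (Real.exp u)‖ * (|u| ^ k * Real.exp (c * u)) := by ring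
      _ ≤ sn m f * (k.factorial / c ^ k) := by
          gcongr
          exact hC0 _
      _ ≤ _ := by linarith

/-- All derivatives decay. -/
lemma expcomp_decay (n : ℕ) : ∀ {c : ℝ} (_ : 0 < c) (k : ℕ),
    ∃ (C : ℝ) (N : ℕ), 0 ≤ C ∧ ∀ (f : 𝓢(ℝ, ℂ)) (u : ℝ),
      |u| ^ k * ‖iteratedDeriv n (fun u : ℝ => (Real.exp (c * u) : ℂ) * f (Real.exp u)) u‖ ≤
        C * sn N f := by
  induction n with
  | zero =>
    intro c hc k
    simpa using expcomp_decay0 hc k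
  | succ n ih =>
    intro c hc k
    obtain ⟨C1, N1, hC10, hC1⟩ := ih hc k
    obtain ⟨C2, N2, hC20, hC2⟩ := ih (c := c + 1) (by linarith) k
    refine ⟨c * C1 + C2 * ((N2 + 1) ^ 2 : ℕ), max N1 (N2 + 1), by positivity, fun f u => ?_⟩
    have h1 : deriv (fun u : ℝ => (Real.exp (c * u) : ℂ) * f (Real.exp u)) =
        fun u => (c : ℂ) * ((Real.exp (c * u) : ℂ) * f (Real.exp u)) +
          (Real.exp ((c + 1) * u) : ℂ) * (SchwartzMap.derivCLM ℝ ℂ f) (Real.exp u) := by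
      funext u
      exact (hasDerivAt_expcomp f c u).deriv
    rw [iteratedDeriv_succ', h1]
    have h2 : iteratedDeriv n (fun u => (c : ℂ) * ((Real.exp (c * u) : ℂ) * f (Real.exp u)) +
          (Real.exp ((c + 1) * u) : ℂ) * (SchwartzMap.derivCLM ℝ ℂ f) (Real.exp u)) u =
        (c : ℂ) * iteratedDeriv n (fun u => (Real.exp (c * u) : ℂ) * f (Real.exp u)) u +
        iteratedDeriv n (fun u => (Real.exp ((c + 1) * u) : ℂ) *
          (SchwartzMap.derivCLM ℝ ℂ f) (Real.exp u)) u := by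
      have hA := ((contDiff_expcomp f c).of_le (nat_le_infty n)).contDiffAt (x := u)
      have hB := ((contDiff_expcomp (SchwartzMap.derivCLM ℝ ℂ f) (c + 1)).of_le
        (nat_le_infty n)).contDiffAt (x := u)
      have := iteratedDeriv_add (𝕜 := ℝ) (n := n) (x := u)
        (f := fun u => (c : ℂ) * ((Real.exp (c * u) : ℂ) * f (Real.exp u)))
        (g := fun u => (Real.exp ((c + 1) * u) : ℂ) * (SchwartzMap.derivCLM ℝ ℂ f) (Real.exp u))
        (contDiffAt_const.mul hA) hB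
      have h3 := iteratedDeriv_const_mul (𝕜 := ℝ) (n := n) (x := u) (c : ℂ) hA
      calc _ = _ := this
        _ = _ := by rw [h3]
    rw [h2]
    have h4 := (hC1 f u).trans (mul_le_mul_of_nonneg_left (sn_mono (le_max_left N1 (N2 + 1)) f) hC10)
    have h5 : |u| ^ k * ‖iteratedDeriv n (fun u => (Real.exp ((c + 1) * u) : ℂ) *
          (SchwartzMap.derivCLM ℝ ℂ f) (Real.exp u)) u‖ ≤
          C2 * (((N2 + 1) ^ 2 : ℕ) * sn (max N1 (N2 + 1)) f) := by
      refine (hC2 (SchwartzMap.derivCLM ℝ ℂ f) u).trans ?_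
      refine mul_le_mul_of_nonneg_left ((sn_deriv_le N2 f).trans ?_) hC20
      exact mul_le_mul_of_nonneg_left (sn_mono (le_max_right _ _) f) (by positivity)
    calc |u| ^ k * _ ≤ |u| ^ k * (‖(c : ℂ) * iteratedDeriv n
          (fun u => (Real.exp (c * u) : ℂ) * f (Real.exp u)) u‖ +
          ‖iteratedDeriv n (fun u => (Real.exp ((c + 1) * u) : ℂ) *
          (SchwartzMap.derivCLM ℝ ℂ f) (Real.exp u)) u‖) := by
            gcongr
            exact norm_add_le _ _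
      _ = c * (|u| ^ k * ‖iteratedDeriv n
          (fun u => (Real.exp (c * u) : ℂ) * f (Real.exp u)) u‖) +
          |u| ^ k * ‖iteratedDeriv n (fun u => (Real.exp ((c + 1) * u) : ℂ) *
          (SchwartzMap.derivCLM ℝ ℂ f) (Real.exp u)) u‖ := by
            rw [norm_mul, Complex.norm_real, Real.norm_eq_abs, abs_of_pos hc]
            ring
      _ ≤ c * (C1 * sn (max N1 (N2 + 1)) f) + C2 * (((N2 + 1) ^ 2 : ℕ) * sn (max N1 (N2 + 1)) f) := by
            gcongr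
      _ = _ := by ring

/-- `u ↦ e^{cu} f(e^u)` is Schwartz. -/
def expSchwartz (f : 𝓢(ℝ, ℂ)) (c : ℝ) (hc : 0 < c) : 𝓢(ℝ, ℂ) where
  toFun u := (Real.exp (c * u) : ℂ) * f (Real.exp u)
  smooth' := contDiff_expcomp f c
  decay' := by
    intro k n
    obtain ⟨C, N, _, hC⟩ := expcomp_decay n hc k
    refine ⟨C * sn N f, fun u => ?_⟩
    rw [norm_iteratedFDeriv_eq_norm_iteratedDeriv, Real.norm_eq_abs]
    exact hC f u

@[simp] lemma expSchwartz_apply (f : 𝓢(ℝ, ℂ)) (c : ℝ) (hc : 0 < c) (u : ℝ) :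
    expSchwartz f c hc u = (Real.exp (c * u) : ℂ) * f (Real.exp u) := rfl

lemma sn_expSchwartz_le {c : ℝ} (hc : 0 < c) (N : ℕ) :
    ∃ (C : ℝ) (N' : ℕ), 0 ≤ C ∧ ∀ f : 𝓢(ℝ, ℂ), sn N (expSchwartz f c hc) ≤ C * sn N' f := by
  have h : ∀ p : ℕ × ℕ, ∃ (C : ℝ) (N' : ℕ), 0 ≤ C ∧ ∀ f : 𝓢(ℝ, ℂ),
      SchwartzMap.seminorm ℝ p.1 p.2 (expSchwartz f c hc) ≤ C * sn N' f := by
    intro p
    obtain ⟨C, N', hC0, hC⟩ := expcomp_decay p.2 hc p.1
    refine ⟨C, N', hC0, fun f => ?_⟩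
    refine SchwartzMap.seminorm_le_bound' ℝ p.1 p.2 _ (mul_nonneg hC0 (sn_nonneg _ _)) fun x => ?_
    exact hC f x
  choose C N' hC0 hC using h
  set S := Finset.range (N + 1) ×ˢ Finset.range (N + 1) with hS
  refine ⟨∑ p ∈ S, C p, ∑ p ∈ S, N' p, Finset.sum_nonneg fun p _ => hC0 p, fun f => ?_⟩
  unfold sn
  rw [← hS, Finset.sum_mul]
  refine Finset.sum_le_sum fun p hp => ?_
  refine (hC p f).trans (mul_le_mul_of_nonneg_left (sn_mono ?_ f) (hC0 p))
  exact Finset.single_le_sum (f := N') (fun _ _ => Nat.zero_le _) hp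

/-- Continuous linear maps between Schwartz spaces are bounded by seminorms. -/
lemma sn_clm_le {E F : Type*} [NormedAddCommGroup E] [NormedSpace ℝ E] [NormedAddCommGroup F]
    [NormedSpace ℝ F] (A : 𝓢(E, ℂ) →L[ℝ] 𝓢(F, ℂ)) (N : ℕ) :
    ∃ (C : ℝ) (N' : ℕ), 0 ≤ C ∧ ∀ f : 𝓢(E, ℂ), sn N (A f) ≤ C * sn N' f := by
  have h : ∀ p : ℕ × ℕ, ∃ (C : ℝ) (N' : ℕ), 0 ≤ C ∧ ∀ f : 𝓢(E, ℂ),
      SchwartzMap.seminorm ℝ p.1 p.2 (A f) ≤ C * sn N' f := by
    intro p
    have hcont : Continuous ((SchwartzMap.seminorm ℝ p.1 p.2 : Seminorm ℝ 𝓢(F, ℂ)).comp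
        A.toLinearMap) :=
      ((schwartz_withSeminorms ℝ F ℂ).continuous_seminorm p).comp A.continuous
    obtain ⟨s, C, hC, hle⟩ := Seminorm.bound_of_continuous (schwartz_withSeminorms ℝ E ℂ) _ hcont
    refine ⟨C * s.card, s.sup (fun p => max p.1 p.2), by positivity, fun f => ?_⟩
    have h1 := hle f
    have h2 : (s.sup (schwartzSeminormFamily ℝ E ℂ)) f ≤
        s.card * sn (s.sup (fun p => max p.1 p.2)) f := by
      refine Seminorm.finset_sup_apply_le (by have := sn_nonneg (s.sup (fun p => max p.1 p.2)) f; positivity) fun q hq => ?_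
      have h3 : max q.1 q.2 ≤ s.sup (fun p => max p.1 p.2) :=
        Finset.le_sup (f := fun p : ℕ × ℕ => max p.1 p.2) hq
      have h4 : (schwartzSeminormFamily ℝ E ℂ q) f ≤ sn (s.sup (fun p => max p.1 p.2)) f :=
        seminorm_le_sn ((le_max_left _ _).trans h3) ((le_max_right _ _).trans h3) f
      have h5 : (1 : ℝ) ≤ s.card := by
        exact_mod_cast Finset.card_pos.mpr ⟨q, hq⟩
      have h6 := sn_nonneg (s.sup (fun p => max p.1 p.2)) f
      nlinarith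
    calc SchwartzMap.seminorm ℝ p.1 p.2 (A f) ≤ C * (s.sup (schwartzSeminormFamily ℝ E ℂ)) f := h1
      _ ≤ C * (s.card * sn (s.sup (fun p => max p.1 p.2)) f) := by gcongr
      _ = _ := by ring
  choose C N' hC0 hC using h
  set S := Finset.range (N + 1) ×ˢ Finset.range (N + 1) with hS
  refine ⟨∑ p ∈ S, C p, ∑ p ∈ S, N' p, Finset.sum_nonneg fun p _ => hC0 p, fun f => ?_⟩
  unfold sn
  rw [← hS, Finset.sum_mul]
  refine Finset.sum_le_sum fun p hp => ?_
  refine (hC p f).trans (mul_le_mul_of_nonneg_left (sn_mono ?_ f) (hC0 p))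
  exact Finset.single_le_sum (f := N') (fun _ _ => Nat.zero_le _) hp

/-- `x ↦ 2x` from `ℝ` to `ℂ`. -/
def twoL : ℝ →L[ℝ] ℂ := (2 : ℝ) • Complex.ofRealCLM

lemma twoL_apply (x : ℝ) : twoL x = 2 * (x : ℂ) := by
  simp [twoL]

lemma twoL_anti : AntilipschitzWith 1 twoL := by
  refine AntilipschitzWith.of_le_mul_dist fun x y => ?_
  rw [dist_eq_norm, dist_eq_norm, ← map_sub, twoL_apply, norm_mul, Complex.norm_real]
  simp only [Complex.norm_ofNat, NNReal.coe_one, one_mul, Real.norm_eq_abs]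
  nlinarith [abs_nonneg (x - y)]

/-- Restriction `f ↦ (x ↦ f(2x))`. -/
def restr : 𝓢(ℂ, ℂ) →L[ℝ] 𝓢(ℝ, ℂ) :=
  SchwartzMap.compCLMOfAntilipschitz ℝ twoL.hasTemperateGrowth twoL_anti

lemma restr_apply (f : 𝓢(ℂ, ℂ)) (x : ℝ) : restr f x = f (2 * (x : ℂ)) := by
  have : restr f x = f (twoL x) := rfl
  rw [this, twoL_apply]

lemma fourierInv_real (g : 𝓢(ℝ, ℂ)) (u : ℝ) :
    g u = ∫ s : ℝ, (𝓕 g) s * Complex.exp (2 * Real.pi * Complex.I * (s * u)) := by
  have h1 : 𝓕⁻ (𝓕 g) = g := FourierTransform.fourierInv_fourier_eq g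
  calc g u = (𝓕⁻ (𝓕 g)) u := by rw [h1]
    _ = 𝓕⁻ ((𝓕 g : 𝓢(ℝ, ℂ)) : ℝ → ℂ) u := by rw [SchwartzMap.fourierInv_coe]
    _ = _ := by
      rw [Real.fourierInv_eq']
      refine integral_congr_ae (Eventually.of_forall fun s => ?_)
      simp only [smul_eq_mul, RCLike.inner_apply, conj_trivial]
      rw [mul_comm]
      congr 1
      congr 1
      push_cast
      ring

lemma one_add_pow_le (x : ℝ) (hx : 0 ≤ x) (k : ℕ) : (1 + x) ^ k ≤ 2 ^ k * (1 + x ^ k) := by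
  rcases le_total x 1 with h | h
  · calc (1 + x) ^ k ≤ 2 ^ k := pow_le_pow_left₀ (by positivity) (by linarith) k
      _ ≤ 2 ^ k * (1 + x ^ k) := by
        have : 0 ≤ x ^ k := by positivity
        have h2 : (0:ℝ) < 2 ^ k := by positivity
        nlinarith
  · calc (1 + x) ^ k ≤ (2 * x) ^ k := pow_le_pow_left₀ (by positivity) (by linarith) k
      _ = 2 ^ k * x ^ k := mul_pow _ _ _
      _ ≤ 2 ^ k * (1 + x ^ k) := by
        have h2 : (0:ℝ) < 2 ^ k := by positivity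
        nlinarith

/-- The separating measure: for every Schwartz function `f` on `ℂ` and `c > 0` there is a Schwartz
`m` with `f̂(x) = x^{-c} ∫ m(s) x^{2πis} ds` for `x > 0`; `m` is bounded by seminorms of `f`. -/
theorem exists_mellin {c : ℝ} (hc : 0 < c) (k : ℕ) :
    ∃ (C : ℝ) (N : ℕ), 0 ≤ C ∧ ∀ f : 𝓢(ℂ, ℂ), ∃ m : 𝓢(ℝ, ℂ),
      (∀ s : ℝ, (1 + |s|) ^ k * ‖m s‖ ≤ C * sn N f) ∧
      ∀ x : ℝ, 0 < x → fC f (x : ℂ) = ((x ^ (-c) : ℝ) : ℂ) *
        ∫ s : ℝ, m s * Complex.exp (2 * Real.pi * Complex.I * (s * Real.log x)) := by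
  obtain ⟨C1, N1, hC10, hC1⟩ := sn_clm_le (SchwartzMap.fourierTransformCLM ℝ (V := ℝ) (E := ℂ)) k
  obtain ⟨C2, N2, hC20, hC2⟩ := sn_expSchwartz_le hc N1
  obtain ⟨C3, N3, hC30, hC3⟩ := sn_clm_le restr N2
  obtain ⟨C4, N4, hC40, hC4⟩ := sn_clm_le (SchwartzMap.fourierTransformCLM ℝ (V := ℂ) (E := ℂ)) N3
  refine ⟨2 ^ k * (2 * (C1 * (C2 * (C3 * C4)))), N4, by positivity, fun f => ?_⟩
  set h : 𝓢(ℝ, ℂ) := restr (𝓕 f) with hh
  set g : 𝓢(ℝ, ℂ) := expSchwartz h c hc with hg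
  refine ⟨𝓕 g, fun s => ?_, fun x hx => ?_⟩
  · have hsn : sn k (𝓕 g) ≤ C1 * (C2 * (C3 * C4)) * sn N4 f := by
      have e1 : sn k (𝓕 g) ≤ C1 * sn N1 g := hC1 g
      have e2 : sn N1 g ≤ C2 * sn N2 h := hC2 h
      have e3 : sn N2 h ≤ C3 * sn N3 (𝓕 f) := hC3 (𝓕 f)
      have e4 : sn N3 (𝓕 f) ≤ C4 * sn N4 f := hC4 f
      calc sn k (𝓕 g) ≤ C1 * sn N1 g := e1
        _ ≤ C1 * (C2 * sn N2 h) := by gcongr
        _ ≤ C1 * (C2 * (C3 * sn N3 (𝓕 f))) := by gcongr
        _ ≤ C1 * (C2 * (C3 * (C4 * sn N4 f))) := by gcongr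
        _ = _ := by ring
    have h1 : |s| ^ k * ‖(𝓕 g) s‖ ≤ sn k (𝓕 g) := by
      have := SchwartzMap.norm_pow_mul_le_seminorm ℝ (𝓕 g) k s
      rw [Real.norm_eq_abs] at this
      exact this.trans (seminorm_le_sn le_rfl (Nat.zero_le _) _)
    have h0 : ‖(𝓕 g) s‖ ≤ sn k (𝓕 g) :=
      (SchwartzMap.norm_le_seminorm ℝ (𝓕 g) s).trans (seminorm_le_sn (Nat.zero_le _) (Nat.zero_le _) _)
    calc (1 + |s|) ^ k * ‖(𝓕 g) s‖ ≤ 2 ^ k * (1 + |s| ^ k) * ‖(𝓕 g) s‖ := by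
          gcongr
          exact one_add_pow_le _ (abs_nonneg _) _
      _ = 2 ^ k * (‖(𝓕 g) s‖ + |s| ^ k * ‖(𝓕 g) s‖) := by ring
      _ ≤ 2 ^ k * (sn k (𝓕 g) + sn k (𝓕 g)) := by gcongr
      _ = 2 ^ k * (2 * sn k (𝓕 g)) := by ring
      _ ≤ 2 ^ k * (2 * (C1 * (C2 * (C3 * C4)) * sn N4 f)) := by gcongr
      _ = _ := by ring
  · have h1 := fourierInv_real g (Real.log x)
    rw [← h1, hg, expSchwartz_apply, Real.exp_log hx, hh, restr_apply, fC_eq_fourier]
    rw [Complex.conj_ofReal]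
    rw [← mul_assoc, ← Complex.ofReal_mul]
    have h2 : x ^ (-c) * Real.exp (c * Real.log x) = 1 := by
      rw [mul_comm c, Real.exp_mul, Real.exp_log hx, ← Real.rpow_add hx]
      simp
    rw [h2, Complex.ofReal_one, one_mul]
    rfl

/-- The Schwartz seminorms of `radAng W l` are bounded by the derivatives of `W`. -/
theorem sn_radAngS_le {a b : ℝ} (ha : 0 < a) (hab : a ≤ b) (l : ℤ) (N : ℕ) :
    ∃ C : ℝ, 0 ≤ C ∧ ∀ (W : ℝ → ℂ) (hW : Wt a b W) (M : ℝ),
      (∀ j ≤ N, ∀ x, ‖iteratedFDeriv ℝ j W x‖ ≤ M) → sn N (radAngS ha hW l) ≤ C * M := by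
  obtain ⟨C, hC0, hC⟩ := iteratedFDeriv_radAng_le ha hab l N
  refine ⟨∑ p ∈ Finset.range (N + 1) ×ˢ Finset.range (N + 1), Real.sqrt b ^ p.1 * C,
    Finset.sum_nonneg fun p _ => by positivity, fun W hW M hM => ?_⟩
  have hM0 : 0 ≤ M := (norm_nonneg _).trans (hM 0 (Nat.zero_le _) 0)
  unfold sn
  rw [Finset.sum_mul]
  refine Finset.sum_le_sum fun p hp => ?_
  rw [Finset.mem_product, Finset.mem_range, Finset.mem_range] at hp
  refine SchwartzMap.seminorm_le_bound ℝ p.1 p.2 _ (by positivity) fun z => ?_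
  rw [radAngS_coe]
  by_cases hz : ‖z‖ ^ 2 ∈ Icc a b
  · have h1 : ‖z‖ ≤ Real.sqrt b := Real.le_sqrt_of_sq_le hz.2
    have h2 := hC W hW M hM p.2 (by omega) z
    calc _ ≤ Real.sqrt b ^ p.1 * (C * M) := by gcongr
      _ = _ := by ring
  · rw [iteratedFDeriv_radAng_eq_zero hW l p.2 hz, norm_zero, mul_zero]
    positivity

/-- **Separation of `|ξ|`** in the Fourier transform of `W(|z|²)(z/|z|)^l`: for every `c > 0`
`F̂(ξ) = (ξ/|ξ|)^{-l} |ξ|^{-c} ∫ m(s) |ξ|^{2πis} ds` with `m` rapidly decreasing, uniformly in `W`. -/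
theorem fC_radAng_mellin {a b : ℝ} (ha : 0 < a) (hab : a ≤ b) (l : ℤ) {c : ℝ} (hc : 0 < c) (k : ℕ) :
    ∃ (C : ℝ) (N : ℕ), 0 ≤ C ∧ ∀ (W : ℝ → ℂ) (hW : Wt a b W) (M : ℝ),
      (∀ j ≤ N, ∀ x, ‖iteratedFDeriv ℝ j W x‖ ≤ M) → ∃ m : 𝓢(ℝ, ℂ),
        (∀ s : ℝ, (1 + |s|) ^ k * ‖m s‖ ≤ C * M) ∧
        ∀ ξ : ℂ, ξ ≠ 0 → fC (radAng W l) ξ = (ξ / ‖ξ‖) ^ (-l) * (((‖ξ‖ ^ (-c) : ℝ) : ℂ) *
          ∫ s : ℝ, m s * Complex.exp (2 * Real.pi * Complex.I * (s * Real.log ‖ξ‖))) := by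
  obtain ⟨C1, N, hC10, hC1⟩ := exists_mellin hc k
  obtain ⟨C2, hC20, hC2⟩ := sn_radAngS_le ha hab l N
  refine ⟨C1 * C2, N, by positivity, fun W hW M hM => ?_⟩
  obtain ⟨m, hm1, hm2⟩ := hC1 (radAngS ha hW l)
  refine ⟨m, fun s => ?_, fun ξ hξ => ?_⟩
  · calc _ ≤ C1 * sn N (radAngS ha hW l) := hm1 s
      _ ≤ C1 * (C2 * M) := by
        gcongr
        exact hC2 W hW M hM
      _ = _ := by ring
  · rw [fC_radAng_eq W l hξ]
    have := hm2 ‖ξ‖ (norm_pos_iff.mpr hξ)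
    rw [radAngS_coe] at this
    rw [this]

end Crest.Agent.R012.Schw922
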