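import Crest.Agent.R012.Defs

/-!
# Row 12: Schwartz functions on `ℂ` of the form `W(|z|²) (z/|z|)^l`

* `fC f ξ = ∫ f(z) e(-ξ z) dz`, with `e = eC`, `fC_eq_fourier : fC f ξ = 𝓕 f (2 ξ̄)`
* `Wt a b W` : `W` is smooth and vanishes off `[a, b]`, `0 < a`
* `radAng W l z = W(|z|²) (z/|z|)^l` is smooth with compact support (`radAngS` : Schwartz map)
* uniform decay of its Fourier transform (`radAng_decay`), in particular polynomial uniformity in
  `t` for the weights `W(x) x^{it}` (`radAng_decay_twist`).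
-/

set_option autoImplicit false
set_option linter.unusedSimpArgs false
set_option linter.unusedVariables false

noncomputable section

open Complex MeasureTheory Set Filter
open scoped FourierTransform ContDiff Topology SchwartzMap

namespace Crest.Agent.R012.Schw922

lemma nat_le_infty (n : ℕ) : (n : WithTop ℕ∞) ≤ ∞ := by exact_mod_cast le_top

/-- The two dimensional Fourier transform with respect to `e(z) = exp(2πi(z+z̄))`. -/
def fC (f : ℂ → ℂ) (ξ : ℂ) : ℂ := ∫ z, f z * eC (-(ξ * z))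

lemma eC_neg_eq (ξ z : ℂ) :
    eC (-(ξ * z)) = (Real.fourierChar (-(inner ℝ z (2 * (starRingEnd ℂ) ξ))) : ℂ) := by
  unfold eC
  rw [Real.fourierChar_apply]
  congr 1
  have h1 : (inner ℝ z (2 * (starRingEnd ℂ) ξ) : ℝ) = 2 * (ξ * z).re := by
    rw [Complex.inner]
    simp [Complex.mul_re, Complex.mul_im]
    ring
  rw [h1]
  have h2 : -(ξ * z) + (starRingEnd ℂ) (-(ξ * z)) = ((-(2 * (ξ * z).re) : ℝ) : ℂ) := by
    rw [Complex.add_conj]
    push_cast
    simp
    ring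
  rw [h2]
  push_cast
  ring

lemma fC_eq_fourier (f : ℂ → ℂ) (ξ : ℂ) : fC f ξ = 𝓕 f (2 * (starRingEnd ℂ) ξ) := by
  rw [Real.fourier_eq]
  unfold fC
  refine integral_congr_ae (Eventually.of_forall fun z => ?_)
  simp only
  rw [eC_neg_eq, Circle.smul_def, smul_eq_mul, mul_comm]

lemma norm_eC (z : ℂ) : ‖eC z‖ = 1 := by
  unfold eC
  rw [Complex.norm_exp]
  have : (2 * (Real.pi : ℂ) * Complex.I * (z + (starRingEnd ℂ) z)).re = 0 := by
    rw [Complex.add_conj]
    simp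
  rw [this, Real.exp_zero]

lemma norm_fC_le (f : ℂ → ℂ) (ξ : ℂ) : ‖fC f ξ‖ ≤ ∫ z, ‖f z‖ := by
  unfold fC
  refine (norm_integral_le_integral_norm _).trans (le_of_eq ?_)
  refine integral_congr_ae (Eventually.of_forall fun z => ?_)
  simp [norm_eC]

/-- `W : ℝ → ℂ` is smooth and vanishes outside `[a, b]`. -/
structure Wt (a b : ℝ) (W : ℝ → ℂ) : Prop where
  smooth : ContDiff ℝ ∞ W
  supp : ∀ x, x ∉ Icc a b → W x = 0

/-- `W(|z|²) (z/|z|)^l`. -/
def radAng (W : ℝ → ℂ) (l : ℤ) (z : ℂ) : ℂ := W (‖z‖ ^ 2) * (z / (‖z‖ : ℂ)) ^ l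

lemma radAng_zero_of {a b : ℝ} (ha : 0 < a) {W : ℝ → ℂ} (hW : Wt a b W) (l : ℤ) {z : ℂ}
    (hz : ‖z‖ ^ 2 < a) : radAng W l z = 0 := by
  unfold radAng
  rw [hW.supp _ (fun h => absurd h.1 (not_le.mpr hz)), zero_mul]

lemma contDiffAt_ang (l : ℤ) {z : ℂ} (hz : z ≠ 0) :
    ContDiffAt ℝ ∞ (fun z : ℂ => (z / (‖z‖ : ℂ)) ^ l) z := by
  have h1 : ContDiffAt ℝ ∞ (fun z : ℂ => (‖z‖ : ℂ)) z :=
    Complex.ofRealCLM.contDiff.contDiffAt.comp z (contDiffAt_norm ℝ hz)
  have h2 : ContDiffAt ℝ ∞ (fun z : ℂ => z / (‖z‖ : ℂ)) z := by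
    simp only [div_eq_mul_inv]
    refine contDiffAt_id.mul (h1.inv ?_)
    simpa using hz
  cases l with
  | ofNat n => simpa using h2.pow n
  | negSucc n =>
    simp only [zpow_negSucc]
    refine (h2.pow (n+1)).inv ?_
    have : (‖z‖ : ℂ) ≠ 0 := by simpa using hz
    exact pow_ne_zero _ (div_ne_zero hz this)

lemma contDiff_radAng {a b : ℝ} (ha : 0 < a) {W : ℝ → ℂ} (hW : Wt a b W) (l : ℤ) :
    ContDiff ℝ ∞ (radAng W l) := by
  rw [contDiff_iff_contDiffAt]
  intro z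
  by_cases hz : z = 0
  · subst hz
    have : radAng W l =ᶠ[𝓝 0] fun _ => 0 := by
      have h : ∀ᶠ z : ℂ in 𝓝 0, ‖z‖ ^ 2 < a := by
        have hc : Continuous (fun z : ℂ => ‖z‖ ^ 2) := by fun_prop
        have := hc.tendsto 0
        simp only [norm_zero, ne_eq, OfNat.ofNat_ne_zero, not_false_eq_true, zero_pow] at this
        exact this.eventually (gt_mem_nhds ha)
      filter_upwards [h] with z hz
      exact radAng_zero_of ha hW l hz
    exact contDiffAt_const.congr_of_eventuallyEq this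
  · unfold radAng
    refine ContDiffAt.mul ?_ (contDiffAt_ang l hz)
    exact hW.smooth.contDiffAt.comp z (contDiff_norm_sq ℝ).contDiffAt

lemma radAng_eq_zero_of_lt {a b : ℝ} {W : ℝ → ℂ} (hW : Wt a b W) (l : ℤ) {z : ℂ}
    (hz : b < ‖z‖ ^ 2) : radAng W l z = 0 := by
  unfold radAng
  rw [hW.supp _ (fun h => absurd h.2 (not_le.mpr hz)), zero_mul]

lemma tsupport_radAng_subset {a b : ℝ} {W : ℝ → ℂ} (hW : Wt a b W) (l : ℤ) :
    tsupport (radAng W l) ⊆ {z : ℂ | ‖z‖ ^ 2 ∈ Icc a b} := by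
  refine closure_minimal ?_ ?_
  · intro z hz
    by_contra h
    apply hz
    unfold radAng
    rw [hW.supp _ h, zero_mul]
  · exact isClosed_Icc.preimage (by fun_prop)

lemma hasCompactSupport_radAng {a b : ℝ} {W : ℝ → ℂ} (hW : Wt a b W) (l : ℤ) :
    HasCompactSupport (radAng W l) := by
  refine HasCompactSupport.intro (isCompact_closedBall (0 : ℂ) (Real.sqrt b)) ?_
  intro z hz
  apply radAng_eq_zero_of_lt hW
  simp only [Metric.mem_closedBall, dist_zero_right, not_le] at hz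
  rcases le_or_gt 0 b with hb | hb
  · calc b = Real.sqrt b ^ 2 := (Real.sq_sqrt hb).symm
      _ < ‖z‖ ^ 2 := by
        have := Real.sqrt_nonneg b
        nlinarith
  · exact lt_of_lt_of_le hb (by positivity)

/-- `radAng W l` as a Schwartz function. -/
def radAngS {a b : ℝ} (ha : 0 < a) {W : ℝ → ℂ} (hW : Wt a b W) (l : ℤ) : 𝓢(ℂ, ℂ) :=
  (hasCompactSupport_radAng hW l).toSchwartzMap (contDiff_radAng ha hW l)

@[simp] lemma radAngS_apply {a b : ℝ} (ha : 0 < a) {W : ℝ → ℂ} (hW : Wt a b W) (l : ℤ) (z : ℂ) :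
    radAngS ha hW l z = radAng W l z := rfl

lemma radAngS_coe {a b : ℝ} (ha : 0 < a) {W : ℝ → ℂ} (hW : Wt a b W) (l : ℤ) :
    (radAngS ha hW l : ℂ → ℂ) = radAng W l := rfl

/-! ### Uniform bounds for the derivatives -/

/-- On a ball, the derivatives of `z ↦ |z|²` are bounded by `D^i`. -/
lemma exists_normSq_bound (R : ℝ) (n : ℕ) : ∃ D : ℝ, 1 ≤ D ∧ ∀ z : ℂ, ‖z‖ ≤ R → ∀ i, 1 ≤ i → i ≤ n →
    ‖iteratedFDeriv ℝ i (fun z : ℂ => ‖z‖ ^ 2) z‖ ≤ D ^ i := by
  have h : ∀ i : ℕ, ∃ Di : ℝ, ∀ z : ℂ, ‖z‖ ≤ R →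
      ‖iteratedFDeriv ℝ i (fun z : ℂ => ‖z‖ ^ 2) z‖ ≤ Di := by
    intro i
    have hc : Continuous (fun z => iteratedFDeriv ℝ i (fun z : ℂ => ‖z‖ ^ 2) z) :=
      (contDiff_norm_sq (n := ∞) ℝ).continuous_iteratedFDeriv (by exact_mod_cast le_top)
    obtain ⟨Di, hDi⟩ := (isCompact_closedBall (0 : ℂ) R).exists_bound_of_continuousOn hc.continuousOn
    exact ⟨Di, fun z hz => hDi z (by simpa using hz)⟩
  choose Di hDi using h
  refine ⟨1 + ∑ i ∈ Finset.range (n + 1), |Di i|, ?_, ?_⟩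
  · have : 0 ≤ ∑ i ∈ Finset.range (n + 1), |Di i| := Finset.sum_nonneg (fun _ _ => abs_nonneg _)
    linarith
  · intro z hz i hi1 hin
    set D := 1 + ∑ i ∈ Finset.range (n + 1), |Di i| with hD
    have h0 : 0 ≤ ∑ i ∈ Finset.range (n + 1), |Di i| := Finset.sum_nonneg (fun _ _ => abs_nonneg _)
    have h1 : |Di i| ≤ ∑ i ∈ Finset.range (n + 1), |Di i| :=
      Finset.single_le_sum (f := fun i => |Di i|) (fun _ _ => abs_nonneg _)
        (Finset.mem_range.mpr (by omega))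
    calc _ ≤ Di i := hDi i z hz
      _ ≤ |Di i| := le_abs_self _
      _ ≤ D := by rw [hD]; linarith
      _ = D ^ 1 := (pow_one D).symm
      _ ≤ D ^ i := pow_le_pow_right₀ (by rw [hD]; linarith) hi1

/-- A smooth function equal to `1` on `[a, b]` and vanishing off `[a/2, b+1]`. -/
lemma exists_cut {a b : ℝ} (ha : 0 < a) (hab : a ≤ b) : ∃ χ : ℝ → ℂ, Wt (a / 2) (b + 1) χ ∧
    ∀ x ∈ Icc a b, χ x = 1 := by
  let f : ℝ → ℝ := fun x => Real.smoothTransition ((x - a / 2) / (a / 2)) *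
    Real.smoothTransition (b + 1 - x)
  refine ⟨fun x => (f x : ℂ), ⟨?_, ?_⟩, ?_⟩
  · have h1 : ContDiff ℝ ∞ f := by
      refine ContDiff.mul ?_ ?_
      · refine (Real.smoothTransition.contDiff (n := ⊤)).comp ?_
        fun_prop
      · refine (Real.smoothTransition.contDiff (n := ⊤)).comp ?_
        fun_prop
    exact Complex.ofRealCLM.contDiff.comp h1
  · intro x hx
    simp only [mem_Icc, not_and_or, not_le] at hx
    have : f x = 0 := by
      rcases hx with hx | hx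
      · have : Real.smoothTransition ((x - a / 2) / (a / 2)) = 0 :=
          Real.smoothTransition.zero_of_nonpos
            (div_nonpos_of_nonpos_of_nonneg (by linarith) (by positivity))
        simp only [f, this, zero_mul]
      · have : Real.smoothTransition (b + 1 - x) = 0 :=
          Real.smoothTransition.zero_of_nonpos (by linarith)
        simp only [f, this, mul_zero]
    simp [this]
  · intro x hx
    have h1 : Real.smoothTransition ((x - a / 2) / (a / 2)) = 1 :=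
      Real.smoothTransition.one_of_one_le (by rw [le_div_iff₀ (by positivity)]; linarith [hx.1])
    have h2 : Real.smoothTransition (b + 1 - x) = 1 :=
      Real.smoothTransition.one_of_one_le (by linarith [hx.2])
    simp [f, h1, h2]

/-- Uniform bound for all derivatives of `radAng W l` in terms of those of `W`. -/
lemma iteratedFDeriv_radAng_le {a b : ℝ} (ha : 0 < a) (hab : a ≤ b) (l : ℤ) (n : ℕ) :
    ∃ C : ℝ, 0 ≤ C ∧ ∀ (W : ℝ → ℂ) (hW : Wt a b W) (M : ℝ),
      (∀ j ≤ n, ∀ x, ‖iteratedFDeriv ℝ j W x‖ ≤ M) → ∀ q ≤ n, ∀ z : ℂ,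
        ‖iteratedFDeriv ℝ q (radAng W l) z‖ ≤ C * M := by
  obtain ⟨χ, hχ, hχ1⟩ := exists_cut ha hab
  obtain ⟨D, hD1, hD⟩ := exists_normSq_bound (Real.sqrt (b + 1)) n
  have ha2 : 0 < a / 2 := by positivity
  have hA : ContDiff ℝ ∞ (radAng χ l) := contDiff_radAng ha2 hχ l
  -- bounds for the fixed angular function
  have hB : ∀ q : ℕ, ∃ B : ℝ, 0 ≤ B ∧ ∀ z : ℂ, ‖iteratedFDeriv ℝ q (radAng χ l) z‖ ≤ B := by
    intro q
    have := (radAngS ha2 hχ l).decay 0 q
    obtain ⟨C, hC0, hC⟩ := this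
    exact ⟨C, hC0.le, fun z => by simpa [radAngS_coe] using hC z⟩
  choose B hB0 hB using hB
  refine ⟨∑ q ∈ Finset.range (n + 1), ∑ i ∈ Finset.range (q + 1),
    (q.choose i : ℝ) * (i.factorial * D ^ i) * B (q - i), ?_, ?_⟩
  · refine Finset.sum_nonneg fun q _ => Finset.sum_nonneg fun i _ => ?_
    have : 0 ≤ D := by linarith
    have := hB0 (q - i)
    positivity
  intro W hW M hM q hq z
  have hM0 : 0 ≤ M := (norm_nonneg _).trans (hM 0 (Nat.zero_le _) 0)
  have hD0 : 0 ≤ D := by linarith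
  -- outside the ball everything vanishes
  by_cases hz : ‖z‖ ≤ Real.sqrt (b + 1)
  · have hfac : radAng W l = fun z => (fun z : ℂ => W (‖z‖ ^ 2)) z * radAng χ l z := by
      funext z
      unfold radAng
      by_cases h : ‖z‖ ^ 2 ∈ Icc a b
      · rw [hχ1 _ h]; ring
      · simp only [hW.supp _ h, zero_mul]
    have hWs : ContDiff ℝ ∞ (fun z : ℂ => W (‖z‖ ^ 2)) := hW.smooth.comp (contDiff_norm_sq ℝ)
    rw [hfac]
    refine (norm_iteratedFDeriv_mul_le (N := ∞) hWs hA z (by exact_mod_cast le_top)).trans ?_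
    have hin : ∀ i ∈ Finset.range (q + 1),
        (q.choose i : ℝ) * ‖iteratedFDeriv ℝ i (fun z : ℂ => W (‖z‖ ^ 2)) z‖ *
          ‖iteratedFDeriv ℝ (q - i) (radAng χ l) z‖ ≤
        ((q.choose i : ℝ) * (i.factorial * D ^ i) * B (q - i)) * M := by
      intro i hi
      have hi' : i ≤ n := by
        have := Finset.mem_range.mp hi
        omega
      have h1 : ‖iteratedFDeriv ℝ i (fun z : ℂ => W (‖z‖ ^ 2)) z‖ ≤ i.factorial * M * D ^ i := by
        refine norm_iteratedFDeriv_comp_le (g := W) (f := fun z : ℂ => ‖z‖ ^ 2) (N := ∞)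
          hW.smooth (contDiff_norm_sq ℝ) (by exact_mod_cast le_top) z ?_ ?_
        · intro j hj
          exact hM j (hj.trans hi') _
        · intro j hj1 hj
          exact hD z hz j hj1 (hj.trans hi')
      calc _ ≤ (q.choose i : ℝ) * (i.factorial * M * D ^ i) * B (q - i) := by
            gcongr
            exact hB _ _
        _ = _ := by ring
    refine (Finset.sum_le_sum hin).trans ?_
    rw [← Finset.sum_mul]
    gcongr
    refine Finset.single_le_sum (f := fun q => ∑ i ∈ Finset.range (q + 1),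
      (q.choose i : ℝ) * (i.factorial * D ^ i) * B (q - i)) (fun q _ => ?_)
      (Finset.mem_range.mpr (by omega))
    refine Finset.sum_nonneg fun i _ => ?_
    have := hB0 (q - i)
    positivity
  · have hb0 : 0 < b := lt_of_lt_of_le ha hab
    have hnot : z ∉ tsupport (radAng W l) := by
      intro h
      have := (tsupport_radAng_subset hW l h).2
      apply hz
      apply Real.le_sqrt_of_sq_le
      linarith
    have : iteratedFDeriv ℝ q (radAng W l) z = 0 := by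
      by_contra hne
      exact hnot (support_iteratedFDeriv_subset (𝕜 := ℝ) q hne)
    rw [this, norm_zero]
    refine mul_nonneg (Finset.sum_nonneg fun q _ => Finset.sum_nonneg fun i _ => ?_) hM0
    have := hB0 (q - i)
    positivity

lemma iteratedFDeriv_radAng_eq_zero {a b : ℝ} {W : ℝ → ℂ} (hW : Wt a b W) (l : ℤ) (q : ℕ) {z : ℂ}
    (hz : ‖z‖ ^ 2 ∉ Icc a b) : iteratedFDeriv ℝ q (radAng W l) z = 0 := by
  by_contra hne
  exact hz (tsupport_radAng_subset hW l (support_iteratedFDeriv_subset (𝕜 := ℝ) q hne))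

/-- Uniform decay of the Fourier transform of `radAng W l`. -/
theorem radAng_decay {a b : ℝ} (ha : 0 < a) (hab : a ≤ b) (l : ℤ) (n : ℕ) :
    ∃ C : ℝ, 0 ≤ C ∧ ∀ (W : ℝ → ℂ) (hW : Wt a b W) (M : ℝ),
      (∀ j ≤ n, ∀ x, ‖iteratedFDeriv ℝ j W x‖ ≤ M) → ∀ ξ : ℂ,
        ‖ξ‖ ^ n * ‖fC (radAng W l) ξ‖ ≤ C * M := by
  obtain ⟨C, hC0, hC⟩ := iteratedFDeriv_radAng_le ha hab l n
  set V : ℝ := (volume (Metric.closedBall (0 : ℂ) (Real.sqrt b))).toReal with hV
  refine ⟨2 ^ n * ((n + 1 : ℕ) * (V * C)), by positivity, ?_⟩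
  intro W hW M hM ξ
  have hM0 : 0 ≤ M := (norm_nonneg _).trans (hM 0 (Nat.zero_le _) 0)
  have hint : ∀ q ≤ n, ∫ v : ℂ, ‖iteratedFDeriv ℝ q (radAng W l) v‖ ≤ V * (C * M) := by
    intro q hq
    have hset : ∀ v : ℂ, v ∉ Metric.closedBall (0 : ℂ) (Real.sqrt b) →
        ‖iteratedFDeriv ℝ q (radAng W l) v‖ = 0 := by
      intro v hv
      rw [iteratedFDeriv_radAng_eq_zero hW l q, norm_zero]
      intro h
      apply hv
      simp only [Metric.mem_closedBall, dist_zero_right]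
      exact Real.le_sqrt_of_sq_le h.2
    rw [← setIntegral_eq_integral_of_forall_compl_eq_zero hset]
    have hle : ‖∫ v in Metric.closedBall (0 : ℂ) (Real.sqrt b),
        ‖iteratedFDeriv ℝ q (radAng W l) v‖‖ ≤ (C * M) *
        (volume (Metric.closedBall (0 : ℂ) (Real.sqrt b))).toReal := by
      refine norm_setIntegral_le_of_norm_le_const
        (isCompact_closedBall _ _).measure_lt_top ?_
      intro v _
      rw [norm_norm]
      exact hC W hW M hM q hq v
    calc _ ≤ ‖∫ v in Metric.closedBall (0 : ℂ) (Real.sqrt b),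
        ‖iteratedFDeriv ℝ q (radAng W l) v‖‖ := le_abs_self _
      _ ≤ _ := hle
      _ = _ := by rw [hV]; ring
  have h1 := Real.pow_mul_norm_iteratedFDeriv_fourier_le (K := 0) (N := ⊤) (f := radAng W l)
    (contDiff_radAng ha hW l) (fun k m _ _ =>
      (radAngS ha hW l).integrable_pow_mul_iteratedFDeriv volume k m)
    (k := 0) (n := n) (by simp) (by exact_mod_cast le_top) (2 * (starRingEnd ℂ) ξ)
  rw [fC_eq_fourier]
  simp only [norm_iteratedFDeriv_zero, pow_zero, one_mul, CharP.cast_eq_zero, mul_zero, zero_add,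
    norm_mul, RCLike.norm_conj, Complex.norm_ofNat, mul_pow, Finset.range_one,
    Finset.singleton_product, Finset.sum_map, Function.Embedding.coeFn_mk] at h1
  have h2 : ∑ x ∈ Finset.range (n + 1), ∫ v : ℂ, ‖iteratedFDeriv ℝ x (radAng W l) v‖ ≤
      (n + 1 : ℕ) * (V * (C * M)) := by
    refine (Finset.sum_le_sum (fun q hq => hint q ?_)).trans ?_
    · have := Finset.mem_range.mp hq
      omega
    · simp
  have h3 : (2:ℝ) ^ n * (‖ξ‖ ^ n * ‖𝓕 (radAng W l) (2 * (starRingEnd ℂ) ξ)‖) ≤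
      2 ^ n * ((n + 1 : ℕ) * (V * (C * M))) := by
    calc _ = (2:ℝ) ^ n * ‖ξ‖ ^ n * ‖𝓕 (radAng W l) (2 * (starRingEnd ℂ) ξ)‖ := by ring
      _ ≤ _ := h1
      _ ≤ _ := by gcongr
  have h4 : (1:ℝ) ≤ 2 ^ n := one_le_pow₀ (by norm_num)
  calc _ ≤ (2:ℝ) ^ n * (‖ξ‖ ^ n * ‖𝓕 (radAng W l) (2 * (starRingEnd ℂ) ξ)‖) := by
        have : 0 ≤ ‖ξ‖ ^ n * ‖𝓕 (radAng W l) (2 * (starRingEnd ℂ) ξ)‖ := by positivity
        nlinarith
    _ ≤ _ := h3
    _ = _ := by ring

/-! ### The twist by `x^{it}` -/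

/-- The twisted weight `W(x) x^{it}`. -/
def tw (W : ℝ → ℂ) (t : ℝ) (x : ℝ) : ℂ := W x * Complex.exp (Complex.I * (t * Real.log x : ℝ))

lemma exists_cutR {a b : ℝ} (ha : 0 < a) (hab : a ≤ b) : ∃ χ : ℝ → ℝ, ContDiff ℝ ∞ χ ∧
    (∀ x ∉ Icc (a / 2) (b + 1), χ x = 0) ∧ ∀ x ∈ Icc a b, χ x = 1 := by
  refine ⟨fun x => Real.smoothTransition ((x - a / 2) / (a / 2)) *
    Real.smoothTransition (b + 1 - x), ?_, ?_, ?_⟩
  · refine ContDiff.mul ?_ ?_
    · refine (Real.smoothTransition.contDiff (n := ⊤)).comp ?_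
      fun_prop
    · refine (Real.smoothTransition.contDiff (n := ⊤)).comp ?_
      fun_prop
  · intro x hx
    simp only [mem_Icc, not_and_or, not_le] at hx
    beta_reduce
    rcases hx with hx | hx
    · rw [Real.smoothTransition.zero_of_nonpos (x := (x - a / 2) / (a / 2))
        (div_nonpos_of_nonpos_of_nonneg (by linarith) (by positivity)), zero_mul]
    · rw [Real.smoothTransition.zero_of_nonpos (x := b + 1 - x) (by linarith), mul_zero]
  · intro x hx
    beta_reduce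
    rw [Real.smoothTransition.one_of_one_le (x := (x - a / 2) / (a / 2))
        (by rw [le_div_iff₀ (by positivity)]; linarith [hx.1]),
      Real.smoothTransition.one_of_one_le (x := b + 1 - x) (by linarith [hx.2]), mul_one]

/-- A globally smooth function with compact support which is `log x` on `[a, b]`. -/
lemma exists_logcut {a b : ℝ} (ha : 0 < a) (hab : a ≤ b) : ∃ g : ℝ → ℝ, ContDiff ℝ ∞ g ∧
    HasCompactSupport g ∧ ∀ x ∈ Icc a b, g x = Real.log x := by
  obtain ⟨χ, h1, h2, h3⟩ := exists_cutR ha hab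
  refine ⟨fun x => χ x * Real.log x, ?_, ?_, ?_⟩
  · rw [contDiff_iff_contDiffAt]
    intro x
    by_cases hx : x = 0
    · subst hx
      have : (fun x => χ x * Real.log x) =ᶠ[𝓝 0] fun _ => 0 := by
        filter_upwards [gt_mem_nhds (show (0 : ℝ) < a / 2 by positivity)] with y hy
        rw [h2 y (fun h => absurd h.1 (not_le.mpr hy)), zero_mul]
      exact contDiffAt_const.congr_of_eventuallyEq this
    · exact h1.contDiffAt.mul (Real.contDiffAt_log.mpr hx)
  · refine HasCompactSupport.intro (isCompact_Icc (a := a / 2) (b := b + 1)) ?_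
    intro x hx
    rw [h2 x hx, zero_mul]
  · intro x hx
    simp [h3 x hx]

lemma iteratedDeriv_expI (i : ℕ) : iteratedDeriv i (fun y : ℝ => Complex.exp (Complex.I * y)) =
    fun y : ℝ => Complex.I ^ i * Complex.exp (Complex.I * y) := by
  induction i with
  | zero => simp
  | succ i ih =>
    rw [iteratedDeriv_succ, ih]
    funext y
    have h1 : HasDerivAt (fun y : ℝ => Complex.exp (Complex.I * y))
        (Complex.exp (Complex.I * y) * (Complex.I * 1)) y := by
      have := (Complex.ofRealCLM.hasDerivAt (x := y)).const_mul Complex.I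
      exact this.cexp
    rw [(h1.const_mul (Complex.I ^ i)).deriv]
    ring

lemma norm_iteratedFDeriv_expI (i : ℕ) (y : ℝ) :
    ‖iteratedFDeriv ℝ i (fun y : ℝ => Complex.exp (Complex.I * y)) y‖ ≤ 1 := by
  rw [norm_iteratedFDeriv_eq_norm_iteratedDeriv, iteratedDeriv_expI]
  simp only [norm_mul, norm_pow, Complex.norm_I, one_pow, one_mul]
  rw [mul_comm, Complex.norm_exp_ofReal_mul_I]

lemma contDiff_expI : ContDiff ℝ ∞ (fun y : ℝ => Complex.exp (Complex.I * y)) := by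
  have : ContDiff ℝ ∞ (fun y : ℝ => Complex.I * (y : ℂ)) :=
    contDiff_const.mul Complex.ofRealCLM.contDiff
  exact this.cexp

lemma Wt.tw {a b : ℝ} (ha : 0 < a) {W : ℝ → ℂ} (hW : Wt a b W) (t : ℝ) : Wt a b (tw W t) := by
  rcases le_or_gt a b with hab | hab
  · obtain ⟨g, hg1, hg2, hg3⟩ := exists_logcut ha hab
    refine ⟨?_, ?_⟩
    · have : Schw922.tw W t = fun x => W x * Complex.exp (Complex.I * ((t * g x : ℝ) : ℂ)) := by
        funext x
        unfold Schw922.tw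
        by_cases hx : x ∈ Icc a b
        · rw [hg3 x hx]
        · rw [hW.supp x hx, zero_mul, zero_mul]
      rw [this]
      exact hW.smooth.mul (contDiff_expI.comp (contDiff_const.mul hg1))
    · intro x hx
      unfold Schw922.tw
      rw [hW.supp x hx, zero_mul]
  · have hz : W = fun _ => 0 := by
      funext x
      apply hW.supp
      rw [Icc_eq_empty (not_le.mpr hab)]
      exact fun h => h
    refine ⟨?_, ?_⟩
    · have : Schw922.tw W t = fun _ => 0 := by
        funext x; unfold Schw922.tw; rw [hz]; simp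
      rw [this]
      exact contDiff_const
    · intro x hx
      unfold Schw922.tw
      rw [hz]; simp

/-- The derivatives of `W(x) x^{it}` grow polynomially in `t`, uniformly in `W`. -/
lemma iteratedFDeriv_tw_le {a b : ℝ} (ha : 0 < a) (hab : a ≤ b) (n : ℕ) :
    ∃ C : ℝ, 0 ≤ C ∧ ∀ (W : ℝ → ℂ) (hW : Wt a b W) (M : ℝ),
      (∀ j ≤ n, ∀ x, ‖iteratedFDeriv ℝ j W x‖ ≤ M) → ∀ t : ℝ, ∀ q ≤ n, ∀ x : ℝ,
        ‖iteratedFDeriv ℝ q (tw W t) x‖ ≤ C * (1 + |t|) ^ n * M := by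
  obtain ⟨g, hg1, hg2, hg3⟩ := exists_logcut ha hab
  have hD : ∃ D : ℝ, 1 ≤ D ∧ ∀ x : ℝ, ∀ i, 1 ≤ i → i ≤ n → ‖iteratedFDeriv ℝ i g x‖ ≤ D ^ i := by
    have h : ∀ i : ℕ, ∃ Di : ℝ, ∀ x : ℝ, ‖iteratedFDeriv ℝ i g x‖ ≤ Di := by
      intro i
      obtain ⟨C, hC0, hC⟩ := (hg2.toSchwartzMap hg1).decay 0 i
      refine ⟨C, fun x => ?_⟩
      have h := hC x
      rw [pow_zero, one_mul] at h
      exact h
    choose Di hDi using h
    refine ⟨1 + ∑ i ∈ Finset.range (n + 1), |Di i|, ?_, ?_⟩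
    · have : 0 ≤ ∑ i ∈ Finset.range (n + 1), |Di i| :=
        Finset.sum_nonneg (fun _ _ => abs_nonneg _)
      linarith
    · intro x i hi1 hin
      have h0 : 0 ≤ ∑ i ∈ Finset.range (n + 1), |Di i| :=
        Finset.sum_nonneg (fun _ _ => abs_nonneg _)
      have h1 : |Di i| ≤ ∑ i ∈ Finset.range (n + 1), |Di i| :=
        Finset.single_le_sum (f := fun i => |Di i|) (fun _ _ => abs_nonneg _)
          (Finset.mem_range.mpr (by omega))
      calc _ ≤ Di i := hDi i x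
        _ ≤ |Di i| := le_abs_self _
        _ ≤ 1 + ∑ i ∈ Finset.range (n + 1), |Di i| := by linarith
        _ = (1 + ∑ i ∈ Finset.range (n + 1), |Di i|) ^ 1 := (pow_one _).symm
        _ ≤ _ := pow_le_pow_right₀ (by linarith) hi1
  obtain ⟨D, hD1, hD⟩ := hD
  have hD0 : 0 ≤ D := by linarith
  refine ⟨∑ q ∈ Finset.range (n + 1), ∑ i ∈ Finset.range (q + 1),
    (q.choose i : ℝ) * ((q - i).factorial * D ^ n), ?_, ?_⟩
  · refine Finset.sum_nonneg fun q _ => Finset.sum_nonneg fun i _ => ?_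
    positivity
  intro W hW M hM t q hq x
  have hM0 : 0 ≤ M := (norm_nonneg _).trans (hM 0 (Nat.zero_le _) 0)
  have hfac : tw W t = fun x => W x * (fun x : ℝ => Complex.exp (Complex.I * ((t * g x : ℝ) : ℂ))) x := by
    funext x
    unfold tw
    by_cases hx : x ∈ Icc a b
    · simp only [hg3 x hx]
    · rw [hW.supp x hx, zero_mul, zero_mul]
  have hE : ContDiff ℝ ∞ (fun x : ℝ => Complex.exp (Complex.I * ((t * g x : ℝ) : ℂ))) :=
    contDiff_expI.comp (contDiff_const.mul hg1)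
  rw [hfac]
  refine (norm_iteratedFDeriv_mul_le (N := ∞) hW.smooth hE x (by exact_mod_cast le_top)).trans ?_
  have ht1 : (1 : ℝ) ≤ 1 + |t| := by linarith [abs_nonneg t]
  have hin : ∀ i ∈ Finset.range (q + 1),
      (q.choose i : ℝ) * ‖iteratedFDeriv ℝ i W x‖ *
        ‖iteratedFDeriv ℝ (q - i) (fun x : ℝ => Complex.exp (Complex.I * ((t * g x : ℝ) : ℂ))) x‖ ≤
      ((q.choose i : ℝ) * ((q - i).factorial * D ^ n)) * ((1 + |t|) ^ n * M) := by
    intro i hi
    have hi' := Finset.mem_range.mp hi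
    have h1 : ‖iteratedFDeriv ℝ (q - i)
        (fun x : ℝ => Complex.exp (Complex.I * ((t * g x : ℝ) : ℂ))) x‖ ≤
        (q - i).factorial * 1 * ((1 + |t|) * D) ^ (q - i) := by
      refine norm_iteratedFDeriv_comp_le (g := fun y : ℝ => Complex.exp (Complex.I * y))
        (f := fun x : ℝ => t * g x) (N := ∞)
        contDiff_expI (contDiff_const.mul hg1) (nat_le_infty _) x ?_ ?_
      · intro j hj
        exact norm_iteratedFDeriv_expI _ _
      · intro j hj1 hj
        have h2 : iteratedFDeriv ℝ j (fun x : ℝ => t * g x) x = t • iteratedFDeriv ℝ j g x := by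
          have := iteratedFDeriv_const_smul_apply (𝕜 := ℝ) (a := t) (i := j) (f := g) (x := x)
            (hg1.contDiffAt.of_le (by exact_mod_cast le_top))
          simpa [Pi.smul_def] using this
        rw [h2, norm_smul, Real.norm_eq_abs, mul_pow]
        have h3 : |t| ≤ (1 + |t|) ^ j := by
          calc |t| ≤ (1 + |t|) ^ 1 := by rw [pow_one]; linarith
            _ ≤ _ := pow_le_pow_right₀ ht1 hj1
        exact mul_le_mul h3 (hD x j hj1 (by omega)) (norm_nonneg _) (by positivity)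
    have h4 : ((1 + |t|) * D) ^ (q - i) ≤ (1 + |t|) ^ n * D ^ n := by
      rw [mul_pow]
      exact mul_le_mul (pow_le_pow_right₀ ht1 (by omega)) (pow_le_pow_right₀ hD1 (by omega))
        (by positivity) (by positivity)
    calc _ ≤ (q.choose i : ℝ) * M * ((q - i).factorial * 1 * ((1 + |t|) ^ n * D ^ n)) := by
          refine mul_le_mul ?_ (h1.trans ?_) (norm_nonneg _) (by positivity)
          · exact mul_le_mul_of_nonneg_left (hM i (by omega) x) (by positivity)
          · exact mul_le_mul_of_nonneg_left h4 (by positivity)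
      _ = _ := by ring
  refine (Finset.sum_le_sum hin).trans ?_
  rw [← Finset.sum_mul, mul_assoc]
  refine mul_le_mul_of_nonneg_right ?_ (by positivity)
  refine Finset.single_le_sum (f := fun q => ∑ i ∈ Finset.range (q + 1),
    (q.choose i : ℝ) * ((q - i).factorial * D ^ n)) (fun q _ => ?_)
    (Finset.mem_range.mpr (by omega))
  refine Finset.sum_nonneg fun i _ => ?_
  positivity

/-- Every weight has all its derivatives bounded. -/
lemma Wt.exists_bound {a b : ℝ} {W : ℝ → ℂ} (hW : Wt a b W) (n : ℕ) :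
    ∃ M : ℝ, 0 ≤ M ∧ ∀ j ≤ n, ∀ x, ‖iteratedFDeriv ℝ j W x‖ ≤ M := by
  have hcs : HasCompactSupport W := HasCompactSupport.intro (isCompact_Icc (a := a) (b := b))
    (fun x hx => hW.supp x hx)
  have h : ∀ i : ℕ, ∃ Di : ℝ, 0 ≤ Di ∧ ∀ x : ℝ, ‖iteratedFDeriv ℝ i W x‖ ≤ Di := by
    intro i
    obtain ⟨C, hC0, hC⟩ := (hcs.toSchwartzMap hW.smooth).decay 0 i
    refine ⟨C, hC0.le, fun x => ?_⟩
    have h := hC x
    rw [pow_zero, one_mul] at h
    exact h
  choose Di hDi0 hDi using h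
  refine ⟨∑ i ∈ Finset.range (n + 1), Di i, Finset.sum_nonneg (fun i _ => hDi0 i), ?_⟩
  intro j hj x
  exact (hDi j x).trans (Finset.single_le_sum (f := fun i => Di i) (fun i _ => hDi0 i)
    (Finset.mem_range.mpr (by omega)))

/-- Uniform decay, twisted version, with the factor `(1 + |ξ|)^n`. -/
theorem radAng_tw_decay {a b : ℝ} (ha : 0 < a) (hab : a ≤ b) (l : ℤ) (n : ℕ) :
    ∃ C : ℝ, 0 ≤ C ∧ ∀ (W : ℝ → ℂ) (hW : Wt a b W) (M : ℝ),
      (∀ j ≤ n, ∀ x, ‖iteratedFDeriv ℝ j W x‖ ≤ M) → ∀ (t : ℝ) (ξ : ℂ),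
        (1 + ‖ξ‖) ^ n * ‖fC (radAng (tw W t) l) ξ‖ ≤ C * (1 + |t|) ^ n * M := by
  obtain ⟨C1, hC10, hC1⟩ := radAng_decay ha hab l n
  obtain ⟨C0, hC00, hC0⟩ := radAng_decay ha hab l 0
  obtain ⟨K, hK0, hK⟩ := iteratedFDeriv_tw_le ha hab n
  refine ⟨2 ^ n * ((C0 + C1) * K), by positivity, ?_⟩
  intro W hW M hM t ξ
  have h1 := hC1 (tw W t) (hW.tw ha t) (K * (1 + |t|) ^ n * M) (fun j hj x => hK W hW M hM t j hj x) ξ
  have h0 := hC0 (tw W t) (hW.tw ha t) (K * (1 + |t|) ^ n * M)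
    (fun j hj x => hK W hW M hM t j (by omega) x) ξ
  rw [pow_zero, one_mul] at h0
  have h2 : (1 + ‖ξ‖) ^ n ≤ 2 ^ n * (1 + ‖ξ‖ ^ n) := by
    have hx := norm_nonneg ξ
    rcases le_total ‖ξ‖ 1 with h | h
    · calc (1 + ‖ξ‖) ^ n ≤ 2 ^ n := pow_le_pow_left₀ (by positivity) (by linarith) n
        _ ≤ 2 ^ n * (1 + ‖ξ‖ ^ n) := by
          have : 0 ≤ ‖ξ‖ ^ n := by positivity
          have h2 : (0:ℝ) < 2 ^ n := by positivity
          nlinarith
    · calc (1 + ‖ξ‖) ^ n ≤ (2 * ‖ξ‖) ^ n := pow_le_pow_left₀ (by positivity) (by linarith) n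
        _ = 2 ^ n * ‖ξ‖ ^ n := mul_pow _ _ _
        _ ≤ 2 ^ n * (1 + ‖ξ‖ ^ n) := by
          have h2 : (0:ℝ) < 2 ^ n := by positivity
          nlinarith
  calc (1 + ‖ξ‖) ^ n * ‖fC (radAng (tw W t) l) ξ‖
      ≤ 2 ^ n * (1 + ‖ξ‖ ^ n) * ‖fC (radAng (tw W t) l) ξ‖ := by gcongr
    _ = 2 ^ n * (‖fC (radAng (tw W t) l) ξ‖ + ‖ξ‖ ^ n * ‖fC (radAng (tw W t) l) ξ‖) := by ring
    _ ≤ 2 ^ n * (C0 * (K * (1 + |t|) ^ n * M) + C1 * (K * (1 + |t|) ^ n * M)) := by gcongr
    _ = _ := by ring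

@[simp] lemma tw_zero (W : ℝ → ℂ) : tw W 0 = W := by
  funext x; simp [tw]

/-- Fixed weight: decay of the Fourier transform. -/
theorem radAng_decay_fixed {a b : ℝ} (ha : 0 < a) {W : ℝ → ℂ} (hW : Wt a b W) (l : ℤ) (n : ℕ) :
    ∃ C : ℝ, 0 ≤ C ∧ ∀ (t : ℝ) (ξ : ℂ),
      ‖fC (radAng (tw W t) l) ξ‖ ≤ C * (1 + |t|) ^ n * ((1 + ‖ξ‖) ^ n)⁻¹ := by
  rcases le_or_gt a b with hab | hab
  · obtain ⟨C, hC0, hC⟩ := radAng_tw_decay ha hab l n
    obtain ⟨M, hM0, hM⟩ := hW.exists_bound n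
    refine ⟨C * M, by positivity, fun t ξ => ?_⟩
    have := hC W hW M hM t ξ
    rw [← div_eq_mul_inv, le_div_iff₀ (by positivity)]
    calc _ = (1 + ‖ξ‖) ^ n * ‖fC (radAng (tw W t) l) ξ‖ := by ring
      _ ≤ _ := this
      _ = _ := by ring
  · have hz : W = fun _ => 0 := by
      funext x
      apply hW.supp
      rw [Icc_eq_empty (not_le.mpr hab)]
      exact fun h => h
    refine ⟨0, le_rfl, fun t ξ => ?_⟩
    have : radAng (tw W t) l = fun _ => 0 := by
      funext z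
      simp [radAng, tw, hz]
    simp [this, fC]

end Crest.Agent.R012.Schw922
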