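import Mathlib

/-!
# Row 12: exact separation of a condition `u a < v b` (no analysis)

`sep_bound`: if `|∑∑ φ(u a) ψ(v b) F a b| ≤ E` for all `φ ψ` bounded by `1`, where `u, v` take values
in a finite subset `U` of a linear order with at most `2^S` elements, then
`|∑∑_{u a < v b} F a b| ≤ S * E`.
-/

set_option autoImplicit false

noncomputable section

namespace Crest.Agent.R012.Sep812

open Finset

/-- Decomposition of the order relation on `{0, ..., 2^S-1}`. -/
def SepN (S : ℕ) : Prop :=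
  ∃ (κ : Type) (_ : Fintype κ) (c : κ → ℝ) (φ ψ : κ → ℕ → ℂ),
    (∀ i, 0 ≤ c i) ∧ (∑ i, c i ≤ S) ∧ (∀ i j, ‖φ i j‖ ≤ 1) ∧ (∀ i j, ‖ψ i j‖ ≤ 1) ∧
    ∀ j k, j < 2 ^ S → k < 2 ^ S →
      (if j < k then (1 : ℂ) else 0) = ∑ i, (c i : ℂ) * (φ i j * ψ i k)

lemma sepN (S : ℕ) : SepN S := by
  induction S with
  | zero =>
    refine ⟨Empty, inferInstance, fun _ => 0, fun _ _ => 0, fun _ _ => 0, by simp, by simp,
      by simp, by simp, ?_⟩
    intro j k hj hk
    have h1 : j = 0 := by simpa using hj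
    have h2 : k = 0 := by simpa using hk
    simp [h1, h2]
  | succ S ih =>
    obtain ⟨κ, hκ, c, φ, ψ, hc, hcs, hφ, hψ, h⟩ := ih
    have : NeZero (2 ^ S) := ⟨by positivity⟩
    refine ⟨κ ⊕ AddChar (ZMod (2 ^ S)) ℂ, inferInstance,
      Sum.elim c (fun _ => 1 / (2 : ℝ) ^ S),
      Sum.elim (fun i j => φ i (j / 2))
        (fun χ j => if j % 2 = 0 then χ ((j / 2 : ℕ) : ZMod (2 ^ S)) else 0),
      Sum.elim (fun i j => ψ i (j / 2))
        (fun χ j => if j % 2 = 1 then χ (-((j / 2 : ℕ) : ZMod (2 ^ S))) else 0), ?_, ?_, ?_, ?_, ?_⟩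
    · rintro (i | χ)
      · exact hc i
      · simp
    · rw [Fintype.sum_sum_type]
      simp only [Sum.elim_inl, Sum.elim_inr, Finset.sum_const, Finset.card_univ, nsmul_eq_mul]
      rw [AddChar.card_eq, ZMod.card]
      push_cast
      have : (2 : ℝ) ^ S * (1 / 2 ^ S) = 1 := by field_simp
      rw [this]
      linarith
    · rintro (i | χ) j
      · exact hφ i _
      · simp only [Sum.elim_inr]
        split_ifs
        · rw [AddChar.norm_apply]
        · simp
    · rintro (i | χ) j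
      · exact hψ i _
      · simp only [Sum.elim_inr]
        split_ifs
        · rw [AddChar.norm_apply]
        · simp
    · intro j k hj hk
      rw [Fintype.sum_sum_type]
      simp only [Sum.elim_inl, Sum.elim_inr]
      have hj2 : j / 2 < 2 ^ S := by rw [pow_succ] at hj; omega
      have hk2 : k / 2 < 2 ^ S := by rw [pow_succ] at hk; omega
      rw [← h _ _ hj2 hk2]
      have key : (∑ χ : AddChar (ZMod (2 ^ S)) ℂ, (((1 / (2 : ℝ) ^ S : ℝ)) : ℂ) *
          ((if j % 2 = 0 then χ ((j / 2 : ℕ) : ZMod (2 ^ S)) else 0) *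
          (if k % 2 = 1 then χ (-((k / 2 : ℕ) : ZMod (2 ^ S))) else 0))) =
          if j % 2 = 0 ∧ k % 2 = 1 ∧ j / 2 = k / 2 then 1 else 0 := by
        by_cases h1 : j % 2 = 0
        · by_cases h2 : k % 2 = 1
          · simp only [h1, h2, if_true, true_and]
            have : ∀ χ : AddChar (ZMod (2 ^ S)) ℂ, (((1 / (2 : ℝ) ^ S : ℝ)) : ℂ) *
                (χ ((j / 2 : ℕ) : ZMod (2 ^ S)) * χ (-((k / 2 : ℕ) : ZMod (2 ^ S)))) =
                (((1 / (2 : ℝ) ^ S : ℝ)) : ℂ) *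
                  χ (((j / 2 : ℕ) : ZMod (2 ^ S)) - ((k / 2 : ℕ) : ZMod (2 ^ S))) := by
              intro χ
              rw [sub_eq_add_neg, AddChar.map_add_eq_mul]
            rw [Finset.sum_congr rfl fun χ _ => this χ, ← Finset.mul_sum,
              AddChar.sum_apply_eq_ite, ZMod.card]
            by_cases h3 : j / 2 = k / 2
            · rw [h3, sub_self, if_pos rfl, if_pos rfl]
              push_cast
              field_simp
            · have h4 : ((j / 2 : ℕ) : ZMod (2 ^ S)) - ((k / 2 : ℕ) : ZMod (2 ^ S)) ≠ 0 := by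
                intro h5
                rw [sub_eq_zero, ZMod.natCast_eq_natCast_iff'] at h5
                rw [Nat.mod_eq_of_lt hj2, Nat.mod_eq_of_lt hk2] at h5
                exact h3 h5
              rw [if_neg h4, if_neg h3, mul_zero]
          · simp [h2]
        · simp [h1]
      rw [key]
      have h5 : j < k ↔ (j / 2 < k / 2) ∨ (j % 2 = 0 ∧ k % 2 = 1 ∧ j / 2 = k / 2) := by omega
      by_cases h6 : j / 2 < k / 2
      · have h7 : ¬ (j % 2 = 0 ∧ k % 2 = 1 ∧ j / 2 = k / 2) := by omega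
        rw [if_pos h6, if_neg h7, if_pos (h5.mpr (Or.inl h6)), add_zero]
      · by_cases h7 : (j % 2 = 0 ∧ k % 2 = 1 ∧ j / 2 = k / 2)
        · rw [if_neg h6, if_pos h7, if_pos (h5.mpr (Or.inr h7)), zero_add]
        · rw [if_neg h6, if_neg h7, if_neg (fun hh => (h5.mp hh).elim h6 h7), add_zero]

/-- Separation of the condition `u a < v b`. -/
theorem sep_bound {ι A B : Type*} [LinearOrder ι] (U : Finset ι) (S : ℕ) (hU : U.card ≤ 2 ^ S)
    (sA : Finset A) (sB : Finset B) (u : A → ι) (v : B → ι) (hu : ∀ a ∈ sA, u a ∈ U)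
    (hv : ∀ b ∈ sB, v b ∈ U) (F : A → B → ℂ) (E : ℝ)
    (h : ∀ φ ψ : ι → ℂ, (∀ x, ‖φ x‖ ≤ 1) → (∀ x, ‖ψ x‖ ≤ 1) →
      ‖∑ a ∈ sA, ∑ b ∈ sB, φ (u a) * ψ (v b) * F a b‖ ≤ E) :
    ‖∑ a ∈ sA, ∑ b ∈ sB, (if u a < v b then F a b else 0)‖ ≤ S * E := by
  obtain ⟨κ, hκ, c, φ, ψ, hc, hcs, hφ, hψ, hh⟩ := sepN S
  -- rank
  let rk : ι → ℕ := fun x => (U.filter (fun y => y < x)).card
  have hrk_lt : ∀ x ∈ U, rk x < 2 ^ S := by
    intro x hx
    refine lt_of_lt_of_le (Finset.card_lt_card ?_) hU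
    rw [Finset.ssubset_iff_of_subset (Finset.filter_subset _ _)]
    exact ⟨x, hx, by simp⟩
  have hrk : ∀ x ∈ U, ∀ y ∈ U, (x < y ↔ rk x < rk y) := by
    intro x hx y hy
    constructor
    · intro hxy
      refine Finset.card_lt_card ?_
      rw [Finset.ssubset_iff_of_subset]
      · exact ⟨x, by simp [hx, hxy], by simp⟩
      · intro z hz
        rw [Finset.mem_filter] at hz ⊢
        exact ⟨hz.1, hz.2.trans hxy⟩
    · intro hxy
      by_contra hc
      push Not at hc
      refine absurd hxy (not_lt.mpr (Finset.card_le_card ?_))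
      intro z hz
      rw [Finset.mem_filter] at hz ⊢
      exact ⟨hz.1, hz.2.trans_le hc⟩
  have e1 : ∑ a ∈ sA, ∑ b ∈ sB, (if u a < v b then F a b else 0) =
      ∑ i, (c i : ℂ) * ∑ a ∈ sA, ∑ b ∈ sB, φ i (rk (u a)) * ψ i (rk (v b)) * F a b := by
    simp only [Finset.mul_sum]
    rw [Finset.sum_comm' (s := Finset.univ) (t := fun _ => sA) (s' := fun _ => Finset.univ)
      (t' := sA) (by simp)]
    refine Finset.sum_congr rfl fun a ha => ?_
    rw [Finset.sum_comm]
    refine Finset.sum_congr rfl fun b hb => ?_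
    have h1 := hh (rk (u a)) (rk (v b)) (hrk_lt _ (hu a ha)) (hrk_lt _ (hv b hb))
    have h2 := hrk _ (hu a ha) _ (hv b hb)
    have h3 : (if u a < v b then F a b else 0) =
        (if rk (u a) < rk (v b) then (1 : ℂ) else 0) * F a b := by
      by_cases hlt : u a < v b
      · rw [if_pos hlt, if_pos (h2.mp hlt), one_mul]
      · rw [if_neg hlt, if_neg (fun hx => hlt (h2.mpr hx)), zero_mul]
    rw [h3, h1, Finset.sum_mul]
    refine Finset.sum_congr rfl fun i _ => by ring
  rw [e1]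
  have hE : 0 ≤ E := by
    have := h (fun _ => 0) (fun _ => 0) (by simp) (by simp)
    exact le_trans (norm_nonneg _) this
  calc ‖∑ i, (c i : ℂ) * ∑ a ∈ sA, ∑ b ∈ sB, φ i (rk (u a)) * ψ i (rk (v b)) * F a b‖
      ≤ ∑ i, ‖(c i : ℂ) * ∑ a ∈ sA, ∑ b ∈ sB, φ i (rk (u a)) * ψ i (rk (v b)) * F a b‖ :=
        norm_sum_le _ _
    _ ≤ ∑ i, c i * E := by
        refine Finset.sum_le_sum fun i _ => ?_
        rw [norm_mul, Complex.norm_real, Real.norm_of_nonneg (hc i)]
        refine mul_le_mul_of_nonneg_left ?_ (hc i)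
        exact h (fun x => φ i (rk x)) (fun x => ψ i (rk x)) (fun x => hφ i _) (fun x => hψ i _)
    _ = (∑ i, c i) * E := by rw [Finset.sum_mul]
    _ ≤ S * E := mul_le_mul_of_nonneg_right hcs hE

end Crest.Agent.R012.Sep812
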