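import Crest.Agent.R012.SgNum_51

/-!
# Row 12, part (Sg): numerical bounds for the weights `W κ = κ^(1/3) h(κ τ₁)/h(τ₁)`
-/

set_option autoImplicit false
set_option linter.unusedVariables false

noncomputable section

open Real MeasureTheory Set

namespace Crest.Agent.R012.Sg51

def Wt (κ : ℝ) : ℝ := κ ^ ((1 : ℝ) / 3) * qq κ

lemma qq_eq (κ : ℝ) : qq κ = (κ * (239 / 100) - 1) / (139 / 100) * exp (-((κ - 1) * (239 / 100))) := by
  unfold qq hh
  have : exp (-(κ * (239 / 100))) = exp (-((κ - 1) * (239 / 100))) * exp (-(239 / 100)) := by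
    rw [← exp_add]; congr 1; ring
  rw [this]
  have h := (exp_pos (-(239 / 100 : ℝ))).ne'
  field_simp
  ring

lemma qq_nonneg {κ : ℝ} (h : 1 ≤ κ) : 0 ≤ qq κ := by
  rw [qq_eq]
  have : 0 ≤ κ * (239 / 100) - 1 := by nlinarith
  positivity

lemma Wt_nonneg {κ : ℝ} (h : 1 ≤ κ) : 0 ≤ Wt κ :=
  mul_nonneg (rpow_nonneg (by linarith) _) (qq_nonneg h)

/-- decay of the weights -/
lemma Wt_decay {κ₀ κ c : ℝ} (h0 : 1 ≤ κ₀) (h1 : κ₀ ≤ κ)
    (hc : c + 1 / (3 * κ₀) + (239 / 100) / (κ₀ * (239 / 100) - 1) ≤ 239 / 100) :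
    Wt κ ≤ Wt κ₀ * exp (-(c * (κ - κ₀))) := by
  have hκ₀ : 0 < κ₀ := by linarith
  have hκ : 0 < κ := by linarith
  have hD : 0 < κ₀ * (239 / 100) - 1 := by nlinarith
  unfold Wt
  rw [qq_eq, qq_eq]
  -- κ^(1/3) ≤ κ₀^(1/3) exp((κ-κ₀)/(3κ₀))
  have e1 : κ ^ ((1 : ℝ) / 3) ≤ κ₀ ^ ((1 : ℝ) / 3) * exp ((κ - κ₀) * (1 / (3 * κ₀))) := by
    have hs : κ = κ₀ * (κ / κ₀) := by field_simp
    have hle : κ / κ₀ ≤ exp ((κ - κ₀) / κ₀) := by
      have := add_one_le_exp ((κ - κ₀) / κ₀)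
      have e : (κ - κ₀) / κ₀ + 1 = κ / κ₀ := by field_simp; ring
      linarith [e ▸ this]
    calc κ ^ ((1 : ℝ) / 3) = κ₀ ^ ((1 : ℝ) / 3) * (κ / κ₀) ^ ((1 : ℝ) / 3) := by
          rw [← mul_rpow hκ₀.le (by positivity), ← hs]
      _ ≤ κ₀ ^ ((1 : ℝ) / 3) * (exp ((κ - κ₀) / κ₀)) ^ ((1 : ℝ) / 3) := by
          apply mul_le_mul_of_nonneg_left _ (by positivity)
          exact rpow_le_rpow (by positivity) hle (by norm_num)
      _ = κ₀ ^ ((1 : ℝ) / 3) * exp ((κ - κ₀) * (1 / (3 * κ₀))) := by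
          rw [← exp_mul]; congr 2; field_simp
  have e2 : κ * (239 / 100) - 1 ≤ (κ₀ * (239 / 100) - 1) *
      exp ((κ - κ₀) * ((239 / 100) / (κ₀ * (239 / 100) - 1))) := by
    have := add_one_le_exp ((κ - κ₀) * ((239 / 100) / (κ₀ * (239 / 100) - 1)))
    have e : (κ₀ * (239 / 100) - 1) * ((κ - κ₀) * ((239 / 100) / (κ₀ * (239 / 100) - 1)) + 1)
        = κ * (239 / 100) - 1 := by
      have gen : ∀ D a x : ℝ, D ≠ 0 → D * (x * (a / D) + 1) = x * a + D := by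
        intro D a x hD; field_simp
      rw [gen _ _ _ hD.ne']; ring
    rw [← e]
    exact mul_le_mul_of_nonneg_left this hD.le
  have hN : 0 ≤ κ * (239 / 100) - 1 := by nlinarith
  calc κ ^ ((1 : ℝ) / 3) * ((κ * (239 / 100) - 1) / (139 / 100) *
        exp (-((κ - 1) * (239 / 100))))
      ≤ (κ₀ ^ ((1 : ℝ) / 3) * exp ((κ - κ₀) * (1 / (3 * κ₀)))) *
        (((κ₀ * (239 / 100) - 1) *
      exp ((κ - κ₀) * ((239 / 100) / (κ₀ * (239 / 100) - 1)))) / (139 / 100) *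
        exp (-((κ - 1) * (239 / 100)))) := by
        gcongr
    _ = κ₀ ^ ((1 : ℝ) / 3) * ((κ₀ * (239 / 100) - 1) / (139 / 100)) *
        exp ((κ - κ₀) * (1 / (3 * κ₀)) +
          (κ - κ₀) * ((239 / 100) / (κ₀ * (239 / 100) - 1)) + -((κ - 1) * (239 / 100))) := by
        rw [exp_add, exp_add]; ring
    _ ≤ κ₀ ^ ((1 : ℝ) / 3) * ((κ₀ * (239 / 100) - 1) / (139 / 100)) *
        exp (-((κ₀ - 1) * (239 / 100)) + -(c * (κ - κ₀))) := by
        have hkk : 0 ≤ κ - κ₀ := by linarith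
        apply mul_le_mul_of_nonneg_left
        · apply exp_le_exp.mpr
          nlinarith [mul_le_mul_of_nonneg_left hc hkk]
        · positivity
    _ = _ := by rw [exp_add]; ring

lemma Wt_anti {κ₀ κ : ℝ} (h0 : 1 ≤ κ₀) (h1 : κ₀ ≤ κ) : Wt κ ≤ Wt κ₀ := by
  have hD : 0 < κ₀ * (239 / 100) - 1 := by nlinarith
  have h := Wt_decay (c := 0) h0 h1 ?_
  · simpa using h
  · have a1 : 1 / (3 * κ₀) ≤ 1 / 3 := by
      apply one_div_le_one_div_of_le <;> linarith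
    have a2 : (239 / 100) / (κ₀ * (239 / 100) - 1) ≤ (239 / 100) / (139 / 100) := by
      apply div_le_div_of_nonneg_left (by norm_num) (by norm_num)
      nlinarith
    norm_num at a2 ⊢
    norm_num at a1
    linarith

/-- upper bound of `exp(-x)` by the reciprocal of a partial sum -/
lemma exp_neg_le {x : ℝ} (hx : 0 ≤ x) (n : ℕ) {s : ℝ} (hs0 : 0 < s)
    (hs : s ≤ ∑ i ∈ Finset.range n, x ^ i / (i.factorial : ℝ)) : exp (-x) ≤ 1 / s := by
  rw [exp_neg, ← one_div]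
  apply one_div_le_one_div_of_le hs0
  exact hs.trans (Real.sum_le_exp_of_nonneg hx n)

lemma Wt_le {κ r s B : ℝ} (n : ℕ) (hκ : 1 ≤ κ) (hr0 : 0 ≤ r) (hr : κ ≤ r ^ 3) (hs0 : 0 < s)
    (hs : s ≤ ∑ i ∈ Finset.range n, ((κ - 1) * (239 / 100)) ^ i / (i.factorial : ℝ))
    (hB : r * ((κ * (239 / 100) - 1) / (139 / 100) * (1 / s)) ≤ B) : Wt κ ≤ B := by
  refine le_trans ?_ hB
  unfold Wt
  rw [qq_eq]
  have h1 : κ ^ ((1 : ℝ) / 3) ≤ r := by
    calc κ ^ ((1 : ℝ) / 3) ≤ (r ^ 3) ^ ((1 : ℝ) / 3) := by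
          apply rpow_le_rpow (by linarith) hr (by norm_num)
      _ = r := by
          rw [← rpow_natCast, ← rpow_mul hr0]; norm_num
  have h2 := exp_neg_le (x := (κ - 1) * (239 / 100)) (by nlinarith) n hs0 hs
  have hN : 0 ≤ κ * (239 / 100) - 1 := by nlinarith
  have hk0 : 0 ≤ κ ^ ((1 : ℝ) / 3) := by
    apply rpow_nonneg; linarith
  gcongr

lemma Wt_2 : Wt 2 ≤ 3145 / 10000 := by
  apply Wt_le (r := 12600 / 10000) (s := 1091 / 100) 12 <;>
  norm_num [Finset.sum_range_succ, Nat.factorial]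

lemma Wt_264 : Wt (264 / 100) ≤ 1060 / 10000 := by
  apply Wt_le (r := 13821 / 10000) (s := 5010 / 100) 14 <;>
  norm_num [Finset.sum_range_succ, Nat.factorial]

lemma Wt_3 : Wt 3 ≤ 545 / 10000 := by
  apply Wt_le (r := 14423 / 10000) (s := 118) 15 <;>
  norm_num [Finset.sum_range_succ, Nat.factorial]

lemma Wt_36 : Wt (36 / 10) ≤ 172 / 10000 := by
  apply Wt_le (r := 15327 / 10000) (s := 491) 17 <;>
  norm_num [Finset.sum_range_succ, Nat.factorial]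

lemma Wt_4 : Wt 4 ≤ 78 / 10000 := by
  apply Wt_le (r := 15875 / 10000) (s := 1265) 18 <;>
  norm_num [Finset.sum_range_succ, Nat.factorial]

lemma Wt_435 : Wt (435 / 100) ≤ 39 / 10000 := by
  apply Wt_le (r := 16325 / 10000) (s := 2900) 19 <;>
  norm_num [Finset.sum_range_succ, Nat.factorial]

lemma Wt_5 : Wt 5 ≤ 10 / 10000 := by
  apply Wt_le (r := 17100 / 10000) (s := 13600) 22 <;>
  norm_num [Finset.sum_range_succ, Nat.factorial]

lemma Wt_7 : Wt 7 ≤ 14 / 1000000 := by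
  apply Wt_le (r := 19130 / 10000) (s := 1600000) 28 <;>
  norm_num [Finset.sum_range_succ, Nat.factorial]

end Crest.Agent.R012.Sg51
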