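import Crest.Agent.R012.SgNum2_51

/-!
# Row 12, part (Sg): the lattice sum and the sign of `ρ(1)`
-/

set_option autoImplicit false
set_option linter.unusedVariables false

noncomputable section

open Real MeasureTheory Set

namespace Crest.Agent.R012.Sg51

open Eis

/-- norm of `a + 3 b ω` -/
def nz (p : ℤ × ℤ) : ℤ := p.1 ^ 2 - 3 * p.1 * p.2 + 9 * p.2 ^ 2

lemma nz_nonneg (p : ℤ × ℤ) : 0 ≤ nz p := by
  unfold nz; nlinarith [sq_nonneg (2 * p.1 - 3 * p.2), sq_nonneg p.2]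

/-- table of weights, in units of `10^(-4)` -/
def tab (n : ℤ) : ℤ :=
  if n = 4 then 3145 else if n = 7 then 1060 else if n = 9 then 545 else
  if n = 13 then 172 else if n = 16 then 78 else if n = 19 then 39 else
  if 25 ≤ n ∧ n < 49 then 10 else 0

def box : Finset (ℤ × ℤ) := Finset.Icc (-8) 8 ×ˢ Finset.Icc (-2) 2

lemma mem_box {p : ℤ × ℤ} (h : nz p < 49) : p ∈ box := by
  obtain ⟨a, b⟩ := p
  unfold nz at h
  simp only at h
  simp only [box, Finset.mem_product, Finset.mem_Icc]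
  have ha : a ^ 2 ≤ 64 := by nlinarith [sq_nonneg (a - 6 * b)]
  have hb : b ^ 2 < 8 := by nlinarith [sq_nonneg (2 * a - 3 * b)]
  refine ⟨⟨?_, ?_⟩, ?_, ?_⟩ <;> nlinarith

lemma box_cases : ∀ p ∈ box, nz p < 49 → p = (0, 0) ∨ p = (1, 0) ∨ p = (-1, 0) ∨ nz p = 4 ∨
    nz p = 7 ∨ nz p = 9 ∨ nz p = 13 ∨ nz p = 16 ∨ nz p = 19 ∨ 25 ≤ nz p := by
  decide

set_option maxRecDepth 20000 in
lemma box_sum : ∑ p ∈ box, tab (nz p) = 15100 := by decide

lemma tab_nonneg (n : ℤ) : 0 ≤ tab n := by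
  unfold tab; split_ifs <;> norm_num

/-- `Wt √n ≤ tab n / 10^4` for the small norms -/
lemma Wt_tab {p : ℤ × ℤ} (h49 : nz p < 49) (h0 : p ≠ (0, 0)) (h1 : p ≠ (1, 0))
    (h2 : p ≠ (-1, 0)) : Wt (Real.sqrt (nz p)) ≤ (tab (nz p) : ℝ) / 10000 := by
  have hb := box_cases p (mem_box h49) h49
  rcases hb with h | h | h | h | h | h | h | h | h | h
  · exact absurd h h0
  · exact absurd h h1
  · exact absurd h h2
  · rw [h]
    have : Real.sqrt ((4 : ℤ) : ℝ) = 2 := by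
      rw [show ((4 : ℤ) : ℝ) = 2 ^ 2 by norm_num]; exact Real.sqrt_sq (by norm_num)
    rw [this]; exact Wt_2.trans (by norm_num [tab])
  · rw [h]
    have : (264 / 100 : ℝ) ≤ Real.sqrt ((7 : ℤ) : ℝ) := by
      apply Real.le_sqrt_of_sq_le; norm_num
    exact ((Wt_anti (by norm_num) this).trans Wt_264).trans (by norm_num [tab])
  · rw [h]
    have : (3 : ℝ) ≤ Real.sqrt ((9 : ℤ) : ℝ) := by
      apply Real.le_sqrt_of_sq_le; norm_num
    exact ((Wt_anti (by norm_num) this).trans Wt_3).trans (by norm_num [tab])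
  · rw [h]
    have : (36 / 10 : ℝ) ≤ Real.sqrt ((13 : ℤ) : ℝ) := by
      apply Real.le_sqrt_of_sq_le; norm_num
    exact ((Wt_anti (by norm_num) this).trans Wt_36).trans (by norm_num [tab])
  · rw [h]
    have : (4 : ℝ) ≤ Real.sqrt ((16 : ℤ) : ℝ) := by
      apply Real.le_sqrt_of_sq_le; norm_num
    exact ((Wt_anti (by norm_num) this).trans Wt_4).trans (by norm_num [tab])
  · rw [h]
    have : (435 / 100 : ℝ) ≤ Real.sqrt ((19 : ℤ) : ℝ) := by
      apply Real.le_sqrt_of_sq_le; norm_num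
    exact ((Wt_anti (by norm_num) this).trans Wt_435).trans (by norm_num [tab])
  · have h25 : (25 : ℝ) ≤ nz p := by exact_mod_cast h
    have : (5 : ℝ) ≤ Real.sqrt (nz p) := by
      apply Real.le_sqrt_of_sq_le; norm_num; exact h25
    refine ((Wt_anti (by norm_num) this).trans Wt_5).trans ?_
    have : tab (nz p) = 10 := by
      unfold tab
      rw [if_neg (by omega), if_neg (by omega), if_neg (by omega), if_neg (by omega),
        if_neg (by omega), if_neg (by omega), if_pos ⟨h, h49⟩]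
    rw [this]; norm_num

/-- exponential majorant -/
def ex (p : ℤ × ℤ) : ℝ := exp (-(1 / 2 * |(p.1 : ℝ)|)) * exp (-(3 / 2 * |(p.2 : ℝ)|))

lemma sqrt_nz_ge (p : ℤ × ℤ) :
    1 / 2 * |(p.1 : ℝ)| + 3 / 2 * |(p.2 : ℝ)| ≤ Real.sqrt (nz p) := by
  apply Real.le_sqrt_of_sq_le
  unfold nz
  push_cast
  set a := (p.1 : ℝ)
  set b := (p.2 : ℝ)
  have h1 : |a| * |b| ≥ a * b := by
    rw [← abs_mul]; exact le_abs_self _
  have h2 : |a| ^ 2 = a ^ 2 := sq_abs a
  have h3 : |b| ^ 2 = b ^ 2 := sq_abs b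
  nlinarith [sq_nonneg (|a| - 3 * |b|), abs_nonneg a, abs_nonneg b]

lemma Wt_big {p : ℤ × ℤ} (h : 49 ≤ nz p) :
    Wt (Real.sqrt (nz p)) ≤ 154 / 10000 * ex p := by
  have h49 : (49 : ℝ) ≤ nz p := by exact_mod_cast h
  have h7 : (7 : ℝ) ≤ Real.sqrt (nz p) := by
    apply Real.le_sqrt_of_sq_le; norm_num; exact h49
  have h1 := Wt_decay (κ₀ := 7) (c := 218 / 100) (by norm_num) h7 (by norm_num)
  have h2 := sqrt_nz_ge p
  have h3 : exp (-(218 / 100 * (Real.sqrt (nz p) - 7))) ≤ exp 7 * ex p := by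
    unfold ex
    rw [← exp_add, ← exp_add]
    apply exp_le_exp.mpr
    nlinarith
  have h4 : exp 7 ≤ 1097 := by
    have := Real.exp_one_lt_d9
    have e : exp 7 = exp 1 ^ 7 := by rw [← exp_nat_mul]; norm_num
    rw [e]
    calc exp 1 ^ 7 ≤ (2.7182818286 : ℝ) ^ 7 := by
          apply pow_le_pow_left₀ (exp_pos _).le this.le
      _ ≤ 1097 := by norm_num
  have hex : 0 < ex p := by unfold ex; positivity
  calc Wt (Real.sqrt (nz p)) ≤ Wt 7 * exp (-(218 / 100 * (Real.sqrt (nz p) - 7))) := h1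
    _ ≤ (14 / 1000000) * (exp 7 * ex p) := by
        apply mul_le_mul Wt_7 h3 (exp_pos _).le (by norm_num)
    _ ≤ (14 / 1000000) * (1097 * ex p) := by gcongr
    _ ≤ 154 / 10000 * ex p := by nlinarith

lemma hasSum_abs_int {c : ℝ} (hc : 0 < c) :
    HasSum (fun n : ℤ => exp (-(c * |(n : ℝ)|)))
      ((1 - exp (-c))⁻¹ + exp (-c) * (1 - exp (-c))⁻¹) := by
  have h0 : 0 ≤ exp (-c) := (exp_pos _).le
  have h1 : exp (-c) < 1 := by rw [exp_lt_one_iff]; linarith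
  have hg := hasSum_geometric_of_lt_one h0 h1
  apply HasSum.of_nat_of_neg_add_one
  · have e : (fun n : ℕ => exp (-(c * |(((n : ℤ)) : ℝ)|))) = fun n : ℕ => exp (-c) ^ n := by
      funext n
      rw [← exp_nat_mul]
      congr 1
      have : |((n : ℤ) : ℝ)| = (n : ℝ) := by
        rw [Int.cast_natCast]; exact abs_of_nonneg (Nat.cast_nonneg n)
      rw [this]; ring
    rw [e]; exact hg
  · have e : (fun n : ℕ => exp (-(c * |(((-((n : ℤ) + 1) : ℤ)) : ℝ)|))) =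
        fun n : ℕ => exp (-c) * exp (-c) ^ n := by
      funext n
      rw [← exp_nat_mul, ← exp_add]
      congr 1
      have : |(((-((n : ℤ) + 1) : ℤ)) : ℝ)| = (n : ℝ) + 1 := by
        push_cast
        rw [abs_neg]; exact abs_of_nonneg (by positivity)
      rw [this]; ring
    rw [e]; exact hg.mul_left _

lemma summable_ex : Summable ex := by
  have h1 := (hasSum_abs_int (c := 1 / 2) (by norm_num)).summable
  have h2 := (hasSum_abs_int (c := 3 / 2) (by norm_num)).summable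
  exact h1.mul_of_nonneg h2 (fun _ => (exp_pos _).le) (fun _ => (exp_pos _).le)

lemma tsum_ex_le : ∑' p, ex p ≤ 64999 / 10000 := by
  have h1 := (hasSum_abs_int (c := 1 / 2) (by norm_num))
  have h2 := (hasSum_abs_int (c := 3 / 2) (by norm_num))
  have e : ∑' p, ex p = (∑' n : ℤ, exp (-(1 / 2 * |(n : ℝ)|))) *
      ∑' n : ℤ, exp (-(3 / 2 * |(n : ℝ)|)) := by
    rw [h1.summable.tsum_mul_tsum h2.summable
      (h1.summable.mul_of_nonneg h2.summable (fun _ => (exp_pos _).le)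
        (fun _ => (exp_pos _).le))]
    rfl
  rw [e, h1.tsum_eq, h2.tsum_eq]
  -- numeric bounds
  have e1 : exp (-(1 / 2 : ℝ)) ≤ 6066 / 10000 := by
    have h := Real.exp_one_gt_d9
    have hsq : exp (-(1 / 2 : ℝ)) ^ 2 * exp 1 = 1 := by
      rw [← exp_nat_mul, ← exp_add]; norm_num
    by_contra hc
    push Not at hc
    have : (6066 / 10000 : ℝ) ^ 2 < exp (-(1 / 2 : ℝ)) ^ 2 := by
      apply pow_lt_pow_left₀ hc (by norm_num) (by norm_num)
    nlinarith
  have e2 : exp (-(3 / 2 : ℝ)) ≤ 2233 / 10000 := by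
    have h3 : exp (-(3 / 2 : ℝ)) = exp (-(1 / 2 : ℝ)) ^ 3 := by
      rw [← exp_nat_mul]; norm_num
    rw [h3]
    calc exp (-(1 / 2 : ℝ)) ^ 3 ≤ (6066 / 10000 : ℝ) ^ 3 :=
          pow_le_pow_left₀ (exp_pos _).le e1 3
      _ ≤ _ := by norm_num
  have f1 : (1 - exp (-(1 / 2 : ℝ)))⁻¹ ≤ (3934 / 10000)⁻¹ := by
    apply inv_anti₀ (by norm_num); linarith
  have f2 : (1 - exp (-(3 / 2 : ℝ)))⁻¹ ≤ (7767 / 10000)⁻¹ := by
    apply inv_anti₀ (by norm_num); linarith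
  have p1 : 0 ≤ (1 - exp (-(1 / 2 : ℝ)))⁻¹ := by
    apply inv_nonneg.mpr; linarith
  have p2 : 0 ≤ (1 - exp (-(3 / 2 : ℝ)))⁻¹ := by
    apply inv_nonneg.mpr; linarith
  have q1 : exp (-(1 / 2 : ℝ)) * (1 - exp (-(1 / 2 : ℝ)))⁻¹ ≤ 6066 / 10000 * (3934 / 10000)⁻¹ :=
    mul_le_mul e1 f1 p1 (by norm_num)
  have q2 : exp (-(3 / 2 : ℝ)) * (1 - exp (-(3 / 2 : ℝ)))⁻¹ ≤ 2233 / 10000 * (7767 / 10000)⁻¹ :=
    mul_le_mul e2 f2 p2 (by norm_num)
  calc _ ≤ ((3934 / 10000 : ℝ)⁻¹ + 6066 / 10000 * (3934 / 10000)⁻¹) *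
        ((7767 / 10000 : ℝ)⁻¹ + 2233 / 10000 * (7767 / 10000)⁻¹) := by
        apply mul_le_mul (add_le_add f1 q1) (add_le_add f2 q2)
        · have := mul_nonneg (exp_pos (-(3 / 2 : ℝ))).le p2
          linarith
        · positivity
    _ ≤ _ := by norm_num

end Crest.Agent.R012.Sg51
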