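import Crest.Agent.R012.BuchE_420
import Crest.Agent.R012.Sep_812

/-!
# Row 12: sieve decomposition, part A: exact identity

`sum_{nm p ≥ z} f p = TI + L + R` for `f` supported on squarefree `n` with `X/2 < nm n ≤ X`.
-/

set_option autoImplicit false

noncomputable section

namespace Crest.Agent.R012.Sieve812

open Finset Eis Buch420

/-- `f` is supported on squarefree `n` with `X/2 < nm n ≤ X`. -/
structure Supp (X : ℕ) (f : Eis → ℂ) : Prop where
  sq : ∀ n, f n ≠ 0 → Squarefree n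
  le : ∀ n, f n ≠ 0 → nm n ≤ X
  lt : ∀ n, f n ≠ 0 → X < 2 * nm n

/-- norm of `prd K` as a real number -/
def nK (K : Finset PrP) : ℝ := nm (prd K)

lemma nK_eq (K : Finset PrP) : nK K = nu PrP.N K := (nu_eq K).symm
@[simp] lemma nK_empty : nK ∅ = 1 := by simp [nK]
@[simp] lemma nK_singleton (p : PrP) : nK {p} = nm p.1 := by simp [nK]
lemma one_le_nK (K : Finset PrP) : 1 ≤ nK K := by rw [nK_eq]; exact one_le_nu PrP.one_le_N K
lemma nK_pos (K : Finset PrP) : 0 < nK K := by linarith [one_le_nK K]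
lemma nK_insert {p : PrP} {K : Finset PrP} (h : p ∉ K) : nK (insert p K) = nm p.1 * nK K := by
  rw [nK_eq, nK_eq, nu_insert _ h]; rfl
lemma nK_union {S T : Finset PrP} (h : Disjoint S T) : nK (S ∪ T) = nK S * nK T := by
  rw [nK_eq, nK_eq, nK_eq, nu_union h]
lemma nK_mono {S T : Finset PrP} (h : S ⊆ T) : nK S ≤ nK T := by
  rw [nK_eq, nK_eq]; exact nu_mono PrP.one_le_N h

lemma one_le_nm (p : PrP) : (1 : ℝ) ≤ nm p.1 := PrP.one_le_N p

lemma pow_card_le_nK {y : ℝ} (hy : 0 ≤ y) (K : Finset PrP) (h : ∀ p ∈ K, y ≤ (nm p.1 : ℝ)) :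
    y ^ K.card ≤ nK K := by
  induction K using Finset.induction_on with
  | empty => simp
  | insert p K hp ih =>
    rw [Finset.card_insert_of_notMem hp, nK_insert hp, pow_succ, mul_comm]
    have h1 := h p (Finset.mem_insert_self p K)
    have h2 := ih fun q hq => h q (Finset.mem_insert_of_mem hq)
    have h3 : 0 ≤ y ^ K.card := by positivity
    exact mul_le_mul h1 h2 h3 (by linarith [one_le_nm p])

lemma f_mul_prd {X : ℕ} {f : Eis → ℂ} (hf : Supp X f) {K J : Finset PrP} (h : ¬ Disjoint K J) :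
    f (prd K * prd J) = 0 := by
  by_contra hc
  have hs := hf.sq _ hc
  rw [Finset.not_disjoint_iff] at h
  obtain ⟨p, hp, hp'⟩ := h
  exact p.prime.not_isUnit (hs _ (mul_dvd_mul (dvd_prd_iff.mpr hp) (dvd_prd_iff.mpr hp')))

lemma nK_mul_le {X : ℕ} {f : Eis → ℂ} (hf : Supp X f) {K J : Finset PrP}
    (h : f (prd K * prd J) ≠ 0) : nK K * nK J ≤ X := by
  have := hf.le _ h
  rw [nm_mul] at this
  unfold nK
  exact_mod_cast this

lemma lt_nK_mul {X : ℕ} {f : Eis → ℂ} (hf : Supp X f) {K J : Finset PrP}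
    (h : f (prd K * prd J) ≠ 0) : (X : ℝ) < 2 * (nK K * nK J) := by
  have := hf.lt _ h
  rw [nm_mul] at this
  unfold nK
  exact_mod_cast this

open Classical in
/-- `∑_{J > min K} f (K J)` -/
def Wt (X : ℕ) (f : Eis → ℂ) (K : Finset PrP) : ℂ :=
  ∑ J ∈ (UX X).powerset.filter (fun J => ∀ p ∈ J, Ab K p), f (prd K * prd J)

open Classical in
lemma Wt_eq {X : ℕ} {f : Eis → ℂ} (hf : Supp X f) (K : Finset PrP) :
    ∑ J ∈ ((UX X \ K).filter (fun p => Ab K p)).powerset, f (prd (K ∪ J)) = Wt X f K := by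
  have h1 : ∀ J ∈ ((UX X \ K).filter (fun p => Ab K p)).powerset,
      f (prd (K ∪ J)) = f (prd K * prd J) := by
    intro J hJ
    rw [Finset.mem_powerset] at hJ
    rw [prd_union]
    rw [Finset.disjoint_left]
    intro x hx hx'
    exact (Finset.mem_sdiff.mp (Finset.mem_filter.mp (hJ hx')).1).2 hx
  rw [Finset.sum_congr rfl h1]
  refine Finset.sum_subset ?_ ?_
  · intro J hJ
    rw [Finset.mem_powerset] at hJ
    rw [Finset.mem_filter, Finset.mem_powerset]
    exact ⟨fun x hx => (Finset.mem_sdiff.mp (Finset.mem_filter.mp (hJ hx)).1).1,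
      fun p hp => (Finset.mem_filter.mp (hJ hp)).2⟩
  · intro J hJ hJ'
    rw [Finset.mem_filter, Finset.mem_powerset] at hJ
    refine f_mul_prd hf fun hd => hJ' ?_
    rw [Finset.mem_powerset]
    intro x hx
    rw [Finset.mem_filter, Finset.mem_sdiff]
    exact ⟨⟨hJ.1 hx, fun hxK => (Finset.disjoint_left.mp hd) hxK hx⟩, hJ.2 x hx⟩

/-- sum over singletons -/
lemma sum_powerset_card_one {ι : Type*} [DecidableEq ι] (A : Finset ι) (F : Finset ι → ℂ)
    (h : ∀ T ∈ A.powerset, T.card ≠ 1 → F T = 0) :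
    ∑ T ∈ A.powerset, F T = ∑ p ∈ A, F {p} := by
  have hinj : Set.InjOn (fun p : ι => ({p} : Finset ι)) A := fun a _ b _ hab =>
    Finset.singleton_injective hab
  rw [← Finset.sum_image (f := F) hinj]
  symm
  refine Finset.sum_subset ?_ ?_
  · intro T hT
    rw [Finset.mem_image] at hT
    obtain ⟨p, hp, rfl⟩ := hT
    rw [Finset.mem_powerset]
    exact Finset.singleton_subset_iff.mpr hp
  · intro T hT hT'
    refine h T hT fun h1 => hT' ?_
    obtain ⟨p, rfl⟩ := Finset.card_eq_one.mp h1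
    rw [Finset.mem_image]
    exact ⟨p, Finset.mem_powerset.mp hT (Finset.mem_singleton_self p), rfl⟩

/-- primes of norm in `[w, z)` -/
def midP (X : ℕ) (w z : ℝ) : Finset PrP :=
  (UX X).filter (fun p => w ≤ (nm p.1 : ℝ) ∧ (nm p.1 : ℝ) < z)

lemma mem_midP {X : ℕ} {w z : ℝ} {p : PrP} :
    p ∈ midP X w z ↔ nm p.1 ≤ X ∧ w ≤ (nm p.1 : ℝ) ∧ (nm p.1 : ℝ) < z := by
  unfold midP; rw [Finset.mem_filter, mem_UX]

open Classical in
/-- First application of the Buchstab identity. -/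
lemma step1 {X : ℕ} {f : Eis → ℂ} (hf : Supp X f) (hX : 2 ≤ X) {w z D : ℝ} (hwz : w ≤ z)
    (hz0 : 0 ≤ z) (hz : (X : ℝ) < z ^ 2) (hD : 1 < D) :
    ∑ p ∈ (UX X).filter (fun p => z ≤ (nm p.1 : ℝ)), f p.1 =
      ∑ I ∈ (midP X w z).powerset.filter (fun I => nK I < D),
        (-1 : ℂ) ^ I.card *
          ∑ J ∈ ((UX X \ I).filter (fun p => ¬ (nm p.1 : ℝ) < w)).powerset, f (prd (I ∪ J)) +
      ∑ I ∈ (midP X w z).powerset.filter (fun I => Cr PrP.N D I), (-1 : ℂ) ^ I.card * Wt X f I := by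
  set U := (UX X).filter (fun p => w ≤ (nm p.1 : ℝ)) with hU
  have hb := buchstab (N := PrP.N) PrP.one_le_N hD U (fun p => (nm p.1 : ℝ) < z)
    (fun p q hpq hq => lt_of_le_of_lt (by exact_mod_cast PrP.nm_le_of_le hpq) hq)
    (fun T => f (prd T))
  have e1 : U.filter (fun p => ¬ (nm p.1 : ℝ) < z) =
      (UX X).filter (fun p => z ≤ (nm p.1 : ℝ)) := by
    ext p
    simp only [hU, Finset.mem_filter, not_lt]
    constructor
    · rintro ⟨⟨h1, h2⟩, h3⟩; exact ⟨h1, h3⟩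
    · rintro ⟨h1, h3⟩; exact ⟨⟨h1, hwz.trans h3⟩, h3⟩
  have e2 : U.filter (fun p => (nm p.1 : ℝ) < z) = midP X w z := by
    ext p
    rw [Finset.mem_filter, Finset.mem_filter, mem_midP, mem_UX]
    exact ⟨fun h => ⟨h.1.1, h.1.2, h.2⟩, fun h => ⟨⟨h.1, h.2.1⟩, h.2.2⟩⟩
  rw [e1, e2, sum_powerset_card_one] at hb
  · simp only [prd_singleton] at hb
    rw [hb]
    have hA : ∀ I ∈ (midP X w z).powerset, (U \ I) = ((UX X \ I).filter
        (fun p => ¬ (nm p.1 : ℝ) < w)) := by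
      intro I hI
      ext p
      rw [Finset.mem_sdiff, Finset.mem_filter, Finset.mem_filter, Finset.mem_sdiff, not_lt]
      exact ⟨fun h => ⟨⟨h.1.1, h.2⟩, h.1.2⟩, fun h => ⟨⟨h.1.1, h.2⟩, h.1.2⟩⟩
    have hB : ∀ I ∈ (midP X w z).powerset, ((U \ I).filter (fun p => Ab I p)) =
        ((UX X \ I).filter (fun p => Ab I p)) := by
      intro I hI
      rw [Finset.mem_powerset] at hI
      ext p
      simp only [hU, Finset.mem_filter, Finset.mem_sdiff]
      constructor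
      · rintro ⟨⟨⟨h1, h2⟩, h3⟩, h4⟩; exact ⟨⟨h1, h3⟩, h4⟩
      · rintro ⟨⟨h1, h3⟩, h4⟩
        refine ⟨⟨⟨h1, ?_⟩, h3⟩, h4⟩
        obtain ⟨q, hq, hqp⟩ := h4
        have h5 := (mem_midP.mp (hI hq)).2.1
        have h6 : (nm q.1 : ℝ) ≤ nm p.1 := by exact_mod_cast PrP.nm_le_of_le hqp.le
        linarith
    have s1 : ∑ I ∈ (midP X w z).powerset.filter (fun I => nu PrP.N I < D),
        (-1 : ℂ) ^ I.card * ∑ J ∈ (U \ I).powerset, f (prd (I ∪ J)) =
        ∑ I ∈ (midP X w z).powerset.filter (fun I => nK I < D),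
        (-1 : ℂ) ^ I.card *
          ∑ J ∈ ((UX X \ I).filter (fun p => ¬ (nm p.1 : ℝ) < w)).powerset, f (prd (I ∪ J)) := by
      have hfil : (midP X w z).powerset.filter (fun I => nu PrP.N I < D) =
          (midP X w z).powerset.filter (fun I => nK I < D) :=
        Finset.filter_congr fun I _ => by rw [nK_eq]
      rw [hfil]
      refine Finset.sum_congr rfl fun I hI => ?_
      rw [hA I (Finset.mem_filter.mp hI).1]
    have s2 : ∑ I ∈ (midP X w z).powerset.filter (fun I => Cr PrP.N D I),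
        (-1 : ℂ) ^ I.card * ∑ J ∈ ((U \ I).filter (fun p => Ab I p)).powerset, f (prd (I ∪ J)) =
        ∑ I ∈ (midP X w z).powerset.filter (fun I => Cr PrP.N D I),
          (-1 : ℂ) ^ I.card * Wt X f I := by
      refine Finset.sum_congr rfl fun I hI => ?_
      rw [hB I (Finset.mem_filter.mp hI).1, Wt_eq hf]
    rw [s1, s2]
  · intro T hT hT1
    rw [Finset.mem_powerset] at hT
    by_contra hc
    have hle : nK T ≤ X := by unfold nK; exact_mod_cast hf.le _ hc
    have hlt : (X : ℝ) < 2 * nK T := by unfold nK; exact_mod_cast hf.lt _ hc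
    have hpow := pow_card_le_nK hz0 T (fun p hp => (Finset.mem_filter.mp (hT hp)).2)
    have hX' : (2 : ℝ) ≤ X := by exact_mod_cast hX
    have hz1 : 1 ≤ z := by nlinarith
    rcases Nat.lt_or_ge T.card 1 with h0 | h0
    · have : T = ∅ := Finset.card_eq_zero.mp (by omega)
      rw [this, nK_empty] at hlt
      linarith
    · have h2 : 2 ≤ T.card := by omega
      have : z ^ 2 ≤ z ^ T.card := pow_le_pow_right₀ hz1 h2
      linarith

/-- primes of norm `< w` -/
def smP (X : ℕ) (w : ℝ) : Finset PrP := (UX X).filter (fun p => (nm p.1 : ℝ) < w)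

lemma mem_smP {X : ℕ} {w : ℝ} {p : PrP} : p ∈ smP X w ↔ nm p.1 ≤ X ∧ (nm p.1 : ℝ) < w := by
  unfold smP; rw [Finset.mem_filter, mem_UX]

/-- rough part -/
def hi (w : ℝ) (K : Finset PrP) : Finset PrP := K.filter (fun p => w ≤ (nm p.1 : ℝ))
/-- smooth part -/
def lo (w : ℝ) (K : Finset PrP) : Finset PrP := K.filter (fun p => (nm p.1 : ℝ) < w)

lemma hi_union_lo (w : ℝ) (K : Finset PrP) : hi w K ∪ lo w K = K := by
  ext p
  simp only [hi, lo, Finset.mem_union, Finset.mem_filter]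
  constructor
  · rintro (h | h) <;> exact h.1
  · intro h
    rcases le_or_gt w (nm p.1 : ℝ) with h1 | h1
    · exact Or.inl ⟨h, h1⟩
    · exact Or.inr ⟨h, h1⟩

lemma disjoint_hi_lo (w : ℝ) (K : Finset PrP) : Disjoint (hi w K) (lo w K) := by
  rw [Finset.disjoint_left]
  intro p h1 h2
  have h3 := (Finset.mem_filter.mp h1).2
  have h4 := (Finset.mem_filter.mp h2).2
  linarith

lemma hi_union {w : ℝ} {I I2 : Finset PrP} (h1 : ∀ p ∈ I, w ≤ (nm p.1 : ℝ))
    (h2 : ∀ p ∈ I2, (nm p.1 : ℝ) < w) : hi w (I ∪ I2) = I := by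
  ext p
  simp only [hi, Finset.mem_union, Finset.mem_filter]
  constructor
  · rintro ⟨h | h, h3⟩
    · exact h
    · linarith [h2 p h]
  · intro h; exact ⟨Or.inl h, h1 p h⟩

lemma lo_union {w : ℝ} {I I2 : Finset PrP} (h1 : ∀ p ∈ I, w ≤ (nm p.1 : ℝ))
    (h2 : ∀ p ∈ I2, (nm p.1 : ℝ) < w) : lo w (I ∪ I2) = I2 := by
  ext p
  simp only [lo, Finset.mem_union, Finset.mem_filter]
  constructor
  · rintro ⟨h | h, h3⟩
    · linarith [h1 p h]
    · exact h
  · intro h; exact ⟨Or.inr h, h2 p h⟩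

open Classical in
lemma sum_pair {X : ℕ} {w z : ℝ} (hwz : w ≤ z) (P : Finset PrP → Prop)
    (Q : Finset PrP → Finset PrP → Prop) (g : Finset PrP → ℂ) :
    ∑ I ∈ (midP X w z).powerset.filter P, ∑ I2 ∈ (smP X w).powerset.filter (Q I), g (I ∪ I2) =
      ∑ K ∈ (UX X).powerset.filter
        (fun K => (∀ p ∈ K, (nm p.1 : ℝ) < z) ∧ P (hi w K) ∧ Q (hi w K) (lo w K)), g K := by
  rw [Finset.sum_sigma']
  refine Finset.sum_nbij' (fun x => x.1 ∪ x.2) (fun K => ⟨hi w K, lo w K⟩) ?_ ?_ ?_ ?_ ?_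
  · rintro ⟨I, I2⟩ h
    rw [Finset.mem_sigma, Finset.mem_filter, Finset.mem_filter, Finset.mem_powerset,
      Finset.mem_powerset] at h
    obtain ⟨⟨h1, h2⟩, h3, h4⟩ := h
    have k1 : ∀ p ∈ I, w ≤ (nm p.1 : ℝ) := fun p hp => (mem_midP.mp (h1 hp)).2.1
    have k2 : ∀ p ∈ I2, (nm p.1 : ℝ) < w := fun p hp => (mem_smP.mp (h3 hp)).2
    rw [Finset.mem_filter, Finset.mem_powerset]
    refine ⟨?_, ?_, ?_, ?_⟩
    · intro p hp
      rw [mem_UX]
      rcases Finset.mem_union.mp hp with hp | hp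
      · exact (mem_midP.mp (h1 hp)).1
      · exact (mem_smP.mp (h3 hp)).1
    · intro p hp
      rcases Finset.mem_union.mp hp with hp | hp
      · exact (mem_midP.mp (h1 hp)).2.2
      · exact lt_of_lt_of_le (k2 p hp) hwz
    · show P (hi w (I ∪ I2))
      rw [hi_union k1 k2]; exact h2
    · show Q (hi w (I ∪ I2)) (lo w (I ∪ I2))
      rw [hi_union k1 k2, lo_union k1 k2]; exact h4
  · intro K h
    rw [Finset.mem_filter, Finset.mem_powerset] at h
    obtain ⟨h1, h2, h3, h4⟩ := h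
    rw [Finset.mem_sigma, Finset.mem_filter, Finset.mem_filter, Finset.mem_powerset,
      Finset.mem_powerset]
    refine ⟨⟨?_, h3⟩, ?_, h4⟩
    · intro p hp
      have := Finset.mem_filter.mp hp
      exact mem_midP.mpr ⟨mem_UX.mp (h1 this.1), this.2, h2 p this.1⟩
    · intro p hp
      have := Finset.mem_filter.mp hp
      exact mem_smP.mpr ⟨mem_UX.mp (h1 this.1), this.2⟩
  · rintro ⟨I, I2⟩ h
    rw [Finset.mem_sigma, Finset.mem_filter, Finset.mem_filter, Finset.mem_powerset,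
      Finset.mem_powerset] at h
    obtain ⟨⟨h1, h2⟩, h3, h4⟩ := h
    have k1 : ∀ p ∈ I, w ≤ (nm p.1 : ℝ) := fun p hp => (mem_midP.mp (h1 hp)).2.1
    have k2 : ∀ p ∈ I2, (nm p.1 : ℝ) < w := fun p hp => (mem_smP.mp (h3 hp)).2
    show (⟨hi w (I ∪ I2), lo w (I ∪ I2)⟩ : (_ : Finset PrP) × Finset PrP) = ⟨I, I2⟩
    rw [hi_union k1 k2, lo_union k1 k2]
  · intro K _
    exact hi_union_lo w K
  · rintro ⟨I, I2⟩ _
    rfl

/-- If every element of `I` is larger than every element of `I2 ≠ ∅`, then `I ∪ I2` crosses `Y` iff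
`I2` crosses `Y / ν I`. -/
lemma Cr_union {I I2 : Finset PrP} {w Y : ℝ} (h1 : ∀ p ∈ I, w ≤ (nm p.1 : ℝ))
    (h2 : ∀ p ∈ I2, (nm p.1 : ℝ) < w) (hne : I2.Nonempty) :
    Cr PrP.N (Y / nK I) I2 ↔ Cr PrP.N Y (I ∪ I2) := by
  have hdis : Disjoint I I2 := by
    rw [Finset.disjoint_left]
    intro p hp hp'
    linarith [h1 p hp, h2 p hp']
  have hne' : (I ∪ I2).Nonempty := hne.mono Finset.subset_union_right
  have hmin : (I ∪ I2).min' hne' = I2.min' hne := by
    apply le_antisymm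
    · exact Finset.min'_le _ _ (Finset.mem_union_right _ (Finset.min'_mem _ _))
    · refine Finset.le_min' _ _ _ fun y hy => ?_
      rcases Finset.mem_union.mp hy with hy | hy
      · refine (PrP.lt_of_nm_lt ?_).le
        have k1 := h1 y hy
        have k2 := h2 _ (Finset.min'_mem I2 hne)
        exact_mod_cast lt_of_lt_of_le k2 k1
      · exact Finset.min'_le _ _ hy
  have hmI : I2.min' hne ∉ I := fun h => Finset.disjoint_left.mp hdis h (Finset.min'_mem _ _)
  have her : (I ∪ I2).erase (I2.min' hne) = I ∪ I2.erase (I2.min' hne) := by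
    ext p
    simp only [Finset.mem_erase, Finset.mem_union]
    constructor
    · rintro ⟨h3, h4 | h4⟩
      · exact Or.inl h4
      · exact Or.inr ⟨h3, h4⟩
    · rintro (h4 | ⟨h3, h4⟩)
      · exact ⟨fun h => hmI (h ▸ h4), Or.inl h4⟩
      · exact ⟨h3, Or.inr h4⟩
  have hd2 : Disjoint I (I2.erase (I2.min' hne)) :=
    hdis.mono_right (Finset.erase_subset _ _)
  have hpos := nK_pos I
  constructor
  · rintro ⟨h, h3, h4⟩
    refine ⟨hne', ?_, ?_⟩
    · rw [hmin, her, nu_union hd2, ← nK_eq I]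
      rw [lt_div_iff₀ hpos] at h3
      linarith
    · rw [nu_union hdis, ← nK_eq I]
      rw [div_le_iff₀ hpos] at h4
      linarith
  · rintro ⟨h, h3, h4⟩
    refine ⟨hne, ?_, ?_⟩
    · rw [hmin, her, nu_union hd2, ← nK_eq I] at h3
      rw [lt_div_iff₀ hpos]
      linarith
    · rw [nu_union hdis, ← nK_eq I] at h4
      rw [div_le_iff₀ hpos]
      linarith

open Classical in
/-- moduli of the type I part -/
def TIset (X : ℕ) (w z D Y : ℝ) : Finset (Finset PrP) :=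
  (UX X).powerset.filter
    (fun K => (∀ p ∈ K, (nm p.1 : ℝ) < z) ∧ nK (hi w K) < D ∧ nK K < Y)

open Classical in
/-- outer variables of the Legendre part -/
def Lset (X : ℕ) (w z D Y : ℝ) : Finset (Finset PrP) :=
  (UX X).powerset.filter
    (fun K => (∀ p ∈ K, (nm p.1 : ℝ) < z) ∧ nK (hi w K) < D ∧ (lo w K).Nonempty ∧ Cr PrP.N Y K)

open Classical in
lemma step2_key {X : ℕ} {f : Eis → ℂ} (hf : Supp X f) {w D Y : ℝ} (hDY : D ≤ Y)
    (I : Finset PrP) (k1 : ∀ p ∈ I, w ≤ (nm p.1 : ℝ)) (hID : nK I < D) :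
      (-1 : ℂ) ^ I.card *
          ∑ J ∈ ((UX X \ I).filter (fun p => ¬ (nm p.1 : ℝ) < w)).powerset, f (prd (I ∪ J)) =
      ∑ I2 ∈ (smP X w).powerset.filter (fun I2 => nK I2 < Y / nK I),
        (-1 : ℂ) ^ (I ∪ I2).card * ∑ n ∈ (primBall X).filter (fun n => prd (I ∪ I2) ∣ n), f n +
      ∑ I2 ∈ (smP X w).powerset.filter (fun I2 => I2.Nonempty ∧ Cr PrP.N (Y / nK I) I2),
        (-1 : ℂ) ^ (I ∪ I2).card * Wt X f (I ∪ I2) := by
  have hDI : 1 < Y / nK I := by
    rw [one_lt_div (nK_pos I)]; linarith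
  have hb := buchstab (N := PrP.N) PrP.one_le_N hDI (UX X \ I) (fun p => (nm p.1 : ℝ) < w)
    (fun p q hpq hq => lt_of_le_of_lt (by exact_mod_cast PrP.nm_le_of_le hpq) hq)
    (fun J => f (prd (I ∪ J)))
  have e1 : (UX X \ I).filter (fun p => (nm p.1 : ℝ) < w) = smP X w := by
    ext p
    rw [Finset.mem_filter, Finset.mem_sdiff, mem_smP, mem_UX]
    exact ⟨fun h => ⟨h.1.1, h.2⟩, fun h => ⟨⟨h.1, fun hp => by linarith [k1 p hp, h.2]⟩, h.2⟩⟩
  rw [e1] at hb
  rw [hb, mul_add, Finset.mul_sum, Finset.mul_sum]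
  have hdj : ∀ I2 ∈ (smP X w).powerset, Disjoint I I2 := by
    intro I2 h2
    rw [Finset.mem_powerset] at h2
    rw [Finset.disjoint_left]
    intro p hp hp'
    linarith [k1 p hp, (mem_smP.mp (h2 hp')).2]
  have hcard : ∀ I2 ∈ (smP X w).powerset, (-1 : ℂ) ^ (I ∪ I2).card =
      (-1 : ℂ) ^ I.card * (-1 : ℂ) ^ I2.card := by
    intro I2 h2
    rw [Finset.card_union_of_disjoint (hdj I2 h2), pow_add]
  have hfil1 : (smP X w).powerset.filter (fun I2 => nu PrP.N I2 < Y / nK I) =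
      (smP X w).powerset.filter (fun I2 => nK I2 < Y / nK I) :=
    Finset.filter_congr fun I2 _ => by rw [nK_eq I2]
  have hfil2 : (smP X w).powerset.filter (fun I2 => Cr PrP.N (Y / nK I) I2) =
      (smP X w).powerset.filter (fun I2 => I2.Nonempty ∧ Cr PrP.N (Y / nK I) I2) :=
    Finset.filter_congr fun I2 _ => ⟨fun h => ⟨h.1, h⟩, fun h => h.2⟩
  have hss : ∀ I2 : Finset PrP, (UX X \ I) \ I2 = UX X \ (I ∪ I2) := by
    intro I2
    ext p
    rw [Finset.mem_sdiff, Finset.mem_sdiff, Finset.mem_sdiff, Finset.mem_union, not_or, and_assoc]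
  rw [hfil1, hfil2]
  refine congrArg₂ (· + ·) ?_ ?_
  · refine Finset.sum_congr rfl fun I2 hI2 => ?_
    have h2 := (Finset.mem_filter.mp hI2).1
    rw [hcard I2 h2, mul_assoc]
    refine congrArg₂ (· * ·) rfl (congrArg₂ (· * ·) rfl ?_)
    rw [← sum_powerset_multiples f (fun n hn => ⟨hf.sq n hn, hf.le n hn⟩), hss]
    refine Finset.sum_congr rfl fun J _ => ?_
    rw [Finset.union_assoc]
  · refine Finset.sum_congr rfl fun I2 hI2 => ?_
    have h2 := (Finset.mem_filter.mp hI2).1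
    have hne := (Finset.mem_filter.mp hI2).2.1
    rw [hcard I2 h2, mul_assoc]
    refine congrArg₂ (· * ·) rfl (congrArg₂ (· * ·) rfl ?_)
    rw [← Wt_eq hf]
    have hset : ((UX X \ I) \ I2).filter (fun p => Ab I2 p) =
        (UX X \ (I ∪ I2)).filter (fun p => Ab (I ∪ I2) p) := by
      ext p
      rw [Finset.mem_filter, Finset.mem_filter, hss]
      refine and_congr_right fun hp => ?_
      constructor
      · rintro ⟨q, hq, hqp⟩
        exact ⟨q, Finset.mem_union_right _ hq, hqp⟩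
      · rintro ⟨q, hq, hqp⟩
        rcases Finset.mem_union.mp hq with hq | hq
        · obtain ⟨r, hr⟩ := hne
          refine ⟨r, hr, lt_trans (PrP.lt_of_nm_lt ?_) hqp⟩
          have k2 := (mem_smP.mp ((Finset.mem_powerset.mp h2) hr)).2
          exact_mod_cast lt_of_lt_of_le k2 (k1 q hq)
        · exact ⟨q, hq, hqp⟩
    rw [hset]
    refine Finset.sum_congr rfl fun J _ => ?_
    rw [Finset.union_assoc]

open Classical in
lemma TIset_eq {X : ℕ} {w z D Y : ℝ} : (UX X).powerset.filter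
        (fun K => (∀ p ∈ K, (nm p.1 : ℝ) < z) ∧ nK (hi w K) < D ∧ nK (lo w K) < Y / nK (hi w K)) =
      TIset X w z D Y := by
  unfold TIset
  refine Finset.filter_congr fun K _ => ?_
  rw [lt_div_iff₀ (nK_pos _), mul_comm, ← nK_union (disjoint_hi_lo w K), hi_union_lo]

open Classical in
lemma Lset_eq {X : ℕ} {w z D Y : ℝ} : (UX X).powerset.filter
        (fun K => (∀ p ∈ K, (nm p.1 : ℝ) < z) ∧ nK (hi w K) < D ∧
          ((lo w K).Nonempty ∧ Cr PrP.N (Y / nK (hi w K)) (lo w K))) =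
      Lset X w z D Y := by
  unfold Lset
  refine Finset.filter_congr fun K _ => ?_
  refine and_congr_right fun _ => and_congr_right fun _ => and_congr_right fun hne => ?_
  have h := Cr_union (I := hi w K) (I2 := lo w K) (w := w) (Y := Y)
    (fun p hp => (Finset.mem_filter.mp hp).2) (fun p hp => (Finset.mem_filter.mp hp).2) hne
  rw [hi_union_lo] at h
  exact h

open Classical in
/-- Second application of the Buchstab identity (Legendre formula). -/
lemma step2 {X : ℕ} {f : Eis → ℂ} (hf : Supp X f) {w z D Y : ℝ} (hwz : w ≤ z) (hDY : D ≤ Y) :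
    ∑ I ∈ (midP X w z).powerset.filter (fun I => nK I < D),
        (-1 : ℂ) ^ I.card *
          ∑ J ∈ ((UX X \ I).filter (fun p => ¬ (nm p.1 : ℝ) < w)).powerset, f (prd (I ∪ J)) =
      ∑ K ∈ TIset X w z D Y, (-1 : ℂ) ^ K.card *
          ∑ n ∈ (primBall X).filter (fun n => prd K ∣ n), f n +
      ∑ K ∈ Lset X w z D Y, (-1 : ℂ) ^ K.card * Wt X f K := by
  have key : ∀ I ∈ (midP X w z).powerset.filter (fun I => nK I < D),
      (-1 : ℂ) ^ I.card *
          ∑ J ∈ ((UX X \ I).filter (fun p => ¬ (nm p.1 : ℝ) < w)).powerset, f (prd (I ∪ J)) =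
      ∑ I2 ∈ (smP X w).powerset.filter (fun I2 => nK I2 < Y / nK I),
        (-1 : ℂ) ^ (I ∪ I2).card * ∑ n ∈ (primBall X).filter (fun n => prd (I ∪ I2) ∣ n), f n +
      ∑ I2 ∈ (smP X w).powerset.filter (fun I2 => I2.Nonempty ∧ Cr PrP.N (Y / nK I) I2),
        (-1 : ℂ) ^ (I ∪ I2).card * Wt X f (I ∪ I2) := by
    intro I hI
    rw [Finset.mem_filter, Finset.mem_powerset] at hI
    exact step2_key hf hDY I (fun p hp => (mem_midP.mp (hI.1 hp)).2.1) hI.2
  rw [Finset.sum_congr rfl key, Finset.sum_add_distrib]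
  have h1 := sum_pair (X := X) hwz (fun I => nK I < D) (fun I I2 => nK I2 < Y / nK I)
    (fun K => (-1 : ℂ) ^ K.card * ∑ n ∈ (primBall X).filter (fun n => prd K ∣ n), f n)
  have h2 := sum_pair (X := X) hwz (fun I => nK I < D)
    (fun I I2 => I2.Nonempty ∧ Cr PrP.N (Y / nK I) I2) (fun K => (-1 : ℂ) ^ K.card * Wt X f K)
  refine congrArg₂ (· + ·) ?_ ?_
  · rw [← TIset_eq]
    convert h1 using 2
  · rw [← Lset_eq]
    convert h2 using 4

open Classical in
/-- outer variables of the Buchstab part -/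
def Bset (X : ℕ) (w z D : ℝ) : Finset (Finset PrP) :=
  (midP X w z).powerset.filter (fun I => Cr PrP.N D I)

/-- **The exact sieve decomposition.** -/
theorem exact {X : ℕ} {f : Eis → ℂ} (hf : Supp X f) (hX : 2 ≤ X) {w z D Y : ℝ} (hwz : w ≤ z)
    (hz0 : 0 ≤ z) (hz : (X : ℝ) < z ^ 2) (hD : 1 < D) (hDY : D ≤ Y) :
    ∑ p ∈ (UX X).filter (fun p => z ≤ (nm p.1 : ℝ)), f p.1 =
      (∑ K ∈ TIset X w z D Y, (-1 : ℂ) ^ K.card *
          (open Classical in ∑ n ∈ (primBall X).filter (fun n => prd K ∣ n), f n)) +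
      ∑ K ∈ Lset X w z D Y, (-1 : ℂ) ^ K.card * Wt X f K +
      ∑ K ∈ Bset X w z D, (-1 : ℂ) ^ K.card * Wt X f K := by
  rw [step1 hf hX hwz hz0 hz hD, step2 hf hwz hDY]
  rfl

end Crest.Agent.R012.Sieve812
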