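import Crest.Agent.R012.SieveA_812

/-!
# Row 12: sieve decomposition, part B: reduction of every piece to a bilinear form
-/

set_option autoImplicit false

noncomputable section

namespace Crest.Agent.R012.Sieve812

open Finset Eis Buch420

instance : Nonempty PrP := by
  have h4 : IsPrim (4 : Eis) := by
    refine ⟨1, ?_⟩
    norm_num
  have hu : ¬ IsUnit (4 : Eis) := by
    rw [isUnit_iff]
    have : nm (4 : Eis) = 16 := by simpa using nm_natCast 4
    rw [this]; norm_num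
  obtain ⟨q, hq, hd⟩ := WfDvdMonoid.exists_irreducible_factor hu h4.ne_zero
  obtain ⟨p, -, -⟩ := exists_PrP h4 hq.prime hd
  exact ⟨p⟩

/-- least prime factor -/
def mn (K : Finset PrP) : PrP :=
  if h : K.Nonempty then K.min' h else Classical.arbitrary PrP

lemma mn_eq {K : Finset PrP} (h : K.Nonempty) : mn K = K.min' h := by
  unfold mn; rw [dif_pos h]

lemma mn_mem {K : Finset PrP} (h : K.Nonempty) : mn K ∈ K := by
  rw [mn_eq h]; exact Finset.min'_mem K h

lemma mn_le {K : Finset PrP} {p : PrP} (h : p ∈ K) : mn K ≤ p := by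
  rw [mn_eq ⟨p, h⟩]; exact Finset.min'_le K p h

@[simp] lemma mn_singleton (p : PrP) : mn {p} = p := by
  have := mn_mem (Finset.singleton_nonempty p)
  exact Finset.mem_singleton.mp this

lemma ab_iff {K : Finset PrP} (h : K.Nonempty) {p : PrP} : Ab K p ↔ mn K < p := by
  constructor
  · rintro ⟨q, hq, hqp⟩
    exact lt_of_le_of_lt (mn_le hq) hqp
  · intro hp
    exact ⟨mn K, mn_mem h, hp⟩

lemma forall_ab_iff {K J : Finset PrP} (h : K.Nonempty) (hJ : J.Nonempty) :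
    (∀ p ∈ J, Ab K p) ↔ mn K < mn J := by
  constructor
  · intro h1
    exact (ab_iff h).mp (h1 _ (mn_mem hJ))
  · intro h1 p hp
    exact (ab_iff h).mpr (lt_of_lt_of_le h1 (mn_le hp))

lemma Cr_iff {K : Finset PrP} {D : ℝ} : Cr PrP.N D K ↔
    K.Nonempty ∧ nK (K.erase (mn K)) < D ∧ D ≤ nK K := by
  constructor
  · rintro ⟨h, h1, h2⟩
    refine ⟨h, ?_, ?_⟩
    · rw [nK_eq, mn_eq h]; exact h1
    · rw [nK_eq]; exact h2
  · rintro ⟨h, h1, h2⟩
    refine ⟨h, ?_, ?_⟩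
    · rw [nK_eq, mn_eq h] at h1; exact h1
    · rw [nK_eq] at h2; exact h2

lemma nK_erase {K : Finset PrP} {p : PrP} (h : p ∈ K) : nm p.1 * nK (K.erase p) = nK K := by
  rw [← nK_insert (Finset.notMem_erase p K), Finset.insert_erase h]

lemma nm_le_nK {K : Finset PrP} {p : PrP} (h : p ∈ K) : (nm p.1 : ℝ) ≤ nK K := by
  rw [← nK_erase h]
  nlinarith [one_le_nm p, one_le_nK (K.erase p)]

open Classical in
/-- Conversion of a sum over finite sets of primes into a sum over primary numbers. -/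
lemma sum_J {X : ℕ} {f : Eis → ℂ} (hf : Supp X f) (K : Finset PrP) (α : Finset PrP → ℂ) :
    ∑ J ∈ (UX X).powerset, α J * f (prd K * prd J) =
      ∑ a ∈ primBall X, α (pset a) * f (prd K * a) := by
  have h := sum_powerset_prd (X := X) (fun n => α (pset n) * f (prd K * n)) ?_ (UX X)
  · simp only [pset_prd] at h
    rw [h]
    refine Finset.sum_congr ?_ fun _ _ => rfl
    rw [Finset.filter_eq_self]
    intro n hn p hp
    rw [mem_primBall] at hn
    rw [mem_UX]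
    exact (nm_le_of_dvd' hn.2.ne_zero hp).trans hn.1
  · intro n hn
    have h2 : f (prd K * n) ≠ 0 := right_ne_zero_of_mul hn
    refine ⟨(hf.sq _ h2).of_mul_right, ?_⟩
    have h3 := hf.le _ h2
    rw [nm_mul] at h3
    have h4 : 0 < nm (prd K) := nm_pos.mpr (prd_ne_zero K)
    exact le_trans (Nat.le_mul_of_pos_left _ h4) h3

open Classical in
/-- The cross condition is separated. -/
lemma sep_Wt {X : ℕ} {f : Eis → ℂ} (hf : Supp X f) {S : ℕ} (hS : (UX X).card ≤ 2 ^ S)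
    (s : Finset (Finset PrP)) (hs : ∀ K ∈ s, K.Nonempty ∧ K ⊆ UX X ∧ 2 * nK K ≤ X)
    (β : Finset PrP → ℂ) {E : ℝ}
    (h : ∀ (φ : PrP → ℂ) (α : Eis → ℂ), (∀ p, ‖φ p‖ ≤ 1) → (∀ a, ‖α a‖ ≤ 1) →
      ‖∑ K ∈ s, β K * φ (mn K) * ∑ a ∈ primBall X, α a * f (prd K * a)‖ ≤ E) :
    ‖∑ K ∈ s, β K * Wt X f K‖ ≤ S * E := by
  have e1 : ∑ K ∈ s, β K * Wt X f K =
      ∑ K ∈ s, ∑ J ∈ (UX X).powerset.filter (fun J => J.Nonempty),
        (if mn K < mn J then β K * f (prd K * prd J) else 0) := by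
    refine Finset.sum_congr rfl fun K hK => ?_
    obtain ⟨hKne, hKU, hK2⟩ := hs K hK
    unfold Wt
    rw [Finset.mul_sum, Finset.sum_filter, Finset.sum_filter]
    refine Finset.sum_congr rfl fun J hJ => ?_
    by_cases hJe : J.Nonempty
    · rw [if_pos hJe]
      by_cases hlt : mn K < mn J
      · rw [if_pos hlt, if_pos ((forall_ab_iff hKne hJe).mpr hlt)]
      · rw [if_neg hlt, if_neg (fun h => hlt ((forall_ab_iff hKne hJe).mp h))]
    · rw [if_neg hJe]
      rw [Finset.not_nonempty_iff_eq_empty] at hJe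
      subst hJe
      have : f (prd K * prd ∅) = 0 := by
        by_contra hc
        have := lt_nK_mul hf hc
        rw [nK_empty, mul_one] at this
        linarith
      rw [this, mul_zero]; simp
  rw [e1]
  refine Sep812.sep_bound (UX X) S hS s _ mn mn (fun K hK => (hs K hK).2.1 (mn_mem (hs K hK).1))
    (fun J hJ => ?_) (fun K J => β K * f (prd K * prd J)) E ?_
  · rw [Finset.mem_filter, Finset.mem_powerset] at hJ
    exact hJ.1 (mn_mem hJ.2)
  · intro φ ψ hφ hψ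
    have h2 := h φ (fun a => if (pset a).Nonempty then ψ (mn (pset a)) else 0) hφ
      (fun a => by split_ifs; exact hψ _; simp)
    convert h2 using 2
    refine Finset.sum_congr rfl fun K hK => ?_
    rw [← sum_J hf K (fun J => if J.Nonempty then ψ (mn J) else 0), Finset.mul_sum,
      Finset.sum_filter]
    refine Finset.sum_congr rfl fun J _ => ?_
    split_ifs
    · ring
    · ring

/-- parameters -/
structure Params (X : ℕ) (w D Y V z : ℝ) : Prop where
  hX : 2 ≤ X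
  hw : 0 ≤ w
  hV : 0 < V
  hD : 1 < D
  hwD : w ≤ D
  hDY : D ≤ Y
  hYX : Y ≤ X
  hDz : D ≤ z
  hz : (X : ℝ) < z ^ 2
  hz2 : 2 * z ≤ X
  hD3 : (X : ℝ) < D ^ 3
  hD2 : 2 * D ^ 2 ≤ X
  hDV2 : 2 * (D * V) ≤ X
  hwX : w * (2 * D ^ 2) ≤ X
  hYw : 2 * (Y * w) ≤ X
  hV2 : (X : ℝ) ≤ V ^ 2
  hDV : D ^ 3 ≤ V ^ 2
  hVD : (X : ℝ) * D ^ 3 ≤ V ^ 4

section

variable {X : ℕ} {f : Eis → ℂ} {w D Y V z : ℝ}

/-! ### Type I -/

open Classical in
lemma TI_bound (hP : Params X w D Y V z) {E : ℝ}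
    (h : ∑ k ∈ (primBall X).filter (fun k => Squarefree k ∧ (nm k : ℝ) < Y),
      ‖∑ n ∈ (primBall X).filter (fun n => k ∣ n), f n‖ ≤ E) :
    ‖∑ K ∈ TIset X w z D Y, (-1 : ℂ) ^ K.card *
          ∑ n ∈ (primBall X).filter (fun n => prd K ∣ n), f n‖ ≤ E := by
  refine le_trans (norm_sum_le _ _) (le_trans ?_ h)
  have h1 : ∀ K ∈ TIset X w z D Y, ‖(-1 : ℂ) ^ K.card *
      ∑ n ∈ (primBall X).filter (fun n => prd K ∣ n), f n‖ =
      ‖∑ n ∈ (primBall X).filter (fun n => prd K ∣ n), f n‖ := by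
    intro K _
    rw [norm_mul, norm_pow, norm_neg, norm_one, one_pow, one_mul]
  rw [Finset.sum_congr rfl h1]
  rw [← Finset.sum_image (s := TIset X w z D Y) (g := prd)
    (f := fun k => ‖∑ n ∈ (primBall X).filter (fun n => k ∣ n), f n‖)
    (fun a _ b _ hab => prd_injective hab)]
  refine Finset.sum_le_sum_of_subset_of_nonneg ?_ fun _ _ _ => norm_nonneg _
  intro k hk
  rw [Finset.mem_image] at hk
  obtain ⟨K, hK, rfl⟩ := hk
  unfold TIset at hK
  rw [Finset.mem_filter] at hK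
  have h3 : (nm (prd K) : ℝ) < Y := hK.2.2.2
  rw [Finset.mem_filter, mem_primBall]
  refine ⟨⟨?_, isPrim_prd K⟩, squarefree_prd K, h3⟩
  exact_mod_cast (h3.le.trans hP.hYX)

/-! ### Legendre part -/

open Classical in
lemma L_bound (hf : Supp X f) (hP : Params X w D Y V z) {S : ℕ} (hS : (UX X).card ≤ 2 ^ S)
    {E : ℝ}
    (h : ∀ (φ : PrP → ℂ) (α : Eis → ℂ), (∀ p, ‖φ p‖ ≤ 1) → (∀ a, ‖α a‖ ≤ 1) →
      ‖∑ K ∈ Lset X w z D Y, (-1 : ℂ) ^ K.card * φ (mn K) *
        ∑ a ∈ primBall X, α a * f (prd K * a)‖ ≤ E) :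
    ‖∑ K ∈ Lset X w z D Y, (-1 : ℂ) ^ K.card * Wt X f K‖ ≤ S * E := by
  refine sep_Wt hf hS _ ?_ (fun K => (-1 : ℂ) ^ K.card) h
  intro K hK
  unfold Lset at hK
  rw [Finset.mem_filter, Finset.mem_powerset] at hK
  obtain ⟨hKU, hKz, hKD, hKlo, hCr⟩ := hK
  rw [Cr_iff] at hCr
  refine ⟨hCr.1, hKU, ?_⟩
  have h1 : (nm (mn K).1 : ℝ) < w := by
    obtain ⟨p, hp⟩ := hKlo
    have hp' := Finset.mem_filter.mp hp
    have h2 : (nm (mn K).1 : ℝ) ≤ nm p.1 := by exact_mod_cast PrP.nm_le_of_le (mn_le hp'.1)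
    linarith [hp'.2]
  have h3 := nK_erase (mn_mem hCr.1)
  have h4 := nK_pos (K.erase (mn K))
  have h5 := one_le_nm (mn K)
  have h6 : nK K ≤ Y * w := by
    rw [← h3, mul_comm]
    exact mul_le_mul hCr.2.1.le h1.le (by linarith) (by linarith [hCr.2.1])
  linarith [hP.hYw]

/-! ### The Buchstab part -/

/-- facts about crossing sets with at least two elements -/
lemma Cr_facts {K : Finset PrP} (hCr : Cr PrP.N D K) (h2 : 2 ≤ K.card) :
    (∀ p ∈ K, (nm p.1 : ℝ) < D) ∧ nK K ≤ D ^ 2 ∧ (nK K / D < nm (mn K).1) ∧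
      (3 ≤ K.card → nK K ^ 2 ≤ D ^ 3) := by
  rw [Cr_iff] at hCr
  obtain ⟨hne, hlt, hle⟩ := hCr
  have hm := mn_mem hne
  have her := nK_erase hm
  have hcard : (K.erase (mn K)).card = K.card - 1 := Finset.card_erase_of_mem hm
  have hne2 : (K.erase (mn K)).Nonempty := by
    rw [← Finset.card_pos, hcard]; omega
  have h1 := one_le_nK (K.erase (mn K))
  have hm1 := one_le_nm (mn K)
  have hmD : (nm (mn K).1 : ℝ) < D := by
    obtain ⟨q, hq⟩ := hne2
    have h3 : (nm (mn K).1 : ℝ) ≤ nm q.1 := by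
      exact_mod_cast PrP.nm_le_of_le (mn_le (Finset.mem_of_mem_erase hq))
    linarith [nm_le_nK hq]
  refine ⟨?_, ?_, ?_, ?_⟩
  · intro p hp
    by_cases hpm : p = mn K
    · rw [hpm]; exact hmD
    · linarith [nm_le_nK (Finset.mem_erase.mpr ⟨hpm, hp⟩)]
  · rw [← her]; nlinarith
  · have hD0 : 0 < D := by linarith
    rw [div_lt_iff₀ hD0, ← her]
    nlinarith
  · intro h3
    have h4 : (nm (mn K).1 : ℝ) ^ (K.erase (mn K)).card ≤ nK (K.erase (mn K)) := by
      refine pow_card_le_nK (by linarith) _ fun p hp => ?_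
      exact_mod_cast PrP.nm_le_of_le (mn_le (Finset.mem_of_mem_erase hp))
    have h5 : (nm (mn K).1 : ℝ) ^ 2 ≤ (nm (mn K).1 : ℝ) ^ (K.erase (mn K)).card :=
      pow_le_pow_right₀ hm1 (by omega)
    have h6 : (nm (mn K).1 : ℝ) ^ 2 ≤ nK (K.erase (mn K)) := h5.trans h4
    rw [← her, mul_pow]
    have h7 : nK (K.erase (mn K)) ^ 3 ≤ D ^ 3 := pow_le_pow_left₀ (by linarith) hlt.le 3
    calc (nm (mn K).1 : ℝ) ^ 2 * nK (K.erase (mn K)) ^ 2
        ≤ nK (K.erase (mn K)) * nK (K.erase (mn K)) ^ 2 :=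
          mul_le_mul_of_nonneg_right h6 (by positivity)
      _ = nK (K.erase (mn K)) ^ 3 := by ring
      _ ≤ D ^ 3 := h7

open Classical in
/-- composite outer variables of norm at most `V` -/
def Rset (X : ℕ) (w D V : ℝ) : Finset (Finset PrP) :=
  (UX X).powerset.filter
    (fun K => 2 ≤ K.card ∧ (∀ p ∈ K, w ≤ (nm p.1 : ℝ)) ∧ Cr PrP.N D K ∧ nK K ≤ V)

open Classical in
/-- products of two primes of norm larger than `V` -/
def Wset (X : ℕ) (w D V : ℝ) : Finset (Finset PrP) :=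
  (UX X).powerset.filter
    (fun K => K.card = 2 ∧ (∀ p ∈ K, w ≤ (nm p.1 : ℝ)) ∧ Cr PrP.N D K ∧ V < nK K)

open Classical in
/-- products of two primes, the complementary variable of `Wset`. -/
def Cset (X : ℕ) (D V : ℝ) : Finset (Finset PrP) :=
  (UX X).powerset.filter
    (fun K => K.card = 2 ∧ (∀ p ∈ K, V / D ≤ (nm p.1 : ℝ)) ∧ D ≤ nK K ∧ V * nK K ≤ X)

/-- primes of norm `< D` -/
def PD (X : ℕ) (D : ℝ) : Finset PrP := (UX X).filter (fun p => (nm p.1 : ℝ) < D)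

/-- primes of norm in `[D, V]` -/
def PV (X : ℕ) (D V : ℝ) : Finset PrP :=
  (UX X).filter (fun p => D ≤ (nm p.1 : ℝ) ∧ (nm p.1 : ℝ) ≤ V)

lemma Bset_split (hP : Params X w D Y V z) (g : Finset PrP → ℂ) :
    ∑ K ∈ Bset X w z D, g K =
      ∑ p ∈ (UX X).filter (fun p => D ≤ (nm p.1 : ℝ) ∧ (nm p.1 : ℝ) < z), g {p} +
      ∑ K ∈ Rset X w D V, g K + ∑ K ∈ Wset X w D V, g K := by
  classical
  have hD := hP.hD
  have key : Bset X w z D =
      (((UX X).filter (fun p => D ≤ (nm p.1 : ℝ) ∧ (nm p.1 : ℝ) < z)).image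
        (fun p => ({p} : Finset PrP)) ∪ Rset X w D V) ∪ Wset X w D V := by
    ext K
    simp only [Finset.mem_union, Finset.mem_image, Bset, Rset, Wset, Finset.mem_filter,
      Finset.mem_powerset]
    constructor
    · rintro ⟨h1, h2⟩
      have hKU : K ⊆ UX X := fun p hp => mem_UX.mpr (mem_midP.mp (h1 hp)).1
      have hKw : ∀ p ∈ K, w ≤ (nm p.1 : ℝ) := fun p hp => (mem_midP.mp (h1 hp)).2.1
      have hKz : ∀ p ∈ K, (nm p.1 : ℝ) < z := fun p hp => (mem_midP.mp (h1 hp)).2.2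
      have h3 := Cr_iff.mp h2
      have hpos : 0 < K.card := Finset.card_pos.mpr h3.1
      by_cases hc1 : K.card = 1
      · left; left
        obtain ⟨p, rfl⟩ := Finset.card_eq_one.mp hc1
        refine ⟨p, ⟨hKU (Finset.mem_singleton_self p), ?_, hKz p (Finset.mem_singleton_self p)⟩, rfl⟩
        have := h3.2.2
        rwa [nK_singleton] at this
      · have hc2 : 2 ≤ K.card := by omega
        by_cases hV : nK K ≤ V
        · left; right
          exact ⟨hKU, hc2, hKw, h2, hV⟩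
        · right
          push Not at hV
          refine ⟨hKU, ?_, hKw, h2, hV⟩
          by_contra hc3
          have h4 := (Cr_facts h2 hc2).2.2.2 (by omega)
          have h5 : V ^ 2 < nK K ^ 2 := pow_lt_pow_left₀ hV hP.hV.le (by norm_num)
          linarith [hP.hDV]
    · rintro ((⟨p, ⟨h1, h2, h3⟩, rfl⟩ | ⟨h1, h2, h3, h4, h5⟩) | ⟨h1, h2, h3, h4, h5⟩)
      · refine ⟨?_, ?_⟩
        · rw [Finset.singleton_subset_iff, mem_midP]
          exact ⟨mem_UX.mp h1, hP.hwD.trans h2, h3⟩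
        · rw [Cr_iff]
          refine ⟨Finset.singleton_nonempty p, ?_, ?_⟩
          · rw [mn_singleton, Finset.erase_singleton, nK_empty]; exact hD
          · rw [nK_singleton]; exact h2
      · refine ⟨fun p hp => mem_midP.mpr ⟨mem_UX.mp (h1 hp), h3 p hp, ?_⟩, h4⟩
        exact lt_of_lt_of_le ((Cr_facts h4 h2).1 p hp) hP.hDz
      · refine ⟨fun p hp => mem_midP.mpr ⟨mem_UX.mp (h1 hp), h3 p hp, ?_⟩, h4⟩
        exact lt_of_lt_of_le ((Cr_facts h4 (by omega)).1 p hp) hP.hDz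
  rw [key, Finset.sum_union, Finset.sum_union]
  · rw [Finset.sum_image (fun a _ b _ hab => Finset.singleton_injective hab)]
  · rw [Finset.disjoint_left]
    intro K hK hK'
    rw [Finset.mem_image] at hK
    obtain ⟨p, -, rfl⟩ := hK
    unfold Rset at hK'
    rw [Finset.mem_filter, Finset.card_singleton] at hK'
    omega
  · rw [Finset.disjoint_left]
    intro K hK hK'
    unfold Wset at hK'
    rw [Finset.mem_filter] at hK'
    rcases Finset.mem_union.mp hK with hK | hK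
    · rw [Finset.mem_image] at hK
      obtain ⟨p, -, rfl⟩ := hK
      rw [Finset.card_singleton] at hK'
      omega
    · unfold Rset at hK
      rw [Finset.mem_filter] at hK
      linarith [hK.2.2.2.2, hK'.2.2.2.2]

open Classical in
lemma R_bound (hf : Supp X f) (hP : Params X w D Y V z) {S : ℕ} (hS : (UX X).card ≤ 2 ^ S)
    {E : ℝ}
    (h : ∀ (φ : PrP → ℂ) (α : Eis → ℂ), (∀ p, ‖φ p‖ ≤ 1) → (∀ a, ‖α a‖ ≤ 1) →
      ‖∑ K ∈ Rset X w D V, (-1 : ℂ) ^ K.card * φ (mn K) *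
        ∑ a ∈ primBall X, α a * f (prd K * a)‖ ≤ E) :
    ‖∑ K ∈ Rset X w D V, (-1 : ℂ) ^ K.card * Wt X f K‖ ≤ S * E := by
  refine sep_Wt hf hS _ ?_ (fun K => (-1 : ℂ) ^ K.card) h
  intro K hK
  unfold Rset at hK
  rw [Finset.mem_filter, Finset.mem_powerset] at hK
  obtain ⟨hKU, hc, hKw, hCr, hV⟩ := hK
  refine ⟨(Cr_iff.mp hCr).1, hKU, ?_⟩
  linarith [(Cr_facts hCr hc).2.1, hP.hD2]

end

end Crest.Agent.R012.Sieve812
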