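import Crest.Agent.R012.SieveB_812

/-!
# Row 12: sieve decomposition, part C: single primes, products of two large primes, edge triples
-/

set_option autoImplicit false

noncomputable section

namespace Crest.Agent.R012.Sieve812

open Finset Eis Buch420

variable {X : ℕ} {f : Eis → ℂ} {w D Y V z : ℝ}

open Classical in
/-- Restriction of the inner variable to a set of `J`'s. -/
lemma bil_conv (hf : Supp X f) (K : Finset PrP) (t : Finset (Finset PrP))
    (ht : t ⊆ (UX X).powerset) (c : Finset PrP → ℂ) :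
    ∑ a ∈ primBall X, (if pset a ∈ t then c (pset a) else 0) * f (prd K * a) =
      ∑ J ∈ t, c J * f (prd K * prd J) := by
  rw [← sum_J hf K (fun J => if J ∈ t then c J else 0)]
  have h1 : ∀ J ∈ (UX X).powerset, (if J ∈ t then c J else 0) * f (prd K * prd J) =
      if J ∈ t then c J * f (prd K * prd J) else 0 := by
    intro J _; split_ifs <;> simp
  rw [Finset.sum_congr rfl h1, ← Finset.sum_filter]
  refine Finset.sum_congr ?_ fun _ _ => rfl
  ext J
  rw [Finset.mem_filter]
  exact ⟨fun h => h.2, fun h => ⟨ht h, h⟩⟩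

open Classical in
/-- Restriction of the inner variable to primes. -/
lemma bil_conv_prime (hf : Supp X f) (K : Finset PrP) (B : Finset PrP) (hB : B ⊆ UX X) :
    ∑ a ∈ primBall X, (if pset a ∈ B.image (fun p => ({p} : Finset PrP)) then (1 : ℂ) else 0) *
      f (prd K * a) = ∑ q ∈ B, f (prd K * q.1) := by
  have h := bil_conv hf K (B.image (fun p => ({p} : Finset PrP))) ?_ (fun _ => 1)
  · rw [h, Finset.sum_image (fun a _ b _ hab => Finset.singleton_injective hab)]
    simp
  · intro J hJ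
    rw [Finset.mem_image] at hJ
    obtain ⟨p, hp, rfl⟩ := hJ
    rw [Finset.mem_powerset, Finset.singleton_subset_iff]
    exact hB hp

lemma f_sq_zero (hf : Supp X f) (p : PrP) : f (p.1 * p.1) = 0 := by
  have := f_mul_prd hf (K := {p}) (J := {p}) (by simp)
  simpa using this

/-- `A` = all primes of norm `≥ D` -/
def PA (X : ℕ) (D : ℝ) : Finset PrP := (UX X).filter (fun p => D ≤ (nm p.1 : ℝ))

open Classical in
/-- `∑_{J > p} f(pJ)` for `D ≤ nm p < z`: only single primes survive. -/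
lemma Wt_singleton (hf : Supp X f) (hP : Params X w D Y V z) {p : PrP}
    (hp1 : D ≤ (nm p.1 : ℝ)) (hp2 : (nm p.1 : ℝ) < z) :
    Wt X f {p} = ∑ q ∈ PA X D, if p < q then f (p.1 * q.1) else 0 := by
  have hD := hP.hD
  have hAb : ∀ q : PrP, Ab {p} q ↔ p < q := by
    intro q
    rw [ab_iff (Finset.singleton_nonempty p), mn_singleton]
  unfold Wt
  rw [Finset.sum_filter, sum_powerset_card_one]
  · simp only [Finset.mem_singleton, forall_eq, prd_singleton, hAb]
    symm
    refine Finset.sum_subset (Finset.filter_subset _ _) ?_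
    intro q hq hq'
    rw [if_neg]
    intro hlt
    apply hq'
    unfold PA
    rw [Finset.mem_filter]
    refine ⟨hq, hp1.trans ?_⟩
    exact_mod_cast PrP.nm_le_of_le hlt.le
  · intro J hJ hc
    split_ifs with hA
    · by_contra hne
      have h1 := lt_nK_mul hf hne
      have h2 := nK_mul_le hf hne
      rw [nK_singleton] at h1 h2
      have h3 : D ^ J.card ≤ nK J := by
        refine pow_card_le_nK (by linarith) J fun q hq => ?_
        have : (nm p.1 : ℝ) ≤ nm q.1 := by
          exact_mod_cast PrP.nm_le_of_le ((hAb q).mp (hA q hq)).le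
        linarith
      rcases Nat.lt_or_ge J.card 1 with h0 | h0
      · have : J = ∅ := Finset.card_eq_zero.mp (by omega)
        rw [this, nK_empty, mul_one] at h1
        linarith [hP.hz2]
      · have h4 : D ^ 2 ≤ D ^ J.card := pow_le_pow_right₀ hD.le (by omega)
        have h5 : D * D ^ 2 ≤ nm p.1 * nK J :=
          mul_le_mul hp1 (h4.trans h3) (by positivity) (by linarith)
        have h6 : D * D ^ 2 = D ^ 3 := by ring
        linarith [hP.hD3]
    · rfl

lemma f_zero_of_large (hf : Supp X f) {a b : Eis} (h : (X : ℝ) < (nm a : ℝ) * nm b) :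
    f (a * b) = 0 := by
  by_contra hc
  have h1 := hf.le _ hc
  rw [nm_mul] at h1
  have h2 : (nm a : ℝ) * nm b ≤ X := by exact_mod_cast h1
  linarith

/-- symmetrisation of a sum over pairs -/
lemma sum_symm2 (A : Finset PrP) (g : PrP → PrP → ℂ) (hs : ∀ p q, g p q = g q p)
    (hd : ∀ p, g p p = 0) :
    ∑ p ∈ A, ∑ q ∈ A, g p q = 2 * ∑ p ∈ A, ∑ q ∈ A, if p < q then g p q else 0 := by
  have h1 : ∑ p ∈ A, ∑ q ∈ A, g p q =
      ∑ p ∈ A, ∑ q ∈ A, (if p < q then g p q else 0) +
      ∑ p ∈ A, ∑ q ∈ A, (if q < p then g p q else 0) := by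
    rw [← Finset.sum_add_distrib]
    refine Finset.sum_congr rfl fun p _ => ?_
    rw [← Finset.sum_add_distrib]
    refine Finset.sum_congr rfl fun q _ => ?_
    rcases lt_trichotomy p q with h | h | h
    · rw [if_pos h, if_neg h.not_gt, add_zero]
    · subst h; rw [hd]; simp
    · rw [if_neg h.not_gt, if_pos h, zero_add]
  have h2 : ∑ p ∈ A, ∑ q ∈ A, (if q < p then g p q else 0) =
      ∑ p ∈ A, ∑ q ∈ A, (if p < q then g p q else 0) := by
    rw [Finset.sum_comm]
    refine Finset.sum_congr rfl fun p _ => Finset.sum_congr rfl fun q _ => ?_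
    rw [hs]
  rw [h1, h2]; ring

open Classical in
/-- The terms of the Buchstab part with one prime. -/
lemma single_bound (hf : Supp X f) (hP : Params X w D Y V z) {E : ℝ}
    (h : ∀ V' : ℝ, V' ≤ V → ∀ α : Eis → ℂ, (∀ a, ‖α a‖ ≤ 1) →
      ‖∑ p ∈ PV X D V', ∑ a ∈ primBall X, α a * f (p.1 * a)‖ ≤ E) :
    ‖∑ p ∈ (UX X).filter (fun p => D ≤ (nm p.1 : ℝ) ∧ (nm p.1 : ℝ) < z),
      (-1 : ℂ) ^ ({p} : Finset PrP).card * Wt X f {p}‖ ≤ 3 / 2 * E := by
  have hD := hP.hD
  set A := PA X D with hA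
  have hAmem : ∀ p, p ∈ A ↔ p ∈ UX X ∧ D ≤ (nm p.1 : ℝ) := fun p => by
    rw [hA]; unfold PA; rw [Finset.mem_filter]
  -- rewrite as a sum over ordered pairs
  have e1 : ∑ p ∈ (UX X).filter (fun p => D ≤ (nm p.1 : ℝ) ∧ (nm p.1 : ℝ) < z),
      (-1 : ℂ) ^ ({p} : Finset PrP).card * Wt X f {p} =
      - ∑ p ∈ A, ∑ q ∈ A, if p < q then f (p.1 * q.1) else 0 := by
    rw [← Finset.sum_neg_distrib]
    have hsub : (UX X).filter (fun p => D ≤ (nm p.1 : ℝ) ∧ (nm p.1 : ℝ) < z) ⊆ A := by
      intro p hp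
      rw [Finset.mem_filter] at hp
      exact (hAmem p).mpr ⟨hp.1, hp.2.1⟩
    rw [← Finset.sum_subset hsub]
    · refine Finset.sum_congr rfl fun p hp => ?_
      rw [Finset.mem_filter] at hp
      rw [Wt_singleton hf hP hp.2.1 hp.2.2, Finset.card_singleton, pow_one, neg_one_mul]
    · intro p hp hp'
      rw [neg_eq_zero]
      refine Finset.sum_eq_zero fun q hq => ?_
      split_ifs with hlt
      · refine f_zero_of_large hf ?_
        have hz : z ≤ (nm p.1 : ℝ) := by
          by_contra hc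
          push Not at hc
          exact hp' (Finset.mem_filter.mpr ⟨((hAmem p).mp hp).1, ((hAmem p).mp hp).2, hc⟩)
        have hpq : (nm p.1 : ℝ) ≤ nm q.1 := by exact_mod_cast PrP.nm_le_of_le hlt.le
        have hz0 : 0 < z := by linarith [hP.hDz]
        nlinarith [hP.hz]
      · rfl
  have e2 := sum_symm2 A (fun p q => f (p.1 * q.1)) (fun p q => by rw [mul_comm])
    (fun p => f_sq_zero hf p)
  -- the two bilinear sums
  have hPVA : ∀ W : ℝ, ∀ p, p ∈ PV X D W ↔ p ∈ A ∧ (nm p.1 : ℝ) ≤ W := by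
    intro W p
    unfold PV
    rw [Finset.mem_filter, hAmem]
    exact ⟨fun h => ⟨⟨h.1, h.2.1⟩, h.2.2⟩, fun h => ⟨h.1.1, h.1.2, h.2⟩⟩
  have hAU : A ⊆ UX X := Finset.filter_subset _ _
  have hVU : PV X D V ⊆ UX X := Finset.filter_subset _ _
  have e3 : ∑ p ∈ A, ∑ q ∈ A, f (p.1 * q.1) =
      2 * ∑ p ∈ PV X D V, ∑ q ∈ A, f (p.1 * q.1) -
        ∑ p ∈ PV X D V, ∑ q ∈ PV X D V, f (p.1 * q.1) := by
    have hsplit : ∀ g : PrP → ℂ, ∑ p ∈ A, g p = ∑ p ∈ PV X D V, g p +
        ∑ p ∈ A.filter (fun p => ¬ (nm p.1 : ℝ) ≤ V), g p := by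
      intro g
      rw [← Finset.sum_filter_add_sum_filter_not A (fun p => (nm p.1 : ℝ) ≤ V)]
      congr 1
      refine Finset.sum_congr ?_ fun _ _ => rfl
      ext p
      rw [Finset.mem_filter, hPVA]
    have hc1 : ∑ p ∈ A.filter (fun p => ¬ (nm p.1 : ℝ) ≤ V), ∑ q ∈ A, f (p.1 * q.1) =
        ∑ p ∈ A.filter (fun p => ¬ (nm p.1 : ℝ) ≤ V), ∑ q ∈ PV X D V, f (p.1 * q.1) := by
      refine Finset.sum_congr rfl fun p hp => ?_
      rw [hsplit]
      have : ∑ q ∈ A.filter (fun p => ¬ (nm p.1 : ℝ) ≤ V), f (p.1 * q.1) = 0 := by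
        refine Finset.sum_eq_zero fun q hq => f_zero_of_large hf ?_
        have h1 := (Finset.mem_filter.mp hp).2
        have h2 := (Finset.mem_filter.mp hq).2
        push Not at h1 h2
        nlinarith [hP.hV2, hP.hV]
      rw [this, add_zero]
    have hc2 : ∑ p ∈ A.filter (fun p => ¬ (nm p.1 : ℝ) ≤ V), ∑ q ∈ PV X D V, f (p.1 * q.1) =
        ∑ p ∈ PV X D V, ∑ q ∈ A.filter (fun p => ¬ (nm p.1 : ℝ) ≤ V), f (p.1 * q.1) := by
      rw [Finset.sum_comm]
      refine Finset.sum_congr rfl fun p _ => Finset.sum_congr rfl fun q _ => ?_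
      rw [mul_comm]
    have hc3 : ∑ p ∈ PV X D V, ∑ q ∈ A, f (p.1 * q.1) =
        ∑ p ∈ PV X D V, ∑ q ∈ PV X D V, f (p.1 * q.1) +
        ∑ p ∈ PV X D V, ∑ q ∈ A.filter (fun p => ¬ (nm p.1 : ℝ) ≤ V), f (p.1 * q.1) := by
      rw [← Finset.sum_add_distrib]
      exact Finset.sum_congr rfl fun p _ => hsplit _
    rw [hsplit (fun p => ∑ q ∈ A, f (p.1 * q.1)), hc1, hc2, hc3]
    ring
  have b1 : ‖∑ p ∈ PV X D V, ∑ q ∈ A, f (p.1 * q.1)‖ ≤ E := by
    have := h V le_rfl (fun a => if pset a ∈ A.image (fun p => ({p} : Finset PrP)) then (1 : ℂ)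
      else 0) (fun a => by split_ifs <;> simp)
    convert this using 2
    refine Finset.sum_congr rfl fun p _ => ?_
    have h2 := bil_conv_prime hf {p} A hAU
    rw [prd_singleton] at h2
    exact h2.symm
  have b2 : ‖∑ p ∈ PV X D V, ∑ q ∈ PV X D V, f (p.1 * q.1)‖ ≤ E := by
    have := h V le_rfl (fun a => if pset a ∈ (PV X D V).image (fun p => ({p} : Finset PrP)) then
      (1 : ℂ) else 0) (fun a => by split_ifs <;> simp)
    convert this using 2
    refine Finset.sum_congr rfl fun p _ => ?_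
    have h2 := bil_conv_prime hf {p} (PV X D V) hVU
    rw [prd_singleton] at h2
    exact h2.symm
  have e4 : ∑ p ∈ A, ∑ q ∈ A, (if p < q then f (p.1 * q.1) else 0) =
      ∑ p ∈ PV X D V, ∑ q ∈ A, f (p.1 * q.1) -
        (1 / 2) * ∑ p ∈ PV X D V, ∑ q ∈ PV X D V, f (p.1 * q.1) := by
    have : (2 : ℂ) * ∑ p ∈ A, ∑ q ∈ A, (if p < q then f (p.1 * q.1) else 0) =
        2 * (∑ p ∈ PV X D V, ∑ q ∈ A, f (p.1 * q.1) -
        (1 / 2) * ∑ p ∈ PV X D V, ∑ q ∈ PV X D V, f (p.1 * q.1)) := by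
      rw [← e2, e3]; ring
    exact mul_left_cancel₀ (by norm_num) this
  rw [e1, e4, norm_neg]
  refine le_trans (norm_sub_le _ _) ?_
  rw [norm_mul]
  have : ‖(1 / 2 : ℂ)‖ = 1 / 2 := by norm_num
  rw [this]
  linarith

/-! ### Products of two large primes -/

open Classical in
lemma mem_Wset {K : Finset PrP} : K ∈ Wset X w D V ↔
    K ⊆ UX X ∧ K.card = 2 ∧ (∀ p ∈ K, w ≤ (nm p.1 : ℝ)) ∧ Cr PrP.N D K ∧ V < nK K := by
  unfold Wset; rw [Finset.mem_filter, Finset.mem_powerset]

lemma mem_Cset {K : Finset PrP} : K ∈ Cset X D V ↔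
    K ⊆ UX X ∧ K.card = 2 ∧ (∀ p ∈ K, V / D ≤ (nm p.1 : ℝ)) ∧ D ≤ nK K ∧ V * nK K ≤ X := by
  unfold Cset; rw [Finset.mem_filter, Finset.mem_powerset]

lemma Wset_nonempty {K : Finset PrP} (h : K ∈ Wset X w D V) : K.Nonempty := by
  rw [← Finset.card_pos, (mem_Wset.mp h).2.1]; norm_num

open Classical in
/-- For `K ∈ Wset` the complementary variable has one or two primes. -/
lemma Wt_Wset (hf : Supp X f) (hP : Params X w D Y V z) {K : Finset PrP}
    (hK : K ∈ Wset X w D V) :
    Wt X f K = ∑ q ∈ PD X D, (if mn K < q then f (prd K * q.1) else 0) +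
      ∑ q ∈ PA X D, f (prd K * q.1) +
      ∑ J ∈ Cset X D V, (if mn K < mn J then f (prd K * prd J) else 0) := by
  have hD := hP.hD
  have hV := hP.hV
  have hKne := Wset_nonempty hK
  obtain ⟨hKU, hKc, hKw, hCr, hKV⟩ := mem_Wset.mp hK
  obtain ⟨c1, c2, c3, -⟩ := Cr_facts hCr (by omega)
  have hmV : V / D < nm (mn K).1 := by
    have : V / D < nK K / D := by
      have hD0 : 0 < D := by linarith
      gcongr
    linarith
  have hVD0 : 0 < V / D := div_pos hV (by linarith)
  set F : Finset PrP → ℂ := fun J => if (∀ p ∈ J, Ab K p) then f (prd K * prd J) else 0 with hF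
  have e0 : Wt X f K = ∑ J ∈ (UX X).powerset, F J := by
    unfold Wt; rw [Finset.sum_filter]
  have hAbs : ∀ q : PrP, (∀ p ∈ ({q} : Finset PrP), Ab K p) ↔ mn K < q := by
    intro q
    rw [forall_ab_iff hKne (Finset.singleton_nonempty q), mn_singleton]
  -- lower bound for norms of primes in J
  have hJlow : ∀ J : Finset PrP, (∀ p ∈ J, Ab K p) → ∀ p ∈ J, V / D ≤ (nm p.1 : ℝ) := by
    intro J hJ p hp
    have h1 := (ab_iff hKne).mp (hJ p hp)
    have h2 : (nm (mn K).1 : ℝ) ≤ nm p.1 := by exact_mod_cast PrP.nm_le_of_le h1.le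
    linarith
  have hdisj : Disjoint ((UX X).image (fun p => ({p} : Finset PrP))) (Cset X D V) := by
    rw [Finset.disjoint_left]
    intro J hJ hJ'
    rw [Finset.mem_image] at hJ
    obtain ⟨p, -, rfl⟩ := hJ
    have := (mem_Cset.mp hJ').2.1
    rw [Finset.card_singleton] at this
    omega
  have e1 : ∑ J ∈ (UX X).powerset, F J =
      ∑ J ∈ (UX X).image (fun p => ({p} : Finset PrP)), F J + ∑ J ∈ Cset X D V, F J := by
    rw [← Finset.sum_union hdisj]
    symm
    refine Finset.sum_subset ?_ ?_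
    · intro J hJ
      rcases Finset.mem_union.mp hJ with hJ | hJ
      · rw [Finset.mem_image] at hJ
        obtain ⟨p, hp, rfl⟩ := hJ
        rw [Finset.mem_powerset, Finset.singleton_subset_iff]; exact hp
      · rw [Finset.mem_powerset]; exact (mem_Cset.mp hJ).1
    · intro J hJ hJ'
      rw [Finset.mem_powerset] at hJ
      rw [hF]
      simp only
      split_ifs with hA
      · by_contra hne
        have h1 := lt_nK_mul hf hne
        have h2 := nK_mul_le hf hne
        have hlow := hJlow J hA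
        have hpow := pow_card_le_nK hVD0.le J hlow
        have hJX : V * nK J ≤ X := by nlinarith [one_le_nK J]
        have hVVD : (V / D) ^ 3 * V ≥ X := by
          have h3 : (V / D) ^ 3 * V = V ^ 4 / D ^ 3 := by
            field_simp
          rw [h3, ge_iff_le, le_div_iff₀ (by positivity)]
          exact hP.hVD
        have hJne : J.Nonempty := by
          by_contra hc
          rw [Finset.not_nonempty_iff_eq_empty] at hc
          rw [hc, nK_empty, mul_one] at h1
          linarith [hP.hD2]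
        -- one or two primes
        have hVD1 : 1 ≤ V / D := by
          rw [le_div_iff₀ (by linarith)]
          have hD1 : D ^ 2 ≤ D ^ 3 := pow_le_pow_right₀ hD.le (by norm_num)
          have := hP.hDV
          by_contra hc
          push Not at hc
          have : V ^ 2 < D ^ 2 := pow_lt_pow_left₀ (by linarith) hV.le (by norm_num)
          linarith
        have hc3 : J.card < 3 := by
          by_contra hc
          push Not at hc
          have h4 : (V / D) ^ 3 ≤ (V / D) ^ J.card := pow_le_pow_right₀ hVD1 hc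
          have h5 : (V / D) ^ 3 ≤ nK J := h4.trans hpow
          have h6 : V * (V / D) ^ 3 ≤ V * nK J := mul_le_mul_of_nonneg_left h5 hV.le
          have h7 : (X : ℝ) < nK K * nK J := by
            have : V * nK J < nK K * nK J := mul_lt_mul_of_pos_right hKV (nK_pos J)
            linarith
          linarith
        have hpos : 0 < J.card := Finset.card_pos.mpr hJne
        apply hJ'
        rw [Finset.mem_union]
        by_cases hc1 : J.card = 1
        · left
          obtain ⟨p, rfl⟩ := Finset.card_eq_one.mp hc1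
          rw [Finset.mem_image]
          exact ⟨p, hJ (Finset.mem_singleton_self p), rfl⟩
        · right
          have hc2 : J.card = 2 := by omega
          rw [mem_Cset]
          refine ⟨hJ, hc2, hlow, ?_, hJX⟩
          rw [hc2] at hpow
          refine le_trans ?_ hpow
          rw [div_pow, le_div_iff₀ (by positivity)]
          have : D * D ^ 2 = D ^ 3 := by ring
          rw [this]; exact hP.hDV
      · rfl
  have e2 : ∑ J ∈ (UX X).image (fun p => ({p} : Finset PrP)), F J =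
      ∑ q ∈ PD X D, (if mn K < q then f (prd K * q.1) else 0) +
      ∑ q ∈ PA X D, f (prd K * q.1) := by
    rw [Finset.sum_image (fun a _ b _ hab => Finset.singleton_injective hab)]
    rw [← Finset.sum_filter_add_sum_filter_not (UX X) (fun p => (nm p.1 : ℝ) < D)]
    refine congrArg₂ (· + ·) ?_ ?_
    · refine Finset.sum_congr rfl fun q _ => ?_
      simp only [hF, hAbs, prd_singleton]
    · have hset : (UX X).filter (fun p => ¬ (nm p.1 : ℝ) < D) = PA X D := by
        unfold PA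
        refine Finset.filter_congr fun p _ => ?_
        rw [not_lt]
      rw [hset]
      refine Finset.sum_congr rfl fun q hq => ?_
      unfold PA at hq
      rw [Finset.mem_filter] at hq
      have hlt : mn K < q := by
        refine PrP.lt_of_nm_lt ?_
        have := c1 _ (mn_mem hKne)
        exact_mod_cast lt_of_lt_of_le this hq.2
      simp only [hF, hAbs, prd_singleton]
      rw [if_pos hlt]
  have e3 : ∑ J ∈ Cset X D V, F J =
      ∑ J ∈ Cset X D V, (if mn K < mn J then f (prd K * prd J) else 0) := by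
    refine Finset.sum_congr rfl fun J hJ => ?_
    have hJne : J.Nonempty := by
      rw [← Finset.card_pos, (mem_Cset.mp hJ).2.1]; norm_num
    simp only [hF]
    by_cases hlt : mn K < mn J
    · rw [if_pos hlt, if_pos ((forall_ab_iff hKne hJne).mpr hlt)]
    · rw [if_neg hlt, if_neg (fun h => hlt ((forall_ab_iff hKne hJne).mp h))]
  rw [e0, e1, e2, e3]

open Classical in
/-- The part of `Wset` with a complementary prime of norm `≥ D`. -/
lemma W_prime_bound (hf : Supp X f) (hP : Params X w D Y V z) {E : ℝ}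
    (h : ∀ V' : ℝ, V' ≤ V → ∀ α : Eis → ℂ, (∀ a, ‖α a‖ ≤ 1) →
      ‖∑ p ∈ PV X D V', ∑ a ∈ primBall X, α a * f (p.1 * a)‖ ≤ E) :
    ‖∑ K ∈ Wset X w D V, ∑ q ∈ PA X D, f (prd K * q.1)‖ ≤ E := by
  have hV := hP.hV
  have hXV : (X : ℝ) / V ≤ V := by
    rw [div_le_iff₀ hV]
    have := hP.hV2
    nlinarith
  have h1 := h (X / V) hXV (fun a => if pset a ∈ Wset X w D V then (1 : ℂ) else 0)
    (fun a => by split_ifs <;> simp)
  have e1 : ∑ K ∈ Wset X w D V, ∑ q ∈ PA X D, f (prd K * q.1) =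
      ∑ p ∈ PV X D (X / V), ∑ a ∈ primBall X,
        (if pset a ∈ Wset X w D V then (1 : ℂ) else 0) * f (p.1 * a) := by
    rw [Finset.sum_comm]
    have hsub : PV X D (X / V) ⊆ PA X D := by
      intro p hp
      unfold PV at hp
      unfold PA
      rw [Finset.mem_filter] at hp ⊢
      exact ⟨hp.1, hp.2.1⟩
    rw [← Finset.sum_subset hsub]
    · refine Finset.sum_congr rfl fun p _ => ?_
      have h2 := bil_conv hf {p} (Wset X w D V) (Finset.filter_subset _ _) (fun _ => 1)
      rw [prd_singleton] at h2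
      rw [h2]
      refine Finset.sum_congr rfl fun K _ => ?_
      rw [one_mul, mul_comm]
    · intro q hq hq'
      refine Finset.sum_eq_zero fun K hK => f_zero_of_large hf ?_
      have hqX : (X : ℝ) / V < nm q.1 := by
        by_contra hc
        push Not at hc
        apply hq'
        unfold PA at hq
        unfold PV
        rw [Finset.mem_filter] at hq ⊢
        exact ⟨hq.1, hq.2, hc⟩
      have hKV : V < nK K := (mem_Wset.mp hK).2.2.2.2
      rw [div_lt_iff₀ hV] at hqX
      have : (nm (prd K) : ℝ) = nK K := rfl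
      rw [this]
      have hq0 : (0 : ℝ) < nm q.1 := by linarith [one_le_nm q]
      nlinarith
  rw [e1]; exact h1

open Classical in
/-- The part of `Wset` with two complementary primes. -/
lemma W_pair_bound (hf : Supp X f) {S : ℕ} (hS : (UX X).card ≤ 2 ^ S) {E : ℝ}
    (h : ∀ (φ : PrP → ℂ) (α : Eis → ℂ), (∀ p, ‖φ p‖ ≤ 1) → (∀ a, ‖α a‖ ≤ 1) →
      ‖∑ K ∈ Cset X D V, φ (mn K) * ∑ a ∈ primBall X, α a * f (prd K * a)‖ ≤ E) :
    ‖∑ K ∈ Wset X w D V, ∑ J ∈ Cset X D V,
      (if mn K < mn J then f (prd K * prd J) else 0)‖ ≤ S * E := by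
  refine Sep812.sep_bound (UX X) S hS _ _ mn mn
    (fun K hK => (mem_Wset.mp hK).1 (mn_mem (Wset_nonempty hK)))
    (fun J hJ => (mem_Cset.mp hJ).1 (mn_mem (by
      rw [← Finset.card_pos, (mem_Cset.mp hJ).2.1]; norm_num)))
    (fun K J => f (prd K * prd J)) E ?_
  intro φ ψ hφ hψ
  have h1 := h ψ (fun a => if pset a ∈ Wset X w D V then φ (mn (pset a)) else 0) hψ
    (fun a => by split_ifs; exact hφ _; simp)
  convert h1 using 2
  rw [Finset.sum_comm]
  refine Finset.sum_congr rfl fun J _ => ?_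
  have h2 := bil_conv hf J (Wset X w D V) (Finset.filter_subset _ _) (fun K => φ (mn K))
  rw [h2, Finset.mul_sum]
  refine Finset.sum_congr rfl fun K _ => ?_
  rw [mul_comm (prd K)]
  ring

/-! ### Edge triples -/

/-- Symmetrisation over triples: the sum over `p₂ < p₁, p₂ < p₃` is a third of the full sum. -/
lemma sum_symm3 (A : Finset PrP) (g : PrP → PrP → PrP → ℂ)
    (h12 : ∀ p q r, g p q r = g q p r) (h23 : ∀ p q r, g p q r = g p r q)
    (hd : ∀ p r, g p p r = 0) :
    ∑ p ∈ A, ∑ q ∈ A, ∑ r ∈ A, g p q r =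
      3 * ∑ p ∈ A, ∑ q ∈ A, ∑ r ∈ A, (if q < p ∧ q < r then g p q r else 0) := by
  have h13 : ∀ p q r, g p q r = g r q p := fun p q r => by
    rw [h12 p q r, h23 q p r, h12 q r p]
  have hd2 : ∀ p q, g p q q = 0 := fun p q => by rw [h13 p q q]; exact hd q p
  have hd3 : ∀ p q, g p q p = 0 := fun p q => by rw [h23 p q p]; exact hd p q
  have e1 : ∑ p ∈ A, ∑ q ∈ A, ∑ r ∈ A, g p q r =
      ∑ p ∈ A, ∑ q ∈ A, ∑ r ∈ A, (if q < p ∧ q < r then g p q r else 0) +
      ∑ p ∈ A, ∑ q ∈ A, ∑ r ∈ A, (if p < q ∧ p < r then g p q r else 0) +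
      ∑ p ∈ A, ∑ q ∈ A, ∑ r ∈ A, (if r < p ∧ r < q then g p q r else 0) := by
    simp only [← Finset.sum_add_distrib]
    refine Finset.sum_congr rfl fun p _ => Finset.sum_congr rfl fun q _ =>
      Finset.sum_congr rfl fun r _ => ?_
    by_cases hpq : p = q
    · subst hpq; rw [hd]; simp
    by_cases hpr : p = r
    · subst hpr; rw [hd3]; simp
    by_cases hqr : q = r
    · subst hqr; rw [hd2]; simp
    rcases lt_or_gt_of_ne hpq with a1 | a1 <;> rcases lt_or_gt_of_ne hpr with a2 | a2 <;>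
      rcases lt_or_gt_of_ne hqr with a3 | a3
    · rw [if_neg (fun h => absurd h.1 a1.not_gt), if_pos ⟨a1, a2⟩,
        if_neg (fun h => absurd h.1 a2.not_gt)]; simp
    · rw [if_neg (fun h => absurd h.1 a1.not_gt), if_pos ⟨a1, a2⟩,
        if_neg (fun h => absurd h.1 a2.not_gt)]; simp
    · exact absurd (a1.trans a3) a2.not_gt
    · rw [if_neg (fun h => absurd h.1 a1.not_gt), if_neg (fun h => absurd h.2 a2.not_gt),
        if_pos ⟨a2, a3⟩]; simp
    · rw [if_pos ⟨a1, a3⟩, if_neg (fun h => absurd h.1 a1.not_gt),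
        if_neg (fun h => absurd h.1 a2.not_gt)]; simp
    · exact absurd (a3.trans a1) a2.not_gt
    · rw [if_pos ⟨a1, a3⟩, if_neg (fun h => absurd h.1 a1.not_gt),
        if_neg (fun h => absurd h.2 a3.not_gt)]; simp
    · rw [if_neg (fun h => absurd h.2 a3.not_gt), if_neg (fun h => absurd h.1 a1.not_gt),
        if_pos ⟨a2, a3⟩]; simp
  have e2 : ∑ p ∈ A, ∑ q ∈ A, ∑ r ∈ A, (if p < q ∧ p < r then g p q r else 0) =
      ∑ p ∈ A, ∑ q ∈ A, ∑ r ∈ A, (if q < p ∧ q < r then g p q r else 0) := by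
    rw [Finset.sum_comm]
    refine Finset.sum_congr rfl fun p _ => Finset.sum_congr rfl fun q _ =>
      Finset.sum_congr rfl fun r _ => ?_
    rw [h12 p q r]
  have e3 : ∑ p ∈ A, ∑ q ∈ A, ∑ r ∈ A, (if r < p ∧ r < q then g p q r else 0) =
      ∑ p ∈ A, ∑ q ∈ A, ∑ r ∈ A, (if q < p ∧ q < r then g p q r else 0) := by
    refine Finset.sum_congr rfl fun p _ => ?_
    rw [Finset.sum_comm]
    refine Finset.sum_congr rfl fun q _ => Finset.sum_congr rfl fun r _ => ?_
    rw [h23 p q r]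
  rw [e1, e2, e3]; ring

lemma mem_PD {p : PrP} : p ∈ PD X D ↔ p ∈ UX X ∧ (nm p.1 : ℝ) < D := by
  unfold PD; rw [Finset.mem_filter]

open Classical in
/-- sum over pairs = sum over ordered pairs with `q < p` -/
lemma sum_pairs (A : Finset PrP) (F : Finset PrP → ℂ) :
    ∑ K ∈ A.powersetCard 2, F K =
      ∑ p ∈ A, ∑ q ∈ A, if q < p then F {p, q} else 0 := by
  have e1 : ∑ p ∈ A, ∑ q ∈ A, (if q < p then F {p, q} else 0) =
      ∑ x ∈ (A ×ˢ A).filter (fun x => x.2 < x.1), F {x.1, x.2} := by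
    rw [Finset.sum_filter, Finset.sum_product]
  rw [e1]
  symm
  refine Finset.sum_bij (fun x _ => ({x.1, x.2} : Finset PrP)) ?_ ?_ ?_ ?_
  · rintro ⟨p, q⟩ h
    rw [Finset.mem_filter, Finset.mem_product] at h
    rw [Finset.mem_powersetCard]
    refine ⟨?_, Finset.card_pair h.2.ne'⟩
    intro r hr
    rcases Finset.mem_insert.mp hr with hr | hr
    · rw [hr]; exact h.1.1
    · rw [Finset.mem_singleton.mp hr]; exact h.1.2
  · rintro ⟨p, q⟩ h ⟨p', q'⟩ h' heq
    rw [Finset.mem_filter] at h h'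
    simp only at h h' heq
    have hq : q ∈ ({p', q'} : Finset PrP) := by rw [← heq]; simp
    have hp : p ∈ ({p', q'} : Finset PrP) := by rw [← heq]; simp
    have hq' : q' ∈ ({p, q} : Finset PrP) := by rw [heq]; simp
    simp only [Finset.mem_insert, Finset.mem_singleton] at hq hp hq'
    rcases hp with hp | hp
    · subst hp
      rcases hq with hq | hq
      · exact absurd h.2 (by rw [hq]; exact lt_irrefl _)
      · rw [hq]
    · subst hp
      rcases hq with hq | hq
      · subst hq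
        exact absurd (h.2.trans h'.2) (lt_irrefl _)
      · exact absurd h.2 (by rw [hq]; exact lt_irrefl _)
  · intro K hK
    rw [Finset.mem_powersetCard] at hK
    obtain ⟨a, b, hab, rfl⟩ := Finset.card_eq_two.mp hK.2
    have ha : a ∈ A := hK.1 (by simp)
    have hb : b ∈ A := hK.1 (by simp)
    rcases lt_or_gt_of_ne hab with h | h
    · exact ⟨(b, a), by simp [ha, hb, h], by simp [Finset.pair_comm]⟩
    · exact ⟨(a, b), by simp [ha, hb, h], rfl⟩
  · rintro ⟨p, q⟩ _; rfl

open Classical in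
/-- The edge part of `Wset`. -/
lemma edge_eq (hf : Supp X f) (hP : Params X w D Y V z) :
    ∑ K ∈ Wset X w D V, ∑ q ∈ PD X D, (if mn K < q then f (prd K * q.1) else 0) =
      (1 / 3) * ∑ p ∈ PD X D, ∑ q ∈ PD X D, ∑ r ∈ PD X D, f (p.1 * q.1 * r.1) := by
  have hD := hP.hD
  have hD0 : 0 < D := by linarith
  have hsub : Wset X w D V ⊆ (PD X D).powersetCard 2 := by
    intro K hK
    obtain ⟨hKU, hKc, hKw, hCr, hKV⟩ := mem_Wset.mp hK
    rw [Finset.mem_powersetCard]
    refine ⟨fun p hp => mem_PD.mpr ⟨hKU hp, (Cr_facts hCr (by omega)).1 p hp⟩, hKc⟩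
  have e1 : ∑ K ∈ Wset X w D V, ∑ q ∈ PD X D, (if mn K < q then f (prd K * q.1) else 0) =
      ∑ K ∈ (PD X D).powersetCard 2,
        ∑ q ∈ PD X D, (if mn K < q then f (prd K * q.1) else 0) := by
    refine Finset.sum_subset hsub ?_
    intro K hK hK'
    refine Finset.sum_eq_zero fun q hq => ?_
    split_ifs with hlt
    · by_contra hne
      apply hK'
      rw [Finset.mem_powersetCard] at hK
      have hq' := mem_PD.mp hq
      have hne2 : f (prd K * prd {q}) ≠ 0 := by rwa [prd_singleton]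
      have h1 := lt_nK_mul hf hne2
      rw [nK_singleton] at h1
      have hKne : K.Nonempty := by rw [← Finset.card_pos, hK.2]; norm_num
      have hq0 := one_le_nm q
      have hK0 := nK_pos K
      have h2 : nK K * nm q.1 ≤ nK K * D := mul_le_mul_of_nonneg_left hq'.2.le hK0.le
      have h3 : (X : ℝ) < 2 * (nK K * D) := by linarith
      rw [mem_Wset]
      refine ⟨fun p hp => (mem_PD.mp (hK.1 hp)).1, hK.2, ?_, ?_, ?_⟩
      · intro p hp
        have her := nK_erase hp
        have hcard : (K.erase p).card = 1 := by rw [Finset.card_erase_of_mem hp, hK.2]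
        obtain ⟨r, hr⟩ := Finset.card_eq_one.mp hcard
        have hrK : r ∈ K := Finset.mem_of_mem_erase (by rw [hr]; exact Finset.mem_singleton_self r)
        rw [hr, nK_singleton] at her
        have hrD := (mem_PD.mp (hK.1 hrK)).2
        have hp0 := one_le_nm p
        have h4 : nK K ≤ nm p.1 * D := by rw [← her]; exact mul_le_mul_of_nonneg_left hrD.le (by linarith)
        by_contra hc
        push Not at hc
        have h5 : (X : ℝ) < 2 * ((nm p.1 * D) * D) := by nlinarith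
        have h6 : (nm p.1 : ℝ) * (2 * D ^ 2) ≤ w * (2 * D ^ 2) :=
          mul_le_mul_of_nonneg_right hc.le (by positivity)
        have h7 : 2 * ((nm p.1 * D) * D) = (nm p.1 : ℝ) * (2 * D ^ 2) := by ring
        linarith [hP.hwX]
      · rw [Cr_iff]
        refine ⟨hKne, ?_, ?_⟩
        · have hcard : (K.erase (mn K)).card = 1 := by
            rw [Finset.card_erase_of_mem (mn_mem hKne), hK.2]
          obtain ⟨r, hr⟩ := Finset.card_eq_one.mp hcard
          have hrK : r ∈ K :=
            Finset.mem_of_mem_erase (by rw [hr]; exact Finset.mem_singleton_self r)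
          rw [hr, nK_singleton]
          exact (mem_PD.mp (hK.1 hrK)).2
        · have := hP.hD2
          by_contra hc
          push Not at hc
          nlinarith
      · have := hP.hDV2
        by_contra hc
        push Not at hc
        nlinarith
    · rfl
  rw [e1, sum_pairs]
  have e2 := sum_symm3 (PD X D) (fun p q r => f (p.1 * q.1 * r.1))
    (fun p q r => by rw [mul_comm p.1 q.1]) (fun p q r => by
      show f (p.1 * q.1 * r.1) = f (p.1 * r.1 * q.1)
      congr 1; ring)
    (fun p r => by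
      by_contra hc
      have := hf.sq _ hc
      exact p.prime.not_isUnit (this _ (Dvd.intro _ rfl)))
  rw [e2, ← mul_assoc]
  have h13 : (1 / 3 : ℂ) * 3 = 1 := by norm_num
  rw [h13, one_mul]
  refine Finset.sum_congr rfl fun p _ => Finset.sum_congr rfl fun q _ => ?_
  split_ifs with hqp
  · have hmn : mn ({p, q} : Finset PrP) = q := by
      have h1 : mn ({p, q} : Finset PrP) ≤ q := mn_le (by simp)
      have h2 := mn_mem (K := ({p, q} : Finset PrP)) ⟨p, by simp⟩
      rcases Finset.mem_insert.mp h2 with h3 | h3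
      · exact absurd (h3 ▸ h1) (not_le.mpr hqp)
      · exact Finset.mem_singleton.mp h3
    have hprd : prd ({p, q} : Finset PrP) = p.1 * q.1 := by
      rw [prd_insert (by rw [Finset.mem_singleton]; exact hqp.ne'), prd_singleton]
    rw [hmn, hprd]
    refine Finset.sum_congr rfl fun r _ => ?_
    by_cases hr : q < r
    · rw [if_pos hr, if_pos ⟨hqp, hr⟩]
    · rw [if_neg hr, if_neg (fun h => hr h.2)]
  · symm
    refine Finset.sum_eq_zero fun r _ => if_neg (fun h => hqp h.1)

open Classical in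
/-- **Abstract sieve theorem** (fixed `X`, explicit parameters). -/
theorem sieve_bound (hf : Supp X f) (hP : Params X w D Y V z) {S : ℕ}
    (hS : (UX X).card ≤ 2 ^ S) {E1 E2 E3 E4 E5 E6 : ℝ}
    (hTI : ∑ k ∈ (primBall X).filter (fun k => Squarefree k ∧ (nm k : ℝ) < Y),
      ‖∑ n ∈ (primBall X).filter (fun n => k ∣ n), f n‖ ≤ E1)
    (hPr : ∀ V' : ℝ, V' ≤ V → ∀ α : Eis → ℂ, (∀ a, ‖α a‖ ≤ 1) →
      ‖∑ p ∈ PV X D V', ∑ a ∈ primBall X, α a * f (p.1 * a)‖ ≤ E2)
    (hR : ∀ (φ : PrP → ℂ) (α : Eis → ℂ), (∀ p, ‖φ p‖ ≤ 1) → (∀ a, ‖α a‖ ≤ 1) →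
      ‖∑ K ∈ Rset X w D V, (-1 : ℂ) ^ K.card * φ (mn K) *
        ∑ a ∈ primBall X, α a * f (prd K * a)‖ ≤ E3)
    (hC : ∀ (φ : PrP → ℂ) (α : Eis → ℂ), (∀ p, ‖φ p‖ ≤ 1) → (∀ a, ‖α a‖ ≤ 1) →
      ‖∑ K ∈ Cset X D V, φ (mn K) * ∑ a ∈ primBall X, α a * f (prd K * a)‖ ≤ E4)
    (hL : ∀ (φ : PrP → ℂ) (α : Eis → ℂ), (∀ p, ‖φ p‖ ≤ 1) → (∀ a, ‖α a‖ ≤ 1) →
      ‖∑ K ∈ Lset X w z D Y, (-1 : ℂ) ^ K.card * φ (mn K) *
        ∑ a ∈ primBall X, α a * f (prd K * a)‖ ≤ E5)
    (hE : ‖∑ p ∈ PD X D, ∑ q ∈ PD X D, ∑ r ∈ PD X D, f (p.1 * q.1 * r.1)‖ ≤ E6) :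
    ‖∑ p ∈ (UX X).filter (fun p => z ≤ (nm p.1 : ℝ)), f p.1‖ ≤
      E1 + 5 / 2 * E2 + S * (E3 + E4 + E5) + 1 / 3 * E6 := by
  have hz0 : 0 ≤ z := by linarith [hP.hD, hP.hDz]
  rw [exact hf hP.hX (hP.hwD.trans hP.hDz) hz0 hP.hz hP.hD hP.hDY, Bset_split hP]
  have h1 := TI_bound hP hTI
  have h2 := L_bound hf hP hS hL
  have h3 := R_bound hf hP hS hR
  have h4 := single_bound hf hP hPr
  have h5 : ∑ K ∈ Wset X w D V, (-1 : ℂ) ^ K.card * Wt X f K =
      ∑ K ∈ Wset X w D V, ∑ q ∈ PD X D, (if mn K < q then f (prd K * q.1) else 0) +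
      ∑ K ∈ Wset X w D V, ∑ q ∈ PA X D, f (prd K * q.1) +
      ∑ K ∈ Wset X w D V, ∑ J ∈ Cset X D V, (if mn K < mn J then f (prd K * prd J) else 0) := by
    rw [← Finset.sum_add_distrib, ← Finset.sum_add_distrib]
    refine Finset.sum_congr rfl fun K hK => ?_
    rw [(mem_Wset.mp hK).2.1, Wt_Wset hf hP hK]
    norm_num
  have h6 : ‖∑ K ∈ Wset X w D V, ∑ q ∈ PD X D, (if mn K < q then f (prd K * q.1) else 0)‖ ≤
      1 / 3 * E6 := by
    rw [edge_eq hf hP, norm_mul]
    have : ‖(1 / 3 : ℂ)‖ = 1 / 3 := by norm_num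
    rw [this]
    exact mul_le_mul_of_nonneg_left hE (by norm_num)
  have h7 := W_prime_bound hf hP hPr
  have h8 := W_pair_bound (w := w) hf hS hC
  rw [h5]
  refine le_trans (norm_add_le _ _) ?_
  refine le_trans (add_le_add (norm_add_le _ _) (norm_add_le _ _)) ?_
  have h9 := norm_add_le (∑ K ∈ Wset X w D V, ∑ q ∈ PD X D,
      (if mn K < q then f (prd K * q.1) else 0) + ∑ K ∈ Wset X w D V, ∑ q ∈ PA X D,
        f (prd K * q.1)) (∑ K ∈ Wset X w D V, ∑ J ∈ Cset X D V,
          (if mn K < mn J then f (prd K * prd J) else 0))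
  have h10 := norm_add_le (∑ K ∈ Wset X w D V, ∑ q ∈ PD X D,
      (if mn K < q then f (prd K * q.1) else 0)) (∑ K ∈ Wset X w D V, ∑ q ∈ PA X D,
        f (prd K * q.1))
  have h11 := norm_add_le (∑ p ∈ (UX X).filter (fun p => D ≤ (nm p.1 : ℝ) ∧ (nm p.1 : ℝ) < z),
      (-1 : ℂ) ^ ({p} : Finset PrP).card * Wt X f {p})
      (∑ K ∈ Rset X w D V, (-1 : ℂ) ^ K.card * Wt X f K)
  linarith

end Crest.Agent.R012.Sieve812
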