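import Crest.Agent.R012.SieveC_812
import Crest.Agent.R012.SpecMain_48

/-!
# Row 12: the parameters of the sieve theorem for large `X`
-/

set_option autoImplicit false

noncomputable section

namespace Crest.Agent.R012.Sieve812

open Finset Eis Buch420 Main48

lemma supp_FX (l : ℤ) (X : ℕ) : Supp X (FX l X) := by
  classical
  refine ⟨fun n hn => ?_, fun n hn => ?_, fun n hn => ?_⟩
  · unfold FX at hn
    split_ifs at hn with h
    · unfold Fl at hn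
      split_ifs at hn with h2
      · exact h2
      · exact absurd rfl hn
    · exact absurd rfl hn
  · unfold FX at hn
    split_ifs at hn with h
    · exact h.2
    · exact absurd rfl hn
  · unfold FX at hn
    split_ifs at hn with h
    · exact h.1
    · exact absurd rfl hn

/-- The parameters are admissible as soon as `L^C`, `wX`, `2` are at most `X^ε`. -/
lemma params_of {X : ℕ} {C η ε : ℝ} (hC : 1 ≤ C) (hη : 0 < η) (hη1 : η ≤ 1 / 100)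
    (hε : ε = η / 4) (hX : 16 ≤ X) (hL : 1 < LX X) (h1 : LX X ^ C ≤ (X : ℝ) ^ ε)
    (h2 : wX X ≤ (X : ℝ) ^ ε) (h3 : 2 ≤ (X : ℝ) ^ ε) :
    Params X (wX X) ((X : ℝ) ^ ((1 : ℝ) / 3) * LX X ^ C) ((X : ℝ) ^ ((2 : ℝ) / 5))
      ((X : ℝ) ^ (1 / 2 + η)) (Real.sqrt X + 1) := by
  have hX1 : (1 : ℝ) ≤ X := by exact_mod_cast (by omega : 1 ≤ X)
  have hX16 : (16 : ℝ) ≤ X := by exact_mod_cast hX
  have hX0 : (0 : ℝ) < X := by linarith
  have hεp : 0 < ε := by rw [hε]; positivity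
  have hε2 : ε ≤ 1 / 400 := by rw [hε]; linarith
  have hLC1 : 1 < LX X ^ C := Real.one_lt_rpow hL (by linarith)
  have hLC0 : 0 < LX X ^ C := by linarith
  set D := (X : ℝ) ^ ((1 : ℝ) / 3) * LX X ^ C with hD
  have hpow1 : ∀ a : ℝ, 0 ≤ a → 1 ≤ (X : ℝ) ^ a := fun a ha => Real.one_le_rpow hX1 ha
  have hX3 : 1 ≤ (X : ℝ) ^ ((1 : ℝ) / 3) := hpow1 _ (by norm_num)
  have hD1 : 1 < D := by rw [hD]; nlinarith
  have hD0 : 0 < D := by linarith
  have hDle : D ≤ (X : ℝ) ^ (1 / 3 + ε) := by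
    rw [hD, Real.rpow_add hX0]
    exact mul_le_mul_of_nonneg_left h1 (by positivity)
  have hDge : (X : ℝ) ^ ((1 : ℝ) / 3) ≤ D := by rw [hD]; nlinarith
  have hw0 : 0 ≤ wX X := (Real.exp_pos _).le
  have mono : ∀ a b : ℝ, a ≤ b → (X : ℝ) ^ a ≤ (X : ℝ) ^ b := fun a b hab =>
    Real.rpow_le_rpow_of_exponent_le hX1 hab
  have hXone : (X : ℝ) = (X : ℝ) ^ (1 : ℝ) := (Real.rpow_one _).symm
  have hsqrt : Real.sqrt X = (X : ℝ) ^ ((1 : ℝ) / 2) := Real.sqrt_eq_rpow _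
  have hsq4 : 4 ≤ Real.sqrt X := by
    have : Real.sqrt 16 = 4 := by
      rw [show (16 : ℝ) = 4 ^ 2 by norm_num]; exact Real.sqrt_sq (by norm_num)
    rw [← this]; exact Real.sqrt_le_sqrt hX16
  have hsqX : Real.sqrt X ^ 2 = X := Real.sq_sqrt hX0.le
  -- D^2, D^3
  have hD3 : D ^ 3 = X * (LX X ^ C) ^ 3 := by
    rw [hD, mul_pow, ← Real.rpow_natCast ((X : ℝ) ^ ((1 : ℝ) / 3)) 3, ← Real.rpow_mul hX0.le]
    norm_num
  have hD2le : D ^ 2 ≤ (X : ℝ) ^ (2 / 3 + 2 * ε) := by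
    have : (X : ℝ) ^ (2 / 3 + 2 * ε) = ((X : ℝ) ^ (1 / 3 + ε)) ^ 2 := by
      rw [← Real.rpow_natCast, ← Real.rpow_mul hX0.le]; congr 1; push_cast; ring
    rw [this]
    exact pow_le_pow_left₀ hD0.le hDle 2
  have hD3le : D ^ 3 ≤ (X : ℝ) ^ (1 + 3 * ε) := by
    have : (X : ℝ) ^ (1 + 3 * ε) = ((X : ℝ) ^ (1 / 3 + ε)) ^ 3 := by
      rw [← Real.rpow_natCast, ← Real.rpow_mul hX0.le]; congr 1; push_cast; ring
    rw [this]
    exact pow_le_pow_left₀ hD0.le hDle 3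
  have hVsq : ((X : ℝ) ^ (1 / 2 + η)) ^ 2 = (X : ℝ) ^ (1 + 2 * η) := by
    rw [← Real.rpow_natCast, ← Real.rpow_mul hX0.le]; congr 1; push_cast; ring
  have hV4 : ((X : ℝ) ^ (1 / 2 + η)) ^ 4 = (X : ℝ) ^ (2 + 4 * η) := by
    rw [← Real.rpow_natCast, ← Real.rpow_mul hX0.le]; congr 1; push_cast; ring
  refine
    { hX := by omega
      hw := hw0
      hV := by positivity
      hD := hD1
      hwD := ?_
      hDY := ?_
      hYX := ?_
      hDz := ?_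
      hz := ?_
      hz2 := ?_
      hD3 := ?_
      hD2 := ?_
      hDV2 := ?_
      hwX := ?_
      hYw := ?_
      hV2 := ?_
      hDV := ?_
      hVD := ?_ }
  · exact h2.trans ((mono _ _ (by linarith)).trans hDge)
  · exact hDle.trans (mono _ _ (by linarith))
  · calc (X : ℝ) ^ ((2 : ℝ) / 5) ≤ (X : ℝ) ^ (1 : ℝ) := mono _ _ (by norm_num)
      _ = X := Real.rpow_one _
  · have : D ≤ Real.sqrt X := by rw [hsqrt]; exact hDle.trans (mono _ _ (by linarith))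
    linarith
  · nlinarith
  · nlinarith
  · rw [hD3]
    have : 1 < (LX X ^ C) ^ 3 := one_lt_pow₀ hLC1 (by norm_num)
    nlinarith
  · calc 2 * D ^ 2 ≤ (X : ℝ) ^ ε * (X : ℝ) ^ (2 / 3 + 2 * ε) :=
          mul_le_mul h3 hD2le (by positivity) (by positivity)
      _ = (X : ℝ) ^ (ε + (2 / 3 + 2 * ε)) := (Real.rpow_add hX0 _ _).symm
      _ ≤ (X : ℝ) ^ (1 : ℝ) := mono _ _ (by linarith)
      _ = X := Real.rpow_one _
  · calc 2 * (D * (X : ℝ) ^ (1 / 2 + η)) ≤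
          (X : ℝ) ^ ε * ((X : ℝ) ^ (1 / 3 + ε) * (X : ℝ) ^ (1 / 2 + η)) := by gcongr
      _ = (X : ℝ) ^ (ε + (1 / 3 + ε + (1 / 2 + η))) := by
          rw [Real.rpow_add hX0 ε, Real.rpow_add hX0 (1 / 3 + ε)]
      _ ≤ (X : ℝ) ^ (1 : ℝ) := mono _ _ (by linarith)
      _ = X := Real.rpow_one _
  · calc wX X * (2 * D ^ 2) ≤
          (X : ℝ) ^ ε * ((X : ℝ) ^ ε * (X : ℝ) ^ (2 / 3 + 2 * ε)) := by gcongr
      _ = (X : ℝ) ^ (ε + (ε + (2 / 3 + 2 * ε))) := by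
          rw [Real.rpow_add hX0 ε, Real.rpow_add hX0 ε]
      _ ≤ (X : ℝ) ^ (1 : ℝ) := mono _ _ (by linarith)
      _ = X := Real.rpow_one _
  · calc 2 * ((X : ℝ) ^ ((2 : ℝ) / 5) * wX X) ≤
          (X : ℝ) ^ ε * ((X : ℝ) ^ ((2 : ℝ) / 5) * (X : ℝ) ^ ε) := by gcongr
      _ = (X : ℝ) ^ (ε + (2 / 5 + ε)) := by
          rw [Real.rpow_add hX0 ε, Real.rpow_add hX0 (2 / 5)]
      _ ≤ (X : ℝ) ^ (1 : ℝ) := mono _ _ (by linarith)
      _ = X := Real.rpow_one _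
  · rw [hVsq]
    calc (X : ℝ) = (X : ℝ) ^ (1 : ℝ) := (Real.rpow_one _).symm
      _ ≤ _ := mono _ _ (by linarith)
  · rw [hVsq]
    exact hD3le.trans (mono _ _ (by rw [hε]; linarith))
  · rw [hV4]
    calc (X : ℝ) * D ^ 3 ≤ (X : ℝ) ^ (1 : ℝ) * (X : ℝ) ^ (1 + 3 * ε) := by
          rw [Real.rpow_one]; exact mul_le_mul_of_nonneg_left hD3le hX0.le
      _ = (X : ℝ) ^ (1 + (1 + 3 * ε)) := (Real.rpow_add hX0 _ _).symm
      _ ≤ _ := mono _ _ (by rw [hε]; linarith)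

open Filter Topology in
lemma tendsto_LX : Tendsto LX atTop atTop :=
  Real.tendsto_log_atTop.comp tendsto_natCast_atTop_atTop

open Filter Topology Asymptotics in
lemma eventually_LX_le (C ε : ℝ) (hε : 0 < ε) : ∀ᶠ X : ℕ in atTop, LX X ^ C ≤ (X : ℝ) ^ ε := by
  have h := (isLittleO_log_rpow_rpow_atTop C hε).bound (c := 1) one_pos
  have h2 := tendsto_natCast_atTop_atTop (R := ℝ) |>.eventually h
  filter_upwards [h2, tendsto_LX.eventually_ge_atTop 0] with X hX hL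
  have hL' : 0 ≤ Real.log X := hL
  rw [one_mul, Real.norm_of_nonneg (Real.rpow_nonneg hL' C),
    Real.norm_of_nonneg (by positivity)] at hX
  exact hX

open Filter Topology in
lemma eventually_wX_le (ε : ℝ) (hε : 0 < ε) : ∀ᶠ X : ℕ in atTop, wX X ≤ (X : ℝ) ^ ε := by
  have h := (tendsto_rpow_atTop (y := (1 : ℝ) / 3) (by norm_num)).comp tendsto_LX
  filter_upwards [h.eventually_ge_atTop (1 / ε), tendsto_LX.eventually_ge_atTop 1,
    eventually_ge_atTop 1] with X hX hL hX1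
  have hX0 : (0 : ℝ) < X := by exact_mod_cast hX1
  have hL0 : 0 < LX X := by linarith
  have e2 : LX X = LX X ^ ((1 : ℝ) / 3) * LX X ^ ((2 : ℝ) / 3) := by
    rw [← Real.rpow_add hL0]; norm_num
  have hX' : 1 / ε ≤ LX X ^ ((1 : ℝ) / 3) := hX
  have h3 : 1 ≤ ε * LX X ^ ((1 : ℝ) / 3) := by
    rw [div_le_iff₀ hε] at hX'; linarith
  have h4 : 0 ≤ LX X ^ ((2 : ℝ) / 3) := by positivity
  have h5 : LX X ^ ((2 : ℝ) / 3) ≤ LX X * ε := by
    calc LX X ^ ((2 : ℝ) / 3) ≤ (ε * LX X ^ ((1 : ℝ) / 3)) * LX X ^ ((2 : ℝ) / 3) :=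
          le_mul_of_one_le_left h4 h3
      _ = (LX X ^ ((1 : ℝ) / 3) * LX X ^ ((2 : ℝ) / 3)) * ε := by ring
      _ = LX X * ε := by rw [← e2]
  unfold wX
  rw [Real.rpow_def_of_pos hX0]
  exact Real.exp_le_exp.mpr h5

open Filter Topology in
lemma eventually_two_le (ε : ℝ) (hε : 0 < ε) : ∀ᶠ X : ℕ in atTop, 2 ≤ (X : ℝ) ^ ε :=
  ((tendsto_rpow_atTop hε).comp tendsto_natCast_atTop_atTop).eventually_ge_atTop 2

open Filter Topology in
theorem eventually_params {C η : ℝ} (hC : 1 ≤ C) (hη : 0 < η) (hη1 : η ≤ 1 / 100) :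
    ∀ᶠ X : ℕ in atTop,
      Params X (wX X) ((X : ℝ) ^ ((1 : ℝ) / 3) * LX X ^ C) ((X : ℝ) ^ ((2 : ℝ) / 5))
        ((X : ℝ) ^ (1 / 2 + η)) (Real.sqrt X + 1) := by
  have hε : 0 < η / 4 := by positivity
  filter_upwards [eventually_LX_le C (η / 4) hε, eventually_wX_le (η / 4) hε,
    eventually_two_le (η / 4) hε, eventually_ge_atTop 16, tendsto_LX.eventually_gt_atTop 1]
    with X h1 h2 h3 h4 h5
  exact params_of hC hη hη1 rfl h4 h5 h1 h2 h3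

end Crest.Agent.R012.Sieve812
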