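import Crest.Agent.R012.SievePar_812
import Crest.Agent.R012.Dens_420

/-!
# Row 12: the type I hypothesis of the sieve theorem from `Main48.TI_Prop`
-/

set_option autoImplicit false

noncomputable section

namespace Crest.Agent.R012.Sieve812

open Finset Eis Buch420 Main48

open Classical in
lemma sum_multiples (X : ℕ) {k : Eis} (hk : IsPrim k) (g : Eis → ℂ) :
    ∑ n ∈ (primBall X).filter (fun n => k ∣ n), g n =
      ∑ m ∈ (primBall X).filter (fun m => nm (k * m) ≤ X), g (k * m) := by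
  symm
  refine Finset.sum_bij (fun m _ => k * m) ?_ ?_ ?_ ?_
  · intro m hm
    rw [Finset.mem_filter, mem_primBall] at hm
    rw [Finset.mem_filter, mem_primBall]
    exact ⟨⟨hm.2, hk.mul hm.1.2⟩, dvd_mul_right _ _⟩
  · intro a _ b _ hab
    exact mul_left_cancel₀ hk.ne_zero hab
  · intro n hn
    rw [Finset.mem_filter, mem_primBall] at hn
    obtain ⟨⟨h1, h2⟩, m, rfl⟩ := hn
    refine ⟨m, ?_, rfl⟩
    rw [Finset.mem_filter, mem_primBall]
    have hm : IsPrim m := IsPrim.of_mul_left h2 hk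
    refine ⟨⟨?_, hm⟩, h1⟩
    exact (nm_le_of_dvd' h2.ne_zero (dvd_mul_left _ _)).trans h1
  · intro m _; rfl

open Classical in
lemma sum_FX_multiples (l : ℤ) (X : ℕ) {k : Eis} (hk : IsPrim k) :
    ∑ n ∈ (primBall X).filter (fun n => k ∣ n), FX l X n =
      ∑ m ∈ (primBall X).filter (fun m => nm (k * m) ≤ X), Fl l (k * m) -
      ∑ m ∈ (primBall X).filter (fun m => nm (k * m) ≤ X / 2), Fl l (k * m) := by
  rw [sum_multiples X hk]
  have h1 : ∑ m ∈ (primBall X).filter (fun m => nm (k * m) ≤ X / 2), Fl l (k * m) =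
      ∑ m ∈ (primBall X).filter (fun m => nm (k * m) ≤ X),
        if nm (k * m) ≤ X / 2 then Fl l (k * m) else 0 := by
    rw [← Finset.sum_filter]
    refine Finset.sum_congr ?_ fun _ _ => rfl
    ext m
    rw [Finset.mem_filter, Finset.mem_filter, Finset.mem_filter]
    constructor
    · rintro ⟨h1, h2⟩; exact ⟨⟨h1, by omega⟩, h2⟩
    · rintro ⟨⟨h1, h2⟩, h3⟩; exact ⟨h1, h3⟩
  rw [h1, ← Finset.sum_sub_distrib]
  refine Finset.sum_congr rfl fun m hm => ?_
  rw [Finset.mem_filter] at hm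
  unfold FX
  by_cases h2 : nm (k * m) ≤ X / 2
  · rw [if_pos h2, if_neg (by rintro ⟨h3, -⟩; omega), sub_self]
  · rw [if_neg h2, if_pos ⟨by omega, hm.2⟩, sub_zero]

open Classical in
theorem TI_use (h : TI_Prop) (l : ℤ) : ∃ δ C : ℝ, 0 < δ ∧ 0 < C ∧ ∀ X : ℕ, 2 ≤ X →
    ∑ k ∈ (primBall X).filter (fun k => Squarefree k ∧ (nm k : ℝ) < (X : ℝ) ^ ((2 : ℝ) / 5)),
      ‖∑ n ∈ (primBall X).filter (fun n => k ∣ n), FX l X n‖ ≤
        C * (X : ℝ) ^ (5 / 6 - δ) := by
  obtain ⟨δ, C, hδ, hC, hh⟩ := h l (1 / 5) (by norm_num)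
  refine ⟨δ, 2 * C, hδ, by positivity, fun X hX => ?_⟩
  have hX1 : (1 : ℝ) ≤ X := by exact_mod_cast (by omega : 1 ≤ X)
  have hsub : (primBall X).filter
      (fun k => Squarefree k ∧ (nm k : ℝ) < (X : ℝ) ^ ((2 : ℝ) / 5)) ⊆
      (primBall X).filter (fun d => Squarefree d ∧ (nm d : ℝ) ≤ (X : ℝ) ^ (2 / 3 - (1 : ℝ) / 5)) := by
    intro k hk
    rw [Finset.mem_filter] at hk ⊢
    refine ⟨hk.1, hk.2.1, hk.2.2.le.trans ?_⟩
    exact Real.rpow_le_rpow_of_exponent_le hX1 (by norm_num)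
  have h1 := hh X hX (fun _ => X) (fun _ => le_rfl)
  have h2 := hh X hX (fun _ => X / 2) (fun _ => Nat.div_le_self _ _)
  calc ∑ k ∈ (primBall X).filter
        (fun k => Squarefree k ∧ (nm k : ℝ) < (X : ℝ) ^ ((2 : ℝ) / 5)),
        ‖∑ n ∈ (primBall X).filter (fun n => k ∣ n), FX l X n‖
      ≤ ∑ k ∈ (primBall X).filter
        (fun k => Squarefree k ∧ (nm k : ℝ) < (X : ℝ) ^ ((2 : ℝ) / 5)),
        (‖∑ m ∈ (primBall X).filter (fun m => nm (k * m) ≤ X), Fl l (k * m)‖ +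
          ‖∑ m ∈ (primBall X).filter (fun m => nm (k * m) ≤ X / 2), Fl l (k * m)‖) := by
        refine Finset.sum_le_sum fun k hk => ?_
        rw [Finset.mem_filter, mem_primBall] at hk
        rw [sum_FX_multiples l X hk.1.2]
        exact norm_sub_le _ _
    _ ≤ ∑ k ∈ (primBall X).filter
        (fun d => Squarefree d ∧ (nm d : ℝ) ≤ (X : ℝ) ^ (2 / 3 - (1 : ℝ) / 5)),
        (‖∑ m ∈ (primBall X).filter (fun m => nm (k * m) ≤ X), Fl l (k * m)‖ +
          ‖∑ m ∈ (primBall X).filter (fun m => nm (k * m) ≤ X / 2), Fl l (k * m)‖) :=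
        Finset.sum_le_sum_of_subset_of_nonneg hsub fun _ _ _ => by positivity
    _ ≤ C * (X : ℝ) ^ (5 / 6 - δ) + C * (X : ℝ) ^ (5 / 6 - δ) := by
        rw [Finset.sum_add_distrib]
        exact add_le_add h1 h2
    _ = 2 * C * (X : ℝ) ^ (5 / 6 - δ) := by ring

/-! ### the number of primes -/

/-- `S(X)` with `#(UX X) ≤ 2^S(X)`. -/
def SX (X : ℕ) : ℕ := Nat.clog 2 (12 * X)

lemma card_UX_le {X : ℕ} (hX : 1 ≤ X) : (UX X).card ≤ 2 ^ SX X := by
  classical
  have h1 : (UX X).card ≤ (ball X).card := by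
    have h2 : ((UX X).image (fun p => p.1)).card = (UX X).card :=
      Finset.card_image_of_injective _ Subtype.val_injective
    rw [← h2]
    refine Finset.card_le_card fun z hz => ?_
    rw [Finset.mem_image] at hz
    obtain ⟨p, hp, rfl⟩ := hz
    rw [mem_ball]; exact mem_UX.mp hp
  have h3 : ((ball X).card : ℝ) ≤ 12 * X :=
    Dens420.card_nm_le (by exact_mod_cast hX) (ball X) (fun z hz => by exact_mod_cast mem_ball.mp hz)
  have h4 : (ball X).card ≤ 12 * X := by exact_mod_cast h3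
  exact (h1.trans h4).trans (Nat.le_pow_clog (by norm_num) _)

lemma SX_le {X : ℕ} (hX : 12 ≤ X) : (SX X : ℝ) ≤ 5 * LX X := by
  have hX0 : (0 : ℝ) < X := by exact_mod_cast (by omega : 0 < X)
  have h1 : 1 < 12 * X := by omega
  have hS : 0 < SX X := Nat.clog_pos (by norm_num) h1
  have h2 : 2 ^ (SX X - 1) < 12 * X := Nat.pow_pred_clog_lt_self (by norm_num) h1
  have h3 : ((2 : ℝ)) ^ (SX X - 1) < 12 * X := by exact_mod_cast h2
  have h4 : ((SX X - 1 : ℕ) : ℝ) * Real.log 2 < Real.log (12 * X) := by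
    rw [← Real.log_pow]
    exact Real.log_lt_log (by positivity) h3
  have h5 : Real.log (12 * X) ≤ 2 * LX X := by
    rw [Real.log_mul (by norm_num) hX0.ne']
    have : Real.log 12 ≤ Real.log X := Real.log_le_log (by norm_num) (by exact_mod_cast hX)
    unfold LX; linarith
  have h6 : ((SX X - 1 : ℕ) : ℝ) = SX X - 1 := by
    rw [Nat.cast_sub hS]; norm_num
  rw [h6] at h4
  have h7 := Real.log_two_gt_d9
  have h8 : 2 ≤ LX X := by
    have h9 : Real.log 12 ≤ LX X := Real.log_le_log (by norm_num) (by exact_mod_cast hX)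
    have h10 : Real.log 12 = 2 * Real.log 2 + Real.log 3 := by
      rw [show (12 : ℝ) = 2 ^ 2 * 3 by norm_num, Real.log_mul (by norm_num) (by norm_num),
        Real.log_pow]; norm_num
    have h11 : 1 < Real.log 3 := by
      rw [Real.lt_log_iff_exp_lt (by norm_num)]
      have := Real.exp_one_lt_d9
      linarith
    linarith
  have h12 : (SX X : ℝ) * Real.log 2 < 2 * LX X + Real.log 2 := by linarith
  have h13 : (0 : ℝ) ≤ SX X := Nat.cast_nonneg _
  have h14 : Real.log 2 < 0.7 := by have := Real.log_two_lt_d9; linarith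
  nlinarith

end Crest.Agent.R012.Sieve812
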