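import Crest.Agent.R012.SgNum3_51

/-!
# Row 12, part (Sg): the sign of `ρ(1)`

`rho_one_pos`: if the coefficients `ρ r` (`r : Eis`) satisfy `‖ρ r‖ ≤ ‖ρ 1‖` for `r ≠ 0`,
`ρ r = 0` unless `3 ∣ r.im`, `ρ (-1) = ρ 1`, `ρ 1` real and the inversion identity
`C0 (y^(2/3) - y^(-2/3)) = ∑' r, ρ r * (c1 * Bf y (‖r‖/(3√3)))` at `y = 101/100`,
then `0 < (ρ 1).re`.
-/

set_option autoImplicit false
set_option linter.unusedVariables false

noncomputable section

open Real MeasureTheory Set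

namespace Crest.Agent.R012.Sg51

open Eis

/-- `y₀ = 101/100`. -/
def y0 : ℝ := 101 / 100

/-- `a₁ = 1/(3√3)`. -/
def a1 : ℝ := 1 / (3 * Real.sqrt 3)

lemma a1_pos : 0 < a1 := by unfold a1; positivity

lemma y0_gt : 1 < y0 := by unfold y0; norm_num

lemma key_num : 239 / 100 * y0 ≤ 4 * π * a1 := by
  unfold y0 a1
  have hpi := Real.pi_gt_d4
  have h3 : Real.sqrt 3 < 1.73206 := by
    rw [Real.sqrt_lt' (by norm_num)]; norm_num
  have h3p : 0 < Real.sqrt 3 := by positivity
  rw [mul_one_div, le_div_iff₀ (by positivity)]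
  nlinarith

lemma nz_eq_nm (a b : ℤ) : (nz (a, b) : ℝ) = nm (⟨a, 3 * b⟩ : Eis) := by
  have h : ((nm (⟨a, 3 * b⟩ : Eis) : ℤ)) = a ^ 2 - a * (3 * b) + (3 * b) ^ 2 := nm_cast _
  have h2 : ((nm (⟨a, 3 * b⟩ : Eis) : ℕ) : ℝ) = ((nm (⟨a, 3 * b⟩ : Eis) : ℤ) : ℝ) := by norm_cast
  rw [h2, h]
  unfold nz
  push_cast
  ring

/-- the embedding of the allowed frequencies -/
def emb (p : ℤ × ℤ) : Eis := ⟨p.1, 3 * p.2⟩

lemma emb_inj : Function.Injective emb := by
  intro p q h
  have h1 := congrArg QuadraticAlgebra.re h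
  have h2 := congrArg QuadraticAlgebra.im h
  simp only [emb] at h1 h2
  ext
  · exact h1
  · omega

lemma norm_emb (p : ℤ × ℤ) : ‖toC (emb p)‖ = Real.sqrt (nz p) := by
  rw [norm_toC]
  congr 1
  exact (nz_eq_nm p.1 p.2).symm

lemma nz_one_le {p : ℤ × ℤ} (hp : p ≠ (0, 0)) : 1 ≤ nz p := by
  by_contra hc
  have h0 : nz p = 0 := le_antisymm (by omega) (nz_nonneg p)
  apply hp
  obtain ⟨a, b⟩ := p
  unfold nz at h0
  simp only at h0
  have hb : b = 0 := by
    have : 27 * b ^ 2 ≤ 0 := by nlinarith [sq_nonneg (2 * a - 3 * b)]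
    nlinarith [sq_nonneg b]
  subst hb
  have ha : a = 0 := by nlinarith [sq_nonneg a]
  subst ha
  rfl

/-- majorant of the weights off the three central points -/
def maj (p : ℤ × ℤ) : ℝ :=
  (if p ∈ box then (tab (nz p) : ℝ) / 10000 else 0) + 154 / 10000 * ex p

lemma maj_nonneg (p : ℤ × ℤ) : 0 ≤ maj p := by
  unfold maj
  have h1 : (0 : ℝ) ≤ tab (nz p) := by exact_mod_cast tab_nonneg _
  have h2 : 0 < ex p := by unfold ex; positivity
  split_ifs <;> positivity

lemma Wt_le_maj {p : ℤ × ℤ} (h0 : p ≠ (0, 0)) (h1 : p ≠ (1, 0)) (h2 : p ≠ (-1, 0)) :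
    Wt (Real.sqrt (nz p)) ≤ maj p := by
  unfold maj
  have h3 : 0 < ex p := by unfold ex; positivity
  rcases lt_or_ge (nz p) 49 with h | h
  · rw [if_pos (mem_box h)]
    have := Wt_tab h h0 h1 h2
    linarith
  · have := Wt_big h
    have h4 : (0 : ℝ) ≤ (if p ∈ box then (tab (nz p) : ℝ) / 10000 else 0) := by
      have h1 : (0 : ℝ) ≤ tab (nz p) := by exact_mod_cast tab_nonneg _
      split_ifs <;> positivity
    linarith

lemma summable_maj : Summable maj := by
  unfold maj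
  apply Summable.add
  · apply summable_of_ne_finset_zero (s := box)
    intro p hp
    rw [if_neg hp]
  · exact summable_ex.mul_left _

lemma tsum_maj_le : ∑' p, maj p ≤ 162 / 100 := by
  have e1 : Summable (fun p : ℤ × ℤ => if p ∈ box then (tab (nz p) : ℝ) / 10000 else 0) := by
    apply summable_of_ne_finset_zero (s := box)
    intro p hp
    rw [if_neg hp]
  have e2 : Summable (fun p => 154 / 10000 * ex p) := summable_ex.mul_left _
  have h1 : ∑' p : ℤ × ℤ, (if p ∈ box then (tab (nz p) : ℝ) / 10000 else 0) = 151 / 100 := by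
    rw [tsum_eq_sum (s := box) (by intro p hp; rw [if_neg hp])]
    have : ∑ p ∈ box, (if p ∈ box then (tab (nz p) : ℝ) / 10000 else 0) =
        ∑ p ∈ box, (tab (nz p) : ℝ) / 10000 := by
      apply Finset.sum_congr rfl
      intro p hp; rw [if_pos hp]
    rw [this, ← Finset.sum_div]
    have hs := box_sum
    have : ∑ p ∈ box, (tab (nz p) : ℝ) = ((∑ p ∈ box, tab (nz p) : ℤ) : ℝ) := by push_cast; rfl
    rw [this, hs]
    norm_num
  have h2 : ∑' p, 154 / 10000 * ex p ≤ 154 / 10000 * (64999 / 10000) := by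
    rw [tsum_mul_left]
    exact mul_le_mul_of_nonneg_left tsum_ex_le (by norm_num)
  unfold maj
  rw [e1.tsum_add e2, h1]
  linarith

lemma Bf_zero (y : ℝ) : Bf y 0 = 0 := by
  unfold Bf Kf
  rw [zero_rpow (by norm_num)]
  ring

/-- **Sign of `ρ(1)`.** -/
theorem rho_one_pos (ρ : Eis → ℂ) (C0 c1 : ℝ) (hC0 : 0 < C0) (hc1 : 0 < c1)
    (hle : ∀ r : Eis, r ≠ 0 → ‖ρ r‖ ≤ ‖ρ 1‖)
    (hvan : ∀ r : Eis, ¬ (3 ∣ r.im) → ρ r = 0)
    (hneg : ρ (-1) = ρ 1) (hreal : (ρ 1).im = 0)
    (hid : ((C0 * (y0 ^ ((2 : ℝ) / 3) - y0 ^ (-(2 : ℝ) / 3)) : ℝ) : ℂ) =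
      ∑' r : Eis, ρ r * ((c1 * Bf y0 (‖toC r‖ / (3 * Real.sqrt 3)) : ℝ) : ℂ)) :
    0 < (ρ 1).re := by
  have hy := y0_gt
  set B1 := Bf y0 a1 with hB1
  have hB1pos : 0 < B1 := Bf_pos hy a1_pos key_num
  -- the family over the lattice
  set F : ℤ × ℤ → ℂ := fun p => ρ (emb p) * ((c1 * Bf y0 (Real.sqrt (nz p) * a1) : ℝ) : ℂ)
    with hF
  have hsum : ∑' r : Eis, ρ r * ((c1 * Bf y0 (‖toC r‖ / (3 * Real.sqrt 3)) : ℝ) : ℂ) =
      ∑' p, F p := by
    rw [← emb_inj.tsum_eq]
    · apply tsum_congr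
      intro p
      simp only [hF]
      rw [norm_emb]
      congr 4
      unfold a1; ring
    · intro r hr
      rw [Function.mem_support] at hr
      have h3 : 3 ∣ r.im := by
        by_contra hc
        apply hr
        rw [hvan r hc, zero_mul]
      obtain ⟨b, hb⟩ := h3
      refine ⟨(r.re, b), ?_⟩
      apply ext'
      · rfl
      · simp only [emb]; exact hb.symm
  -- bounds
  set D := ‖ρ 1‖ * (c1 * B1) with hD
  have hD0 : 0 ≤ D := by positivity
  have hBle : ∀ p : ℤ × ℤ, p ≠ (0, 0) →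
      |Bf y0 (Real.sqrt (nz p) * a1)| ≤ Wt (Real.sqrt (nz p)) * B1 := by
    intro p hp
    have h1 : (1 : ℝ) ≤ nz p := by exact_mod_cast nz_one_le hp
    have hκ : (1 : ℝ) ≤ Real.sqrt (nz p) := by
      rw [Real.one_le_sqrt]; exact h1
    have h2 := Bf_ratio hy.le a1_pos hκ key_num
    have h3 : 0 < Bf y0 (Real.sqrt (nz p) * a1) := by
      apply Bf_pos hy (by have := a1_pos; positivity)
      have := key_num
      have h4 : 0 < 4 * π * a1 := by have := a1_pos; positivity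
      nlinarith
    rw [abs_of_pos h3]
    exact h2
  have hFle : ∀ p : ℤ × ℤ, p ≠ (0, 0) → ‖F p‖ ≤ Wt (Real.sqrt (nz p)) * D := by
    intro p hp
    simp only [hF]
    rw [norm_mul, Complex.norm_real, Real.norm_eq_abs, abs_mul, abs_of_pos hc1]
    have hne : emb p ≠ 0 := by
      intro h
      apply hp
      have h0 : emb (0, 0) = 0 := by apply ext' <;> rfl
      exact emb_inj (h.trans h0.symm)
    have h1 := hle _ hne
    have h2 := hBle p hp
    calc ‖ρ (emb p)‖ * (c1 * |Bf y0 (Real.sqrt (nz p) * a1)|)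
        ≤ ‖ρ 1‖ * (c1 * (Wt (Real.sqrt (nz p)) * B1)) := by gcongr
      _ = _ := by rw [hD]; ring
  have hF0 : F (0, 0) = 0 := by
    simp only [hF]
    have : Real.sqrt (nz (0, 0)) = 0 := by unfold nz; norm_num
    rw [this, zero_mul, Bf_zero]
    simp
  have hone : emb (1, 0) = 1 := by apply ext' <;> rfl
  have hmone : emb (-1, 0) = -1 := by apply ext' <;> rfl
  have hF1 : F (1, 0) = ρ 1 * ((c1 * B1 : ℝ) : ℂ) := by
    simp only [hF]
    have : Real.sqrt (nz (1, 0)) = 1 := by unfold nz; norm_num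
    rw [this, one_mul, hone]
  have hF2 : F (-1, 0) = ρ 1 * ((c1 * B1 : ℝ) : ℂ) := by
    simp only [hF]
    have : Real.sqrt (nz (-1, 0)) = 1 := by unfold nz; norm_num
    rw [this, one_mul, hmone, hneg]
  -- remove the three central points
  set S3 : Finset (ℤ × ℤ) := {(0, 0), (1, 0), (-1, 0)} with hS3
  set F' : ℤ × ℤ → ℂ := fun p => if p ∈ S3 then 0 else F p with hF'
  have hF'le : ∀ p, ‖F' p‖ ≤ maj p * D := by
    intro p
    simp only [hF']
    split_ifs with h
    · rw [norm_zero]; exact mul_nonneg (maj_nonneg p) hD0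
    · simp only [hS3, Finset.mem_insert, Finset.mem_singleton, not_or] at h
      refine (hFle p h.1).trans ?_
      exact mul_le_mul_of_nonneg_right (Wt_le_maj h.1 h.2.1 h.2.2) hD0
  have hsM : Summable (fun p => maj p * D) := summable_maj.mul_right D
  have hsF' : Summable F' := Summable.of_norm_bounded hsM hF'le
  have hnorm : ‖∑' p, F' p‖ ≤ 162 / 100 * D := by
    calc ‖∑' p, F' p‖ ≤ ∑' p, maj p * D := tsum_of_norm_bounded hsM.hasSum hF'le
      _ = (∑' p, maj p) * D := tsum_mul_right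
      _ ≤ _ := mul_le_mul_of_nonneg_right tsum_maj_le hD0
  have hsplit : ∑' p, F p = F (0, 0) + F (1, 0) + F (-1, 0) + ∑' p, F' p := by
    set F3 : ℤ × ℤ → ℂ := fun p => if p ∈ S3 then F p else 0 with hF3
    have hs3 : Summable F3 := by
      apply summable_of_ne_finset_zero (s := S3)
      intro p hp
      simp only [hF3]; rw [if_neg hp]
    have e : F = fun p => F3 p + F' p := by
      funext p
      simp only [hF3, hF']
      split_ifs <;> simp
    have e3 : ∑' p, F3 p = F (0, 0) + F (1, 0) + F (-1, 0) := by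
      rw [tsum_eq_sum (s := S3) (by intro p hp; simp only [hF3]; rw [if_neg hp])]
      have : ∑ p ∈ S3, F3 p = ∑ p ∈ S3, F p := by
        apply Finset.sum_congr rfl
        intro p hp; simp only [hF3]; rw [if_pos hp]
      rw [this, hS3, Finset.sum_insert (by decide), Finset.sum_insert (by decide),
        Finset.sum_singleton]
      ring
    calc ∑' p, F p = ∑' p, (F3 p + F' p) := by rw [← e]
      _ = ∑' p, F3 p + ∑' p, F' p := hs3.tsum_add hsF'
      _ = _ := by rw [e3]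
  -- conclusion
  have hlhs : 0 < C0 * (y0 ^ ((2 : ℝ) / 3) - y0 ^ (-(2 : ℝ) / 3)) := by
    apply mul_pos hC0
    rw [sub_pos]
    apply rpow_lt_rpow_of_exponent_lt hy (by norm_num)
  have hre := congrArg Complex.re hid
  rw [hsum, hsplit, hF0, hF1, hF2, Complex.ofReal_re] at hre
  simp only [Complex.add_re, zero_add, Complex.re_mul_ofReal] at hre
  by_contra hcon
  push Not at hcon
  have habs : ‖ρ 1‖ = -(ρ 1).re := by
    have : ρ 1 = (((ρ 1).re : ℝ) : ℂ) := by
      apply Complex.ext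
      · simp
      · simp [hreal]
    rw [this, Complex.norm_real, Real.norm_eq_abs, abs_of_nonpos hcon]
    simp
  have hS : (∑' p, F' p).re ≤ 162 / 100 * D := (Complex.re_le_norm _).trans hnorm
  have hD' : D = -(ρ 1).re * (c1 * B1) := by rw [hD, habs]
  have hcB : 0 < c1 * B1 := mul_pos hc1 hB1pos
  nlinarith

end Crest.Agent.R012.Sg51
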