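import Crest.Agent.R012.K1B_384
import Crest.Agent.R012.Slice_384
import Crest.Agent.R012.LocFin_499
import Crest.Agent.R012.SymK_645

/-!
# Row 12, (MSL): the slice + Bessel inequality at level one
-/

set_option autoImplicit false

noncomputable section

open MeasureTheory Set Filter Complex
open scoped ENNReal Topology ContDiff

namespace Crest.Agent.R012.ML384

open Crest.Agent.R012 Crest.Agent.R012.Parseval499 Crest.Agent.R012.StripCo813
open Crest.Agent.R012.Four813 Crest.Agent.R012.K695 Crest.Agent.R012.TestFn286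
open Crest.Agent.R012.Trace384 Crest.Agent.R012.Slice384 Crest.Agent.R012.StripIneq813

lemma EE_eq_EC' (a : Eis × Eis → ℂ) (F : ℂ × ℂ → ℂ) (M : K695.Frm) :
    EE a F M = K695.EC a F M := by
  unfold EE rsum K695.EC
  refine tsum_congr fun r => ?_
  rw [← LocFin499.rowc_eq_rowv]; rfl

lemma BS.suppIn {F : Vec → ℂ} (hF : BS F) : ∃ ρ : ℝ, 0 ≤ ρ ∧ SuppIn ρ F := by
  obtain ⟨R, hR⟩ := hF.supp
  refine ⟨Real.sqrt (max R 0), Real.sqrt_nonneg _, fun u hu => hR u ?_⟩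
  have h0 : 0 ≤ max R 0 := le_max_right _ _
  have h1 : max R 0 < ‖u‖ ^ 2 := by
    rwa [Real.sqrt_lt' (lt_of_le_of_lt (Real.sqrt_nonneg _) hu)] at hu
  have h2 : ‖u‖ ^ 2 ≤ n2 u := by
    unfold n2
    rw [Prod.norm_def]
    rcases max_choice ‖u.1‖ ‖u.2‖ with h | h
    · rw [h]; nlinarith [norm_nonneg u.2]
    · rw [h]; nlinarith [norm_nonneg u.1]
  exact lt_of_le_of_lt (le_max_left _ _) (h1.trans_le h2)

lemma SuppIn.mono {ρ ρ' : ℝ} {F : Vec → ℂ} (h : SuppIn ρ F) (hρ : ρ ≤ ρ') : SuppIn ρ' F :=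
  fun u hu => h u (lt_of_le_of_lt hρ hu)

lemma strip_NN {w : ℂ → ℝ≥0∞} (hw : Measurable w)
    (hw1 : ∀ z : ℂ, 1 ≤ ‖z‖ → ‖z‖ ≤ 4 → 1 ≤ w z) {F : Vec → ℂ} (hF : Measurable F) {r : ℝ}
    (hr : 0 < r) :
    ∫⁻ M in strip r, ‖EC (bco ⊤) F M‖ₑ ^ 2 ≤ ENNReal.ofReal (1 + 313600 * r ^ 4) * NN w F :=
  strip_nu_w isLev_top ((measurable_EC hF).enorm.pow_const 2)
    (fun _ hg M => normsq_EC_act Sym645.syAPI (isCoef_bco Sym645.syAPI ⊤) F hg M) hw hw1 hr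

lemma lint_add4' {α : Type*} [MeasurableSpace α] {μ : Measure α} {f0 f1 f2 f3 : α → ℝ≥0∞}
    (m0 : Measurable f0) (m1 : Measurable f1) (m2 : Measurable f2) :
    ∫⁻ x, (f0 x + f1 x + f2 x + f3 x) ∂μ =
      ∫⁻ x, f0 x ∂μ + ∫⁻ x, f1 x ∂μ + ∫⁻ x, f2 x ∂μ + ∫⁻ x, f3 x ∂μ := by
  rw [lintegral_add_left (f := fun x => f0 x + f1 x + f2 x) ((m0.add m1).add m2),
    lintegral_add_left (f := fun x => f0 x + f1 x) (m0.add m1), lintegral_add_left m0]

lemma swap3' {f : Fr → ℝ≥0∞} (hf : Measurable f) {K : ℝ≥0∞} (hK : K ≠ ⊤) (A B P : Set ℂ) :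
    ∫⁻ v in A, ∫⁻ e in B, K * ∫⁻ x in P, f (frame v e x 0) =
      K * ∫⁻ v in A, ∫⁻ x in P, ∫⁻ e in B, f (frame v e x 0) := by
  rw [← lintegral_const_mul' _ _ hK]
  refine lintegral_congr fun v => ?_
  rw [lintegral_const_mul' _ _ hK]
  congr 1
  rw [lintegral_lintegral_swap]
  refine Measurable.aemeasurable (hf.comp ?_)
  unfold frame
  fun_prop

theorem sliceP {w : ℂ → ℝ≥0∞} (hw : Measurable w)
    (hw1 : ∀ z : ℂ, 1 ≤ ‖z‖ → ‖z‖ ≤ 4 → 1 ≤ w z) : SliceP w := by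
  have hcov : 0 < covol 3 := covol_pos (by norm_num)
  refine ⟨covol 3 * (4 * 313600), by positivity, ?_⟩
  intro a b r T U φ0 F1 F2 F12 S ha hU hφ hT hr hD b1 b2 b3
  have hT0 : 0 < T := by linarith
  set φ : ℂ → ℂ := fun p => φ0 (T * p) with hφdef
  have hφc : Continuous φ := SP_dil_cont hφ T
  have hφs : ∀ p, 1 / (4 * T) < ‖p‖ → φ p = 0 := SP_dil_supp hφ hT
  have b0 : BS (prodF U φ) := BS_prodF ha hU.cd.continuous hU.supp hφc hφs
  obtain ⟨ρ0, p0, s0⟩ := BS.suppIn b0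
  obtain ⟨ρ1, p1, s1⟩ := BS.suppIn b1
  obtain ⟨ρ2, p2, s2⟩ := BS.suppIn b2
  obtain ⟨ρ3, p3, s3⟩ := BS.suppIn b3
  have s0 := SuppIn.mono (ρ' := ρ0 + ρ1 + ρ2 + ρ3) s0 (by linarith)
  have s1 := SuppIn.mono (ρ' := ρ0 + ρ1 + ρ2 + ρ3) s1 (by linarith)
  have s2 := SuppIn.mono (ρ' := ρ0 + ρ1 + ρ2 + ρ3) s2 (by linarith)
  have s3 := SuppIn.mono (ρ' := ρ0 + ρ1 + ρ2 + ρ3) s3 (by linarith)
  have hsl := slice hr hD s0 s1 s2 s3 (bco ⊤)
  simp only [EE_eq_EC'] at hsl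
  have hst : ∫⁻ M in strip r, (‖EC (bco ⊤) (prodF U φ) M‖ₑ ^ 2 + ‖EC (bco ⊤) F1 M‖ₑ ^ 2
      + ‖EC (bco ⊤) F2 M‖ₑ ^ 2 + ‖EC (bco ⊤) F12 M‖ₑ ^ 2) ≤
      ENNReal.ofReal (1 + 313600 * r ^ 4) *
        (NN w (prodF U φ) + NN w F1 + NN w F2 + NN w F12) := by
    have m0 := ((measurable_EC (a := bco ⊤) b0.meas).enorm.pow_const 2)
    have m1 := ((measurable_EC (a := bco ⊤) b1.meas).enorm.pow_const 2)
    have m2 := ((measurable_EC (a := bco ⊤) b2.meas).enorm.pow_const 2)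
    rw [lint_add4' m0 m1 m2, mul_add, mul_add, mul_add]
    exact add_le_add (add_le_add (add_le_add (strip_NN hw hw1 b0.meas hr)
      (strip_NN hw hw1 b1.meas hr)) (strip_NN hw hw1 b2.meas hr)) (strip_NN hw hw1 b3.meas hr)
  -- Bessel
  obtain ⟨CU, _, hCU⟩ := bdd_of_cont hU.cd.continuous (fun z hz => hU.supp z (Or.inr hz))
  obtain ⟨Cφ, _, hCφ⟩ := bdd_of_cont hφc hφs
  have hNice : Nice U φ (max CU Cφ) (max b (1 / (4 * T))) := by
    refine ⟨hU.cd.continuous.measurable, hφc.measurable, fun z => (hCU z).trans (le_max_left _ _),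
      fun z => (hCφ z).trans (le_max_right _ _), fun z hz => ?_, fun z hz => ?_, ?_⟩
    · exact hU.supp z (Or.inr ((le_max_left _ _).trans_lt hz))
    · exact hφs z ((le_max_right _ _).trans_lt hz)
    · exact hU.supp 0 (Or.inl (by rw [norm_zero]; exact ha))
  have hsy : ∀ c d, IsPrim d → ‖sy c d‖ ≤ 1 := fun c d hd => by
    by_cases h : IsCoprime c d
    · exact (Sym645.syAPI.norm_one c d hd h).le
    · rw [(Sym645.syFacts.eq_zero c d hd).mpr h]; simp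
  have hbes : ∀ v ∈ ann r (2 * r), ∀ e ∈ ann (1 / r) (2 / r),
      ∑ u ∈ S, ‖Sg (fun _ => 1) U u e‖ₑ ^ 2 * ENNReal.ofReal (wtB T φ0 u v e) ≤
      ENNReal.ofReal (covol 3) * ∫⁻ x in par 3,
        ‖EC (bco ⊤) (prodF U φ) (frame v e x 0)‖ₑ ^ 2 := by
    intro v hv e he
    have hv0 : 0 < ‖v‖ := lt_of_lt_of_le hr hv.1
    have he0 : 0 < ‖e‖ := lt_of_lt_of_le (by positivity) he.1
    have h := special_bessel_lint Sym645.syFacts (ψ := fun _ => 1) (K := 1) (by simp) hsy hNice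
      (norm_pos_iff.mp hv0) (norm_pos_iff.mp he0) S
    refine le_trans (le_of_eq ?_) (h.trans (le_of_eq ?_))
    · refine Finset.sum_congr rfl fun u _ => ?_
      rw [ENNReal.ofReal_mul (by positivity), ENNReal.ofReal_pow (norm_nonneg _), ofReal_norm]
      rfl
    · congr 1
      refine lintegral_congr fun x => ?_
      rw [EK_eq_EC, coefK_ker_one Sym645.syFacts]
      rfl
  have hf : Measurable fun M : Fr => ‖EC (bco ⊤) (prodF U φ) M‖ₑ ^ 2 :=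
    (measurable_EC (a := bco ⊤) b0.meas).enorm.pow_const 2
  have hr4 : ENNReal.ofReal (r ^ 4) ≠ 0 := by
    rw [Ne, ENNReal.ofReal_eq_zero, not_le]; positivity
  have hsl2 : ∫⁻ v in ann r (2 * r), ∫⁻ x in par 3, ∫⁻ e in ann (1 / r) (2 / r),
      ‖EC (bco ⊤) (prodF U φ) (frame v e x 0)‖ₑ ^ 2 ≤
      ENNReal.ofReal ((r ^ 4)⁻¹) * (4 * (ENNReal.ofReal (1 + 313600 * r ^ 4) *
        (NN w (prodF U φ) + NN w F1 + NN w F2 + NN w F12))) := by
    have h := hsl.trans (mul_le_mul_right hst 4)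
    calc _ = ENNReal.ofReal ((r ^ 4)⁻¹) * (ENNReal.ofReal (r ^ 4) * _) := by
          rw [← mul_assoc, ← ENNReal.ofReal_mul (by positivity),
            inv_mul_cancel₀ (by positivity), ENNReal.ofReal_one, one_mul]
      _ ≤ _ := by gcongr
  calc BX r T φ0 S (fun u e => Sg (fun _ => 1) U u e)
      ≤ ∫⁻ v in ann r (2 * r), ∫⁻ e in ann (1 / r) (2 / r),
          ENNReal.ofReal (covol 3) * ∫⁻ x in par 3,
        ‖EC (bco ⊤) (prodF U φ) (frame v e x 0)‖ₑ ^ 2 := by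
        unfold BX
        refine setLIntegral_mono' (measurableSet_ann _ _) fun v hv => ?_
        exact setLIntegral_mono' (measurableSet_ann _ _) fun e he => hbes v hv e he
    _ = ENNReal.ofReal (covol 3) * ∫⁻ v in ann r (2 * r), ∫⁻ x in par 3,
          ∫⁻ e in ann (1 / r) (2 / r),
        ‖EC (bco ⊤) (prodF U φ) (frame v e x 0)‖ₑ ^ 2 :=
        swap3' hf ENNReal.ofReal_ne_top _ _ _
    _ ≤ ENNReal.ofReal (covol 3) * (ENNReal.ofReal ((r ^ 4)⁻¹) *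
        (4 * (ENNReal.ofReal (1 + 313600 * r ^ 4) *
        (NN w (prodF U φ) + NN w F1 + NN w F2 + NN w F12)))) := by gcongr
    _ = ENNReal.ofReal (covol 3 * ((r ^ 4)⁻¹ * (4 * (1 + 313600 * r ^ 4)))) *
        (NN w (prodF U φ) + NN w F1 + NN w F2 + NN w F12) := by
        have e4 : (4 : ℝ≥0∞) = ENNReal.ofReal 4 := by simp
        rw [e4, ENNReal.ofReal_mul hcov.le, ENNReal.ofReal_mul (p := (r ^ 4)⁻¹) (by positivity),
          ENNReal.ofReal_mul (p := 4) (by norm_num)]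
        ring
    _ ≤ ENNReal.ofReal (covol 3 * (4 * 313600) * ((1 + r ^ 4) * (r ^ 4)⁻¹)) *
        (NN w (prodF U φ) + NN w F1 + NN w F2 + NN w F12) := by
        refine mul_le_mul_left (ENNReal.ofReal_le_ofReal ?_) _
        have h1 : 1 + 313600 * r ^ 4 ≤ 313600 * (1 + r ^ 4) := by linarith
        calc covol 3 * ((r ^ 4)⁻¹ * (4 * (1 + 313600 * r ^ 4)))
            ≤ covol 3 * ((r ^ 4)⁻¹ * (4 * (313600 * (1 + r ^ 4)))) := by gcongr
          _ = _ := by ring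

end Crest.Agent.R012.ML384
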