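import Crest.Agent.R012.Base_666

/-!
# Row 12: sums over a complete residue system modulo `c` (`sumMod`), and the additive character `eC`

Everything is for `c ≠ 0`.

* `Per c f` : `f` is periodic modulo `c`
* `sumMod_eq_sum_of_inj` : the value of `sumMod c f` is the sum over any family of `nm c`
  pairwise incongruent representatives
* `sumMod_comp_mul`, `sumMod_comp_add` : substitutions
* `sumMod_mul_coprime` (CRT), `sumMod_mul` (tower)
* `sumMod_eC` : orthogonality.
-/

set_option autoImplicit false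

noncomputable section

open Complex

namespace Crest.Agent.R012.SumMod880

open Crest.Agent.R012 Crest.Agent.R012.Eis

/-! ### the additive character -/

lemma eC_zero : eC 0 = 1 := by simp [eC]

lemma eC_add (z z' : ℂ) : eC (z + z') = eC z * eC z' := by
  unfold eC
  rw [← Complex.exp_add]
  congr 1
  rw [map_add]; ring

lemma eC_neg (z : ℂ) : eC (-z) = (eC z)⁻¹ := by
  unfold eC
  rw [← Complex.exp_neg]
  congr 1
  rw [map_neg]; ring

lemma eC_eq_re (z : ℂ) : eC z = Complex.exp (((4 * Real.pi * z.re : ℝ) : ℂ) * Complex.I) := by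
  unfold eC
  rw [Complex.add_conj]
  congr 1
  push_cast; ring

lemma norm_eC (z : ℂ) : ‖eC z‖ = 1 := by
  rw [eC_eq_re, Complex.norm_exp_ofReal_mul_I]

lemma eC_ne_zero (z : ℂ) : eC z ≠ 0 := by
  unfold eC; exact Complex.exp_ne_zero _

lemma conj_eC (z : ℂ) : (starRingEnd ℂ) (eC z) = eC (-z) := by
  rw [eC_neg, Complex.inv_def, Complex.normSq_eq_norm_sq, norm_eC]
  simp

lemma eC_conj (z : ℂ) : eC ((starRingEnd ℂ) z) = eC z := by
  unfold eC
  rw [Complex.conj_conj, add_comm]

lemma eC_toC (t : Eis) : eC (toC t) = 1 := by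
  rw [eC_eq_re, toC_re]
  have : (((4 * Real.pi * ((t.re : ℝ) - t.im / 2) : ℝ) : ℂ) * Complex.I)
      = ((2 * t.re - t.im : ℤ) : ℂ) * (2 * Real.pi * Complex.I) := by
    push_cast; ring
  rw [this, Complex.exp_int_mul_two_pi_mul_I]

lemma eC_add_toC (z : ℂ) (t : Eis) : eC (z + toC t) = eC z := by
  rw [eC_add, eC_toC, mul_one]

lemma eC_sub (z z' : ℂ) : eC (z - z') = eC z * (eC z')⁻¹ := by
  rw [sub_eq_add_neg, eC_add, eC_neg]

/-- `eC z = 1` iff `z + z̄` is an integer. -/
lemma eC_eq_one_iff (z : ℂ) : eC z = 1 ↔ ∃ n : ℤ, 2 * z.re = n := by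
  rw [eC_eq_re, Complex.exp_eq_one_iff]
  constructor
  · rintro ⟨n, hn⟩
    refine ⟨n, ?_⟩
    have h := congrArg Complex.im hn
    simp at h
    have hpi : Real.pi ≠ 0 := Real.pi_ne_zero
    have : Real.pi * (2 * z.re) = Real.pi * n := by linarith
    exact mul_left_cancel₀ hpi this
  · rintro ⟨n, hn⟩
    refine ⟨n, ?_⟩
    have : 4 * Real.pi * z.re = 2 * Real.pi * n := by rw [← hn]; ring
    rw [this]; push_cast; ring

/-- the dual lattice: if `t ↦ e(z t)` is trivial on `Eis`, then `ω λ z ∈ Eis`. -/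
lemma exists_of_eC_trivial {z : ℂ} (h : ∀ t : Eis, eC (z * toC t) = 1) :
    ∃ s : Eis, toC (w * lam) * z = toC s := by
  obtain ⟨a, ha⟩ := (eC_eq_one_iff _).mp (by simpa using h 1)
  obtain ⟨b, hb⟩ := (eC_eq_one_iff _).mp (h w)
  rw [toC_w] at hb
  have h3 : Real.sqrt 3 * Real.sqrt 3 = 3 := Real.mul_self_sqrt (by norm_num)
  have hb' : -z.re - Real.sqrt 3 * z.im = b := by
    have : (z * wC).re = z.re * (-1 / 2) - z.im * (Real.sqrt 3 / 2) := by
      simp [wC, Complex.mul_re]
    rw [this] at hb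
    linarith
  refine ⟨⟨a + b, a⟩, ?_⟩
  have e : toC (w * lam) = ⟨0, Real.sqrt 3⟩ := by
    have : w * lam = (⟨1, 2⟩ : Eis) := by
      apply ext' <;> simp [lam]
    rw [this, toC_apply]
    apply Complex.ext
    · simp [wC]; norm_num
    · simp [wC]; ring
  rw [e]
  apply Complex.ext
  · rw [toC_re]
    simp [Complex.mul_re]
    linarith
  · rw [toC_im]
    simp [Complex.mul_im]
    rw [← ha]; ring

lemma exists_of_eC_trivial_div {r c : Eis} (hc : c ≠ 0)
    (h : ∀ t : Eis, eC (toC r * toC t / toC c) = 1) : c ∣ lam * r := by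
  have hc' : toC c ≠ 0 := by rwa [Ne, toC_eq_zero]
  obtain ⟨s, hs⟩ := exists_of_eC_trivial (z := toC r / toC c) (fun t => by
    rw [div_mul_eq_mul_div]; exact h t)
  have h1 : toC (w * lam * r) = toC (c * s) := by
    rw [map_mul toC (w * lam) r, map_mul toC c s, ← hs]
    field_simp
  have h2 : w * lam * r = c * s := toC_injective h1
  refine ⟨w ^ 2 * s, ?_⟩
  have h3 := w_cube
  linear_combination w ^ 2 * h2 - lam * r * h3

/-! ### the quotient -/

/-- `Eis/(c)` -/
abbrev Q (c : Eis) : Type := Eis ⧸ Ideal.span ({c} : Set Eis)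

lemma finQ {c : Eis} (hc : c ≠ 0) : Finite (Q c) :=
  Ideal.finiteQuotientOfFreeOfNeBot _ (by
    rw [Ne, Ideal.span_singleton_eq_bot]; exact hc)

lemma algNorm_eq (c : Eis) : (Algebra.norm ℤ c).natAbs = nm c := by
  have h : Algebra.norm ℤ c = (nm c : ℤ) := by
    rw [Algebra.norm_apply]
    have := QuadraticAlgebra.det_toLinearMap_eq_norm (R := ℤ) (a := -1) (b := -1) c
    rw [← norm_eq_nm, ← this]
    congr 1
  rw [h, Int.natAbs_natCast]

lemma card_Q {c : Eis} (_hc : c ≠ 0) : Nat.card (Q c) = nm c := by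
  have h1 : Ideal.absNorm (Ideal.span ({c} : Set Eis)) = nm c := by
    rw [Ideal.absNorm_span_singleton, algNorm_eq]
  rw [← h1, Ideal.absNorm_apply, Submodule.cardQuot_apply]

/-- class of `x` modulo `c` -/
abbrev mk (c : Eis) : Eis →+* Q c := Ideal.Quotient.mk (Ideal.span ({c} : Set Eis))

lemma mk_eq_iff {c x y : Eis} : mk c x = mk c y ↔ c ∣ x - y := by
  rw [Ideal.Quotient.eq, Ideal.mem_span_singleton]

lemma mk_out {c : Eis} (q : Q c) : mk c (Quotient.out q) = q := by
  have := Quotient.out_eq q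
  exact this

lemma out_mk_sub {c : Eis} (x : Eis) : c ∣ Quotient.out (mk c x) - x := by
  rw [← mk_eq_iff, mk_out]

/-- periodicity modulo `c` -/
def Per (c : Eis) (f : Eis → ℂ) : Prop := ∀ x y, c ∣ x - y → f x = f y

lemma Per.out {c : Eis} {f : Eis → ℂ} (hf : Per c f) (x : Eis) :
    f (Quotient.out (mk c x)) = f x := hf _ _ (out_mk_sub x)

lemma Per.mul {c : Eis} {f g : Eis → ℂ} (hf : Per c f) (hg : Per c g) :
    Per c (fun x => f x * g x) := fun x y h => by simp only [hf x y h, hg x y h]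

lemma Per.add {c : Eis} {f g : Eis → ℂ} (hf : Per c f) (hg : Per c g) :
    Per c (fun x => f x + g x) := fun x y h => by simp only [hf x y h, hg x y h]

lemma Per.const {c : Eis} (a : ℂ) : Per c (fun _ => a) := fun _ _ _ => rfl

lemma Per.of_dvd {c d : Eis} {f : Eis → ℂ} (hf : Per c f) (h : c ∣ d) : Per d f :=
  fun x y hxy => hf x y (h.trans hxy)

lemma Per.comp_mul {c : Eis} {f : Eis → ℂ} (hf : Per c f) (u : Eis) :
    Per c (fun x => f (u * x)) := fun x y h => hf _ _ (by
  rw [← mul_sub]; exact h.mul_left u)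

lemma Per.comp_add {c : Eis} {f : Eis → ℂ} (hf : Per c f) (u : Eis) :
    Per c (fun x => f (x + u)) := fun x y h => hf _ _ (by
  rw [add_sub_add_right_eq_sub]; exact h)

lemma Per.conj {c : Eis} {f : Eis → ℂ} (hf : Per c f) :
    Per c (fun x => (starRingEnd ℂ) (f x)) := fun x y h => by simp only [hf x y h]

lemma Per.comp {c : Eis} {f : Eis → ℂ} (hf : Per c f) (g : ℂ → ℂ) :
    Per c (fun x => g (f x)) := fun x y h => by simp only [hf x y h]

/-- the additive character `x ↦ e(r x / c)` is periodic mod `c`. -/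
lemma per_eC {c : Eis} (hc : c ≠ 0) (r : Eis) :
    Per c (fun x => eC (toC r * toC x / toC c)) := by
  rintro x y ⟨t, ht⟩
  have hc' : toC c ≠ 0 := by rwa [Ne, toC_eq_zero]
  have hx : x = y + c * t := by linear_combination ht
  have : toC r * toC x / toC c = toC r * toC y / toC c + toC (r * t) := by
    rw [hx, map_add, map_mul, map_mul]; field_simp
  simp only
  rw [this, eC_add_toC]

/-! ### `sumMod` as a finite sum -/

lemma sumMod_eq_sum {c : Eis} [Fintype (Q c)] (f : Eis → ℂ) :
    sumMod c f = ∑ q : Q c, f (Quotient.out q) := by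
  unfold sumMod
  rw [finsum_eq_sum_of_fintype]

/-- **main evaluation lemma**: a family of `nm c` pairwise incongruent representatives. -/
theorem sumMod_eq_sum_of_inj {c : Eis} (hc : c ≠ 0) {f : Eis → ℂ} (hf : Per c f)
    {ι : Type*} [Fintype ι] (φ : ι → Eis) (hinj : ∀ i j, c ∣ φ i - φ j → i = j)
    (hcard : Fintype.card ι = nm c) : sumMod c f = ∑ i, f (φ i) := by
  have := finQ hc
  have : Fintype (Q c) := Fintype.ofFinite _
  rw [sumMod_eq_sum]
  symm
  have hb : Function.Bijective (fun i => mk c (φ i)) := by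
    rw [Fintype.bijective_iff_injective_and_card]
    refine ⟨fun i j h => hinj i j (mk_eq_iff.mp h), ?_⟩
    rw [hcard, ← card_Q hc, Nat.card_eq_fintype_card]
  refine Fintype.sum_bijective _ hb _ _ (fun i => ?_)
  exact (hf.out _).symm

/-- version with a finset of representatives. -/
theorem sumMod_eq_sum_finset {c : Eis} (hc : c ≠ 0) {f : Eis → ℂ} (hf : Per c f)
    (S : Finset Eis) (hinj : ∀ x ∈ S, ∀ y ∈ S, c ∣ x - y → x = y)
    (hcard : S.card = nm c) : sumMod c f = ∑ x ∈ S, f x := by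
  rw [sumMod_eq_sum_of_inj hc hf (fun i : S => (i : Eis))
    (fun i j h => Subtype.ext (hinj _ i.2 _ j.2 h)) (by simpa using hcard)]
  exact Finset.sum_coe_sort S f

lemma sumMod_congr' {c : Eis} {f g : Eis → ℂ} (h : ∀ x, f x = g x) : sumMod c f = sumMod c g := by
  have : f = g := funext h
  rw [this]

lemma sumMod_add {c : Eis} (hc : c ≠ 0) (f g : Eis → ℂ) :
    sumMod c (fun x => f x + g x) = sumMod c f + sumMod c g := by
  have := finQ hc
  have : Fintype (Q c) := Fintype.ofFinite _
  rw [sumMod_eq_sum, sumMod_eq_sum, sumMod_eq_sum, Finset.sum_add_distrib]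

lemma sumMod_neg {c : Eis} (hc : c ≠ 0) (f : Eis → ℂ) :
    sumMod c (fun x => - f x) = - sumMod c f := by
  have := finQ hc
  have : Fintype (Q c) := Fintype.ofFinite _
  rw [sumMod_eq_sum, sumMod_eq_sum, Finset.sum_neg_distrib]

lemma sumMod_sub {c : Eis} (hc : c ≠ 0) (f g : Eis → ℂ) :
    sumMod c (fun x => f x - g x) = sumMod c f - sumMod c g := by
  have := finQ hc
  have : Fintype (Q c) := Fintype.ofFinite _
  rw [sumMod_eq_sum, sumMod_eq_sum, sumMod_eq_sum, Finset.sum_sub_distrib]

lemma sumMod_const_mul {c : Eis} (hc : c ≠ 0) (a : ℂ) (f : Eis → ℂ) :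
    sumMod c (fun x => a * f x) = a * sumMod c f := by
  have := finQ hc
  have : Fintype (Q c) := Fintype.ofFinite _
  rw [sumMod_eq_sum, sumMod_eq_sum, Finset.mul_sum]

lemma sumMod_mul_const {c : Eis} (hc : c ≠ 0) (a : ℂ) (f : Eis → ℂ) :
    sumMod c (fun x => f x * a) = sumMod c f * a := by
  have := finQ hc
  have : Fintype (Q c) := Fintype.ofFinite _
  rw [sumMod_eq_sum, sumMod_eq_sum, Finset.sum_mul]

lemma sumMod_finset_sum {c : Eis} (hc : c ≠ 0) {ι : Type*} (s : Finset ι) (f : ι → Eis → ℂ) :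
    sumMod c (fun x => ∑ i ∈ s, f i x) = ∑ i ∈ s, sumMod c (f i) := by
  have := finQ hc
  have : Fintype (Q c) := Fintype.ofFinite _
  simp only [sumMod_eq_sum]
  rw [Finset.sum_comm]

lemma sumMod_const {c : Eis} (hc : c ≠ 0) (a : ℂ) : sumMod c (fun _ => a) = nm c * a := by
  have := finQ hc
  have : Fintype (Q c) := Fintype.ofFinite _
  rw [sumMod_eq_sum, Finset.sum_const, Finset.card_univ, ← card_Q hc, Nat.card_eq_fintype_card,
    nsmul_eq_mul]

lemma sumMod_zero {c : Eis} (hc : c ≠ 0) : sumMod c (fun _ => (0 : ℂ)) = 0 := by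
  rw [sumMod_const hc, mul_zero]

lemma conj_sumMod {c : Eis} (hc : c ≠ 0) (f : Eis → ℂ) :
    (starRingEnd ℂ) (sumMod c f) = sumMod c (fun x => (starRingEnd ℂ) (f x)) := by
  have := finQ hc
  have : Fintype (Q c) := Fintype.ofFinite _
  rw [sumMod_eq_sum, sumMod_eq_sum, map_sum]

lemma norm_sumMod_le {c : Eis} (hc : c ≠ 0) {f : Eis → ℂ} {B : ℝ} (h : ∀ x, ‖f x‖ ≤ B) :
    ‖sumMod c f‖ ≤ nm c * B := by
  have := finQ hc
  have : Fintype (Q c) := Fintype.ofFinite _
  rw [sumMod_eq_sum]
  refine (norm_sum_le _ _).trans ?_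
  refine (Finset.sum_le_sum (fun q _ => h (Quotient.out q))).trans ?_
  rw [Finset.sum_const, Finset.card_univ, ← card_Q hc, Nat.card_eq_fintype_card, nsmul_eq_mul]
  exact le_refl _

lemma sumMod_comm {c d : Eis} (hc : c ≠ 0) (hd : d ≠ 0) (f : Eis → Eis → ℂ) :
    sumMod c (fun x => sumMod d (fun y => f x y)) =
      sumMod d (fun y => sumMod c (fun x => f x y)) := by
  have := finQ hc
  have : Fintype (Q c) := Fintype.ofFinite _
  have := finQ hd
  have : Fintype (Q d) := Fintype.ofFinite _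
  simp only [sumMod_eq_sum]
  rw [Finset.sum_comm]

/-- products of sums -/
lemma sumMod_mul_sumMod {c d : Eis} (hc : c ≠ 0) (hd : d ≠ 0) (f g : Eis → ℂ) :
    sumMod c f * sumMod d g = sumMod c (fun x => sumMod d (fun y => f x * g y)) := by
  have h : ∀ x, sumMod d (fun y => f x * g y) = f x * sumMod d g :=
    fun x => sumMod_const_mul hd _ _
  rw [sumMod_congr' h, sumMod_mul_const hc]

lemma isUnit_sumMod {c : Eis} (hc : IsUnit c) {f : Eis → ℂ} (hf : Per c f) :
    sumMod c f = f 0 := by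
  have hc0 : c ≠ 0 := hc.ne_zero
  rw [sumMod_eq_sum_of_inj hc0 hf (fun _ : Unit => (0 : Eis)) (fun _ _ _ => rfl)]
  · simp
  · rw [isUnit_iff.mp hc]; simp

lemma sumMod_one (f : Eis → ℂ) : sumMod 1 f = f (Quotient.out (mk 1 0)) := by
  have := finQ (one_ne_zero (α := Eis))
  have : Fintype (Q 1) := Fintype.ofFinite _
  rw [sumMod_eq_sum]
  have hs : Subsingleton (Q (1 : Eis)) := by
    constructor
    intro a b
    rw [← mk_out a, ← mk_out b, mk_eq_iff]
    exact one_dvd _
  rw [Fintype.sum_subsingleton _ (mk 1 0)]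

/-! ### substitutions -/

lemma sumMod_comp_bij {c : Eis} (hc : c ≠ 0) {f : Eis → ℂ} (hf : Per c f) (g : Eis → Eis)
    (hg : ∀ x y, c ∣ g x - g y → c ∣ x - y) : sumMod c (fun x => f (g x)) = sumMod c f := by
  have := finQ hc
  have : Fintype (Q c) := Fintype.ofFinite _
  rw [sumMod_eq_sum (fun x => f (g x))]
  rw [sumMod_eq_sum_of_inj hc hf (fun q : Q c => g (Quotient.out q))]
  · intro i j h
    have := hg _ _ h
    rw [← mk_eq_iff, mk_out, mk_out] at this
    exact this
  · rw [← card_Q hc, Nat.card_eq_fintype_card]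

lemma sumMod_comp_mul {c u : Eis} (hc : c ≠ 0) {f : Eis → ℂ} (hf : Per c f)
    (hu : IsCoprime u c) : sumMod c (fun x => f (u * x)) = sumMod c f :=
  sumMod_comp_bij hc hf (fun x => u * x) (fun x y h => by
    rw [← mul_sub] at h
    exact hu.symm.dvd_of_dvd_mul_left h)

lemma sumMod_comp_add {c : Eis} (hc : c ≠ 0) {f : Eis → ℂ} (hf : Per c f) (u : Eis) :
    sumMod c (fun x => f (x + u)) = sumMod c f :=
  sumMod_comp_bij hc hf (fun x => x + u) (fun x y h => by
    rwa [add_sub_add_right_eq_sub] at h)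

lemma sumMod_comp_neg {c : Eis} (hc : c ≠ 0) {f : Eis → ℂ} (hf : Per c f) :
    sumMod c (fun x => f (-x)) = sumMod c f :=
  sumMod_comp_bij hc hf (fun x => -x) (fun x y h => by
    have : -x - -y = -(x - y) := by ring
    rw [this] at h
    exact (dvd_neg).mp h)

lemma sumMod_comp_conj {c : Eis} (hc : c ≠ 0) {f : Eis → ℂ} (hf : Per (Eis.conj c) f) :
    sumMod c (fun x => f (Eis.conj x)) = sumMod (Eis.conj c) f := by
  have := finQ hc
  have : Fintype (Q c) := Fintype.ofFinite _
  have hc' : Eis.conj c ≠ 0 := by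
    rw [← nm_pos, nm_conj, nm_pos]; exact hc
  rw [sumMod_eq_sum (fun x => f (Eis.conj x))]
  rw [sumMod_eq_sum_of_inj hc' hf (fun q : Q c => Eis.conj (Quotient.out q))]
  · intro i j h
    rw [← conj_sub] at h
    have := conj_dvd_conj h
    rw [conj_conj, conj_conj, ← mk_eq_iff, mk_out, mk_out] at this
    exact this
  · rw [nm_conj, ← card_Q hc, Nat.card_eq_fintype_card]

/-- `sumMod` depends only on the ideal. -/
lemma sumMod_associated {c d : Eis} (h : Associated c d) (f : Eis → ℂ) (hf : Per c f)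
    (hc : c ≠ 0) : sumMod c f = sumMod d f := by
  have := finQ hc
  have : Fintype (Q c) := Fintype.ofFinite _
  have hd : d ≠ 0 := by
    obtain ⟨u, rfl⟩ := h
    exact mul_ne_zero hc u.ne_zero
  have hf' : Per d f := hf.of_dvd h.dvd
  rw [sumMod_eq_sum f, sumMod_eq_sum_of_inj hd hf' (fun q : Q c => Quotient.out q)]
  · intro i j hij
    have := h.dvd.trans hij
    rw [← mk_eq_iff, mk_out, mk_out] at this
    exact this
  · rw [← Eis.nm_eq_of_associated h, ← card_Q hc, Nat.card_eq_fintype_card]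

/-! ### tower and CRT -/

/-- inner sums are periodic in the outer variable (tower form). -/
lemma per_inner {c d : Eis} (hd : d ≠ 0) {f : Eis → ℂ} (hf : Per (c * d) f) :
    Per c (fun x => sumMod d (fun y => f (x + c * y))) := by
  rintro x x' ⟨t, ht⟩
  have hx : x = x' + c * t := by linear_combination ht
  have hp : Per d (fun y => f (x' + c * y)) := fun y y' hyy => hf _ _ (by
    have : x' + c * y - (x' + c * y') = c * (y - y') := by ring
    rw [this]; exact mul_dvd_mul_left c hyy)
  simp only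
  rw [← sumMod_comp_add hd hp t]
  apply sumMod_congr'
  intro y
  rw [hx]; congr 1; ring

/-- **tower**: `x + c y` with `x mod c`, `y mod d`, runs through all classes mod `c d`. -/
theorem sumMod_mul {c d : Eis} (hc : c ≠ 0) (hd : d ≠ 0) {f : Eis → ℂ} (hf : Per (c * d) f) :
    sumMod (c * d) f = sumMod c (fun x => sumMod d (fun y => f (x + c * y))) := by
  have := finQ hc
  have : Fintype (Q c) := Fintype.ofFinite _
  have := finQ hd
  have : Fintype (Q d) := Fintype.ofFinite _
  rw [sumMod_eq_sum_of_inj (mul_ne_zero hc hd) hf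
    (fun q : Q c × Q d => Quotient.out q.1 + c * Quotient.out q.2)]
  · simp only [sumMod_eq_sum]
    rw [Fintype.sum_prod_type]
  · rintro ⟨x, y⟩ ⟨x', y'⟩ h
    simp only at h
    have h1 : c ∣ Quotient.out x - Quotient.out x' := by
      have h2 : c ∣ Quotient.out x + c * Quotient.out y - (Quotient.out x' + c * Quotient.out y') :=
        (dvd_mul_right c d).trans h
      have : Quotient.out x - Quotient.out x' =
          (Quotient.out x + c * Quotient.out y - (Quotient.out x' + c * Quotient.out y'))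
          - c * (Quotient.out y - Quotient.out y') := by ring
      rw [this]
      exact dvd_sub h2 (dvd_mul_right _ _)
    rw [← mk_eq_iff, mk_out, mk_out] at h1
    subst h1
    have h3 : d ∣ Quotient.out y - Quotient.out y' := by
      have : Quotient.out x + c * Quotient.out y - (Quotient.out x + c * Quotient.out y')
        = c * (Quotient.out y - Quotient.out y') := by ring
      rw [this] at h
      exact (mul_dvd_mul_iff_left hc).mp h
    rw [← mk_eq_iff, mk_out, mk_out] at h3
    rw [h3]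
  · rw [Fintype.card_prod, nm_mul, ← card_Q hc, ← card_Q hd, Nat.card_eq_fintype_card,
      Nat.card_eq_fintype_card]

/-- **CRT**: `d x + c y`. -/
theorem sumMod_mul_coprime {c d : Eis} (hc : c ≠ 0) (hd : d ≠ 0) (hcd : IsCoprime c d)
    {f : Eis → ℂ} (hf : Per (c * d) f) :
    sumMod (c * d) f = sumMod c (fun x => sumMod d (fun y => f (d * x + c * y))) := by
  rw [sumMod_mul hc hd hf]
  have h := sumMod_comp_mul hc (per_inner hd hf) hcd.symm
  rw [← h]

/-- sum of a function periodic modulo `c` over a multiple `c d`. -/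
theorem sumMod_mul_of_per {c d : Eis} (hc : c ≠ 0) (hd : d ≠ 0) {f : Eis → ℂ} (hf : Per c f) :
    sumMod (c * d) f = nm d * sumMod c f := by
  rw [sumMod_mul hc hd (hf.of_dvd (dvd_mul_right c d))]
  have : ∀ x, sumMod d (fun y => f (x + c * y)) = nm d * f x := by
    intro x
    rw [← sumMod_const hd (f x)]
    apply sumMod_congr'
    intro y
    exact hf _ _ (by
      have : x + c * y - x = c * y := by ring
      rw [this]; exact dvd_mul_right _ _)
  rw [sumMod_congr' this, sumMod_const_mul hc]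

/-- **CRT for products**. -/
theorem sumMod_mul_coprime_prod {c d : Eis} (hc : c ≠ 0) (hd : d ≠ 0) (hcd : IsCoprime c d)
    {f g : Eis → ℂ} (hf : Per c f) (hg : Per d g) :
    sumMod (c * d) (fun x => f x * g x) = sumMod c f * sumMod d g := by
  have hp : Per (c * d) (fun x => f x * g x) :=
    (hf.of_dvd (dvd_mul_right c d)).mul (hg.of_dvd (dvd_mul_left d c))
  rw [sumMod_mul_coprime hc hd hcd hp]
  have : ∀ x y, f (d * x + c * y) * g (d * x + c * y) = f (d * x) * g (c * y) := by
    intro x y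
    rw [hf (d * x + c * y) (d * x) (by
      have : d * x + c * y - d * x = c * y := by ring
      rw [this]; exact dvd_mul_right _ _),
      hg (d * x + c * y) (c * y) (by
      have : d * x + c * y - c * y = d * x := by ring
      rw [this]; exact dvd_mul_right _ _)]
  simp only [this]
  rw [← sumMod_mul_sumMod hc hd (fun x => f (d * x)) (fun y => g (c * y)),
    sumMod_comp_mul hc hf hcd.symm, sumMod_comp_mul hd hg hcd]

/-! ### orthogonality -/

/-- If `f (x + t) = ζ f x` with `ζ ≠ 1`, the sum is zero. -/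
lemma sumMod_eq_zero_of_shift {c : Eis} (hc : c ≠ 0) {f : Eis → ℂ} (hf : Per c f) (t : Eis)
    (ζ : ℂ) (hζ : ζ ≠ 1) (h : ∀ x, f (x + t) = ζ * f x) : sumMod c f = 0 := by
  have h1 := sumMod_comp_add hc hf t
  rw [sumMod_congr' h, sumMod_const_mul hc] at h1
  have h2 : (ζ - 1) * sumMod c f = 0 := by linear_combination h1
  rcases mul_eq_zero.mp h2 with h3 | h3
  · exact absurd (sub_eq_zero.mp h3) hζ
  · exact h3

/-- multiplicative version: `f (u x) = ζ f x` with `ζ ≠ 1`, `u` prime to `c`. -/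
lemma sumMod_eq_zero_of_mul {c : Eis} (hc : c ≠ 0) {f : Eis → ℂ} (hf : Per c f) {u : Eis}
    (hu : IsCoprime u c) (ζ : ℂ) (hζ : ζ ≠ 1) (h : ∀ x, f (u * x) = ζ * f x) :
    sumMod c f = 0 := by
  have h1 := sumMod_comp_mul hc hf hu
  rw [sumMod_congr' h, sumMod_const_mul hc] at h1
  have h2 : (ζ - 1) * sumMod c f = 0 := by linear_combination h1
  rcases mul_eq_zero.mp h2 with h3 | h3
  · exact absurd (sub_eq_zero.mp h3) hζ
  · exact h3

/-- orthogonality of additive characters. -/
theorem sumMod_eC_of_not_dvd {c r : Eis} (hc : c ≠ 0) (h : ¬ c ∣ lam * r) :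
    sumMod c (fun x => eC (toC r * toC x / toC c)) = 0 := by
  have : ∃ t : Eis, eC (toC r * toC t / toC c) ≠ 1 := by
    by_contra hcon
    push Not at hcon
    exact h (exists_of_eC_trivial_div hc hcon)
  obtain ⟨t, ht⟩ := this
  refine sumMod_eq_zero_of_shift hc (per_eC hc r) t _ ht (fun x => ?_)
  rw [map_add, mul_add, add_div, eC_add]; ring

theorem sumMod_eC_of_dvd {c r : Eis} (hc : c ≠ 0) (h : c ∣ r) :
    sumMod c (fun x => eC (toC r * toC x / toC c)) = nm c := by
  obtain ⟨s, rfl⟩ := h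
  have hc' : toC c ≠ 0 := by rwa [Ne, toC_eq_zero]
  have : ∀ x : Eis, eC (toC (c * s) * toC x / toC c) = 1 := by
    intro x
    have : toC (c * s) * toC x / toC c = toC (s * x) := by
      rw [map_mul, map_mul]; field_simp
    rw [this, eC_toC]
  rw [sumMod_congr' this, sumMod_const hc, mul_one]

open Classical in
/-- orthogonality, `c` prime to `3`. -/
theorem sumMod_eC {c : Eis} (hc : IsCoprime c lam) (r : Eis) :
    sumMod c (fun x => eC (toC r * toC x / toC c)) = if c ∣ r then (nm c : ℂ) else 0 := by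
  have hc0 : c ≠ 0 := by
    rintro rfl
    rw [isCoprime_zero_left] at hc
    exact prime_lam.not_isUnit hc
  split_ifs with h
  · exact sumMod_eC_of_dvd hc0 h
  · exact sumMod_eC_of_not_dvd hc0 (fun h' => h (hc.dvd_of_dvd_mul_left h'))

end Crest.Agent.R012.SumMod880
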