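import Crest.Agent.R012.Defs

/-!
# Row 12, R2 (1): cubic residue symbol modulo a prime
-/

set_option autoImplicit false

noncomputable section

open Crest.Agent.R012 Crest.Agent.R012.Eis

namespace Crest.Agent.R012.Sym645

/-! ### cardinality of residue rings -/

instance : Module.Free ℤ Eis := inferInstance
instance : Module.Finite ℤ Eis := inferInstance

lemma algNorm_eq (c : Eis) : Algebra.norm ℤ c = (nm c : ℤ) := by
  rw [Algebra.norm_apply, ← norm_eq_nm, ← QuadraticAlgebra.det_toLinearMap_eq_norm]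
  congr 1

/-- Residue ring. -/
abbrev Rq (c : Eis) : Type := Eis ⧸ Ideal.span ({c} : Set Eis)

lemma natCard_Rq (c : Eis) : Nat.card (Rq c) = nm c := by
  have h := Ideal.absNorm_span_singleton (S := Eis) c
  rw [algNorm_eq, Int.natAbs_natCast] at h
  rw [← h, Ideal.absNorm_apply]
  rfl

lemma finite_Rq {c : Eis} (hc : c ≠ 0) : Finite (Rq c) := by
  apply Nat.finite_of_card_ne_zero
  rw [natCard_Rq]
  exact (nm_pos.2 hc).ne'

/-- The class of `x`. -/
abbrev rq (c x : Eis) : Rq c := Ideal.Quotient.mk (Ideal.span ({c} : Set Eis)) x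

lemma rq_eq {c x y : Eis} : rq c x = rq c y ↔ c ∣ x - y := by
  rw [Ideal.Quotient.eq, Ideal.mem_span_singleton]

lemma rq_eq_zero {c x : Eis} : rq c x = 0 ↔ c ∣ x := by
  rw [Ideal.Quotient.eq_zero_iff_mem, Ideal.mem_span_singleton]

/-! ### norms modulo 3 -/

lemma nm_mod_three (c : Eis) : nm c % 3 = 0 ∨ nm c % 3 = 1 := by
  have h := nm_cast c
  have : (nm c : ℤ) % 3 = 0 ∨ (nm c : ℤ) % 3 = 1 := by
    rw [h]
    have h1 : c.re % 3 = 0 ∨ c.re % 3 = 1 ∨ c.re % 3 = 2 := by omega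
    have h2 : c.im % 3 = 0 ∨ c.im % 3 = 1 ∨ c.im % 3 = 2 := by omega
    rcases h1 with h1 | h1 | h1 <;> rcases h2 with h2 | h2 | h2 <;>
      simp [pow_two, Int.add_emod, Int.sub_emod, Int.mul_emod, h1, h2]
  omega

lemma nm_mod_of_mul {a b : Eis} (h : nm (a * b) % 3 = 1) : nm a % 3 = 1 ∧ nm b % 3 = 1 := by
  rw [nm_mul, Nat.mul_mod] at h
  rcases nm_mod_three a with ha | ha <;> rcases nm_mod_three b with hb | hb <;>
    simp_all

lemma nm_mod_mul {a b : Eis} (ha : nm a % 3 = 1) (hb : nm b % 3 = 1) : nm (a * b) % 3 = 1 := by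
  rw [nm_mul, Nat.mul_mod, ha, hb]

lemma prim_nm_mod {a : Eis} (h : IsPrim a) : nm a % 3 = 1 := by
  obtain ⟨t, ht⟩ := h
  have ha : a = 1 + 3 * t := by rw [← ht]; ring
  have h3re : (3 : Eis).re = 3 := rfl
  have h3im : (3 : Eis).im = 0 := rfl
  have hre : a.re = 1 + 3 * t.re := by
    rw [ha, QuadraticAlgebra.re_add, re_mul', h3re, h3im, one_re']; ring
  have him : a.im = 3 * t.im := by
    rw [ha, QuadraticAlgebra.im_add, im_mul', h3re, h3im, one_im']; ring
  have h := nm_cast a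
  rw [hre, him] at h
  have : (nm a : ℤ) % 3 = 1 := by
    rw [h]
    have : (1 + 3 * t.re) ^ 2 - (1 + 3 * t.re) * (3 * t.im) + (3 * t.im) ^ 2
      = 1 + 3 * (2 * t.re + 3 * t.re ^ 2 - (1 + 3 * t.re) * t.im + 3 * t.im ^ 2) := by ring
    rw [this]; omega
  omega

lemma prim_one : IsPrim 1 := ⟨0, by ring⟩

lemma prim_mul {a b : Eis} (ha : IsPrim a) (hb : IsPrim b) : IsPrim (a * b) := by
  obtain ⟨s, hs⟩ := ha
  obtain ⟨t, ht⟩ := hb
  refine ⟨s * b + t, ?_⟩
  linear_combination b * hs + ht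

lemma prim_ne_zero {a : Eis} (h : IsPrim a) : a ≠ 0 := by
  rintro rfl
  have := prim_nm_mod h
  simp at this

lemma ne_zero_of_nm_mod {a : Eis} (h : nm a % 3 = 1) : a ≠ 0 := by
  rintro rfl
  simp at h


/-! ### primes -/

lemma isCoprime_of_prime_not_dvd {p x : Eis} (hp : Prime p) (h : ¬ p ∣ x) : IsCoprime p x :=
  (hp.irreducible.coprime_iff_not_dvd).2 h

instance instIsPrimeSpan {p : Eis} [hp : Fact (Prime p)] :
    (Ideal.span ({p} : Set Eis)).IsPrime :=
  (Ideal.span_singleton_prime hp.out.ne_zero).2 hp.out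

lemma isMaximal_span {p : Eis} (hp : Prime p) : (Ideal.span ({p} : Set Eis)).IsMaximal :=
  PrincipalIdealRing.isMaximal_of_irreducible hp.irreducible

/-- The residue field. -/
@[reducible] def fieldRq {p : Eis} (hp : Prime p) : Field (Rq p) :=
  haveI := isMaximal_span hp
  Ideal.Quotient.field _

lemma nm_ne_one_of_prime {p : Eis} (hp : Prime p) : nm p ≠ 1 := by
  intro h
  exact hp.not_isUnit (isUnit_iff.2 h)

/-- Fermat. -/
lemma prime_dvd_pow_sub_one {p x : Eis} (hp : Prime p) (h : ¬ p ∣ x) :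
    p ∣ x ^ (nm p - 1) - 1 := by
  let _ := fieldRq hp
  have := finite_Rq hp.ne_zero
  let _ : Fintype (Rq p) := Fintype.ofFinite _
  have hc : Fintype.card (Rq p) = nm p := by
    rw [← Nat.card_eq_fintype_card, natCard_Rq]
  have hx : rq p x ≠ 0 := by rwa [Ne, rq_eq_zero]
  have := FiniteField.pow_card_sub_one_eq_one (rq p x) hx
  rw [hc] at this
  have h2 : rq p (x ^ (nm p - 1)) = rq p 1 := by
    show Ideal.Quotient.mk _ _ = Ideal.Quotient.mk _ _
    rw [map_pow, map_one]; exact this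
  exact rq_eq.1 h2

lemma one_lt_nm_of_prime {p : Eis} (hp : Prime p) : 1 < nm p := by
  have h1 := nm_pos.2 hp.ne_zero
  have h2 := nm_ne_one_of_prime hp
  omega

lemma three_mul_div {p : Eis} (hp3 : nm p % 3 = 1) : 3 * ((nm p - 1) / 3) = nm p - 1 := by
  omega

/-- Two distinct cube roots of unity differ by an element of norm three. -/
lemma not_dvd_of_nm_three {p z : Eis} (hp : Prime p) (hp3 : nm p % 3 = 1) (hz : nm z = 3) :
    ¬ p ∣ z := by
  rintro ⟨t, rfl⟩
  rw [nm_mul] at hz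
  have h1 : nm p ∣ 3 := ⟨nm t, hz.symm⟩
  rcases (Nat.dvd_prime Nat.prime_three).1 h1 with h | h
  · exact nm_ne_one_of_prime hp h
  · rw [h] at hp3; simp at hp3

lemma nm_one_sub_w : nm (1 - w) = 3 := by
  simp [nm]
lemma nm_one_sub_w2 : nm (1 - w ^ 2) = 3 := by
  rw [w_sq]; simp [nm]
lemma nm_w_sub_w2 : nm (w - w ^ 2) = 3 := by
  rw [w_sq]; simp [nm]

open Classical in
/-- The cube root of unity `u` with `p ∣ x^((Np-1)/3) - u`, or `0` if `p ∣ x`. -/
def cu (x p : Eis) : Eis :=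
  if p ∣ x then 0
  else if p ∣ x ^ ((nm p - 1) / 3) - 1 then 1
  else if p ∣ x ^ ((nm p - 1) / 3) - w then w
  else w ^ 2

lemma toC_cu (x p : Eis) : toC (cu x p) = sy0 x p := by
  unfold cu sy0
  split_ifs <;> simp

lemma cu_of_dvd {x p : Eis} (h : p ∣ x) : cu x p = 0 := by
  unfold cu; rw [if_pos h]

lemma cu_cases {x p : Eis} (h : ¬ p ∣ x) : cu x p = 1 ∨ cu x p = w ∨ cu x p = w ^ 2 := by
  unfold cu; rw [if_neg h]
  split_ifs <;> simp

lemma cu_cube {x p : Eis} (h : ¬ p ∣ x) : cu x p ^ 3 = 1 := by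
  have hw := w_cube
  rcases cu_cases h with h | h | h <;> rw [h]
  · simp
  · exact hw
  · rw [← pow_mul, mul_comm, pow_mul, hw, one_pow]

/-- Defining property of `cu`. -/
lemma cu_spec {x p : Eis} (hp : Prime p) (hp3 : nm p % 3 = 1) (h : ¬ p ∣ x) :
    p ∣ x ^ ((nm p - 1) / 3) - cu x p := by
  unfold cu
  rw [if_neg h]
  split_ifs with h1 h2
  · exact h1
  · exact h2
  · set y := x ^ ((nm p - 1) / 3) with hy
    have h3 : y ^ 3 = x ^ (nm p - 1) := by
      rw [hy, ← pow_mul, mul_comm, three_mul_div hp3]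
    have h4 : p ∣ y ^ 3 - 1 := by rw [h3]; exact prime_dvd_pow_sub_one hp h
    have h5 : y ^ 3 - 1 = (y - 1) * ((y - w) * (y - w ^ 2)) := by
      have e1 := w_cube
      have e2 := w_sq
      linear_combination (y * (y - 1)) * e2 - (y - 1) * e1
    rw [h5] at h4
    rcases hp.dvd_or_dvd h4 with h6 | h6
    · exact absurd h6 h1
    rcases hp.dvd_or_dvd h6 with h7 | h7
    · exact absurd h7 h2
    · exact h7

/-- Uniqueness of the cube root of unity. -/
lemma root_unique {p u v : Eis} (hp : Prime p) (hp3 : nm p % 3 = 1)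
    (hu : u = 1 ∨ u = w ∨ u = w ^ 2) (hv : v = 1 ∨ v = w ∨ v = w ^ 2) (h : p ∣ u - v) : u = v := by
  have k1 := not_dvd_of_nm_three hp hp3 nm_one_sub_w
  have k2 := not_dvd_of_nm_three hp hp3 nm_one_sub_w2
  have k3 := not_dvd_of_nm_three hp hp3 nm_w_sub_w2
  rcases hu with rfl | rfl | rfl <;> rcases hv with rfl | rfl | rfl
  · rfl
  · exact absurd h k1
  · exact absurd h k2
  · exact absurd (by rw [← dvd_neg, neg_sub]; exact h) k1
  · rfl
  · exact absurd h k3
  · exact absurd (by rw [← dvd_neg, neg_sub]; exact h) k2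
  · exact absurd (by rw [← dvd_neg, neg_sub]; exact h) k3
  · rfl

lemma cu_eq_of {x p u : Eis} (hp : Prime p) (hp3 : nm p % 3 = 1)
    (hu : u = 1 ∨ u = w ∨ u = w ^ 2) (h : p ∣ x ^ ((nm p - 1) / 3) - u) : cu x p = u := by
  have hx : ¬ p ∣ x := by
    intro hx
    have hk : (nm p - 1) / 3 ≠ 0 := by
      have := one_lt_nm_of_prime hp
      omega
    have h1 : p ∣ x ^ ((nm p - 1) / 3) := dvd_pow hx hk
    have h2 : p ∣ u := by
      have := dvd_sub h1 h
      rwa [sub_sub_cancel] at this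
    have h3 : IsUnit u := by
      rcases hu with rfl | rfl | rfl
      · exact isUnit_one
      · exact isUnit_w
      · exact isUnit_w.pow 2
    exact hp.not_isUnit (isUnit_of_dvd_unit h2 h3)
  have h1 := cu_spec hp hp3 hx
  refine root_unique hp hp3 (cu_cases hx) hu ?_
  have := dvd_sub h h1
  rwa [sub_sub_sub_cancel_left] at this

lemma cu_congr {x y p : Eis} (hp : Prime p) (hp3 : nm p % 3 = 1) (h : p ∣ x - y) :
    cu x p = cu y p := by
  by_cases hx : p ∣ x
  · have hy : p ∣ y := by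
      have := dvd_sub hx h
      rwa [sub_sub_cancel] at this
    rw [cu_of_dvd hx, cu_of_dvd hy]
  · have hy : ¬ p ∣ y := by
      intro hy
      exact hx (by have := dvd_add h hy; rwa [sub_add_cancel] at this)
    refine cu_eq_of hp hp3 (cu_cases hy) ?_
    have h1 := cu_spec hp hp3 hy
    have h2 : p ∣ x ^ ((nm p - 1) / 3) - y ^ ((nm p - 1) / 3) :=
      h.trans (sub_dvd_pow_sub_pow _ _ _)
    have := dvd_add h2 h1
    rwa [sub_add_sub_cancel] at this

lemma roots_mul {u v : Eis} (hu : u = 1 ∨ u = w ∨ u = w ^ 2) (hv : v = 1 ∨ v = w ∨ v = w ^ 2) :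
    u * v = 1 ∨ u * v = w ∨ u * v = w ^ 2 := by
  have hw := w_cube
  have h4 : w ^ 2 * w ^ 2 = w := by
    have : w ^ 2 * w ^ 2 = w ^ 3 * w := by ring
    rw [this, hw, one_mul]
  have h3 : w ^ 2 * w = 1 := by rw [← pow_succ]; exact hw
  have h3' : w * w ^ 2 = 1 := by rw [← pow_succ']; exact hw
  have h2 : w * w = w ^ 2 := (pow_two w).symm
  rcases hu with rfl | rfl | rfl <;> rcases hv with rfl | rfl | rfl <;>
    simp [h4, h3, h3', h2]

lemma cu_mul {x y p : Eis} (hp : Prime p) (hp3 : nm p % 3 = 1) :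
    cu (x * y) p = cu x p * cu y p := by
  by_cases hx : p ∣ x
  · rw [cu_of_dvd hx, cu_of_dvd (hx.mul_right y), zero_mul]
  by_cases hy : p ∣ y
  · rw [cu_of_dvd hy, cu_of_dvd (hy.mul_left x), mul_zero]
  refine cu_eq_of hp hp3 (roots_mul (cu_cases hx) (cu_cases hy)) ?_
  have h1 := cu_spec hp hp3 hx
  have h2 := cu_spec hp hp3 hy
  rw [mul_pow]
  have : x ^ ((nm p - 1) / 3) * y ^ ((nm p - 1) / 3) - cu x p * cu y p
    = (x ^ ((nm p - 1) / 3) - cu x p) * y ^ ((nm p - 1) / 3)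
      + cu x p * (y ^ ((nm p - 1) / 3) - cu y p) := by ring
  rw [this]
  exact dvd_add (h1.mul_right _) (h2.mul_left _)

lemma cu_one {p : Eis} (hp : Prime p) (hp3 : nm p % 3 = 1) : cu 1 p = 1 :=
  cu_eq_of hp hp3 (Or.inl rfl) (by simp)

lemma cu_ne_zero {x p : Eis} (h : ¬ p ∣ x) : cu x p ≠ 0 := by
  intro h0
  have := cu_cube h
  rw [h0] at this
  simp at this

lemma cu_eq_zero_iff {x p : Eis} : cu x p = 0 ↔ p ∣ x :=
  ⟨fun h => by by_contra h2; exact cu_ne_zero h2 h, cu_of_dvd⟩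

lemma cu_pow {x p : Eis} (hp : Prime p) (hp3 : nm p % 3 = 1) (n : ℕ) :
    cu (x ^ n) p = cu x p ^ n := by
  induction n with
  | zero => simp [cu_one hp hp3]
  | succ n ih => rw [pow_succ, cu_mul hp hp3, ih, pow_succ]

lemma cu_neg {x p : Eis} (hp : Prime p) (hp3 : nm p % 3 = 1) : cu (-x) p = cu x p := by
  by_cases hx : p ∣ x
  · rw [cu_of_dvd hx, cu_of_dvd ((dvd_neg).2 hx)]
  have h1 : cu ((-1 : Eis) ^ 3) p = cu (-1) p ^ 3 := cu_pow hp hp3 3
  have hn : ¬ p ∣ (-1 : Eis) := fun h => hp.not_isUnit (isUnit_of_dvd_unit h isUnit_one.neg)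
  rw [cu_cube hn] at h1
  have h2 : ((-1 : Eis) ^ 3) = -1 := by ring
  rw [h2] at h1
  rw [← neg_one_mul, cu_mul hp hp3, h1, one_mul]

/-- `cu` only depends on the prime up to units. -/
lemma cu_assoc {x p q : Eis} (h : Associated p q) : cu x p = cu x q := by
  have hn : nm p = nm q := by
    obtain ⟨u, rfl⟩ := h
    rw [nm_mul, isUnit_iff.1 u.isUnit, mul_one]
  have e : ∀ z : Eis, (p ∣ z) = (q ∣ z) := fun z => propext h.dvd_iff_dvd_left
  have e1 := e x
  have e2 := e (x ^ ((nm q - 1) / 3) - 1)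
  have e3 := e (x ^ ((nm q - 1) / 3) - w)
  classical
  unfold cu
  rw [hn]
  exact if_congr (iff_of_eq e1) rfl (if_congr (iff_of_eq e2) rfl (if_congr (iff_of_eq e3) rfl rfl))

lemma cu_conj {x p : Eis} (hp : Prime p) (hp3 : nm p % 3 = 1) (hp' : Prime (Eis.conj p)) :
    cu (Eis.conj x) (Eis.conj p) = Eis.conj (cu x p) := by
  by_cases hx : p ∣ x
  · rw [cu_of_dvd hx, cu_of_dvd (conj_dvd_conj hx), conj_zero]
  have h1 := conj_dvd_conj (cu_spec hp hp3 hx)
  refine cu_eq_of hp' (by rw [nm_conj]; exact hp3) ?_ ?_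
  · rcases cu_cases hx with h | h | h <;> rw [h]
    · left; exact conj_one
    · right; right; exact conj_w
    · right; left
      have : Eis.conj (w ^ 2) = (Eis.conj w) ^ 2 := conjHom.map_pow w 2
      rw [this, conj_w, ← pow_mul]
      calc w ^ (2 * 2) = w ^ 3 * w := by ring
        _ = w := by rw [w_cube, one_mul]
  · rw [nm_conj]
    have : (Eis.conj x) ^ ((nm p - 1) / 3) = Eis.conj (x ^ ((nm p - 1) / 3)) :=
      (conjHom.map_pow x _).symm
    rw [this, ← conj_sub]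
    exact h1

end Crest.Agent.R012.Sym645
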