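import Crest.Agent.R012.Sym1_645

/-!
# Row 12, R2 (2): cubic Gauss and Jacobi sums over finite fields
-/

set_option autoImplicit false

noncomputable section

open Crest.Agent.R012 Crest.Agent.R012.Eis

namespace Crest.Agent.R012.Sym645

/-! ### the abstract Frobenius identity -/

lemma gaussSum_frob_pow {R R' : Type} [CommRing R] [Fintype R] [CommRing R'] (l : ℕ)
    [Fact l.Prime] [CharP R' l] (χ : MulChar R R') (ψ : AddChar R R') (m : ℕ) :
    gaussSum χ ψ ^ (l ^ m) = gaussSum (χ ^ (l ^ m)) (ψ ^ (l ^ m)) := by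
  induction m with
  | zero => simp
  | succ m ih =>
    rw [pow_succ, pow_mul, ih, gaussSum_frob l, ← pow_mul, ← pow_mul]

theorem frob_identity {F K : Type} [Field F] [Fintype F] [Field K] [Fintype K]
    (hchar : ringChar K ≠ ringChar F) (χ : MulChar F K) (h3 : χ ^ 3 = 1) (h1 : χ ≠ 1)
    (hn : Fintype.card K % 3 = 1) :
    χ (Fintype.card K : F) *
      ((Fintype.card F : K) * jacobiSum χ χ) ^ ((Fintype.card K - 1) / 3) = 1 := by
  classical
  obtain ⟨m, hl, hcard⟩ := FiniteField.card K (ringChar K)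
  obtain ⟨m', hl', hcard'⟩ := FiniteField.card F (ringChar F)
  set l := ringChar K with hldef
  have : Fact l.Prime := ⟨hl⟩
  let ψ' := AddChar.FiniteField.primitiveChar F K hchar
  let K' := CyclotomicField ψ'.n K
  let ι : K →+* K' := algebraMap K K'
  have hι : Function.Injective ι := ι.injective
  have : CharP K' l := by
    have : CharP K l := ringChar.charP K
    exact charP_of_injective_ringHom hι l
  let ψ : AddChar F K' := ψ'.char
  have hψ : ψ.IsPrimitive := ψ'.prim
  let χ' : MulChar F K' := χ.ringHomComp ι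
  have hχ3 : χ' ^ 3 = 1 := by
    show (χ.ringHomComp ι) ^ 3 = 1
    rw [MulChar.ringHomComp_pow, h3, MulChar.ringHomComp_one]
  have hχ1 : χ' ≠ 1 := by
    intro h
    exact h1 ((MulChar.ringHomComp_eq_one_iff hι).1 h)
  have hord : orderOf χ' = 3 := orderOf_eq_prime hχ3 hχ1
  set G := gaussSum χ' ψ with hG
  -- cube of the Gauss sum
  have hneg : χ' (-1) = 1 := by
    have h2 : (χ' (-1)) ^ 3 = 1 := by
      rw [← MulChar.pow_apply' χ' (by norm_num : (3 : ℕ) ≠ 0), hχ3, MulChar.one_apply isUnit_one.neg]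
    have h4 : (χ' (-1)) ^ 2 = 1 := by
      rw [← map_pow]; simp
    calc χ' (-1) = χ' (-1) ^ 3 := by rw [pow_succ, h4, one_mul]
      _ = 1 := h2
  have hcube : G ^ 3 = ι ((Fintype.card F : K) * jacobiSum χ χ) := by
    have := gaussSum_pow_eq_prod_jacobiSum (χ := χ') (ψ := ψ) (by rw [hord]; norm_num) hψ
    rw [hord, hneg] at this
    rw [hG, this, map_mul, map_natCast, ← jacobiSum_ringHomComp]
    simp [χ']
  have hGne : G ≠ 0 := by
    refine gaussSum_ne_zero_of_nontrivial ?_ hχ1 hψ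
    rw [hcard']
    push_cast
    refine pow_ne_zero _ ?_
    intro h
    rw [CharP.cast_eq_zero_iff K' l] at h
    exact hchar ((Nat.prime_dvd_prime_iff_eq hl hl').1 h)
  -- Frobenius
  set n := Fintype.card K with hndef
  have hunit : IsUnit (n : F) := by
    rw [isUnit_iff_ne_zero, hcard]
    push_cast
    refine pow_ne_zero _ ?_
    intro h
    rw [CharP.cast_eq_zero_iff F (ringChar F)] at h
    exact hchar ((Nat.prime_dvd_prime_iff_eq hl' hl).1 h).symm
  have hfrob : χ' (n : F) * G ^ n = G := by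
    have e1 : G ^ n = gaussSum (χ' ^ n) (ψ ^ n) := by
      rw [hG, hcard]; exact gaussSum_frob_pow l χ' ψ m
    have e2 : χ' ^ n = χ' := by
      have : n = 3 * (n / 3) + 1 := by omega
      rw [this, pow_succ, pow_mul, hχ3, one_pow, one_mul]
    have e3 : ψ ^ n = AddChar.mulShift ψ ((hunit.unit : Fˣ) : F) := by
      rw [IsUnit.unit_spec, AddChar.pow_mulShift]
    have e4 := gaussSum_mulShift χ' ψ hunit.unit
    rw [e1, e2, e3]
    rw [IsUnit.unit_spec] at e4 ⊢
    exact e4
  have hpow : G ^ n = G * (G ^ 3) ^ ((n - 1) / 3) := by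
    rw [← pow_mul, ← pow_succ']
    congr 1
    omega
  rw [hpow, ← mul_assoc, mul_comm (χ' _) G, mul_assoc] at hfrob
  have hfin : χ' (n : F) * (G ^ 3) ^ ((n - 1) / 3) = 1 :=
    mul_left_cancel₀ hGne (by rw [hfrob, mul_one])
  rw [hcube] at hfin
  apply hι
  rw [map_mul, map_pow, map_one]
  exact hfin


/-! ### the cubic character modulo a prime -/

instance fintypeRq {p : Eis} [hp : Fact (Prime p)] : Fintype (Rq p) :=
  @Fintype.ofFinite _ (finite_Rq hp.out.ne_zero)

instance fieldRqInst {p : Eis} [hp : Fact (Prime p)] : Field (Rq p) := fieldRq hp.out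

lemma card_Rq (p : Eis) [hp : Fact (Prime p)] : Fintype.card (Rq p) = nm p := by
  rw [← Nat.card_eq_fintype_card, natCard_Rq]

lemma cu_out {p : Eis} [hp : Fact (Prime p)] (hp3 : nm p % 3 = 1) (x : Eis) :
    cu (Quotient.out (rq p x)) p = cu x p := by
  refine cu_congr hp.out hp3 ?_
  rw [← rq_eq]
  exact Quotient.out_eq _

/-- The cubic residue character modulo `p` with values in `Eis`. -/
def chiP (p : Eis) [hp : Fact (Prime p)] (hp3 : nm p % 3 = 1) : MulChar (Rq p) Eis where
  toFun q := cu (Quotient.out q) p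
  map_one' := by
    have := cu_out hp3 (1 : Eis)
    rw [cu_one hp.out hp3] at this
    exact this
  map_mul' a b := by
    obtain ⟨x, rfl⟩ := Ideal.Quotient.mk_surjective a
    obtain ⟨y, rfl⟩ := Ideal.Quotient.mk_surjective b
    have h1 := cu_out hp3 x
    have h2 := cu_out hp3 y
    have h3 := cu_out hp3 (x * y)
    rw [cu_mul hp.out hp3, ← h1, ← h2] at h3
    exact h3
  map_nonunit' a ha := by
    obtain ⟨x, rfl⟩ := Ideal.Quotient.mk_surjective a
    have h1 := cu_out hp3 x
    refine h1.trans (cu_of_dvd ?_)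
    rw [← rq_eq_zero]
    by_contra h
    exact ha (isUnit_iff_ne_zero.2 h)

lemma chiP_rq {p : Eis} [hp : Fact (Prime p)] (hp3 : nm p % 3 = 1) (x : Eis) :
    chiP p hp3 (rq p x) = cu x p := cu_out hp3 x

lemma chiP_cube {p : Eis} [hp : Fact (Prime p)] (hp3 : nm p % 3 = 1) : chiP p hp3 ^ 3 = 1 := by
  refine MulChar.ext fun a => ?_
  obtain ⟨x, hx⟩ := Ideal.Quotient.mk_surjective (a : Rq p)
  have ha : (a : Rq p) = rq p x := hx.symm
  rw [MulChar.pow_apply' _ (by norm_num), MulChar.one_apply a.isUnit, ha, chiP_rq]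
  refine cu_cube ?_
  rw [← rq_eq_zero, ← ha]
  exact a.ne_zero

/-- There are elements with any prescribed cubic symbol. -/
lemma exists_cu_eq_w {p : Eis} [hp : Fact (Prime p)] (hp3 : nm p % 3 = 1) :
    ∃ x, cu x p = w := by
  obtain ⟨g, hg⟩ := IsCyclic.exists_generator (α := (Rq p)ˣ)
  obtain ⟨x, hx⟩ := Ideal.Quotient.mk_surjective (g : Rq p)
  have hx' : rq p x = (g : Rq p) := hx
  have hnd : ¬ p ∣ x := by
    rw [← rq_eq_zero, hx']; exact g.ne_zero
  have hne : cu x p ≠ 1 := by
    intro h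
    have h1 := cu_spec hp.out hp3 hnd
    rw [h, ← rq_eq] at h1
    have h2 : (g : Rq p) ^ ((nm p - 1) / 3) = 1 := by
      rw [← hx']
      have : rq p (x ^ ((nm p - 1) / 3)) = rq p x ^ ((nm p - 1) / 3) := map_pow _ _ _
      rw [← this, h1]
      exact map_one _
    have h3 : g ^ ((nm p - 1) / 3) = 1 := by
      ext; push_cast; exact h2
    have h4 : orderOf g = nm p - 1 := by
      rw [orderOf_eq_card_of_forall_mem_zpowers hg, Nat.card_units, natCard_Rq]
    have h5 := orderOf_dvd_of_pow_eq_one h3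
    rw [h4] at h5
    have h6 := one_lt_nm_of_prime hp.out
    have h7 := Nat.le_of_dvd (by omega) h5
    omega
  rcases cu_cases hnd with h | h | h
  · exact absurd h hne
  · exact ⟨x, h⟩
  · refine ⟨x ^ 2, ?_⟩
    rw [cu_pow hp.out hp3, h, ← pow_mul]
    calc w ^ (2 * 2) = w ^ 3 * w := by ring
      _ = w := by rw [w_cube, one_mul]

lemma chiP_ne_one {p : Eis} [hp : Fact (Prime p)] (hp3 : nm p % 3 = 1) : chiP p hp3 ≠ 1 := by
  intro h
  obtain ⟨x, hx⟩ := exists_cu_eq_w (p := p) hp3
  have hnd : ¬ p ∣ x := by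
    rw [← cu_eq_zero_iff, hx]
    intro h0
    have := congrArg QuadraticAlgebra.im h0
    simp at this
  have h1 : chiP p hp3 (rq p x) = 1 := by
    rw [h, MulChar.one_apply]
    rw [isUnit_iff_ne_zero, Ne, rq_eq_zero]
    exact hnd
  rw [chiP_rq, hx] at h1
  have := congrArg QuadraticAlgebra.im h1
  simp at this

/-- The Jacobi sum `J(χ, χ)`. -/
def Jac (p : Eis) [hp : Fact (Prime p)] (hp3 : nm p % 3 = 1) : Eis :=
  jacobiSum (chiP p hp3) (chiP p hp3)

/-- `p` divides its Jacobi sum. -/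
lemma dvd_Jac {p : Eis} [hp : Fact (Prime p)] (hp3 : nm p % 3 = 1) : p ∣ Jac p hp3 := by
  rw [← rq_eq_zero]
  set k := (nm p - 1) / 3 with hk
  have h1n := one_lt_nm_of_prime hp.out
  have hkpos : k ≠ 0 := by omega
  have key : ∀ a : Rq p, rq p (chiP p hp3 a) = a ^ k := by
    intro a
    obtain ⟨x, hx⟩ := Ideal.Quotient.mk_surjective a
    have ha : a = rq p x := hx.symm
    rw [ha, chiP_rq]
    by_cases hd : p ∣ x
    · rw [cu_of_dvd hd, rq_eq_zero.2 hd, zero_pow hkpos]
      exact map_zero _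
    · have h1 := cu_spec hp.out hp3 hd
      rw [← rq_eq] at h1
      rw [← h1]
      exact map_pow _ _ _
  have e1 : rq p (Jac p hp3) = ∑ x : Rq p, x ^ k * (1 - x) ^ k := by
    unfold Jac jacobiSum
    show Ideal.Quotient.mk _ _ = _
    rw [map_sum]
    refine Finset.sum_congr rfl fun x _ => ?_
    rw [map_mul]
    exact congrArg₂ (· * ·) (key x) (key (1 - x))
  rw [e1]
  have e2 : ∀ x : Rq p, x ^ k * (1 - x) ^ k
      = ∑ m ∈ Finset.range (k + 1), (((-1) ^ m * (k.choose m : Rq p)) * x ^ (k + m)) := by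
    intro x
    rw [sub_eq_add_neg, add_comm, add_pow, Finset.mul_sum]
    refine Finset.sum_congr rfl fun m _ => ?_
    rw [one_pow, mul_one, neg_pow, pow_add]
    ring
  simp_rw [e2]
  rw [Finset.sum_comm]
  refine Finset.sum_eq_zero fun m hm => ?_
  rw [← Finset.mul_sum, FiniteField.sum_pow_lt_card_sub_one, mul_zero]
  rw [card_Rq]
  have := Finset.mem_range.1 hm
  omega

end Crest.Agent.R012.Sym645
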