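import Crest.Agent.R012.Sym2_645

/-!
# Row 12, R2 (3): evaluation of the Jacobi sum, prime reciprocity
-/

set_option autoImplicit false

noncomputable section

open Crest.Agent.R012 Crest.Agent.R012.Eis

namespace Crest.Agent.R012.Sym645

/-- `w` is a primitive cube root of unity. -/
lemma isPrimitiveRoot_w : IsPrimitiveRoot w 3 := by
  refine (IsPrimitiveRoot.iff (by norm_num)).2 ⟨w_cube, ?_⟩
  intro l hl hl3 h
  interval_cases l
  · rw [pow_one] at h
    have := congrArg QuadraticAlgebra.im h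
    simp at this
  · rw [w_sq] at h
    have := congrArg QuadraticAlgebra.im h
    simp at this

lemma Jac_mod_three {p : Eis} [hp : Fact (Prime p)] (hp3 : nm p % 3 = 1) :
    (3 : Eis) ∣ Jac p hp3 + 1 := by
  have h3 : 3 ∣ Fintype.card (Rq p) - 1 := by
    rw [card_Rq]; omega
  obtain ⟨z, -, hz⟩ := exists_jacobiSum_eq_neg_one_add (F := Rq p) (R := Eis) (n := 3) (by norm_num)
    (chiP_cube hp3) (chiP_cube hp3) h3 isPrimitiveRoot_w
  refine ⟨-(z * w), ?_⟩
  unfold Jac
  rw [hz]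
  have := w_sq
  linear_combination z * this

lemma toC_conj' (z : Eis) : (starRingEnd ℂ) (toC z) = toC (Eis.conj z) := (toC_conj z).symm

/-- The norm of the Jacobi sum. -/
lemma nm_Jac {p : Eis} [hp : Fact (Prime p)] (hp3 : nm p % 3 = 1) : nm (Jac p hp3) = nm p := by
  set χ : MulChar (Rq p) ℂ := (chiP p hp3).ringHomComp toC with hχ
  have hχ3 : χ ^ 3 = 1 := by
    rw [hχ, MulChar.ringHomComp_pow, chiP_cube, MulChar.ringHomComp_one]
  have hχ1 : χ ≠ 1 := fun h => chiP_ne_one hp3 ((MulChar.ringHomComp_eq_one_iff toC_injective).1 h)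
  have hχ2 : χ * χ ≠ 1 := by
    intro h
    apply hχ1
    calc χ = χ * (χ * χ) := by rw [h, mul_one]
      _ = χ ^ 3 := by rw [pow_succ', pow_two]
      _ = 1 := hχ3
  have hchar : ringChar ℂ ≠ ringChar (Rq p) := by
    rw [ringChar.eq_zero]
    intro h
    have : Fact (ringChar (Rq p)).Prime := ⟨CharP.char_is_prime (Rq p) _⟩
    exact (this.out.ne_zero) h.symm
  have h1 := jacobiSum_mul_jacobiSum_inv (F' := ℂ) hchar hχ1 hχ1 hχ2
  have h2 : jacobiSum χ χ = toC (Jac p hp3) := jacobiSum_ringHomComp _ _ _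
  have h3 : jacobiSum χ⁻¹ χ⁻¹ = (starRingEnd ℂ) (toC (Jac p hp3)) := by
    rw [← h2]
    unfold jacobiSum
    rw [map_sum]
    refine Finset.sum_congr rfl fun x _ => ?_
    rw [map_mul]
    have e : ∀ y, χ⁻¹ y = (starRingEnd ℂ) (χ y) := by
      intro y
      rw [← MulChar.star_apply']
      rfl
    rw [e, e]
  rw [h2, h3, Complex.mul_conj, normSq_toC, card_Rq] at h1
  exact_mod_cast h1

/-- **Evaluation of the cubic Jacobi sum**: `J(χ,χ) = -p` for a primary prime `p`. -/
theorem Jac_eq {p : Eis} [hp : Fact (Prime p)] (hp3 : nm p % 3 = 1) (hprim : IsPrim p) :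
    Jac p hp3 = -p := by
  obtain ⟨u, hu⟩ := dvd_Jac (p := p) hp3
  have h1 : nm u = 1 := by
    have := nm_Jac (p := p) hp3
    rw [hu, nm_mul] at this
    have hpos := one_lt_nm_of_prime hp.out
    exact Nat.eq_of_mul_eq_mul_left (Nat.lt_of_lt_of_le Nat.zero_lt_one hpos.le)
      (by rw [this, mul_one])
  have h2 := Jac_mod_three (p := p) hp3
  rw [hu] at h2
  obtain ⟨t, ht⟩ := hprim
  have h3 : (3 : Eis) ∣ u + 1 := by
    have : u + 1 = (p * u + 1) - 3 * (t * u) := by
      linear_combination (-u) * ht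
    rw [this]
    exact dvd_sub h2 (dvd_mul_right _ _)
  have key : u = -1 := by
    have hnd : ∀ a b : ℤ, (3 : Eis) ∣ (⟨a, b⟩ : Eis) → (3 ∣ a ∧ 3 ∣ b) := by
      rintro a b ⟨s, hs⟩
      have h3re : (3 : Eis).re = 3 := rfl
      have h3im : (3 : Eis).im = 0 := rfl
      have hre := congrArg QuadraticAlgebra.re hs
      have him := congrArg QuadraticAlgebra.im hs
      rw [re_mul', h3re, h3im] at hre
      rw [im_mul', h3re, h3im] at him
      simp only at hre him
      constructor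
      · exact ⟨s.re, by rw [hre]; ring⟩
      · exact ⟨s.im, by rw [him]; ring⟩
    rcases isUnit_cases (isUnit_iff.2 h1) with h | h | h | h | h | h
    · exfalso
      rw [h] at h3
      have h4 : (1 + 1 : Eis) = ⟨2, 0⟩ := by apply ext' <;> simp
      rw [h4] at h3
      have := (hnd _ _ h3).1
      omega
    · exact h
    · exfalso
      rw [h] at h3
      have h4 : (w + 1 : Eis) = ⟨1, 1⟩ := by apply ext' <;> simp
      rw [h4] at h3
      have := (hnd _ _ h3).1
      omega
    · exfalso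
      rw [h] at h3
      have h4 : (-w + 1 : Eis) = ⟨1, -1⟩ := by apply ext' <;> simp
      rw [h4] at h3
      have := (hnd _ _ h3).1
      omega
    · exfalso
      rw [h, w_sq] at h3
      have h4 : (-1 - w + 1 : Eis) = ⟨0, -1⟩ := by apply ext' <;> simp
      rw [h4] at h3
      have := (hnd _ _ h3).2
      omega
    · exfalso
      rw [h, w_sq] at h3
      have h4 : (-(-1 - w) + 1 : Eis) = ⟨2, 1⟩ := by apply ext' <;> simp
      rw [h4] at h3
      have := (hnd _ _ h3).2
      omega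
  rw [hu, key]; ring

/-! ### prime reciprocity -/

lemma ringChar_Rq_dvd {p : Eis} [hp : Fact (Prime p)] : p ∣ ((ringChar (Rq p) : ℕ) : Eis) := by
  rw [← rq_eq_zero]
  have : ((ringChar (Rq p) : ℕ) : Rq p) = 0 := ringChar.Nat.cast_ringChar
  rw [← this]
  exact map_natCast _ _

lemma ringChar_ne {p q : Eis} [hp : Fact (Prime p)] [hq : Fact (Prime q)]
    (hcop : Nat.Coprime (nm p) (nm q)) : ringChar (Rq q) ≠ ringChar (Rq p) := by
  intro h
  obtain ⟨m, hl, hc⟩ := FiniteField.card (Rq q) (ringChar (Rq q))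
  obtain ⟨m', hl', hc'⟩ := FiniteField.card (Rq p) (ringChar (Rq p))
  rw [card_Rq] at hc hc'
  have h1 : ringChar (Rq q) ∣ nm q := by rw [hc]; exact dvd_pow_self _ m.pos.ne'
  have h2 : ringChar (Rq q) ∣ nm p := by rw [hc', h]; exact dvd_pow_self _ m'.pos.ne'
  have h3 := Nat.dvd_gcd h2 h1
  rw [hcop] at h3
  exact hl.one_lt.ne' (Nat.dvd_one.1 h3)

/-- Fundamental identity (E1). -/
theorem prime_identity {p q : Eis} (hp : Prime p) (hq : Prime q) (hpp : IsPrim p)
    (hq3 : nm q % 3 = 1) (hcop : Nat.Coprime (nm p) (nm q)) :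
    cu ((nm q : ℕ) : Eis) p * cu (((nm p : ℕ) : Eis) * p) q = 1 := by
  have : Fact (Prime p) := ⟨hp⟩
  have : Fact (Prime q) := ⟨hq⟩
  have hp3 := prim_nm_mod hpp
  -- the character with values in the residue field of q
  let f : Eis →+* Rq q := Ideal.Quotient.mk _
  have hf : ∀ x, f x = rq q x := fun x => rfl
  set χ : MulChar (Rq p) (Rq q) := (chiP p hp3).ringHomComp f with hχ
  have hχ3 : χ ^ 3 = 1 := by
    rw [hχ, MulChar.ringHomComp_pow, chiP_cube, MulChar.ringHomComp_one]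
  have hχ1 : χ ≠ 1 := by
    intro h
    obtain ⟨x, hx⟩ := exists_cu_eq_w (p := p) hp3
    have hnd : ¬ p ∣ x := by
      rw [← cu_eq_zero_iff, hx]
      intro h0
      have := congrArg QuadraticAlgebra.im h0
      simp at this
    have h1 : χ (rq p x) = 1 := by
      rw [h, MulChar.one_apply]
      rw [isUnit_iff_ne_zero, Ne, rq_eq_zero]
      exact hnd
    rw [hχ, MulChar.ringHomComp_apply, chiP_rq, hx] at h1
    have h2 : rq q w = rq q 1 := by
      rw [← hf, h1]; exact (map_one _).symm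
    rw [rq_eq] at h2
    have := root_unique hq hq3 (Or.inr (Or.inl rfl)) (Or.inl rfl) h2
    have := congrArg QuadraticAlgebra.im this
    simp at this
  have hK : Fintype.card (Rq q) % 3 = 1 := by rw [card_Rq]; exact hq3
  have main := frob_identity (ringChar_ne hcop) χ hχ3 hχ1 hK
  have hJ : jacobiSum χ χ = f (Jac p hp3) := jacobiSum_ringHomComp _ _ _
  rw [hJ, Jac_eq hp3 hpp, card_Rq, card_Rq] at main
  have e1 : χ ((nm q : ℕ) : Rq p) = rq q (cu ((nm q : ℕ) : Eis) p) := by
    have : ((nm q : ℕ) : Rq p) = rq p ((nm q : ℕ) : Eis) := (map_natCast _ _).symm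
    rw [this, hχ, MulChar.ringHomComp_apply, chiP_rq]
  have hnd : ¬ q ∣ ((nm p : ℕ) : Eis) * p := by
    intro hd
    have h1 : nm q ∣ nm (((nm p : ℕ) : Eis) * p) := by
      obtain ⟨t, ht⟩ := hd
      rw [ht, nm_mul]; exact dvd_mul_right _ _
    rw [nm_mul, nm_natCast, ← pow_succ] at h1
    have h2 : Nat.Coprime (nm q) (nm p ^ 3) := (hcop.symm).pow_right 3
    have h3 := Nat.Coprime.eq_one_of_dvd h2 h1
    exact nm_ne_one_of_prime hq h3
  have e2 : (((nm p : ℕ) : Rq q) * f (-p)) ^ ((nm q - 1) / 3)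
      = rq q (cu (((nm p : ℕ) : Eis) * p) q) := by
    have h1 : ((nm p : ℕ) : Rq q) * f (-p) = rq q (-(((nm p : ℕ) : Eis) * p)) := by
      have : ((nm p : ℕ) : Rq q) = f ((nm p : ℕ) : Eis) := (map_natCast _ _).symm
      rw [this, ← map_mul, hf]
      congr 1; ring
    rw [h1]
    have hnd' : ¬ q ∣ -(((nm p : ℕ) : Eis) * p) := by rwa [dvd_neg]
    have h2 := cu_spec hq hq3 hnd'
    rw [← rq_eq, cu_neg hq hq3] at h2
    rw [← h2]
    exact (map_pow _ _ _).symm
  rw [e1, e2] at main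
  have h3 : rq q (cu ((nm q : ℕ) : Eis) p * cu (((nm p : ℕ) : Eis) * p) q) = rq q 1 := by
    have h4 : rq q (cu ((nm q : ℕ) : Eis) p * cu (((nm p : ℕ) : Eis) * p) q)
      = rq q (cu ((nm q : ℕ) : Eis) p) * rq q (cu (((nm p : ℕ) : Eis) * p) q) := map_mul _ _ _
    rw [h4, main]; exact (map_one _).symm
  rw [rq_eq] at h3
  have hnd2 : ¬ p ∣ ((nm q : ℕ) : Eis) := by
    intro hd
    have h1 : nm p ∣ nm ((nm q : ℕ) : Eis) := by
      obtain ⟨t, ht⟩ := hd
      rw [ht, nm_mul]; exact dvd_mul_right _ _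
    rw [nm_natCast] at h1
    have h2 : Nat.Coprime (nm p) (nm q ^ 2) := hcop.pow_right 2
    have h3 := Nat.Coprime.eq_one_of_dvd h2 h1
    exact nm_ne_one_of_prime hp h3
  exact root_unique hq hq3 (roots_mul (cu_cases hnd2) (cu_cases hnd)) (Or.inl rfl) h3

end Crest.Agent.R012.Sym645
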