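import Crest.Agent.R012.NonCubeW_52
import Crest.Agent.R012.Div_277
import Crest.Agent.R012.Sym6_645

/-!
# Row 12, item T8: large sieve lemma with weight `(1 + nm h / K)^(-4)` over all `h ≠ 0`

* `kernel_min` : kernels of norm `≤ V`, few `b` : `≤ C (V^(1/3) N^(2/3) ν^(1/3) + V²) E`,
* `cutoff_min` : all `h ≠ 0`, `nm h ≤ Y`,
* `LSH` : weighted version (exact text of helper810).
-/

set_option autoImplicit false
set_option linter.unusedVariables false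
set_option linter.unusedSectionVars false

noncomputable section

namespace Crest.Agent.R012.LS879

open Finset Eis LS448 CharSum852 Char766 NonCube52

lemma min_le_geom {x y : ℝ} (hx : 0 ≤ x) (hy : 0 ≤ y) :
    min x y ≤ x ^ ((2 : ℝ) / 3) * y ^ ((1 : ℝ) / 3) := by
  have hm : 0 ≤ min x y := le_min hx hy
  calc min x y = (min x y) ^ ((2 : ℝ) / 3) * (min x y) ^ ((1 : ℝ) / 3) := by
        rcases hm.eq_or_lt with h | h
        · rw [← h, Real.zero_rpow (by norm_num)]; simp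
        · rw [← Real.rpow_add h]; norm_num
    _ ≤ x ^ ((2 : ℝ) / 3) * y ^ ((1 : ℝ) / 3) := by
        gcongr
        · exact min_le_left _ _
        · exact min_le_right _ _

lemma kernel_min (H : SyFacts) : ∃ C : ℝ, 0 < C ∧ ∀ V N ν : ℝ, 1 ≤ V → 1 ≤ N → 1 ≤ ν →
    ∀ 𝒦 : Finset Ker, (∀ κ ∈ 𝒦, NonCube52.Good κ ∧ (nm (kv κ) : ℝ) ≤ V) → Set.InjOn kv (𝒦 : Set Ker) →
    ∀ T : Finset Eis, (∀ b ∈ T, IsPrim b ∧ (nm b : ℝ) ≤ 2 * N) → (T.card : ℝ) ≤ ν →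
    ∀ β : Eis → ℂ,
    ∑ κ ∈ 𝒦, ‖∑ b ∈ T, β b * sy (kv κ) b‖ ^ 2
      ≤ C * (V ^ ((1 : ℝ) / 3) * (N ^ ((2 : ℝ) / 3) * ν ^ ((1 : ℝ) / 3)) + V ^ 2) *
        ∑ b ∈ T, ‖β b‖ ^ 2 := by
  classical
  obtain ⟨C1, hC1, hL⟩ := L1Prop_holds
  refine ⟨(2 * C1) ^ ((2 : ℝ) / 3) * 16 ^ ((1 : ℝ) / 3) + C1, by positivity, ?_⟩
  intro V N ν hV hN hν 𝒦 h𝒦 hinj T hT hcard β
  set E : ℝ := ∑ b ∈ T, ‖β b‖ ^ 2 with hE
  have hE0 : 0 ≤ E := sum_nonneg fun _ _ => by positivity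
  have hV0 : 0 < V := by linarith
  have hN0 : 0 < N := by linarith
  have hν0 : 0 < ν := by linarith
  set S : ℝ := ∑ κ ∈ 𝒦, ‖∑ b ∈ T, β b * sy (kv κ) b‖ ^ 2 with hS
  -- multiplicative large sieve
  have h1 : S ≤ C1 * (2 * N + V ^ 2) * E :=
    hL (2 * N) V (by linarith) hV 𝒦
      (fun κ hκ => ⟨(h𝒦 κ hκ).1, (cond_le' (h𝒦 κ hκ).1).trans (h𝒦 κ hκ).2⟩) T hT β
  -- trivial bound
  have hk : (#𝒦 : ℝ) ≤ 16 * V := by
    have h2 : #𝒦 ≤ #(nz V) := by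
      rw [← card_image_of_injOn hinj]
      refine card_le_card fun x hx => ?_
      rw [mem_image] at hx
      obtain ⟨κ, hκ, rfl⟩ := hx
      rw [mem_nz]
      exact ⟨kv_ne_zero (h𝒦 κ hκ).1, (h𝒦 κ hκ).2⟩
    calc (#𝒦 : ℝ) ≤ #(nz V) := by exact_mod_cast h2
      _ ≤ 16 * V := card_nz_le16 hV0.le
  have h2 : S ≤ 16 * V * ν * E := by
    have h3 : ∀ κ ∈ 𝒦, ‖∑ b ∈ T, β b * sy (kv κ) b‖ ^ 2 ≤ ν * E := by
      intro κ hκ
      have h4 : ‖∑ b ∈ T, β b * sy (kv κ) b‖ ≤ ∑ b ∈ T, ‖β b‖ := by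
        refine (norm_sum_le _ _).trans (sum_le_sum fun b hb => ?_)
        rw [norm_mul]
        exact mul_le_of_le_one_right (norm_nonneg _) (norm_sy_le H _ _ (hT b hb).1)
      calc ‖∑ b ∈ T, β b * sy (kv κ) b‖ ^ 2 ≤ (∑ b ∈ T, ‖β b‖) ^ 2 := by gcongr
        _ ≤ #T * ∑ b ∈ T, ‖β b‖ ^ 2 := sq_sum_le_card_mul_sum_sq
        _ ≤ ν * E := by gcongr
    calc S ≤ ∑ κ ∈ 𝒦, ν * E := sum_le_sum h3
      _ = #𝒦 * (ν * E) := by rw [sum_const, nsmul_eq_mul]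
      _ ≤ 16 * V * (ν * E) := by gcongr
      _ = 16 * V * ν * E := by ring
  -- combination
  have h3 : S ≤ min (2 * C1 * N) (16 * (V * ν)) * E + C1 * V ^ 2 * E := by
    have hp : 0 ≤ C1 * V ^ 2 * E := by positivity
    rcases le_total (2 * C1 * N) (16 * (V * ν)) with h | h
    · rw [min_eq_left h]
      calc S ≤ C1 * (2 * N + V ^ 2) * E := h1
        _ = _ := by ring
    · rw [min_eq_right h]
      calc S ≤ 16 * V * ν * E := h2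
        _ = 16 * (V * ν) * E := by ring
        _ ≤ _ := by linarith
  have h4 := min_le_geom (x := 2 * C1 * N) (y := 16 * (V * ν)) (by positivity) (by positivity)
  have h5 : (2 * C1 * N) ^ ((2 : ℝ) / 3) * (16 * (V * ν)) ^ ((1 : ℝ) / 3)
      = ((2 * C1) ^ ((2 : ℝ) / 3) * 16 ^ ((1 : ℝ) / 3)) *
        (V ^ ((1 : ℝ) / 3) * (N ^ ((2 : ℝ) / 3) * ν ^ ((1 : ℝ) / 3))) := by
    rw [Real.mul_rpow (x := 2 * C1) (y := N) (by positivity) (by positivity),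
      Real.mul_rpow (x := 16) (y := V * ν) (by norm_num) (by positivity),
      Real.mul_rpow (x := V) (y := ν) (by positivity) (by positivity)]
    ring
  rw [h5] at h4
  set P : ℝ := V ^ ((1 : ℝ) / 3) * (N ^ ((2 : ℝ) / 3) * ν ^ ((1 : ℝ) / 3)) with hP
  have hP0 : 0 ≤ P := by positivity
  set D : ℝ := (2 * C1) ^ ((2 : ℝ) / 3) * 16 ^ ((1 : ℝ) / 3) with hD
  have hD0 : 0 ≤ D := by positivity
  calc S ≤ min (2 * C1 * N) (16 * (V * ν)) * E + C1 * V ^ 2 * E := h3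
    _ ≤ (D * P) * E + C1 * V ^ 2 * E := by gcongr
    _ ≤ (D * P) * E + C1 * V ^ 2 * E + (D * V ^ 2 * E + C1 * P * E) := by
        have : 0 ≤ D * V ^ 2 * E + C1 * P * E := by positivity
        linarith
    _ = (D + C1) * (P + V ^ 2) * E := by ring

/-- all `h ≠ 0` with `nm h ≤ Y`. -/
lemma cutoff_min (H : SyFacts) : ∃ C : ℝ, 0 < C ∧ ∀ Y N ν : ℝ, 1 ≤ Y → 1 ≤ N → 1 ≤ ν →
    ∀ S : Finset Eis, (∀ h ∈ S, h ≠ 0 ∧ (nm h : ℝ) ≤ Y) →
    ∀ T : Finset Eis, (∀ b ∈ T, IsPrim b ∧ (nm b : ℝ) ≤ 2 * N) → (T.card : ℝ) ≤ ν →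
    ∀ β : Eis → ℂ,
    ∑ h ∈ S, ‖∑ b ∈ T, β b * sy h b‖ ^ 2
      ≤ C * ((1 + Real.log Y) * (Y ^ ((1 : ℝ) / 3) * (N ^ ((2 : ℝ) / 3) * ν ^ ((1 : ℝ) / 3)))
        + Y ^ 2) * ∑ b ∈ T, ‖β b‖ ^ 2 := by
  classical
  obtain ⟨C1, hC1, hk⟩ := kernel_min H
  obtain ⟨C3, hC3, hsum⟩ := sum_nz_43
  refine ⟨C1 * (100 + C3), by positivity, ?_⟩
  intro Y N ν hY hN hν S hS T hT hcard β
  set E : ℝ := ∑ b ∈ T, ‖β b‖ ^ 2 with hE
  have hE0 : 0 ≤ E := sum_nonneg fun _ _ => by positivity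
  have hY0 : 0 < Y := by linarith
  set P : ℝ := N ^ ((2 : ℝ) / 3) * ν ^ ((1 : ℝ) / 3) with hP
  have hP0 : 0 ≤ P := by positivity
  -- facts on the cofactor
  have hm3 : ∀ h ∈ S, (nm (kc h).2 : ℝ) ^ 3 ≤ Y ∧
      (nm (kv (kc h).1) : ℝ) ≤ Y / (nm (kc h).2 : ℝ) ^ 3 := by
    intro h hh
    obtain ⟨h0, h1⟩ := hS h hh
    obtain ⟨s1, s2, s3, s4⟩ := kc_spec h0
    have e1 := kc_nm h0
    have e2 := one_le_nmkv s1
    have e3 : (1 : ℝ) ≤ nm (kc h).2 := one_le_nm' s2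
    have e4 : (0 : ℝ) < (nm (kc h).2 : ℝ) ^ 3 := by positivity
    constructor
    · nlinarith
    · rw [le_div_iff₀ e4, e1]; exact h1
  have hmaps : ∀ h ∈ S, (kc h).2 ∈ Div277.nz ⌊Y⌋₊ := by
    intro h hh
    obtain ⟨h0, h1⟩ := hS h hh
    obtain ⟨s1, s2, s3, s4⟩ := kc_spec h0
    rw [Div277.mem_nz]
    refine ⟨s2, Nat.le_floor ?_⟩
    have e3 : (1 : ℝ) ≤ nm (kc h).2 := one_le_nm' s2
    have e4 := (hm3 h hh).1
    nlinarith [sq_nonneg ((nm (kc h).2 : ℝ) - 1)]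
  rw [← sum_fiberwise_of_maps_to hmaps]
  have hone : ∀ m ∈ Div277.nz ⌊Y⌋₊,
      ∑ h ∈ S with (kc h).2 = m, ‖∑ b ∈ T, β b * sy h b‖ ^ 2
        ≤ C1 * (Y ^ ((1 : ℝ) / 3) * P * (1 / (nm m : ℝ)) +
          Y ^ 2 * (nm m : ℝ) ^ (-(4 : ℝ) / 3)) * E := by
    intro m hm
    rw [Div277.mem_nz] at hm
    have hm0 : (1 : ℝ) ≤ nm m := one_le_nm' hm.1
    have hmp : (0 : ℝ) < nm m := by linarith
    have hR0 : 0 ≤ C1 * (Y ^ ((1 : ℝ) / 3) * P * (1 / (nm m : ℝ)) +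
          Y ^ 2 * (nm m : ℝ) ^ (-(4 : ℝ) / 3)) * E := by positivity
    rcases (S.filter (fun h => (kc h).2 = m)).eq_empty_or_nonempty with hem | ⟨h1, hh1⟩
    · rw [hem, sum_empty]; exact hR0
    set V : ℝ := Y / (nm m : ℝ) ^ 3 with hVdef
    have hV1 : 1 ≤ V := by
      rw [mem_filter] at hh1
      have := (hm3 h1 hh1.1).1
      rw [hh1.2] at this
      rw [hVdef, le_div_iff₀ (by positivity)]
      linarith
    set S1 := S.filter (fun h => (kc h).2 = m) with hS1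
    have hinj0 : Set.InjOn (fun h => (kc h).1) (S1 : Set Eis) := by
      intro a ha b hb hab
      have ha' := mem_filter.mp (by simpa [hS1] using ha : a ∈ S1)
      have hb' := mem_filter.mp (by simpa [hS1] using hb : b ∈ S1)
      have e1 := (kc_spec (hS a ha'.1).1).2.2.1
      have e2 := (kc_spec (hS b hb'.1).1).2.2.1
      simp only at hab
      rw [e1, e2, hab, ha'.2, hb'.2]
    set 𝒦 : Finset Ker := S1.image (fun h => (kc h).1) with h𝒦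
    have hinj : Set.InjOn kv (𝒦 : Set Ker) := by
      intro a ha b hb hab
      rw [h𝒦, mem_coe, mem_image] at ha hb
      obtain ⟨x, hx, rfl⟩ := ha
      obtain ⟨y, hy, rfl⟩ := hb
      have hx' := mem_filter.mp hx
      have hy' := mem_filter.mp hy
      have e1 := (kc_spec (hS x hx'.1).1).2.2.1
      have e2 := (kc_spec (hS y hy'.1).1).2.2.1
      have : x = y := by rw [e1, e2, hab, hx'.2, hy'.2]
      rw [this]
    have hgood : ∀ κ ∈ 𝒦, NonCube52.Good κ ∧ (nm (kv κ) : ℝ) ≤ V := by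
      intro κ hκ
      rw [h𝒦, mem_image] at hκ
      obtain ⟨h, hh, rfl⟩ := hκ
      rw [hS1, mem_filter] at hh
      refine ⟨(kc_spec (hS h hh.1).1).1, ?_⟩
      have := (hm3 h hh.1).2
      rw [hh.2] at this
      exact this
    have hmain := hk V N ν hV1 hN hν 𝒦 hgood hinj T hT hcard
      (fun b => β b * (if IsCoprime m b then (1 : ℂ) else 0))
    rw [h𝒦, sum_image hinj0] at hmain
    have hEm : ∑ b ∈ T, ‖β b * (if IsCoprime m b then (1 : ℂ) else 0)‖ ^ 2 ≤ E := by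
      refine sum_le_sum fun b _ => ?_
      split_ifs
      · rw [mul_one]
      · rw [mul_zero, norm_zero]
        have := norm_nonneg (β b)
        nlinarith
    have hV13 : V ^ ((1 : ℝ) / 3) = Y ^ ((1 : ℝ) / 3) * (1 / (nm m : ℝ)) := by
      rw [hVdef, Real.div_rpow hY0.le (by positivity), ← Real.rpow_natCast,
        ← Real.rpow_mul hmp.le]
      norm_num
      rfl
    have hV2 : V ^ 2 ≤ Y ^ 2 * (nm m : ℝ) ^ (-(4 : ℝ) / 3) := by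
      rw [hVdef, div_pow, ← pow_mul, div_eq_mul_inv]
      gcongr
      rw [← Real.rpow_natCast, ← Real.rpow_neg hmp.le]
      exact Real.rpow_le_rpow_of_exponent_le hm0 (by norm_num)
    calc ∑ h ∈ S1, ‖∑ b ∈ T, β b * sy h b‖ ^ 2
        = ∑ h ∈ S1, ‖∑ b ∈ T, β b * (if IsCoprime m b then (1 : ℂ) else 0) *
            sy (kv (kc h).1) b‖ ^ 2 := by
          refine sum_congr rfl fun h hh => ?_
          rw [hS1, mem_filter] at hh
          congr 2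
          refine sum_congr rfl fun b hb => ?_
          rw [sy_kc H (hS h hh.1).1 (hT b hb).1, hh.2, ← mul_assoc]
      _ ≤ _ := hmain
      _ ≤ C1 * (V ^ ((1 : ℝ) / 3) * P + V ^ 2) * E := by gcongr
      _ ≤ C1 * (Y ^ ((1 : ℝ) / 3) * P * (1 / (nm m : ℝ)) +
          Y ^ 2 * (nm m : ℝ) ^ (-(4 : ℝ) / 3)) * E := by
          rw [hV13, show Y ^ ((1 : ℝ) / 3) * (1 / (nm m : ℝ)) * P
            = Y ^ ((1 : ℝ) / 3) * P * (1 / (nm m : ℝ)) by ring]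
          gcongr
  have hs1 : ∑ m ∈ Div277.nz ⌊Y⌋₊, (1 / (nm m : ℝ)) ≤ 100 * (1 + Real.log Y) := by
    refine (Div277.sum_inv_nz_le ⌊Y⌋₊).trans ?_
    have hf : (0 : ℝ) < ⌊Y⌋₊ := by
      exact_mod_cast Nat.floor_pos.mpr hY
    have := Real.log_le_log hf (Nat.floor_le hY0.le)
    linarith
  have hs2 : ∑ m ∈ Div277.nz ⌊Y⌋₊, (nm m : ℝ) ^ (-(4 : ℝ) / 3) ≤ C3 := by
    refine le_trans (sum_le_sum_of_subset_of_nonneg (t := nz Y) ?_ (fun _ _ _ => by positivity))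
      (hsum Y)
    intro z hz
    rw [Div277.mem_nz] at hz
    rw [mem_nz]
    exact ⟨hz.1, le_trans (by exact_mod_cast hz.2) (Nat.floor_le hY0.le)⟩
  have hlog : 0 ≤ Real.log Y := Real.log_nonneg hY
  calc _ ≤ ∑ m ∈ Div277.nz ⌊Y⌋₊, C1 * (Y ^ ((1 : ℝ) / 3) * P * (1 / (nm m : ℝ)) +
          Y ^ 2 * (nm m : ℝ) ^ (-(4 : ℝ) / 3)) * E := sum_le_sum hone
    _ = C1 * (Y ^ ((1 : ℝ) / 3) * P * ∑ m ∈ Div277.nz ⌊Y⌋₊, (1 / (nm m : ℝ)) +
          Y ^ 2 * ∑ m ∈ Div277.nz ⌊Y⌋₊, (nm m : ℝ) ^ (-(4 : ℝ) / 3)) * E := by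
        rw [← sum_mul, ← mul_sum, sum_add_distrib, ← mul_sum, ← mul_sum]
    _ ≤ C1 * (Y ^ ((1 : ℝ) / 3) * P * (100 * (1 + Real.log Y)) + Y ^ 2 * C3) * E := by gcongr
    _ ≤ C1 * (Y ^ ((1 : ℝ) / 3) * P * (100 * (1 + Real.log Y)) + Y ^ 2 * C3) * E
        + C1 * (C3 * ((1 + Real.log Y) * (Y ^ ((1 : ℝ) / 3) * P)) + 100 * Y ^ 2) * E := by
        have : 0 ≤ C1 * (C3 * ((1 + Real.log Y) * (Y ^ ((1 : ℝ) / 3) * P)) + 100 * Y ^ 2) * E := by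
          positivity
        linarith
    _ = _ := by ring

/-- every `K > 0`, all dyadic multiples. -/
lemma cutoff_dyadic (H : SyFacts) : ∃ C : ℝ, 0 < C ∧ ∀ (K N ν : ℝ) (j : ℕ), 0 < K → 1 ≤ N →
    1 ≤ ν → ∀ S : Finset Eis, (∀ h ∈ S, h ≠ 0 ∧ (nm h : ℝ) ≤ 2 ^ j * K) →
    ∀ T : Finset Eis, (∀ b ∈ T, IsPrim b ∧ (nm b : ℝ) ≤ 2 * N) → (T.card : ℝ) ≤ ν →
    ∀ β : Eis → ℂ,
    ∑ h ∈ S, ‖∑ b ∈ T, β b * sy h b‖ ^ 2
      ≤ C * 4 ^ j * ((1 + Real.log (1 + K)) *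
        (K ^ ((1 : ℝ) / 3) * (N ^ ((2 : ℝ) / 3) * ν ^ ((1 : ℝ) / 3)))
        + K ^ 2) * ∑ b ∈ T, ‖β b‖ ^ 2 := by
  classical
  obtain ⟨C1, hC1, hk⟩ := cutoff_min H
  refine ⟨C1, hC1, ?_⟩
  intro K N ν j hK hN hν S hS T hT hcard β
  set E : ℝ := ∑ b ∈ T, ‖β b‖ ^ 2 with hE
  have hE0 : 0 ≤ E := sum_nonneg fun _ _ => by positivity
  have hlogK : 0 ≤ Real.log (1 + K) := Real.log_nonneg (by linarith)
  rcases S.eq_empty_or_nonempty with hem | ⟨h1, hh1⟩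
  · rw [hem, sum_empty]; positivity
  set Y : ℝ := 2 ^ j * K with hYdef
  have hY : 1 ≤ Y := (one_le_nm' (hS h1 hh1).1).trans (hS h1 hh1).2
  have hY0 : 0 < Y := by linarith
  have h0 := hk Y N ν hY hN hν S hS T hT hcard β
  set P : ℝ := N ^ ((2 : ℝ) / 3) * ν ^ ((1 : ℝ) / 3) with hP
  have hP0 : 0 ≤ P := by positivity
  refine h0.trans ?_
  have hl : 1 + Real.log Y ≤ 2 ^ j * (1 + Real.log (1 + K)) := by
    have e1 : Real.log Y = j * Real.log 2 + Real.log K := by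
      rw [hYdef, Real.log_mul (by positivity) hK.ne', Real.log_pow]
    have e2 : Real.log K ≤ Real.log (1 + K) := Real.log_le_log hK (by linarith)
    have e3 : (1 : ℝ) + j ≤ 2 ^ j := by
      have : j + 1 ≤ 2 ^ j := Nat.lt_two_pow_self
      have : ((j + 1 : ℕ) : ℝ) ≤ 2 ^ j := by exact_mod_cast this
      push_cast at this; linarith
    have e4 : Real.log 2 ≤ 1 := by
      have := Real.log_two_lt_d9; linarith
    have e5 : (j : ℝ) * Real.log 2 ≤ j := by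
      have : (0 : ℝ) ≤ j := by positivity
      nlinarith
    have e6 : (1 : ℝ) ≤ 2 ^ j := one_le_pow₀ (by norm_num)
    rw [e1]
    nlinarith
  have hy : Y ^ ((1 : ℝ) / 3) ≤ 2 ^ j * K ^ ((1 : ℝ) / 3) := by
    rw [hYdef, Real.mul_rpow (by positivity) hK.le]
    gcongr
    have e6 : (1 : ℝ) ≤ 2 ^ j := one_le_pow₀ (by norm_num)
    calc ((2 : ℝ) ^ j) ^ ((1 : ℝ) / 3) ≤ ((2 : ℝ) ^ j) ^ (1 : ℝ) :=
          Real.rpow_le_rpow_of_exponent_le e6 (by norm_num)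
      _ = 2 ^ j := Real.rpow_one _
  have h4 : (4 : ℝ) ^ j = 2 ^ j * 2 ^ j := by rw [← mul_pow]; norm_num
  have hlogY : 0 ≤ Real.log Y := Real.log_nonneg hY
  calc C1 * ((1 + Real.log Y) * (Y ^ ((1 : ℝ) / 3) * P) + Y ^ 2) * E
      ≤ C1 * ((2 ^ j * (1 + Real.log (1 + K))) * ((2 ^ j * K ^ ((1 : ℝ) / 3)) * P) +
        (2 ^ j * K) ^ 2) * E := by gcongr
    _ = C1 * 4 ^ j * ((1 + Real.log (1 + K)) * (K ^ ((1 : ℝ) / 3) * P) + K ^ 2) * E := by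
        rw [h4]; ring

/-- **The large sieve lemma of T8** (exact text of helper810). -/
theorem LSH : ∃ C : ℝ, 0 < C ∧ ∀ (K N ν : ℝ) (T H : Finset Eis) (c : Eis → ℂ), 0 < K → 1 ≤ N →
    1 ≤ ν → (∀ k ∈ T, IsPrim k ∧ Squarefree k ∧ (nm k : ℝ) ≤ 2 * N) → (T.card : ℝ) ≤ ν →
    (∀ h ∈ H, h ≠ 0) →
    ∑ h ∈ H, ((1 + nm h / K) ^ 4)⁻¹ * ‖∑ k ∈ T, c k * sy h k‖ ^ 2 ≤
      C * (1 + Real.log (1 + K)) *
        (K ^ ((1:ℝ)/3) * N ^ ((2:ℝ)/3) * ν ^ ((1:ℝ)/3) + K + K ^ 2) * ∑ k ∈ T, ‖c k‖ ^ 2 := by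
  classical
  obtain ⟨C1, hC1, hk⟩ := cutoff_dyadic Sym645.syFacts
  refine ⟨C1 * 256 * 2, by positivity, ?_⟩
  intro K N ν T H c hK hN hν hT hcard hH
  set E : ℝ := ∑ b ∈ T, ‖c b‖ ^ 2 with hE
  have hE0 : 0 ≤ E := sum_nonneg fun _ _ => by positivity
  have hlogK : 0 ≤ Real.log (1 + K) := Real.log_nonneg (by linarith)
  set P : ℝ := N ^ ((2 : ℝ) / 3) * ν ^ ((1 : ℝ) / 3) with hP
  have hP0 : 0 ≤ P := by positivity
  set f : Eis → ℝ := fun h => ‖∑ k ∈ T, c k * sy h k‖ ^ 2 with hf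
  have hf0 : ∀ h, 0 ≤ f h := fun h => by rw [hf]; positivity
  -- the dyadic index of `h`
  have hex : ∀ h : Eis, ∃ j : ℕ, (nm h : ℝ) ≤ 2 ^ j * K := by
    intro h
    obtain ⟨j, hj⟩ := pow_unbounded_of_one_lt ((nm h : ℝ) / K) (by norm_num : (1 : ℝ) < 2)
    exact ⟨j, by rw [← div_le_iff₀ hK]; exact hj.le⟩
  set ix : Eis → ℕ := fun h => Nat.find (hex h) with hix
  have hix1 : ∀ h, (nm h : ℝ) ≤ 2 ^ ix h * K := fun h => Nat.find_spec (hex h)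
  have hw : ∀ h, ((1 + nm h / K) ^ 4)⁻¹ ≤ 16 * (16⁻¹ : ℝ) ^ ix h := by
    intro h
    have hn : (0 : ℝ) ≤ nm h / K := by positivity
    rcases Nat.eq_zero_or_pos (ix h) with h0 | h0
    · rw [h0, pow_zero]
      have : (1 : ℝ) ≤ (1 + nm h / K) ^ 4 := one_le_pow₀ (by linarith)
      have := inv_le_one_of_one_le₀ this
      linarith
    · obtain ⟨i, hi⟩ : ∃ i, ix h = i + 1 := ⟨ix h - 1, by omega⟩
      have h1 : ¬ (nm h : ℝ) ≤ 2 ^ i * K := Nat.find_min (hex h) (by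
        show i < ix h
        omega)
      rw [not_le] at h1
      have h2 : (2 : ℝ) ^ i ≤ 1 + nm h / K := by
        have : (2 : ℝ) ^ i < nm h / K := by rw [lt_div_iff₀ hK]; exact h1
        linarith
      have h3 : ((2 : ℝ) ^ i) ^ 4 ≤ (1 + nm h / K) ^ 4 := by gcongr
      have h4 : ((1 + nm h / K) ^ 4)⁻¹ ≤ (((2 : ℝ) ^ i) ^ 4)⁻¹ :=
        inv_anti₀ (by positivity) h3
      refine h4.trans (le_of_eq ?_)
      have h5 : ((2 : ℝ) ^ i) ^ 4 = 16 ^ i := by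
        rw [← pow_mul, mul_comm, pow_mul]; norm_num
      rw [h5, hi, inv_pow, pow_succ (16 : ℝ), mul_inv]
      ring
  obtain ⟨J, hJ⟩ : ∃ J : ℕ, ∀ h ∈ H, ix h ∈ range J := by
    refine ⟨H.sup ix + 1, fun h hh => ?_⟩
    rw [mem_range, Nat.lt_succ_iff]
    exact le_sup (f := ix) hh
  set Q : ℝ := (1 + Real.log (1 + K)) * (K ^ ((1 : ℝ) / 3) * P) + K ^ 2 with hQ
  have hQ0 : 0 ≤ Q := by positivity
  have hT' : ∀ b ∈ T, IsPrim b ∧ (nm b : ℝ) ≤ 2 * N := fun b hb => ⟨(hT b hb).1, (hT b hb).2.2⟩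
  have hmain : ∑ h ∈ H, ((1 + nm h / K) ^ 4)⁻¹ * f h ≤ C1 * 16 * 2 * Q * E := by
    calc ∑ h ∈ H, ((1 + nm h / K) ^ 4)⁻¹ * f h
        ≤ ∑ h ∈ H, 16 * (16⁻¹ : ℝ) ^ ix h * f h :=
          sum_le_sum fun h _ => mul_le_mul_of_nonneg_right (hw h) (hf0 h)
      _ = ∑ j ∈ range J, ∑ h ∈ H with ix h = j, 16 * (16⁻¹ : ℝ) ^ ix h * f h :=
          (sum_fiberwise_of_maps_to hJ _).symm
      _ ≤ ∑ j ∈ range J, 16 * (16⁻¹ : ℝ) ^ j * (C1 * 4 ^ j * Q * E) := by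
          refine sum_le_sum fun j _ => ?_
          have h1 : ∑ h ∈ H with ix h = j, 16 * (16⁻¹ : ℝ) ^ ix h * f h
              = 16 * (16⁻¹ : ℝ) ^ j * ∑ h ∈ H with ix h = j, f h := by
            rw [mul_sum]
            refine sum_congr rfl fun h hh => ?_
            rw [(mem_filter.mp hh).2]
          rw [h1]
          refine mul_le_mul_of_nonneg_left ?_ (by positivity)
          refine hk K N ν j hK hN hν _ (fun h hh => ?_) T hT' hcard c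
          rw [mem_filter] at hh
          refine ⟨hH h hh.1, ?_⟩
          have := hix1 h
          rw [hh.2] at this
          exact this
      _ = C1 * 16 * Q * E * ∑ j ∈ range J, (4⁻¹ : ℝ) ^ j := by
          rw [mul_sum]
          refine sum_congr rfl fun j _ => ?_
          have : (4⁻¹ : ℝ) ^ j = (16⁻¹ : ℝ) ^ j * 4 ^ j := by
            rw [← mul_pow]; norm_num
          rw [this]; ring
      _ ≤ C1 * 16 * Q * E * 2 := by
          gcongr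
          calc ∑ j ∈ range J, (4⁻¹ : ℝ) ^ j ≤ ∑' j : ℕ, (4⁻¹ : ℝ) ^ j :=
                Summable.sum_le_tsum _ (fun _ _ => by positivity)
                  (summable_geometric_of_lt_one (by norm_num) (by norm_num))
            _ = (1 - 4⁻¹)⁻¹ := tsum_geometric_of_lt_one (by norm_num) (by norm_num)
            _ ≤ 2 := by norm_num
      _ = C1 * 16 * 2 * Q * E := by ring
  refine hmain.trans ?_
  have hQ2 : Q ≤ (1 + Real.log (1 + K)) *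
      (K ^ ((1:ℝ)/3) * N ^ ((2:ℝ)/3) * ν ^ ((1:ℝ)/3) + K + K ^ 2) := by
    rw [hQ]
    have e1 : 0 ≤ Real.log (1 + K) * K ^ 2 := by positivity
    have e2 : 0 ≤ (1 + Real.log (1 + K)) * K := by positivity
    have e3 : (1 + Real.log (1 + K)) *
      (K ^ ((1:ℝ)/3) * N ^ ((2:ℝ)/3) * ν ^ ((1:ℝ)/3) + K + K ^ 2)
      = (1 + Real.log (1 + K)) * (K ^ ((1 : ℝ) / 3) * P) + K ^ 2 +
        (Real.log (1 + K) * K ^ 2 + (1 + Real.log (1 + K)) * K) := by rw [hP]; ring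
    rw [e3]; linarith
  calc C1 * 16 * 2 * Q * E ≤ C1 * 256 * 2 * Q * E := by
        gcongr; norm_num
    _ ≤ C1 * 256 * 2 * ((1 + Real.log (1 + K)) *
      (K ^ ((1:ℝ)/3) * N ^ ((2:ℝ)/3) * ν ^ ((1:ℝ)/3) + K + K ^ 2)) * E := by gcongr
    _ = _ := by ring

end Crest.Agent.R012.LS879
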