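import Crest.Agent.R012.T8a_810
import Crest.Agent.R012.T8LS_879
import Crest.Agent.R012.SpecMain_48
import Crest.Agent.R012.TIIsharp_54
import Crest.Agent.R012.PC_355

/-!
# Row 12: `T0x_Prop` (arbitrary coefficients, index form)
-/

set_option autoImplicit false
set_option linter.unusedSimpArgs false
set_option linter.unusedVariables false

noncomputable section

open Finset Complex MeasureTheory

namespace Crest.Agent.R012.T0x810

open Eis Buch420 Main48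
open Gauss880 (syG)
open Div277 (tau dvs mem_dvs)
open T8 (LSH Tgt T8a_fin)

lemma tau_prd_le (T : Finset PrP) : tau (prd T) ≤ 2 ^ T.card := by
  classical
  have h : dvs (prd T) ⊆ T.powerset.image prd := by
    intro d hd
    rw [mem_dvs (prd_ne_zero T)] at hd
    have hsf : Squarefree d := (squarefree_prd T).squarefree_of_dvd hd.2
    rw [Finset.mem_image]
    refine ⟨pset d, ?_, prd_pset hd.1 hsf⟩
    rw [Finset.mem_powerset, ← prd_dvd_prd_iff, prd_pset hd.1 hsf]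
    exact hd.2
  calc tau (prd T) ≤ (T.powerset.image prd).card := Finset.card_le_card h
    _ ≤ T.powerset.card := Finset.card_image_le
    _ = 2 ^ T.card := Finset.card_powerset T

/-- Cauchy-Schwarz after grouping. -/
lemma group_cauchy {ι κ : Type*} [DecidableEq κ] (I : Finset ι) (a : ι → κ) (α : ι → ℝ) (F : κ → ℝ) :
    ∑ i ∈ I, α i * F (a i) ≤
      Real.sqrt (∑ i ∈ I, ∑ j ∈ I, if a i = a j then α i * α j else 0) *
        Real.sqrt (∑ z ∈ I.image a, F z ^ 2) := by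
  have h1 : ∑ i ∈ I, α i * F (a i) =
      ∑ z ∈ I.image a, (∑ i ∈ I.filter (fun i => a i = z), α i) * F z := by
    rw [← Finset.sum_fiberwise_of_maps_to (s := I) (t := I.image a) (g := a)
      (fun i hi => Finset.mem_image_of_mem a hi)]
    refine Finset.sum_congr rfl fun z _ => ?_
    rw [Finset.sum_mul]
    refine Finset.sum_congr rfl fun i hi => ?_
    rw [(Finset.mem_filter.mp hi).2]
  have h2 : ∑ z ∈ I.image a, (∑ i ∈ I.filter (fun i => a i = z), α i) ^ 2 =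
      ∑ i ∈ I, ∑ j ∈ I, if a i = a j then α i * α j else 0 := by
    rw [← Finset.sum_fiberwise_of_maps_to (s := I) (t := I.image a) (g := a)
      (fun i hi => Finset.mem_image_of_mem a hi) (fun i => ∑ j ∈ I, if a i = a j then α i * α j
        else 0)]
    refine Finset.sum_congr rfl fun z _ => ?_
    rw [pow_two, Finset.sum_mul_sum]
    refine Finset.sum_congr rfl fun i hi => ?_
    rw [Finset.sum_filter]
    refine Finset.sum_congr rfl fun j _ => ?_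
    rw [(Finset.mem_filter.mp hi).2]
    by_cases h : a j = z
    · rw [if_pos h, if_pos h.symm]
    · rw [if_neg h, if_neg (fun h' => h h'.symm)]
  rw [h1, ← h2]
  exact Real.sum_mul_le_sqrt_mul_sqrt _ _ _

/-- the Gauss sum form -/
def DD (l : ℤ) (S : Finset Eis) (γ : Eis → ℂ) (a : Eis) : ℂ :=
  ∑ b ∈ S, (γ b * ang l b) * (G b * (starRingEnd ℂ) (sy a b))

lemma norm_Fl_sum_le (l : ℤ) {S : Finset Eis} {B : ℝ} (hB : 1 ≤ B)
    (hS : ∀ b ∈ S, IsPrim b ∧ Squarefree b ∧ B ≤ nm b ∧ (nm b : ℝ) ≤ 2 * B) (γ : Eis → ℂ)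
    {a : Eis} (ha : IsPrim a) :
    ‖∑ b ∈ S, γ b * Fl l (a * b)‖ ≤ ‖DD l S γ a‖ +
      |pC| * ((nm a : ℝ) ^ (-(1:ℝ)/6) * (B ^ (-(1:ℝ)/6) * ∑ b ∈ S, ‖γ b‖)) := by
  classical
  have hB0 : 0 < B := by linarith
  have ha0 : (0 : ℝ) < nm a := by exact_mod_cast nm_pos.mpr ha.ne_zero
  have e1 : ∀ b ∈ S, γ b * Fl l (a * b) =
      ang l a * G a * ((γ b * ang l b) * (G b * (starRingEnd ℂ) (sy a b))) -
      (if Squarefree (a * b) then γ b * (ang l (a * b) *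
        ((pC * (nm (a * b) : ℝ) ^ (-(1 : ℝ) / 6) : ℝ) : ℂ)) else 0) := by
    intro b hb
    obtain ⟨hbp, hbs, -, -⟩ := hS b hb
    unfold Fl
    split_ifs with hsf
    · rw [Gauss880.G_mul_all syG ha hbp, P355.ang_mul]; ring
    · have h0 : G (a * b) = 0 := Gauss880.G_eq_zero syG (ha.mul hbp) hsf
      rw [Gauss880.G_mul_all syG ha hbp] at h0
      linear_combination (-(ang l a * γ b * ang l b)) * h0
  rw [Finset.sum_congr rfl e1, Finset.sum_sub_distrib, ← Finset.mul_sum]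
  refine (norm_sub_le _ _).trans (add_le_add ?_ ?_)
  · rw [norm_mul, norm_mul]
    have h1 : ‖ang l a‖ * ‖G a‖ ≤ 1 := mul_le_one₀ (P355.norm_ang_le l a) (norm_nonneg _)
      (Gauss880.norm_G_le syG ha)
    exact mul_le_of_le_one_left (norm_nonneg _) h1
  · refine (norm_sum_le _ _).trans ?_
    rw [Finset.mul_sum, Finset.mul_sum, Finset.mul_sum]
    refine Finset.sum_le_sum fun b hb => ?_
    obtain ⟨hbp, hbs, hb1, -⟩ := hS b hb
    have hb0 : (0 : ℝ) < nm b := by linarith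
    split_ifs
    · rw [norm_mul, norm_mul, Complex.norm_real, Real.norm_eq_abs, abs_mul,
        abs_of_nonneg (Real.rpow_nonneg (Nat.cast_nonneg _) _), nm_mul]
      push_cast
      rw [Real.mul_rpow ha0.le hb0.le]
      have h1 : (nm b : ℝ) ^ (-(1:ℝ)/6) ≤ B ^ (-(1:ℝ)/6) :=
        Real.rpow_le_rpow_of_nonpos hB0 hb1 (by norm_num)
      have h2 := P355.norm_ang_le l (a * b)
      calc ‖γ b‖ * (‖ang l (a * b)‖ * (|pC| * ((nm a : ℝ) ^ (-(1:ℝ)/6) *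
            (nm b : ℝ) ^ (-(1:ℝ)/6)))) ≤ ‖γ b‖ * (1 * (|pC| * ((nm a : ℝ) ^ (-(1:ℝ)/6) *
            B ^ (-(1:ℝ)/6)))) := by gcongr
        _ = _ := by ring
    · rw [norm_zero]; positivity

/-- Sum of `nm^{-1/3}`. -/
lemma sum_nm_third_le {T : Finset Eis} {Y : ℝ} (hY : 1 ≤ Y)
    (hT : ∀ a ∈ T, IsPrim a ∧ (nm a : ℝ) ≤ Y) :
    ∑ a ∈ T, ((nm a : ℝ) ^ (-(1:ℝ)/6)) ^ 2 ≤ 100 * (1 + Real.log Y) * Y ^ ((2:ℝ)/3) := by
  have h1 : T ⊆ primBall ⌊Y⌋₊ := by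
    intro m hm
    rw [mem_primBall]
    exact ⟨Nat.le_floor (hT m hm).2, (hT m hm).1⟩
  have h2 : ∀ a ∈ T, ((nm a : ℝ) ^ (-(1:ℝ)/6)) ^ 2 ≤ Y ^ ((2:ℝ)/3) * (1 / (nm a : ℝ)) := by
    intro a ha
    obtain ⟨h3, h4⟩ := hT a ha
    have ha0 : (0 : ℝ) < nm a := by exact_mod_cast nm_pos.mpr h3.ne_zero
    have e1 : ((nm a : ℝ) ^ (-(1:ℝ)/6)) ^ 2 = (nm a : ℝ) ^ ((2:ℝ)/3) * (1 / (nm a : ℝ)) := by
      rw [← Real.rpow_natCast, ← Real.rpow_mul ha0.le, one_div, ← Real.rpow_neg_one,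
        ← Real.rpow_add ha0]
      norm_num
    rw [e1]
    gcongr
  refine (Finset.sum_le_sum h2).trans ?_
  rw [← Finset.mul_sum]
  have h3 : ∑ a ∈ T, 1 / (nm a : ℝ) ≤ 100 * (1 + Real.log Y) := by
    calc ∑ a ∈ T, 1 / (nm a : ℝ) ≤ ∑ a ∈ primBall ⌊Y⌋₊, 1 / (nm a : ℝ) :=
          Finset.sum_le_sum_of_subset_of_nonneg h1 (fun _ _ _ => by positivity)
      _ ≤ 100 * (1 + Real.log (⌊Y⌋₊ : ℝ)) := Div277.sum_inv_primBall_le _
      _ ≤ _ := by
          have h5 : (1 : ℝ) ≤ (⌊Y⌋₊ : ℝ) := by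
            exact_mod_cast (Nat.one_le_floor_iff Y).mpr hY
          have h6 : Real.log (⌊Y⌋₊ : ℝ) ≤ Real.log Y :=
            Real.log_le_log (by linarith) (Nat.floor_le (by linarith))
          linarith
  calc Y ^ ((2:ℝ)/3) * ∑ a ∈ T, 1 / (nm a : ℝ) ≤ Y ^ ((2:ℝ)/3) * (100 * (1 + Real.log Y)) := by
        gcongr
    _ = _ := by ring

lemma one_le_tau_pow {b : Eis} (hb : b ≠ 0) : (1 : ℝ) ≤ (tau b : ℝ) ^ 3 := by
  have : (1 : ℝ) ≤ tau b := by exact_mod_cast Div277.one_le_tau hb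
  exact one_le_pow₀ this

lemma sqrt_rpow_third {X : ℝ} (hX : 0 ≤ X) : Real.sqrt (X ^ ((2:ℝ)/3)) = X ^ ((1:ℝ)/3) := by
  rw [Real.sqrt_eq_rpow, ← Real.rpow_mul hX]; norm_num

/-- The bound for a fixed `t`. -/
theorem Zbound {C : ℝ} (hC : 0 < C) (hL : LSH C) : ∃ Cz : ℝ, 0 < Cz ∧
    ∀ (l : ℤ) (X B : ℝ), 2 ≤ X → 1 ≤ B → 1 ≤ X / B → X / B ≤ X ^ ((2:ℝ)/3) →
      B ≤ X ^ ((2:ℝ)/3) → B ^ 3 / (X / B) ≤ X ^ ((2:ℝ)/3) → B ≤ X →
    ∀ (S : Finset Eis), (∀ b ∈ S, IsPrim b ∧ Squarefree b ∧ B ≤ nm b ∧ (nm b : ℝ) ≤ 2 * B) →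
    ∀ (γ : Eis → ℂ) (ι : Type) (I : Finset ι) (a : ι → Finset PrP) (α : ι → ℂ),
      (∀ i ∈ I, (nm (prd (a i)) : ℝ) ≤ X / B) →
      ‖∑ i ∈ I, α i * ∑ b ∈ S, γ b * Fl l (prd (a i) * b)‖ ≤
        Cz * Real.sqrt (1 + Real.log X) * X ^ ((1:ℝ)/3) *
          Real.sqrt (∑ b ∈ S, (tau b : ℝ) ^ 3 * ‖γ b‖ ^ 2) * Real.sqrt (Mu I a α) := by
  classical
  set C0 : ℝ := 4 * 24 ^ 6 * 404 * C with hC0
  have hC0p : 0 < C0 := by rw [hC0]; positivity
  set c1 : ℝ := 3 * (1 + 3 * C0) with hc1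
  set c2 : ℝ := 20000 * pC ^ 2 with hc2
  refine ⟨Real.sqrt c1 + Real.sqrt c2, add_pos_of_pos_of_nonneg (Real.sqrt_pos.mpr
    (by positivity)) (Real.sqrt_nonneg _), ?_⟩
  intro l X B hX hB hA1 hA hB2 hB3 hBX S hS γ ι I a α ha
  have hX0 : 0 < X := by linarith
  have hB0 : 0 < B := by linarith
  set A := X / B with hAdef
  have hA0 : 0 < A := by linarith
  have hAB : A * B = X := by rw [hAdef]; field_simp
  have hlogX : 0 ≤ Real.log X := Real.log_nonneg (by linarith)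
  set W0 := ∑ b ∈ S, ‖γ b‖ ^ 2 with hW0
  set W := ∑ b ∈ S, (tau b : ℝ) ^ 3 * ‖γ b‖ ^ 2 with hW
  have hW00 : 0 ≤ W0 := Finset.sum_nonneg fun b _ => by positivity
  have hW0W : W0 ≤ W := by
    refine Finset.sum_le_sum fun b hb => ?_
    exact le_mul_of_one_le_left (by positivity) (one_le_tau_pow (hS b hb).1.ne_zero)
  have hWnn : 0 ≤ W := hW00.trans hW0W
  -- first sum
  set F1 : Finset PrP → ℝ := fun z => ‖DD l S γ (prd z)‖ with hF1
  set F2 : Finset PrP → ℝ := fun z => |pC| * ((nm (prd z) : ℝ) ^ (-(1:ℝ)/6) *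
    (B ^ (-(1:ℝ)/6) * ∑ b ∈ S, ‖γ b‖)) with hF2
  have hAB23 : A ^ ((2:ℝ)/3) * B ^ ((2:ℝ)/3) = X ^ ((2:ℝ)/3) := by
    rw [← Real.mul_rpow hA0.le hB0.le, hAB]
  have hX23 : 0 < X ^ ((2:ℝ)/3) := Real.rpow_pos_of_pos hX0 _
  have s1 : ∑ z ∈ I.image a, F1 z ^ 2 ≤ c1 * ((1 + Real.log X) * X ^ ((2:ℝ)/3) * W) := by
    have h1 : ∑ z ∈ I.image a, F1 z ^ 2 = ∑ x ∈ (I.image a).image prd, ‖DD l S γ x‖ ^ 2 := by
      rw [Finset.sum_image (fun x _ y _ h => prd_injective h)]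
    rw [h1]
    have h2 := T8a_fin hC hL (S := S) (𝓐 := (I.image a).image prd) hA1 hB hS (by
      intro x hx
      rw [Finset.mem_image] at hx
      obtain ⟨z, hz, rfl⟩ := hx
      rw [Finset.mem_image] at hz
      obtain ⟨i, hi, rfl⟩ := hz
      exact ⟨isPrim_prd _, ha i hi⟩) (fun b => γ b * ang l b)
    have hn : ∀ b, ‖γ b * ang l b‖ ^ 2 ≤ ‖γ b‖ ^ 2 := by
      intro b
      rw [norm_mul]
      have := P355.norm_ang_le l b
      gcongr
      exact mul_le_of_le_one_right (norm_nonneg _) this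
    have h3 : ∑ b ∈ S, ‖γ b * ang l b‖ ^ 2 ≤ W :=
      (Finset.sum_le_sum fun b _ => hn b).trans hW0W
    have h4 : ∑ b ∈ S, (tau b : ℝ) ^ 3 * ‖γ b * ang l b‖ ^ 2 ≤ W :=
      Finset.sum_le_sum fun b _ => mul_le_mul_of_nonneg_left (hn b) (by positivity)
    have hT : Tgt A B ≤ 3 * ((1 + Real.log X) * X ^ ((2:ℝ)/3)) := by
      unfold Tgt
      rw [hAB23]
      have h5 : 1 + Real.log B ≤ 1 + Real.log X := by
        have := Real.log_le_log hB0 hBX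
        linarith
      have h6 : 0 ≤ 1 + Real.log B := by have := Real.log_nonneg hB; linarith
      calc (1 + Real.log B) * (X ^ ((2:ℝ)/3) + B + B ^ 3 / A) ≤
          (1 + Real.log X) * (X ^ ((2:ℝ)/3) + X ^ ((2:ℝ)/3) + X ^ ((2:ℝ)/3)) := by gcongr
        _ = _ := by ring
    refine h2.trans ?_
    have hT0 : 0 ≤ Tgt A B := by
      unfold Tgt
      have := Real.log_nonneg hB
      positivity
    calc 3 * (A * ∑ b ∈ S, ‖γ b * ang l b‖ ^ 2 + 4 * 24 ^ 6 * 404 * C * Tgt A B *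
        ∑ b ∈ S, (tau b : ℝ) ^ 3 * ‖γ b * ang l b‖ ^ 2) ≤
        3 * (X ^ ((2:ℝ)/3) * W + C0 * (3 * ((1 + Real.log X) * X ^ ((2:ℝ)/3))) * W) := by
          rw [← hC0]
          gcongr
      _ ≤ 3 * (((1 + Real.log X) * X ^ ((2:ℝ)/3)) * W +
          C0 * (3 * ((1 + Real.log X) * X ^ ((2:ℝ)/3))) * W) := by
          have : X ^ ((2:ℝ)/3) ≤ (1 + Real.log X) * X ^ ((2:ℝ)/3) :=
            le_mul_of_one_le_left hX23.le (by linarith)
          gcongr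
      _ = _ := by rw [hc1]; ring
  -- second sum
  have s2 : ∑ z ∈ I.image a, F2 z ^ 2 ≤ c2 * ((1 + Real.log X) * X ^ ((2:ℝ)/3) * W) := by
    have h1 : ∑ z ∈ I.image a, F2 z ^ 2 = (|pC| * (B ^ (-(1:ℝ)/6) * ∑ b ∈ S, ‖γ b‖)) ^ 2 *
        ∑ x ∈ (I.image a).image prd, ((nm x : ℝ) ^ (-(1:ℝ)/6)) ^ 2 := by
      rw [Finset.sum_image (fun x _ y _ h => prd_injective h), Finset.mul_sum]
      refine Finset.sum_congr rfl fun z _ => ?_
      rw [hF2]; ring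
    have h2 : ∑ x ∈ (I.image a).image prd, ((nm x : ℝ) ^ (-(1:ℝ)/6)) ^ 2 ≤
        100 * (1 + Real.log A) * A ^ ((2:ℝ)/3) := by
      apply sum_nm_third_le hA1
      intro x hx
      rw [Finset.mem_image] at hx
      obtain ⟨z, hz, rfl⟩ := hx
      rw [Finset.mem_image] at hz
      obtain ⟨i, hi, rfl⟩ := hz
      exact ⟨isPrim_prd _, ha i hi⟩
    have h3 : (∑ b ∈ S, ‖γ b‖) ^ 2 ≤ 200 * B * W0 := by
      have h4 := sq_sum_le_card_mul_sum_sq (s := S) (f := fun b => ‖γ b‖)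
      have h5 : (S.card : ℝ) ≤ 100 * (2 * B) :=
        T8.card_le_of_nm_le (by positivity) (fun b hb => ⟨(hS b hb).1, (hS b hb).2.2.2⟩)
      calc (∑ b ∈ S, ‖γ b‖) ^ 2 ≤ S.card * W0 := h4
        _ ≤ (100 * (2 * B)) * W0 := by gcongr
        _ = _ := by ring
    have h6 : (B ^ (-(1:ℝ)/6)) ^ 2 * B = B ^ ((2:ℝ)/3) := by
      rw [← Real.rpow_natCast, ← Real.rpow_mul hB0.le]
      nth_rewrite 2 [← Real.rpow_one B]
      rw [← Real.rpow_add hB0]; norm_num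
    have hlogA : Real.log A ≤ Real.log X := by
      apply Real.log_le_log hA0
      rw [hAdef]; exact div_le_self hX0.le hB
    have hlogA0 : 0 ≤ Real.log A := Real.log_nonneg hA1
    rw [h1]
    calc (|pC| * (B ^ (-(1:ℝ)/6) * ∑ b ∈ S, ‖γ b‖)) ^ 2 *
        ∑ x ∈ (I.image a).image prd, ((nm x : ℝ) ^ (-(1:ℝ)/6)) ^ 2 =
        |pC| ^ 2 * ((B ^ (-(1:ℝ)/6)) ^ 2 * (∑ b ∈ S, ‖γ b‖) ^ 2) *
        ∑ x ∈ (I.image a).image prd, ((nm x : ℝ) ^ (-(1:ℝ)/6)) ^ 2 := by ring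
      _ ≤ |pC| ^ 2 * ((B ^ (-(1:ℝ)/6)) ^ 2 * (200 * B * W)) *
          (100 * (1 + Real.log X) * A ^ ((2:ℝ)/3)) := by
          apply mul_le_mul _ _ (Finset.sum_nonneg fun _ _ => by positivity) (by positivity)
          · gcongr
            exact h3.trans (by gcongr)
          · exact h2.trans (by gcongr)
      _ = 20000 * |pC| ^ 2 * ((1 + Real.log X) * (A ^ ((2:ℝ)/3) *
          ((B ^ (-(1:ℝ)/6)) ^ 2 * B)) * W) := by ring
      _ = _ := by rw [h6, hAB23, sq_abs, hc2]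
  -- combination
  have hL0 : 0 ≤ (1 + Real.log X) * X ^ ((2:ℝ)/3) * W := by positivity
  have g1 := group_cauchy I a (fun i => ‖α i‖) F1
  have g2 := group_cauchy I a (fun i => ‖α i‖) F2
  have hpt : ‖∑ i ∈ I, α i * ∑ b ∈ S, γ b * Fl l (prd (a i) * b)‖ ≤
      ∑ i ∈ I, ‖α i‖ * F1 (a i) + ∑ i ∈ I, ‖α i‖ * F2 (a i) := by
    refine (norm_sum_le _ _).trans ?_
    rw [← Finset.sum_add_distrib]
    refine Finset.sum_le_sum fun i hi => ?_
    rw [norm_mul, ← mul_add]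
    exact mul_le_mul_of_nonneg_left (norm_Fl_sum_le l hB hS γ (isPrim_prd _)) (norm_nonneg _)
  have hMu : Mu I a α = ∑ i ∈ I, ∑ j ∈ I, if a i = a j then ‖α i‖ * ‖α j‖ else 0 := rfl
  have e3 : Real.sqrt ((1 + Real.log X) * X ^ ((2:ℝ)/3) * W) =
      Real.sqrt (1 + Real.log X) * X ^ ((1:ℝ)/3) * Real.sqrt W := by
    rw [Real.sqrt_mul (by positivity), Real.sqrt_mul (by positivity), sqrt_rpow_third hX0.le]
  calc ‖∑ i ∈ I, α i * ∑ b ∈ S, γ b * Fl l (prd (a i) * b)‖ ≤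
      Real.sqrt (Mu I a α) * Real.sqrt (∑ z ∈ I.image a, F1 z ^ 2) +
      Real.sqrt (Mu I a α) * Real.sqrt (∑ z ∈ I.image a, F2 z ^ 2) := by
        refine hpt.trans ?_
        rw [hMu]
        convert! add_le_add g1 g2
    _ ≤ Real.sqrt (Mu I a α) * Real.sqrt (c1 * ((1 + Real.log X) * X ^ ((2:ℝ)/3) * W)) +
      Real.sqrt (Mu I a α) * Real.sqrt (c2 * ((1 + Real.log X) * X ^ ((2:ℝ)/3) * W)) := by
        gcongr
    _ = (Real.sqrt c1 + Real.sqrt c2) * (Real.sqrt ((1 + Real.log X) * X ^ ((2:ℝ)/3) * W)) *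
        Real.sqrt (Mu I a α) := by
        rw [Real.sqrt_mul (by positivity : 0 ≤ c1), Real.sqrt_mul (by positivity : 0 ≤ c2)]
        ring
    _ = _ := by rw [e3]; ring

open Classical in
/-- the index form as a sum over a set of elements -/
lemma Ix_eq (l : ℤ) (X : ℕ) {ι : Type} (I : Finset ι) (a : ι → Finset PrP) (g : ι → ℝ)
    (α : ι → ℂ) (β : Finset PrP → ℂ) :
    Ix l X I a g α β = ∑ i ∈ I, ∑ b ∈ (((UX X).powerset.filter (fun T => β T ≠ 0)).image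
      prd).filter (fun b => (nm b : ℝ) ≤ g i), α i * (β (pset b) * Fl l (prd (a i) * b)) := by
  unfold Ix
  refine Finset.sum_congr rfl fun i _ => ?_
  rw [Finset.sum_filter, Finset.sum_image (fun x _ y _ h => prd_injective h), Finset.sum_filter,
    Finset.mul_sum]
  refine Finset.sum_congr rfl fun T _ => ?_
  rw [pset_prd]
  by_cases h0 : β T = 0
  · rw [h0]; simp
  · rw [if_pos h0]
    split_ifs <;> simp

lemma log_absorb {C L : ℝ} (hC : 0 ≤ C) (h5 : 5 ≤ L) (h4 : 4 * C ≤ L) :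
    C * ((5 + L) * (1 + L)) ≤ L ^ 3 := by
  have h1 : (5 + L) * (1 + L) ≤ (2 * L) * (2 * L) := by gcongr <;> linarith
  calc C * ((5 + L) * (1 + L)) ≤ C * ((2 * L) * (2 * L)) := by gcongr
    _ = 4 * C * L ^ 2 := by ring
    _ ≤ L * L ^ 2 := by gcongr
    _ = L ^ 3 := by ring

lemma int_le {k Φ : ℝ → ℝ} (hk : Integrable k) (hk0 : ∀ t, 0 ≤ k t) (hΦ0 : ∀ t, 0 ≤ Φ t) {Z : ℝ}
    (h : ∀ t, Φ t ≤ Z) : ∫ t, k t * Φ t ≤ (∫ t, k t) * Z := by
  rw [← integral_mul_const]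
  apply integral_mono_of_nonneg
  · exact Filter.Eventually.of_forall fun t => mul_nonneg (hk0 t) (hΦ0 t)
  · exact hk.mul_const _
  · exact Filter.Eventually.of_forall fun t => mul_le_mul_of_nonneg_left (h t) (hk0 t)

lemma integrable_norm_kB {B : ℝ} (hB : 1 ≤ B) : Integrable (fun t => ‖TII54.kB B t‖) :=
  (TII54.integrable_kB hB).norm

open Classical in
lemma W_le (X : ℕ) (β : Finset PrP → ℂ) :
    ∑ b ∈ ((UX X).powerset.filter (fun T => β T ≠ 0)).image prd,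
      (tau b : ℝ) ^ 3 * ‖β (pset b)‖ ^ 2 ≤
      ∑ T ∈ (UX X).powerset, (8 : ℝ) ^ T.card * ‖β T‖ ^ 2 := by
  rw [Finset.sum_image (fun x _ y _ h => prd_injective h)]
  calc ∑ T ∈ (UX X).powerset.filter (fun T => β T ≠ 0),
        (tau (prd T) : ℝ) ^ 3 * ‖β (pset (prd T))‖ ^ 2 ≤
      ∑ T ∈ (UX X).powerset.filter (fun T => β T ≠ 0), (8 : ℝ) ^ T.card * ‖β T‖ ^ 2 := by
        refine Finset.sum_le_sum fun T _ => ?_
        rw [pset_prd]
        apply mul_le_mul_of_nonneg_right _ (by positivity)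
        have h8 : (tau (prd T) : ℝ) ≤ 2 ^ T.card := by exact_mod_cast tau_prd_le T
        calc (tau (prd T) : ℝ) ^ 3 ≤ ((2 : ℝ) ^ T.card) ^ 3 := by gcongr
          _ = 8 ^ T.card := by rw [← pow_mul, mul_comm, pow_mul]; norm_num
    _ ≤ _ := Finset.sum_le_sum_of_subset_of_nonneg (Finset.filter_subset _ _)
        (fun T _ _ => by positivity)

lemma final_ineq {Ci Cz L P W W' M k B : ℝ} (hCi : 0 ≤ Ci) (hCz : 0 ≤ Cz) (hL5 : 5 ≤ L)
    (hL4 : 4 * (Ci * Cz) ≤ L) (hW : W ≤ W') (h2 : k ≤ Ci * (1 + Real.log (32 * B)))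
    (h3 : 1 + Real.log (32 * B) ≤ 5 + L) (hP : 0 ≤ P) :
    k * (Cz * Real.sqrt (1 + L) * P * Real.sqrt W * Real.sqrt M) ≤
      L ^ (3 : ℝ) * P * Real.sqrt W' * Real.sqrt M := by
  have hsq : Real.sqrt (1 + L) ≤ 1 + L := by
    rw [Real.sqrt_le_left (by linarith)]
    nlinarith
  have hZ0 : 0 ≤ Cz * Real.sqrt (1 + L) * P * Real.sqrt W * Real.sqrt M := by positivity
  calc k * (Cz * Real.sqrt (1 + L) * P * Real.sqrt W * Real.sqrt M) ≤ (Ci * (5 + L)) *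
      (Cz * (1 + L) * P * Real.sqrt W' * Real.sqrt M) := by
        apply mul_le_mul _ _ hZ0 (by positivity)
        · exact h2.trans (by gcongr)
        · gcongr
    _ = ((Ci * Cz) * ((5 + L) * (1 + L))) * P * Real.sqrt W' * Real.sqrt M := by ring
    _ ≤ L ^ (3 : ℝ) * P * Real.sqrt W' * Real.sqrt M := by
        have h9 := log_absorb (by positivity : 0 ≤ Ci * Cz) hL5 hL4
        have h10 : L ^ (3 : ℝ) = L ^ 3 := by
          rw [show (3 : ℝ) = ((3 : ℕ) : ℝ) by norm_num, Real.rpow_natCast]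
        rw [h10]
        gcongr

/-- **T0x_Prop** -/
theorem t0x : T0x_Prop := by
  classical
  intro l
  obtain ⟨C, hC, hL0⟩ := LS879.LSH
  have hL : LSH C := hL0
  obtain ⟨Cz, hCz, hZ⟩ := Zbound hC hL
  have hCi := Weight600.Cint_pos
  set L0 := max 5 (4 * (Weight600.Cint * Cz)) with hL0def
  refine ⟨8, 3, ⌈Real.exp L0⌉₊, by norm_num, ?_⟩
  intro X hX B β hB1 hB2 hβ ι I a g α ha
  have hXexp : Real.exp L0 ≤ X := (Nat.le_ceil _).trans (by exact_mod_cast hX)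
  have hX0 : (0 : ℝ) < X := (Real.exp_pos _).trans_le hXexp
  have hlog : L0 ≤ Real.log X := by
    rw [Real.le_log_iff_exp_le hX0]; exact hXexp
  have hL5 : 5 ≤ Real.log X := (le_max_left _ _).trans hlog
  have hL4 : 4 * (Weight600.Cint * Cz) ≤ Real.log X := (le_max_right _ _).trans hlog
  have hX1 : (1 : ℝ) ≤ X := by
    have := Real.add_one_le_exp L0
    have h5 : 5 ≤ L0 := le_max_left _ _
    linarith
  have hX2 : (2 : ℝ) ≤ X := by
    have := Real.add_one_le_exp L0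
    have h5 : 5 ≤ L0 := le_max_left _ _
    linarith
  have hBge : (1 : ℝ) ≤ B := (Real.one_le_rpow hX1 (by norm_num)).trans hB1
  have hB0 : 0 < B := by linarith
  have hmono : ∀ {x y : ℝ}, x ≤ y → (X : ℝ) ^ x ≤ (X : ℝ) ^ y := fun h =>
    Real.rpow_le_rpow_of_exponent_le hX1 h
  have hBX : B ≤ X := by
    calc B ≤ (X : ℝ) ^ (0.41 : ℝ) := hB2
      _ ≤ (X : ℝ) ^ (1 : ℝ) := hmono (by norm_num)
      _ = X := Real.rpow_one _
  have hA1 : 1 ≤ X / B := by rw [one_le_div hB0]; exact hBX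
  have hA2 : X / B ≤ (X : ℝ) ^ ((2:ℝ)/3) := by
    rw [div_le_iff₀ hB0]
    calc (X : ℝ) = (X : ℝ) ^ (0.66 : ℝ) * (X : ℝ) ^ (0.34 : ℝ) := by
          rw [← Real.rpow_add hX0]; norm_num
      _ ≤ (X : ℝ) ^ ((2:ℝ)/3) * B := by
          apply mul_le_mul (hmono (by norm_num)) hB1 (by positivity) (by positivity)
  have hBX2 : B ≤ (X : ℝ) ^ ((2:ℝ)/3) := hB2.trans (hmono (by norm_num))
  have hB3 : B ^ 3 / (X / B) ≤ (X : ℝ) ^ ((2:ℝ)/3) := by
    rw [div_div_eq_mul_div, div_le_iff₀ hX0]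
    calc B ^ 3 * B = B ^ 4 := by ring
      _ ≤ ((X : ℝ) ^ (0.41 : ℝ)) ^ 4 := by gcongr
      _ = (X : ℝ) ^ (1.64 : ℝ) := by
          rw [← Real.rpow_natCast, ← Real.rpow_mul hX0.le]; norm_num
      _ ≤ (X : ℝ) ^ ((2:ℝ)/3 + 1) := hmono (by norm_num)
      _ = (X : ℝ) ^ ((2:ℝ)/3) * X := by rw [Real.rpow_add hX0, Real.rpow_one]
  set Ts := (UX X).powerset.filter (fun T => β T ≠ 0) with hTs
  set S := Ts.image prd with hSdef
  have hS : ∀ b ∈ S, IsPrim b ∧ Squarefree b ∧ B < nm b ∧ (nm b : ℝ) ≤ 2 * B := by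
    intro b hb
    rw [hSdef, Finset.mem_image] at hb
    obtain ⟨T, hT, rfl⟩ := hb
    rw [hTs, Finset.mem_filter] at hT
    exact ⟨isPrim_prd T, squarefree_prd T, hβ T hT.2⟩
  have hS' : ∀ b ∈ S, IsPrim b ∧ Squarefree b ∧ B ≤ nm b ∧ (nm b : ℝ) ≤ 2 * B :=
    fun b hb => ⟨(hS b hb).1, (hS b hb).2.1, (hS b hb).2.2.1.le, (hS b hb).2.2.2⟩
  have hP0 : (0 : ℝ) ≤ (X : ℝ) ^ ((1:ℝ)/3) := Real.rpow_nonneg hX0.le _
  rw [Ix_eq]
  have hp := TII54.perron I S hBge (fun b hb => ⟨(hS b hb).2.2.1, (hS b hb).2.2.2⟩)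
    (fun i b => α i * (β (pset b) * Fl l (prd (a i) * b))) g
  refine hp.trans ?_
  set W := ∑ b ∈ S, (tau b : ℝ) ^ 3 * ‖β (pset b)‖ ^ 2 with hW
  set Z := Cz * Real.sqrt (1 + Real.log X) * (X : ℝ) ^ ((1:ℝ)/3) * Real.sqrt W *
    Real.sqrt (Mu I a α) with hZdef
  have hpt : ∀ t : ℝ, ‖∑ i ∈ I, ∑ b ∈ S, α i * (β (pset b) * Fl l (prd (a i) * b)) *
      (Weight600.osc t (-TII54.cph B (g i)) * Weight600.pw t (nm b))‖ ≤ Z := by
    intro t
    have e1 : ∑ i ∈ I, ∑ b ∈ S, α i * (β (pset b) * Fl l (prd (a i) * b)) *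
      (Weight600.osc t (-TII54.cph B (g i)) * Weight600.pw t (nm b)) =
      ∑ i ∈ I, (α i * Weight600.osc t (-TII54.cph B (g i))) * ∑ b ∈ S,
        (β (pset b) * Weight600.pw t (nm b)) * Fl l (prd (a i) * b) := by
      refine Finset.sum_congr rfl fun i _ => ?_
      rw [Finset.mul_sum]
      exact Finset.sum_congr rfl fun b _ => by ring
    rw [e1]
    have h1 := hZ l X B hX2 hBge hA1 hA2 hBX2 hB3 hBX S hS'
      (fun b => β (pset b) * Weight600.pw t (nm b)) ι I a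
      (fun i => α i * Weight600.osc t (-TII54.cph B (g i))) ha
    refine h1.trans (le_of_eq ?_)
    have e2 : ∀ b, ‖β (pset b) * Weight600.pw t (nm b)‖ = ‖β (pset b)‖ := by
      intro b; rw [norm_mul, Weight600.norm_pw, mul_one]
    have e3 : Mu I a (fun i => α i * Weight600.osc t (-TII54.cph B (g i))) = Mu I a α := by
      unfold Mu
      simp only [norm_mul, Weight600.norm_osc, mul_one]
    simp only [e2, e3]
    rw [hZdef, hW]
  refine (int_le (integrable_norm_kB hBge) (fun t => norm_nonneg _) (fun t => norm_nonneg _)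
    hpt).trans ?_
  have h2 := TII54.integral_norm_kB_le hBge
  have h3 : 1 + Real.log (32 * B) ≤ 5 + Real.log X := by
    have h4 : Real.log (32 * B) = Real.log 32 + Real.log B :=
      Real.log_mul (by norm_num) hB0.ne'
    have h5 : Real.log 32 ≤ 4 := by
      have h6 : Real.log 32 = 5 * Real.log 2 := by
        rw [show (32 : ℝ) = 2 ^ 5 by norm_num, Real.log_pow]; norm_num
      have := Real.log_two_lt_d9
      rw [h6]; linarith
    have h7 : Real.log B ≤ Real.log X := Real.log_le_log hB0 hBX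
    linarith
  have hWle : W ≤ ∑ T ∈ (UX X).powerset, (8 : ℝ) ^ T.card * ‖β T‖ ^ 2 := W_le X β
  exact final_ineq hCi.le hCz.le hL5 hL4 hWle h2 h3 hP0

end Crest.Agent.R012.T0x810
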