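import Crest.Agent.R012.ExpSix_413
import Crest.Agent.R012.Gam_413
import Crest.Agent.R012.Mob_705

/-!
# Row 12, (T1c), analytic half: cubes prime to `k` with Gaussian weight
-/

set_option autoImplicit false

noncomputable section

open MeasureTheory Set

namespace Crest.Agent.R012.T1c413

open Crest.Agent.R012 Crest.Agent.R012.Eis Div277 Mob705 LatSum413

/-- `∫_ℂ exp(-c |z|⁶) dz`. -/
def Ic (c : ℝ) : ℝ := ∫ z : ℂ, Real.exp (-(c * (‖z‖ ^ 2) ^ 3))

lemma Ic_eq {c : ℝ} (hc : 0 < c) : Ic c = Real.pi * (Real.Gamma (1 / 3) / 3 * c ^ (-(1 / 3) : ℝ)) :=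
  Gam413.integral_exp_cube_C hc

lemma Ic_mul_cube {c n : ℝ} (hc : 0 < c) (hn : 0 < n) : Ic (c * n ^ 3) = Ic c * (1 / n) := by
  rw [Ic_eq (by positivity), Ic_eq hc, Real.mul_rpow hc.le (by positivity)]
  have : (n ^ 3) ^ (-(1 / 3) : ℝ) = 1 / n := by
    rw [← Real.rpow_natCast, ← Real.rpow_mul hn.le]
    norm_num
    rw [Real.rpow_neg_one]
  rw [this]; ring

open Classical in
/-- **Sum over cubes prime to `k`.** -/
theorem coprime_cube_sum : ∃ C : ℝ, 0 ≤ C ∧ ∀ (c : ℝ) (k : Eis), 0 < c → IsPrim k →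
    Summable (fun m : Eis => if m ≠ 0 ∧ IsCoprime m k then
      Real.exp (-(c * (nm m : ℝ) ^ 3)) else 0) ∧
    |∑' m : Eis, (if m ≠ 0 ∧ IsCoprime m k then Real.exp (-(c * (nm m : ℝ) ^ 3)) else 0) -
      PE k * (2 / Real.sqrt 3 * Ic c)| ≤ C * tau k := by
  obtain ⟨C, hC0, hC⟩ := cube_sum
  refine ⟨C, hC0, ?_⟩
  intro c k hc hk
  have hk0 : k ≠ 0 := hk.ne_zero
  -- the row functions
  set R : Eis → Eis → ℝ := fun d m => if m = 0 then 0 else if d ∣ m then
    Real.exp (-(c * (nm m : ℝ) ^ 3)) else 0 with hR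
  have hinj : ∀ d : Eis, d ≠ 0 → Function.Injective (fun j : Eis => d * j) :=
    fun d hd => mul_right_injective₀ hd
  have hfib : ∀ d ≠ 0, ∀ j : Eis, R d (d * j) =
      if j = 0 then 0 else Real.exp (-(c * (nm d : ℝ) ^ 3 * (nm j : ℝ) ^ 3)) := by
    intro d hd j
    simp only [hR]
    by_cases hj : j = 0
    · simp [hj]
    · rw [if_neg (mul_ne_zero hd hj), if_pos (dvd_mul_right _ _), if_neg hj, nm_mul]
      congr 1; push_cast; ring
  have hsupp : ∀ d, ∀ m ∉ Set.range (fun j : Eis => d * j), R d m = 0 := by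
    intro d m hm
    simp only [hR]
    by_cases hm0 : m = 0
    · rw [if_pos hm0]
    · rw [if_neg hm0, if_neg]
      rintro ⟨j, rfl⟩
      exact hm ⟨j, rfl⟩
  have hd0 : ∀ d ∈ dvs k, d ≠ 0 := fun d hd => ((mem_dvs hk0).mp hd).1.ne_zero
  have hrow : ∀ d ∈ dvs k, Summable (R d) ∧
      |∑' m, R d m - 1 / (nm d : ℝ) * (2 / Real.sqrt 3 * Ic c)| ≤ C := by
    intro d hd
    have hd' := hd0 d hd
    have hnd : (0 : ℝ) < nm d := by exact_mod_cast nm_pos.mpr hd'
    obtain ⟨h1, h2⟩ := hC (c * (nm d : ℝ) ^ 3) (by positivity)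
    have hs : Summable (R d) := by
      rw [← (hinj d hd').summable_iff (hsupp d)]
      exact h1.congr (fun j => (hfib d hd' j).symm)
    refine ⟨hs, ?_⟩
    have e1 : ∑' m, R d m = ∑' j : Eis, (if j = 0 then (0 : ℝ) else
        Real.exp (-(c * (nm d : ℝ) ^ 3 * (nm j : ℝ) ^ 3))) := by
      rw [← (hinj d hd').tsum_eq (f := R d) (by
        intro m hm
        by_contra hc
        exact hm (hsupp d m hc))]
      exact tsum_congr (hfib d hd')
    rw [e1]
    have e2 := Ic_mul_cube hc hnd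
    have e3 : 1 / (nm d : ℝ) * (2 / Real.sqrt 3 * Ic c) =
        2 / Real.sqrt 3 * Ic (c * (nm d : ℝ) ^ 3) := by rw [e2]; ring
    rw [e3]
    exact h2
  -- indicator
  have hind : ∀ m : Eis, (if m ≠ 0 ∧ IsCoprime m k then
      Real.exp (-(c * (nm m : ℝ) ^ 3)) else 0) = ∑ d ∈ dvs k, (muE d : ℝ) * R d m := by
    intro m
    by_cases hm : m = 0
    · rw [if_neg (by simp [hm])]
      symm
      apply Finset.sum_eq_zero
      intro d _
      simp only [hR, if_pos hm, mul_zero]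
    · have h1 := sum_muE_coprime hk hm
      have h2 : ∑ d ∈ dvs k, (if d ∣ m then muE d else 0) = if IsCoprime m k then 1 else 0 := by
        have e : (if IsCoprime m k then (1 : ℤ) else 0) = if IsCoprime k m then 1 else 0 := by
          congr 1
          exact propext ⟨fun h => h.symm, fun h => h.symm⟩
        rw [e, ← h1, ← Finset.sum_filter, ← Finset.sum_filter]
        congr 1
        ext d
        rw [Finset.mem_filter, Finset.mem_filter, mem_dvs hk0, mem_dvs hm]
        tauto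
      have h3 : ∑ d ∈ dvs k, (muE d : ℝ) * R d m =
          ((∑ d ∈ dvs k, (if d ∣ m then muE d else 0) : ℤ) : ℝ) *
            Real.exp (-(c * (nm m : ℝ) ^ 3)) := by
        push_cast
        rw [Finset.sum_mul]
        refine Finset.sum_congr rfl fun d _ => ?_
        simp only [hR, if_neg hm]
        split_ifs <;> simp
      rw [h3, h2]
      by_cases hcop : IsCoprime m k
      · rw [if_pos ⟨hm, hcop⟩, if_pos hcop]; simp
      · rw [if_neg (fun h => hcop h.2), if_neg hcop]; simp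
  have hsum : Summable (fun m => ∑ d ∈ dvs k, (muE d : ℝ) * R d m) :=
    summable_sum fun d hd => ((hrow d hd).1).mul_left _
  simp_rw [hind]
  refine ⟨hsum, ?_⟩
  rw [Summable.tsum_finsetSum (fun d hd => ((hrow d hd).1).mul_left _), PE_eq_sum hk0,
    Finset.sum_mul, ← Finset.sum_sub_distrib]
  refine (Finset.abs_sum_le_sum_abs _ _).trans ?_
  have : ∀ d ∈ dvs k, |∑' m, (muE d : ℝ) * R d m -
      (muE d : ℝ) * (1 / (nm d : ℝ)) * (2 / Real.sqrt 3 * Ic c)| ≤ C := by
    intro d hd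
    rw [tsum_mul_left, mul_assoc, ← mul_sub, abs_mul]
    have h1 := (hrow d hd).2
    have h2 : |(muE d : ℝ)| ≤ 1 := abs_muE_le_real d
    calc _ ≤ 1 * C := by gcongr
      _ = C := one_mul _
  refine (Finset.sum_le_card_nsmul _ _ C this).trans (le_of_eq ?_)
  rw [nsmul_eq_mul, mul_comm]
  rfl

end Crest.Agent.R012.T1c413
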