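import Crest.Agent.R012.T1x_671
import Crest.Agent.R012.KerSep_671

/-!
# Row 12: `T411.T1d` — the separated form of the dual sum of all pairs

* `sep_main` : general form (arbitrary set of frequencies, weight `(1 + N(h)/K)^{-N}`)
* `t1d : T411.T1d`
-/

set_option autoImplicit false

noncomputable section

open Finset MeasureTheory

namespace Crest.Agent.R012.T1d671

open Eis Div277 Mob705 Tau671 T411 T1x671
open Gauss880 (syG)
open Weight600 (osc norm_osc)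

/-! ### Summability over `Eis` -/

lemma summable_wt {c : ℝ} (hc : 0 < c) {N : ℕ} (hN : 2 ≤ N) :
    Summable (fun h : Eis => ((1 + nm h * c) ^ N)⁻¹) := by
  have h0 := Po581.summable_eis_pow3
  refine Summable.of_nonneg_of_le (fun h => by positivity) (fun h => ?_)
    (h0.mul_left (4 * (max 1 c⁻¹) ^ 2))
  have e1 : (nm h : ℝ) = ‖toC h‖ ^ 2 := (norm_toC_sq h).symm
  set r := ‖toC h‖ with hr
  have hr0 : 0 ≤ r := norm_nonneg _
  rw [e1, mul_one_div, inv_le_iff_one_le_mul₀ (by positivity), div_mul_eq_mul_div,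
    one_le_div (by positivity)]
  set M := max 1 c⁻¹ with hM
  have hM1 : 1 ≤ M := le_max_left _ _
  have hM2 : 1 ≤ M * c := by
    have : c⁻¹ ≤ M := le_max_right _ _
    calc 1 = c⁻¹ * c := (inv_mul_cancel₀ hc.ne').symm
      _ ≤ M * c := by gcongr
  have h2 : 1 + r ^ 2 ≤ M * (1 + r ^ 2 * c) := by
    nlinarith [sq_nonneg r, mul_nonneg (sq_nonneg r) (sub_nonneg.mpr hM2)]
  have h3 : (1 + r) ^ 2 ≤ 2 * (1 + r ^ 2) := by nlinarith [sq_nonneg (1 - r)]
  have h4 : (1 + r) ^ 3 ≤ (1 + r) ^ 4 := pow_le_pow_right₀ (by linarith) (by norm_num)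
  have h5 : (1 + r ^ 2 * c) ^ 2 ≤ (1 + r ^ 2 * c) ^ N :=
    pow_le_pow_right₀ (by nlinarith [sq_nonneg r, mul_nonneg (sq_nonneg r) hc.le]) hN
  calc (1 + r) ^ 3 ≤ (1 + r) ^ 4 := h4
    _ = ((1 + r) ^ 2) ^ 2 := by ring
    _ ≤ (2 * (1 + r ^ 2)) ^ 2 := by gcongr
    _ ≤ (2 * (M * (1 + r ^ 2 * c))) ^ 2 := by gcongr
    _ = 4 * M ^ 2 * (1 + r ^ 2 * c) ^ 2 := by ring
    _ ≤ 4 * M ^ 2 * (1 + r ^ 2 * c) ^ N := by gcongr

/-! ### The separated sums -/

open Classical in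
/-- the separated sum -/
def Qf (𝓑 : Finset Eis) (β : Eis → ℂ) (e f g h : Eis) (u : ℝ) : ℂ :=
  ∑ n ∈ (𝓑.biUnion dvs).filter (fun n => e * g * n ∈ 𝓑),
    β (e * g * n) * (starRingEnd ℂ) (sy (f * e) n) * sy h n * (nm n : ℂ) ^ ((u : ℂ) * Complex.I)

lemma norm_nm_cpow {n : Eis} (hn : n ≠ 0) (u : ℝ) :
    ‖(nm n : ℂ) ^ ((u : ℂ) * Complex.I)‖ = 1 := by
  have h0 : (0 : ℝ) < nm n := by exact_mod_cast nm_pos.mpr hn
  have : (nm n : ℂ) = ((nm n : ℝ) : ℂ) := by norm_cast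
  rw [this, Complex.norm_cpow_eq_rpow_re_of_pos h0]
  simp

lemma nm_cpow_eq {n : Eis} (hn : n ≠ 0) (u : ℝ) :
    (nm n : ℂ) ^ ((u : ℂ) * Complex.I) = osc u (Real.log (nm n)) := by
  have h0 : (0 : ℝ) < nm n := by exact_mod_cast nm_pos.mpr hn
  have := Weight600.pw_eq_cpow h0 u
  unfold Weight600.pw at this
  rw [this]
  norm_cast

open Classical in
lemma mem_D {𝓑 : Finset Eis} (hB : ∀ b ∈ 𝓑, SqP b) {d : Eis} (hd : d ∈ 𝓑.biUnion dvs) :
    IsPrim d := by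
  rw [mem_biUnion] at hd
  obtain ⟨b, _, hd⟩ := hd
  exact isPrim_of_mem_dvs hd

open Classical in
lemma D_closed {𝓑 : Finset Eis} (hB : ∀ b ∈ 𝓑, SqP b) :
    ∀ b ∈ 𝓑, ∀ d : Eis, IsPrim d → d ∣ b → d ∈ 𝓑.biUnion dvs := by
  intro b hb d hd hdb
  rw [mem_biUnion]
  exact ⟨b, hb, (mem_dvs (hB b hb).1.ne_zero).mpr ⟨hd, hdb⟩⟩

open Classical in
/-- trivial bound -/
lemma norm_Qf_le {𝓑 : Finset Eis} (hB : ∀ b ∈ 𝓑, SqP b) (β : Eis → ℂ) (e f g h : Eis) (u : ℝ) :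
    ‖Qf 𝓑 β e f g h u‖ ≤ ∑ n ∈ 𝓑.biUnion dvs, ‖β (e * g * n)‖ := by
  unfold Qf
  refine (norm_sum_le _ _).trans ?_
  refine (Finset.sum_le_sum (g := fun n => ‖β (e * g * n)‖) fun n hn => ?_).trans
    (Finset.sum_le_sum_of_subset_of_nonneg (filter_subset _ _) fun _ _ _ => norm_nonneg _)
  have hp := mem_D hB (mem_filter.mp hn).1
  rw [norm_mul, norm_mul, norm_mul, RCLike.norm_conj, norm_nm_cpow hp.ne_zero, mul_one]
  have h1 := norm_sy_le (x := f * e) hp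
  have h2 := norm_sy_le (x := h) hp
  calc ‖β (e * g * n)‖ * ‖sy (f * e) n‖ * ‖sy h n‖ ≤ ‖β (e * g * n)‖ * 1 * 1 := by gcongr
    _ = _ := by ring

open Classical in
lemma continuous_Qf {𝓑 : Finset Eis} (hB : ∀ b ∈ 𝓑, SqP b) (β : Eis → ℂ) (e f g h : Eis) :
    Continuous (Qf 𝓑 β e f g h) := by
  unfold Qf
  refine continuous_finsetSum _ fun n hn => ?_
  have hp := mem_D hB (mem_filter.mp hn).1
  simp_rw [nm_cpow_eq hp.ne_zero]
  exact continuous_const.mul (Weight600.continuous_osc_left _)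

open Classical in
lemma integrable_Qf {𝓑 : Finset Eis} (hB : ∀ b ∈ 𝓑, SqP b) (β : Eis → ℂ) (e f g h : Eis) :
    Integrable (fun u : ℝ => (1 + u ^ 2)⁻¹ * ‖Qf 𝓑 β e f g h u‖ ^ 2) := by
  refine integrable_inv_one_add_sq.mul_bdd (c := (∑ n ∈ 𝓑.biUnion dvs, ‖β (e * g * n)‖) ^ 2)
    ((continuous_Qf hB β e f g h).norm.pow 2).aestronglyMeasurable
    (Filter.Eventually.of_forall fun t => ?_)
  rw [Real.norm_of_nonneg (by positivity)]
  gcongr
  exact norm_Qf_le hB β e f g h t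

open Classical in
lemma integral_Qf_le {𝓑 : Finset Eis} (hB : ∀ b ∈ 𝓑, SqP b) (β : Eis → ℂ) (e f g h : Eis) :
    ∫ u : ℝ, (1 + u ^ 2)⁻¹ * ‖Qf 𝓑 β e f g h u‖ ^ 2 ≤
      Real.pi * (∑ n ∈ 𝓑.biUnion dvs, ‖β (e * g * n)‖) ^ 2 := by
  rw [← integral_univ_inv_one_add_sq, ← integral_mul_const]
  refine integral_mono (integrable_Qf hB β e f g h) (integrable_inv_one_add_sq.mul_const _)
    fun u => ?_
  beta_reduce
  gcongr
  exact norm_Qf_le hB β e f g h u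

open Classical in
lemma integral_Qf_nonneg (𝓑 : Finset Eis) (β : Eis → ℂ) (e f g h : Eis) :
    0 ≤ ∫ u : ℝ, (1 + u ^ 2)⁻¹ * ‖Qf 𝓑 β e f g h u‖ ^ 2 :=
  integral_nonneg fun u => by positivity

/-- `λ = 4π²/27 · N(h)/K`. -/
def lamW (A B : ℝ) (e f h : Eis) : ℝ :=
  4 * Real.pi ^ 2 / 27 * (nm h * ((nm e : ℝ) ^ 2 * A / (nm f * B ^ 2)))

open Classical in
/-- **One frequency, one `g`**: the separated bound. -/
theorem single (N : ℕ) : ∃ C : ℝ, 0 < C ∧ ∀ (A B : ℝ) (𝓑 : Finset Eis) (β : Eis → ℂ),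
    0 < A → 0 < B → (∀ b ∈ 𝓑, SqP b) → (∀ b ∈ 𝓑, B < nm b) → (∀ b ∈ 𝓑, (nm b : ℝ) ≤ 2 * B) →
    ∀ e f g h : Eis, IsPrim e → IsPrim f → IsPrim g →
    ‖∑ m1 ∈ 𝓑.biUnion dvs, ∑ m2 ∈ 𝓑.biUnion dvs, (if e * (g * m1) ∈ 𝓑 ∧ e * (g * m2) ∈ 𝓑 then
          β (e * (g * m1)) * (starRingEnd ℂ) (β (e * (g * m2))) *
            (((Real.sqrt (nm m1 * nm m2))⁻¹ : ℝ) : ℂ) *
            (psi h (f * e) m1 * (starRingEnd ℂ) (psi h (f * e) m2)) *
            (Real.exp (-(4 * Real.pi ^ 2 * A * nm h / (27 * nm f * nm (g * g * (m1 * m2))))) : ℂ)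
          else 0)‖ ≤
      nm e * nm g / B * (C * ((1 + lamW A B e f h) ^ N)⁻¹ *
        ∫ u : ℝ, (1 + u ^ 2)⁻¹ * ‖Qf 𝓑 β e f g h u‖ ^ 2) := by
  obtain ⟨C, hC, hsep⟩ := KerSep671.norm_bilin_le (1 / 2) (k := 2) le_rfl N
  refine ⟨C, hC, fun A B 𝓑 β hA hB hsq hlo hhi e f g h he hf hg => ?_⟩
  have ne : (0 : ℝ) < nm e := by exact_mod_cast nm_pos.mpr he.ne_zero
  have nf : (0 : ℝ) < nm f := by exact_mod_cast nm_pos.mpr hf.ne_zero
  have ng : (0 : ℝ) < nm g := by exact_mod_cast nm_pos.mpr hg.ne_zero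
  set s := (𝓑.biUnion dvs).filter (fun n => e * g * n ∈ 𝓑) with hs
  set γ : Eis → ℂ := fun m => β (e * g * m) * (starRingEnd ℂ) (sy (f * e) m) * sy h m with hγ
  set x : Eis → ℝ := fun m => Real.log (B / (nm e * nm g)) - Real.log (nm m) with hx
  have hl : 0 ≤ lamW A B e f h := by unfold lamW; positivity
  have hxm : ∀ m ∈ s, -1 ≤ x m ∧ x m ≤ 0 := by
    intro m hm
    rw [hs, mem_filter] at hm
    have hmp := mem_D hsq hm.1
    have nmm : (0 : ℝ) < nm m := by exact_mod_cast nm_pos.mpr hmp.ne_zero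
    have h1 := hlo _ hm.2
    have h2 := hhi _ hm.2
    rw [nm_mul, nm_mul] at h1 h2
    push_cast at h1 h2
    have e1 : x m = Real.log (B / (nm e * nm g * nm m)) := by
      rw [hx]; beta_reduce
      rw [← Real.log_div (by positivity) (by positivity), div_div]
    rw [e1]
    constructor
    · have h3 : Real.exp (-1) ≤ B / (nm e * nm g * nm m) := by
        rw [le_div_iff₀ (by positivity)]
        have h4 : Real.exp (-1) ≤ 1 / 2 := by
          rw [Real.exp_neg, inv_eq_one_div]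
          apply one_div_le_one_div_of_le (by norm_num)
          have := Real.add_one_le_exp 1
          linarith
        calc Real.exp (-1) * (nm e * nm g * nm m) ≤ 1 / 2 * (2 * B) := by gcongr
          _ = B := by ring
      have := Real.log_le_log (Real.exp_pos _) h3
      rwa [Real.log_exp] at this
    · apply Real.log_nonpos (by positivity)
      rw [div_le_one (by positivity)]
      exact h1.le
  have key := hsep (lamW A B e f h) hl Eis s γ x hxm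
  -- rewrite the double sum
  have e1 : ∑ m1 ∈ 𝓑.biUnion dvs, ∑ m2 ∈ 𝓑.biUnion dvs,
        (if e * (g * m1) ∈ 𝓑 ∧ e * (g * m2) ∈ 𝓑 then
          β (e * (g * m1)) * (starRingEnd ℂ) (β (e * (g * m2))) *
            (((Real.sqrt (nm m1 * nm m2))⁻¹ : ℝ) : ℂ) *
            (psi h (f * e) m1 * (starRingEnd ℂ) (psi h (f * e) m2)) *
            (Real.exp (-(4 * Real.pi ^ 2 * A * nm h / (27 * nm f * nm (g * g * (m1 * m2))))) : ℂ)
          else 0) =
      ((nm e * nm g / B : ℝ) : ℂ) * ∑ i ∈ s, ∑ j ∈ s, γ i * (starRingEnd ℂ) (γ j) *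
        ((Real.exp (1 / 2 * (x i + x j)) *
          Real.exp (-(lamW A B e f h * Real.exp (x i + x j))) : ℝ) : ℂ) := by
    rw [hs, Finset.sum_filter, Finset.mul_sum]
    refine Finset.sum_congr rfl fun m1 hm1 => ?_
    by_cases c1 : e * g * m1 ∈ 𝓑
    · rw [if_pos c1, Finset.sum_filter, Finset.mul_sum]
      refine Finset.sum_congr rfl fun m2 hm2 => ?_
      by_cases c2 : e * g * m2 ∈ 𝓑
      · rw [if_pos c2, if_pos (by rw [← mul_assoc, ← mul_assoc]; exact ⟨c1, c2⟩)]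
        have n1 : (0 : ℝ) < nm m1 := by exact_mod_cast nm_pos.mpr (mem_D hsq hm1).ne_zero
        have n2 : (0 : ℝ) < nm m2 := by exact_mod_cast nm_pos.mpr (mem_D hsq hm2).ne_zero
        have ex : Real.exp (x m1 + x m2) = B ^ 2 / ((nm e * nm g) ^ 2 * (nm m1 * nm m2)) := by
          rw [hx]; beta_reduce
          rw [Real.exp_add, Real.exp_sub, Real.exp_sub, Real.exp_log (by positivity),
            Real.exp_log n1, Real.exp_log n2]
          field_simp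
        have ex2 : Real.exp (1 / 2 * (x m1 + x m2)) =
            B / (nm e * nm g) * (Real.sqrt (nm m1 * nm m2))⁻¹ := by
          have h1 : Real.exp (1 / 2 * (x m1 + x m2)) ^ 2 =
              (B / (nm e * nm g) * (Real.sqrt (nm m1 * nm m2))⁻¹) ^ 2 := by
            rw [← Real.exp_nat_mul, mul_pow, inv_pow, Real.sq_sqrt (by positivity)]
            have : ((2 : ℕ) : ℝ) * (1 / 2 * (x m1 + x m2)) = x m1 + x m2 := by push_cast; ring
            rw [this, ex]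
            field_simp
          exact (sq_eq_sq₀ (Real.exp_pos _).le (by positivity)).mp h1
        have ex3 : lamW A B e f h * Real.exp (x m1 + x m2) =
            4 * Real.pi ^ 2 * A * nm h / (27 * nm f * nm (g * g * (m1 * m2))) := by
          rw [ex, nm_mul, nm_mul, nm_mul]
          unfold lamW
          push_cast
          field_simp
        rw [ex2, ex3, hγ]
        beta_reduce
        unfold psi
        have c3 : e * (g * m1) = e * g * m1 := (mul_assoc _ _ _).symm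
        have c4 : e * (g * m2) = e * g * m2 := (mul_assoc _ _ _).symm
        rw [c3, c4]
        have hBc : (B : ℂ) ≠ 0 := by exact_mod_cast hB.ne'
        have hec : (nm e : ℂ) ≠ 0 := by exact_mod_cast ne.ne'
        have hgc : (nm g : ℂ) ≠ 0 := by exact_mod_cast ng.ne'
        simp only [map_mul, Complex.conj_conj]
        push_cast
        field_simp
      · rw [if_neg c2, mul_zero, if_neg (by rw [← mul_assoc, ← mul_assoc]; exact fun hh => c2 hh.2)]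
    · rw [if_neg c1, mul_zero]
      refine Finset.sum_eq_zero fun m2 _ => ?_
      rw [if_neg (by rw [← mul_assoc, ← mul_assoc]; exact fun hh => c1 hh.1)]
  rw [e1, norm_mul, Complex.norm_real, Real.norm_of_nonneg (by positivity)]
  refine mul_le_mul_of_nonneg_left (key.trans ?_) (by positivity)
  refine mul_le_mul_of_nonneg_left ?_ (by positivity)
  -- compare the integrals
  have hQ : ∀ t : ℝ, ‖∑ i ∈ s, γ i * osc t (x i)‖ = ‖Qf 𝓑 β e f g h (-t)‖ := by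
    intro t
    have : ∑ i ∈ s, γ i * osc t (x i) =
        osc t (Real.log (B / (nm e * nm g))) * Qf 𝓑 β e f g h (-t) := by
      unfold Qf
      rw [Finset.mul_sum]
      refine Finset.sum_congr rfl fun m hm => ?_
      have hmp := mem_D hsq (mem_filter.mp hm).1
      rw [nm_cpow_eq hmp.ne_zero, hx]
      beta_reduce
      rw [Weight600.osc_sub_right, Weight600.osc_neg_left]
      ring
    rw [this, norm_mul, norm_osc, one_mul]
  have hneg : ∫ t : ℝ, (1 + t ^ 2)⁻¹ * ‖Qf 𝓑 β e f g h (-t)‖ ^ 2 =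
      ∫ t : ℝ, (1 + t ^ 2)⁻¹ * ‖Qf 𝓑 β e f g h t‖ ^ 2 := by
    have := integral_neg_eq_self (fun t : ℝ => (1 + t ^ 2)⁻¹ * ‖Qf 𝓑 β e f g h t‖ ^ 2) volume
    rw [← this]
    simp only [neg_sq]
  rw [← hneg]
  have hI : Integrable (fun t : ℝ => (1 + t ^ 2)⁻¹ * ‖Qf 𝓑 β e f g h (-t)‖ ^ 2) := by
    have := (integrable_Qf hsq β e f g h).comp_neg
    simpa using this
  refine integral_mono_of_nonneg (Filter.Eventually.of_forall fun t => by positivity) hI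
    (Filter.Eventually.of_forall fun t => ?_)
  beta_reduce
  rw [hQ]
  gcongr
  nlinarith [abs_nonneg t, sq_abs t]

/-- weight `(1 + N(h)/K)^{-N}` -/
def wK (N : ℕ) (A B : ℝ) (e f h : Eis) : ℝ :=
  ((1 + nm h * ((nm e : ℝ) ^ 2 * A / (nm f * B ^ 2))) ^ N)⁻¹

lemma wK_nonneg {A B : ℝ} (hA : 0 < A) (N : ℕ) (e f h : Eis) : 0 ≤ wK N A B e f h := by
  unfold wK; positivity

lemma inv_lamW_le {A B : ℝ} (hA : 0 < A) (N : ℕ) (e f h : Eis) :
    ((1 + lamW A B e f h) ^ N)⁻¹ ≤ wK N A B e f h := by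
  unfold lamW wK
  apply inv_anti₀ (by positivity)
  have h1 : 1 ≤ 4 * Real.pi ^ 2 / 27 := by
    rw [le_div_iff₀ (by norm_num)]
    nlinarith [Real.pi_gt_three]
  have h2 : 0 ≤ (nm h : ℝ) * ((nm e : ℝ) ^ 2 * A / (nm f * B ^ 2)) := by positivity
  refine pow_le_pow_left₀ (by positivity) ?_ N
  nlinarith

lemma summable_wK {A B : ℝ} (hA : 0 < A) (hB : 0 < B) {N : ℕ} (hN : 2 ≤ N) {e f : Eis}
    (he : IsPrim e) (hf : IsPrim f) : Summable (fun h : Eis => wK N A B e f h) := by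
  have ne : (0 : ℝ) < nm e := by exact_mod_cast nm_pos.mpr he.ne_zero
  have nf : (0 : ℝ) < nm f := by exact_mod_cast nm_pos.mpr hf.ne_zero
  exact summable_wt (by positivity) hN

open Classical in
/-- the bilinear form of one frequency -/
def Br (A : ℝ) (𝓑 : Finset Eis) (β : Eis → ℂ) (e f h : Eis) : ℂ :=
  ∑ k1 ∈ 𝓑.biUnion dvs, ∑ k2 ∈ 𝓑.biUnion dvs,
    (if e * k1 ∈ 𝓑 ∧ e * k2 ∈ 𝓑 ∧ IsCoprime k1 k2 then
        β (e * k1) * (starRingEnd ℂ) (β (e * k2)) *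
          (((Real.sqrt (nm k1 * nm k2))⁻¹ : ℝ) : ℂ) *
          (psi h (f * e) k1 * (starRingEnd ℂ) (psi h (f * e) k2)) *
          (Real.exp (-(4 * Real.pi ^ 2 * A * nm h / (27 * nm f * nm (k1 * k2)))) : ℂ) else 0)

open Classical in
/-- bound for the bilinear form of one frequency -/
theorem norm_Br_le (N : ℕ) : ∃ C : ℝ, 0 < C ∧ ∀ (A B : ℝ) (𝓑 : Finset Eis) (β : Eis → ℂ),
    0 < A → 0 < B → (∀ b ∈ 𝓑, SqP b) → (∀ b ∈ 𝓑, B < nm b) → (∀ b ∈ 𝓑, (nm b : ℝ) ≤ 2 * B) →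
    ∀ e f h : Eis, IsPrim e → IsPrim f → f ∣ e →
    ‖Br A 𝓑 β e f h‖ ≤ C * (nm e / B) * ∑ g ∈ (𝓑.biUnion dvs).filter (IsCoprime · e),
      wK N A B e f h * ∫ u : ℝ, (1 + u ^ 2)⁻¹ * ‖Qf 𝓑 β e f g h u‖ ^ 2 := by
  obtain ⟨C, hC, hs⟩ := single N
  refine ⟨C, hC, fun A B 𝓑 β hA hB hsq hlo hhi e f h he hf hfe => ?_⟩
  have ne : (0 : ℝ) < nm e := by exact_mod_cast nm_pos.mpr he.ne_zero
  have hpm := pairs_moebius (S := 𝓑) (D := 𝓑.biUnion dvs) hsq (fun d hd => mem_D hsq hd)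
    (D_closed hsq) he hfe h β (fun n => (Real.exp (-(4 * Real.pi ^ 2 * A * nm h /
      (27 * nm f * nm n))) : ℂ))
  have hBr : Br A 𝓑 β e f h = _ := hpm
  rw [hBr, Finset.mul_sum]
  refine (norm_sum_le _ _).trans ?_
  rw [Finset.sum_filter]
  refine Finset.sum_le_sum fun g hg => ?_
  have hgp := mem_D hsq hg
  have ng : (0 : ℝ) < nm g := by exact_mod_cast nm_pos.mpr hgp.ne_zero
  have h1 := hs A B 𝓑 β hA hB hsq hlo hhi e f g h he hf hgp
  by_cases hge : IsCoprime g e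
  · rw [if_pos hge]
    have hI := integral_Qf_nonneg 𝓑 β e f g h
    by_cases hhg : IsCoprime h g
    · rw [if_pos hhg, norm_mul, norm_mul]
      have h2 : ‖((mu g : ℤ) : ℂ)‖ ≤ 1 := norm_muE_le g
      have h3 : ‖((nm g : ℂ))⁻¹‖ = (nm g : ℝ)⁻¹ := by
        rw [norm_inv]; simp
      rw [h3]
      calc _ ≤ 1 * (nm g : ℝ)⁻¹ * (nm e * nm g / B * (C * ((1 + lamW A B e f h) ^ N)⁻¹ *
              ∫ u : ℝ, (1 + u ^ 2)⁻¹ * ‖Qf 𝓑 β e f g h u‖ ^ 2)) := by
            gcongr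
        _ ≤ 1 * (nm g : ℝ)⁻¹ * (nm e * nm g / B * (C * wK N A B e f h *
              ∫ u : ℝ, (1 + u ^ 2)⁻¹ * ‖Qf 𝓑 β e f g h u‖ ^ 2)) := by
            gcongr
            exact inv_lamW_le hA N e f h
        _ = _ := by field_simp
    · rw [if_neg hhg, norm_zero]
      have := wK_nonneg (B := B) hA N e f h
      positivity
  · rw [if_neg hge]
    have hz : ∀ m : Eis, ¬ e * (g * m) ∈ 𝓑 := by
      intro m hm
      obtain ⟨r, -, -⟩ := squarefree_mul_iff.mp (hsq _ hm).2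
      exact hge (IsCoprime.of_isCoprime_of_dvd_right r.isCoprime (dvd_mul_right _ _)).symm
    simp only [hz, false_and, if_false, Finset.sum_const_zero, mul_zero, ite_self, norm_zero,
      le_refl]

open Classical in
/-- Expansion of the sum over the pairs of cofactors. -/
lemma sum_dualP_eq {A : ℝ} (hA : 0 < A) {𝓑 : Finset Eis} (hsq : ∀ b ∈ 𝓑, SqP b) (β : Eis → ℂ)
    (e : Eis) (H : Eis → Eis → Prop) :
    ∑ k1 ∈ 𝓑.biUnion dvs, ∑ k2 ∈ 𝓑.biUnion dvs,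
      (if e * k1 ∈ 𝓑 ∧ e * k2 ∈ 𝓑 ∧ IsCoprime k1 k2 then
        β (e * k1) * (starRingEnd ℂ) (β (e * k2)) * dualP A e k1 k2 H else 0) =
      ((2 * Real.pi * A / (9 * Real.sqrt 3) : ℝ) : ℂ) *
      ∑ f ∈ dvs e, ((muE f : ℝ) / nm f : ℝ) *
        ∑' h : Eis, if H f h then ph h * Br A 𝓑 β e f h else 0 := by
  have e0 : ∀ f ∈ dvs e, ∑' h : Eis, (if H f h then ph h * Br A 𝓑 β e f h else 0) =
      ∑ k1 ∈ 𝓑.biUnion dvs, ∑ k2 ∈ 𝓑.biUnion dvs,
        (if e * k1 ∈ 𝓑 ∧ e * k2 ∈ 𝓑 ∧ IsCoprime k1 k2 then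
          β (e * k1) * (starRingEnd ℂ) (β (e * k2)) * (((Real.sqrt (nm k1 * nm k2))⁻¹ : ℝ) : ℂ) *
            ∑' h : Eis, (if H f h then dT A e k1 k2 f h else 0) else 0) := by
    intro f hf
    have hf0 := (isPrim_of_mem_dvs hf).ne_zero
    have e1 : ∀ h : Eis, (if H f h then ph h * Br A 𝓑 β e f h else 0) =
        ∑ k1 ∈ 𝓑.biUnion dvs, ∑ k2 ∈ 𝓑.biUnion dvs,
        (if e * k1 ∈ 𝓑 ∧ e * k2 ∈ 𝓑 ∧ IsCoprime k1 k2 then
          β (e * k1) * (starRingEnd ℂ) (β (e * k2)) * (((Real.sqrt (nm k1 * nm k2))⁻¹ : ℝ) : ℂ) *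
            (if H f h then dT A e k1 k2 f h else 0) else 0) := by
      intro h
      by_cases hh : H f h
      · simp only [if_pos hh]
        unfold Br
        rw [Finset.mul_sum]
        refine Finset.sum_congr rfl fun k1 _ => ?_
        rw [Finset.mul_sum]
        refine Finset.sum_congr rfl fun k2 _ => ?_
        split_ifs
        · rw [dT_eq, nm_mul]
          have : (27 * (nm f : ℝ) * ((nm k1 * nm k2 : ℕ) : ℝ)) = 27 * nm f * nm k1 * nm k2 := by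
            push_cast; ring
          rw [this]
          ring
        · rw [mul_zero]
      · simp only [if_neg hh, mul_zero, ite_self, Finset.sum_const_zero]
    simp_rw [e1]
    have hsum : ∀ k1 ∈ 𝓑.biUnion dvs, ∀ k2 ∈ 𝓑.biUnion dvs, Summable (fun h : Eis =>
        (if e * k1 ∈ 𝓑 ∧ e * k2 ∈ 𝓑 ∧ IsCoprime k1 k2 then
          β (e * k1) * (starRingEnd ℂ) (β (e * k2)) * (((Real.sqrt (nm k1 * nm k2))⁻¹ : ℝ) : ℂ) *
            (if H f h then dT A e k1 k2 f h else 0) else 0)) := by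
      intro k1 hk1 k2 hk2
      by_cases hc : e * k1 ∈ 𝓑 ∧ e * k2 ∈ 𝓑 ∧ IsCoprime k1 k2
      · simp only [if_pos hc]
        exact (summable_dT_if hA e (mem_D hsq hk1) (mem_D hsq hk2) hf0 _).mul_left _
      · simp only [if_neg hc]
        exact summable_zero
    rw [Summable.tsum_finsetSum (fun k1 h1 => summable_sum fun k2 h2 => hsum k1 h1 k2 h2)]
    refine Finset.sum_congr rfl fun k1 h1 => ?_
    rw [Summable.tsum_finsetSum (fun k2 h2 => hsum k1 h1 k2 h2)]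
    refine Finset.sum_congr rfl fun k2 h2 => ?_
    split_ifs
    · rw [tsum_mul_left]
    · rw [tsum_zero]
  have e3 : ∑ f ∈ dvs e, (((muE f : ℝ) / nm f : ℝ) : ℂ) *
        ∑' h : Eis, (if H f h then ph h * Br A 𝓑 β e f h else 0) =
      ∑ f ∈ dvs e, (((muE f : ℝ) / nm f : ℝ) : ℂ) *
        ∑ k1 ∈ 𝓑.biUnion dvs, ∑ k2 ∈ 𝓑.biUnion dvs,
        (if e * k1 ∈ 𝓑 ∧ e * k2 ∈ 𝓑 ∧ IsCoprime k1 k2 then
          β (e * k1) * (starRingEnd ℂ) (β (e * k2)) * (((Real.sqrt (nm k1 * nm k2))⁻¹ : ℝ) : ℂ) *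
            ∑' h : Eis, (if H f h then dT A e k1 k2 f h else 0) else 0) :=
    Finset.sum_congr rfl fun f hf => by rw [e0 f hf]
  rw [e3]
  symm
  simp_rw [Finset.mul_sum]
  rw [Finset.sum_comm]
  refine Finset.sum_congr rfl fun k1 _ => ?_
  rw [Finset.sum_comm]
  refine Finset.sum_congr rfl fun k2 _ => ?_
  by_cases hc : e * k1 ∈ 𝓑 ∧ e * k2 ∈ 𝓑 ∧ IsCoprime k1 k2
  · simp only [if_pos hc]
    rw [dualP_eq, Finset.mul_sum, Finset.mul_sum]
    refine Finset.sum_congr rfl fun f _ => ?_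
    push_cast
    rw [div_eq_mul_inv _ ((Real.sqrt ((nm k1 : ℝ) * nm k2) : ℝ) : ℂ)]
    ring
  · simp only [if_neg hc, mul_zero, Finset.sum_const_zero]

end Crest.Agent.R012.T1d671
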