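import Crest.Agent.R012.T3Sum_85

/-!
# Row 12, item T3 (part c): the summatory function of `|τ(a)|²` over primary `a` coprime to `b`

`TT b y = ∑_{a primary, N(a) ≤ y, (a,b)=1} |τ(a)|²`,
`|TT b y - 3/2 * kap0 * PE b * y^(2/3)| ≤ 10^7 * sig b * y^(1/3) * EL y` for all `y ≥ 0`.
-/

set_option autoImplicit false
set_option linter.unusedSimpArgs false
set_option linter.unusedVariables false

noncomputable section

open Finset MeasureTheory

namespace Crest.Agent.R012.T3_85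

open Eis Crest.Agent.R012 Crest.Agent.R012.Mob705 Crest.Agent.R012.Div277
open Crest.Agent.R012.Tau85

open Classical in
/-- `|τ(a)|²` on `a` coprime to `b`. -/
def g2 (b a : Eis) : ℝ := if IsCoprime a b then ‖tauE a‖ ^ 2 else 0

lemma g2_nonneg (b a : Eis) : 0 ≤ g2 b a := by
  unfold g2; split_ifs <;> positivity

lemma norm_tauE_cp {q : Eis × Eis} (hq : q ∈ TP) :
    ‖tauE (cp q)‖ ^ 2 = (nm q.1 : ℝ) ^ (-(1 / 3) : ℝ) := by
  rw [tauE_cp hq, norm_mul, RCLike.norm_conj, Gauss880.norm_G Gauss880.syG hq.1 hq.2.1, one_mul,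
    Complex.norm_real, Real.norm_eq_abs, abs_of_nonneg (by positivity), ← Real.rpow_natCast,
    ← Real.rpow_mul (by positivity)]
  norm_num

lemma g2_cp {b : Eis} {q : Eis × Eis} (hq : q ∈ TP) (hc : IsCoprime (cp q) b) :
    g2 b (cp q) = (nm q.1 : ℝ) ^ (-(1 / 3) : ℝ) := by
  classical
  unfold g2
  rw [if_pos hc, norm_tauE_cp hq]

lemma norm_tauE_sq_le_one (a : Eis) : ‖tauE a‖ ^ 2 ≤ 1 := by
  by_cases h : ∃ q ∈ TP, cp q = a
  · obtain ⟨q, hq, rfl⟩ := h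
    rw [norm_tauE_cp hq]
    exact Real.rpow_le_one_of_one_le_of_nonpos (one_le_nm_of_isPrim hq.1) (by norm_num)
  · push Not at h
    rw [tauE_eq_zero h]
    simp

lemma g2_le_one (b a : Eis) : g2 b a ≤ 1 := by
  classical
  unfold g2
  split_ifs
  · exact norm_tauE_sq_le_one a
  · norm_num

/-- the summatory function. -/
def TT (b : Eis) (y : ℝ) : ℝ := ∑ a ∈ pb y, g2 b a

lemma le_div_cube_iff {m n y : ℝ} (hm : 0 < m) : n ≤ y / m ^ 3 ↔ n * m ^ 3 ≤ y :=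
  le_div_iff₀ (by positivity)

lemma TT_eq (b : Eis) {y : ℝ} (hy : 0 ≤ y) :
    TT b y = ∑ m ∈ cop b (y ^ (1 / 3 : ℝ)), LL b (y / (nm m : ℝ) ^ 3) := by
  classical
  unfold TT LL
  rw [Finset.sum_sigma']
  symm
  refine Finset.sum_of_injOn (fun x : (Σ _ : Eis, Eis) => cp (x.2, x.1)) ?_ ?_ ?_ ?_
  · rintro ⟨m, a⟩ hx ⟨m', a'⟩ hx' h
    simp only [mem_coe, mem_sigma, mem_cop, mem_sfc] at hx hx'
    have h1 : ((a, m) : Eis × Eis) ∈ TP := ⟨hx.2.1.2, hx.2.2.2, hx.1.1.2⟩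
    have h2 : ((a', m') : Eis × Eis) ∈ TP := ⟨hx'.2.1.2, hx'.2.2.2, hx'.1.1.2⟩
    have h3 := cp_injOn h1 h2 h
    simp only [Prod.mk.injEq] at h3
    obtain ⟨rfl, rfl⟩ := h3
    rfl
  · rintro ⟨m, a⟩ hx
    simp only [mem_coe, mem_sigma, mem_cop, mem_sfc] at hx ⊢
    have h1 : ((a, m) : Eis × Eis) ∈ TP := ⟨hx.2.1.2, hx.2.2.2, hx.1.1.2⟩
    rw [mem_pb]
    refine ⟨?_, cp_isPrim h1⟩
    rw [nm_cp]
    push_cast
    have hm : (0 : ℝ) < nm m := by exact_mod_cast nm_pos.mpr hx.1.1.2.ne_zero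
    exact (le_div_cube_iff hm).mp hx.2.1.1
  · intro a ha hna
    unfold g2
    split_ifs with hc
    · have h0 : tauE a = 0 := by
        apply tauE_eq_zero
        rintro ⟨a0, m⟩ hq rfl
        apply hna
        refine ⟨⟨m, a0⟩, ?_, rfl⟩
        rw [mem_pb, nm_cp] at ha
        push_cast at ha
        rw [isCoprime_cp] at hc
        have hm : (1 : ℝ) ≤ nm m := one_le_nm_of_isPrim hq.2.2
        have ha0 : (1 : ℝ) ≤ nm a0 := one_le_nm_of_isPrim hq.1
        simp only [mem_coe, mem_sigma, mem_cop, mem_sfc]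
        simp only at ha hc hm ha0
        refine ⟨⟨⟨?_, hq.2.2⟩, hc.2⟩, ⟨?_, hq.1⟩, hc.1, hq.2.1⟩
        · have h1 : (nm m : ℝ) ^ 3 ≤ y := by
            refine le_trans ?_ ha.1
            nlinarith [pow_nonneg (by linarith : (0 : ℝ) ≤ nm m) 3]
          calc (nm m : ℝ) = ((nm m : ℝ) ^ (3 : ℕ)) ^ (1 / 3 : ℝ) := by
                rw [← Real.rpow_natCast, ← Real.rpow_mul (by linarith)]; norm_num
            _ ≤ y ^ (1 / 3 : ℝ) := Real.rpow_le_rpow (by positivity) h1 (by norm_num)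
        · exact (le_div_cube_iff (by linarith)).mpr ha.1
      rw [h0]; simp
    · rfl
  · rintro ⟨m, a⟩ hx
    simp only [mem_sigma, mem_cop, mem_sfc] at hx
    have h1 : ((a, m) : Eis × Eis) ∈ TP := ⟨hx.2.1.2, hx.2.2.2, hx.1.1.2⟩
    rw [g2_cp h1 (isCoprime_cp.mpr ⟨hx.2.2.1, hx.1.2⟩)]

lemma sum_z2_cop (b : Eis) (M : ℝ) : ∑ m ∈ cop b M, z2 b m = ∑ m ∈ cop b M, 1 / (nm m : ℝ) ^ 2 := by
  classical
  refine Finset.sum_congr rfl fun m hm => ?_
  rw [mem_cop] at hm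
  unfold z2
  rw [if_pos ⟨hm.1.2, hm.2⟩]

theorem abs_TT_sub_le {b : Eis} (hb : b ≠ 0) {y : ℝ} (hy : 0 ≤ y) :
    |TT b y - 3 / 2 * (kap0 * PE b) * y ^ (2 / 3 : ℝ)| ≤
      10000000 * sig b * y ^ (1 / 3 : ℝ) * EL y := by
  classical
  have hs := one_le_sig b
  have hE := one_le_EL y
  have hk1 := kap0_le_one
  have hk0 := kap0_pos
  have hP1 := PE_le_one b
  have hP0 := PE_pos b
  rcases lt_or_ge y 1 with h1 | h1
  · have h2 : TT b y = 0 := by
      unfold TT; rw [pb_eq_empty h1, Finset.sum_empty]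
    rw [h2, zero_sub, abs_neg, abs_of_nonneg (by positivity)]
    have h3 : y ^ (2 / 3 : ℝ) ≤ y ^ (1 / 3 : ℝ) := by
      rcases hy.lt_or_eq with h | h
      · exact Real.rpow_le_rpow_of_exponent_ge h h1.le (by norm_num)
      · rw [← h, Real.zero_rpow (by norm_num), Real.zero_rpow (by norm_num)]
    have h4 : (0 : ℝ) ≤ y ^ (1 / 3 : ℝ) := by positivity
    calc 3 / 2 * (kap0 * PE b) * y ^ (2 / 3 : ℝ) ≤ 3 / 2 * (1 * 1) * y ^ (1 / 3 : ℝ) := by gcongr
      _ ≤ 10000000 * 1 * y ^ (1 / 3 : ℝ) * 1 := by linarith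
      _ ≤ _ := by gcongr
  · set M := y ^ (1 / 3 : ℝ) with hM
    have hM1 : 1 ≤ M := Real.one_le_rpow h1 (by norm_num)
    have hM3 : M ^ 3 = y := by
      rw [hM, ← Real.rpow_natCast, ← Real.rpow_mul hy]; norm_num
    have hmem : ∀ m ∈ cop b M, 1 ≤ y / (nm m : ℝ) ^ 3 ∧ (1 : ℝ) ≤ nm m := by
      intro m hm
      rw [mem_cop] at hm
      have hm1 := one_le_nm_of_isPrim hm.1.2
      refine ⟨?_, hm1⟩
      rw [one_le_div (by positivity), ← hM3]
      gcongr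
      exact hm.1.1
    have e1 : 3 / 2 * (kap0 * PE b) * y ^ (2 / 3 : ℝ) =
        3 / 2 * kap b * y ^ (2 / 3 : ℝ) * Z2 b := by
      rw [← kap_mul_Z2]; ring
    have e2 : TT b y - 3 / 2 * (kap0 * PE b) * y ^ (2 / 3 : ℝ) =
        (∑ m ∈ cop b M, (LL b (y / (nm m : ℝ) ^ 3) -
          3 / 2 * kap b * (y / (nm m : ℝ) ^ 3) ^ (2 / 3 : ℝ))) -
        3 / 2 * kap b * y ^ (2 / 3 : ℝ) * (Z2 b - ∑ m ∈ cop b M, z2 b m) := by
      rw [e1, TT_eq b hy, Finset.sum_sub_distrib, sum_z2_cop, mul_sub, Finset.mul_sum]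
      have e3 : ∀ m ∈ cop b M, 3 / 2 * kap b * (y / (nm m : ℝ) ^ 3) ^ (2 / 3 : ℝ) =
          3 / 2 * kap b * y ^ (2 / 3 : ℝ) * (1 / (nm m : ℝ) ^ 2) := by
        intro m hm
        have hm1 := (hmem m hm).2
        rw [Real.div_rpow hy (by positivity)]
        have : (((nm m : ℝ)) ^ 3) ^ (2 / 3 : ℝ) = (nm m : ℝ) ^ 2 := by
          rw [← Real.rpow_natCast, ← Real.rpow_mul (by linarith), ← Real.rpow_natCast]
          norm_num
        rw [this]; ring
      rw [Finset.sum_congr rfl e3]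
      ring
    rw [e2]
    have hA : |∑ m ∈ cop b M, (LL b (y / (nm m : ℝ) ^ 3) -
          3 / 2 * kap b * (y / (nm m : ℝ) ^ 3) ^ (2 / 3 : ℝ))| ≤
        4000000 * sig b * M * EL y := by
      refine (Finset.abs_sum_le_sum_abs _ _).trans ?_
      have h2 : ∀ m ∈ cop b M, |LL b (y / (nm m : ℝ) ^ 3) -
          3 / 2 * kap b * (y / (nm m : ℝ) ^ 3) ^ (2 / 3 : ℝ)| ≤
          20000 * sig b * EL y * y ^ (1 / 6 : ℝ) * (nm m : ℝ) ^ (-(1 / 2) : ℝ) := by
        intro m hm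
        have hm1 := (hmem m hm).2
        refine (abs_LL_sub_le hb (hmem m hm).1).trans ?_
        have h3 : EL (y / (nm m : ℝ) ^ 3) ≤ EL y := by
          apply EL_mono
          apply div_le_self hy
          exact one_le_pow₀ hm1
        have h4 : (y / (nm m : ℝ) ^ 3) ^ (1 / 6 : ℝ) =
            y ^ (1 / 6 : ℝ) * (nm m : ℝ) ^ (-(1 / 2) : ℝ) := by
          rw [Real.div_rpow hy (by positivity), div_eq_mul_inv]
          congr 1
          rw [← Real.rpow_natCast, ← Real.rpow_mul (by linarith), ← Real.rpow_neg (by linarith)]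
          norm_num
        rw [h4]
        have h5 : 0 ≤ 20000 * sig b * (y ^ (1 / 6 : ℝ) * (nm m : ℝ) ^ (-(1 / 2) : ℝ)) := by
          have := sig_pos b
          positivity
        calc 20000 * sig b * (y ^ (1 / 6 : ℝ) * (nm m : ℝ) ^ (-(1 / 2) : ℝ)) *
              EL (y / (nm m : ℝ) ^ 3) ≤
            20000 * sig b * (y ^ (1 / 6 : ℝ) * (nm m : ℝ) ^ (-(1 / 2) : ℝ)) * EL y := by gcongr
          _ = _ := by ring
      refine (Finset.sum_le_sum h2).trans ?_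
      rw [← Finset.mul_sum]
      have h3 : ∑ m ∈ cop b M, (nm m : ℝ) ^ (-(1 / 2) : ℝ) ≤ 200 * M ^ (1 / 2 : ℝ) := by
        refine le_trans ?_ (sum_inv_sqrt_le hM1)
        exact Finset.sum_le_sum_of_subset_of_nonneg (cop_subset b M)
          fun _ _ _ => by positivity
      have h4 : y ^ (1 / 6 : ℝ) * M ^ (1 / 2 : ℝ) = M := by
        rw [hM, ← Real.rpow_mul hy, ← Real.rpow_add (by linarith)]; norm_num
      have h5 : 0 ≤ 20000 * sig b * EL y * y ^ (1 / 6 : ℝ) := by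
        have := sig_pos b; positivity
      calc 20000 * sig b * EL y * y ^ (1 / 6 : ℝ) * ∑ m ∈ cop b M, (nm m : ℝ) ^ (-(1 / 2) : ℝ) ≤
          20000 * sig b * EL y * y ^ (1 / 6 : ℝ) * (200 * M ^ (1 / 2 : ℝ)) := by gcongr
        _ = 4000000 * sig b * EL y * (y ^ (1 / 6 : ℝ) * M ^ (1 / 2 : ℝ)) := by ring
        _ = _ := by rw [h4]; ring
    have hB : |3 / 2 * kap b * y ^ (2 / 3 : ℝ) * (Z2 b - ∑ m ∈ cop b M, z2 b m)| ≤
        135000 * M := by
      rw [abs_mul, abs_mul, abs_mul, abs_of_pos (by norm_num : (0 : ℝ) < 3 / 2),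
        abs_of_nonneg (by positivity : (0 : ℝ) ≤ y ^ (2 / 3 : ℝ))]
      have h2 := abs_kap_le b
      have h3 : |Z2 b - ∑ m ∈ cop b M, z2 b m| ≤ 300 / M := by
        have h4 := abs_Z2_sub_le b (cop b M) ⌊M⌋₊ (fun d hd hd1 hd2 => by
          by_contra hle
          push Not at hle
          apply hd
          rw [mem_cop]
          refine ⟨⟨?_, hd1⟩, hd2⟩
          exact (Nat.cast_le.mpr hle).trans (Nat.floor_le (by linarith)))
        refine h4.trans ?_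
        gcongr
        exact (Nat.lt_floor_add_one M).le
      have h5 : y ^ (2 / 3 : ℝ) = M * M := by
        rw [hM, ← Real.rpow_add (by linarith)]; norm_num
      rw [h5]
      calc 3 / 2 * |kap b| * (M * M) * |Z2 b - ∑ m ∈ cop b M, z2 b m| ≤
          3 / 2 * 300 * (M * M) * (300 / M) := by gcongr
        _ = 135000 * M := by field_simp; norm_num
    have hMEs : M ≤ sig b * M * EL y := by
      have h2 : M ≤ sig b * M := by nlinarith
      nlinarith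
    have h6 := abs_sub (∑ m ∈ cop b M, (LL b (y / (nm m : ℝ) ^ 3) -
          3 / 2 * kap b * (y / (nm m : ℝ) ^ 3) ^ (2 / 3 : ℝ)))
        (3 / 2 * kap b * y ^ (2 / 3 : ℝ) * (Z2 b - ∑ m ∈ cop b M, z2 b m))
    linarith

end Crest.Agent.R012.T3_85
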