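import Crest.Agent.R012.Zeta2_85
import Crest.Agent.R012.GaussInst_880

/-!
# Row 12, item T3 (part b): `∑_{N(a) ≤ y, (a,b) = 1} |τ(a)|²` with sharp cut-off.
-/

set_option autoImplicit false
set_option linter.unusedSimpArgs false
set_option linter.unusedVariables false

noncomputable section

open Finset MeasureTheory

namespace Crest.Agent.R012.T3_85

open Eis Crest.Agent.R012 Crest.Agent.R012.Mob705 Crest.Agent.R012.Div277
open Crest.Agent.R012.Tau85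

/-! ### Abel summation over families of primary elements -/

open Classical in
lemma sum_fam_eq (P : Eis → Prop) (F : ℕ → ℝ) (Y : ℝ) :
    ∑ k ∈ Icc 0 ⌊Y⌋₊, F k * (((pb Y).filter (fun x => P x ∧ nm x = k)).card : ℝ) =
      ∑ a ∈ (pb Y).filter P, F (nm a) := by
  have h1 : ∀ a ∈ (pb Y).filter P, nm a ∈ Icc 0 ⌊Y⌋₊ := by
    intro a ha
    rw [mem_filter, mem_pb] at ha
    rw [mem_Icc]
    exact ⟨Nat.zero_le _, Nat.le_floor ha.1.1⟩
  rw [← Finset.sum_fiberwise_of_maps_to h1]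
  refine Finset.sum_congr rfl fun k _ => ?_
  rw [Finset.filter_filter]
  have h2 : ∀ a ∈ (pb Y).filter (fun x => P x ∧ nm x = k), F (nm a) = F k := by
    intro a ha
    rw [mem_filter] at ha
    rw [ha.2.2]
  rw [Finset.sum_congr rfl h2, Finset.sum_const, nsmul_eq_mul, mul_comm]

open Classical in
/-- coefficient sequence counting the elements of norm `k` with property `P`. -/
def cnt (P : Eis → Prop) (k : ℕ) : ℝ := (((primBall k).filter (fun x => P x ∧ nm x = k)).card : ℝ)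

open Classical in
lemma cnt_eq (P : Eis → Prop) {Y : ℝ} {k : ℕ} (hk : k ≤ ⌊Y⌋₊) :
    (((pb Y).filter (fun x => P x ∧ nm x = k)).card : ℝ) = cnt P k := by
  unfold cnt
  congr 2
  ext x
  simp only [mem_filter, mem_pb, mem_primBall]
  constructor
  · rintro ⟨⟨h1, h2⟩, h3, h4⟩
    exact ⟨⟨h4.le, h2⟩, h3, h4⟩
  · rintro ⟨⟨h1, h2⟩, h3, h4⟩
    refine ⟨⟨?_, h2⟩, h3, h4⟩
    have h5 : nm x ≠ 0 := fun h => h2.ne_zero (nm_eq_zero.mp h)
    exact (Nat.le_floor_iff' h5).mp (h4 ▸ hk)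

open Classical in
lemma sum_cnt (P : Eis → Prop) (F : ℕ → ℝ) (Y : ℝ) :
    ∑ k ∈ Icc 0 ⌊Y⌋₊, F k * cnt P k = ∑ a ∈ (pb Y).filter P, F (nm a) := by
  rw [← sum_fam_eq]
  refine Finset.sum_congr rfl fun k hk => ?_
  rw [cnt_eq P (mem_Icc.mp hk).2]

open Classical in
lemma sum_cnt_one (P : Eis → Prop) (Y : ℝ) :
    ∑ k ∈ Icc 0 ⌊Y⌋₊, cnt P k = ((pb Y).filter P).card := by
  have := sum_cnt P (fun _ => 1) Y
  simpa using this

lemma cnt_zero (P : Eis → Prop) : cnt P 0 = 0 := by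
  classical
  unfold cnt
  have : (primBall 0).filter (fun x => P x ∧ nm x = 0) = ∅ := by
    ext x
    simp only [mem_filter, mem_primBall, notMem_empty, iff_false, not_and]
    rintro ⟨_, h2⟩ _ h3
    exact h2.ne_zero (nm_eq_zero.mp h3)
  rw [this]; simp

open Classical in
/-- Abel summation. -/
lemma abel_fam (P : Eis → Prop) (f : ℝ → ℝ) (Y : ℝ)
    (hf : ∀ t ∈ Set.Icc 1 Y, DifferentiableAt ℝ f t)
    (hint : IntegrableOn (deriv f) (Set.Icc 1 Y)) :
    ∑ a ∈ (pb Y).filter P, f (nm a) = f Y * ((pb Y).filter P).card -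
      ∫ t in Set.Ioc 1 Y, deriv f t * ((pb t).filter P).card := by
  have h := sum_mul_eq_sub_integral_mul₀ (cnt P) (cnt_zero P) Y hf hint
  rw [sum_cnt P (fun k => f k) Y] at h
  rw [h, sum_cnt_one]
  congr 1
  refine setIntegral_congr_fun measurableSet_Ioc fun t _ => ?_
  simp only [sum_cnt_one]

lemma deriv_rpow' (s : ℝ) {t : ℝ} (ht : 0 < t) : deriv (fun x : ℝ => x ^ s) t = s * t ^ (s - 1) :=
  (Real.hasDerivAt_rpow_const (Or.inl ht.ne')).deriv

lemma diff_rpow (s : ℝ) {t : ℝ} (ht : 0 < t) : DifferentiableAt ℝ (fun x : ℝ => x ^ s) t :=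
  (Real.hasDerivAt_rpow_const (Or.inl ht.ne')).differentiableAt

lemma intOn_rpow (s : ℝ) {Y : ℝ} (hY : 1 ≤ Y) : IntegrableOn (fun x : ℝ => x ^ s) (Set.Icc 1 Y) := by
  have : ContinuousOn (fun x : ℝ => x ^ s) (Set.Icc 1 Y) := by
    intro x hx
    exact (Real.continuousAt_rpow_const _ _ (Or.inl (by linarith [hx.1]))).continuousWithinAt
  exact this.integrableOn_Icc

lemma intOn_deriv_rpow (s : ℝ) {Y : ℝ} (hY : 1 ≤ Y) :
    IntegrableOn (deriv (fun x : ℝ => x ^ s)) (Set.Icc 1 Y) := by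
  have h : IntegrableOn (fun x : ℝ => s * x ^ (s - 1)) (Set.Icc 1 Y) :=
    (intOn_rpow (s - 1) hY).const_mul s
  refine IntegrableOn.congr_fun h (fun x hx => ?_) measurableSet_Icc
  exact (deriv_rpow' s (by linarith [hx.1])).symm

lemma integral_rpow_Ioc (s : ℝ) (hs : s ≠ -1) {Y : ℝ} (hY : 1 ≤ Y) :
    ∫ t in Set.Ioc 1 Y, t ^ s = (Y ^ (s + 1) - 1) / (s + 1) := by
  rw [← intervalIntegral.integral_of_le hY, integral_rpow]
  · rw [Real.one_rpow]
  · right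
    refine ⟨hs, ?_⟩
    rw [Set.uIcc_of_le hY]
    intro h
    linarith [h.1]

open Classical in
/-- Abel summation for powers. -/
lemma abel_pow (P : Eis → Prop) (s : ℝ) {Y : ℝ} (hY : 1 ≤ Y) :
    ∑ a ∈ (pb Y).filter P, (nm a : ℝ) ^ s = Y ^ s * ((pb Y).filter P).card -
      s * ∫ t in Set.Ioc 1 Y, t ^ (s - 1) * ((pb t).filter P).card := by
  rw [abel_fam P (fun x => x ^ s) Y (fun t ht => diff_rpow s (by linarith [ht.1]))
    (intOn_deriv_rpow s hY)]
  congr 1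
  rw [← integral_const_mul]
  refine setIntegral_congr_fun measurableSet_Ioc fun t ht => ?_
  have h1 := deriv_rpow' s (t := t) (by linarith [ht.1])
  show deriv (fun x : ℝ => x ^ s) t * _ = s * (t ^ (s - 1) * _)
  rw [h1]
  ring

lemma card_meas (P : Eis → Prop) [DecidablePred P] :
    Measurable (fun t : ℝ => (((pb t).filter P).card : ℝ)) := by
  have : Monotone (fun t : ℝ => (((pb t).filter P).card : ℝ)) := by
    intro s t hst
    show (((pb s).filter P).card : ℝ) ≤ (((pb t).filter P).card : ℝ)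
    exact_mod_cast Finset.card_le_card (Finset.filter_subset_filter _ (pb_mono hst))
  exact this.measurable

lemma intOn_pow_card (P : Eis → Prop) [DecidablePred P] (s : ℝ) {Y : ℝ} (hY : 1 ≤ Y) :
    IntegrableOn (fun t : ℝ => t ^ s * (((pb t).filter P).card : ℝ)) (Set.Ioc 1 Y) := by
  have h1 : IntegrableOn (fun x : ℝ => x ^ s) (Set.Ioc 1 Y) :=
    (intOn_rpow s hY).mono_set Set.Ioc_subset_Icc_self
  have h2 : IntegrableOn (fun x : ℝ => (((pb x).filter P).card : ℝ) * x ^ s) (Set.Ioc 1 Y) := by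
    refine Integrable.bdd_mul (c := ((pb Y).filter P).card) h1
      (card_meas P).aestronglyMeasurable ?_
    filter_upwards [ae_restrict_mem measurableSet_Ioc] with x hx
    rw [Real.norm_eq_abs, abs_of_nonneg (by positivity)]
    exact_mod_cast Finset.card_le_card (Finset.filter_subset_filter _ (pb_mono hx.2))
  exact IntegrableOn.congr_fun h2 (fun x _ => mul_comm _ _) measurableSet_Ioc

/-- `∑_{N(m) ≤ M} N(m)^(-1/2) ≤ 200 √M`. -/
lemma sum_inv_sqrt_le {M : ℝ} (hM : 1 ≤ M) :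
    ∑ m ∈ pb M, (nm m : ℝ) ^ (-(1 / 2) : ℝ) ≤ 200 * M ^ (1 / 2 : ℝ) := by
  classical
  have h := abel_pow (fun _ => True) (-(1 / 2)) hM
  simp only [Finset.filter_true] at h
  rw [h]
  have h1 : ((pb M).card : ℝ) ≤ 100 * M := card_pb_le M (by linarith)
  have h2 : ∫ t in Set.Ioc 1 M, t ^ ((-(1 / 2) : ℝ) - 1) * ((pb t).card : ℝ) ≤
      ∫ t in Set.Ioc 1 M, 100 * t ^ (-(1 / 2) : ℝ) := by
    refine setIntegral_mono_on ?_ ?_ measurableSet_Ioc fun t ht => ?_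
    · have := intOn_pow_card (fun _ => True) ((-(1 / 2) : ℝ) - 1) hM
      simpa using this
    · exact ((intOn_rpow _ hM).mono_set Set.Ioc_subset_Icc_self).const_mul 100
    · have ht0 : 0 < t := by linarith [ht.1]
      have h3 : ((pb t).card : ℝ) ≤ 100 * t := card_pb_le t ht0.le
      calc t ^ ((-(1 / 2) : ℝ) - 1) * ((pb t).card : ℝ) ≤ t ^ ((-(1 / 2) : ℝ) - 1) * (100 * t) := by
            gcongr
        _ = 100 * t ^ (-(1 / 2) : ℝ) := by
            rw [Real.rpow_sub_one ht0.ne']; field_simp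
  rw [integral_const_mul, integral_rpow_Ioc _ (by norm_num) hM] at h2
  have h4 : M ^ (-(1 / 2) : ℝ) * ((pb M).card : ℝ) ≤ 100 * M ^ (1 / 2 : ℝ) := by
    calc M ^ (-(1 / 2) : ℝ) * ((pb M).card : ℝ) ≤ M ^ (-(1 / 2) : ℝ) * (100 * M) := by gcongr
      _ = 100 * (M ^ (-(1 / 2) : ℝ) * M ^ (1 : ℝ)) := by rw [Real.rpow_one]; ring
      _ = 100 * M ^ (1 / 2 : ℝ) := by
          rw [← Real.rpow_add (by linarith)]; norm_num
  have h5 : (-(1 / 2) : ℝ) + 1 = 1 / 2 := by norm_num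
  rw [h5] at h2
  have h6 : (0 : ℝ) ≤ M ^ (1 / 2 : ℝ) := by positivity
  linarith

/-! ### `∑ N(a₀)^(-1/3)` over squarefree `a₀` coprime to `b` -/

/-- the error function. -/
def EL (Y : ℝ) : ℝ := 1 + Real.log (1 + Real.sqrt Y)

lemma EL_mono {Y Z : ℝ} (h : Y ≤ Z) : EL Y ≤ EL Z := by
  have h1 : Real.sqrt Y ≤ Real.sqrt Z := Real.sqrt_le_sqrt h
  have h0 := Real.sqrt_nonneg Y
  unfold EL
  linarith [Real.log_le_log (show 0 < 1 + Real.sqrt Y by linarith) (by linarith :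
    1 + Real.sqrt Y ≤ 1 + Real.sqrt Z)]

lemma one_le_EL (Y : ℝ) : 1 ≤ EL Y := by
  have h0 := Real.sqrt_nonneg Y
  unfold EL
  linarith [Real.log_nonneg (show 1 ≤ 1 + Real.sqrt Y by linarith)]

/-- sum of `N(a₀)^(-1/3)`. -/
def LL (b : Eis) (Y : ℝ) : ℝ := ∑ a ∈ sfc b Y, (nm a : ℝ) ^ (-(1 / 3) : ℝ)

lemma abs_kap_le (b : Eis) : |kap b| ≤ 300 := by
  unfold kap
  rw [abs_mul, abs_mul, abs_of_pos kap0_pos, abs_of_pos (PE_pos b)]
  have h1 := kap0_le_one
  have h2 := PE_le_one b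
  have h3 := abs_Z_le b
  have h4 := kap0_pos
  have h5 := PE_pos b
  calc kap0 * PE b * |Z b| ≤ 1 * 1 * 300 := by gcongr
    _ = 300 := by norm_num

/-- squarefree and coprime to `b`. -/
def SC (b x : Eis) : Prop := IsCoprime x b ∧ Squarefree x

open Classical in
lemma sfc_eq_filter (b : Eis) (Y : ℝ) :
    sfc b Y = (pb Y).filter (SC b) := by
  ext x
  rw [mem_sfc, mem_filter, mem_pb, SC]

theorem abs_LL_sub_le {b : Eis} (hb : b ≠ 0) {Y : ℝ} (hY : 1 ≤ Y) :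
    |LL b Y - 3 / 2 * kap b * Y ^ (2 / 3 : ℝ)| ≤ 20000 * sig b * Y ^ (1 / 6 : ℝ) * EL Y := by
  classical
  have hY0 : 0 < Y := by linarith
  have h := abel_pow (SC b) (-(1 / 3)) hY
  simp only [← sfc_eq_filter] at h
  have hN : ∀ t, 0 ≤ t → |((sfc b t).card : ℝ) - kap b * t| ≤
      6400 * sig b * Real.sqrt t * EL t := fun t ht => card_sfc hb ht
  have hint := intOn_pow_card (SC b) ((-(1 / 3) : ℝ) - 1) hY
  simp only [← sfc_eq_filter] at hint
  have hint2 : IntegrableOn (fun t : ℝ => kap b * t ^ (-(1 / 3) : ℝ)) (Set.Ioc 1 Y) :=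
    ((intOn_rpow _ hY).mono_set Set.Ioc_subset_Icc_self).const_mul _
  -- the integral
  have hI : |(∫ t in Set.Ioc 1 Y, t ^ ((-(1 / 3) : ℝ) - 1) * ((sfc b t).card : ℝ)) -
      ∫ t in Set.Ioc 1 Y, kap b * t ^ (-(1 / 3) : ℝ)| ≤
      6400 * sig b * EL Y * (6 * Y ^ (1 / 6 : ℝ)) := by
    rw [← integral_sub hint hint2]
    rw [← Real.norm_eq_abs]
    refine (norm_integral_le_integral_norm _).trans ?_
    have h1 : ∫ t in Set.Ioc 1 Y, ‖t ^ ((-(1 / 3) : ℝ) - 1) * ((sfc b t).card : ℝ) -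
        kap b * t ^ (-(1 / 3) : ℝ)‖ ≤
        ∫ t in Set.Ioc 1 Y, 6400 * sig b * EL Y * t ^ (-(5 / 6) : ℝ) := by
      refine setIntegral_mono_on (hint.sub hint2).norm
        (((intOn_rpow _ hY).mono_set Set.Ioc_subset_Icc_self).const_mul _) measurableSet_Ioc
        fun t ht => ?_
      have ht0 : 0 < t := by linarith [ht.1]
      have e1 : kap b * t ^ (-(1 / 3) : ℝ) = t ^ ((-(1 / 3) : ℝ) - 1) * (kap b * t) := by
        rw [Real.rpow_sub_one ht0.ne']; field_simp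
      rw [e1, ← mul_sub, norm_mul, Real.norm_eq_abs, Real.norm_eq_abs,
        abs_of_nonneg (Real.rpow_nonneg ht0.le _)]
      calc t ^ ((-(1 / 3) : ℝ) - 1) * |((sfc b t).card : ℝ) - kap b * t| ≤
          t ^ ((-(1 / 3) : ℝ) - 1) * (6400 * sig b * Real.sqrt t * EL Y) := by
            gcongr
            refine (hN t ht0.le).trans ?_
            have := sig_pos b
            gcongr
            exact EL_mono ht.2
        _ = 6400 * sig b * EL Y * (t ^ ((-(1 / 3) : ℝ) - 1) * t ^ (1 / 2 : ℝ)) := by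
            rw [Real.sqrt_eq_rpow]; ring
        _ = _ := by
            rw [← Real.rpow_add ht0]; norm_num
    refine h1.trans ?_
    rw [integral_const_mul, integral_rpow_Ioc _ (by norm_num) hY]
    have h2 : (-(5 / 6) : ℝ) + 1 = 1 / 6 := by norm_num
    rw [h2]
    have h3 : 0 ≤ 6400 * sig b * EL Y := by
      have := sig_pos b
      have := one_le_EL Y
      positivity
    have h4 : (Y ^ (1 / 6 : ℝ) - 1) / (1 / 6) ≤ 6 * Y ^ (1 / 6 : ℝ) := by
      rw [div_le_iff₀ (by norm_num)]; linarith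
    exact mul_le_mul_of_nonneg_left h4 h3
  rw [integral_const_mul, integral_rpow_Ioc _ (by norm_num) hY] at hI
  have e2 : (-(1 / 3) : ℝ) + 1 = 2 / 3 := by norm_num
  rw [e2] at hI
  have hNY := hN Y hY0.le
  have e3 : LL b Y - 3 / 2 * kap b * Y ^ (2 / 3 : ℝ) =
      Y ^ (-(1 / 3) : ℝ) * (((sfc b Y).card : ℝ) - kap b * Y) +
      (1 / 3) * ((∫ t in Set.Ioc 1 Y, t ^ ((-(1 / 3) : ℝ) - 1) * ((sfc b t).card : ℝ)) -
        kap b * ((Y ^ (2 / 3 : ℝ) - 1) / (2 / 3))) - kap b / 2 := by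
    unfold LL
    rw [h]
    have e4 : Y ^ (2 / 3 : ℝ) = Y ^ (-(1 / 3) : ℝ) * Y := by
      rw [← Real.rpow_add_one hY0.ne']; norm_num
    rw [e4]
    ring
  rw [e3]
  have hk := abs_kap_le b
  have hs := one_le_sig b
  have hE := one_le_EL Y
  have hY6 : 1 ≤ Y ^ (1 / 6 : ℝ) := Real.one_le_rpow hY (by norm_num)
  have h7 : |Y ^ (-(1 / 3) : ℝ) * (((sfc b Y).card : ℝ) - kap b * Y)| ≤
      6400 * sig b * Y ^ (1 / 6 : ℝ) * EL Y := by
    rw [abs_mul, abs_of_nonneg (Real.rpow_nonneg hY0.le _)]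
    calc Y ^ (-(1 / 3) : ℝ) * |((sfc b Y).card : ℝ) - kap b * Y| ≤
        Y ^ (-(1 / 3) : ℝ) * (6400 * sig b * Real.sqrt Y * EL Y) := by gcongr
      _ = 6400 * sig b * (Y ^ (-(1 / 3) : ℝ) * Y ^ (1 / 2 : ℝ)) * EL Y := by
          rw [Real.sqrt_eq_rpow]; ring
      _ = _ := by rw [← Real.rpow_add hY0]; norm_num
  have h8 : |kap b / 2| ≤ 150 := by
    rw [abs_div, abs_two]; linarith
  have h9 : (1 : ℝ) ≤ sig b * Y ^ (1 / 6 : ℝ) * EL Y := by
    have : (1 : ℝ) ≤ sig b * Y ^ (1 / 6 : ℝ) := by nlinarith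
    nlinarith
  have h10 : |(1 / 3 : ℝ) * ((∫ t in Set.Ioc 1 Y, t ^ ((-(1 / 3) : ℝ) - 1) * ((sfc b t).card : ℝ)) -
        kap b * ((Y ^ (2 / 3 : ℝ) - 1) / (2 / 3)))| ≤ 12800 * (sig b * Y ^ (1 / 6 : ℝ) * EL Y) := by
    rw [abs_mul, abs_of_pos (by norm_num : (0 : ℝ) < 1 / 3)]
    linarith
  have h11 := abs_add_le (Y ^ (-(1 / 3) : ℝ) * (((sfc b Y).card : ℝ) - kap b * Y) +
      (1 / 3) * ((∫ t in Set.Ioc 1 Y, t ^ ((-(1 / 3) : ℝ) - 1) * ((sfc b t).card : ℝ)) -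
        kap b * ((Y ^ (2 / 3 : ℝ) - 1) / (2 / 3)))) (-(kap b / 2))
  have h12 := abs_add_le (Y ^ (-(1 / 3) : ℝ) * (((sfc b Y).card : ℝ) - kap b * Y))
      ((1 / 3) * ((∫ t in Set.Ioc 1 Y, t ^ ((-(1 / 3) : ℝ) - 1) * ((sfc b t).card : ℝ)) -
        kap b * ((Y ^ (2 / 3 : ℝ) - 1) / (2 / 3))))
  rw [abs_neg] at h11
  rw [sub_eq_add_neg]
  linarith

end Crest.Agent.R012.T3_85
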