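import Mathlib

/-!
# Row 12 (T8): separation of variables by two-dimensional Abel summation

For points `y k ∈ [1,2]` and coefficients `x k`,
`‖∑_{k,l} conj (x k) x l exp(-ζ/(y k y l))‖ ≤ 2 (1+|ζ|)² exp(-Re ζ/4) (|X 2|² + ∫_1^2 |X t|² dt)`,
`X t = ∑_{y k ≤ t} x k`.
-/

set_option autoImplicit false

noncomputable section

open Complex MeasureTheory intervalIntegral

namespace Crest.Agent.R012.T8

variable {ι : Type*}

/-- truncated sums. -/
def Xt (K : Finset ι) (y : ι → ℝ) (x : ι → ℂ) (t : ℝ) : ℂ := ∑ k ∈ K, if y k ≤ t then x k else 0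

lemma Xt_intervalIntegrable (K : Finset ι) (y : ι → ℝ) (x : ι → ℂ) {g : ℝ → ℂ}
    (hg : Continuous g) (a b : ℝ) :
    IntervalIntegrable (fun t => Xt K y x t * g t) volume a b := by
  unfold Xt
  have h : (fun t => (∑ k ∈ K, if y k ≤ t then x k else 0) * g t) =
      ∑ k ∈ K, fun t => (Set.indicator (Set.Ici (y k)) (fun t => x k * g t)) t := by
    funext t
    rw [Finset.sum_mul, Finset.sum_apply]
    refine Finset.sum_congr rfl fun k _ => ?_
    by_cases h : y k ≤ t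
    · rw [if_pos h, Set.indicator_of_mem (Set.mem_Ici.mpr h)]
    · rw [if_neg h, Set.indicator_of_notMem (by simpa using h), zero_mul]
  rw [h]
  refine IntervalIntegrable.sum K fun k _ => ?_
  rw [intervalIntegrable_iff]
  have : IntegrableOn (fun t => x k * g t) (Set.uIoc a b) volume := by
    rw [← intervalIntegrable_iff]
    exact (continuous_const.mul hg).intervalIntegrable _ _
  exact this.indicator measurableSet_Ici

lemma continuousOn_Xt_norm_integrable (K : Finset ι) (y : ι → ℝ) (x : ι → ℂ) (a b : ℝ) :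
    IntervalIntegrable (fun t => ‖Xt K y x t‖) volume a b := by
  have h := (Xt_intervalIntegrable K y x (g := fun _ => 1) continuous_const a b).norm
  simpa using h

lemma measurable_Xt (K : Finset ι) (y : ι → ℝ) (x : ι → ℂ) : Measurable (Xt K y x) := by
  unfold Xt
  refine Finset.measurable_sum K fun k _ => ?_
  exact Measurable.ite (measurableSet_Ici) measurable_const measurable_const

lemma norm_Xt_le (K : Finset ι) (y : ι → ℝ) (x : ι → ℂ) (t : ℝ) :
    ‖Xt K y x t‖ ≤ ∑ k ∈ K, ‖x k‖ := by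
  unfold Xt
  refine (norm_sum_le _ _).trans (Finset.sum_le_sum fun k _ => ?_)
  split_ifs
  · exact le_rfl
  · simp

lemma sq_Xt_integrable (K : Finset ι) (y : ι → ℝ) (x : ι → ℂ) (a b : ℝ) :
    IntervalIntegrable (fun t => ‖Xt K y x t‖ ^ 2) volume a b := by
  rw [intervalIntegrable_iff]
  refine Measure.integrableOn_of_bounded (M := (∑ k ∈ K, ‖x k‖) ^ 2) ?_ ?_ ?_
  · rw [Set.uIoc, Real.volume_Ioc]; exact ENNReal.ofReal_ne_top
  · exact ((measurable_Xt K y x).norm.pow_const 2).aestronglyMeasurable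
  · refine Filter.Eventually.of_forall fun t => ?_
    rw [Real.norm_of_nonneg (by positivity)]
    exact pow_le_pow_left₀ (norm_nonneg _) (norm_Xt_le K y x t) 2

/-- `(∫_1^2 |X|)² ≤ ∫_1^2 |X|²`. -/
lemma sq_integral_le (K : Finset ι) (y : ι → ℝ) (x : ι → ℂ) :
    (∫ t in (1:ℝ)..2, ‖Xt K y x t‖) ^ 2 ≤ ∫ t in (1:ℝ)..2, ‖Xt K y x t‖ ^ 2 := by
  set I := ∫ t in (1:ℝ)..2, ‖Xt K y x t‖ with hI
  have h1 : 0 ≤ ∫ t in (1:ℝ)..2, (‖Xt K y x t‖ - I) ^ 2 :=
    intervalIntegral.integral_nonneg (by norm_num) fun t _ => by positivity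
  have h2 : ∫ t in (1:ℝ)..2, (‖Xt K y x t‖ - I) ^ 2 =
      (∫ t in (1:ℝ)..2, ‖Xt K y x t‖ ^ 2) - 2 * I * I + I ^ 2 := by
    have e : (fun t => (‖Xt K y x t‖ - I) ^ 2) =
        fun t => (‖Xt K y x t‖ ^ 2 - 2 * I * ‖Xt K y x t‖) + I ^ 2 := by
      funext t; ring
    rw [e, intervalIntegral.integral_add, intervalIntegral.integral_sub,
      intervalIntegral.integral_const_mul, intervalIntegral.integral_const]
    · rw [← hI]; norm_num
    · exact sq_Xt_integrable K y x 1 2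
    · exact (continuousOn_Xt_norm_integrable K y x 1 2).const_mul _
    · exact (sq_Xt_integrable K y x 1 2).sub
        ((continuousOn_Xt_norm_integrable K y x 1 2).const_mul _)
    · exact intervalIntegrable_const
  rw [h2] at h1
  nlinarith

/-- Abel summation. -/
lemma abel1 (K : Finset ι) {y : ι → ℝ} (hy : ∀ k ∈ K, 1 ≤ y k ∧ y k ≤ 2) (x : ι → ℂ)
    {g g' : ℝ → ℂ} (hg : ∀ t ∈ Set.Icc (1:ℝ) 2, HasDerivAt g (g' t) t)
    (hg' : ContinuousOn g' (Set.Icc 1 2)) :
    ∑ k ∈ K, x k * g (y k) = g 2 * Xt K y x 2 - ∫ t in (1:ℝ)..2, Xt K y x t * g' t := by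
  have hX2 : Xt K y x 2 = ∑ k ∈ K, x k := by
    unfold Xt
    exact Finset.sum_congr rfl fun k hk => by rw [if_pos (hy k hk).2]
  have hint : ∀ k ∈ K, ∀ a b : ℝ, a ∈ Set.Icc (1:ℝ) 2 → b ∈ Set.Icc (1:ℝ) 2 →
      IntervalIntegrable g' volume a b := fun k _ a b ha hb =>
    (hg'.mono (Set.uIcc_subset_Icc ha hb)).intervalIntegrable
  have h1 : ∀ k ∈ K, g (y k) = g 2 - ∫ t in (1:ℝ)..2, (if y k ≤ t then g' t else 0) := by
    intro k hk
    obtain ⟨hy1, hy2⟩ := hy k hk
    have m1 : (1:ℝ) ∈ Set.Icc (1:ℝ) 2 := ⟨le_rfl, by norm_num⟩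
    have m2 : (2:ℝ) ∈ Set.Icc (1:ℝ) 2 := ⟨by norm_num, le_rfl⟩
    have my : y k ∈ Set.Icc (1:ℝ) 2 := ⟨hy1, hy2⟩
    have hFT : ∫ t in (y k)..2, g' t = g 2 - g (y k) :=
      integral_eq_sub_of_hasDerivAt (fun t ht => by
        rw [Set.uIcc_of_le hy2] at ht
        exact hg t ⟨hy1.trans ht.1, ht.2⟩) (hint k hk _ _ my m2)
    have hsplit : ∫ t in (1:ℝ)..2, (if y k ≤ t then g' t else 0) = ∫ t in (y k)..2, g' t := by
      rw [← intervalIntegral.integral_add_adjacent_intervals (b := y k)]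
      · have z1 : ∫ t in (1:ℝ)..(y k), (if y k ≤ t then g' t else 0) = 0 := by
          rw [intervalIntegral.integral_of_le hy1, integral_Ioc_eq_integral_Ioo]
          apply setIntegral_eq_zero_of_forall_eq_zero
          intro t ht
          rw [if_neg (not_le.mpr ht.2)]
        have z2 : ∫ t in (y k)..2, (if y k ≤ t then g' t else 0) = ∫ t in (y k)..2, g' t := by
          apply intervalIntegral.integral_congr_ae
          refine Filter.Eventually.of_forall fun t ht => ?_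
          rw [Set.uIoc_of_le hy2] at ht
          rw [if_pos ht.1.le]
        rw [z1, z2, zero_add]
      · -- integrability on (1, y k)
        have : IntervalIntegrable (fun _ : ℝ => (0:ℂ)) volume 1 (y k) := intervalIntegrable_const
        refine this.congr_ae ?_
        rw [Filter.EventuallyEq, ae_restrict_iff' measurableSet_uIoc]
        have hne : ∀ᵐ t : ℝ, t ≠ y k := by
          rw [ae_iff]; simp
        filter_upwards [hne] with t htne ht
        rw [Set.uIoc_of_le hy1] at ht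
        rw [if_neg (not_le.mpr (lt_of_le_of_ne ht.2 htne))]
      · refine (hint k hk _ _ my m2).congr_ae ?_
        rw [Filter.EventuallyEq, ae_restrict_iff' measurableSet_uIoc]
        refine Filter.Eventually.of_forall fun t ht => ?_
        rw [Set.uIoc_of_le hy2] at ht
        rw [if_pos ht.1.le]
    rw [hsplit, hFT]; ring
  have h2 : ∑ k ∈ K, x k * g (y k) =
      ∑ k ∈ K, (g 2 * x k - ∫ t in (1:ℝ)..2, (if y k ≤ t then x k else 0) * g' t) := by
    refine Finset.sum_congr rfl fun k hk => ?_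
    rw [h1 k hk, mul_sub, ← intervalIntegral.integral_const_mul]
    congr 1
    · ring
    · congr 1
      funext t
      split_ifs <;> simp
  rw [h2, Finset.sum_sub_distrib, ← Finset.mul_sum, ← hX2]
  congr 1
  rw [← intervalIntegral.integral_finsetSum]
  · congr 1
    funext t
    unfold Xt
    rw [Finset.sum_mul]
  · intro k hk
    have m1 : (1:ℝ) ∈ Set.Icc (1:ℝ) 2 := ⟨le_rfl, by norm_num⟩
    have m2 : (2:ℝ) ∈ Set.Icc (1:ℝ) 2 := ⟨by norm_num, le_rfl⟩
    have h3 := ((hint k hk _ _ m1 m2).const_mul (x k))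
    rw [intervalIntegrable_iff] at h3 ⊢
    have h4 := h3.indicator (measurableSet_Ici (a := y k))
    refine h4.congr ?_
    refine Filter.Eventually.of_forall fun t => ?_
    simp only
    by_cases h : y k ≤ t
    · rw [Set.indicator_of_mem (Set.mem_Ici.mpr h), if_pos h]
    · rw [Set.indicator_of_notMem (by simpa using h), if_neg h, zero_mul]

/-- the norm bound. -/
lemma abel1_le (K : Finset ι) {y : ι → ℝ} (hy : ∀ k ∈ K, 1 ≤ y k ∧ y k ≤ 2) (x : ι → ℂ)
    {g g' : ℝ → ℂ} (hg : ∀ t ∈ Set.Icc (1:ℝ) 2, HasDerivAt g (g' t) t)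
    (hg' : ContinuousOn g' (Set.Icc 1 2)) {M : ℝ} (hM : ‖g 2‖ ≤ M)
    (hM' : ∀ t ∈ Set.Icc (1:ℝ) 2, ‖g' t‖ ≤ M) :
    ‖∑ k ∈ K, x k * g (y k)‖ ≤ M * (‖Xt K y x 2‖ + ∫ t in (1:ℝ)..2, ‖Xt K y x t‖) := by
  rw [abel1 K hy x hg hg']
  refine (norm_sub_le _ _).trans ?_
  rw [mul_add, norm_mul]
  refine add_le_add (mul_le_mul_of_nonneg_right hM (norm_nonneg _)) ?_
  rw [← intervalIntegral.integral_const_mul]
  refine norm_integral_le_of_norm_le (by norm_num) ?_
    ((continuousOn_Xt_norm_integrable K y x 1 2).const_mul M)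
  refine Filter.Eventually.of_forall fun t ht => ?_
  rw [norm_mul, mul_comm]
  exact mul_le_mul_of_nonneg_right (hM' t ⟨ht.1.le, ht.2⟩) (norm_nonneg _)

/-! ### the kernel -/

section kernel

variable {ζ : ℂ}

lemma hasDerivAt_kernel (ζ : ℂ) {t y : ℝ} (ht : t ≠ 0) (hy : y ≠ 0) :
    HasDerivAt (fun y : ℝ => cexp (-(ζ / (y * t)))) (ζ / (y ^ 2 * t) * cexp (-(ζ / (y * t)))) y := by
  have htC : (t : ℂ) ≠ 0 := by exact_mod_cast ht
  have hyC : (y : ℂ) ≠ 0 := by exact_mod_cast hy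
  have h1 : HasDerivAt (fun y : ℝ => (y : ℂ)) 1 y := Complex.ofRealCLM.hasDerivAt
  have h2 : HasDerivAt (fun y : ℝ => ((y : ℂ) * t)) (1 * t) y := h1.mul_const _
  have h3 : HasDerivAt (fun y : ℝ => ζ / ((y : ℂ) * t)) (-(ζ * (1 * t)) / ((y : ℂ) * t) ^ 2) y := by
    have := (hasDerivAt_const y ζ).fun_div h2 (mul_ne_zero hyC htC)
    simpa using this
  have h4 := h3.fun_neg.cexp
  refine h4.congr_deriv ?_
  field_simp

lemma hasDerivAt_kernel2 (ζ : ℂ) {t y : ℝ} (ht : t ≠ 0) (hy : y ≠ 0) :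
    HasDerivAt (fun y : ℝ => ζ / (y * t ^ 2) * cexp (-(ζ / (y * t))))
      ((-(ζ / (y ^ 2 * t ^ 2)) + ζ ^ 2 / (y ^ 3 * t ^ 3)) * cexp (-(ζ / (y * t)))) y := by
  have htC : (t : ℂ) ≠ 0 := by exact_mod_cast ht
  have hyC : (y : ℂ) ≠ 0 := by exact_mod_cast hy
  have h1 : HasDerivAt (fun y : ℝ => (y : ℂ)) 1 y := Complex.ofRealCLM.hasDerivAt
  have h2 : HasDerivAt (fun y : ℝ => ((y : ℂ) * (t : ℂ) ^ 2)) (1 * (t : ℂ) ^ 2) y := h1.mul_const _
  have h3 : HasDerivAt (fun y : ℝ => ζ / ((y : ℂ) * (t : ℂ) ^ 2))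
      (-(ζ * (1 * (t : ℂ) ^ 2)) / ((y : ℂ) * (t : ℂ) ^ 2) ^ 2) y := by
    have := (hasDerivAt_const y ζ).fun_div h2 (mul_ne_zero hyC (pow_ne_zero 2 htC))
    simpa using this
  have h4 := h3.fun_mul (hasDerivAt_kernel ζ ht hy)
  refine h4.congr_deriv ?_
  field_simp

lemma norm_kernel_le (hζ : 0 ≤ ζ.re) {t y : ℝ} (ht : 1 ≤ t) (ht2 : t ≤ 2) (hy : 1 ≤ y)
    (hy2 : y ≤ 2) : ‖cexp (-(ζ / (y * t)))‖ ≤ Real.exp (-(ζ.re / 4)) := by
  rw [Complex.norm_exp]
  apply Real.exp_le_exp.mpr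
  have e : (ζ / ((y : ℂ) * t)).re = ζ.re / (y * t) := by
    rw [← Complex.ofReal_mul, Complex.div_ofReal_re]
  rw [neg_re, e, neg_le_neg_iff]
  apply div_le_div_of_nonneg_left hζ (by positivity)
  nlinarith

/-- **Separation of variables.** -/
theorem sep (K : Finset ι) {y : ι → ℝ} (hy : ∀ k ∈ K, 1 ≤ y k ∧ y k ≤ 2) (x : ι → ℂ)
    (hζ : 0 ≤ ζ.re) :
    ‖∑ k ∈ K, ∑ l ∈ K, (starRingEnd ℂ) (x k) * x l * cexp (-(ζ / (y k * y l)))‖ ≤
      2 * ((1 + ‖ζ‖) ^ 2 * Real.exp (-(ζ.re / 4))) *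
        (‖Xt K y x 2‖ ^ 2 + ∫ t in (1:ℝ)..2, ‖Xt K y x t‖ ^ 2) := by
  set E := Real.exp (-(ζ.re / 4)) with hE
  set M := (1 + ‖ζ‖) ^ 2 * E with hM
  have hE0 : 0 < E := Real.exp_pos _
  set V := ‖Xt K y x 2‖ + ∫ t in (1:ℝ)..2, ‖Xt K y x t‖ with hV
  have hI0 : 0 ≤ ∫ t in (1:ℝ)..2, ‖Xt K y x t‖ :=
    intervalIntegral.integral_nonneg (by norm_num) fun t _ => norm_nonneg _
  have hV0 : 0 ≤ V := add_nonneg (norm_nonneg _) hI0
  have hn0 := norm_nonneg ζ
  -- sums against `conj x`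
  have hXc : ∀ t, ‖Xt K y (fun k => (starRingEnd ℂ) (x k)) t‖ = ‖Xt K y x t‖ := by
    intro t
    have : Xt K y (fun k => (starRingEnd ℂ) (x k)) t = (starRingEnd ℂ) (Xt K y x t) := by
      unfold Xt
      rw [map_sum]
      refine Finset.sum_congr rfl fun k _ => ?_
      split_ifs <;> simp
    rw [this, RCLike.norm_conj]
  -- first: bound `∑ conj x k * F(y k, t)` and the derivative in `t`
  have b1 : ∀ t ∈ Set.Icc (1:ℝ) 2,
      ‖∑ k ∈ K, (starRingEnd ℂ) (x k) * cexp (-(ζ / (y k * t)))‖ ≤ M * V := by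
    intro t ht
    have ht0 : t ≠ 0 := by have := ht.1; positivity
    have h := abel1_le K hy (fun k => (starRingEnd ℂ) (x k))
      (g := fun y : ℝ => cexp (-(ζ / (y * t))))
      (g' := fun y : ℝ => ζ / (y ^ 2 * t) * cexp (-(ζ / (y * t)))) (M := M)
      (fun u hu => hasDerivAt_kernel ζ ht0 (by have := hu.1; positivity)) ?_ ?_ ?_
    · simpa only [hXc] using h
    · intro u hu
      have hu0 : (u : ℂ) ≠ 0 := by
        have : u ≠ 0 := by have := hu.1; positivity
        exact_mod_cast this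
      have ht0C : (t : ℂ) ≠ 0 := by exact_mod_cast ht0
      apply ContinuousAt.continuousWithinAt
      have c1 : ContinuousAt (fun y : ℝ => (y : ℂ)) u := Complex.continuous_ofReal.continuousAt
      refine ContinuousAt.mul (ContinuousAt.div continuousAt_const
        ((c1.pow 2).mul continuousAt_const) (mul_ne_zero (pow_ne_zero 2 hu0) ht0C)) ?_
      exact (ContinuousAt.div continuousAt_const (c1.mul continuousAt_const)
        (mul_ne_zero hu0 ht0C)).neg.cexp
    · have := norm_kernel_le hζ ht.1 ht.2 (y := 2) (by norm_num) le_rfl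
      refine this.trans ?_
      rw [hM]
      nlinarith [mul_nonneg hn0 hE0.le, mul_nonneg (mul_nonneg hn0 hn0) hE0.le]
    · intro u hu
      rw [norm_mul]
      have k1 := norm_kernel_le hζ ht.1 ht.2 hu.1 hu.2
      have k2 : ‖ζ / ((u : ℂ) ^ 2 * t)‖ ≤ ‖ζ‖ := by
        rw [norm_div]
        apply div_le_self hn0
        rw [norm_mul, norm_pow, Complex.norm_real, Complex.norm_real,
          Real.norm_of_nonneg (by linarith [hu.1]), Real.norm_of_nonneg (by linarith [ht.1])]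
        nlinarith [hu.1, ht.1, mul_nonneg (sub_nonneg.mpr hu.1) (sub_nonneg.mpr hu.1)]
      calc ‖ζ / ((u : ℂ) ^ 2 * t)‖ * ‖cexp (-(ζ / (u * t)))‖ ≤ ‖ζ‖ * E :=
            mul_le_mul k2 k1 (norm_nonneg _) hn0
        _ ≤ M := by
            rw [hM]
            nlinarith [mul_nonneg hn0 hE0.le, mul_nonneg (mul_nonneg hn0 hn0) hE0.le]
  have b2 : ∀ t ∈ Set.Icc (1:ℝ) 2,
      ‖∑ k ∈ K, (starRingEnd ℂ) (x k) * (ζ / (y k * t ^ 2) * cexp (-(ζ / (y k * t))))‖ ≤ M * V := by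
    intro t ht
    have ht0 : t ≠ 0 := by have := ht.1; positivity
    have h := abel1_le K hy (fun k => (starRingEnd ℂ) (x k))
      (g := fun y : ℝ => ζ / (y * t ^ 2) * cexp (-(ζ / (y * t))))
      (g' := fun y : ℝ => (-(ζ / (y ^ 2 * t ^ 2)) + ζ ^ 2 / (y ^ 3 * t ^ 3)) *
        cexp (-(ζ / (y * t)))) (M := M)
      (fun u hu => hasDerivAt_kernel2 ζ ht0 (by have := hu.1; positivity)) ?_ ?_ ?_
    · simpa only [hXc] using h
    · intro u hu
      have hu0 : (u : ℂ) ≠ 0 := by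
        have : u ≠ 0 := by have := hu.1; positivity
        exact_mod_cast this
      have ht0C : (t : ℂ) ≠ 0 := by exact_mod_cast ht0
      apply ContinuousAt.continuousWithinAt
      have c1 : ContinuousAt (fun y : ℝ => (y : ℂ)) u := Complex.continuous_ofReal.continuousAt
      refine ContinuousAt.mul (ContinuousAt.add (ContinuousAt.div continuousAt_const
        ((c1.pow 2).mul continuousAt_const) (mul_ne_zero (pow_ne_zero 2 hu0)
          (pow_ne_zero 2 ht0C))).neg (ContinuousAt.div continuousAt_const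
        ((c1.pow 3).mul continuousAt_const) (mul_ne_zero (pow_ne_zero 3 hu0)
          (pow_ne_zero 3 ht0C)))) ?_
      exact (ContinuousAt.div continuousAt_const (c1.mul continuousAt_const)
        (mul_ne_zero hu0 ht0C)).neg.cexp
    · rw [norm_mul]
      have k1 := norm_kernel_le hζ ht.1 ht.2 (y := 2) (by norm_num) le_rfl
      have k2 : ‖ζ / (((2:ℝ) : ℂ) * (t:ℂ) ^ 2)‖ ≤ ‖ζ‖ := by
        rw [norm_div]
        apply div_le_self hn0
        rw [norm_mul, norm_pow, Complex.norm_real, Complex.norm_real,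
          Real.norm_of_nonneg (by norm_num), Real.norm_of_nonneg (by linarith [ht.1])]
        nlinarith [ht.1, mul_nonneg (sub_nonneg.mpr ht.1) (sub_nonneg.mpr ht.1)]
      calc ‖ζ / (((2:ℝ) : ℂ) * (t:ℂ) ^ 2)‖ * ‖cexp (-(ζ / (((2:ℝ) : ℂ) * t)))‖ ≤ ‖ζ‖ * E :=
            mul_le_mul k2 k1 (norm_nonneg _) hn0
        _ ≤ M := by
            rw [hM]
            nlinarith [mul_nonneg hn0 hE0.le, mul_nonneg (mul_nonneg hn0 hn0) hE0.le]
    · intro u hu
      rw [norm_mul]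
      have k1 := norm_kernel_le hζ ht.1 ht.2 hu.1 hu.2
      have k2 : ‖-(ζ / ((u:ℂ) ^ 2 * (t:ℂ) ^ 2)) + ζ ^ 2 / ((u:ℂ) ^ 3 * (t:ℂ) ^ 3)‖ ≤
          ‖ζ‖ + ‖ζ‖ ^ 2 := by
        refine (norm_add_le _ _).trans (add_le_add ?_ ?_)
        · rw [norm_neg, norm_div]
          apply div_le_self hn0
          rw [norm_mul, norm_pow, norm_pow, Complex.norm_real, Complex.norm_real,
            Real.norm_of_nonneg (by linarith [hu.1]), Real.norm_of_nonneg (by linarith [ht.1])]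
          exact one_le_mul_of_one_le_of_one_le (one_le_pow₀ hu.1) (one_le_pow₀ ht.1)
        · rw [norm_div, norm_pow]
          apply div_le_self (by positivity)
          rw [norm_mul, norm_pow, norm_pow, Complex.norm_real, Complex.norm_real,
            Real.norm_of_nonneg (by linarith [hu.1]), Real.norm_of_nonneg (by linarith [ht.1])]
          exact one_le_mul_of_one_le_of_one_le (one_le_pow₀ hu.1) (one_le_pow₀ ht.1)
      calc _ ≤ (‖ζ‖ + ‖ζ‖ ^ 2) * E := mul_le_mul k2 k1 (norm_nonneg _) (by positivity)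
        _ ≤ M := by
            rw [hM]
            nlinarith [mul_nonneg hn0 hE0.le, mul_nonneg (mul_nonneg hn0 hn0) hE0.le]
  -- the double sum
  have key : ∑ k ∈ K, ∑ l ∈ K, (starRingEnd ℂ) (x k) * x l * cexp (-(ζ / (y k * y l))) =
      ∑ l ∈ K, x l * (fun t : ℝ => ∑ k ∈ K, (starRingEnd ℂ) (x k) * cexp (-(ζ / (y k * t)))) (y l) := by
    rw [Finset.sum_comm]
    refine Finset.sum_congr rfl fun l _ => ?_
    rw [Finset.mul_sum]
    refine Finset.sum_congr rfl fun k _ => ?_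
    ring
  rw [key]
  have h2 := abel1_le K hy x
    (g := fun t : ℝ => ∑ k ∈ K, (starRingEnd ℂ) (x k) * cexp (-(ζ / (y k * t))))
    (g' := fun t : ℝ => ∑ k ∈ K, (starRingEnd ℂ) (x k) *
      (ζ / (y k * t ^ 2) * cexp (-(ζ / (y k * t))))) (M := M * V) ?_ ?_
    (b1 2 ⟨by norm_num, le_rfl⟩) b2
  · refine h2.trans ?_
    rw [← hV]
    have h3 : V ^ 2 ≤ 2 * (‖Xt K y x 2‖ ^ 2 + ∫ t in (1:ℝ)..2, ‖Xt K y x t‖ ^ 2) := by
      have h4 := sq_integral_le K y x
      have : V ^ 2 ≤ 2 * (‖Xt K y x 2‖ ^ 2 + (∫ t in (1:ℝ)..2, ‖Xt K y x t‖) ^ 2) := by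
        rw [hV]
        nlinarith [sq_nonneg (‖Xt K y x 2‖ - ∫ t in (1:ℝ)..2, ‖Xt K y x t‖)]
      linarith
    have hM0 : 0 ≤ M := by positivity
    calc M * V * V = M * V ^ 2 := by ring
      _ ≤ M * (2 * (‖Xt K y x 2‖ ^ 2 + ∫ t in (1:ℝ)..2, ‖Xt K y x t‖ ^ 2)) :=
          mul_le_mul_of_nonneg_left h3 hM0
      _ = _ := by ring
  · intro t ht
    have ht0 : t ≠ 0 := by have := ht.1; positivity
    refine HasDerivAt.fun_sum fun k hk => ?_
    have hyk : y k ≠ 0 := by have := (hy k hk).1; positivity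
    have h := (hasDerivAt_kernel ζ hyk ht0).const_mul ((starRingEnd ℂ) (x k))
    have e1 : (fun t : ℝ => (starRingEnd ℂ) (x k) * cexp (-(ζ / (y k * t)))) =
        fun u : ℝ => (starRingEnd ℂ) (x k) * cexp (-(ζ / (u * y k))) := by
      funext u
      rw [mul_comm ((y k : ℝ) : ℂ) (u : ℂ)]
    rw [e1]
    refine h.congr_deriv ?_
    rw [mul_comm ((y k : ℝ) : ℂ) (t : ℂ), mul_comm ((y k : ℝ) : ℂ) ((t : ℂ) ^ 2)]
  · refine continuousOn_finsetSum _ fun k hk => ?_
    intro t ht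
    have ht0 : (t : ℂ) ≠ 0 := by
      have : t ≠ 0 := by have := ht.1; positivity
      exact_mod_cast this
    have hyk : ((y k : ℝ) : ℂ) ≠ 0 := by
      have : y k ≠ 0 := by have := (hy k hk).1; positivity
      exact_mod_cast this
    apply ContinuousAt.continuousWithinAt
    have c1 : ContinuousAt (fun y : ℝ => (y : ℂ)) t := Complex.continuous_ofReal.continuousAt
    refine continuousAt_const.mul ((ContinuousAt.div continuousAt_const
      (continuousAt_const.mul (c1.pow 2)) (mul_ne_zero hyk (pow_ne_zero 2 ht0))).mul ?_)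
    exact (ContinuousAt.div continuousAt_const (continuousAt_const.mul c1)
      (mul_ne_zero hyk ht0)).neg.cexp

end kernel

end Crest.Agent.R012.T8
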