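import Crest.Agent.R012.T8Master_810

/-!
# Row 12 (T8b): Fejer–Gaussian majorant of a short interval

* `fejer` : `∑_{a ∈ SA} |∑_b β_b G(b) conj(a/b)|² ≤ 100 J⁻² ∑_{j,k < J} |PS ((1 - i(j-k))/A)|` for
  `SA` in `[A, A(1+1/J)]`
-/

set_option autoImplicit false

noncomputable section

open Finset Complex

namespace Crest.Agent.R012.T8

open Eis Tau671

/-- `J⁻¹ ∑_{j<J} e^{ijθ}` -/
def fej (J : ℕ) (θ : ℝ) : ℂ := (J : ℂ)⁻¹ * ∑ j ∈ range J, cexp ((j : ℂ) * θ * I)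

lemma fej_re {J : ℕ} (hJ : 1 ≤ J) {θ : ℝ} (h0 : 0 ≤ θ) (h1 : θ ≤ 1 / J) :
    1 / 2 ≤ (fej J θ).re := by
  have hJ0 : (0 : ℝ) < J := by exact_mod_cast hJ
  have e1 : (fej J θ).re = (J : ℝ)⁻¹ * ∑ j ∈ range J, Real.cos (j * θ) := by
    unfold fej
    have : (J : ℂ)⁻¹ = (((J : ℝ)⁻¹ : ℝ) : ℂ) := by push_cast; rfl
    rw [this, Complex.re_ofReal_mul, Complex.re_sum]
    congr 1
    refine Finset.sum_congr rfl fun j _ => ?_
    have : (j : ℂ) * θ * I = ((j * θ : ℝ) : ℂ) * I := by push_cast; ring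
    rw [this, Complex.exp_ofReal_mul_I_re]
  rw [e1]
  have h2 : ∑ j ∈ range J, (1 / 2 : ℝ) ≤ ∑ j ∈ range J, Real.cos (j * θ) := by
    refine Finset.sum_le_sum fun j hj => ?_
    rw [Finset.mem_range] at hj
    have hj' : (j : ℝ) * θ ≤ 1 := by
      calc (j : ℝ) * θ ≤ J * (1 / J) := by
            gcongr
        _ = 1 := by field_simp
    have hj0 : 0 ≤ (j : ℝ) * θ := by positivity
    have := Real.one_sub_sq_div_two_le_cos (x := (j : ℝ) * θ)
    nlinarith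
  rw [Finset.sum_const, card_range, nsmul_eq_mul] at h2
  calc (1 / 2 : ℝ) = (J : ℝ)⁻¹ * (J * (1 / 2)) := by field_simp
    _ ≤ _ := by gcongr

/-- `|fej|²` as a double sum -/
lemma fej_sq (J : ℕ) (θ : ℝ) : fej J θ * (starRingEnd ℂ) (fej J θ) =
    ((J : ℂ)⁻¹) ^ 2 * ∑ j ∈ range J, ∑ k ∈ range J, cexp (((j : ℂ) - k) * θ * I) := by
  unfold fej
  rw [map_mul, map_inv₀, map_sum, Complex.conj_natCast]
  have : (J : ℂ)⁻¹ * (∑ j ∈ range J, cexp ((j : ℂ) * θ * I)) *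
      ((J : ℂ)⁻¹ * ∑ k ∈ range J, (starRingEnd ℂ) (cexp ((k : ℂ) * θ * I))) =
      ((J : ℂ)⁻¹) ^ 2 * ((∑ j ∈ range J, cexp ((j : ℂ) * θ * I)) *
        ∑ k ∈ range J, (starRingEnd ℂ) (cexp ((k : ℂ) * θ * I))) := by ring
  rw [this, Finset.sum_mul_sum]
  congr 1
  refine Finset.sum_congr rfl fun j _ => Finset.sum_congr rfl fun k _ => ?_
  rw [← Complex.exp_conj, ← Complex.exp_add]
  congr 1
  simp only [map_mul, Complex.conj_natCast, Complex.conj_ofReal, Complex.conj_I]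
  ring

/-- the square of the bilinear sum -/
def Xa (S : Finset Eis) (β : Eis → ℂ) (a : Eis) : ℂ :=
  ∑ b ∈ S, β b * (G b * (starRingEnd ℂ) (sy a b))

lemma norm_Xa_le {S : Finset Eis} (hS : ∀ b ∈ S, IsPrim b) (β : Eis → ℂ) (a : Eis) :
    ‖Xa S β a‖ ≤ ∑ b ∈ S, ‖β b‖ := by
  refine (norm_sum_le _ _).trans (Finset.sum_le_sum fun b hb => ?_)
  rw [norm_mul, norm_mul, RCLike.norm_conj]
  have h1 := Gauss880.norm_G_le Gauss880.syG (hS b hb)
  have h2 := norm_sy_le (x := a) (hS b hb)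
  calc ‖β b‖ * (‖G b‖ * ‖sy a b‖) ≤ ‖β b‖ * (1 * 1) := by gcongr
    _ = _ := by ring

open Classical in
lemma summable_PS {S : Finset Eis} (hS : ∀ b ∈ S, IsPrim b) (β : Eis → ℂ) {s : ℂ}
    (hs : 0 < s.re) : Summable (fun a : Eis => (if IsPrim a then
      Xa S β a * (starRingEnd ℂ) (Xa S β a) else 0) * cg s (toC a)) := by
  refine Po581.summable_mul_bdd (B := (∑ b ∈ S, ‖β b‖) ^ 2) (fun a => ?_)
    (summable_pf_one (pf_cg hs))
  have h1 := norm_Xa_le hS β a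
  split_ifs
  · rw [norm_mul, RCLike.norm_conj, ← pow_two]
    gcongr
  · rw [norm_zero]; positivity

open Classical in
/-- **Fejer–Gaussian majorant.** -/
theorem fejer {S SA : Finset Eis} (hS : ∀ b ∈ S, IsPrim b) (β : Eis → ℂ) {A : ℝ} (hA : 0 < A)
    {J : ℕ} (hJ : 1 ≤ J)
    (hSA : ∀ a ∈ SA, IsPrim a ∧ A ≤ nm a ∧ (nm a : ℝ) ≤ A * (1 + 1 / J)) :
    ∑ a ∈ SA, ‖Xa S β a‖ ^ 2 ≤ 100 * ((J : ℝ)⁻¹) ^ 2 *
      ∑ j ∈ range J, ∑ k ∈ range J, ‖PS ((1 - (((j : ℝ) - k : ℝ) : ℂ) * I) / A) S β‖ := by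
  have hJ0 : (0 : ℝ) < J := by exact_mod_cast hJ
  set θ : Eis → ℝ := fun a => (nm a - A) / A with hθ
  set c : ℕ → ℕ → ℂ := fun j k => cexp (-(((j : ℂ) - k) * I)) with hc
  set s : ℕ → ℕ → ℂ := fun j k => (1 - (((j : ℝ) - k : ℝ) : ℂ) * I) / A with hs
  have hre : ∀ j k, 0 < (s j k).re := fun j k => re_s hA _
  -- the weight
  set W : Eis → ℝ := fun a => Real.exp (1 - nm a / A) * ‖fej J (θ a)‖ ^ 2 with hW
  have hW0 : ∀ a, 0 ≤ W a := fun a => by rw [hW]; positivity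
  have hWlow : ∀ a ∈ SA, 1 / 20 ≤ W a := by
    intro a ha
    obtain ⟨_, h1, h2⟩ := hSA a ha
    have t0 : 0 ≤ θ a := by rw [hθ]; beta_reduce; exact div_nonneg (by linarith) hA.le
    have t1 : θ a ≤ 1 / J := by
      rw [hθ]; beta_reduce
      rw [div_le_iff₀ hA]
      have : A * (1 + 1 / (J : ℝ)) = A + 1 / J * A := by ring
      linarith
    have h3 := fej_re hJ t0 t1
    have h4 : 1 / 2 ≤ ‖fej J (θ a)‖ := h3.trans (Complex.re_le_norm _)
    have h5 : -1 ≤ 1 - nm a / A := by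
      have h6 : (nm a : ℝ) / A ≤ 2 := by
        rw [div_le_iff₀ hA]
        refine h2.trans ?_
        have : 1 / (J : ℝ) ≤ 1 := by
          rw [div_le_one hJ0]; exact_mod_cast hJ
        nlinarith
      linarith
    have h7 : (1 / 3 : ℝ) ≤ Real.exp (1 - nm a / A) := by
      refine le_trans ?_ (Real.exp_le_exp.mpr h5)
      rw [Real.exp_neg, ← one_div]
      apply one_div_le_one_div_of_le (Real.exp_pos 1)
      linarith [Real.exp_one_lt_d9]
    rw [hW]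
    beta_reduce
    nlinarith
  -- the weight as a combination of complex Gaussians
  have hWeq : ∀ a : Eis, ((W a : ℝ) : ℂ) = (Real.exp 1 : ℂ) * ((J : ℂ)⁻¹) ^ 2 *
      ∑ j ∈ range J, ∑ k ∈ range J, c j k * cg (s j k) (toC a) := by
    intro a
    have e1 : ((‖fej J (θ a)‖ ^ 2 : ℝ) : ℂ) = fej J (θ a) * (starRingEnd ℂ) (fej J (θ a)) := by
      rw [Complex.mul_conj, Complex.normSq_eq_norm_sq]
    rw [hW]
    beta_reduce
    rw [Complex.ofReal_mul, e1, fej_sq, Finset.mul_sum, Finset.mul_sum, Finset.mul_sum]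
    refine Finset.sum_congr rfl fun j _ => ?_
    rw [Finset.mul_sum, Finset.mul_sum, Finset.mul_sum]
    refine Finset.sum_congr rfl fun k _ => ?_
    have hA' : (A : ℂ) ≠ 0 := by exact_mod_cast hA.ne'
    have e2 : ((Real.exp (1 - nm a / A) : ℝ) : ℂ) * cexp (((j : ℂ) - k) * (θ a) * I) =
        (Real.exp 1 : ℂ) * (c j k * cg (s j k) (toC a)) := by
      rw [cg_toC, hc, hs, hθ]
      beta_reduce
      rw [Complex.ofReal_exp, Complex.ofReal_exp, ← Complex.exp_add, ← Complex.exp_add,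
        ← Complex.exp_add]
      congr 1
      push_cast
      field_simp
      ring
    linear_combination ((J : ℂ)⁻¹) ^ 2 * e2
  -- the sum over all primary `a`
  set T : Eis → ℂ := fun a => if IsPrim a then Xa S β a * (starRingEnd ℂ) (Xa S β a) else 0 with hT
  have hTre : ∀ a, T a = ((if IsPrim a then ‖Xa S β a‖ ^ 2 else 0 : ℝ) : ℂ) := by
    intro a
    rw [hT]
    beta_reduce
    split_ifs
    · rw [Complex.mul_conj, Complex.normSq_eq_norm_sq]
    · simp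
  have hsumm : ∀ j k, Summable (fun a : Eis => T a * cg (s j k) (toC a)) :=
    fun j k => summable_PS hS β (hre j k)
  have hPS : ∀ j k, PS (s j k) S β = ∑' a : Eis, T a * cg (s j k) (toC a) := fun j k => rfl
  have e3 : ∑' a : Eis, T a * (W a : ℂ) = (Real.exp 1 : ℂ) * ((J : ℂ)⁻¹) ^ 2 *
      ∑ j ∈ range J, ∑ k ∈ range J, c j k * PS (s j k) S β := by
    have e4 : ∀ a : Eis, T a * (W a : ℂ) = (Real.exp 1 : ℂ) * ((J : ℂ)⁻¹) ^ 2 *
        ∑ j ∈ range J, ∑ k ∈ range J, c j k * (T a * cg (s j k) (toC a)) := by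
      intro a
      rw [hWeq]
      have : T a * ((Real.exp 1 : ℂ) * ((J : ℂ)⁻¹) ^ 2 *
          ∑ j ∈ range J, ∑ k ∈ range J, c j k * cg (s j k) (toC a)) =
          (Real.exp 1 : ℂ) * ((J : ℂ)⁻¹) ^ 2 * (T a *
          ∑ j ∈ range J, ∑ k ∈ range J, c j k * cg (s j k) (toC a)) := by ring
      rw [this, Finset.mul_sum]
      congr 1
      refine Finset.sum_congr rfl fun j _ => ?_
      rw [Finset.mul_sum]
      refine Finset.sum_congr rfl fun k _ => ?_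
      ring
    simp_rw [e4]
    rw [tsum_mul_left]
    congr 1
    rw [Summable.tsum_finsetSum (fun j _ => summable_sum fun k _ => (hsumm j k).mul_left _)]
    refine Finset.sum_congr rfl fun j _ => ?_
    rw [Summable.tsum_finsetSum (fun k _ => (hsumm j k).mul_left _)]
    refine Finset.sum_congr rfl fun k _ => ?_
    rw [tsum_mul_left, hPS]
  have hsummW : Summable (fun a : Eis => (if IsPrim a then ‖Xa S β a‖ ^ 2 else 0 : ℝ) * W a) := by
    have h1 : Summable (fun a : Eis => T a * (W a : ℂ)) := by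
      have : (fun a : Eis => T a * (W a : ℂ)) = fun a => (Real.exp 1 : ℂ) * ((J : ℂ)⁻¹) ^ 2 *
        ∑ j ∈ range J, ∑ k ∈ range J, c j k * (T a * cg (s j k) (toC a)) := by
        funext a
        rw [hWeq]
        have : T a * ((Real.exp 1 : ℂ) * ((J : ℂ)⁻¹) ^ 2 *
            ∑ j ∈ range J, ∑ k ∈ range J, c j k * cg (s j k) (toC a)) =
            (Real.exp 1 : ℂ) * ((J : ℂ)⁻¹) ^ 2 * (T a *
            ∑ j ∈ range J, ∑ k ∈ range J, c j k * cg (s j k) (toC a)) := by ring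
        rw [this, Finset.mul_sum]
        congr 1
        refine Finset.sum_congr rfl fun j _ => ?_
        rw [Finset.mul_sum]
        refine Finset.sum_congr rfl fun k _ => ?_
        ring
      rw [this]
      exact (summable_sum fun j _ => summable_sum fun k _ => (hsumm j k).mul_left _).mul_left _
    have h2 := h1.norm
    refine h2.congr fun a => ?_
    rw [hTre, ← Complex.ofReal_mul, Complex.norm_real, Real.norm_of_nonneg]
    refine mul_nonneg ?_ (hW0 a)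
    split_ifs <;> positivity
  have e5 : ((∑' a : Eis, (if IsPrim a then ‖Xa S β a‖ ^ 2 else 0 : ℝ) * W a : ℝ) : ℂ) =
      ∑' a : Eis, T a * (W a : ℂ) := by
    rw [Complex.ofReal_tsum]
    refine tsum_congr fun a => ?_
    rw [hTre, Complex.ofReal_mul]
  have h6 : ∑' a : Eis, (if IsPrim a then ‖Xa S β a‖ ^ 2 else 0 : ℝ) * W a ≤
      Real.exp 1 * ((J : ℝ)⁻¹) ^ 2 * ∑ j ∈ range J, ∑ k ∈ range J, ‖PS (s j k) S β‖ := by
    have h7 : ‖((∑' a : Eis, (if IsPrim a then ‖Xa S β a‖ ^ 2 else 0 : ℝ) * W a : ℝ) : ℂ)‖ ≤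
        Real.exp 1 * ((J : ℝ)⁻¹) ^ 2 * ∑ j ∈ range J, ∑ k ∈ range J, ‖PS (s j k) S β‖ := by
      rw [e5, e3, norm_mul, norm_mul]
      have n1 : ‖((Real.exp 1 : ℝ) : ℂ)‖ = Real.exp 1 := by
        rw [Complex.norm_real, Real.norm_of_nonneg (Real.exp_pos _).le]
      have n2 : ‖((J : ℂ)⁻¹) ^ 2‖ = ((J : ℝ)⁻¹) ^ 2 := by
        rw [norm_pow, norm_inv, Complex.norm_natCast]
      rw [n1, n2]
      refine mul_le_mul_of_nonneg_left ?_ (by positivity)
      refine (norm_sum_le _ _).trans (Finset.sum_le_sum fun j _ => ?_)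
      refine (norm_sum_le _ _).trans (Finset.sum_le_sum fun k _ => ?_)
      rw [norm_mul]
      have n3 : ‖c j k‖ = 1 := by
        rw [hc]
        beta_reduce
        have : -(((j : ℂ) - k) * I) = ((-((j : ℝ) - k) : ℝ) : ℂ) * I := by push_cast; ring
        rw [this, Complex.norm_exp_ofReal_mul_I]
      rw [n3, one_mul]
    rw [Complex.norm_real] at h7
    exact (le_abs_self _).trans h7
  have h8 : ∑ a ∈ SA, ‖Xa S β a‖ ^ 2 ≤ 20 *
      ∑' a : Eis, (if IsPrim a then ‖Xa S β a‖ ^ 2 else 0 : ℝ) * W a := by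
    have h9 : ∑ a ∈ SA, (if IsPrim a then ‖Xa S β a‖ ^ 2 else 0 : ℝ) * W a ≤
        ∑' a : Eis, (if IsPrim a then ‖Xa S β a‖ ^ 2 else 0 : ℝ) * W a :=
      hsummW.sum_le_tsum SA fun a _ => mul_nonneg (by split_ifs <;> positivity) (hW0 a)
    calc ∑ a ∈ SA, ‖Xa S β a‖ ^ 2
        ≤ ∑ a ∈ SA, 20 * ((if IsPrim a then ‖Xa S β a‖ ^ 2 else 0 : ℝ) * W a) := by
          refine Finset.sum_le_sum fun a ha => ?_
          rw [if_pos (hSA a ha).1]
          have := hWlow a ha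
          nlinarith [sq_nonneg ‖Xa S β a‖]
      _ = 20 * ∑ a ∈ SA, (if IsPrim a then ‖Xa S β a‖ ^ 2 else 0 : ℝ) * W a := by
          rw [Finset.mul_sum]
      _ ≤ _ := by gcongr
  refine h8.trans ((mul_le_mul_of_nonneg_left h6 (by norm_num)).trans ?_)
  have h10 : 0 ≤ ∑ j ∈ range J, ∑ k ∈ range J, ‖PS (s j k) S β‖ := by positivity
  have h11 : Real.exp 1 ≤ 5 := by linarith [Real.exp_one_lt_d9]
  calc 20 * (Real.exp 1 * ((J : ℝ)⁻¹) ^ 2 * ∑ j ∈ range J, ∑ k ∈ range J, ‖PS (s j k) S β‖)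
      ≤ 20 * (5 * ((J : ℝ)⁻¹) ^ 2 * ∑ j ∈ range J, ∑ k ∈ range J, ‖PS (s j k) S β‖) := by
        gcongr
    _ = _ := by ring

end Crest.Agent.R012.T8
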