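import Crest.Agent.R012.T8G_810
import Crest.Agent.R012.T8Abel_810
import Crest.Agent.R012.DualSum_671

/-!
# Row 12 (T8): the exact dual form of the smoothed second moment, complex Gaussian weight

`PS s S β = ∑_{a primary} |∑_{b ∈ S} β_b G(b) conj (a/b)|² exp(-s N(a))`.
-/

set_option autoImplicit false
set_option linter.unusedSimpArgs false
set_option linter.unusedVariables false

noncomputable section

open Finset Complex

namespace Crest.Agent.R012.T8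

open Eis Tau671
open Gauss880 (syG)
open Po581 (fC dl)
open Mob705 (mu pdiv mem_pdiv sum_mu_coprime PE PE_eq_sum PE_pos PE_le_one)

open Classical in
/-- the smoothed second moment -/
def PS (s : ℂ) (S : Finset Eis) (β : Eis → ℂ) : ℂ :=
  ∑' a : Eis, (if IsPrim a then (∑ b ∈ S, β b * (G b * (starRingEnd ℂ) (sy a b))) *
        (starRingEnd ℂ) (∑ b ∈ S, β b * (G b * (starRingEnd ℂ) (sy a b))) else 0) * cg s (toC a)

/-- the archimedean kernel -/
def Wk (s : ℂ) (d h k : Eis) : ℂ :=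
  cexp (-(4 * Real.pi ^ 2 * nm h / (27 * s * nm d) / nm k))

lemma norm_Wk_le {s : ℂ} (hs : 0 < s.re) (d h k : Eis) : ‖Wk s d h k‖ ≤ 1 := by
  unfold Wk
  rw [Complex.norm_exp, Real.exp_le_one_iff, neg_re]
  have e : (4 * (Real.pi : ℂ) ^ 2 * nm h / (27 * s * nm d) / nm k) =
      ((4 * Real.pi ^ 2 * nm h / (27 * nm d) / nm k : ℝ) : ℂ) * (1 / s) := by
    push_cast
    have hs0 : s ≠ 0 := by rintro rfl; simp at hs
    field_simp
  rw [e, re_ofReal_mul]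
  have := re_inv_pos hs
  have h2 : (0 : ℝ) ≤ 4 * Real.pi ^ 2 * nm h / (27 * nm d) / nm k := by positivity
  nlinarith [mul_nonneg h2 this.le]

/-- summand of the dual series -/
def dF (s : ℂ) (e d k1 k2 h : Eis) : ℂ :=
  ph h * ((((Real.sqrt (nm k1 * nm k2))⁻¹ : ℝ) : ℂ) *
    (psi h (d * e) k1 * (starRingEnd ℂ) (psi h (d * e) k2)) * Wk s d h (k1 * k2))

lemma fC_cg_kernel {s : ℂ} (hs : 0 < s.re) (h k1 k2 d : Eis) :
    fC (cg s) (toC h / (3 * toC sq3 * (toC k1 * toC k2) * toC d)) =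
      (Real.pi / s) * Wk s d h (k1 * k2) := by
  rw [fC_cg hs]
  unfold Wk
  congr 3
  have hnorm : (‖toC h / (3 * toC sq3 * (toC k1 * toC k2) * toC d)‖ : ℂ) ^ 2 =
      (nm h : ℂ) / (27 * (nm k1 * nm k2) * nm d) := by
    rw [← Complex.ofReal_pow, norm_div, norm_mul, norm_mul, norm_mul, norm_mul, div_pow, mul_pow,
      mul_pow, mul_pow, mul_pow, norm_toC_sq, norm_toC_sq, norm_toC_sq, norm_toC_sq, norm_toC_sq]
    have : nm sq3 = 3 := by decide
    rw [this]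
    norm_num
  rw [hnorm, nm_mul]
  push_cast
  simp only [div_eq_mul_inv, mul_inv]
  ring

lemma summable_dF {s : ℂ} (hs : 0 < s.re) {e d k1 k2 : Eis} (h1 : IsPrim k1)
    (h2 : IsPrim k2) (hd : d ≠ 0) : Summable (dF s e d k1 k2) := by
  have h := summable_dualPair (r := d * e) (pf_cg hs) h1 h2 hd
  have hs0 : s ≠ 0 := by rintro rfl; simp at hs
  have hpi : (Real.pi : ℂ) ≠ 0 := by exact_mod_cast Real.pi_ne_zero
  have h' := h.mul_left ((((Real.sqrt (nm k1 * nm k2))⁻¹ : ℝ) : ℂ) * (Real.pi / s)⁻¹)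
  refine h'.congr fun x => ?_
  rw [fC_cg_kernel hs]
  unfold dF
  have : (Real.pi / s : ℂ) ≠ 0 := div_ne_zero hpi hs0
  field_simp

lemma dualPair_cg {s : ℂ} (hs : 0 < s.re) {e k1 k2 : Eis} :
    dualPair (cg s) e k1 k2 = (2 * Real.pi / (9 * Real.sqrt 3 * s)) *
      ∑ d ∈ pdiv e, (mu d : ℂ) * (nm d : ℂ)⁻¹ * ∑' h : Eis, dF s e d k1 k2 h := by
  unfold dualPair
  rw [Finset.mul_sum, Finset.mul_sum]
  refine Finset.sum_congr rfl fun d _ => ?_
  have e1 : ∀ h : Eis, ph h * (psi h (d * e) k1 * (starRingEnd ℂ) (psi h (d * e) k2)) *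
        fC (cg s) (toC h / (3 * toC sq3 * (toC k1 * toC k2) * toC d)) =
      (Real.pi / s) * (ph h * (psi h (d * e) k1 * (starRingEnd ℂ) (psi h (d * e) k2)) *
        Wk s d h (k1 * k2)) := by
    intro h
    rw [fC_cg_kernel hs]; ring
  have e2 : ∀ h : Eis, dF s e d k1 k2 h = (((Real.sqrt (nm k1 * nm k2))⁻¹ : ℝ) : ℂ) *
      (ph h * (psi h (d * e) k1 * (starRingEnd ℂ) (psi h (d * e) k2)) *
        Wk s d h (k1 * k2)) := by
    intro h; unfold dF; ring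
  rw [tsum_congr e1, tsum_congr e2, tsum_mul_left, tsum_mul_left]
  push_cast
  have hs0 : s ≠ 0 := by rintro rfl; simp at hs
  field_simp

open Classical in
/-- the bilinear form of one frequency -/
def Qe (s : ℂ) (S D : Finset Eis) (β : Eis → ℂ) (e d h : Eis) : ℂ :=
  ∑ k1 ∈ D, ∑ k2 ∈ D, (if e * k1 ∈ S ∧ e * k2 ∈ S ∧ IsCoprime k1 k2 then
        β (e * k1) * (starRingEnd ℂ) (β (e * k2)) *
          (((Real.sqrt (nm k1 * nm k2))⁻¹ : ℝ) : ℂ) *
          (psi h (d * e) k1 * (starRingEnd ℂ) (psi h (d * e) k2)) * Wk s d h (k1 * k2) else 0)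

lemma psi_zero {r k : Eis} (hk : IsPrim k) (h1 : k ≠ 1) : psi 0 r k = 0 := by
  apply psi_eq_zero hk
  intro h
  have hu : IsUnit k := isCoprime_zero_left.mp h
  exact h1 (hk.eq_of_associated isPrim_one ((associated_one_iff_isUnit).mpr hu))

open Classical in
lemma Qe_zero {s : ℂ} {S D : Finset Eis} (hD : ∀ d ∈ D, IsPrim d)
    (hSD : ∀ b ∈ S, ∀ d : Eis, IsPrim d → d ∣ b → d ∈ D) (β : Eis → ℂ) (e d : Eis) :
    Qe s S D β e d 0 = if e ∈ S then β e * (starRingEnd ℂ) (β e) else 0 := by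
  unfold Qe
  have hz : ∀ k1 ∈ D, ∀ k2 ∈ D, k1 ≠ 1 ∨ k2 ≠ 1 →
      (if e * k1 ∈ S ∧ e * k2 ∈ S ∧ IsCoprime k1 k2 then
        β (e * k1) * (starRingEnd ℂ) (β (e * k2)) *
          (((Real.sqrt (nm k1 * nm k2))⁻¹ : ℝ) : ℂ) *
          (psi 0 (d * e) k1 * (starRingEnd ℂ) (psi 0 (d * e) k2)) * Wk s d 0 (k1 * k2) else 0)
        = 0 := by
    intro k1 hk1 k2 hk2 h
    have : psi 0 (d * e) k1 * (starRingEnd ℂ) (psi 0 (d * e) k2) = 0 := by
      rcases h with h | h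
      · rw [psi_zero (hD _ hk1) h, zero_mul]
      · rw [psi_zero (hD _ hk2) h, map_zero, mul_zero]
    rw [this]
    split_ifs <;> simp
  by_cases he : e ∈ S
  · rw [if_pos he]
    have h1 : (1 : Eis) ∈ D := hSD _ he _ isPrim_one (one_dvd _)
    rw [Finset.sum_eq_single_of_mem (1 : Eis) h1, Finset.sum_eq_single_of_mem (1 : Eis) h1]
    · rw [mul_one, if_pos ⟨he, he, isCoprime_one_left⟩]
      have h2 : nm (1 : Eis) = 1 := by decide
      have h3 : nm (0 : Eis) = 0 := by decide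
      have h4 : ∀ x : Eis, sy x 1 = 1 := fun x => by
        simp [Sym645.sy_one_right x]
      unfold psi Wk
      rw [h4, h4, h2, h3]
      simp
    · intro k2 hk2 h
      exact hz _ h1 _ hk2 (Or.inr h)
    · intro k1 hk1 h
      exact Finset.sum_eq_zero fun k2 hk2 => hz _ hk1 _ hk2 (Or.inl h)
  · rw [if_neg he]
    refine Finset.sum_eq_zero fun k1 hk1 => Finset.sum_eq_zero fun k2 hk2 => ?_
    by_cases h : k1 ≠ 1 ∨ k2 ≠ 1
    · exact hz _ hk1 _ hk2 h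
    · push Not at h
      rw [h.1, h.2, mul_one, if_neg (fun h' => he h'.1)]

open Classical in
lemma sum_dualPair {s : ℂ} (hs : 0 < s.re) {S D : Finset Eis} (hD : ∀ d ∈ D, IsPrim d)
    (β : Eis → ℂ) {e : Eis} (he : IsPrim e) :
    (∑ k1 ∈ D, ∑ k2 ∈ D, if e * k1 ∈ S ∧ e * k2 ∈ S ∧ IsCoprime k1 k2 then
        β (e * k1) * (starRingEnd ℂ) (β (e * k2)) * dualPair (cg s) e k1 k2 else 0) =
      (2 * Real.pi / (9 * Real.sqrt 3 * s)) * ∑ d ∈ pdiv e, (mu d : ℂ) * (nm d : ℂ)⁻¹ *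
        ∑' h : Eis, ph h * Qe s S D β e d h := by
  have e1 : ∀ k1 k2 : Eis, (if e * k1 ∈ S ∧ e * k2 ∈ S ∧ IsCoprime k1 k2 then
        β (e * k1) * (starRingEnd ℂ) (β (e * k2)) * dualPair (cg s) e k1 k2 else 0) =
      (2 * Real.pi / (9 * Real.sqrt 3 * s)) * ∑ d ∈ pdiv e, (mu d : ℂ) * (nm d : ℂ)⁻¹ *
        ∑' h : Eis, (if e * k1 ∈ S ∧ e * k2 ∈ S ∧ IsCoprime k1 k2 then
          β (e * k1) * (starRingEnd ℂ) (β (e * k2)) else 0) * dF s e d k1 k2 h := by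
    intro k1 k2
    simp_rw [tsum_mul_left]
    by_cases hc : e * k1 ∈ S ∧ e * k2 ∈ S ∧ IsCoprime k1 k2
    · simp only [if_pos hc]
      rw [dualPair_cg hs, Finset.mul_sum, Finset.mul_sum, Finset.mul_sum]
      exact Finset.sum_congr rfl fun d _ => by ring
    · simp only [if_neg hc, zero_mul, mul_zero, Finset.sum_const_zero]
  simp_rw [e1]
  simp_rw [← Finset.mul_sum]
  congr 1
  have e2 : ∀ k1 : Eis, ∑ k2 ∈ D, ∑ d ∈ pdiv e, (mu d : ℂ) * (nm d : ℂ)⁻¹ *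
        ∑' h : Eis, (if e * k1 ∈ S ∧ e * k2 ∈ S ∧ IsCoprime k1 k2 then
          β (e * k1) * (starRingEnd ℂ) (β (e * k2)) else 0) * dF s e d k1 k2 h =
      ∑ d ∈ pdiv e, ∑ k2 ∈ D, (mu d : ℂ) * (nm d : ℂ)⁻¹ *
        ∑' h : Eis, (if e * k1 ∈ S ∧ e * k2 ∈ S ∧ IsCoprime k1 k2 then
          β (e * k1) * (starRingEnd ℂ) (β (e * k2)) else 0) * dF s e d k1 k2 h :=
    fun k1 => Finset.sum_comm
  simp_rw [e2]
  rw [Finset.sum_comm]
  refine Finset.sum_congr rfl fun d hd => ?_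
  have hd0 : d ≠ 0 := ((mem_pdiv he.ne_zero).mp hd).1.ne_zero
  simp_rw [← Finset.mul_sum]
  congr 1
  have hsm : ∀ k1 ∈ D, ∀ k2 ∈ D, Summable (fun h : Eis =>
      (if e * k1 ∈ S ∧ e * k2 ∈ S ∧ IsCoprime k1 k2 then
          β (e * k1) * (starRingEnd ℂ) (β (e * k2)) else 0) * dF s e d k1 k2 h) :=
    fun k1 hk1 k2 hk2 => (summable_dF hs (hD _ hk1) (hD _ hk2) hd0).mul_left _
  have e3 : ∀ k1 ∈ D, ∑ k2 ∈ D, ∑' h : Eis,
      (if e * k1 ∈ S ∧ e * k2 ∈ S ∧ IsCoprime k1 k2 then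
          β (e * k1) * (starRingEnd ℂ) (β (e * k2)) else 0) * dF s e d k1 k2 h =
      ∑' h : Eis, ∑ k2 ∈ D, (if e * k1 ∈ S ∧ e * k2 ∈ S ∧ IsCoprime k1 k2 then
          β (e * k1) * (starRingEnd ℂ) (β (e * k2)) else 0) * dF s e d k1 k2 h :=
    fun k1 hk1 => (Summable.tsum_finsetSum (fun k2 hk2 => hsm k1 hk1 k2 hk2)).symm
  rw [Finset.sum_congr rfl e3,
    ← Summable.tsum_finsetSum (fun k1 hk1 => summable_sum fun k2 hk2 => hsm k1 hk1 k2 hk2)]
  refine tsum_congr fun h => ?_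
  unfold Qe
  rw [Finset.mul_sum]
  refine Finset.sum_congr rfl fun k1 _ => ?_
  rw [Finset.mul_sum]
  refine Finset.sum_congr rfl fun k2 _ => ?_
  unfold dF
  split_ifs
  · ring
  · simp

open Classical in
lemma summable_Qe {s : ℂ} (hs : 0 < s.re) {S D : Finset Eis} (hD : ∀ d ∈ D, IsPrim d)
    (β : Eis → ℂ) {e d : Eis} (hd0 : d ≠ 0) :
    Summable (fun h : Eis => ph h * Qe s S D β e d h) := by
  have hsm : ∀ k1 ∈ D, ∀ k2 ∈ D, Summable (fun h : Eis =>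
      (if e * k1 ∈ S ∧ e * k2 ∈ S ∧ IsCoprime k1 k2 then
          β (e * k1) * (starRingEnd ℂ) (β (e * k2)) else 0) * dF s e d k1 k2 h) :=
    fun k1 hk1 k2 hk2 => (summable_dF hs (hD _ hk1) (hD _ hk2) hd0).mul_left _
  have h := summable_sum fun k1 hk1 => summable_sum fun k2 hk2 => hsm k1 hk1 k2 hk2
  refine h.congr fun x => ?_
  unfold Qe
  rw [Finset.mul_sum]
  refine Finset.sum_congr rfl fun k1 _ => ?_
  rw [Finset.mul_sum]
  refine Finset.sum_congr rfl fun k2 _ => ?_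
  unfold dF
  split_ifs
  · ring
  · simp

open Classical in
/-- **The dual bound of the smoothed second moment.** -/
theorem norm_PS_le {s : ℂ} (hs : 0 < s.re) {S D : Finset Eis}
    (hS : ∀ b ∈ S, IsPrim b ∧ Squarefree b) (hD : ∀ d ∈ D, IsPrim d)
    (hSD : ∀ b ∈ S, ∀ d : Eis, IsPrim d → d ∣ b → d ∈ D) (β : Eis → ℂ) :
    ‖PS s S β‖ ≤ 2 * Real.pi / (9 * Real.sqrt 3 * ‖s‖) * (∑ b ∈ S, ‖β b‖ ^ 2 +
      ∑ e ∈ D, ∑ d ∈ pdiv e, (nm d : ℝ)⁻¹ *
        ‖∑' h : Eis, if h = 0 then 0 else ph h * Qe s S D β e d h‖) := by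
  unfold PS
  rw [dual_sum (pf_cg hs) hS hD hSD β, Finset.sum_congr rfl fun e he =>
    sum_dualPair hs hD β (hD e he), ← Finset.mul_sum, norm_mul]
  have hc : ‖(2 * Real.pi / (9 * Real.sqrt 3 * s) : ℂ)‖ =
      2 * Real.pi / (9 * Real.sqrt 3 * ‖s‖) := by
    rw [norm_div, norm_mul, norm_mul, norm_mul, Complex.norm_real, Complex.norm_real,
      Real.norm_of_nonneg Real.pi_pos.le, Real.norm_of_nonneg (Real.sqrt_nonneg _)]
    norm_num
  rw [hc]
  apply mul_le_mul_of_nonneg_left _ (by positivity)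
  have e1 : ∀ e ∈ D, ∑ d ∈ pdiv e, (mu d : ℂ) * (nm d : ℂ)⁻¹ *
        ∑' h : Eis, ph h * Qe s S D β e d h =
      ph 0 * (if e ∈ S then β e * (starRingEnd ℂ) (β e) else 0) * (PE e : ℂ) +
      ∑ d ∈ pdiv e, (mu d : ℂ) * (nm d : ℂ)⁻¹ *
        ∑' h : Eis, if h = 0 then 0 else ph h * Qe s S D β e d h := by
    intro e he
    have h1 := PE_eq_sum (hD _ he).ne_zero
    have h2 : (PE e : ℂ) = ∑ d ∈ pdiv e, (mu d : ℂ) * (nm d : ℂ)⁻¹ := by
      rw [h1]; push_cast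
      exact Finset.sum_congr rfl fun d _ => by rw [one_div]
    rw [h2, Finset.mul_sum, ← Finset.sum_add_distrib]
    refine Finset.sum_congr rfl fun d hd => ?_
    have hd0 : d ≠ 0 := ((mem_pdiv (hD _ he).ne_zero).mp hd).1.ne_zero
    rw [(summable_Qe hs hD β hd0).tsum_eq_add_tsum_ite 0, Qe_zero hD hSD]
    ring
  rw [Finset.sum_congr rfl e1, Finset.sum_add_distrib]
  refine (norm_add_le _ _).trans (add_le_add ?_ ?_)
  · refine (norm_sum_le _ _).trans ?_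
    have e2 : ∀ e ∈ D, ‖ph 0 * (if e ∈ S then β e * (starRingEnd ℂ) (β e) else 0) *
        (PE e : ℂ)‖ ≤ if e ∈ S then ‖β e‖ ^ 2 else 0 := by
      intro e _
      rw [norm_mul, norm_mul, norm_ph, one_mul, Complex.norm_real,
        Real.norm_of_nonneg (PE_pos e).le]
      split_ifs
      · rw [norm_mul, RCLike.norm_conj, ← pow_two]
        exact mul_le_of_le_one_right (by positivity) (PE_le_one e)
      · simp
    refine (Finset.sum_le_sum e2).trans ?_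
    rw [← Finset.sum_filter]
    apply Finset.sum_le_sum_of_subset_of_nonneg
    · intro x hx
      exact (Finset.mem_filter.mp hx).2
    · intro x _ _; positivity
  · refine (norm_sum_le _ _).trans (Finset.sum_le_sum fun e _ => ?_)
    refine (norm_sum_le _ _).trans (Finset.sum_le_sum fun d _ => ?_)
    rw [norm_mul, norm_mul]
    apply mul_le_mul_of_nonneg_right _ (norm_nonneg _)
    rw [norm_inv, Complex.norm_natCast]
    have h1 : ‖((mu d : ℤ) : ℂ)‖ ≤ 1 := by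
      rw [Complex.norm_intCast]
      exact_mod_cast Mob705.abs_mu_le_one d
    exact mul_le_of_le_one_left (by positivity) h1

end Crest.Agent.R012.T8
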