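import Crest.Agent.R012.T8M1_810

/-!
# Row 12 (T8): the master inequality

`LSH C` is the large sieve input (helper879's `T8LS_879`).  `master`: for
`s = (1 - iτ)/A` the smoothed second moment `PS s S β` is bounded by the diagonal plus a sum over
`(e, d, g)` of large sieve bounds.
-/

set_option autoImplicit false
set_option linter.unusedSimpArgs false
set_option linter.unusedVariables false

noncomputable section

open Finset Complex MeasureTheory

namespace Crest.Agent.R012.T8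

open Eis Tau671
open Gauss880 (syG)
open Mob705 (mu pdiv mem_pdiv)

/-- the large sieve input (all nonzero frequencies) -/
def LSH (C : ℝ) : Prop := ∀ (K N ν : ℝ) (T H : Finset Eis) (c : Eis → ℂ), 0 < K → 1 ≤ N →
  1 ≤ ν → (∀ k ∈ T, IsPrim k ∧ Squarefree k ∧ (nm k : ℝ) ≤ 2 * N) → (T.card : ℝ) ≤ ν →
  (∀ h ∈ H, h ≠ 0) →
  ∑ h ∈ H, ((1 + nm h / K) ^ 4)⁻¹ * ‖∑ k ∈ T, c k * sy h k‖ ^ 2 ≤
    C * (1 + Real.log (1 + K)) *
      (K ^ ((1:ℝ)/3) * N ^ ((2:ℝ)/3) * ν ^ ((1:ℝ)/3) + K + K ^ 2) * ∑ k ∈ T, ‖c k‖ ^ 2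

open Classical in
/-- the set of `m` with `e g m ∈ S` -/
def Kg (S D : Finset Eis) (e g : Eis) : Finset Eis := D.filter (fun m => e * (g * m) ∈ S)

/-- the coefficients after separation -/
def xg (β : Eis → ℂ) (e d g h m : Eis) : ℂ :=
  (starRingEnd ℂ) (β (e * (g * m)) * psi h (d * e) m) * (((Real.sqrt (nm m))⁻¹ : ℝ) : ℂ)

/-- the normalized variable -/
def yg (B : ℝ) (e g m : Eis) : ℝ := nm e * nm g * nm m / B

open Classical in
/-- Moebius inversion for a single frequency. -/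
lemma norm_Qe_le {s : ℂ} (hs0 : s ≠ 0) {S D : Finset Eis} (hS : ∀ b ∈ S, IsPrim b ∧ Squarefree b)
    (hD : ∀ d ∈ D, IsPrim d) (hSD : ∀ b ∈ S, ∀ d : Eis, IsPrim d → d ∣ b → d ∈ D) (β : Eis → ℂ)
    {B : ℝ} (hB : 0 < B) {e d : Eis} (he : IsPrim e) (hde : d ∣ e) (h : Eis) :
    ‖Qe s S D β e d h‖ ≤ ∑ g ∈ D, (nm g : ℝ)⁻¹ *
      ‖∑ m1 ∈ Kg S D e g, ∑ m2 ∈ Kg S D e g, (starRingEnd ℂ) (xg β e d g h m1) *
        xg β e d g h m2 * cexp (-((4 * Real.pi ^ 2 * nm h * (nm e) ^ 2 / (27 * nm d * B ^ 2) / s) /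
          (yg B e g m1 * yg B e g m2)))‖ := by
  have hp := pairs_moebius hS hD hSD he hde h β (Wk s d h)
  have hQ : Qe s S D β e d h = _ := hp
  rw [hQ]
  refine (norm_sum_le _ _).trans (Finset.sum_le_sum fun g hg => ?_)
  have hgp := hD _ hg
  have hg0 : (0 : ℝ) < nm g := by exact_mod_cast nm_pos.mpr hgp.ne_zero
  have he0 : (0 : ℝ) < nm e := by exact_mod_cast nm_pos.mpr he.ne_zero
  have hd0 : (0 : ℝ) < nm d := by
    have : d ≠ 0 := fun h => he.ne_zero (zero_dvd_iff.mp (h ▸ hde))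
    exact_mod_cast nm_pos.mpr this
  have hin : ∑ m1 ∈ D, ∑ m2 ∈ D, (if e * (g * m1) ∈ S ∧ e * (g * m2) ∈ S then
          β (e * (g * m1)) * (starRingEnd ℂ) (β (e * (g * m2))) *
            (((Real.sqrt (nm m1 * nm m2))⁻¹ : ℝ) : ℂ) *
            (psi h (d * e) m1 * (starRingEnd ℂ) (psi h (d * e) m2)) *
            Wk s d h (g * g * (m1 * m2)) else 0) =
      ∑ m1 ∈ Kg S D e g, ∑ m2 ∈ Kg S D e g, (starRingEnd ℂ) (xg β e d g h m1) *
        xg β e d g h m2 * cexp (-((4 * Real.pi ^ 2 * nm h * (nm e) ^ 2 / (27 * nm d * B ^ 2) / s) /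
          (yg B e g m1 * yg B e g m2))) := by
    unfold Kg
    rw [Finset.sum_filter]
    refine Finset.sum_congr rfl fun m1 hm1 => ?_
    by_cases c1 : e * (g * m1) ∈ S
    · rw [if_pos c1, Finset.sum_filter]
      refine Finset.sum_congr rfl fun m2 hm2 => ?_
      by_cases c2 : e * (g * m2) ∈ S
      · rw [if_pos ⟨c1, c2⟩, if_pos c2]
        have h1 : (0 : ℝ) < nm m1 := by exact_mod_cast nm_pos.mpr (hD _ hm1).ne_zero
        have h2 : (0 : ℝ) < nm m2 := by exact_mod_cast nm_pos.mpr (hD _ hm2).ne_zero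
        have eW : Wk s d h (g * g * (m1 * m2)) =
            cexp (-((4 * Real.pi ^ 2 * nm h * (nm e) ^ 2 / (27 * nm d * B ^ 2) / s) /
              (yg B e g m1 * yg B e g m2))) := by
          unfold Wk yg
          congr 2
          rw [nm_mul, nm_mul, nm_mul]
          push_cast
          have a1 : (nm m1 : ℂ) ≠ 0 := by exact_mod_cast h1.ne'
          have a2 : (nm m2 : ℂ) ≠ 0 := by exact_mod_cast h2.ne'
          have a3 : (nm g : ℂ) ≠ 0 := by exact_mod_cast hg0.ne'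
          have a4 : (nm e : ℂ) ≠ 0 := by exact_mod_cast he0.ne'
          have a5 : (nm d : ℂ) ≠ 0 := by exact_mod_cast hd0.ne'
          have a6 : (B : ℂ) ≠ 0 := by exact_mod_cast hB.ne'
          field_simp
        rw [eW]
        have er : (((Real.sqrt (nm m1 * nm m2))⁻¹ : ℝ) : ℂ) =
            (((Real.sqrt (nm m1))⁻¹ : ℝ) : ℂ) * (((Real.sqrt (nm m2))⁻¹ : ℝ) : ℂ) := by
          rw [← Complex.ofReal_mul, Real.sqrt_mul (Nat.cast_nonneg _), mul_inv]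
        rw [er]
        unfold xg
        simp only [map_mul, Complex.conj_conj, Complex.conj_ofReal]
        ring
      · rw [if_neg (fun h => c2 h.2), if_neg c2]
    · rw [if_neg c1]
      exact Finset.sum_eq_zero fun m2 _ => if_neg (fun h => c1 h.1)
  by_cases hhg : IsCoprime h g
  · rw [if_pos hhg, hin, norm_mul, norm_mul]
    apply mul_le_mul_of_nonneg_right _ (norm_nonneg _)
    rw [norm_inv, Complex.norm_natCast]
    have h1 : ‖((mu g : ℤ) : ℂ)‖ ≤ 1 := by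
      rw [Complex.norm_intCast]
      exact_mod_cast Mob705.abs_mu_le_one g
    exact mul_le_of_le_one_left (by positivity) h1
  · rw [if_neg hhg, norm_zero]
    positivity

/-- elementary bound of the weight -/
lemma weight_le {Z : ℝ} (hZ : 0 ≤ Z) (τ : ℝ) {n : ℝ} (hn0 : 0 ≤ n) (hn : n ≤ Z * (1 + τ ^ 2)) :
    (1 + n) ^ 2 * Real.exp (-(Z / 4)) ≤ 24 ^ 6 * (1 + τ ^ 2) ^ 2 * ((1 + Z) ^ 4)⁻¹ := by
  have hq : 1 ≤ 1 + τ ^ 2 := by nlinarith [sq_nonneg τ]
  have h1 : 1 + n ≤ (1 + τ ^ 2) * (1 + Z) := by nlinarith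
  have h2 : (1 + n) ^ 2 ≤ ((1 + τ ^ 2) * (1 + Z)) ^ 2 := by gcongr
  have h3 : (1 + Z) ^ 6 ≤ 24 ^ 6 * Real.exp (Z / 4) := by
    have h4 : 1 + Z ≤ 24 * Real.exp (Z / 24) := by
      have := Real.add_one_le_exp (Z / 24)
      linarith
    calc (1 + Z) ^ 6 ≤ (24 * Real.exp (Z / 24)) ^ 6 := by gcongr
      _ = 24 ^ 6 * Real.exp (Z / 4) := by
          rw [mul_pow, ← Real.exp_nat_mul]; congr 2; push_cast; ring
  have h5 : (1 + Z) ^ 2 * Real.exp (-(Z / 4)) ≤ 24 ^ 6 * ((1 + Z) ^ 4)⁻¹ := by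
    rw [Real.exp_neg, ← div_eq_mul_inv, ← div_eq_mul_inv, div_le_div_iff₀ (Real.exp_pos _)
      (by positivity)]
    calc (1 + Z) ^ 2 * (1 + Z) ^ 4 = (1 + Z) ^ 6 := by ring
      _ ≤ _ := h3
  calc (1 + n) ^ 2 * Real.exp (-(Z / 4)) ≤ ((1 + τ ^ 2) * (1 + Z)) ^ 2 * Real.exp (-(Z / 4)) := by
        gcongr
    _ = (1 + τ ^ 2) ^ 2 * ((1 + Z) ^ 2 * Real.exp (-(Z / 4))) := by ring
    _ ≤ (1 + τ ^ 2) ^ 2 * (24 ^ 6 * ((1 + Z) ^ 4)⁻¹) := by gcongr
    _ = _ := by ring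

/-- effective length of the dual sum -/
def Keff (A B τ : ℝ) (e d : Eis) : ℝ :=
  27 * (1 + τ ^ 2) * nm d * B ^ 2 / (4 * Real.pi ^ 2 * A * (nm e) ^ 2)

/-- the large sieve factor -/
def Phi (K N ν : ℝ) : ℝ :=
  (1 + Real.log (1 + K)) * (K ^ ((1:ℝ)/3) * N ^ ((2:ℝ)/3) * ν ^ ((1:ℝ)/3) + K + K ^ 2)

lemma Phi_nonneg {K N ν : ℝ} (hK : 0 ≤ K) (hN : 0 ≤ N) (hν : 0 ≤ ν) : 0 ≤ Phi K N ν := by
  unfold Phi
  have := Real.log_nonneg (show 1 ≤ 1 + K by linarith)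
  positivity

/-- The large sieve bound for one triple `(e, d, g)`. -/
lemma sum_freq {C : ℝ} (hC : 0 < C) (hL : LSH C) {S D : Finset Eis} {A B τ : ℝ} (hA : 0 < A)
    (hB : 0 < B)
    (hS : ∀ b ∈ S, IsPrim b ∧ Squarefree b ∧ B ≤ nm b ∧ (nm b : ℝ) ≤ 2 * B)
    (hD : ∀ d ∈ D, IsPrim d) (β : Eis → ℂ) {e d g : Eis} (he : IsPrim e) (hd : d ≠ 0)
    (hg : IsPrim g) {H : Finset Eis} (hH : ∀ h ∈ H, h ≠ 0) :
    ∑ h ∈ H, ‖∑ m1 ∈ Kg S D e g, ∑ m2 ∈ Kg S D e g, (starRingEnd ℂ) (xg β e d g h m1) *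
        xg β e d g h m2 * cexp (-((4 * Real.pi ^ 2 * nm h * (nm e) ^ 2 / (27 * nm d * B ^ 2) /
          ((1 - τ * I) / A)) / (yg B e g m1 * yg B e g m2)))‖ ≤
      4 * 24 ^ 6 * C * (1 + τ ^ 2) ^ 2 *
        Phi (Keff A B τ e d) (max 1 (B / (nm e * nm g))) (1 + (Kg S D e g).card) *
          ∑ m ∈ Kg S D e g, ‖β (e * (g * m))‖ ^ 2 / nm m := by
  have he0 : (0 : ℝ) < nm e := by exact_mod_cast nm_pos.mpr he.ne_zero
  have hg0 : (0 : ℝ) < nm g := by exact_mod_cast nm_pos.mpr hg.ne_zero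
  have hd0 : (0 : ℝ) < nm d := by exact_mod_cast nm_pos.mpr hd
  have hq : (0 : ℝ) < 1 + τ ^ 2 := by positivity
  set K := Kg S D e g with hKdef
  have hmem : ∀ m ∈ K, IsPrim m ∧ Squarefree m ∧ 1 ≤ yg B e g m ∧ yg B e g m ≤ 2 := by
    intro m hm
    rw [hKdef, Kg, Finset.mem_filter] at hm
    obtain ⟨-, h2, h3, h4⟩ := hS _ hm.2
    refine ⟨hD _ hm.1, ?_, ?_, ?_⟩
    · exact (squarefree_mul_iff.mp (squarefree_mul_iff.mp h2).2.2).2.2
    · unfold yg
      rw [le_div_iff₀ hB, one_mul]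
      rw [nm_mul, nm_mul] at h3
      push_cast at h3
      linarith
    · unfold yg
      rw [div_le_iff₀ hB]
      rw [nm_mul, nm_mul] at h4
      push_cast at h4
      linarith
  have hy : ∀ m ∈ K, 1 ≤ yg B e g m ∧ yg B e g m ≤ 2 := fun m hm => (hmem m hm).2.2
  set K0 := Keff A B τ e d with hK0
  have hK0pos : 0 < K0 := by
    rw [hK0]; unfold Keff; positivity
  -- the parameter
  have hζ : ∀ h : Eis, (4 * Real.pi ^ 2 * nm h * (nm e) ^ 2 / (27 * nm d * B ^ 2) /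
      ((1 - τ * I) / A) : ℂ) = ((nm h / K0 : ℝ) : ℂ) * (1 + τ * I) := by
    intro h
    have h1 : (1 - τ * I : ℂ) ≠ 0 := by
      intro h0
      have := congrArg Complex.re h0
      simp at this
    have h2 : (1 + τ * I) * (1 - τ * I) = ((1 + τ ^ 2 : ℝ) : ℂ) := by
      push_cast
      ring_nf
      rw [Complex.I_sq]; ring
    have h3 : ((1 + τ ^ 2 : ℝ) : ℂ) ≠ 0 := by exact_mod_cast hq.ne'
    have a4 : (nm e : ℂ) ≠ 0 := by exact_mod_cast he0.ne'
    have a5 : (nm d : ℂ) ≠ 0 := by exact_mod_cast hd0.ne'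
    have a6 : (B : ℂ) ≠ 0 := by exact_mod_cast hB.ne'
    have a7 : (A : ℂ) ≠ 0 := by exact_mod_cast hA.ne'
    have a8 : (Real.pi : ℂ) ≠ 0 := by exact_mod_cast Real.pi_ne_zero
    rw [hK0]; unfold Keff
    rw [div_div_eq_mul_div, div_eq_iff h1, mul_assoc (_ : ℂ) (1 + τ * I) (1 - τ * I), h2]
    push_cast at h3 ⊢
    field_simp
  have hζre : ∀ h : Eis, (((nm h / K0 : ℝ) : ℂ) * (1 + τ * I)).re = nm h / K0 := by
    intro h
    rw [re_ofReal_mul]; simp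
  have hζn : ∀ h : Eis, ‖((nm h / K0 : ℝ) : ℂ) * (1 + τ * I)‖ ≤ nm h / K0 * (1 + τ ^ 2) := by
    intro h
    rw [norm_mul, Complex.norm_real, Real.norm_of_nonneg (by positivity)]
    apply mul_le_mul_of_nonneg_left _ (by positivity)
    have h1 : ‖(1 + τ * I : ℂ)‖ ^ 2 = 1 + τ ^ 2 := by
      rw [← Complex.normSq_eq_norm_sq, Complex.normSq_apply]; simp; ring
    have h2 : (1 : ℝ) ≤ 1 + τ ^ 2 := by nlinarith [sq_nonneg τ]
    nlinarith [norm_nonneg (1 + τ * I : ℂ)]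
  -- per frequency
  have hper : ∀ h ∈ H, ‖∑ m1 ∈ K, ∑ m2 ∈ K, (starRingEnd ℂ) (xg β e d g h m1) *
        xg β e d g h m2 * cexp (-((4 * Real.pi ^ 2 * nm h * (nm e) ^ 2 / (27 * nm d * B ^ 2) /
          ((1 - τ * I) / A)) / (yg B e g m1 * yg B e g m2)))‖ ≤
      2 * (24 ^ 6 * (1 + τ ^ 2) ^ 2) * (((1 + nm h / K0) ^ 4)⁻¹ *
        ‖Xt K (yg B e g) (xg β e d g h) 2‖ ^ 2 + ∫ t in (1:ℝ)..2, ((1 + nm h / K0) ^ 4)⁻¹ *
          ‖Xt K (yg B e g) (xg β e d g h) t‖ ^ 2) := by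
    intro h hh
    rw [hζ h]
    have h1 := sep (ζ := ((nm h / K0 : ℝ) : ℂ) * (1 + τ * I)) K hy (xg β e d g h)
      (by rw [hζre]; positivity)
    refine h1.trans ?_
    have h2 := weight_le (Z := nm h / K0) (by positivity) τ (norm_nonneg _) (hζn h)
    rw [hζre, intervalIntegral.integral_const_mul]
    have h3 : 0 ≤ ‖Xt K (yg B e g) (xg β e d g h) 2‖ ^ 2 +
        ∫ t in (1:ℝ)..2, ‖Xt K (yg B e g) (xg β e d g h) t‖ ^ 2 := by
      have : 0 ≤ ∫ t in (1:ℝ)..2, ‖Xt K (yg B e g) (xg β e d g h) t‖ ^ 2 :=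
        intervalIntegral.integral_nonneg (by norm_num) fun t _ => by positivity
      positivity
    calc _ ≤ 2 * (24 ^ 6 * (1 + τ ^ 2) ^ 2 * ((1 + nm h / K0) ^ 4)⁻¹) *
        (‖Xt K (yg B e g) (xg β e d g h) 2‖ ^ 2 +
        ∫ t in (1:ℝ)..2, ‖Xt K (yg B e g) (xg β e d g h) t‖ ^ 2) := by
          apply mul_le_mul_of_nonneg_right _ h3
          exact mul_le_mul_of_nonneg_left h2 (by norm_num)
      _ = _ := by ring
  -- large sieve for each `t`
  have hPhi : 0 ≤ Phi K0 (max 1 (B / (nm e * nm g))) (1 + (K.card : ℝ)) :=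
    Phi_nonneg hK0pos.le (by positivity) (by positivity)
  set R := C * Phi K0 (max 1 (B / (nm e * nm g))) (1 + (K.card : ℝ)) *
    ∑ m ∈ K, ‖β (e * (g * m))‖ ^ 2 / nm m with hR
  have hls : ∀ t : ℝ, ∑ h ∈ H, ((1 + nm h / K0) ^ 4)⁻¹ *
      ‖Xt K (yg B e g) (xg β e d g h) t‖ ^ 2 ≤ R := by
    intro t
    set c : Eis → ℂ := fun m => if yg B e g m ≤ t then β (e * (g * m)) *
      (starRingEnd ℂ) (sy (d * e) m) * (((Real.sqrt (nm m))⁻¹ : ℝ) : ℂ) else 0 with hc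
    have e1 : ∀ h : Eis, ‖Xt K (yg B e g) (xg β e d g h) t‖ = ‖∑ m ∈ K, c m * sy h m‖ := by
      intro h
      rw [← RCLike.norm_conj]
      congr 1
      unfold Xt
      rw [map_sum]
      refine Finset.sum_congr rfl fun m _ => ?_
      rw [hc]
      beta_reduce
      split_ifs
      · unfold xg psi
        simp only [map_mul, Complex.conj_conj, Complex.conj_ofReal]
        ring
      · rw [map_zero, zero_mul]
    simp_rw [e1]
    have hlog : 0 ≤ Real.log (1 + K0) := Real.log_nonneg (by linarith)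
    refine (hL K0 (max 1 (B / (nm e * nm g))) (1 + K.card) K H c hK0pos (le_max_left _ _)
      (by have : (0 : ℝ) ≤ K.card := Nat.cast_nonneg _
          linarith) ?_ (by linarith) hH).trans ?_
    · intro m hm
      obtain ⟨h1, h2, h3, h4⟩ := hmem m hm
      refine ⟨h1, h2, ?_⟩
      unfold yg at h4
      rw [div_le_iff₀ hB] at h4
      have : (nm m : ℝ) ≤ 2 * (B / (nm e * nm g)) := by
        rw [mul_div_assoc', le_div_iff₀ (by positivity)]
        linarith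
      exact this.trans (by gcongr; exact le_max_right _ _)
    · rw [hR, mul_assoc C (1 + Real.log (1 + K0))]
      change C * Phi K0 (max 1 (B / (nm e * nm g))) (1 + (K.card : ℝ)) * _ ≤ _
      apply mul_le_mul_of_nonneg_left _ (mul_nonneg hC.le hPhi)
      refine Finset.sum_le_sum fun m hm => ?_
      obtain ⟨h1, -, -, -⟩ := hmem m hm
      have hm0 : (0 : ℝ) < nm m := by exact_mod_cast nm_pos.mpr h1.ne_zero
      rw [hc]
      beta_reduce
      split_ifs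
      · rw [norm_mul, norm_mul, RCLike.norm_conj, mul_pow, mul_pow, Complex.norm_real,
          Real.norm_of_nonneg (by positivity), inv_pow, Real.sq_sqrt hm0.le, ← div_eq_mul_inv]
        apply div_le_div_of_nonneg_right _ hm0.le
        have h5 := norm_sy_le (x := d * e) h1
        have h6 := norm_nonneg (sy (d * e) m)
        have h7 : ‖sy (d * e) m‖ ^ 2 ≤ 1 := by nlinarith
        exact mul_le_of_le_one_right (by positivity) h7
      · rw [norm_zero, zero_pow two_ne_zero]; positivity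
  have hR0 : 0 ≤ R := by
    rw [hR]
    exact mul_nonneg (mul_nonneg hC.le hPhi) (Finset.sum_nonneg fun m _ => by positivity)
  refine (Finset.sum_le_sum hper).trans ?_
  rw [← Finset.mul_sum, Finset.sum_add_distrib, ← intervalIntegral.integral_finsetSum
    (fun h _ => (sq_Xt_integrable K (yg B e g) (xg β e d g h) 1 2).const_mul _)]
  have h4 : ∫ t in (1:ℝ)..2, ∑ h ∈ H, ((1 + nm h / K0) ^ 4)⁻¹ *
      ‖Xt K (yg B e g) (xg β e d g h) t‖ ^ 2 ≤ R := by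
    have h5 : ∫ t in (1:ℝ)..2, ∑ h ∈ H, ((1 + nm h / K0) ^ 4)⁻¹ *
      ‖Xt K (yg B e g) (xg β e d g h) t‖ ^ 2 ≤ ∫ t in (1:ℝ)..2, R := by
      apply intervalIntegral.integral_mono_on (by norm_num) _ (by simp) (fun t _ => hls t)
      have h6 := IntervalIntegrable.sum H (f := fun h t => ((1 + nm h / K0) ^ 4)⁻¹ *
        ‖Xt K (yg B e g) (xg β e d g h) t‖ ^ 2) (μ := volume) (a := 1) (b := 2)
        (fun h _ => (sq_Xt_integrable K (yg B e g) (xg β e d g h) 1 2).const_mul _)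
      have h7 : (fun t => ∑ h ∈ H, ((1 + nm h / K0) ^ 4)⁻¹ *
          ‖Xt K (yg B e g) (xg β e d g h) t‖ ^ 2) = ∑ h ∈ H, (fun t => ((1 + nm h / K0) ^ 4)⁻¹ *
          ‖Xt K (yg B e g) (xg β e d g h) t‖ ^ 2) := by
        funext t; rw [Finset.sum_apply]
      rw [h7]; exact h6
    refine h5.trans (le_of_eq ?_)
    rw [intervalIntegral.integral_const]
    norm_num
  calc 2 * (24 ^ 6 * (1 + τ ^ 2) ^ 2) * _ ≤ 2 * (24 ^ 6 * (1 + τ ^ 2) ^ 2) * (R + R) := by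
        apply mul_le_mul_of_nonneg_left _ (by positivity)
        exact add_le_add (hls 2) h4
    _ = _ := by
        rw [hR]; ring

lemma norm_s {A : ℝ} (hA : 0 < A) (τ : ℝ) : ‖((1 - τ * I) / A : ℂ)‖ = Real.sqrt (1 + τ ^ 2) / A := by
  rw [norm_div, Complex.norm_real, Real.norm_of_nonneg hA.le]
  congr 1
  have h1 : ‖(1 - τ * I : ℂ)‖ ^ 2 = 1 + τ ^ 2 := by
    rw [← Complex.normSq_eq_norm_sq, Complex.normSq_apply]; simp; ring
  rw [← h1, Real.sqrt_sq (norm_nonneg _)]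

lemma re_s {A : ℝ} (hA : 0 < A) (τ : ℝ) : 0 < ((1 - τ * I) / A : ℂ).re := by
  rw [Complex.div_ofReal_re]
  simp [hA]

lemma const_le {A : ℝ} (hA : 0 < A) (τ : ℝ) :
    2 * Real.pi / (9 * Real.sqrt 3 * ‖((1 - τ * I) / A : ℂ)‖) ≤ A / Real.sqrt (1 + τ ^ 2) := by
  rw [norm_s hA]
  have h1 : 0 < Real.sqrt (1 + τ ^ 2) := Real.sqrt_pos.mpr (by positivity)
  have h2 : 1 ≤ Real.sqrt 3 := by
    rw [Real.one_le_sqrt]; norm_num
  have h3 : 2 * Real.pi / (9 * Real.sqrt 3 * (Real.sqrt (1 + τ ^ 2) / A)) =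
      (2 * Real.pi / (9 * Real.sqrt 3)) * (A / Real.sqrt (1 + τ ^ 2)) := by
    field_simp
  rw [h3]
  apply mul_le_of_le_one_left (by positivity)
  rw [div_le_one (by positivity)]
  have := Real.pi_le_four
  linarith

/-- the sum over the triples `(e, d, g)` -/
def Sig (S D : Finset Eis) (β : Eis → ℂ) (A B τ : ℝ) : ℝ :=
  ∑ e ∈ D, ∑ d ∈ pdiv e, ∑ g ∈ D, (nm d : ℝ)⁻¹ * (nm g : ℝ)⁻¹ *
    (Phi (Keff A B τ e d) (max 1 (B / (nm e * nm g))) (1 + (Kg S D e g).card) *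
      ∑ m ∈ Kg S D e g, ‖β (e * (g * m))‖ ^ 2 / nm m)

/-- **Master inequality.** -/
theorem master {C : ℝ} (hC : 0 < C) (hL : LSH C) {S D : Finset Eis} {A B τ : ℝ} (hA : 0 < A)
    (hB : 0 < B)
    (hS : ∀ b ∈ S, IsPrim b ∧ Squarefree b ∧ B ≤ nm b ∧ (nm b : ℝ) ≤ 2 * B)
    (hD : ∀ d ∈ D, IsPrim d) (hSD : ∀ b ∈ S, ∀ d : Eis, IsPrim d → d ∣ b → d ∈ D)
    (β : Eis → ℂ) :
    ‖PS ((1 - τ * I) / A) S β‖ ≤ A / Real.sqrt (1 + τ ^ 2) * (∑ b ∈ S, ‖β b‖ ^ 2 +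
      4 * 24 ^ 6 * C * (1 + τ ^ 2) ^ 2 * Sig S D β A B τ) := by
  have hs := re_s hA τ
  have hs0 : ((1 - τ * I) / A : ℂ) ≠ 0 := by
    intro h; rw [h] at hs; simp at hs
  have hS' : ∀ b ∈ S, IsPrim b ∧ Squarefree b := fun b hb => ⟨(hS b hb).1, (hS b hb).2.1⟩
  have h0 := norm_PS_le hs hS' hD hSD β
  have hin : ∑ e ∈ D, ∑ d ∈ pdiv e, (nm d : ℝ)⁻¹ *
        ‖∑' h : Eis, if h = 0 then 0 else ph h * Qe ((1 - τ * I) / A) S D β e d h‖ ≤
      4 * 24 ^ 6 * C * (1 + τ ^ 2) ^ 2 * Sig S D β A B τ := by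
    unfold Sig
    rw [Finset.mul_sum]
    refine Finset.sum_le_sum fun e he => ?_
    rw [Finset.mul_sum]
    refine Finset.sum_le_sum fun d hd => ?_
    have hep := hD _ he
    have hdd := (mem_pdiv hep.ne_zero).mp hd
    set R := ∑ g ∈ D, (nm g : ℝ)⁻¹ * (4 * 24 ^ 6 * C * (1 + τ ^ 2) ^ 2 *
        Phi (Keff A B τ e d) (max 1 (B / (nm e * nm g))) (1 + (Kg S D e g).card) *
          ∑ m ∈ Kg S D e g, ‖β (e * (g * m))‖ ^ 2 / nm m) with hR
    have hKe : 0 ≤ Keff A B τ e d := by unfold Keff; positivity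
    have hR0 : 0 ≤ R := by
      rw [hR]
      refine Finset.sum_nonneg fun g _ => mul_nonneg (by positivity) (mul_nonneg (mul_nonneg
        (by positivity) (Phi_nonneg hKe (by positivity) (by positivity)))
          (Finset.sum_nonneg fun m _ => by positivity))
    have hfin : ∀ H : Finset Eis, ∑ h ∈ H, ‖(if h = 0 then 0 else
        ph h * Qe ((1 - τ * I) / A) S D β e d h : ℂ)‖ ≤ R := by
      intro H
      have e1 : ∑ h ∈ H, ‖(if h = 0 then 0 else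
          ph h * Qe ((1 - τ * I) / A) S D β e d h : ℂ)‖ =
          ∑ h ∈ H.filter (fun h => h ≠ 0), ‖Qe ((1 - τ * I) / A) S D β e d h‖ := by
        rw [Finset.sum_filter]
        refine Finset.sum_congr rfl fun h _ => ?_
        by_cases hh : h = 0
        · simp [hh]
        · rw [if_neg hh, if_pos hh, norm_mul, norm_ph, one_mul]
      rw [e1]
      refine (Finset.sum_le_sum fun h _ => norm_Qe_le hs0 hS' hD hSD β hB hep hdd.2 h).trans ?_
      rw [Finset.sum_comm, hR]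
      refine Finset.sum_le_sum fun g hg => ?_
      rw [← Finset.mul_sum]
      apply mul_le_mul_of_nonneg_left _ (by positivity)
      exact sum_freq hC hL hA hB hS hD β hep hdd.1.ne_zero (hD _ hg)
        (fun h hh => (Finset.mem_filter.mp hh).2)
    have hsum : Summable (fun h : Eis => ‖(if h = 0 then 0 else
        ph h * Qe ((1 - τ * I) / A) S D β e d h : ℂ)‖) :=
      summable_of_sum_le (fun _ => norm_nonneg _) hfin
    have h1 : ‖∑' h : Eis, (if h = 0 then 0 else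
        ph h * Qe ((1 - τ * I) / A) S D β e d h : ℂ)‖ ≤ R :=
      (norm_tsum_le_tsum_norm hsum).trans (Summable.tsum_le_of_sum_le hsum hfin)
    calc (nm d : ℝ)⁻¹ * _ ≤ (nm d : ℝ)⁻¹ * R := by gcongr
      _ = _ := by
        rw [hR, Finset.mul_sum, Finset.mul_sum]
        exact Finset.sum_congr rfl fun g _ => by ring
  refine h0.trans ?_
  have h2 : 0 ≤ ∑ b ∈ S, ‖β b‖ ^ 2 +
      ∑ e ∈ D, ∑ d ∈ pdiv e, (nm d : ℝ)⁻¹ *
        ‖∑' h : Eis, if h = 0 then 0 else ph h * Qe ((1 - τ * I) / A) S D β e d h‖ := by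
    positivity
  refine (mul_le_mul_of_nonneg_right (const_le hA τ) h2).trans ?_
  apply mul_le_mul_of_nonneg_left _ (by positivity)
  linarith

end Crest.Agent.R012.T8
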