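import Crest.Agent.R012.T8Master_810
import Crest.Agent.R012.Div_277

/-!
# Row 12 (T8a): upper bound for arbitrary coefficients, Gaussian (real) weight

`T8a`: `∑_{a primary} exp(-N(a)/A) |∑_{b ∈ S} β_b G(b) conj (a/b)|² ≤
 C (A ∑|β|² + (1 + log B)(A^(2/3) B^(2/3) + B + B³/A) ∑ τ(b)³ |β_b|²)`.
-/

set_option autoImplicit false
set_option linter.unusedSimpArgs false
set_option linter.unusedVariables false

noncomputable section

open Finset Complex MeasureTheory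

namespace Crest.Agent.R012.T8

open Eis Tau671
open Gauss880 (syG)
open Mob705 (mu pdiv mem_pdiv)
open Div277 (tau)

lemma card_le_of_nm_le {T : Finset Eis} {Y : ℝ} (hY : 0 ≤ Y)
    (hT : ∀ m ∈ T, IsPrim m ∧ (nm m : ℝ) ≤ Y) : (T.card : ℝ) ≤ 100 * Y := by
  have h1 : T ⊆ primBall ⌊Y⌋₊ := by
    intro m hm
    rw [mem_primBall]
    exact ⟨Nat.le_floor (hT m hm).2, (hT m hm).1⟩
  have h2 : (T.card : ℝ) ≤ (primBall ⌊Y⌋₊).card := by exact_mod_cast Finset.card_le_card h1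
  refine h2.trans ((Lat277.card_primBall_le _).trans ?_)
  have := Nat.floor_le hY
  linarith

lemma Phi_mono {K K' N N' ν ν' : ℝ} (hK : 0 ≤ K) (hN : 0 ≤ N) (hν : 0 ≤ ν) (h1 : K ≤ K')
    (h2 : N ≤ N') (h3 : ν ≤ ν') : Phi K N ν ≤ Phi K' N' ν' := by
  unfold Phi
  have hl : Real.log (1 + K) ≤ Real.log (1 + K') := Real.log_le_log (by linarith) (by linarith)
  have hl0 : 0 ≤ Real.log (1 + K) := Real.log_nonneg (by linarith)
  have hK' : 0 ≤ K' := hK.trans h1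
  have hN' : 0 ≤ N' := hN.trans h2
  have hν' : 0 ≤ ν' := hν.trans h3
  have h4 : 0 ≤ 1 + Real.log (1 + K') := by linarith
  apply mul_le_mul (by linarith) _ (by positivity) h4
  gcongr

open Classical in
/-- Counting the factorizations. -/
lemma sum_fact_le {S D : Finset Eis} (hS : ∀ b ∈ S, IsPrim b) (hD : ∀ d ∈ D, IsPrim d)
    (f : Eis → ℝ) (hf : ∀ b, 0 ≤ f b) :
    ∑ e ∈ D, ∑ d ∈ pdiv e, ∑ g ∈ D, ∑ m ∈ Kg S D e g, f (e * (g * m)) ≤
      ∑ b ∈ S, (tau b : ℝ) ^ 3 * f b := by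
  -- rewrite as a sum over quadruples
  have e1 : ∑ e ∈ D, ∑ d ∈ pdiv e, ∑ g ∈ D, ∑ m ∈ Kg S D e g, f (e * (g * m)) =
      ∑ q ∈ D.sigma (fun e => (pdiv e) ×ˢ (D.sigma (fun g => Kg S D e g))),
        f (q.1 * (q.2.2.1 * q.2.2.2)) := by
    rw [Finset.sum_sigma]
    refine Finset.sum_congr rfl fun e _ => ?_
    rw [Finset.sum_product]
    refine Finset.sum_congr rfl fun d _ => ?_
    rw [Finset.sum_sigma]
  have e2 : ∑ b ∈ S, (tau b : ℝ) ^ 3 * f b =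
      ∑ b ∈ S, ∑ t ∈ (pdiv b) ×ˢ (pdiv b) ×ˢ (pdiv b), f b := by
    refine Finset.sum_congr rfl fun b _ => ?_
    rw [Finset.sum_const, nsmul_eq_mul, Finset.card_product, Finset.card_product]
    have : ((pdiv b).card : ℝ) = tau b := rfl
    push_cast
    rw [this]; ring
  rw [e1, e2, Finset.sum_sigma' S (fun b => (pdiv b) ×ˢ (pdiv b) ×ˢ (pdiv b)) (fun b _ => f b)]
  set Q := D.sigma (fun e => (pdiv e) ×ˢ (D.sigma (fun g => Kg S D e g))) with hQ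
  set φ : (Σ _ : Eis, Eis × (Σ _ : Eis, Eis)) → (Σ _ : Eis, Eis × Eis × Eis) :=
    fun q => ⟨q.1 * (q.2.2.1 * q.2.2.2), (q.1, q.2.1, q.2.2.1)⟩ with hφ
  have hmap : ∀ q ∈ Q, φ q ∈ S.sigma (fun b => (pdiv b) ×ˢ (pdiv b) ×ˢ (pdiv b)) := by
    rintro ⟨e, d, g, m⟩ hq
    rw [hQ] at hq
    simp only [Finset.mem_sigma, Finset.mem_product] at hq
    obtain ⟨he, hd, hg, hm⟩ := hq
    rw [Kg, Finset.mem_filter] at hm
    have hb := (hS _ hm.2).ne_zero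
    have hep := hD _ he
    have hdd := (mem_pdiv hep.ne_zero).mp hd
    rw [hφ]
    simp only [Finset.mem_sigma, Finset.mem_product]
    refine ⟨hm.2, (mem_pdiv hb).mpr ⟨hep, dvd_mul_right _ _⟩,
      (mem_pdiv hb).mpr ⟨hdd.1, hdd.2.trans (dvd_mul_right _ _)⟩,
      (mem_pdiv hb).mpr ⟨hD _ hg, (dvd_mul_right _ _).trans (dvd_mul_left _ _)⟩⟩
  have hinj : Set.InjOn φ (Q : Set _) := by
    rintro ⟨e, d, g, m⟩ hq ⟨e', d', g', m'⟩ hq' h
    rw [hφ] at h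
    simp only [Sigma.mk.injEq, heq_eq_eq, Prod.mk.injEq] at h
    obtain ⟨h1, rfl, rfl, rfl⟩ := h
    rw [Finset.mem_coe, hQ] at hq
    simp only [Finset.mem_sigma, Finset.mem_product] at hq
    have he0 := (hD _ hq.1).ne_zero
    have hg0 := (hD _ hq.2.2.1).ne_zero
    have := mul_left_cancel₀ hg0 (mul_left_cancel₀ he0 h1)
    rw [this]
  calc ∑ q ∈ Q, f (q.1 * (q.2.2.1 * q.2.2.2)) = ∑ t ∈ Q.image φ, f t.1 := by
        rw [Finset.sum_image hinj]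
    _ ≤ _ := by
        apply Finset.sum_le_sum_of_subset_of_nonneg
        · intro t ht
          obtain ⟨q, hq, rfl⟩ := Finset.mem_image.mp ht
          exact hmap q hq
        · intro t _ _
          exact hf _

lemma log_bound {B K : ℝ} (hB : 1 ≤ B) (hK0 : 0 ≤ K) (hK : K ≤ B ^ 2) :
    1 + Real.log (1 + K) ≤ 2 * (1 + Real.log B) := by
  have h1 : Real.log (1 + K) ≤ Real.log (2 * B ^ 2) := by
    apply Real.log_le_log (by linarith)
    nlinarith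
  have h2 : Real.log (2 * B ^ 2) = Real.log 2 + 2 * Real.log B := by
    rw [Real.log_mul (by norm_num) (by positivity), Real.log_pow]; norm_num
  have h3 : Real.log 2 ≤ 1 := by
    have := Real.log_le_sub_one_of_pos (show (0:ℝ) < 2 by norm_num)
    linarith
  linarith

/-- the target factor -/
def Tgt (A B : ℝ) : ℝ := (1 + Real.log B) * (A ^ ((2:ℝ)/3) * B ^ ((2:ℝ)/3) + B + B ^ 3 / A)

/-- Bound of one term of `Sig` for `τ = 0`. -/
lemma term_le {S D : Finset Eis} {A B : ℝ} (hA : 1 ≤ A) (hB : 1 ≤ B)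
    (hS : ∀ b ∈ S, IsPrim b ∧ Squarefree b ∧ B ≤ nm b ∧ (nm b : ℝ) ≤ 2 * B)
    (hD : ∀ d ∈ D, IsPrim d) (β : Eis → ℂ) {e d g : Eis} (he : IsPrim e) (hd : IsPrim d)
    (hde : d ∣ e) (hg : IsPrim g) :
    A * ((nm d : ℝ)⁻¹ * (nm g : ℝ)⁻¹ *
      (Phi (Keff A B 0 e d) (max 1 (B / (nm e * nm g))) (1 + (Kg S D e g).card) *
        ∑ m ∈ Kg S D e g, ‖β (e * (g * m))‖ ^ 2 / nm m)) ≤
      404 * Tgt A B * ∑ m ∈ Kg S D e g, ‖β (e * (g * m))‖ ^ 2 := by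
  rcases Finset.eq_empty_or_nonempty (Kg S D e g) with hE | ⟨m0, hm0⟩
  · rw [hE]; simp
  have he1 : (1 : ℝ) ≤ nm e := by exact_mod_cast nm_pos.mpr he.ne_zero
  have hg1 : (1 : ℝ) ≤ nm g := by exact_mod_cast nm_pos.mpr hg.ne_zero
  have hd1 : (1 : ℝ) ≤ nm d := by exact_mod_cast nm_pos.mpr hd.ne_zero
  have hde1 : (nm d : ℝ) ≤ nm e := by exact_mod_cast Div277.nm_le_of_dvd he.ne_zero hde
  have hA0 : 0 < A := by linarith
  have hB0 : 0 < B := by linarith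
  have hmem : ∀ m ∈ Kg S D e g, IsPrim m ∧ B ≤ nm e * nm g * nm m ∧
      (nm e * nm g * nm m : ℝ) ≤ 2 * B := by
    intro m hm
    rw [Kg, Finset.mem_filter] at hm
    obtain ⟨-, -, h3, h4⟩ := hS _ hm.2
    rw [nm_mul, nm_mul] at h3 h4
    push_cast at h3 h4
    exact ⟨hD _ hm.1, by linarith, by linarith⟩
  -- `N_g ≥ 1/2`
  set Ng := B / (nm e * nm g) with hNg
  have hNg0 : 0 < Ng := by rw [hNg]; positivity
  have hNg1 : 1 ≤ 2 * Ng := by
    obtain ⟨h1, h2, h3⟩ := hmem m0 hm0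
    have hm1 : (1 : ℝ) ≤ nm m0 := by exact_mod_cast nm_pos.mpr h1.ne_zero
    rw [hNg, mul_div_assoc', le_div_iff₀ (by positivity), one_mul]
    have : (nm e * nm g : ℝ) ≤ nm e * nm g * nm m0 := le_mul_of_one_le_right (by positivity) hm1
    linarith
  have hcard : ((Kg S D e g).card : ℝ) ≤ 200 * Ng := by
    have h1 := card_le_of_nm_le (T := Kg S D e g) (Y := 2 * Ng) (by positivity) (fun m hm => by
      obtain ⟨h1, h2, h3⟩ := hmem m hm
      refine ⟨h1, ?_⟩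
      rw [hNg, mul_div_assoc', le_div_iff₀ (by positivity)]
      linarith)
    linarith
  -- the effective length
  set K := Keff A B 0 e d with hK
  set K1 := nm d * B ^ 2 / (A * (nm e) ^ 2) with hK1
  have hK0 : 0 ≤ K := by rw [hK]; unfold Keff; positivity
  have hKK1 : K ≤ K1 := by
    rw [hK, hK1]
    unfold Keff
    have h1 : 27 * (1 + (0:ℝ) ^ 2) * nm d * B ^ 2 / (4 * Real.pi ^ 2 * A * (nm e) ^ 2) =
        (27 / (4 * Real.pi ^ 2)) * (nm d * B ^ 2 / (A * (nm e) ^ 2)) := by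
      have := Real.pi_pos
      field_simp
      ring
    rw [h1]
    apply mul_le_of_le_one_left (by positivity)
    rw [div_le_one (by positivity)]
    nlinarith [Real.pi_gt_three]
  have hK10 : 0 < K1 := by rw [hK1]; positivity
  have hK1B : K1 ≤ B ^ 2 := by
    rw [hK1, div_le_iff₀ (by positivity)]
    have h1 : (nm d : ℝ) ≤ A * (nm e) ^ 2 := by nlinarith
    nlinarith [mul_nonneg (sq_nonneg B) (sub_nonneg.mpr h1)]
  have hPhi : Phi K (max 1 Ng) (1 + (Kg S D e g).card) ≤ Phi K1 (202 * Ng) (202 * Ng) := by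
    apply Phi_mono hK0 (by positivity) (by positivity) hKK1
    · exact max_le (by linarith) (by linarith)
    · linarith
  have hN13 : (202 * Ng) ^ ((2:ℝ)/3) * (202 * Ng) ^ ((1:ℝ)/3) = 202 * Ng := by
    rw [← Real.rpow_add (by positivity)]; norm_num
  have hPhi2 : Phi K1 (202 * Ng) (202 * Ng) ≤ 2 * (1 + Real.log B) *
      (202 * (K1 ^ ((1:ℝ)/3) * Ng) + K1 + K1 ^ 2) := by
    unfold Phi
    rw [mul_assoc (K1 ^ ((1:ℝ)/3)), hN13]
    have h1 := log_bound hB hK10.le hK1B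
    have h2 : K1 ^ ((1:ℝ)/3) * (202 * Ng) + K1 + K1 ^ 2 =
      202 * (K1 ^ ((1:ℝ)/3) * Ng) + K1 + K1 ^ 2 := by ring
    rw [h2]
    apply mul_le_mul_of_nonneg_right h1 (by positivity)
  -- the sum over `m`
  have hsum : (nm g : ℝ)⁻¹ * ∑ m ∈ Kg S D e g, ‖β (e * (g * m))‖ ^ 2 / nm m ≤
      nm e / B * ∑ m ∈ Kg S D e g, ‖β (e * (g * m))‖ ^ 2 := by
    rw [Finset.mul_sum, Finset.mul_sum]
    refine Finset.sum_le_sum fun m hm => ?_
    obtain ⟨h1, h2, h3⟩ := hmem m hm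
    have hm1 : (1 : ℝ) ≤ nm m := by exact_mod_cast nm_pos.mpr h1.ne_zero
    have h4 : (nm g : ℝ)⁻¹ * (‖β (e * (g * m))‖ ^ 2 / nm m) =
        (nm g * nm m : ℝ)⁻¹ * ‖β (e * (g * m))‖ ^ 2 := by
      field_simp
    rw [h4]
    apply mul_le_mul_of_nonneg_right _ (by positivity)
    rw [inv_le_comm₀ (by positivity) (by positivity), inv_div, div_le_iff₀ (by positivity)]
    linarith
  set W0 := ∑ m ∈ Kg S D e g, ‖β (e * (g * m))‖ ^ 2 with hW
  have hW0 : 0 ≤ W0 := Finset.sum_nonneg fun m _ => by positivity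
  have hlog : 0 ≤ 1 + Real.log B := by have := Real.log_nonneg hB; linarith
  -- the three terms
  have t1 : A * (nm d : ℝ)⁻¹ * (nm e / B) * (K1 ^ ((1:ℝ)/3) * Ng) ≤
      A ^ ((2:ℝ)/3) * B ^ ((2:ℝ)/3) := by
    have h1 : K1 ≤ nm d * (B ^ 2 / A) := by
      rw [hK1, mul_div_assoc]
      apply mul_le_mul_of_nonneg_left _ (by positivity)
      apply div_le_div_of_nonneg_left (by positivity) hA0
      exact le_mul_of_one_le_right hA0.le (one_le_pow₀ he1)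
    have h2 : K1 ^ ((1:ℝ)/3) ≤ nm d * (B ^ ((2:ℝ)/3) * A ^ (-(1:ℝ)/3)) := by
      calc K1 ^ ((1:ℝ)/3) ≤ (nm d * (B ^ 2 / A)) ^ ((1:ℝ)/3) := by gcongr
        _ = (nm d : ℝ) ^ ((1:ℝ)/3) * (B ^ ((2:ℝ)/3) * A ^ (-(1:ℝ)/3)) := by
            rw [Real.mul_rpow (by positivity) (by positivity), Real.div_rpow (by positivity)
              hA0.le, ← Real.rpow_natCast B 2, ← Real.rpow_mul hB0.le, neg_div,
              Real.rpow_neg hA0.le]
            norm_num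
            left
            rw [div_eq_mul_inv]
        _ ≤ nm d * (B ^ ((2:ℝ)/3) * A ^ (-(1:ℝ)/3)) := by
            apply mul_le_mul_of_nonneg_right _ (by positivity)
            calc (nm d : ℝ) ^ ((1:ℝ)/3) ≤ (nm d : ℝ) ^ (1:ℝ) :=
                  Real.rpow_le_rpow_of_exponent_le hd1 (by norm_num)
              _ = nm d := Real.rpow_one _
    have h3 : Ng ≤ B / nm e := by
      rw [hNg]
      apply div_le_div_of_nonneg_left (by positivity) (by positivity)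
      exact le_mul_of_one_le_right (by positivity) hg1
    calc A * (nm d : ℝ)⁻¹ * (nm e / B) * (K1 ^ ((1:ℝ)/3) * Ng) ≤
        A * (nm d : ℝ)⁻¹ * (nm e / B) * ((nm d * (B ^ ((2:ℝ)/3) * A ^ (-(1:ℝ)/3))) *
          (B / nm e)) := by gcongr
      _ = (A * A ^ (-(1:ℝ)/3)) * B ^ ((2:ℝ)/3) := by field_simp
      _ = _ := by
          congr 1
          nth_rewrite 1 [← Real.rpow_one A]
          rw [← Real.rpow_add hA0]; norm_num
  have t2 : A * (nm d : ℝ)⁻¹ * (nm e / B) * K1 ≤ B := by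
    have : A * (nm d : ℝ)⁻¹ * (nm e / B) * K1 = B / nm e := by
      rw [hK1]; field_simp
    rw [this]
    exact div_le_self hB0.le he1
  have t3 : A * (nm d : ℝ)⁻¹ * (nm e / B) * K1 ^ 2 ≤ B ^ 3 / A := by
    have h1 : A * (nm d : ℝ)⁻¹ * (nm e / B) * K1 ^ 2 = (B ^ 3 / A) * (nm d / (nm e) ^ 3) := by
      rw [hK1]; field_simp
    rw [h1]
    apply mul_le_of_le_one_right (by positivity)
    rw [div_le_one (by positivity)]
    calc (nm d : ℝ) ≤ nm e := hde1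
      _ = (nm e : ℝ) ^ 1 := (pow_one _).symm
      _ ≤ (nm e : ℝ) ^ 3 := pow_le_pow_right₀ he1 (by norm_num)
  calc A * ((nm d : ℝ)⁻¹ * (nm g : ℝ)⁻¹ *
      (Phi K (max 1 Ng) (1 + (Kg S D e g).card) *
        ∑ m ∈ Kg S D e g, ‖β (e * (g * m))‖ ^ 2 / nm m)) =
      A * (nm d : ℝ)⁻¹ * Phi K (max 1 Ng) (1 + (Kg S D e g).card) * ((nm g : ℝ)⁻¹ *
        ∑ m ∈ Kg S D e g, ‖β (e * (g * m))‖ ^ 2 / nm m) := by ring
    _ ≤ A * (nm d : ℝ)⁻¹ * (2 * (1 + Real.log B) *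
      (202 * (K1 ^ ((1:ℝ)/3) * Ng) + K1 + K1 ^ 2)) * (nm e / B * W0) := by
        apply mul_le_mul _ hsum _ (by positivity)
        · apply mul_le_mul_of_nonneg_left (hPhi.trans hPhi2) (by positivity)
        · exact mul_nonneg (by positivity) (Finset.sum_nonneg fun m _ => by positivity)
    _ = 2 * (1 + Real.log B) * (202 * (A * (nm d : ℝ)⁻¹ * (nm e / B) * (K1 ^ ((1:ℝ)/3) * Ng)) +
        A * (nm d : ℝ)⁻¹ * (nm e / B) * K1 + A * (nm d : ℝ)⁻¹ * (nm e / B) * K1 ^ 2) * W0 := by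
        ring
    _ ≤ 2 * (1 + Real.log B) * (202 * (A ^ ((2:ℝ)/3) * B ^ ((2:ℝ)/3)) +
        B + B ^ 3 / A) * W0 := by gcongr
    _ ≤ 2 * (1 + Real.log B) * (202 * (A ^ ((2:ℝ)/3) * B ^ ((2:ℝ)/3) +
        B + B ^ 3 / A)) * W0 := by
        have : 0 ≤ B ^ 3 / A := by positivity
        gcongr
        linarith
    _ = _ := by unfold Tgt; ring

/-- **T8a** -/
theorem T8a_norm {C : ℝ} (hC : 0 < C) (hL : LSH C) {S : Finset Eis} {A B : ℝ} (hA : 1 ≤ A)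
    (hB : 1 ≤ B)
    (hS : ∀ b ∈ S, IsPrim b ∧ Squarefree b ∧ B ≤ nm b ∧ (nm b : ℝ) ≤ 2 * B) (β : Eis → ℂ) :
    ‖PS (1 / A) S β‖ ≤ A * ∑ b ∈ S, ‖β b‖ ^ 2 +
      4 * 24 ^ 6 * 404 * C * Tgt A B * ∑ b ∈ S, (tau b : ℝ) ^ 3 * ‖β b‖ ^ 2 := by
  have hA0 : 0 < A := by linarith
  have hB0 : 0 < B := by linarith
  classical
  set D := S.biUnion pdiv with hD
  have hDp : ∀ d ∈ D, IsPrim d := by
    intro d hd
    rw [hD, Finset.mem_biUnion] at hd
    obtain ⟨b, hb, hd⟩ := hd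
    exact ((mem_pdiv (hS b hb).1.ne_zero).mp hd).1
  have hSD : ∀ b ∈ S, ∀ d : Eis, IsPrim d → d ∣ b → d ∈ D := by
    intro b hb d hd hdb
    rw [hD, Finset.mem_biUnion]
    exact ⟨b, hb, (mem_pdiv (hS b hb).1.ne_zero).mpr ⟨hd, hdb⟩⟩
  have h := master (τ := 0) hC hL hA0 hB0 hS hDp hSD β
  have e1 : ((1 - ((0:ℝ) : ℂ) * I) / A : ℂ) = 1 / A := by simp
  rw [e1] at h
  refine h.trans ?_
  have e2 : A / Real.sqrt (1 + (0:ℝ) ^ 2) = A := by simp
  rw [e2, mul_add]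
  apply add_le_add le_rfl
  have e3 : A * (4 * 24 ^ 6 * C * (1 + (0:ℝ) ^ 2) ^ 2 * Sig S D β A B 0) =
      4 * 24 ^ 6 * C * (A * Sig S D β A B 0) := by ring
  rw [e3]
  have e4 : A * Sig S D β A B 0 ≤ 404 * Tgt A B * ∑ b ∈ S, (tau b : ℝ) ^ 3 * ‖β b‖ ^ 2 := by
    unfold Sig
    have hT : 0 ≤ Tgt A B := by
      unfold Tgt
      have := Real.log_nonneg hB
      positivity
    calc _ ≤ 404 * Tgt A B * ∑ e ∈ D, ∑ d ∈ pdiv e, ∑ g ∈ D, ∑ m ∈ Kg S D e g,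
          ‖β (e * (g * m))‖ ^ 2 := by
          rw [Finset.mul_sum, Finset.mul_sum]
          refine Finset.sum_le_sum fun e he => ?_
          rw [Finset.mul_sum, Finset.mul_sum]
          refine Finset.sum_le_sum fun d hd => ?_
          rw [Finset.mul_sum, Finset.mul_sum]
          refine Finset.sum_le_sum fun g hg => ?_
          have hdd := (mem_pdiv (hDp _ he).ne_zero).mp hd
          exact term_le hA hB hS hDp β (hDp _ he) hdd.1 hdd.2 (hDp _ hg)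
      _ ≤ _ := by
          apply mul_le_mul_of_nonneg_left _ (by positivity)
          exact sum_fact_le (fun b hb => (hS b hb).1) hDp (fun b => ‖β b‖ ^ 2)
            (fun b => by positivity)
  calc 4 * 24 ^ 6 * C * (A * Sig S D β A B 0) ≤ 4 * 24 ^ 6 * C *
      (404 * Tgt A B * ∑ b ∈ S, (tau b : ℝ) ^ 3 * ‖β b‖ ^ 2) := by gcongr
    _ = _ := by ring

open Classical in
lemma PS_real {S : Finset Eis} {A : ℝ} (hA : 0 < A) (hS : ∀ b ∈ S, IsPrim b) (β : Eis → ℂ) :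
    PS (1 / A) S β = ((∑' a : Eis, (if IsPrim a then Real.exp (-(nm a : ℝ) / A) *
      ‖∑ b ∈ S, β b * (G b * (starRingEnd ℂ) (sy a b))‖ ^ 2 else 0) : ℝ) : ℂ) := by
  unfold PS
  rw [Complex.ofReal_tsum]
  refine tsum_congr fun a => ?_
  by_cases ha : IsPrim a
  · rw [if_pos ha, if_pos ha, Complex.mul_conj, cg_toC]
    push_cast
    rw [Complex.normSq_eq_norm_sq, mul_comm]
    have e1 : (-(1 / (A : ℂ)) * (nm a : ℂ)) = (-(nm a : ℂ) / (A : ℂ)) := by ring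
    rw [e1]
    push_cast
    rfl
  · rw [if_neg ha, if_neg ha]; simp

lemma norm_D_le {S : Finset Eis} (hS : ∀ b ∈ S, IsPrim b) (β : Eis → ℂ) (a : Eis) :
    ‖∑ b ∈ S, β b * (G b * (starRingEnd ℂ) (sy a b))‖ ≤ ∑ b ∈ S, ‖β b‖ := by
  refine (norm_sum_le _ _).trans (Finset.sum_le_sum fun b hb => ?_)
  rw [norm_mul, norm_mul, RCLike.norm_conj]
  apply mul_le_of_le_one_right (norm_nonneg _)
  exact mul_le_one₀ (Gauss880.norm_G_le syG (hS b hb)) (norm_nonneg _) (norm_sy_le (hS b hb))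

open Classical in
lemma summable_real {S : Finset Eis} {A : ℝ} (hA : 0 < A) (hS : ∀ b ∈ S, IsPrim b)
    (β : Eis → ℂ) : Summable (fun a : Eis => if IsPrim a then Real.exp (-(nm a : ℝ) / A) *
      ‖∑ b ∈ S, β b * (G b * (starRingEnd ℂ) (sy a b))‖ ^ 2 else 0) := by
  have h1 := (summable_cg (s := 1 / A) (by
    rw [show (1 / A : ℂ) = ((1 / A : ℝ) : ℂ) by push_cast; rfl, Complex.ofReal_re]
    positivity)).norm
  refine Summable.of_nonneg_of_le (fun a => ?_) (fun a => ?_)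
    (h1.mul_left ((∑ b ∈ S, ‖β b‖) ^ 2))
  · split_ifs <;> positivity
  · have h2 : ‖cexp (-(1 / A : ℂ) * (nm a : ℂ))‖ = Real.exp (-(nm a : ℝ) / A) := by
      rw [Complex.norm_exp]
      congr 1
      rw [show (-(1 / A : ℂ) * (nm a : ℂ)) = ((-(nm a : ℝ) / A : ℝ) : ℂ) by push_cast; ring,
        Complex.ofReal_re]
    rw [h2]
    split_ifs
    · rw [mul_comm]
      gcongr
      exact norm_D_le hS β a
    · positivity

open Classical in
/-- **T8a, real form** -/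
theorem T8a_real {C : ℝ} (hC : 0 < C) (hL : LSH C) {S : Finset Eis} {A B : ℝ} (hA : 1 ≤ A)
    (hB : 1 ≤ B)
    (hS : ∀ b ∈ S, IsPrim b ∧ Squarefree b ∧ B ≤ nm b ∧ (nm b : ℝ) ≤ 2 * B) (β : Eis → ℂ) :
    ∑' a : Eis, (if IsPrim a then Real.exp (-(nm a : ℝ) / A) *
      ‖∑ b ∈ S, β b * (G b * (starRingEnd ℂ) (sy a b))‖ ^ 2 else 0) ≤ A * ∑ b ∈ S, ‖β b‖ ^ 2 +
      4 * 24 ^ 6 * 404 * C * Tgt A B * ∑ b ∈ S, (tau b : ℝ) ^ 3 * ‖β b‖ ^ 2 := by
  have h := T8a_norm hC hL hA hB hS β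
  rw [PS_real (by linarith) (fun b hb => (hS b hb).1) β, Complex.norm_real] at h
  exact (le_abs_self _).trans h

/-- **T8a, finite form**: `𝓐` any finite set of primary elements of norm `≤ A`. -/
theorem T8a_fin {C : ℝ} (hC : 0 < C) (hL : LSH C) {S 𝓐 : Finset Eis} {A B : ℝ} (hA : 1 ≤ A)
    (hB : 1 ≤ B)
    (hS : ∀ b ∈ S, IsPrim b ∧ Squarefree b ∧ B ≤ nm b ∧ (nm b : ℝ) ≤ 2 * B)
    (h𝓐 : ∀ a ∈ 𝓐, IsPrim a ∧ (nm a : ℝ) ≤ A) (β : Eis → ℂ) :
    ∑ a ∈ 𝓐, ‖∑ b ∈ S, β b * (G b * (starRingEnd ℂ) (sy a b))‖ ^ 2 ≤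
      3 * (A * ∑ b ∈ S, ‖β b‖ ^ 2 +
      4 * 24 ^ 6 * 404 * C * Tgt A B * ∑ b ∈ S, (tau b : ℝ) ^ 3 * ‖β b‖ ^ 2) := by
  classical
  have hA0 : 0 < A := by linarith
  have h := T8a_real hC hL hA hB hS β
  have hsm := summable_real hA0 (fun b hb => (hS b hb).1) β
  have h1 := hsm.sum_le_tsum 𝓐 (fun a _ => by split_ifs <;> positivity)
  have h2 : ∑ a ∈ 𝓐, ‖∑ b ∈ S, β b * (G b * (starRingEnd ℂ) (sy a b))‖ ^ 2 ≤
      3 * ∑ a ∈ 𝓐, (if IsPrim a then Real.exp (-(nm a : ℝ) / A) *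
      ‖∑ b ∈ S, β b * (G b * (starRingEnd ℂ) (sy a b))‖ ^ 2 else 0) := by
    rw [Finset.mul_sum]
    refine Finset.sum_le_sum fun a ha => ?_
    obtain ⟨h3, h4⟩ := h𝓐 a ha
    rw [if_pos h3, ← mul_assoc]
    apply le_mul_of_one_le_left (by positivity)
    have h5 : Real.exp (-1) ≤ Real.exp (-(nm a : ℝ) / A) := by
      apply Real.exp_le_exp.mpr
      rw [neg_div, neg_le_neg_iff, div_le_one hA0]
      exact h4
    have h6 : 1 ≤ 3 * Real.exp (-1) := by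
      rw [Real.exp_neg, ← div_eq_mul_inv, le_div_iff₀ (Real.exp_pos _), one_mul]
      have := Real.exp_one_lt_d9
      linarith
    linarith
  linarith

end Crest.Agent.R012.T8
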