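import Crest.Agent.R012.EdgeSharp_968
import Crest.Agent.R012.FejGauss_968
import Crest.Agent.R012.T8Master_810
import Crest.Agent.R012.T8LS_879

/-!
# Row 12, T8b, part A: the second moment over a short norm interval (helper968)

`S_bound`: for `SA` in a `κ`-interval,
`∑_{a ∈ SA} |∑_b β b G(b) conj (a/b)|² ≪ (log J / J) A #SB + A J³ Sb`.
-/

set_option autoImplicit false

noncomputable section

open Complex Finset

namespace Crest.Agent.R012.T8b968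

open Eis
open Gauss880 (syG)
open Mob705 (pdiv mem_pdiv)
open FejGauss968 (sp sum_le_PS sum_diff_le sum_inv_sqrt_le)

/-- the value of the bound of `Sig` on a cell, `t = 1 + τ²`, `L = 1 + log (A B)`. -/
def Mb (A B κ : ℝ) : ℝ :=
  κ ^ (4 / 3 : ℝ) * B ^ (5 / 3 : ℝ) * A ^ (-(1 / 3) : ℝ) +
    B ^ (7 / 6 : ℝ) * A ^ (-(1 / 3) : ℝ) + B ^ 2 / A +
    B ^ 4 / A ^ 2

/-- the bound of `Sig` on cells. -/
def SigCell (C c : ℝ) : Prop := ∀ (A B κ τ : ℝ) (S : Finset Eis) (β : Eis → ℂ), 2 ≤ A → 2 ≤ B →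
  0 ≤ κ → κ ≤ 1 →
  (∀ b ∈ S, IsPrim b ∧ Squarefree b ∧ B ≤ nm b ∧ (nm b : ℝ) ≤ B * (1 + κ)) →
  (∀ b, ‖β b‖ ≤ 1) →
  T8.Sig S (S.biUnion pdiv) β A B τ ≤ C * (1 + Real.log (A * B)) ^ c * (1 + τ ^ 2) ^ 3 * Mb A B κ

lemma Mb_nonneg {A B κ : ℝ} (hA : 0 < A) (hB : 0 < B) (hκ : 0 ≤ κ) : 0 ≤ Mb A B κ := by
  unfold Mb
  positivity

/-- the linear form. -/
def Fs (SB : Finset Eis) (β : Eis → ℂ) (a : Eis) : ℂ :=
  ∑ b ∈ SB, β b * (G b * (starRingEnd ℂ) (sy a b))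

/-- the nonnegative function on all of `Eis`. -/
def qf (SB : Finset Eis) (β : Eis → ℂ) (a : Eis) : ℝ := by
  classical
  exact if IsPrim a then ‖Fs SB β a‖ ^ 2 else 0

lemma qf_nonneg (SB : Finset Eis) (β : Eis → ℂ) (a : Eis) : 0 ≤ qf SB β a := by
  unfold qf
  split_ifs <;> positivity

lemma qf_eq {SB : Finset Eis} {β : Eis → ℂ} {a : Eis} (ha : IsPrim a) :
    qf SB β a = ‖Fs SB β a‖ ^ 2 := by
  unfold qf
  rw [if_pos ha]

lemma norm_Fs_le {SB : Finset Eis} {β : Eis → ℂ} (hSB : ∀ b ∈ SB, IsPrim b)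
    (hβ : ∀ b ∈ SB, ‖β b‖ ≤ 1) (a : Eis) : ‖Fs SB β a‖ ≤ SB.card := by
  unfold Fs
  refine (norm_sum_le _ _).trans ?_
  calc ∑ b ∈ SB, ‖β b * (G b * (starRingEnd ℂ) (sy a b))‖ ≤ ∑ _b ∈ SB, (1 : ℝ) := by
        refine sum_le_sum fun b hb => ?_
        rw [norm_mul, norm_mul, RCLike.norm_conj]
        have h1 := Gauss880.norm_G_le syG (hSB b hb)
        have h2 := Tau671.norm_sy_le (x := a) (hSB b hb)
        exact mul_le_one₀ (hβ b hb) (by positivity) (mul_le_one₀ h1 (norm_nonneg _) h2)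
    _ = SB.card := by simp

lemma PS_eq (SB : Finset Eis) (β : Eis → ℂ) (s : ℂ) :
    FejGauss968.PS (qf SB β) s = T8.PS s SB β := by
  unfold FejGauss968.PS T8.PS
  refine tsum_congr fun a => ?_
  rw [T8.cg_toC]
  congr 1
  by_cases ha : IsPrim a
  · rw [if_pos ha, qf_eq ha]
    have : ∀ z : ℂ, ((‖z‖ ^ 2 : ℝ) : ℂ) = z * (starRingEnd ℂ) z := by
      intro z
      rw [Complex.mul_conj, Complex.normSq_eq_norm_sq]
    rw [this]
    rfl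
  · rw [if_neg ha]
    unfold qf
    rw [if_neg ha]
    simp

lemma summable_qf {SB : Finset Eis} {β : Eis → ℂ} (hSB : ∀ b ∈ SB, IsPrim b)
    (hβ : ∀ b ∈ SB, ‖β b‖ ≤ 1) {A : ℝ} (hA : 0 < A) :
    Summable fun a : Eis => qf SB β a * Real.exp (-((nm a : ℝ) / A)) := by
  have h1 : (0:ℝ) < (1 / (A : ℂ)).re := by
    rw [← Complex.ofReal_one, ← Complex.ofReal_div, Complex.ofReal_re]; positivity
  have h := (T8.summable_cg h1).norm
  have h2 : Summable fun a : Eis => (SB.card : ℝ) ^ 2 * Real.exp (-((nm a : ℝ) / A)) := by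
    refine (h.mul_left ((SB.card : ℝ) ^ 2)).congr fun a => ?_
    congr 1
    rw [Complex.norm_exp]
    congr 1
    have : (-(1 / (A : ℂ)) * (nm a : ℂ)) = ((-((nm a : ℝ) / A) : ℝ) : ℂ) := by
      push_cast; ring
    rw [this, Complex.ofReal_re]
  refine Summable.of_nonneg_of_le (fun a => mul_nonneg (qf_nonneg _ _ _) (Real.exp_pos _).le)
    (fun a => ?_) h2
  apply mul_le_mul_of_nonneg_right _ (Real.exp_pos _).le
  unfold qf
  split_ifs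
  · exact pow_le_pow_left₀ (norm_nonneg _) (norm_Fs_le hSB hβ a) 2
  · positivity

/-- bound of the smoothed moment at `(1 - i n)/A`. -/
lemma PS_bound {C Cs c : ℝ} (hC : 0 < C) (hL : T8.LSH C) (hSig : SigCell Cs c)
    {A B κ : ℝ} (hA : 2 ≤ A) (hB : 2 ≤ B) (hκ0 : 0 ≤ κ) (hκ1 : κ ≤ 1) {SB : Finset Eis}
    {β : Eis → ℂ}
    (hSB : ∀ b ∈ SB, IsPrim b ∧ Squarefree b ∧ B ≤ nm b ∧ (nm b : ℝ) ≤ B * (1 + κ))
    (hβ : ∀ b, ‖β b‖ ≤ 1) (n : ℤ) :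
    ‖T8.PS (sp A n) SB β‖ ≤ A / Real.sqrt (1 + (n.natAbs : ℝ) ^ 2) * (SB.card +
      4 * 24 ^ 6 * C * (1 + (n.natAbs : ℝ) ^ 2) ^ 2 * (Cs * (1 + Real.log (A * B)) ^ c *
        (1 + (n.natAbs : ℝ) ^ 2) ^ 3 * Mb A B κ)) := by
  classical
  have hA0 : 0 < A := by linarith
  set D : Finset Eis := SB.biUnion pdiv with hD
  have hDp : ∀ d ∈ D, IsPrim d := by
    intro d hd
    rw [hD, mem_biUnion] at hd
    obtain ⟨b, hb, hd⟩ := hd
    exact ((mem_pdiv (hSB b hb).1.ne_zero).mp hd).1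
  have hDS : ∀ b ∈ SB, ∀ d : Eis, IsPrim d → d ∣ b → d ∈ D := by
    intro b hb d hd hdb
    rw [hD, mem_biUnion]
    exact ⟨b, hb, (mem_pdiv (hSB b hb).1.ne_zero).mpr ⟨hd, hdb⟩⟩
  have hB0 : 0 < B := by linarith
  have hm := T8.master hC hL (τ := (n : ℝ)) hA0 hB0 (S := SB) (D := D)
    (fun b hb => ⟨(hSB b hb).1, (hSB b hb).2.1, (hSB b hb).2.2.1, by
      have := (hSB b hb).2.2.2
      nlinarith⟩) hDp hDS β
  have hn : (n : ℝ) ^ 2 = (n.natAbs : ℝ) ^ 2 := by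
    have : ((n.natAbs : ℤ) : ℝ) ^ 2 = (n : ℝ) ^ 2 := by
      have h := Int.natAbs_sq n
      exact_mod_cast h
    rw [← this, Int.cast_natCast]
  have hsp : ((1 - ((n : ℝ) : ℂ) * I) / (A : ℂ)) = sp A n := by
    unfold FejGauss968.sp
    push_cast
    rfl
  rw [hsp, hn] at hm
  refine hm.trans ?_
  have hs := hSig A B κ (n : ℝ) SB β hA hB hκ0 hκ1 hSB hβ
  rw [hn] at hs
  have h1 : ∑ b ∈ SB, ‖β b‖ ^ 2 ≤ SB.card := by
    calc ∑ b ∈ SB, ‖β b‖ ^ 2 ≤ ∑ _b ∈ SB, (1 : ℝ) :=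
          sum_le_sum fun b hb => pow_le_one₀ (norm_nonneg _) (hβ b)
      _ = SB.card := by simp
  gcongr

/-- **Second moment over the cell.** -/
theorem S_bound {C Cs c : ℝ} (hC : 0 < C) (hL : T8.LSH C) (hCs : 0 < Cs) (hSig : SigCell Cs c)
    {A B κ : ℝ} (hA : 2 ≤ A) (hB : 2 ≤ B) (hκ0 : 0 ≤ κ) (hκ1 : κ ≤ 1) {J : ℕ} (hJ1 : 1 ≤ J)
    (hJ : κ * J ≤ 1) {SA SB : Finset Eis} {β : Eis → ℂ}
    (hSA : ∀ a ∈ SA, IsPrim a ∧ A ≤ nm a ∧ (nm a : ℝ) ≤ A * (1 + κ))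
    (hSB : ∀ b ∈ SB, IsPrim b ∧ Squarefree b ∧ B ≤ nm b ∧ (nm b : ℝ) ≤ B * (1 + κ))
    (hβ : ∀ b, ‖β b‖ ≤ 1) :
    ∑ a ∈ SA, ‖Fs SB β a‖ ^ 2 ≤ 8 * Real.exp 2 * ((2 + Real.log J) / J * A * SB.card +
      A * J ^ 9 * (4 * 24 ^ 6 * C * (Cs * (1 + Real.log (A * B)) ^ c * Mb A B κ))) := by
  classical
  have hA0 : 0 < A := by linarith
  have hM := Mb_nonneg (A := A) (B := B) (κ := κ) hA0 (by linarith) hκ0
  have hlog : 0 ≤ Real.log (A * B) := Real.log_nonneg (by nlinarith)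
  have hLc : 0 ≤ (1 + Real.log (A * B)) ^ c := by positivity
  have hJ0 : (0 : ℝ) < J := by exact_mod_cast hJ1
  have hJ1' : (1 : ℝ) ≤ J := by exact_mod_cast hJ1
  have hSBp : ∀ b ∈ SB, IsPrim b := fun b hb => (hSB b hb).1
  have h1 := sum_le_PS hA0 hκ1 hJ1 hJ (qf_nonneg SB β) (summable_qf hSBp (fun b _ => hβ b) hA0) SA
    (fun a ha => ⟨(hSA a ha).2.1, (hSA a ha).2.2⟩)
  have h2 : ∑ a ∈ SA, ‖Fs SB β a‖ ^ 2 = ∑ a ∈ SA, qf SB β a :=
    sum_congr rfl fun a ha => (qf_eq (hSA a ha).1).symm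
  rw [h2]
  refine h1.trans ?_
  set f : ℕ → ℝ := fun m => A / Real.sqrt (1 + (m : ℝ) ^ 2) * (SB.card +
      4 * 24 ^ 6 * C * (1 + (m : ℝ) ^ 2) ^ 2 * (Cs * (1 + Real.log (A * B)) ^ c *
        (1 + (m : ℝ) ^ 2) ^ 3 * Mb A B κ)) with hf
  have hf0 : ∀ m, 0 ≤ f m := by
    intro m
    simp only [hf]
    positivity
  have h3 : ∑ j ∈ range J, ∑ k ∈ range J, ‖FejGauss968.PS (qf SB β) (sp A ((j : ℤ) - k))‖ ≤
      ∑ j ∈ range J, ∑ k ∈ range J, f ((j : ℤ) - k).natAbs := by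
    refine sum_le_sum fun j _ => sum_le_sum fun k _ => ?_
    rw [PS_eq]
    exact PS_bound hC hL hSig hA hB hκ0 hκ1 hSB hβ _
  have h4 := sum_diff_le hf0 J
  have h5 : ∑ m ∈ range J, f m ≤ A * SB.card * (2 + Real.log J) +
      J * (A * J ^ 9 * (4 * 24 ^ 6 * C * (Cs * (1 + Real.log (A * B)) ^ c * Mb A B κ))) := by
    have e1 : ∀ m ∈ range J, f m ≤ A * SB.card * (1 / Real.sqrt (1 + (m : ℝ) ^ 2)) +
        A * J ^ 9 * (4 * 24 ^ 6 * C * (Cs * (1 + Real.log (A * B)) ^ c * Mb A B κ)) := by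
      intro m hm
      have hmJ : (m : ℝ) + 1 ≤ J := by exact_mod_cast mem_range.mp hm
      have hm0 : (0 : ℝ) ≤ m := Nat.cast_nonneg m
      have hT : 1 + (m : ℝ) ^ 2 ≤ (J : ℝ) ^ 2 := by nlinarith
      have hT1 : 1 ≤ 1 + (m : ℝ) ^ 2 := by nlinarith [sq_nonneg (m : ℝ)]
      have hsq1 : 1 ≤ Real.sqrt (1 + (m : ℝ) ^ 2) := Real.one_le_sqrt.mpr hT1
      have hsq2 : Real.sqrt (1 + (m : ℝ) ^ 2) ≤ J := by
        rw [Real.sqrt_le_left hJ0.le]; exact hT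
      have hss : Real.sqrt (1 + (m : ℝ) ^ 2) * Real.sqrt (1 + (m : ℝ) ^ 2) = 1 + (m : ℝ) ^ 2 :=
        Real.mul_self_sqrt (by positivity)
      set r := Real.sqrt (1 + (m : ℝ) ^ 2) with hr
      have hr0 : 0 < r := by linarith
      have e2 : A / r * (1 + (m : ℝ) ^ 2) ^ 5 ≤ A * J ^ 9 := by
        have : A / r * (1 + (m : ℝ) ^ 2) ^ 5 = A * r ^ 9 := by
          rw [← hss]; field_simp
        rw [this]
        gcongr
      calc f m = A * SB.card * (1 / r) + (A / r * (1 + (m : ℝ) ^ 2) ^ 5) *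
            (4 * 24 ^ 6 * C * (Cs * (1 + Real.log (A * B)) ^ c * Mb A B κ)) := by
            simp only [hf]; ring
        _ ≤ A * SB.card * (1 / r) + (A * J ^ 9) *
            (4 * 24 ^ 6 * C * (Cs * (1 + Real.log (A * B)) ^ c * Mb A B κ)) := by
            gcongr
    refine (sum_le_sum e1).trans ?_
    rw [sum_add_distrib, ← mul_sum, sum_const, card_range, nsmul_eq_mul]
    have := sum_inv_sqrt_le J
    gcongr
  have hE : 0 < Real.exp 2 := Real.exp_pos 2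
  calc 4 * Real.exp 2 / (J : ℝ) ^ 2 * ∑ j ∈ range J, ∑ k ∈ range J,
        ‖FejGauss968.PS (qf SB β) (sp A ((j : ℤ) - k))‖
      ≤ 4 * Real.exp 2 / (J : ℝ) ^ 2 * (2 * J * (A * SB.card * (2 + Real.log J) +
      J * (A * J ^ 9 * (4 * 24 ^ 6 * C * (Cs * (1 + Real.log (A * B)) ^ c * Mb A B κ))))) := by
        apply mul_le_mul_of_nonneg_left _ (by positivity)
        refine h3.trans (h4.trans ?_)
        exact mul_le_mul_of_nonneg_left h5 (by positivity)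
    _ = _ := by
        field_simp
        ring

end Crest.Agent.R012.T8b968
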