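import Crest.Agent.R012.MV_400
import Crest.Agent.R012.Weight_600
import Crest.Agent.R012.PSer_47

/-!
# Row 12: the large-`t` average with the smooth cut-off kernel `kerC`

* `tail_sq` : `∫_{|t|>T₀} |k(t)| |Σ a(z) N(z)^{it}|² dt ≤ C (N/T₀ + √N (1+log N)) Σ |a|²`.
* `tail_cauchy` : Cauchy–Schwarz form for a finite family of coefficient vectors.
* `total` : sup on `|t| ≤ T₀`, Cauchy–Schwarz on `|t| > T₀`.
-/

set_option autoImplicit false

noncomputable section

open Complex MeasureTheory Set Crest.Agent.R012 Crest.Agent.R012.Eis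

namespace Crest.Agent.R012.TAvg255

open MV400 Weight600

lemma dp_norm_le {S : Finset Eis} (hS : ∀ z ∈ S, z ≠ 0) (a : Eis → ℂ) (t : ℝ) :
    ‖dp S a t‖ ≤ ∑ z ∈ S, ‖a z‖ := by
  rw [dp_eq_trig hS]
  unfold trig
  refine (norm_sum_le _ _).trans (le_of_eq ?_)
  refine Finset.sum_congr rfl fun z _ => ?_
  rw [norm_mul]
  have : ‖cexp (I * ((Real.log (nm z) : ℝ) : ℂ) * (t : ℂ))‖ = 1 := by
    have e : I * ((Real.log (nm z) : ℝ) : ℂ) * (t : ℂ) = ((Real.log (nm z) * t : ℝ) : ℂ) * I := by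
      push_cast; ring
    rw [e, Complex.norm_exp_ofReal_mul_I]
  rw [this, mul_one]

lemma dp_sq_le {S : Finset Eis} {N : ℝ} (hN : 1 ≤ N) (hS : ∀ z ∈ S, z ≠ 0 ∧ (nm z : ℝ) ≤ N)
    (a : Eis → ℂ) (t : ℝ) : ‖dp S a t‖ ^ 2 ≤ 18 * N * ∑ z ∈ S, ‖a z‖ ^ 2 := by
  have h1 := dp_norm_le (fun z hz => (hS z hz).1) a t
  have hsub : S ⊆ ball ⌊N⌋₊ := by
    intro z hz
    rw [mem_ball]
    exact Nat.le_floor (hS z hz).2
  have hc : (S.card : ℝ) ≤ 18 * N := by
    have h2 := (Finset.card_le_card hsub).trans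
      (PSer47.card_ball_le (X := ⌊N⌋₊) (by rw [Nat.one_le_floor_iff]; exact hN))
    have h3 : (S.card : ℝ) ≤ 18 * (⌊N⌋₊ : ℝ) := by exact_mod_cast h2
    have h4 : (⌊N⌋₊ : ℝ) ≤ N := Nat.floor_le (by linarith)
    linarith
  calc ‖dp S a t‖ ^ 2 ≤ (∑ z ∈ S, ‖a z‖) ^ 2 := by gcongr
    _ ≤ S.card * ∑ z ∈ S, ‖a z‖ ^ 2 := sq_sum_le_card_mul_sum_sq
    _ ≤ 18 * N * ∑ z ∈ S, ‖a z‖ ^ 2 := by
        gcongr

/-- tail of `1/t²` -/
lemma int_tail {g : ℝ → ℝ} (hg : IntegrableOn g (Ioi 0)) {T c : ℝ} (hT : 0 < T)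
    (h : ∀ t, T < t → g t ≤ c / t ^ 2) : ∫ t in Ioi T, g t ≤ c / T := by
  have i1 : IntegrableOn g (Ioi T) := hg.mono_set (Ioi_subset_Ioi hT.le)
  have i2 : IntegrableOn (fun t : ℝ => c * t ^ (-2 : ℝ)) (Ioi T) :=
    (integrableOn_Ioi_rpow_of_lt (by norm_num) hT).const_mul c
  calc ∫ t in Ioi T, g t ≤ ∫ t in Ioi T, c * t ^ (-2 : ℝ) := by
        apply setIntegral_mono_on i1 i2 measurableSet_Ioi
        intro t ht
        refine (h t ht).trans (le_of_eq ?_)
        have ht0 : 0 < t := hT.trans ht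
        rw [Real.rpow_neg ht0.le, div_eq_mul_inv]
        norm_num
    _ = c / T := by
        rw [MeasureTheory.integral_const_mul, integral_Ioi_rpow_of_lt (by norm_num) hT]
        norm_num
        rw [Real.rpow_neg hT.le, Real.rpow_one, div_eq_mul_inv]

/-- one-sided bound, abstract in the polynomial -/
lemma one_sided {k : ℝ → ℝ} {d : ℝ → ℝ} (hk : Continuous k) (hki : Integrable k)
    (hk0 : ∀ t, 0 ≤ k t) (hd : Continuous d) (hd0 : ∀ t, 0 ≤ d t)
    {c0 c1 N T0 E : ℝ} (hc0 : 0 ≤ c0) (hc1 : 0 ≤ c1) (hN : 1 ≤ N) (hT0 : 1 ≤ T0) (hE : 0 ≤ E)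
    (h1 : ∀ t, 0 < t → k t ≤ c0 / t) (h2 : ∀ t, 0 < t → k t ≤ c1 * N / t ^ 2)
    (hdb : ∀ t, d t ≤ 18 * N * E)
    (hmv : ∀ T2, T0 ≤ T2 → ∫ t in T0..T2, d t / t ≤
      900000 * (N / T0 + Real.sqrt N * (1 + Real.log (T2 / T0))) * E) :
    ∫ t in Ioi T0, k t * d t ≤
      (2000000 * c0 + 18 * c1) * (N / T0 + Real.sqrt N * (1 + Real.log N)) * E := by
  have hN0 : 0 < N := by linarith
  have hT00 : 0 < T0 := by linarith
  set T2 : ℝ := max T0 (N ^ 2) with hT2
  have h02 : T0 ≤ T2 := le_max_left _ _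
  have hT20 : 0 < T2 := by linarith
  have hlN : 0 ≤ Real.log N := Real.log_nonneg hN
  have hsN : 1 ≤ Real.sqrt N := by rw [Real.one_le_sqrt]; exact hN
  have hint : Integrable (fun t => k t * d t) := by
    refine hki.mul_bdd (c := 18 * N * E) hd.aestronglyMeasurable
      (Filter.Eventually.of_forall fun t => ?_)
    rw [Real.norm_of_nonneg (hd0 t)]
    exact hdb t
  have hs : Ioi T0 = Ioc T0 T2 ∪ Ioi T2 := by rw [Ioc_union_Ioi_eq_Ioi h02]
  rw [hs, setIntegral_union Ioc_disjoint_Ioi_same measurableSet_Ioi hint.integrableOn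
    hint.integrableOn]
  -- first piece
  have hcd : ContinuousOn (fun t => d t / t) (Icc T0 T2) := by
    refine hd.continuousOn.div continuousOn_id fun t ht => ?_
    have := ht.1
    exact (by simp only [id]; linarith : id t > 0).ne'
  have b1 : ∫ t in Ioc T0 T2, k t * d t ≤
      c0 * (900000 * (N / T0 + Real.sqrt N * (1 + Real.log (T2 / T0))) * E) := by
    have e1 : ∫ t in Ioc T0 T2, k t * d t ≤ ∫ t in Ioc T0 T2, c0 * (d t / t) := by
      apply setIntegral_mono_on hint.integrableOn _ measurableSet_Ioc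
      · intro t ht
        have ht0 : 0 < t := hT00.trans ht.1
        calc k t * d t ≤ c0 / t * d t := mul_le_mul_of_nonneg_right (h1 t ht0) (hd0 t)
          _ = c0 * (d t / t) := by ring
      · exact ((hcd.integrableOn_Icc).mono_set Ioc_subset_Icc_self).const_mul c0
    refine e1.trans ?_
    rw [MeasureTheory.integral_const_mul, ← intervalIntegral.integral_of_le h02]
    exact mul_le_mul_of_nonneg_left (hmv T2 h02) hc0
  have b2 : ∫ t in Ioi T2, k t * d t ≤ c1 * N * (18 * N * E) / T2 := by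
    apply int_tail hint.integrableOn hT20
    intro t ht
    have ht0 : 0 < t := hT20.trans ht
    calc k t * d t ≤ c1 * N / t ^ 2 * (18 * N * E) :=
          mul_le_mul (h2 t ht0) (hdb t) (hd0 t) (by positivity)
      _ = c1 * N * (18 * N * E) / t ^ 2 := by ring
  have hlog : Real.log (T2 / T0) ≤ 2 * Real.log N := by
    have : T2 / T0 ≤ N ^ 2 := by
      rw [div_le_iff₀ hT00, hT2]
      have hN2 : 1 ≤ N ^ 2 := one_le_pow₀ hN
      refine max_le ?_ ?_
      · nlinarith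
      · nlinarith [sq_nonneg N]
    calc Real.log (T2 / T0) ≤ Real.log (N ^ 2) :=
          Real.log_le_log (by positivity) this
      _ = 2 * Real.log N := by rw [Real.log_pow]; norm_num
  have b1' : c0 * (900000 * (N / T0 + Real.sqrt N * (1 + Real.log (T2 / T0))) * E) ≤
      2000000 * c0 * (N / T0 + Real.sqrt N * (1 + Real.log N)) * E := by
    have h3 : 900000 * (N / T0 + Real.sqrt N * (1 + Real.log (T2 / T0))) ≤
        2000000 * (N / T0 + Real.sqrt N * (1 + Real.log N)) := by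
      have h4 : 0 ≤ N / T0 := by positivity
      have h5 : Real.sqrt N * (1 + Real.log (T2 / T0)) ≤ 2 * (Real.sqrt N * (1 + Real.log N)) := by
        have : 1 + Real.log (T2 / T0) ≤ 2 * (1 + Real.log N) := by linarith
        calc _ ≤ Real.sqrt N * (2 * (1 + Real.log N)) := by gcongr
          _ = _ := by ring
      have h6 : 0 ≤ Real.sqrt N * (1 + Real.log N) := by positivity
      linarith
    calc c0 * (900000 * (N / T0 + Real.sqrt N * (1 + Real.log (T2 / T0))) * E)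
        ≤ c0 * (2000000 * (N / T0 + Real.sqrt N * (1 + Real.log N)) * E) := by gcongr
      _ = _ := by ring
  have b2' : c1 * N * (18 * N * E) / T2 ≤
      18 * c1 * (N / T0 + Real.sqrt N * (1 + Real.log N)) * E := by
    have h3 : N ^ 2 / T2 ≤ 1 := by
      rw [div_le_one hT20]; exact le_max_right _ _
    have h4 : (1 : ℝ) ≤ N / T0 + Real.sqrt N * (1 + Real.log N) := by
      have : 0 ≤ N / T0 := by positivity
      nlinarith
    calc c1 * N * (18 * N * E) / T2 = 18 * c1 * E * (N ^ 2 / T2) := by ring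
      _ ≤ 18 * c1 * E * 1 := by gcongr
      _ ≤ 18 * c1 * E * (N / T0 + Real.sqrt N * (1 + Real.log N)) := by gcongr
      _ = _ := by ring
  calc _ ≤ 2000000 * c0 * (N / T0 + Real.sqrt N * (1 + Real.log N)) * E +
        18 * c1 * (N / T0 + Real.sqrt N * (1 + Real.log N)) * E :=
        add_le_add (b1.trans b1') (b2.trans b2')
    _ = _ := by ring

lemma split_set (T : ℝ) : {t : ℝ | T < |t|} = Ioi T ∪ Iio (-T) := by
  ext t
  simp only [Set.mem_ofPred_eq, mem_union, mem_Ioi, mem_Iio, lt_abs]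
  constructor
  · rintro (h | h)
    · exact Or.inl h
    · exact Or.inr (by linarith)
  · rintro (h | h)
    · exact Or.inl h
    · exact Or.inr (by linarith)

lemma split_disj (T : ℝ) (hT : 0 ≤ T) : Disjoint (Ioi T) (Iio (-T)) := by
  rw [Set.disjoint_left]; intro x hx hx'
  simp only [mem_Ioi, mem_Iio] at hx hx'; linarith

/-- the constant -/
def CT : ℝ := 4 * (2000000 * (2 * Ck 0) + 18 * (2 * Ck 1))

lemma CT_pos : 0 < CT := by
  have h0 := Ck_pos 0
  have h1 := Ck_pos 1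
  unfold CT; positivity

/-- **(T1)** the mean square of a Dirichlet polynomial over `|t| > T₀` against the cut-off kernel.
`M` : any bound with `1/η ≤ M N`. -/
theorem tail_sq {a b η : ℝ} (hη : 0 < η) (hab : a ≤ b) {M : ℝ} (hM : 1 ≤ M) (S : Finset Eis)
    (N T0 : ℝ) (hN : 1 ≤ N) (hT0 : 1 ≤ T0) (hηN : 1 / η ≤ M * N)
    (hS : ∀ z ∈ S, z ≠ 0 ∧ (nm z : ℝ) ≤ N) (c : Eis → ℂ) :
    ∫ t in {t : ℝ | T0 < |t|}, ‖kerC a b η t‖ * ‖dp S c t‖ ^ 2 ≤
      CT * M * (N / T0 + Real.sqrt N * (1 + Real.log N)) * ∑ z ∈ S, ‖c z‖ ^ 2 := by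
  have hk0 := Ck_pos 0
  have hk1 := Ck_pos 1
  set E : ℝ := ∑ z ∈ S, ‖c z‖ ^ 2 with hE
  have hE0 : 0 ≤ E := Finset.sum_nonneg fun _ _ => by positivity
  have hne : ∀ z ∈ S, z ≠ 0 := fun z hz => (hS z hz).1
  have hcd : Continuous (fun t => ‖dp S c t‖ ^ 2) := (continuous_dp hne c).norm.pow 2
  have hck := continuous_kerC (a := a) (b := b) hη hab
  have hki := (integrable_kerC (a := a) (b := b) hη hab).norm
  have hint : Integrable (fun t => ‖kerC a b η t‖ * ‖dp S c t‖ ^ 2) := by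
    refine hki.mul_bdd (c := 18 * N * E) hcd.aestronglyMeasurable
      (Filter.Eventually.of_forall fun t => ?_)
    rw [Real.norm_of_nonneg (by positivity)]
    exact dp_sq_le hN hS c t
  rw [split_set T0, setIntegral_union (split_disj T0 (by linarith))
    measurableSet_Iio hint.integrableOn hint.integrableOn]
  have hb1 : ∀ t, t ≠ 0 → ‖kerC a b η t‖ ≤ 2 * Ck 0 / |t| := by
    intro t ht
    refine (norm_kerC_le_div hη hab ht).trans ?_
    have h := pk_le 0 (η * t)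
    rw [pow_zero, div_one] at h
    have : 0 < |t| := abs_pos.mpr ht
    calc 2 / |t| * ‖pk (η * t)‖ ≤ 2 / |t| * Ck 0 := by gcongr
      _ = _ := by ring
  have hb2 : ∀ t, t ≠ 0 → ‖kerC a b η t‖ ≤ 2 * Ck 1 * M * N / |t| ^ 2 := by
    intro t ht
    refine (norm_kerC_le_div hη hab ht).trans ?_
    have h := pk_le 1 (η * t)
    have hp : 0 < |t| := abs_pos.mpr ht
    have h' : ‖pk (η * t)‖ ≤ Ck 1 / (η * |t|) := by
      refine h.trans ?_
      rw [pow_one, abs_mul, abs_of_pos hη]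
      gcongr
      linarith [mul_pos hη hp]
    calc 2 / |t| * ‖pk (η * t)‖ ≤ 2 / |t| * (Ck 1 / (η * |t|)) := by gcongr
      _ = 2 * Ck 1 * (1 / η) / |t| ^ 2 := by field_simp
      _ ≤ 2 * Ck 1 * (M * N) / |t| ^ 2 := by gcongr
      _ = _ := by ring
  have r1 := one_sided (k := fun t => ‖kerC a b η t‖) (d := fun t => ‖dp S c t‖ ^ 2)
    (c0 := 2 * Ck 0) (c1 := 2 * Ck 1 * M) hck.norm hki (fun t => norm_nonneg _) hcd
    (fun t => by positivity) (by positivity) (by positivity) hN hT0 hE0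
    (fun t ht => by have := hb1 t ht.ne'; rwa [abs_of_pos ht] at this)
    (fun t ht => by have := hb2 t ht.ne'; rwa [abs_of_pos ht] at this)
    (fun t => dp_sq_le hN hS c t) (fun T2 h => mv_eis_dt S N T0 T2 hN hT0 h hS c)
  have r2' := one_sided (k := fun t => ‖kerC a b η (-t)‖) (d := fun t => ‖dp S c (-t)‖ ^ 2)
    (c0 := 2 * Ck 0) (c1 := 2 * Ck 1 * M) (hck.norm.comp continuous_neg) hki.comp_neg
    (fun t => norm_nonneg _) (hcd.comp continuous_neg)
    (fun t => by positivity) (by positivity) (by positivity) hN hT0 hE0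
    (fun t ht => by
      have := hb1 (-t) (neg_ne_zero.mpr ht.ne'); rwa [abs_neg, abs_of_pos ht] at this)
    (fun t ht => by
      have := hb2 (-t) (neg_ne_zero.mpr ht.ne'); rwa [abs_neg, abs_of_pos ht] at this)
    (fun t => dp_sq_le hN hS c (-t)) (fun T2 h => mv_eis_dt_neg S N T0 T2 hN hT0 h hS c)
  have r2 : ∫ t in Iio (-T0), ‖kerC a b η t‖ * ‖dp S c t‖ ^ 2 =
      ∫ t in Ioi T0, ‖kerC a b η (-t)‖ * ‖dp S c (-t)‖ ^ 2 := by
    rw [← integral_Iic_eq_integral_Iio]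
    exact (integral_comp_neg_Ioi T0 (fun t => ‖kerC a b η t‖ * ‖dp S c t‖ ^ 2)).symm
  rw [r2]
  refine (add_le_add r1 r2').trans ?_
  have hX : 0 ≤ (N / T0 + Real.sqrt N * (1 + Real.log N)) := by
    have := Real.log_nonneg hN
    positivity
  have hfin : 2 * (2000000 * (2 * Ck 0) + 18 * (2 * Ck 1 * M)) ≤ CT * M := by
    unfold CT
    nlinarith
  calc _ = 2 * (2000000 * (2 * Ck 0) + 18 * (2 * Ck 1 * M)) *
        (N / T0 + Real.sqrt N * (1 + Real.log N)) * E := by ring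
    _ ≤ CT * M * (N / T0 + Real.sqrt N * (1 + Real.log N)) * E := by gcongr

/-- Cauchy–Schwarz with a weight. -/
lemma cauchy_weight {w f : ℝ → ℝ} {U : Set ℝ} (hU : MeasurableSet U) (hw : ∀ t, 0 ≤ w t)
    (hf : ∀ t, 0 ≤ f t) (hwi : IntegrableOn w U) (hwf : IntegrableOn (fun t => w t * f t) U)
    (hwf2 : IntegrableOn (fun t => w t * f t ^ 2) U) :
    ∫ t in U, w t * f t ≤
      Real.sqrt (∫ t in U, w t) * Real.sqrt (∫ t in U, w t * f t ^ 2) := by
  set I0 := ∫ t in U, w t with hI0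
  set I1 := ∫ t in U, w t * f t with hI1
  set I2 := ∫ t in U, w t * f t ^ 2 with hI2
  have h0 : 0 ≤ I0 := setIntegral_nonneg hU fun t _ => hw t
  have h2 : 0 ≤ I2 := setIntegral_nonneg hU fun t _ => mul_nonneg (hw t) (sq_nonneg _)
  have h1 : 0 ≤ I1 := setIntegral_nonneg hU fun t _ => mul_nonneg (hw t) (hf t)
  have key : ∀ l : ℝ, 0 ≤ I0 * l ^ 2 - 2 * I1 * l + I2 := by
    intro l
    have e : ∫ t in U, w t * (f t - l) ^ 2 = I0 * l ^ 2 - 2 * I1 * l + I2 := by
      have e1 : ∀ t, w t * (f t - l) ^ 2 = w t * f t ^ 2 - (2 * l) * (w t * f t) + l ^ 2 * w t := by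
        intro t; ring
      have j1 : IntegrableOn (fun t => 2 * l * (w t * f t)) U := hwf.const_mul _
      have j2 : IntegrableOn (fun t => l ^ 2 * w t) U := hwi.const_mul _
      have e2 : ∫ t in U, (w t * f t ^ 2 - 2 * l * (w t * f t) + l ^ 2 * w t) =
          (∫ t in U, (w t * f t ^ 2 - 2 * l * (w t * f t))) + ∫ t in U, l ^ 2 * w t :=
        integral_add (hwf2.sub j1) j2
      have e3 : ∫ t in U, (w t * f t ^ 2 - 2 * l * (w t * f t)) =
          (∫ t in U, w t * f t ^ 2) - ∫ t in U, 2 * l * (w t * f t) := integral_sub hwf2 j1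
      have e4 : ∫ t in U, 2 * l * (w t * f t) = 2 * l * ∫ t in U, w t * f t :=
        MeasureTheory.integral_const_mul _ _
      have e5 : ∫ t in U, l ^ 2 * w t = l ^ 2 * ∫ t in U, w t :=
        MeasureTheory.integral_const_mul _ _
      simp_rw [e1]
      rw [e2, e3, e4, e5]
      ring
    rw [← e]
    exact setIntegral_nonneg hU fun t _ => mul_nonneg (hw t) (sq_nonneg _)
  have hdisc : I1 ^ 2 ≤ I0 * I2 := by
    rcases h0.eq_or_lt with h | h
    · have k1 := key (I2 + 1)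
      rw [← h] at k1
      have k2 : 2 * I1 * (I2 + 1) ≤ I2 := by linarith
      by_contra hc
      push Not at hc
      rw [← h, zero_mul] at hc
      have hp : 0 < I1 := by
        rcases h1.eq_or_lt with h' | h'
        · rw [← h'] at hc; norm_num at hc
        · exact h'
      have k3 := key ((I2 + 1) / I1)
      rw [← h] at k3
      have : 2 * I1 * ((I2 + 1) / I1) = 2 * (I2 + 1) := by field_simp
      linarith
    · have k1 := key (I1 / I0)
      have e1 : I0 * (I1 / I0) ^ 2 - 2 * I1 * (I1 / I0) + I2 = I2 - I1 ^ 2 / I0 := by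
        field_simp; ring
      rw [e1] at k1
      have : I1 ^ 2 / I0 ≤ I2 := by linarith
      rw [div_le_iff₀ h] at this
      linarith
  rw [← Real.sqrt_mul h0]
  exact Real.le_sqrt_of_sq_le hdisc

/-- **(T2)** Cauchy–Schwarz form: a family of coefficient vectors. -/
theorem tail_cauchy {a b η : ℝ} (hη : 0 < η) (hab : η ≤ b - a) {M : ℝ} (hM : 1 ≤ M)
    (N T0 : ℝ) (hN : 1 ≤ N) (hT0 : 1 ≤ T0) (hηN : 1 / η ≤ M * N)
    {ι : Type*} (H : Finset ι) (S : Finset Eis) (hS : ∀ z ∈ S, z ≠ 0 ∧ (nm z : ℝ) ≤ N)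
    (c : ι → Eis → ℂ) (M0 : ℝ) (hM0 : 0 ≤ M0) (Φ : ℝ → ℝ) (hΦi : IntegrableOn
      (fun t => ‖kerC a b η t‖ * Φ t) {t : ℝ | T0 < |t|})
    (hΦ : ∀ t, T0 < |t| → Φ t ≤ M0 + Real.sqrt (∑ h ∈ H, ‖dp S (c h) t‖ ^ 2)) :
    ∫ t in {t : ℝ | T0 < |t|}, ‖kerC a b η t‖ * Φ t ≤
      Cint * (1 + Real.log ((b - a) / η)) * M0 +
      Real.sqrt (Cint * (1 + Real.log ((b - a) / η))) *
        Real.sqrt (CT * M * (N / T0 + Real.sqrt N * (1 + Real.log N)) *
          ∑ h ∈ H, ∑ z ∈ S, ‖c h z‖ ^ 2) := by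
  have hab' : a ≤ b := by linarith
  have hU : MeasurableSet {t : ℝ | T0 < |t|} := measurableSet_lt measurable_const (by fun_prop)
  have hck := continuous_kerC (a := a) (b := b) hη hab'
  have hki := (integrable_kerC (a := a) (b := b) hη hab').norm
  have hne : ∀ z ∈ S, z ≠ 0 := fun z hz => (hS z hz).1
  have hcd : ∀ h, Continuous (fun t => ‖dp S (c h) t‖ ^ 2) :=
    fun h => (continuous_dp hne (c h)).norm.pow 2
  set F : ℝ → ℝ := fun t => Real.sqrt (∑ h ∈ H, ‖dp S (c h) t‖ ^ 2) with hF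
  have hFc : Continuous F := (continuous_finsetSum _ fun h _ => hcd h).sqrt
  have hF0 : ∀ t, 0 ≤ F t := fun t => Real.sqrt_nonneg _
  have hFsq : ∀ t, F t ^ 2 = ∑ h ∈ H, ‖dp S (c h) t‖ ^ 2 := fun t =>
    Real.sq_sqrt (Finset.sum_nonneg fun _ _ => by positivity)
  set E : ℝ := ∑ h ∈ H, ∑ z ∈ S, ‖c h z‖ ^ 2 with hE
  have hE0 : 0 ≤ E := Finset.sum_nonneg fun _ _ => Finset.sum_nonneg fun _ _ => by positivity
  have hFb : ∀ t, F t ^ 2 ≤ 18 * N * E := by
    intro t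
    rw [hFsq, hE, Finset.mul_sum]
    exact Finset.sum_le_sum fun h _ => dp_sq_le hN hS (c h) t
  have hFb1 : ∀ t, F t ≤ 1 + 18 * N * E := by
    intro t
    nlinarith [hFb t, sq_nonneg (F t - 1), hF0 t]
  have i1 : Integrable (fun t => ‖kerC a b η t‖ * F t) := by
    refine hki.mul_bdd (c := 1 + 18 * N * E) hFc.aestronglyMeasurable
      (Filter.Eventually.of_forall fun t => ?_)
    rw [Real.norm_of_nonneg (hF0 t)]
    exact hFb1 t
  have i2 : Integrable (fun t => ‖kerC a b η t‖ * F t ^ 2) := by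
    refine hki.mul_bdd (c := 18 * N * E) (hFc.pow 2).aestronglyMeasurable
      (Filter.Eventually.of_forall fun t => ?_)
    rw [Real.norm_of_nonneg (by positivity)]
    exact hFb t
  have hkint : ∫ t in {t : ℝ | T0 < |t|}, ‖kerC a b η t‖ ≤
      Cint * (1 + Real.log ((b - a) / η)) := by
    refine le_trans ?_ (integral_norm_kerC_le hη hab)
    exact setIntegral_le_integral hki (Filter.Eventually.of_forall fun t => norm_nonneg _)
  have hkint0 : 0 ≤ ∫ t in {t : ℝ | T0 < |t|}, ‖kerC a b η t‖ :=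
    setIntegral_nonneg hU fun t _ => norm_nonneg _
  have step1 : ∫ t in {t : ℝ | T0 < |t|}, ‖kerC a b η t‖ * Φ t ≤
      ∫ t in {t : ℝ | T0 < |t|}, (‖kerC a b η t‖ * M0 + ‖kerC a b η t‖ * F t) := by
    apply setIntegral_mono_on hΦi ((hki.mul_const M0).add i1).integrableOn hU
    intro t ht
    calc ‖kerC a b η t‖ * Φ t ≤ ‖kerC a b η t‖ * (M0 + F t) :=
          mul_le_mul_of_nonneg_left (hΦ t ht) (norm_nonneg _)
      _ = ‖kerC a b η t‖ * M0 + ‖kerC a b η t‖ * F t := by simp only [hF]; ring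
  refine step1.trans ?_
  rw [integral_add (hki.mul_const M0).integrableOn i1.integrableOn,
    MeasureTheory.integral_mul_const]
  have step2 := cauchy_weight hU (fun t => norm_nonneg (kerC a b η t)) hF0 hki.integrableOn
    i1.integrableOn i2.integrableOn
  have step3 : ∫ t in {t : ℝ | T0 < |t|}, ‖kerC a b η t‖ * F t ^ 2 ≤
      CT * M * (N / T0 + Real.sqrt N * (1 + Real.log N)) * E := by
    have e : ∀ t, ‖kerC a b η t‖ * F t ^ 2 =
        ∑ h ∈ H, ‖kerC a b η t‖ * ‖dp S (c h) t‖ ^ 2 := by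
      intro t; rw [hFsq, Finset.mul_sum]
    simp_rw [e]
    rw [integral_finset_sum]
    · rw [hE, Finset.mul_sum]
      exact Finset.sum_le_sum fun h _ => tail_sq hη hab' hM S N T0 hN hT0 hηN hS (c h)
    · intro h _
      refine (hki.mul_bdd (c := 18 * N * ∑ z ∈ S, ‖c h z‖ ^ 2) (hcd h).aestronglyMeasurable
        (Filter.Eventually.of_forall fun t => ?_)).integrableOn
      rw [Real.norm_of_nonneg (by positivity)]
      exact dp_sq_le hN hS (c h) t
  have h4 : (∫ t in {t : ℝ | T0 < |t|}, ‖kerC a b η t‖) * M0 ≤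
      Cint * (1 + Real.log ((b - a) / η)) * M0 := by gcongr
  refine add_le_add h4 (step2.trans ?_)
  exact mul_le_mul (Real.sqrt_le_sqrt hkint) (Real.sqrt_le_sqrt step3) (Real.sqrt_nonneg _)
    (Real.sqrt_nonneg _)

/-- **(T3)** sup on `|t| ≤ T₀`, Cauchy–Schwarz on `|t| > T₀`. -/
theorem total {a b η : ℝ} (hη : 0 < η) (hab : η ≤ b - a) {M : ℝ} (hM : 1 ≤ M)
    (N T0 : ℝ) (hN : 1 ≤ N) (hT0 : 1 ≤ T0) (hηN : 1 / η ≤ M * N)
    {ι : Type*} (H : Finset ι) (S : Finset Eis) (hS : ∀ z ∈ S, z ≠ 0 ∧ (nm z : ℝ) ≤ N)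
    (c : ι → Eis → ℂ) (M0 M1 : ℝ) (hM0 : 0 ≤ M0) (hM1 : 0 ≤ M1) (Φ : ℝ → ℝ)
    (hΦi : Integrable (fun t => ‖kerC a b η t‖ * Φ t))
    (hΦs : ∀ t, |t| ≤ T0 → Φ t ≤ M1)
    (hΦ : ∀ t, T0 < |t| → Φ t ≤ M0 + Real.sqrt (∑ h ∈ H, ‖dp S (c h) t‖ ^ 2)) :
    ∫ t, ‖kerC a b η t‖ * Φ t ≤
      Cint * (1 + Real.log ((b - a) / η)) * (M0 + M1) +
      Real.sqrt (Cint * (1 + Real.log ((b - a) / η))) *
        Real.sqrt (CT * M * (N / T0 + Real.sqrt N * (1 + Real.log N)) *
          ∑ h ∈ H, ∑ z ∈ S, ‖c h z‖ ^ 2) := by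
  have hab' : a ≤ b := by linarith
  have hU : MeasurableSet {t : ℝ | T0 < |t|} := measurableSet_lt measurable_const (by fun_prop)
  have hki := (integrable_kerC (a := a) (b := b) hη hab').norm
  rw [← integral_add_compl hU hΦi]
  have h1 := tail_cauchy hη hab hM N T0 hN hT0 hηN H S hS c M0 hM0 Φ hΦi.integrableOn hΦ
  have h2 : ∫ t in {t : ℝ | T0 < |t|}ᶜ, ‖kerC a b η t‖ * Φ t ≤
      Cint * (1 + Real.log ((b - a) / η)) * M1 := by
    calc ∫ t in {t : ℝ | T0 < |t|}ᶜ, ‖kerC a b η t‖ * Φ t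
        ≤ ∫ t in {t : ℝ | T0 < |t|}ᶜ, ‖kerC a b η t‖ * M1 := by
          apply setIntegral_mono_on hΦi.integrableOn (hki.mul_const M1).integrableOn hU.compl
          intro t ht
          exact mul_le_mul_of_nonneg_left (hΦs t (by simpa using ht)) (norm_nonneg _)
      _ ≤ ∫ t, ‖kerC a b η t‖ * M1 :=
          setIntegral_le_integral (hki.mul_const M1)
            (Filter.Eventually.of_forall fun t => by positivity)
      _ = (∫ t, ‖kerC a b η t‖) * M1 := MeasureTheory.integral_mul_const _ _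
      _ ≤ _ := by
          gcongr
          exact integral_norm_kerC_le hη hab
  have := add_le_add h1 h2
  refine this.trans (le_of_eq ?_)
  ring

end Crest.Agent.R012.TAvg255
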