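import Crest.Agent.R012.Spec_T_411
import Crest.Agent.R012.GaussInst_880
import Crest.Agent.R012.PoissonS_581
import Crest.Agent.R012.Dec_766

/-!
# Row 12, part (T): the exact decomposition (T0)
-/

set_option autoImplicit false

noncomputable section

namespace Crest.Agent.R012.T411

open Eis Mob705 Div277 Gauss880

local notation "cj" => starRingEnd ℂ

lemma summable_exp {A : ℝ} (hA : 0 < A) :
    Summable (fun a : Eis => Real.exp (-(nm a : ℝ) / A)) := by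
  refine Summable.of_nonneg_of_le (fun a => (Real.exp_pos _).le) (fun a => ?_)
    (Po581.summable_eis_pow3.mul_left (8 * (1 + 2 * A ^ 2)))
  set x := ‖toC a‖ with hx
  have hx0 : 0 ≤ x := norm_nonneg _
  have hn : (nm a : ℝ) = x ^ 2 := by rw [hx, norm_toC_sq]
  rw [hn]
  set y := x ^ 2 / A with hy
  have hy0 : 0 ≤ y := by positivity
  have h1 : y ^ 2 ≤ 2 * Real.exp y := by
    have := Real.quadratic_le_exp_of_nonneg hy0
    nlinarith
  have h2 : Real.exp (-x ^ 2 / A) = (Real.exp y)⁻¹ := by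
    rw [← Real.exp_neg, hy]; congr 1; ring
  rw [h2]
  have h3 : x ^ 4 = A ^ 2 * y ^ 2 := by rw [hy]; field_simp
  have h4 : (1 + x) ^ 3 ≤ 8 * (1 + x ^ 4) := by
    nlinarith [sq_nonneg (x ^ 2 - 1), sq_nonneg (x - 1), mul_nonneg hx0 (sq_nonneg (x - 1)),
      sq_nonneg (x ^ 2 - x), pow_nonneg hx0 3]
  have he : 1 ≤ Real.exp y := Real.one_le_exp hy0
  have h5 : 1 + x ^ 4 ≤ (1 + 2 * A ^ 2) * Real.exp y := by
    rw [h3]
    nlinarith [mul_le_mul_of_nonneg_left h1 (sq_nonneg A)]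
  rw [inv_eq_one_div, mul_one_div, div_le_div_iff₀ (Real.exp_pos _) (by positivity)]
  nlinarith

/-- valid pairs -/
def VP (q : Eis × Eis) : Prop := SqP q.1 ∧ IsPrim q.2

/-- `a = a₀ m³` -/
def Ph (q : Eis × Eis) : Eis := q.1 * q.2 ^ 3

lemma Ph_inj {q q' : Eis × Eis} (hq : VP q) (hq' : VP q') (h : Ph q = Ph q') : q = q' := by
  obtain ⟨a, m⟩ := q
  obtain ⟨a', m'⟩ := q'
  obtain ⟨⟨ha, hs⟩, hm⟩ := hq
  obtain ⟨⟨ha', hs'⟩, hm'⟩ := hq'
  simp only [Ph] at *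
  have d1 : Char766.IsCubDec (a * m ^ 3) 0 0 a 1 m :=
    ⟨by norm_num, by norm_num, ha, isPrim_one, hs, squarefree_one, isCoprime_one_right, hm.ne_zero,
      by ring⟩
  have d2 : Char766.IsCubDec (a * m ^ 3) 0 0 a' 1 m' :=
    ⟨by norm_num, by norm_num, ha', isPrim_one, hs', squarefree_one, isCoprime_one_right,
      hm'.ne_zero, by rw [h]; ring⟩
  obtain ⟨-, -, h1, -, h2⟩ := d1.unique d2
  have h3 : Associated m m' := by
    have hf : (m - m') * ((m - w * m') * (m - w ^ 2 * m')) = 0 := by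
      have hw := one_add_w_add
      have hw3 := w_cube
      linear_combination h2 + (m * m' ^ 2 * w - m ^ 2 * m') * hw - m' ^ 3 * hw3
    rcases mul_eq_zero.mp hf with h | h
    · rw [sub_eq_zero.mp h]
    rcases mul_eq_zero.mp h with h | h
    · rw [sub_eq_zero.mp h]
      exact (associated_unit_mul_left _ _ isUnit_w)
    · rw [sub_eq_zero.mp h]
      exact (associated_unit_mul_left _ _ (isUnit_w.pow 2))
  rw [h1, hm.eq_of_associated hm' h3]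


/-- `D₁(a) = ∑ β_b G(b) conj (a/b)` -/
def DD1 (𝓑 : Finset Eis) (β : Eis → ℂ) (a : Eis) : ℂ :=
  ∑ b ∈ 𝓑, β b * (G b * cj (sy a b))

open Classical in
/-- `D₂` at `a = a₀ m³` -/
def DD2 (𝓑 : Finset Eis) (β : Eis → ℂ) (q : Eis × Eis) : ℂ :=
  (pC : ℂ) * cj (G q.1) * (((nm q.1 : ℝ) ^ (-(1 : ℝ) / 6) : ℝ) : ℂ) *
    ∑ b ∈ 𝓑, if IsCoprime (q.1 * q.2) b then β b * (((nm b : ℝ) ^ (-(1 : ℝ) / 6) : ℝ) : ℂ) else 0

lemma nmR_pos {a : Eis} (ha : IsPrim a) : (0 : ℝ) < nm a := by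
  exact_mod_cast nm_pos.mpr ha.ne_zero

lemma squarefree_mul_iff_of {a b : Eis} (ha : SqP a) (hb : SqP b) :
    Squarefree (a * b) ↔ IsCoprime a b := by
  constructor
  · intro hsf
    refine isCoprime_of_prime_dvd (fun h => ha.1.ne_zero h.1) (fun p hp hpa hpb => ?_)
    exact hp.not_isUnit (hsf p (mul_dvd_mul hpa hpb))
  · intro h
    exact (squarefree_mul_iff.mpr ⟨h.isRelPrime, ha.2, hb.2⟩)

lemma F_mul_of_not_coprime {a b : Eis} (ha : SqP a) (hb : SqP b) (h : ¬ IsCoprime a b) :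
    F (a * b) = 0 := by
  have h1 : ¬ Squarefree (a * b) := fun h2 => h ((squarefree_mul_iff_of ha hb).mp h2)
  unfold F mdl
  rw [if_neg h1, G_eq_zero syG (ha.1.mul hb.1) h1]
  simp

/-- the key algebraic identity -/
lemma key {a b m : Eis} (ha : SqP a) (hb : SqP b) (_hm : IsPrim m) :
    (open Classical in G a * (G b * cj (sy (a * m ^ 3) b) - (if IsCoprime (a * m) b then
      (pC : ℂ) * cj (G a) * (((nm a : ℝ) ^ (-(1 : ℝ) / 6) : ℝ) : ℂ) *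
        (((nm b : ℝ) ^ (-(1 : ℝ) / 6) : ℝ) : ℂ) else 0)) =
    if IsCoprime m b then F (a * b) else 0) := by
  classical
  by_cases hmb : IsCoprime m b
  · rw [if_pos hmb]
    have hm3 : sy (m ^ 3) b = 1 := by
      rw [pow_succ, pow_succ, pow_one, syG.mul_left _ _ _ hb.1, syG.mul_left _ _ _ hb.1]
      have := syG.cube m b hb.1 hmb
      rw [← this]; ring
    rw [syG.mul_left _ _ _ hb.1, hm3, mul_one]
    by_cases hab : IsCoprime a b
    · rw [if_pos (hab.mul_left hmb)]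
      have hsf : Squarefree (a * b) := (squarefree_mul_iff_of ha hb).mpr hab
      unfold F mdl
      rw [if_pos hsf, G_mul_all syG ha.1 hb.1, nm_mul]
      have h1 := G_mul_conj syG ha.1 ha.2
      have h2 : (((nm a * nm b : ℕ) : ℝ)) ^ (-(1 / 6) : ℝ) =
          (nm a : ℝ) ^ (-(1 : ℝ) / 6) * (nm b : ℝ) ^ (-(1 : ℝ) / 6) := by
        rw [Nat.cast_mul, Real.mul_rpow (nmR_pos ha.1).le (nmR_pos hb.1).le]
        norm_num
      rw [h2]
      push_cast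
      linear_combination (-(pC : ℂ) * (((nm a : ℝ) ^ (-(1 : ℝ) / 6) : ℝ) : ℂ) *
        (((nm b : ℝ) ^ (-(1 : ℝ) / 6) : ℝ) : ℂ)) * h1
    · rw [F_mul_of_not_coprime ha hb hab, if_neg (fun h => hab h.of_mul_left_left),
        (syG.eq_zero a b hb.1).mpr hab]
      simp
  · have h1 : ¬ IsCoprime (a * m) b := fun h => hmb h.of_mul_left_right
    have h2 : ¬ IsCoprime (a * m ^ 3) b := fun h =>
      hmb (IsCoprime.pow_left_iff (by norm_num : 0 < 3) |>.mp h.of_mul_left_right)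
    rw [if_neg hmb, if_neg h1, (syG.eq_zero _ b hb.1).mpr h2]
    simp


lemma nm_Ph (q : Eis × Eis) : (nm (Ph q) : ℝ) = (nm q.1 : ℝ) * (nm q.2 : ℝ) ^ 3 := by
  unfold Ph; rw [nm_mul, nm_pow]; push_cast; ring

/-- weight of a pair -/
def Wq (A : ℝ) (q : Eis × Eis) : ℝ := Real.exp (-((nm q.1 : ℝ) * (nm q.2 : ℝ) ^ 3) / A)

lemma Wq_eq (A : ℝ) (q : Eis × Eis) : Wq A q = Real.exp (-(nm (Ph q) : ℝ) / A) := by
  rw [nm_Ph, Wq]

lemma Wq_pos (A : ℝ) (q : Eis × Eis) : 0 < Wq A q := Real.exp_pos _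

open Classical in
lemma summable_Wq {A : ℝ} (hA : 0 < A) :
    Summable (fun q : Eis × Eis => if VP q then Wq A q else 0) := by
  have h1 : Function.Injective (fun q : {q : Eis × Eis // VP q} => Ph q.1) := by
    intro q q' h
    exact Subtype.ext (Ph_inj q.2 q'.2 h)
  have h2 := (summable_exp hA).comp_injective h1
  have h3 : Summable ((fun q : Eis × Eis => Wq A q) ∘ ((↑) : {q | VP q} → Eis × Eis)) := by
    refine h2.congr (fun q => ?_)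
    simp only [Function.comp]
    rw [Wq_eq]
  rw [summable_subtype_iff_indicator] at h3
  refine h3.congr (fun q => ?_)
  rw [Set.indicator_apply]
  rfl

lemma norm_term_le {b a : Eis} (hb : IsPrim b) : ‖G b * cj (sy a b)‖ ≤ 1 := by
  rw [norm_mul, RCLike.norm_conj]
  exact mul_le_one₀ (norm_G_le syG hb) (norm_nonneg _) (norm_sy_le syG hb)

lemma norm_DD1_le {𝓑 : Finset Eis} {β : Eis → ℂ} (h𝓑 : ∀ b ∈ 𝓑, SqP b) (a : Eis) :
    ‖DD1 𝓑 β a‖ ≤ ∑ b ∈ 𝓑, ‖β b‖ := by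
  unfold DD1
  refine (norm_sum_le _ _).trans (Finset.sum_le_sum fun b hb => ?_)
  rw [norm_mul]
  exact mul_le_of_le_one_right (norm_nonneg _) (norm_term_le (h𝓑 b hb).1)

lemma rpow_neg_le_one {a : Eis} (ha : IsPrim a) {s : ℝ} (hs : s ≤ 0) : (nm a : ℝ) ^ s ≤ 1 := by
  refine Real.rpow_le_one_of_one_le_of_nonpos ?_ hs
  exact_mod_cast nm_pos.mpr ha.ne_zero

lemma norm_DD2_le {𝓑 : Finset Eis} {β : Eis → ℂ} (h𝓑 : ∀ b ∈ 𝓑, SqP b) {q : Eis × Eis}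
    (hq : VP q) : ‖DD2 𝓑 β q‖ ≤ |pC| * ∑ b ∈ 𝓑, ‖β b‖ := by
  classical
  unfold DD2
  rw [norm_mul, norm_mul, norm_mul, RCLike.norm_conj, Complex.norm_real, Real.norm_eq_abs,
    norm_G syG hq.1.1 hq.1.2, mul_one, Complex.norm_real, Real.norm_eq_abs, mul_assoc]
  refine mul_le_mul_of_nonneg_left ?_ (abs_nonneg _)
  have h1 : |(nm q.1 : ℝ) ^ (-(1 : ℝ) / 6)| ≤ 1 := by
    rw [abs_of_nonneg (by positivity)]
    exact rpow_neg_le_one hq.1.1 (by norm_num)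
  refine (mul_le_of_le_one_left (norm_nonneg _) h1).trans ?_
  refine (norm_sum_le _ _).trans (Finset.sum_le_sum fun b hb => ?_)
  split_ifs
  · rw [norm_mul, Complex.norm_real, Real.norm_eq_abs, abs_of_nonneg (by positivity)]
    exact mul_le_of_le_one_right (norm_nonneg _) (rpow_neg_le_one (h𝓑 b hb).1 (by norm_num))
  · simp

/-- `G(a₀) (D₁ - D₂) = ∑ β_b F(a₀ b)` over `(b, m) = 1` -/
lemma G_mul_diff {𝓑 : Finset Eis} {β : Eis → ℂ} (h𝓑 : ∀ b ∈ 𝓑, SqP b) {q : Eis × Eis}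
    (hq : VP q) : (open Classical in G q.1 * (DD1 𝓑 β (Ph q) - DD2 𝓑 β q) =
      ∑ b ∈ 𝓑, β b * if IsCoprime q.2 b then F (q.1 * b) else 0) := by
  classical
  unfold DD1 DD2
  rw [Finset.mul_sum, ← Finset.sum_sub_distrib, Finset.mul_sum]
  refine Finset.sum_congr rfl fun b hb => ?_
  rw [← key hq.1 (h𝓑 b hb) hq.2]
  unfold Ph
  split_ifs <;> ring

/-- product identity -/
lemma diff_mul_conj {𝓑 : Finset Eis} {β : Eis → ℂ} (h𝓑 : ∀ b ∈ 𝓑, SqP b) {q : Eis × Eis}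
    (hq : VP q) : (open Classical in (DD1 𝓑 β (Ph q) - DD2 𝓑 β q) * cj (DD2 𝓑 β q) =
      (pC : ℂ) * ∑ b₁ ∈ 𝓑, ∑ b₂ ∈ 𝓑, β b₁ * cj (β b₂) * ((nm b₂ : ℝ) ^ (-(1 : ℝ) / 6) : ℝ) *
        (if IsCoprime q.2 (b₁ * b₂) ∧ IsCoprime q.1 b₂ then
          (((nm q.1 : ℝ) ^ (-(1 : ℝ) / 6) : ℝ) : ℂ) * F (q.1 * b₁) else 0)) := by
  classical
  have h1 : cj (DD2 𝓑 β q) = G q.1 * ((pC : ℂ) * (((nm q.1 : ℝ) ^ (-(1 : ℝ) / 6) : ℝ) : ℂ) *
      ∑ b ∈ 𝓑, if IsCoprime (q.1 * q.2) b then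
        cj (β b) * (((nm b : ℝ) ^ (-(1 : ℝ) / 6) : ℝ) : ℂ) else 0) := by
    unfold DD2
    rw [map_mul, map_mul, map_mul, Complex.conj_conj, Complex.conj_ofReal, Complex.conj_ofReal,
      map_sum]
    have : ∀ b ∈ 𝓑, cj (if IsCoprime (q.1 * q.2) b then
        β b * (((nm b : ℝ) ^ (-(1 : ℝ) / 6) : ℝ) : ℂ) else 0) =
        if IsCoprime (q.1 * q.2) b then
        cj (β b) * (((nm b : ℝ) ^ (-(1 : ℝ) / 6) : ℝ) : ℂ) else 0 := by
      intro b _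
      split_ifs
      · rw [map_mul, Complex.conj_ofReal]
      · simp
    rw [Finset.sum_congr rfl this]
    ring
  rw [h1, ← mul_assoc, mul_comm _ (G q.1), G_mul_diff h𝓑 hq]
  have h2 : ∀ x n c y : ℂ, x * (c * n * y) = c * (x * (n * y)) := by intros; ring
  rw [h2]
  congr 1
  rw [Finset.mul_sum, Finset.sum_mul_sum]
  refine Finset.sum_congr rfl fun b₁ _ => Finset.sum_congr rfl fun b₂ _ => ?_
  have hiff : (IsCoprime q.2 (b₁ * b₂) ∧ IsCoprime q.1 b₂) ↔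
      (IsCoprime q.2 b₁ ∧ IsCoprime (q.1 * q.2) b₂) := by
    rw [IsCoprime.mul_right_iff, IsCoprime.mul_left_iff]
    tauto
  by_cases c1 : IsCoprime q.2 b₁ <;> by_cases c2 : IsCoprime (q.1 * q.2) b₂
  · rw [if_pos c1, if_pos c2, if_pos (hiff.mpr ⟨c1, c2⟩)]; ring
  · rw [if_neg c2, if_neg (fun h => c2 (hiff.mp h).2)]; ring
  · rw [if_neg c1, if_neg (fun h => c1 (hiff.mp h).1)]; ring
  · rw [if_neg c1, if_neg (fun h => c1 (hiff.mp h).1)]; ring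


/-! ### exchange of sums -/

open Classical in
lemma summable_P1_term {A : ℝ} (hA : 0 < A) {b₁ b₂ : Eis} (h₁ : IsPrim b₁) (h₂ : IsPrim b₂) :
    Summable (fun a : Eis => if IsPrim a then (Real.exp (-(nm a : ℝ) / A) : ℂ) *
    (G b₁ * cj (sy a b₁) * cj (G b₂ * cj (sy a b₂))) else 0) := by
  refine Summable.of_norm_bounded (summable_exp hA) (fun a => ?_)
  split_ifs
  · rw [norm_mul, Complex.norm_real, Real.norm_eq_abs, abs_of_pos (Real.exp_pos _)]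
    refine mul_le_of_le_one_right (Real.exp_pos _).le ?_
    rw [norm_mul, RCLike.norm_conj]
    exact mul_le_one₀ (norm_term_le h₁) (norm_nonneg _) (norm_term_le h₂)
  · rw [norm_zero]; exact (Real.exp_pos _).le

open Classical in
lemma S1_eq {A : ℝ} (hA : 0 < A) {𝓑 : Finset Eis} {β : Eis → ℂ} (h𝓑 : ∀ b ∈ 𝓑, SqP b) :
    ∑' a : Eis, (if IsPrim a then (Real.exp (-(nm a : ℝ) / A) : ℂ) *
      (DD1 𝓑 β a * cj (DD1 𝓑 β a)) else 0) =
    ∑ b₁ ∈ 𝓑, ∑ b₂ ∈ 𝓑, β b₁ * cj (β b₂) * P1 A b₁ b₂ := by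
  have h1 : ∀ a : Eis, (if IsPrim a then (Real.exp (-(nm a : ℝ) / A) : ℂ) *
      (DD1 𝓑 β a * cj (DD1 𝓑 β a)) else 0) = ∑ b₁ ∈ 𝓑, ∑ b₂ ∈ 𝓑, β b₁ * cj (β b₂) *
      (if IsPrim a then (Real.exp (-(nm a : ℝ) / A) : ℂ) *
    (G b₁ * cj (sy a b₁) * cj (G b₂ * cj (sy a b₂))) else 0) := by
    intro a
    split_ifs
    · unfold DD1
      rw [map_sum, Finset.sum_mul_sum, Finset.mul_sum]
      refine Finset.sum_congr rfl fun b₁ _ => ?_
      rw [Finset.mul_sum]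
      refine Finset.sum_congr rfl fun b₂ _ => ?_
      rw [map_mul]; ring
    · simp
  simp_rw [h1]
  rw [Summable.tsum_finsetSum (fun b₁ hb₁ => summable_sum fun b₂ hb₂ =>
    (summable_P1_term hA (h𝓑 b₁ hb₁).1 (h𝓑 b₂ hb₂).1).mul_left _)]
  refine Finset.sum_congr rfl fun b₁ hb₁ => ?_
  rw [Summable.tsum_finsetSum (fun b₂ hb₂ =>
    (summable_P1_term hA (h𝓑 b₁ hb₁).1 (h𝓑 b₂ hb₂).1).mul_left _)]
  refine Finset.sum_congr rfl fun b₂ hb₂ => ?_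
  rw [tsum_mul_left, P1]

open Classical in
lemma summable_pairs {A : ℝ} (hA : 0 < A) {f : Eis × Eis → ℂ} {M : ℝ}
    (hf : ∀ q, VP q → ‖f q‖ ≤ M * Wq A q) :
    Summable (fun q => if VP q then f q else 0) := by
  refine Summable.of_norm_bounded ((summable_Wq hA).mul_left M) (fun q => ?_)
  split_ifs with h
  · exact hf q h
  · simp

lemma abs_rpow_le {a : Eis} (ha : IsPrim a) {s : ℝ} (hs : s ≤ 0) : |(nm a : ℝ) ^ s| ≤ 1 := by
  rw [abs_of_nonneg (by positivity)]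
  exact rpow_neg_le_one ha hs

lemma norm_F_le {n : Eis} (hn : IsPrim n) : ‖F n‖ ≤ 1 + |pC| := by
  unfold F mdl
  refine (norm_sub_le _ _).trans (add_le_add (norm_G_le syG hn) ?_)
  rw [Complex.norm_real, Real.norm_eq_abs]
  split_ifs
  · rw [abs_mul]
    exact mul_le_of_le_one_right (abs_nonneg _) (abs_rpow_le hn (by norm_num))
  · simp

open Classical in
lemma P3_eq (A : ℝ) (b : Eis) : ((P3 A b : ℝ) : ℂ) =
    ∑' q : Eis × Eis, if VP q then (Wq A q : ℂ) * (if IsCoprime (q.1 * q.2) b then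
      (((nm q.1 : ℝ) ^ (-(1 : ℝ) / 3) : ℝ) : ℂ) else 0) else 0 := by
  unfold P3
  rw [Complex.ofReal_tsum]
  congr 1
  funext q
  unfold VP Wq
  by_cases h1 : SqP q.1 <;> by_cases h2 : IsPrim q.2 <;> by_cases h3 : IsCoprime (q.1 * q.2) b <;>
    simp [h1, h2, h3]

open Classical in
lemma S3_eq {A : ℝ} (hA : 0 < A) {𝓑 : Finset Eis} {β : Eis → ℂ} (h𝓑 : ∀ b ∈ 𝓑, SqP b) :
    ∑' q : Eis × Eis, (if VP q then (Wq A q : ℂ) * (DD2 𝓑 β q * cj (DD2 𝓑 β q)) else 0) =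
    ∑ b₁ ∈ 𝓑, ∑ b₂ ∈ 𝓑, β b₁ * cj (β b₂) *
      ((pC ^ 2 * ((nm b₁ : ℝ) * nm b₂) ^ (-(1 : ℝ) / 6) * P3 A (b₁ * b₂) : ℝ) : ℂ) := by
  have h1 : ∀ q : Eis × Eis, (if VP q then (Wq A q : ℂ) * (DD2 𝓑 β q * cj (DD2 𝓑 β q)) else 0) =
      ∑ b₁ ∈ 𝓑, ∑ b₂ ∈ 𝓑, β b₁ * cj (β b₂) *
      ((pC ^ 2 * ((nm b₁ : ℝ) * nm b₂) ^ (-(1 : ℝ) / 6) : ℝ) : ℂ) *
      (if VP q then (Wq A q : ℂ) * (if IsCoprime (q.1 * q.2) (b₁ * b₂) then
      (((nm q.1 : ℝ) ^ (-(1 : ℝ) / 3) : ℝ) : ℂ) else 0) else 0) := by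
    intro q
    by_cases hq : VP q
    · simp only [if_pos hq]
      have hG := G_mul_conj syG hq.1.1 hq.1.2
      have hn : (((nm q.1 : ℝ) ^ (-(1 : ℝ) / 3) : ℝ) : ℂ) =
          (((nm q.1 : ℝ) ^ (-(1 : ℝ) / 6) : ℝ) : ℂ) * (((nm q.1 : ℝ) ^ (-(1 : ℝ) / 6) : ℝ) : ℂ) := by
        rw [← Complex.ofReal_mul, ← Real.rpow_add (nmR_pos hq.1.1)]
        norm_num
      have h2 : DD2 𝓑 β q * cj (DD2 𝓑 β q) = (G q.1 * cj (G q.1)) * ((pC : ℂ) ^ 2 *
          (((nm q.1 : ℝ) ^ (-(1 : ℝ) / 6) : ℝ) : ℂ) * (((nm q.1 : ℝ) ^ (-(1 : ℝ) / 6) : ℝ) : ℂ) *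
          ((∑ b ∈ 𝓑, if IsCoprime (q.1 * q.2) b then
            β b * (((nm b : ℝ) ^ (-(1 : ℝ) / 6) : ℝ) : ℂ) else 0) *
           cj (∑ b ∈ 𝓑, if IsCoprime (q.1 * q.2) b then
            β b * (((nm b : ℝ) ^ (-(1 : ℝ) / 6) : ℝ) : ℂ) else 0))) := by
        unfold DD2
        rw [map_mul, map_mul, map_mul, Complex.conj_conj, Complex.conj_ofReal, Complex.conj_ofReal]
        ring
      rw [h2, hG, one_mul, map_sum, Finset.sum_mul_sum, Finset.mul_sum, Finset.mul_sum]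
      refine Finset.sum_congr rfl fun b₁ hb₁ => ?_
      rw [Finset.mul_sum, Finset.mul_sum]
      refine Finset.sum_congr rfl fun b₂ hb₂ => ?_
      have hnn : ((((nm b₁ : ℝ) * nm b₂) ^ (-(1 : ℝ) / 6) : ℝ) : ℂ) =
          (((nm b₁ : ℝ) ^ (-(1 : ℝ) / 6) : ℝ) : ℂ) * (((nm b₂ : ℝ) ^ (-(1 : ℝ) / 6) : ℝ) : ℂ) := by
        rw [Real.mul_rpow (nmR_pos (h𝓑 b₁ hb₁).1).le (nmR_pos (h𝓑 b₂ hb₂).1).le]
        push_cast; rfl
      have hiff : IsCoprime (q.1 * q.2) (b₁ * b₂) ↔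
          (IsCoprime (q.1 * q.2) b₁ ∧ IsCoprime (q.1 * q.2) b₂) := IsCoprime.mul_right_iff
      by_cases c1 : IsCoprime (q.1 * q.2) b₁ <;> by_cases c2 : IsCoprime (q.1 * q.2) b₂
      · rw [if_pos c1, if_pos c2, if_pos (hiff.mpr ⟨c1, c2⟩), hn, map_mul, Complex.conj_ofReal]
        rw [Complex.ofReal_mul, hnn]
        push_cast
        ring
      · rw [if_neg c2, if_neg (fun h => c2 (hiff.mp h).2)]; simp
      · rw [if_neg c1, if_neg (fun h => c1 (hiff.mp h).1)]; simp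
      · rw [if_neg c1, if_neg (fun h => c1 (hiff.mp h).1)]; simp
    · simp [hq]
  simp_rw [h1]
  have hsum : ∀ b₁ b₂ : Eis, Summable (fun q : Eis × Eis =>
      (if VP q then (Wq A q : ℂ) * (if IsCoprime (q.1 * q.2) (b₁ * b₂) then
      (((nm q.1 : ℝ) ^ (-(1 : ℝ) / 3) : ℝ) : ℂ) else 0) else 0)) := by
    intro b₁ b₂
    refine summable_pairs hA (M := 1) (fun q hq => ?_)
    rw [norm_mul, Complex.norm_real, Real.norm_eq_abs, abs_of_pos (Wq_pos A q), one_mul]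
    refine mul_le_of_le_one_right (Wq_pos A q).le ?_
    split_ifs
    · rw [Complex.norm_real, Real.norm_eq_abs]
      exact abs_rpow_le hq.1.1 (by norm_num)
    · simp
  rw [Summable.tsum_finsetSum (fun b₁ _ => summable_sum fun b₂ _ => (hsum b₁ b₂).mul_left _)]
  refine Finset.sum_congr rfl fun b₁ hb₁ => ?_
  rw [Summable.tsum_finsetSum (fun b₂ _ => (hsum b₁ b₂).mul_left _)]
  refine Finset.sum_congr rfl fun b₂ hb₂ => ?_
  rw [tsum_mul_left, ← P3_eq]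
  push_cast
  ring

open Classical in
lemma P23_eq (A : ℝ) (b₁ b₂ : Eis) : P23 A b₁ b₂ =
    ∑' q : Eis × Eis, if VP q then (Wq A q : ℂ) *
      (if IsCoprime q.2 (b₁ * b₂) ∧ IsCoprime q.1 b₂ then
          (((nm q.1 : ℝ) ^ (-(1 : ℝ) / 6) : ℝ) : ℂ) * F (q.1 * b₁) else 0) else 0 := by
  unfold P23
  congr 1
  funext q
  unfold VP Wq
  by_cases h1 : SqP q.1 <;> by_cases h2 : IsPrim q.2 <;>
    by_cases h3 : IsCoprime q.2 (b₁ * b₂) <;> by_cases h4 : IsCoprime q.1 b₂ <;>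
    simp [h1, h2, h3, h4]
  ring

open Classical in
lemma S23_eq {A : ℝ} (hA : 0 < A) {𝓑 : Finset Eis} {β : Eis → ℂ} (h𝓑 : ∀ b ∈ 𝓑, SqP b) :
    ∑' q : Eis × Eis, (if VP q then (Wq A q : ℂ) *
      ((DD1 𝓑 β (Ph q) - DD2 𝓑 β q) * cj (DD2 𝓑 β q)) else 0) =
    (pC : ℂ) * ∑ b₁ ∈ 𝓑, ∑ b₂ ∈ 𝓑, β b₁ * cj (β b₂) * ((nm b₂ : ℝ) ^ (-(1 : ℝ) / 6) : ℝ) *
      P23 A b₁ b₂ := by
  have h1 : ∀ q : Eis × Eis, (if VP q then (Wq A q : ℂ) *
      ((DD1 𝓑 β (Ph q) - DD2 𝓑 β q) * cj (DD2 𝓑 β q)) else 0) =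
      (pC : ℂ) * ∑ b₁ ∈ 𝓑, ∑ b₂ ∈ 𝓑, β b₁ * cj (β b₂) * ((nm b₂ : ℝ) ^ (-(1 : ℝ) / 6) : ℝ) *
      (if VP q then (Wq A q : ℂ) *
      (if IsCoprime q.2 (b₁ * b₂) ∧ IsCoprime q.1 b₂ then
          (((nm q.1 : ℝ) ^ (-(1 : ℝ) / 6) : ℝ) : ℂ) * F (q.1 * b₁) else 0) else 0) := by
    intro q
    by_cases hq : VP q
    · simp only [if_pos hq]
      rw [diff_mul_conj h𝓑 hq, ← mul_assoc, mul_comm (Wq A q : ℂ), mul_assoc, Finset.mul_sum]
      congr 1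
      refine Finset.sum_congr rfl fun b₁ _ => ?_
      rw [Finset.mul_sum]
      refine Finset.sum_congr rfl fun b₂ _ => ?_
      ring
    · simp [hq]
  simp_rw [h1]
  rw [tsum_mul_left]
  congr 1
  have hsum : ∀ b₁ ∈ 𝓑, ∀ b₂ : Eis, Summable (fun q : Eis × Eis =>
      (if VP q then (Wq A q : ℂ) *
      (if IsCoprime q.2 (b₁ * b₂) ∧ IsCoprime q.1 b₂ then
          (((nm q.1 : ℝ) ^ (-(1 : ℝ) / 6) : ℝ) : ℂ) * F (q.1 * b₁) else 0) else 0)) := by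
    intro b₁ hb₁ b₂
    refine summable_pairs hA (M := 1 + |pC|) (fun q hq => ?_)
    rw [norm_mul, Complex.norm_real, Real.norm_eq_abs, abs_of_pos (Wq_pos A q), mul_comm]
    refine mul_le_mul_of_nonneg_right ?_ (Wq_pos A q).le
    split_ifs
    · rw [norm_mul, Complex.norm_real, Real.norm_eq_abs]
      refine (mul_le_of_le_one_left (norm_nonneg _) (abs_rpow_le hq.1.1 (by norm_num))).trans ?_
      exact norm_F_le (hq.1.1.mul (h𝓑 b₁ hb₁).1)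
    · rw [norm_zero]; positivity
  rw [Summable.tsum_finsetSum (fun b₁ hb₁ => summable_sum fun b₂ _ =>
    (hsum b₁ hb₁ b₂).mul_left _)]
  refine Finset.sum_congr rfl fun b₁ hb₁ => ?_
  rw [Summable.tsum_finsetSum (fun b₂ _ => (hsum b₁ hb₁ b₂).mul_left _)]
  refine Finset.sum_congr rfl fun b₂ hb₂ => ?_
  rw [tsum_mul_left, P23_eq]


lemma normSq_bound {𝓑 : Finset Eis} {β : Eis → ℂ} (h𝓑 : ∀ b ∈ 𝓑, SqP b) {q : Eis × Eis}
    (hq : VP q) : ‖DD1 𝓑 β (Ph q) - DD2 𝓑 β q‖ ^ 2 ≤ ((1 + |pC|) * ∑ b ∈ 𝓑, ‖β b‖) ^ 2 := by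
  refine pow_le_pow_left₀ (norm_nonneg _) ?_ 2
  refine (norm_sub_le _ _).trans ?_
  have h1 := norm_DD1_le (β := β) h𝓑 (Ph q)
  have h2 := norm_DD2_le (β := β) h𝓑 hq
  linarith

open Classical in
/-- **(T0)** -/
theorem t0 : T0 := by
  intro A B 𝓑 β hA1 hB hcls
  have hA : 0 < A := by linarith
  have h𝓑 : ∀ b ∈ 𝓑, SqP b := hcls.sq
  -- the three real sums
  set M := (1 + |pC|) * ∑ b ∈ 𝓑, ‖β b‖ with hM
  set g : Eis × Eis → ℝ := fun q => if VP q then Wq A q * ‖DD1 𝓑 β (Ph q) - DD2 𝓑 β q‖ ^ 2 else 0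
    with hg
  have hgs : Summable g := by
    refine Summable.of_nonneg_of_le (fun q => ?_) (fun q => ?_) ((summable_Wq hA).mul_left (M ^ 2))
    · simp only [hg]; split_ifs
      · have := Wq_pos A q; positivity
      · exact le_rfl
    · simp only [hg]
      split_ifs with hq
      · rw [mul_comm]
        exact mul_le_mul_of_nonneg_right (normSq_bound h𝓑 hq) (Wq_pos A q).le
      · simp
  -- step 1 : SS ≤ ∑ g
  have hterm : ∀ a : Eis, (if SqP a then Real.exp (-(nm a : ℝ) / A) *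
      ‖∑ b ∈ 𝓑, β b * F (a * b)‖ ^ 2 else 0) = g (a, 1) := by
    intro a
    simp only [hg]
    by_cases ha : SqP a
    · have hq : VP (a, 1) := ⟨ha, isPrim_one⟩
      rw [if_pos ha, if_pos hq]
      have h1 := G_mul_diff (β := β) h𝓑 hq
      have h2 : ∑ b ∈ 𝓑, β b * F (a * b) = G a * (DD1 𝓑 β (Ph (a, 1)) - DD2 𝓑 β (a, 1)) := by
        simp only at h1
        rw [h1]
        refine Finset.sum_congr rfl fun b _ => ?_
        rw [if_pos isCoprime_one_left]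
      rw [h2, norm_mul, norm_G syG ha.1 ha.2, one_mul, Wq]
      simp
    · have hq : ¬ VP (a, 1) := fun h => ha h.1
      rw [if_neg ha, if_neg hq]
  have hSS : SS A 𝓑 β ≤ ∑' q, g q := by
    unfold SS
    simp_rw [hterm]
    have hinj : Function.Injective (fun a : Eis => ((a, 1) : Eis × Eis)) := fun a b h => by
      simpa using h
    refine Summable.tsum_le_tsum_of_inj _ hinj (fun q _ => ?_) (fun a => le_rfl)
      (hgs.comp_injective hinj) hgs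
    simp only [hg]; split_ifs
    · have := Wq_pos A q; positivity
    · exact le_rfl
  refine hSS.trans ?_
  -- complex sums
  have hsT1 : Summable (fun q : Eis × Eis => if VP q then (Wq A q : ℂ) *
      (DD1 𝓑 β (Ph q) * cj (DD1 𝓑 β (Ph q))) else 0) := by
    refine summable_pairs hA (M := (∑ b ∈ 𝓑, ‖β b‖) ^ 2) (fun q hq => ?_)
    rw [norm_mul, Complex.norm_real, Real.norm_eq_abs, abs_of_pos (Wq_pos A q), mul_comm, norm_mul,
      RCLike.norm_conj]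
    refine mul_le_mul_of_nonneg_right ?_ (Wq_pos A q).le
    have h1 := norm_DD1_le (β := β) h𝓑 (Ph q)
    nlinarith [norm_nonneg (DD1 𝓑 β (Ph q))]
  have hsT2 : Summable (fun q : Eis × Eis => if VP q then (Wq A q : ℂ) *
      (DD2 𝓑 β q * cj (DD2 𝓑 β q)) else 0) := by
    refine summable_pairs hA (M := (|pC| * ∑ b ∈ 𝓑, ‖β b‖) ^ 2) (fun q hq => ?_)
    rw [norm_mul, Complex.norm_real, Real.norm_eq_abs, abs_of_pos (Wq_pos A q), mul_comm, norm_mul,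
      RCLike.norm_conj]
    refine mul_le_mul_of_nonneg_right ?_ (Wq_pos A q).le
    have h1 := norm_DD2_le (β := β) h𝓑 hq
    nlinarith [norm_nonneg (DD2 𝓑 β q)]
  have hsT3 : Summable (fun q : Eis × Eis => if VP q then (Wq A q : ℂ) *
      ((DD1 𝓑 β (Ph q) - DD2 𝓑 β q) * cj (DD2 𝓑 β q)) else 0) := by
    refine summable_pairs hA (M := M * (|pC| * ∑ b ∈ 𝓑, ‖β b‖)) (fun q hq => ?_)
    rw [norm_mul, Complex.norm_real, Real.norm_eq_abs, abs_of_pos (Wq_pos A q), mul_comm, norm_mul,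
      RCLike.norm_conj]
    refine mul_le_mul_of_nonneg_right ?_ (Wq_pos A q).le
    have h1 := norm_DD2_le (β := β) h𝓑 hq
    have h2 : ‖DD1 𝓑 β (Ph q) - DD2 𝓑 β q‖ ≤ M := by
      have h3 := norm_DD1_le (β := β) h𝓑 (Ph q)
      refine (norm_sub_le _ _).trans ?_
      rw [hM]; linarith
    exact mul_le_mul h2 h1 (norm_nonneg _) ((norm_nonneg _).trans h2)
  have hpt : ∀ q : Eis × Eis, ((g q : ℝ) : ℂ) = (if VP q then (Wq A q : ℂ) *
      (DD1 𝓑 β (Ph q) * cj (DD1 𝓑 β (Ph q))) else 0) -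
      (if VP q then (Wq A q : ℂ) * (DD2 𝓑 β q * cj (DD2 𝓑 β q)) else 0) -
      ((if VP q then (Wq A q : ℂ) *
        ((DD1 𝓑 β (Ph q) - DD2 𝓑 β q) * cj (DD2 𝓑 β q)) else 0) +
        cj (if VP q then (Wq A q : ℂ) *
        ((DD1 𝓑 β (Ph q) - DD2 𝓑 β q) * cj (DD2 𝓑 β q)) else 0)) := by
    intro q
    simp only [hg]
    split_ifs with hq
    · have : ((‖DD1 𝓑 β (Ph q) - DD2 𝓑 β q‖ ^ 2 : ℝ) : ℂ) =
          (DD1 𝓑 β (Ph q) - DD2 𝓑 β q) * cj (DD1 𝓑 β (Ph q) - DD2 𝓑 β q) := by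
        rw [Complex.mul_conj, Complex.normSq_eq_norm_sq]
      rw [Complex.ofReal_mul, this]
      simp only [map_mul, map_sub, Complex.conj_conj, Complex.conj_ofReal]
      ring
    · simp
  have hgC : ((∑' q, g q : ℝ) : ℂ) = (∑' q : Eis × Eis, (if VP q then (Wq A q : ℂ) *
      (DD1 𝓑 β (Ph q) * cj (DD1 𝓑 β (Ph q))) else 0)) -
      (∑' q : Eis × Eis, (if VP q then (Wq A q : ℂ) * (DD2 𝓑 β q * cj (DD2 𝓑 β q)) else 0)) -
      ((∑' q : Eis × Eis, (if VP q then (Wq A q : ℂ) *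
        ((DD1 𝓑 β (Ph q) - DD2 𝓑 β q) * cj (DD2 𝓑 β q)) else 0)) +
        cj (∑' q : Eis × Eis, (if VP q then (Wq A q : ℂ) *
        ((DD1 𝓑 β (Ph q) - DD2 𝓑 β q) * cj (DD2 𝓑 β q)) else 0))) := by
    rw [Complex.ofReal_tsum]
    simp_rw [hpt]
    rw [Complex.conj_tsum, ← hsT3.tsum_add, ← hsT1.tsum_sub hsT2, ← (hsT1.sub hsT2).tsum_sub]
    · exact hsT3.add (by simpa using (Complex.hasSum_conj'.mpr hsT3.hasSum).summable)
    · exact (Complex.hasSum_conj'.mpr hsT3.hasSum).summable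
  have hre := congrArg Complex.re hgC
  rw [Complex.ofReal_re] at hre
  rw [hre, S3_eq hA h𝓑, S23_eq hA h𝓑]
  -- D₁ sum over pairs ≤ sum over all primary a
  have hD1 : (∑' q : Eis × Eis, (if VP q then (Wq A q : ℂ) *
      (DD1 𝓑 β (Ph q) * cj (DD1 𝓑 β (Ph q))) else 0)).re ≤
      (∑ b₁ ∈ 𝓑, ∑ b₂ ∈ 𝓑, β b₁ * cj (β b₂) * P1 A b₁ b₂).re := by
    rw [← S1_eq hA h𝓑]
    set f : Eis → ℝ := fun a => if IsPrim a then
      Real.exp (-(nm a : ℝ) / A) * ‖DD1 𝓑 β a‖ ^ 2 else 0 with hf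
    have hf0 : ∀ a, 0 ≤ f a := by
      intro a; simp only [hf]; split_ifs
      · positivity
      · exact le_rfl
    have hfs : Summable f := by
      refine Summable.of_nonneg_of_le hf0 (fun a => ?_)
        ((summable_exp hA).mul_left ((∑ b ∈ 𝓑, ‖β b‖) ^ 2))
      simp only [hf]; split_ifs
      · rw [mul_comm]
        exact mul_le_mul_of_nonneg_right
          (pow_le_pow_left₀ (norm_nonneg _) (norm_DD1_le h𝓑 a) 2) (Real.exp_pos _).le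
      · positivity
    have e1 : ∑' a : Eis, (if IsPrim a then (Real.exp (-(nm a : ℝ) / A) : ℂ) *
      (DD1 𝓑 β a * cj (DD1 𝓑 β a)) else 0) = ((∑' a, f a : ℝ) : ℂ) := by
      rw [Complex.ofReal_tsum]
      congr 1; funext a
      simp only [hf]; split_ifs
      · rw [Complex.mul_conj, Complex.normSq_eq_norm_sq]; push_cast; rfl
      · simp
    have e2 : ∑' q : Eis × Eis, (if VP q then (Wq A q : ℂ) *
      (DD1 𝓑 β (Ph q) * cj (DD1 𝓑 β (Ph q))) else 0) =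
      ((∑' q : Eis × Eis, (if VP q then f (Ph q) else 0) : ℝ) : ℂ) := by
      rw [Complex.ofReal_tsum]
      congr 1; funext q
      split_ifs with hq
      · have hp : IsPrim (Ph q) := hq.1.1.mul (hq.2.pow 3)
        simp only [hf, if_pos hp]
        rw [Complex.mul_conj, Complex.normSq_eq_norm_sq, Wq_eq]; push_cast; rfl
      · simp
    rw [e1, e2, Complex.ofReal_re, Complex.ofReal_re]
    have h1 : Function.Injective (fun q : {q : Eis × Eis // VP q} => Ph q.1) := by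
      intro q q' h
      exact Subtype.ext (Ph_inj q.2 q'.2 h)
    have e3 : ∑' q : Eis × Eis, (if VP q then f (Ph q) else 0) =
        ∑' q : {q : Eis × Eis // VP q}, f (Ph q.1) := by
      have := tsum_subtype {q : Eis × Eis | VP q} (fun q => f (Ph q))
      rw [show (∑' q : {q : Eis × Eis // VP q}, f (Ph q.1)) =
        ∑' x : {q : Eis × Eis | VP q}, f (Ph (x : Eis × Eis)) from rfl, this]
      congr 1
    rw [e3]
    exact Summable.tsum_le_tsum_of_inj _ h1 (fun a _ => hf0 a) (fun q => le_rfl)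
      (hfs.comp_injective h1) hfs
  have hsplit : (∑ b₁ ∈ 𝓑, ∑ b₂ ∈ 𝓑, β b₁ * (starRingEnd ℂ) (β b₂) * (P1 A b₁ b₂ -
      ((pC ^ 2 * ((nm b₁ : ℝ) * nm b₂) ^ (-(1 : ℝ) / 6) * P3 A (b₁ * b₂) : ℝ) : ℂ))) =
      (∑ b₁ ∈ 𝓑, ∑ b₂ ∈ 𝓑, β b₁ * cj (β b₂) * P1 A b₁ b₂) -
      ∑ b₁ ∈ 𝓑, ∑ b₂ ∈ 𝓑, β b₁ * cj (β b₂) *
      ((pC ^ 2 * ((nm b₁ : ℝ) * nm b₂) ^ (-(1 : ℝ) / 6) * P3 A (b₁ * b₂) : ℝ) : ℂ) := by
    simp only [mul_sub, Finset.sum_sub_distrib]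
  rw [hsplit]
  simp only [Complex.sub_re, Complex.add_re, Complex.conj_re]
  linarith

end Crest.Agent.R012.T411

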