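import Crest.Agent.R012.TMainC_411
import Crest.Agent.R012.TNXfin_52

/-!
# Row 12: (T-MAIN) unconditional, both ranges (helper411)
-/

set_option autoImplicit false

namespace Crest.Agent.R012.TNX411

/-- **(T-MAIN)**, non-critical range, unconditional -/
theorem tmainN : T411.TMainN := T411.tmainN_of T13x541.t13 NonCube52.tnxN MFinal777.t6

end Crest.Agent.R012.TNX411
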