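import Crest.Agent.R012.Weight_600
import Crest.Agent.R012.Div_277
import Crest.Agent.R012.SpecM_49

/-!
# Row 12, item TI2 (helper581): Type I sums with SHARP cut-offs

From a mean-square bound with one fixed smooth weight (uniform in `t`) to
`∑_{a ≤ D} |∑_{N(ab) ≤ Y} F(a,b) - main| ≤ C (YD)^ε ((YD)^{1/2} + Y^{3/4})`.
-/

set_option autoImplicit false

noncomputable section

open MeasureTheory Real Complex Set Filter Topology
open scoped ContDiff

namespace Crest.Agent.R012.TI2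

open Crest.Agent.R012.Eis Crest.Agent.R012.Weight600

/-! ### The fixed weight -/

/-- the fixed smooth weight: `= 1` on `[1/8,4]`, `= 0` outside `[1/16, 6]`. -/
def v0 : ℝ → ℂ := cutC (3 / 32) 5 (1 / 32)

lemma v0_apply (x : ℝ) : v0 x = (cutL (3 / 32) 5 (1 / 32) x : ℂ) := rfl

lemma v0_eq_one {x : ℝ} (h1 : 1 / 8 ≤ x) (h2 : x ≤ 4) : v0 x = 1 := by
  rw [v0_apply, cutL_eq_one (by norm_num) (by linarith) (by linarith)]; simp

lemma v0_eq_zero_of_le {x : ℝ} (h : x ≤ 1 / 16) : v0 x = 0 := by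
  rw [v0_apply, cutL_eq_zero_left (by norm_num) (by norm_num) (by linarith)]; simp

lemma v0_eq_zero_of_ge {x : ℝ} (h : 6 ≤ x) : v0 x = 0 := by
  rw [v0_apply, cutL_eq_zero_right (by norm_num) (by norm_num) (by linarith)]; simp

lemma norm_v0_le (x : ℝ) : ‖v0 x‖ ≤ 1 := by
  rw [v0_apply, Complex.norm_real, Real.norm_eq_abs,
    abs_of_nonneg (cutL_nonneg (by norm_num) (by norm_num) x)]
  exact cutL_le_one x

lemma contDiff_v0 : ContDiff ℝ ∞ v0 := contDiff_cutC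

lemma continuous_v0 : Continuous v0 := contDiff_v0.continuous

lemma v0_wt : M49.Wt v0 where
  smooth := contDiff_v0
  supp := by
    refine ⟨1 / 16, 6, by norm_num, by norm_num, ?_⟩
    rintro x (h | h)
    · exact v0_eq_zero_of_le h.le
    · exact v0_eq_zero_of_ge h.le

/-! ### The main term as an integral -/

/-- `x^{-1/6} v₀(x/X)`. -/
def hX (X x : ℝ) : ℂ := ((x ^ (-(1 : ℝ) / 6) : ℝ) : ℂ) * v0 (x / X)

lemma hX_eq_zero_left {X x : ℝ} (hX0 : 0 < X) (h : x ≤ X / 16) : hX X x = 0 := by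
  unfold hX
  rw [v0_eq_zero_of_le, mul_zero]
  rw [div_le_iff₀ hX0]; linarith

lemma hX_eq_zero_right {X x : ℝ} (hX0 : 0 < X) (h : 6 * X ≤ x) : hX X x = 0 := by
  unfold hX
  rw [v0_eq_zero_of_ge, mul_zero]
  rw [le_div_iff₀ hX0]; linarith

lemma norm_hX_le {X x : ℝ} (hX0 : 0 < X) : ‖hX X x‖ ≤ (X / 16) ^ (-(1 : ℝ) / 6) := by
  rcases le_or_gt x (X / 16) with h | h
  · rw [hX_eq_zero_left hX0 h, norm_zero]; positivity
  · have hx : 0 < x := by linarith
    unfold hX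
    rw [norm_mul, Complex.norm_real, Real.norm_eq_abs, abs_of_pos (by positivity)]
    calc x ^ (-(1 : ℝ) / 6) * ‖v0 (x / X)‖ ≤ x ^ (-(1 : ℝ) / 6) * 1 := by
          gcongr; exact norm_v0_le _
      _ = x ^ (-(1 : ℝ) / 6) := mul_one _
      _ ≤ _ := Real.rpow_le_rpow_of_nonpos (by positivity) h.le (by norm_num)

lemma measurable_hX (X : ℝ) : Measurable (hX X) := by
  unfold hX
  refine Measurable.mul ?_ ?_
  · exact Complex.measurable_ofReal.comp (measurable_id.pow_const _)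
  · exact continuous_v0.measurable.comp (measurable_id.div_const _)

lemma integrable_hX {X : ℝ} (hX0 : 0 < X) : Integrable (hX X) := by
  have hs : Function.support (hX X) ⊆ Icc (X / 16) (6 * X) := by
    intro x hx
    rw [Function.mem_support] at hx
    constructor
    · by_contra h; exact hx (hX_eq_zero_left hX0 (not_le.mp h).le)
    · by_contra h; exact hx (hX_eq_zero_right hX0 (not_le.mp h).le)
  rw [← integrableOn_iff_integrable_of_support_subset hs]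
  refine Measure.integrableOn_of_bounded (M := (X / 16) ^ (-(1 : ℝ) / 6)) ?_ ?_ ?_
  · rw [Real.volume_Icc]; exact ENNReal.ofReal_ne_top
  · exact (measurable_hX X).aestronglyMeasurable
  · exact Eventually.of_forall fun x => norm_hX_le hX0

lemma integral_norm_hX_le {X : ℝ} (hX0 : 0 < X) :
    ∫ x, ‖hX X x‖ ≤ 12 * X ^ ((5 : ℝ) / 6) := by
  have hs : Function.support (fun x => ‖hX X x‖) ⊆ Icc (X / 16) (6 * X) := by
    intro x hx
    rw [Function.mem_support] at hx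
    constructor
    · by_contra h; exact hx (by rw [hX_eq_zero_left hX0 (not_le.mp h).le, norm_zero])
    · by_contra h; exact hx (by rw [hX_eq_zero_right hX0 (not_le.mp h).le, norm_zero])
  rw [← setIntegral_eq_integral_of_forall_compl_eq_zero (s := Icc (X / 16) (6 * X))]
  · have h1 : ∫ x in Icc (X / 16) (6 * X), ‖hX X x‖ ≤
        ∫ x in Icc (X / 16) (6 * X), (X / 16) ^ (-(1 : ℝ) / 6) := by
      apply setIntegral_mono_on (integrable_hX hX0).norm.integrableOn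
        (integrableOn_const (by rw [Real.volume_Icc]; exact ENNReal.ofReal_ne_top))
        measurableSet_Icc
      intro x _; exact norm_hX_le hX0
    refine h1.trans ?_
    rw [setIntegral_const, measureReal_def, Real.volume_Icc,
      ENNReal.toReal_ofReal (by linarith), smul_eq_mul]
    have e1 : (X / 16) ^ (-(1 : ℝ) / 6) = 16 ^ ((1 : ℝ) / 6) * X ^ (-(1 : ℝ) / 6) := by
      rw [Real.div_rpow hX0.le (by norm_num), neg_div, Real.rpow_neg (by norm_num : (0:ℝ) ≤ 16)]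
      field_simp
    have e2 : X ^ ((5 : ℝ) / 6) = X * X ^ (-(1 : ℝ) / 6) := by
      nth_rewrite 2 [← Real.rpow_one X]
      rw [← Real.rpow_add hX0]; norm_num
    have e3 : (16 : ℝ) ^ ((1 : ℝ) / 6) ≤ 2 := by
      have : (2 : ℝ) = 64 ^ ((1 : ℝ) / 6) := by
        rw [show (64 : ℝ) = 2 ^ (6 : ℝ) by norm_num, ← Real.rpow_mul (by norm_num)]; norm_num
      rw [this]
      exact Real.rpow_le_rpow (by norm_num) (by norm_num) (by norm_num)
    rw [e1, e2]
    have h0 : 0 < X ^ (-(1 : ℝ) / 6) := by positivity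
    have h8 : (0 : ℝ) < 16 ^ ((1 : ℝ) / 6) := by positivity
    calc (6 * X - X / 16) * (16 ^ ((1 : ℝ) / 6) * X ^ (-(1 : ℝ) / 6))
        ≤ (6 * X) * (2 * X ^ (-(1 : ℝ) / 6)) := by gcongr; linarith
      _ = 12 * (X * X ^ (-(1 : ℝ) / 6)) := by ring
  · intro x hx
    by_contra h
    exact hx (hs h)

/-- `∫ x^{-1/6} v₀(x/X) x^{it} dx`. -/
def Mm (X t : ℝ) : ℂ := ∫ x : ℝ, hX X x * pw t x

lemma Mm_eq_mellin {X : ℝ} (hX0 : 0 < X) (t : ℝ) :
    Mm X t = mellin v0 ((5 : ℂ) / 6 + t * I) * (X : ℂ) ^ ((5 : ℂ) / 6 + t * I) := by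
  have h1 := mellin_comp_mul_left v0 ((5 : ℂ) / 6 + t * I) (a := X⁻¹) (by positivity)
  have h2 : ((X⁻¹ : ℝ) : ℂ) ^ (-((5 : ℂ) / 6 + t * I)) = (X : ℂ) ^ ((5 : ℂ) / 6 + t * I) := by
    rw [Complex.ofReal_inv, Complex.inv_cpow, Complex.cpow_neg, inv_inv]
    rw [Complex.arg_ofReal_of_nonneg hX0.le]
    exact Real.pi_pos.ne
  rw [h2, smul_eq_mul] at h1
  rw [mul_comm, ← h1]
  unfold Mm mellin
  rw [← setIntegral_eq_integral_of_forall_compl_eq_zero (s := Ioi 0)]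
  · apply setIntegral_congr_fun measurableSet_Ioi
    intro x hx
    have hx0 : 0 < x := hx
    simp only [smul_eq_mul]
    unfold hX
    rw [pw_eq_cpow hx0]
    have e : (5 : ℂ) / 6 + t * I - 1 = ((-(1 : ℝ) / 6 : ℝ) : ℂ) + t * I := by
      push_cast; ring
    rw [e, Complex.cpow_add _ _ (by exact_mod_cast hx0.ne'), ← Complex.ofReal_cpow hx0.le,
      show x / X = X⁻¹ * x by rw [div_eq_inv_mul]]
    ring
  · intro x hx
    rw [hX_eq_zero_left hX0, zero_mul]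
    have : x ≤ 0 := not_lt.mp hx
    have : 0 < X / 16 := by positivity
    linarith

lemma norm_Mm_le {X : ℝ} (hX0 : 0 < X) (t : ℝ) : ‖Mm X t‖ ≤ 12 * X ^ ((5 : ℝ) / 6) := by
  refine (norm_integral_le_integral_norm _).trans ?_
  refine le_trans (le_of_eq ?_) (integral_norm_hX_le hX0)
  congr 1; ext x; rw [norm_mul, norm_pw, mul_one]

lemma measurable_pw (t : ℝ) : Measurable (pw t) := by
  unfold pw
  exact (continuous_osc_right t).measurable.comp Real.measurable_log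

lemma continuous_Mm {X : ℝ} (hX0 : 0 < X) : Continuous (Mm X) := by
  unfold Mm
  apply continuous_of_dominated (bound := fun x => ‖hX X x‖)
  · intro t
    exact ((measurable_hX X).mul (measurable_pw t)).aestronglyMeasurable
  · intro t
    exact Eventually.of_forall fun x => by rw [norm_mul, norm_pw, mul_one]
  · exact (integrable_hX hX0).norm
  · exact Eventually.of_forall fun x => continuous_const.mul (continuous_pw_left x)

lemma measurable_pw_prod : Measurable fun z : ℝ × ℝ => pw z.1 z.2 := by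
  unfold pw
  exact continuous_osc.measurable.comp
    (measurable_fst.prodMk (Real.measurable_log.comp measurable_snd))

/-- Fubini for the main term. -/
lemma integral_ker_Mm {κ : ℝ → ℂ} (hκ : Integrable κ) {X A : ℝ} (hX0 : 0 < X) (hA : 0 < A) :
    ∫ t, κ t * (pw t A * Mm X t) = ∫ x, hX X x * ∫ t, κ t * pw t (A * x) := by
  have h1 : ∀ t, κ t * (pw t A * Mm X t) =
      ∫ x, (κ t * hX X x) * (pw t A * pw t x) := by
    intro t
    unfold Mm
    rw [← mul_assoc, ← integral_const_mul]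
    congr 1; ext x; ring
  have h2 : ∀ x, hX X x * ∫ t, κ t * pw t (A * x) =
      ∫ t, (κ t * hX X x) * (pw t A * pw t x) := by
    intro x
    rcases le_or_gt x (X / 16) with h | h
    · rw [hX_eq_zero_left hX0 h]; simp
    · have hx : x ≠ 0 := by
        have : 0 < X / 16 := by positivity
        linarith
      rw [← integral_const_mul]
      congr 1; ext t
      rw [pw_mul hA.ne' hx]; ring
  simp_rw [h1, h2]
  apply integral_integral_swap
  have h3 : Integrable (fun z : ℝ × ℝ => κ z.1 * hX X z.2) (volume.prod volume) :=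
    hκ.mul_prod (integrable_hX hX0)
  refine h3.mul_bdd (c := 1) (f := fun z : ℝ × ℝ => κ z.1 * hX X z.2)
    (g := fun z : ℝ × ℝ => pw z.1 A * pw z.1 z.2) ?_ ?_
  · refine Measurable.aestronglyMeasurable ?_
    exact (((continuous_pw_left A).measurable).comp measurable_fst).mul measurable_pw_prod
  · refine Eventually.of_forall fun z => ?_
    rw [norm_mul, norm_pw, norm_pw, one_mul]

/-! ### The smooth cut-off of `(y/2, y]` -/

/-- the kernel -/
def K0 (η t : ℝ) : ℂ := kerC (-Real.log 2) 0 η t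

/-- the smooth cut-off -/
def cY (y η x : ℝ) : ℝ := cutM (y / 2) y η x

lemma exp_le_two {η : ℝ} (hη : η ≤ 1 / 2) : Real.exp η ≤ 2 := by
  have h1 : Real.exp η ≤ Real.exp (1 / 2) := Real.exp_le_exp.mpr hη
  have h2 : Real.exp (1 / 2) ^ 2 = Real.exp 1 := by
    rw [← Real.exp_nat_mul]; norm_num
  have h3 := Real.exp_one_lt_d9
  have h4 := Real.exp_pos (1 / 2)
  nlinarith

lemma half_le_exp_neg {η : ℝ} (hη : η ≤ 1 / 2) : 1 / 2 ≤ Real.exp (-η) := by
  rw [Real.exp_neg]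
  have h1 := exp_le_two hη
  have h2 := Real.exp_pos η
  rw [one_div]
  exact inv_anti₀ h2 h1

lemma exp_sub_exp_neg_le {η : ℝ} (h0 : 0 ≤ η) (hη : η ≤ 1 / 2) :
    Real.exp η - Real.exp (-η) ≤ 3 * η := by
  have h1 := Real.abs_exp_sub_one_sub_id_le (x := η) (by rw [abs_of_nonneg h0]; linarith)
  have h2 := Real.add_one_le_exp (-η)
  have h3 := (abs_le.mp h1).2
  nlinarith

variable {Y y η : ℝ}

lemma log_half_le (hy : 0 < y) : Real.log (y / 2) ≤ Real.log y :=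
  Real.log_le_log (by positivity) (by linarith)

lemma neg_log_two_le : -Real.log 2 ≤ 0 := by
  have := Real.log_nonneg (x := 2) (by norm_num)
  linarith

lemma integrable_K0 (hη : 0 < η) : Integrable (K0 η) :=
  integrable_kerC hη neg_log_two_le

lemma cY_eq_integral (hy : 0 < y) (hη : 0 < η) (x : ℝ) :
    ∫ t, K0 η t * (pw t x * (starRingEnd ℂ) (pw t y)) = (cY y η x : ℂ) := by
  have e : ∀ t, pw t x * (starRingEnd ℂ) (pw t y) = osc t (Real.log x - Real.log y) := by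
    intro t; unfold pw; rw [osc_sub_right]
  simp_rw [e]
  unfold K0
  rw [cutL_eq_integral hη neg_log_two_le]
  congr 1
  unfold cY cutM
  have h := cutL_translate (-Real.log 2) 0 η (Real.log y) (Real.log x - Real.log y)
  rw [sub_add_cancel, zero_add] at h
  rw [← h]
  congr 1
  rw [Real.log_div hy.ne' (by norm_num)]; ring

lemma cY_supp (hy : 0 < y) (hη : 0 < η) (hη2 : η ≤ 1 / 2) {x : ℝ} (hx : 0 < x)
    (h : cY y η x ≠ 0) : y / 4 < x ∧ x < 2 * y := by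
  have h1 := cutM_ne_zero hη (by positivity) (by linarith) hx h
  have h2 := exp_le_two hη2
  have h3 := half_le_exp_neg hη2
  constructor
  · nlinarith [h1.1]
  · nlinarith [h1.2]

lemma v0_mul_cY (hy : Y / 2 < y) (hyY : y ≤ Y) (hY : 0 < Y) (hη : 0 < η) (hη2 : η ≤ 1 / 2)
    {D A x : ℝ} (hA1 : D / 2 < A) (hA2 : A ≤ D) (hx : 0 < x) (hD : 0 < D) :
    v0 (x / (Y / D)) * (cY y η (A * x) : ℂ) = (cY y η (A * x) : ℂ) := by
  by_cases h : cY y η (A * x) = 0
  · rw [h]; simp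
  · have hA : 0 < A := by linarith
    have hy0 : 0 < y := by linarith
    obtain ⟨h1, h2⟩ := cY_supp hy0 hη hη2 (by positivity) h
    rw [v0_eq_one, one_mul]
    · rw [le_div_iff₀ (by positivity), div_mul_div_comm, div_le_iff₀ (by positivity)]
      nlinarith
    · rw [div_le_iff₀ (by positivity), mul_div_assoc', le_div_iff₀ hD]
      nlinarith

lemma cY_nonneg (hy : 0 < y) (hη : 0 < η) (x : ℝ) : 0 ≤ cY y η x :=
  cutM_nonneg hη (by positivity) (by linarith) x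

lemma cY_le_one (x : ℝ) : cY y η x ≤ 1 := cutM_le_one x

/-- the smooth cut-off is the sharp one outside the boundary layers. -/
lemma cY_eq_sharp (hy : 0 < y) (hη : 0 < η) {x : ℝ}
    (h : ¬ (|Real.log x - Real.log (y / 2)| < η ∨ |Real.log x - Real.log y| < η)) :
    cY y η x = if Real.log (y / 2) ≤ Real.log x ∧ Real.log x ≤ Real.log y then 1 else 0 := by
  have h1 := abs_cutL_sub_indicator_le hη (log_half_le hy) (Real.log x)
  rw [if_neg h] at h1
  have h2 := abs_eq_zero.mp (le_antisymm h1 (abs_nonneg _))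
  unfold cY cutM
  linarith

/-- comparison of the smooth main term with the sharp one. -/
lemma main_sharp (hy2 : Y / 2 < y) (hyY : y ≤ Y) (hY : 0 < Y) (hη : 0 < η) (hη2 : η ≤ 1 / 2)
    {D A : ℝ} (hA1 : D / 2 < A) (hA2 : A ≤ D) (hD : 0 < D) :
    ‖(∫ x, hX (Y / D) x * (cY y η (A * x) : ℂ)) -
        ((6 / 5 * ((y / A) ^ ((5 : ℝ) / 6) - (y / 2 / A) ^ ((5 : ℝ) / 6)) : ℝ) : ℂ)‖ ≤
      12 * η * (y / A) ^ ((5 : ℝ) / 6) := by
  have hA : 0 < A := by linarith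
  have hy : 0 < y := by linarith
  set Z : ℝ := y / A with hZ
  have hZ0 : 0 < Z := by positivity
  have hZ2 : y / 2 / A = Z / 2 := by rw [hZ]; ring
  rw [hZ2]
  -- the sharp integral
  have hsharp : ((6 / 5 * (Z ^ ((5 : ℝ) / 6) - (Z / 2) ^ ((5 : ℝ) / 6)) : ℝ) : ℂ) =
      ∫ x : ℝ, (Icc (Z / 2) Z).indicator (fun x => ((x ^ (-(1 : ℝ) / 6) : ℝ) : ℂ)) x := by
    rw [integral_indicator measurableSet_Icc, integral_Icc_eq_integral_Ioc,
      ← intervalIntegral.integral_of_le (by linarith), intervalIntegral.integral_ofReal,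
      integral_rpow (Or.inl (by norm_num))]
    congr 1
    norm_num
    ring
  have hcont : ContinuousOn (fun x : ℝ => ((x ^ (-(1 : ℝ) / 6) : ℝ) : ℂ)) (Icc (Z / 2) Z) := by
    refine Complex.continuous_ofReal.comp_continuousOn ?_
    intro x hx
    have : 0 < x := by have := hx.1; linarith
    exact (Real.continuousAt_rpow_const _ _ (Or.inl this.ne')).continuousWithinAt
  have hint2 : Integrable
      ((Icc (Z / 2) Z).indicator (fun x : ℝ => ((x ^ (-(1 : ℝ) / 6) : ℝ) : ℂ))) := by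
    rw [integrable_indicator_iff measurableSet_Icc]
    exact hcont.integrableOn_Icc
  have hmeas : Measurable fun x : ℝ => (cY y η (A * x) : ℂ) := by
    refine Complex.measurable_ofReal.comp ?_
    unfold cY cutM
    exact (contDiff_cutL.continuous.measurable).comp
      (Real.measurable_log.comp (measurable_const_mul A))
  have hint1 : Integrable fun x => hX (Y / D) x * (cY y η (A * x) : ℂ) := by
    refine (integrable_hX (by positivity)).mul_bdd (c := 1) hmeas.aestronglyMeasurable ?_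
    refine Eventually.of_forall fun x => ?_
    rw [Complex.norm_real, Real.norm_eq_abs, abs_of_nonneg (cY_nonneg hy hη _)]
    exact cY_le_one _
  rw [hsharp, ← integral_sub hint1 hint2]
  set B : ℝ := (Z / 4) ^ (-(1 : ℝ) / 6) with hB
  have hB0 : 0 < B := by positivity
  set U : ℝ → Set ℝ := fun W => Ioo (W * Real.exp (-η)) (W * Real.exp η) with hU
  have hUm : ∀ W, MeasurableSet (U W) := fun W => measurableSet_Ioo
  have hUi : ∀ W, Integrable ((U W).indicator fun _ : ℝ => B) := by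
    intro W
    rw [integrable_indicator_iff (hUm W)]
    refine integrableOn_const ?_
    rw [hU, Real.volume_Ioo]; exact ENNReal.ofReal_ne_top
  have hUint : ∀ W : ℝ, 0 ≤ W → W ≤ Z → ∫ x, (U W).indicator (fun _ : ℝ => B) x ≤ 3 * η * Z * B := by
    intro W hW hWZ
    rw [integral_indicator (hUm W), setIntegral_const, measureReal_def, hU, Real.volume_Ioo,
      smul_eq_mul, ← mul_sub]
    have h1 := exp_sub_exp_neg_le hη.le hη2
    have h2 : 0 ≤ W * (Real.exp η - Real.exp (-η)) := by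
      apply mul_nonneg hW
      have : Real.exp (-η) ≤ Real.exp η := Real.exp_le_exp.mpr (by linarith)
      linarith
    rw [ENNReal.toReal_ofReal h2]
    have : W * (Real.exp η - Real.exp (-η)) ≤ Z * (3 * η) := by
      apply mul_le_mul hWZ h1 _ hZ0.le
      have : Real.exp (-η) ≤ Real.exp η := Real.exp_le_exp.mpr (by linarith)
      linarith
    calc _ ≤ Z * (3 * η) * B := by gcongr
      _ = _ := by ring
  have hmemU : ∀ W x : ℝ, 0 < W → 0 < x → |Real.log x - Real.log W| < η → x ∈ U W := by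
    intro W x hW hx h
    rw [abs_lt] at h
    constructor
    · rw [← Real.log_lt_log_iff (by positivity) hx, Real.log_mul hW.ne' (Real.exp_ne_zero _),
        Real.log_exp]; linarith
    · rw [← Real.log_lt_log_iff hx (by positivity), Real.log_mul hW.ne' (Real.exp_ne_zero _),
        Real.log_exp]; linarith
  have hpt : ∀ x, ‖hX (Y / D) x * (cY y η (A * x) : ℂ) -
      (Icc (Z / 2) Z).indicator (fun x : ℝ => ((x ^ (-(1 : ℝ) / 6) : ℝ) : ℂ)) x‖ ≤
      (U Z).indicator (fun _ : ℝ => B) x + (U (Z / 2)).indicator (fun _ : ℝ => B) x := by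
    intro x
    have hnn1 : 0 ≤ (U Z).indicator (fun _ : ℝ => B) x :=
      indicator_nonneg (fun _ _ => hB0.le) x
    have hnn2 : 0 ≤ (U (Z / 2)).indicator (fun _ : ℝ => B) x :=
      indicator_nonneg (fun _ _ => hB0.le) x
    rcases le_or_gt x 0 with hx | hx
    · rw [hX_eq_zero_left (by positivity) (le_trans hx (by positivity)), zero_mul,
        indicator_of_notMem (by intro h; linarith [h.1]), sub_zero, norm_zero]
      positivity
    · have e1 : hX (Y / D) x * (cY y η (A * x) : ℂ) =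
          ((x ^ (-(1 : ℝ) / 6) * cY y η (A * x) : ℝ) : ℂ) := by
        unfold hX
        rw [mul_assoc, v0_mul_cY hy2 hyY hY hη hη2 hA1 hA2 hx hD]
        push_cast; rfl
      have e2 : (Icc (Z / 2) Z).indicator (fun x : ℝ => ((x ^ (-(1 : ℝ) / 6) : ℝ) : ℂ)) x =
          ((x ^ (-(1 : ℝ) / 6) * (if x ∈ Icc (Z / 2) Z then 1 else 0) : ℝ) : ℂ) := by
        rw [indicator_apply]; split_ifs <;> simp
      rw [e1, e2, ← Complex.ofReal_sub, Complex.norm_real, Real.norm_eq_abs, ← mul_sub, abs_mul,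
        abs_of_pos (by positivity : 0 < x ^ (-(1 : ℝ) / 6))]
      have hlogZ : Real.log Z = Real.log y - Real.log A := Real.log_div hy.ne' hA.ne'
      have hlogZ2 : Real.log (Z / 2) = Real.log (y / 2) - Real.log A := by
        rw [← hZ2, Real.log_div (by positivity) hA.ne']
      have hlogA : Real.log (A * x) = Real.log A + Real.log x := Real.log_mul hA.ne' hx.ne'
      by_cases hlayer : |Real.log (A * x) - Real.log (y / 2)| < η ∨
          |Real.log (A * x) - Real.log y| < η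
      · have hle : |cY y η (A * x) - (if x ∈ Icc (Z / 2) Z then 1 else 0)| ≤ 1 := by
          have h1 := cY_nonneg hy hη (A * x)
          have h2 : cY y η (A * x) ≤ 1 := cY_le_one _
          rw [abs_le]; split_ifs <;> constructor <;> linarith
        have hxU : x ∈ U Z ∨ x ∈ U (Z / 2) := by
          rcases hlayer with h | h
          · right
            apply hmemU _ _ (by positivity) hx
            rw [hlogZ2]; rw [hlogA] at h
            convert h using 2; ring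
          · left
            apply hmemU _ _ (by positivity) hx
            rw [hlogZ]; rw [hlogA] at h
            convert h using 2; ring
        have hx4 : Z / 4 ≤ x := by
          have h3 := half_le_exp_neg hη2
          rcases hxU with h | h
          · have := h.1; nlinarith
          · have := h.1; nlinarith
        have hxB : x ^ (-(1 : ℝ) / 6) ≤ B :=
          Real.rpow_le_rpow_of_nonpos (by positivity) hx4 (by norm_num)
        have h5 : x ^ (-(1 : ℝ) / 6) * |cY y η (A * x) - (if x ∈ Icc (Z / 2) Z then 1 else 0)| ≤ B := by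
          calc _ ≤ B * 1 := by gcongr
            _ = B := mul_one B
        refine h5.trans ?_
        rcases hxU with h | h
        · rw [indicator_of_mem h]; linarith
        · rw [indicator_of_mem h]; linarith
      · rw [cY_eq_sharp hy hη hlayer]
        have hiff : (Real.log (y / 2) ≤ Real.log (A * x) ∧ Real.log (A * x) ≤ Real.log y) ↔
            x ∈ Icc (Z / 2) Z := by
          rw [mem_Icc, ← Real.log_le_log_iff (by positivity) hx, ← Real.log_le_log_iff hx hZ0,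
            hlogZ, hlogZ2, hlogA]
          constructor
          · rintro ⟨h1, h2⟩; constructor <;> linarith
          · rintro ⟨h1, h2⟩; constructor <;> linarith
        rw [if_congr hiff rfl rfl, sub_self, abs_zero, mul_zero]
        positivity
  refine (norm_integral_le_of_norm_le ((hUi Z).add (hUi (Z / 2)))
    (Eventually.of_forall hpt)).trans ?_
  rw [integral_add' (hUi Z) (hUi (Z / 2))]
  have h1 := hUint Z hZ0.le le_rfl
  have h2 := hUint (Z / 2) (by positivity) (by linarith)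
  have hBZ : Z * B ≤ 2 * Z ^ ((5 : ℝ) / 6) := by
    have e1 : B = 4 ^ ((1 : ℝ) / 6) * Z ^ (-(1 : ℝ) / 6) := by
      rw [hB, Real.div_rpow hZ0.le (by norm_num), neg_div, Real.rpow_neg (by norm_num : (0:ℝ) ≤ 4)]
      field_simp
    have e2 : Z ^ ((5 : ℝ) / 6) = Z * Z ^ (-(1 : ℝ) / 6) := by
      nth_rewrite 2 [← Real.rpow_one Z]
      rw [← Real.rpow_add hZ0]; norm_num
    have e3 : (4 : ℝ) ^ ((1 : ℝ) / 6) ≤ 2 := by
      have : (2 : ℝ) = 64 ^ ((1 : ℝ) / 6) := by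
        rw [show (64 : ℝ) = 2 ^ (6 : ℝ) by norm_num, ← Real.rpow_mul (by norm_num)]; norm_num
      rw [this]
      exact Real.rpow_le_rpow (by norm_num) (by norm_num) (by norm_num)
    rw [e1, e2]
    have h0 : 0 < Z ^ (-(1 : ℝ) / 6) := by positivity
    calc Z * (4 ^ ((1 : ℝ) / 6) * Z ^ (-(1 : ℝ) / 6)) ≤ Z * (2 * Z ^ (-(1 : ℝ) / 6)) := by gcongr
      _ = _ := by ring
  calc _ ≤ 3 * η * Z * B + 3 * η * Z * B := add_le_add h1 h2
    _ = 6 * η * (Z * B) := by ring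
    _ ≤ 6 * η * (2 * Z ^ ((5 : ℝ) / 6)) := by gcongr
    _ = _ := by ring

/-! ### Boundary layers -/

/-- lattice points in a thin annulus. -/
lemma card_annulus_le {Z η : ℝ} (hZ : 1 / 2 ≤ Z) (hη : 0 < η) (hη2 : η ≤ 1 / 2)
    (𝓑 : Finset Eis) (h𝓑 : ∀ b ∈ 𝓑, Z * Real.exp (-η) < nm b ∧ (nm b : ℝ) < Z * Real.exp η) :
    (𝓑.card : ℝ) ≤ 400 * (η * Z + Real.sqrt Z) := by
  have hZ0 : 0 < Z := by linarith
  set R1 : ℝ := Real.sqrt (Z * Real.exp (-η)) with hR1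
  set R2 : ℝ := Real.sqrt (Z * Real.exp η) with hR2
  have hR10 : 0 ≤ R1 := Real.sqrt_nonneg _
  have hR20 : 0 ≤ R2 := Real.sqrt_nonneg _
  have hq1 : R1 ^ 2 = Z * Real.exp (-η) := Real.sq_sqrt (by positivity)
  have hq2 : R2 ^ 2 = Z * Real.exp η := Real.sq_sqrt (by positivity)
  have hsub : 𝓑 ⊆ Lat277.disk 0 R2 \ Lat277.disk 0 R1 := by
    intro b hb
    obtain ⟨h1, h2⟩ := h𝓑 b hb
    rw [Finset.mem_sdiff, Lat277.mem_disk, Lat277.mem_disk, sub_zero,
      Lat277.norm_toC_le_sqrt_iff (by positivity), Lat277.norm_toC_le_sqrt_iff (by positivity)]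
    exact ⟨h2.le, not_le.mpr h1⟩
  have hmono : Lat277.disk 0 R1 ⊆ Lat277.disk 0 R2 := by
    intro b hb
    rw [Lat277.mem_disk] at hb ⊢
    refine hb.trans (Real.sqrt_le_sqrt ?_)
    have : Real.exp (-η) ≤ Real.exp η := Real.exp_le_exp.mpr (by linarith)
    gcongr
  have hcard : (𝓑.card : ℝ) ≤ (Lat277.disk 0 R2).card - (Lat277.disk 0 R1).card := by
    have h1 := Finset.card_le_card hsub
    rw [Finset.card_sdiff_of_subset hmono] at h1
    have h2 := Finset.card_le_card hmono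
    rw [← Nat.cast_sub h2]
    exact_mod_cast h1
  have k1 := abs_le.mp (Lat277.card_disk 0 hR10)
  have k2 := abs_le.mp (Lat277.card_disk 0 hR20)
  have hexp := exp_sub_exp_neg_le hη.le hη2
  have h2 := exp_le_two hη2
  have hR12 : R1 ≤ R2 := by
    refine Real.sqrt_le_sqrt ?_
    have : Real.exp (-η) ≤ Real.exp η := Real.exp_le_exp.mpr (by linarith)
    gcongr
  have hR2le : R2 ≤ 2 * Real.sqrt Z := by
    rw [hR2, show (2 : ℝ) * Real.sqrt Z = Real.sqrt (4 * Z) by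
      rw [Real.sqrt_mul (by norm_num), show (4 : ℝ) = 2 ^ 2 by norm_num,
        Real.sqrt_sq (by norm_num)]]
    apply Real.sqrt_le_sqrt; nlinarith
  have h1le : 1 ≤ 2 * Real.sqrt Z := by
    rw [show (2 : ℝ) * Real.sqrt Z = Real.sqrt (4 * Z) by
      rw [Real.sqrt_mul (by norm_num), show (4 : ℝ) = 2 ^ 2 by norm_num,
        Real.sqrt_sq (by norm_num)]]
    rw [show (1 : ℝ) = Real.sqrt 1 by simp]
    apply Real.sqrt_le_sqrt; linarith
  have hpi : 2 * Real.pi / Real.sqrt 3 ≤ 4 := by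
    have h3 : (1.7 : ℝ) ≤ Real.sqrt 3 := by
      rw [show (1.7 : ℝ) = Real.sqrt (1.7 ^ 2) by rw [Real.sqrt_sq (by norm_num)]]
      apply Real.sqrt_le_sqrt; norm_num
    have := Real.pi_lt_d2
    rw [div_le_iff₀ (by positivity)]; nlinarith
  have hpi0 : 0 ≤ 2 * Real.pi / Real.sqrt 3 := by positivity
  rw [hq1] at k1
  rw [hq2] at k2
  have hmain : 2 * Real.pi / Real.sqrt 3 * (Z * Real.exp η) -
      2 * Real.pi / Real.sqrt 3 * (Z * Real.exp (-η)) ≤ 12 * (η * Z) := by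
    have : 2 * Real.pi / Real.sqrt 3 * (Z * Real.exp η) -
        2 * Real.pi / Real.sqrt 3 * (Z * Real.exp (-η)) =
        2 * Real.pi / Real.sqrt 3 * (Z * (Real.exp η - Real.exp (-η))) := by ring
    rw [this]
    have h0 : 0 ≤ Real.exp η - Real.exp (-η) := by
      have : Real.exp (-η) ≤ Real.exp η := Real.exp_le_exp.mpr (by linarith)
      linarith
    calc _ ≤ 4 * (Z * (3 * η)) := by gcongr
      _ = _ := by ring
  have hηZ : 0 ≤ η * Z := by positivity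
  have hsZ : 0 ≤ Real.sqrt Z := Real.sqrt_nonneg _
  linarith [k1.1, k1.2, k2.1, k2.2]

/-- layer around `log W` for one modulus -/
lemma card_layer_le {A W η : ℝ} (hA : 0 < A) (hW : 0 < W) (hη : 0 < η) (hη2 : η ≤ 1 / 2)
    (𝓑 : Finset Eis) (h0 : ∀ b ∈ 𝓑, b ≠ 0)
    (h𝓑 : ∀ b ∈ 𝓑, |Real.log (A * nm b) - Real.log W| < η) :
    (𝓑.card : ℝ) ≤ 400 * (η * (W / A) + Real.sqrt (W / A)) := by
  rcases lt_or_ge (W / A) (1 / 2) with hlt | hge
  · have : 𝓑 = ∅ := by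
      by_contra hne
      obtain ⟨b, hb⟩ := Finset.nonempty_iff_ne_empty.mpr hne
      have h1 := (abs_lt.mp (h𝓑 b hb)).2
      have hb1 : (1 : ℝ) ≤ nm b := by exact_mod_cast nm_pos.mpr (h0 b hb)
      have h2 : Real.log (A * nm b) < Real.log (W * Real.exp η) := by
        rw [Real.log_mul hW.ne' (Real.exp_ne_zero _), Real.log_exp]; linarith
      rw [Real.log_lt_log_iff (by positivity) (by positivity)] at h2
      have h3 := exp_le_two hη2
      rw [div_lt_iff₀ hA] at hlt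
      nlinarith
    rw [this]
    simp only [Finset.card_empty, Nat.cast_zero]
    positivity
  · apply card_annulus_le hge hη hη2
    intro b hb
    have h1 := abs_lt.mp (h𝓑 b hb)
    have hb1 : (1 : ℝ) ≤ nm b := by exact_mod_cast nm_pos.mpr (h0 b hb)
    have hb0 : (0 : ℝ) < nm b := by linarith
    rw [Real.log_mul hA.ne' hb0.ne'] at h1
    constructor
    · rw [← Real.log_lt_log_iff (by positivity) hb0,
        Real.log_mul (by positivity) (Real.exp_ne_zero _), Real.log_exp,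
        Real.log_div hW.ne' hA.ne']
      linarith [h1.1]
    · rw [← Real.log_lt_log_iff hb0 (by positivity),
        Real.log_mul (by positivity) (Real.exp_ne_zero _), Real.log_exp,
        Real.log_div hW.ne' hA.ne']
      linarith [h1.2]


/-! ### One dyadic block -/

open Div277 in
lemma card_dyadic_le {S : Finset Eis} {D : ℝ} (hD : 0 < D)
    (hS : ∀ a ∈ S, D / 2 < nm a ∧ (nm a : ℝ) ≤ D) : (S.card : ℝ) ≤ 100 * D := by
  have hsub : S ⊆ nz ⌊D⌋₊ := by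
    intro a ha
    obtain ⟨h1, h2⟩ := hS a ha
    rw [mem_nz]
    refine ⟨?_, Nat.le_floor h2⟩
    rintro rfl
    have : (0 : ℝ) < ((nm (0 : Eis) : ℕ) : ℝ) := by linarith
    simp at this
  calc (S.card : ℝ) ≤ ((nz ⌊D⌋₊).card : ℝ) := by exact_mod_cast Finset.card_le_card hsub
    _ ≤ 100 * (⌊D⌋₊ : ℝ) := card_nz_le _
    _ ≤ 100 * D := by
      have := Nat.floor_le hD.le
      linarith

lemma abs_cY_sub_le (hy : 0 < y) (hη : 0 < η) {x : ℝ} (hx : 0 < x) :
    |cY y η x - (if y / 2 < x ∧ x ≤ y then 1 else 0)| ≤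
      (if |Real.log x - Real.log (y / 2)| < η ∨ |Real.log x - Real.log y| < η then 1 else 0) := by
  by_cases h : |Real.log x - Real.log (y / 2)| < η ∨ |Real.log x - Real.log y| < η
  · rw [if_pos h]
    have h1 := cY_nonneg hy hη x
    have h2 : cY y η x ≤ 1 := cY_le_one _
    rw [abs_le]; split_ifs <;> constructor <;> linarith
  · rw [if_neg h, cY_eq_sharp hy hη h]
    have hiff : (Real.log (y / 2) ≤ Real.log x ∧ Real.log x ≤ Real.log y) ↔
        (y / 2 < x ∧ x ≤ y) := by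
      rw [Real.log_le_log_iff hx hy, Real.log_le_log_iff (by positivity) hx]
      constructor
      · rintro ⟨h1, h2⟩
        refine ⟨lt_of_le_of_ne h1 ?_, h2⟩
        rintro rfl
        apply h; left; simpa using hη
      · rintro ⟨h1, h2⟩; exact ⟨h1.le, h2⟩
    rw [if_congr hiff rfl rfl, sub_self, abs_zero]

/-- the smooth sum minus the main term, twisted. -/
def EE (F : Eis → Eis → ℂ) (m : Eis → ℂ) (X : ℝ) (a : Eis) (t : ℝ) : ℂ :=
  ∑ b ∈ Div277.nz ⌊8 * X⌋₊, F a b * v0 (nm b / X) * pw t (nm b) - m a * Mm X t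

lemma continuous_EE (F : Eis → Eis → ℂ) (m : Eis → ℂ) {X : ℝ} (hX0 : 0 < X) (a : Eis) :
    Continuous (EE F m X a) := by
  unfold EE
  refine Continuous.sub ?_ (continuous_const.mul (continuous_Mm hX0))
  exact continuous_finsetSum _ fun b _ => continuous_const.mul (continuous_pw_left _)

/-- the twist -/
def tw (y : ℝ) (a : Eis) (t : ℝ) : ℂ := (starRingEnd ℂ) (pw t y) * pw t (nm a)

lemma norm_tw (y : ℝ) (a : Eis) (t : ℝ) : ‖tw y a t‖ = 1 := by
  unfold tw; rw [norm_mul, RCLike.norm_conj, norm_pw, norm_pw, one_mul]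

lemma smooth_identity (F : Eis → Eis → ℂ) (m : Eis → ℂ) (hy2 : Y / 2 < y) (hyY : y ≤ Y)
    (hY : 0 < Y) (hη : 0 < η) (hη2 : η ≤ 1 / 2) {D : ℝ} (hD : 0 < D) {a : Eis}
    (ha : D / 2 < nm a ∧ (nm a : ℝ) ≤ D) :
    ∑ b ∈ Div277.nz ⌊8 * (Y / D)⌋₊, F a b * (cY y η (nm a * nm b) : ℂ) -
      m a * ∫ x, hX (Y / D) x * (cY y η (nm a * x) : ℂ) =
    ∫ t, K0 η t * (tw y a t * EE F m (Y / D) a t) := by
  have hX0 : 0 < Y / D := by positivity
  have hA : (0 : ℝ) < nm a := by linarith [ha.1]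
  have hy0 : 0 < y := by linarith
  set κ : ℝ → ℂ := fun t => K0 η t * (starRingEnd ℂ) (pw t y) with hκdef
  have hκ : Integrable κ := by
    refine (integrable_K0 hη).mul_bdd (c := 1) ?_ ?_
    · exact (Complex.continuous_conj.comp (continuous_pw_left _)).aestronglyMeasurable
    · exact Eventually.of_forall fun t => by rw [RCLike.norm_conj, norm_pw]
  have hker : ∀ x : ℝ, ∫ t, κ t * pw t x = (cY y η x : ℂ) := by
    intro x
    rw [← cY_eq_integral hy0 hη]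
    congr 1; ext t; simp only [hκdef]; ring
  have e1 : ∀ t, K0 η t * (tw y a t * EE F m (Y / D) a t) =
      (∑ b ∈ Div277.nz ⌊8 * (Y / D)⌋₊,
        (F a b * v0 (nm b / (Y / D))) * (κ t * (pw t (nm a) * pw t (nm b)))) -
      m a * (κ t * (pw t (nm a) * Mm (Y / D) t)) := by
    intro t
    unfold EE tw
    simp only [hκdef]
    rw [mul_sub, mul_sub, Finset.mul_sum, Finset.mul_sum]
    congr 1
    · apply Finset.sum_congr rfl; intro b _; ring
    · ring
  simp_rw [e1]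
  have hi : ∀ b : Eis, Integrable fun t => κ t * (pw t (nm a) * pw t (nm b)) := by
    intro b
    refine hκ.mul_bdd (c := 1) ?_ ?_
    · exact ((continuous_pw_left _).mul (continuous_pw_left _)).aestronglyMeasurable
    · exact Eventually.of_forall fun t => by rw [norm_mul, norm_pw, norm_pw, one_mul]
  have hi2 : Integrable fun t => κ t * (pw t (nm a) * Mm (Y / D) t) := by
    refine hκ.mul_bdd (c := 12 * (Y / D) ^ ((5 : ℝ) / 6)) ?_ ?_
    · exact ((continuous_pw_left _).mul (continuous_Mm hX0)).aestronglyMeasurable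
    · refine Eventually.of_forall fun t => ?_
      rw [norm_mul, norm_pw, one_mul]
      exact norm_Mm_le hX0 t
  rw [integral_sub (integrable_finsetSum _ fun b _ => (hi b).const_mul _) (hi2.const_mul _),
    integral_finsetSum _ fun b _ => (hi b).const_mul _, integral_const_mul,
    integral_ker_Mm hκ hX0 hA]
  congr 1
  · apply Finset.sum_congr rfl
    intro b hb
    have hb0 : (0 : ℝ) < nm b := by
      exact_mod_cast nm_pos.mpr (Div277.mem_nz.mp hb).1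
    rw [integral_const_mul]
    have e2 : ∫ t, κ t * (pw t (nm a) * pw t (nm b)) = (cY y η (nm a * nm b) : ℂ) := by
      rw [← hker]
      congr 1; ext t
      rw [pw_mul hA.ne' hb0.ne']
    rw [e2, mul_assoc, v0_mul_cY hy2 hyY hY hη hη2 ha.1 ha.2 hb0 hD]
  · congr 2
    ext x
    rw [hker]

open Classical in
/-- sharp sum over `y/2 < N(a) N(b) ≤ y` minus the sharp main term. -/
def Sh (F : Eis → Eis → ℂ) (m : Eis → ℂ) (y : ℝ) (a : Eis) : ℂ :=
  ∑ b ∈ (Div277.nz ⌊y / nm a⌋₊).filter (fun b => y / 2 < (nm a : ℝ) * nm b), F a b -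
    m a * ((6 / 5 * ((y / nm a) ^ ((5 : ℝ) / 6) - (y / 2 / nm a) ^ ((5 : ℝ) / 6)) : ℝ) : ℂ)

open Classical in
lemma filter_eq (hy : 0 < y) (hyY : y ≤ Y) {D : ℝ} (hD : 0 < D) {a : Eis}
    (ha : D / 2 < nm a) :
    (Div277.nz ⌊8 * (Y / D)⌋₊).filter
      (fun b => y / 2 < (nm a : ℝ) * nm b ∧ (nm a : ℝ) * nm b ≤ y) =
    (Div277.nz ⌊y / nm a⌋₊).filter (fun b => y / 2 < (nm a : ℝ) * nm b) := by
  have hA : (0 : ℝ) < nm a := by linarith
  have hle : y / nm a ≤ 8 * (Y / D) := by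
    rw [div_le_iff₀ hA, mul_assoc, div_mul_eq_mul_div, mul_div_assoc', le_div_iff₀ hD]
    nlinarith
  ext b
  simp only [Finset.mem_filter, Div277.mem_nz]
  constructor
  · rintro ⟨⟨h0, _⟩, h1, h2⟩
    refine ⟨⟨h0, ?_⟩, h1⟩
    apply Nat.le_floor
    rw [le_div_iff₀ hA]; linarith
  · rintro ⟨⟨h0, h3⟩, h1⟩
    have h4 : (nm b : ℝ) ≤ y / nm a := by
      have h5 := Nat.floor_le (a := y / (nm a : ℝ)) (by positivity)
      have h6 : (nm b : ℝ) ≤ (⌊y / (nm a : ℝ)⌋₊ : ℝ) := by exact_mod_cast h3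
      linarith
    refine ⟨⟨h0, Nat.le_floor (h4.trans hle)⟩, h1, ?_⟩
    rw [le_div_iff₀ hA] at h4
    linarith

/-- sharp versus smooth for one modulus -/
lemma norm_Sh_sub_le {F : Eis → Eis → ℂ} {m : Eis → ℂ} {B M0 : ℝ} (hB : ∀ a b, ‖F a b‖ ≤ B)
    (hy2 : Y / 2 < y) (hyY : y ≤ Y) (hY : 0 < Y) (hη : 0 < η) (hη2 : η ≤ 1 / 2) {D : ℝ}
    (hD : 0 < D) {a : Eis} (ha : D / 2 < nm a ∧ (nm a : ℝ) ≤ D)
    (hm : ‖m a‖ ≤ M0 * (nm a : ℝ) ^ (-(1 : ℝ) / 6)) :
    ‖Sh F m y a - ∫ t, K0 η t * (tw y a t * EE F m (Y / D) a t)‖ ≤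
      1600 * B * (η * (Y / D) + Real.sqrt (Y / D)) + 24 * M0 * η * (Y ^ ((5 : ℝ) / 6) / D) := by
  classical
  have hA : (0 : ℝ) < nm a := by linarith [ha.1]
  have hy : 0 < y := by linarith
  have hB0 : 0 ≤ B := (norm_nonneg _).trans (hB 0 0)
  have hM0 : 0 ≤ M0 := by
    by_contra h
    push Not at h
    have : M0 * (nm a : ℝ) ^ (-(1 : ℝ) / 6) < 0 := mul_neg_of_neg_of_pos h (by positivity)
    linarith [norm_nonneg (m a)]
  rw [← smooth_identity F m hy2 hyY hY hη hη2 hD ha]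
  unfold Sh
  rw [← filter_eq hy hyY hD ha.1]
  set 𝓑 := Div277.nz ⌊8 * (Y / D)⌋₊ with h𝓑
  set L : Finset Eis := 𝓑.filter (fun b => |Real.log (nm a * nm b) - Real.log (y / 2)| < η ∨
    |Real.log (nm a * nm b) - Real.log y| < η) with hL
  have hb0 : ∀ b ∈ 𝓑, b ≠ 0 := fun b hb => (Div277.mem_nz.mp hb).1
  -- first part
  have p1 : ‖∑ b ∈ 𝓑.filter (fun b => y / 2 < (nm a : ℝ) * nm b ∧ (nm a : ℝ) * nm b ≤ y), F a b -
      ∑ b ∈ 𝓑, F a b * (cY y η (nm a * nm b) : ℂ)‖ ≤ B * L.card := by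
    rw [Finset.sum_filter, ← Finset.sum_sub_distrib]
    have hc : B * (L.card : ℝ) = ∑ b ∈ 𝓑, B * (if |Real.log (nm a * nm b) - Real.log (y / 2)| < η ∨
        |Real.log (nm a * nm b) - Real.log y| < η then (1 : ℝ) else 0) := by
      rw [hL, Finset.card_filter, ← Finset.mul_sum]
      push_cast
      rfl
    rw [hc]
    refine (norm_sum_le _ _).trans (Finset.sum_le_sum fun b hb => ?_)
    have hbp : (0 : ℝ) < nm b := by exact_mod_cast nm_pos.mpr (hb0 b hb)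
    have h1 := abs_cY_sub_le (η := η) hy hη (x := nm a * nm b) (by positivity)
    have e : (if y / 2 < (nm a : ℝ) * nm b ∧ (nm a : ℝ) * nm b ≤ y then F a b else 0) -
        F a b * (cY y η (nm a * nm b) : ℂ) = -(F a b * ((cY y η (nm a * nm b) -
          (if y / 2 < (nm a : ℝ) * nm b ∧ (nm a : ℝ) * nm b ≤ y then 1 else 0) : ℝ) : ℂ)) := by
      split_ifs <;> push_cast <;> ring
    rw [e, norm_neg, norm_mul, Complex.norm_real, Real.norm_eq_abs]
    exact mul_le_mul (hB a b) h1 (abs_nonneg _) hB0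
  have hLcard : (L.card : ℝ) ≤ 1600 * (η * (Y / D) + Real.sqrt (Y / D)) := by
    have hsub : L ⊆ 𝓑.filter (fun b => |Real.log (nm a * nm b) - Real.log (y / 2)| < η) ∪
        𝓑.filter (fun b => |Real.log (nm a * nm b) - Real.log y| < η) := by
      intro b hb
      rw [hL, Finset.mem_filter] at hb
      rw [Finset.mem_union, Finset.mem_filter, Finset.mem_filter]
      rcases hb.2 with h | h
      · left; exact ⟨hb.1, h⟩
      · right; exact ⟨hb.1, h⟩
    have c1 := card_layer_le (W := y / 2) hA (by positivity) hη hη2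
      (𝓑.filter (fun b => |Real.log (nm a * nm b) - Real.log (y / 2)| < η))
      (fun b hb => hb0 b (Finset.mem_filter.mp hb).1) (fun b hb => (Finset.mem_filter.mp hb).2)
    have c2 := card_layer_le (W := y) hA hy hη hη2
      (𝓑.filter (fun b => |Real.log (nm a * nm b) - Real.log y| < η))
      (fun b hb => hb0 b (Finset.mem_filter.mp hb).1) (fun b hb => (Finset.mem_filter.mp hb).2)
    have c3 : (L.card : ℝ) ≤
        (𝓑.filter (fun b => |Real.log (nm a * nm b) - Real.log (y / 2)| < η)).card +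
        (𝓑.filter (fun b => |Real.log (nm a * nm b) - Real.log y| < η)).card := by
      have := (Finset.card_le_card hsub).trans (Finset.card_union_le _ _)
      exact_mod_cast this
    have hYA : y / nm a ≤ 2 * (Y / D) := by
      rw [div_le_iff₀ hA, mul_assoc, div_mul_eq_mul_div, mul_div_assoc', le_div_iff₀ hD]
      nlinarith [ha.1]
    have hYA2 : y / 2 / nm a ≤ 2 * (Y / D) := by
      refine le_trans ?_ hYA
      gcongr; linarith
    have hsq : ∀ x : ℝ, x ≤ 2 * (Y / D) → Real.sqrt x ≤ 2 * Real.sqrt (Y / D) := by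
      intro x hx
      rw [show (2 : ℝ) * Real.sqrt (Y / D) = Real.sqrt (4 * (Y / D)) by
        rw [Real.sqrt_mul (by norm_num), show (4 : ℝ) = 2 ^ 2 by norm_num,
          Real.sqrt_sq (by norm_num)]]
      apply Real.sqrt_le_sqrt
      have : 0 < Y / D := by positivity
      linarith
    have s1 := hsq _ hYA
    have s2 := hsq _ hYA2
    have t1 : η * (y / nm a) ≤ η * (2 * (Y / D)) := by gcongr
    have t2 : η * (y / 2 / nm a) ≤ η * (2 * (Y / D)) := by gcongr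
    linarith
  have p2 := main_sharp hy2 hyY hY hη hη2 ha.1 ha.2 hD
  have hYA56 : ‖m a‖ * (12 * η * (y / nm a) ^ ((5 : ℝ) / 6)) ≤
      24 * M0 * η * (Y ^ ((5 : ℝ) / 6) / D) := by
    have e1 : (nm a : ℝ) ^ (-(1 : ℝ) / 6) * (Y / nm a) ^ ((5 : ℝ) / 6) =
        Y ^ ((5 : ℝ) / 6) / nm a := by
      rw [Real.div_rpow hY.le hA.le]
      have : (nm a : ℝ) = (nm a : ℝ) ^ ((5 : ℝ) / 6) * (nm a : ℝ) ^ ((1 : ℝ) / 6) := by
        rw [← Real.rpow_add hA]; norm_num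
      rw [eq_div_iff hA.ne']
      nth_rewrite 3 [this]
      rw [neg_div, Real.rpow_neg hA.le]
      field_simp
    calc ‖m a‖ * (12 * η * (y / nm a) ^ ((5 : ℝ) / 6))
        ≤ (M0 * (nm a : ℝ) ^ (-(1 : ℝ) / 6)) * (12 * η * (Y / nm a) ^ ((5 : ℝ) / 6)) := by gcongr
      _ = 12 * M0 * η * ((nm a : ℝ) ^ (-(1 : ℝ) / 6) * (Y / nm a) ^ ((5 : ℝ) / 6)) := by ring
      _ = 12 * M0 * η * (Y ^ ((5 : ℝ) / 6) / nm a) := by rw [e1]
      _ ≤ 12 * M0 * η * (2 * (Y ^ ((5 : ℝ) / 6) / D)) := by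
        gcongr
        rw [div_le_iff₀ hA, mul_assoc, div_mul_eq_mul_div, mul_div_assoc', le_div_iff₀ hD]
        have : 0 < Y ^ ((5 : ℝ) / 6) := by positivity
        nlinarith [ha.1]
      _ = _ := by ring
  have split : (∑ b ∈ 𝓑.filter (fun b => y / 2 < (nm a : ℝ) * nm b ∧ (nm a : ℝ) * nm b ≤ y), F a b -
      m a * ((6 / 5 * ((y / nm a) ^ ((5 : ℝ) / 6) - (y / 2 / nm a) ^ ((5 : ℝ) / 6)) : ℝ) : ℂ)) -
      (∑ b ∈ 𝓑, F a b * (cY y η (nm a * nm b) : ℂ) -
        m a * ∫ x, hX (Y / D) x * (cY y η (nm a * x) : ℂ)) =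
      (∑ b ∈ 𝓑.filter (fun b => y / 2 < (nm a : ℝ) * nm b ∧ (nm a : ℝ) * nm b ≤ y), F a b -
        ∑ b ∈ 𝓑, F a b * (cY y η (nm a * nm b) : ℂ)) +
      m a * ((∫ x, hX (Y / D) x * (cY y η (nm a * x) : ℂ)) -
        ((6 / 5 * ((y / nm a) ^ ((5 : ℝ) / 6) - (y / 2 / nm a) ^ ((5 : ℝ) / 6)) : ℝ) : ℂ)) := by
    ring
  rw [split]
  refine (norm_add_le _ _).trans ?_
  rw [norm_mul]
  have p3 : ‖m a‖ * ‖(∫ x, hX (Y / D) x * (cY y η (nm a * x) : ℂ)) -
      ((6 / 5 * ((y / nm a) ^ ((5 : ℝ) / 6) - (y / 2 / nm a) ^ ((5 : ℝ) / 6)) : ℝ) : ℂ)‖ ≤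
      ‖m a‖ * (12 * η * (y / nm a) ^ ((5 : ℝ) / 6)) := by gcongr
  have p4 : B * (L.card : ℝ) ≤ B * (1600 * (η * (Y / D) + Real.sqrt (Y / D))) := by gcongr
  linarith

/-- **One dyadic block** `D/2 < N(a) ≤ D`, `y(a)/2 < N(ab) ≤ y(a)`, `Y/2 < y(a) ≤ Y`. -/
theorem block {F : Eis → Eis → ℂ} {m : Eis → ℂ} {B M0 : ℝ} (hB : ∀ a b, ‖F a b‖ ≤ B)
    (hM0 : 0 ≤ M0) (hY : 0 < Y) (hη : 0 < η) (hη2 : η ≤ 1 / 2) {D : ℝ} (hD : 0 < D)
    {S : Finset Eis} (hS : ∀ a ∈ S, D / 2 < nm a ∧ (nm a : ℝ) ≤ D) {yy : Eis → ℝ}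
    (hyy : ∀ a ∈ S, Y / 2 < yy a ∧ yy a ≤ Y)
    (hm : ∀ a ∈ S, ‖m a‖ ≤ M0 * (nm a : ℝ) ^ (-(1 : ℝ) / 6)) {T Q : ℝ} (hT : 0 < T)
    (hQ0 : 0 ≤ Q) {k : ℕ} (hk : 0 < k)
    (hQ : ∀ t, |t| ≤ T → ∑ a ∈ S, ‖EE F m (Y / D) a t‖ ≤ Q) :
    ∑ a ∈ S, ‖Sh F m (yy a) a‖ ≤
      Cint * (1 + Real.log (1 / η)) * Q +
      4 * Ck k / (η * T) ^ k * (80000 * B * Y + 2400 * M0 * Y ^ ((5 : ℝ) / 6)) +
      (160000 * B * (η * Y + Real.sqrt (Y * D)) + 2400 * M0 * η * Y ^ ((5 : ℝ) / 6)) := by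
  have hB0 : 0 ≤ B := (norm_nonneg _).trans (hB 0 0)
  have hcard := card_dyadic_le hD hS
  have hX0 : 0 < Y / D := by positivity
  have hκ := integrable_K0 hη
  have hbd : ∀ a ∈ S, ∀ t, ‖EE F m (Y / D) a t‖ ≤
      800 * B * (Y / D) + 24 * M0 * (Y ^ ((5 : ℝ) / 6) / D) := by
    intro a ha t
    have hA : (0 : ℝ) < nm a := by linarith [(hS a ha).1]
    unfold EE
    refine (norm_sub_le _ _).trans ?_
    apply add_le_add
    · calc ‖∑ b ∈ Div277.nz ⌊8 * (Y / D)⌋₊, F a b * v0 (nm b / (Y / D)) * pw t (nm b)‖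
          ≤ ∑ b ∈ Div277.nz ⌊8 * (Y / D)⌋₊, B := by
            refine (norm_sum_le _ _).trans (Finset.sum_le_sum fun b _ => ?_)
            rw [norm_mul, norm_mul, norm_pw, mul_one]
            calc _ ≤ B * 1 := by
                  gcongr
                  · exact hB a b
                  · exact norm_v0_le _
              _ = B := mul_one B
        _ = ((Div277.nz ⌊8 * (Y / D)⌋₊).card : ℝ) * B := by
            rw [Finset.sum_const, nsmul_eq_mul]
        _ ≤ (100 * (⌊8 * (Y / D)⌋₊ : ℝ)) * B := by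
            gcongr; exact Div277.card_nz_le _
        _ ≤ (100 * (8 * (Y / D))) * B := by
            gcongr; exact Nat.floor_le (by positivity)
        _ = 800 * B * (Y / D) := by ring
    · rw [norm_mul]
      calc ‖m a‖ * ‖Mm (Y / D) t‖
          ≤ (M0 * (nm a : ℝ) ^ (-(1 : ℝ) / 6)) * (12 * (Y / D) ^ ((5 : ℝ) / 6)) := by
            gcongr
            · exact hm a ha
            · exact norm_Mm_le hX0 t
        _ ≤ (M0 * (2 * D ^ (-(1 : ℝ) / 6))) * (12 * (Y / D) ^ ((5 : ℝ) / 6)) := by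
            gcongr
            have h1 : (nm a : ℝ) ^ (-(1 : ℝ) / 6) ≤ (D / 2) ^ (-(1 : ℝ) / 6) :=
              Real.rpow_le_rpow_of_nonpos (by positivity) (hS a ha).1.le (by norm_num)
            refine h1.trans ?_
            rw [Real.div_rpow hD.le (by norm_num), neg_div,
              Real.rpow_neg (by norm_num : (0 : ℝ) ≤ 2), div_inv_eq_mul, mul_comm]
            gcongr
            calc (2 : ℝ) ^ ((1 : ℝ) / 6) ≤ 2 ^ (1 : ℝ) :=
                  Real.rpow_le_rpow_of_exponent_le (by norm_num) (by norm_num)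
              _ = 2 := by norm_num
        _ = 24 * M0 * (D ^ (-(1 : ℝ) / 6) * (Y / D) ^ ((5 : ℝ) / 6)) := by ring
        _ = _ := by
            congr 1
            rw [Real.div_rpow hY.le hD.le]
            have : D = D ^ ((5 : ℝ) / 6) * D ^ ((1 : ℝ) / 6) := by
              rw [← Real.rpow_add hD]; norm_num
            rw [eq_div_iff hD.ne']
            nth_rewrite 3 [this]
            rw [neg_div, Real.rpow_neg hD.le]
            field_simp
  have hcont : Continuous fun t => ∑ a ∈ S, ‖EE F m (Y / D) a t‖ :=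
    continuous_finsetSum _ fun a _ => (continuous_EE F m hX0 a).norm
  -- the integral part
  have i1 : ∑ a ∈ S, ‖∫ t, K0 η t * (tw (yy a) a t * EE F m (Y / D) a t)‖ ≤
      ∫ t, ‖K0 η t‖ * ∑ a ∈ S, ‖EE F m (Y / D) a t‖ := by
    have hint : ∀ a ∈ S, Integrable fun t => ‖K0 η t‖ * ‖EE F m (Y / D) a t‖ := by
      intro a ha
      refine hκ.norm.mul_bdd (c := 800 * B * (Y / D) + 24 * M0 * (Y ^ ((5 : ℝ) / 6) / D))
        (continuous_EE F m hX0 a).norm.aestronglyMeasurable ?_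
      exact Eventually.of_forall fun t => by rw [norm_norm]; exact hbd a ha t
    have e : (fun t => ‖K0 η t‖ * ∑ a ∈ S, ‖EE F m (Y / D) a t‖) =
        fun t => ∑ a ∈ S, ‖K0 η t‖ * ‖EE F m (Y / D) a t‖ := by
      ext t; rw [Finset.mul_sum]
    rw [e, integral_finsetSum _ hint]
    refine Finset.sum_le_sum fun a _ => ?_
    refine (norm_integral_le_integral_norm _).trans (le_of_eq ?_)
    congr 1; ext t; rw [norm_mul, norm_mul, norm_tw, one_mul]
  have hMM : ∀ t, ∑ a ∈ S, ‖EE F m (Y / D) a t‖ ≤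
      80000 * B * Y + 2400 * M0 * Y ^ ((5 : ℝ) / 6) := by
    intro t
    calc ∑ a ∈ S, ‖EE F m (Y / D) a t‖
        ≤ ∑ a ∈ S, (800 * B * (Y / D) + 24 * M0 * (Y ^ ((5 : ℝ) / 6) / D)) :=
          Finset.sum_le_sum fun a ha => hbd a ha t
      _ = S.card * (800 * B * (Y / D) + 24 * M0 * (Y ^ ((5 : ℝ) / 6) / D)) := by
          rw [Finset.sum_const, nsmul_eq_mul]
      _ ≤ (100 * D) * (800 * B * (Y / D) + 24 * M0 * (Y ^ ((5 : ℝ) / 6) / D)) := by gcongr
      _ = _ := by field_simp; ring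
  have i2 : ∫ t, ‖K0 η t‖ * ∑ a ∈ S, ‖EE F m (Y / D) a t‖ ≤
      Cint * (1 + Real.log (1 / η)) * Q +
      4 * Ck k / (η * T) ^ k * (80000 * B * Y + 2400 * M0 * Y ^ ((5 : ℝ) / 6)) := by
    have h1 := norm_integral_mul_le (m := fun t => ((‖K0 η t‖ : ℝ) : ℂ))
      (D := fun t => ((∑ a ∈ S, ‖EE F m (Y / D) a t‖ : ℝ) : ℂ)) (T := T) (B := Q)
      (M := 80000 * B * Y + 2400 * M0 * Y ^ ((5 : ℝ) / 6)) hκ.norm.ofReal
      (Complex.continuous_ofReal.comp hcont) hQ0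
      (fun t ht => by
        rw [Complex.norm_real, Real.norm_eq_abs,
          abs_of_nonneg (Finset.sum_nonneg fun a _ => norm_nonneg _)]
        exact hQ t ht)
      (fun t => by
        rw [Complex.norm_real, Real.norm_eq_abs,
          abs_of_nonneg (Finset.sum_nonneg fun a _ => norm_nonneg _)]
        exact hMM t)
    simp only [Complex.norm_real, norm_norm] at h1
    have e : ∫ t, ((‖K0 η t‖ : ℝ) : ℂ) * ((∑ a ∈ S, ‖EE F m (Y / D) a t‖ : ℝ) : ℂ) =
        ((∫ t, ‖K0 η t‖ * ∑ a ∈ S, ‖EE F m (Y / D) a t‖ : ℝ) : ℂ) := by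
      rw [← integral_complex_ofReal]
      congr 1; ext t; push_cast; ring
    rw [e, Complex.norm_real, Real.norm_eq_abs, abs_of_nonneg (integral_nonneg fun t => by
      exact mul_nonneg (norm_nonneg _) (Finset.sum_nonneg fun a _ => norm_nonneg _))] at h1
    refine h1.trans ?_
    have hlog2 : Real.log 2 < 0.7 := by have := Real.log_two_lt_d9; linarith
    have hlog2' : 0.6 < Real.log 2 := by have := Real.log_two_gt_d9; linarith
    have k1 := integral_norm_kerC_le (a := -Real.log 2) (b := 0) hη (by linarith)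
    have k2 := tail_norm_kerC_le (a := -Real.log 2) (b := 0) hη neg_log_two_le hT hk
    have k3 : Real.log ((0 - -Real.log 2) / η) ≤ Real.log (1 / η) := by
      apply Real.log_le_log (by apply div_pos _ hη; linarith)
      gcongr; linarith
    have k4 : ∫ t, ‖K0 η t‖ ≤ Cint * (1 + Real.log (1 / η)) := by
      refine k1.trans ?_
      have := Cint_pos
      gcongr
    gcongr
    exact k2
  have i3 : ∑ a ∈ S, ‖Sh F m (yy a) a - ∫ t, K0 η t * (tw (yy a) a t * EE F m (Y / D) a t)‖ ≤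
      160000 * B * (η * Y + Real.sqrt (Y * D)) + 2400 * M0 * η * Y ^ ((5 : ℝ) / 6) := by
    calc _ ≤ ∑ a ∈ S, (1600 * B * (η * (Y / D) + Real.sqrt (Y / D)) +
          24 * M0 * η * (Y ^ ((5 : ℝ) / 6) / D)) :=
          Finset.sum_le_sum fun a ha =>
            norm_Sh_sub_le hB (hyy a ha).1 (hyy a ha).2 hY hη hη2 hD (hS a ha) (hm a ha)
      _ = S.card * (1600 * B * (η * (Y / D) + Real.sqrt (Y / D)) +
          24 * M0 * η * (Y ^ ((5 : ℝ) / 6) / D)) := by rw [Finset.sum_const, nsmul_eq_mul]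
      _ ≤ (100 * D) * (1600 * B * (η * (Y / D) + Real.sqrt (Y / D)) +
          24 * M0 * η * (Y ^ ((5 : ℝ) / 6) / D)) := by gcongr
      _ = 160000 * B * (η * Y + D * Real.sqrt (Y / D)) + 2400 * M0 * η * Y ^ ((5 : ℝ) / 6) := by
          field_simp; ring
      _ = _ := by
          congr 4
          have : Y * D = D ^ 2 * (Y / D) := by field_simp
          rw [this, Real.sqrt_mul (by positivity), Real.sqrt_sq hD.le]
  have i4 : ∑ a ∈ S, ‖Sh F m (yy a) a‖ ≤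
      ∑ a ∈ S, ‖∫ t, K0 η t * (tw (yy a) a t * EE F m (Y / D) a t)‖ +
      ∑ a ∈ S, ‖Sh F m (yy a) a - ∫ t, K0 η t * (tw (yy a) a t * EE F m (Y / D) a t)‖ := by
    rw [← Finset.sum_add_distrib]
    refine Finset.sum_le_sum fun a _ => ?_
    calc _ = ‖(∫ t, K0 η t * (tw (yy a) a t * EE F m (Y / D) a t)) +
          (Sh F m (yy a) a - ∫ t, K0 η t * (tw (yy a) a t * EE F m (Y / D) a t))‖ := by
            congr 1; ring
      _ ≤ _ := norm_add_le _ _
  linarith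

/-! ### Mean square input -/

open Classical in
/-- mean-square bound with the fixed weight `v0`, uniformly in `N`, `X`, `τ`. -/
def Hyp (P : Eis → Prop) (F : Eis → Eis → ℂ) (m : Eis → ℂ) (K δ : ℝ) : Prop :=
  ∀ (N : ℕ) (X τ : ℝ), 1 ≤ N → 0 < X →
    ∑ a ∈ (primBall N).filter P,
      ‖(∑' b : Eis, F a b * v0 (nm b / X) * (nm b : ℂ) ^ ((τ : ℂ) * I)) -
        m a * (mellin v0 ((5 : ℂ) / 6 + τ * I) * (X : ℂ) ^ ((5 : ℂ) / 6 + τ * I))‖ ^ 2 ≤
      K * ((1 + |τ|) * (1 + X) * N) ^ δ * ((N + τ ^ 2) * X)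

lemma EE_eq {F : Eis → Eis → ℂ} {m : Eis → ℂ} {X : ℝ} (hX0 : 0 < X) {a : Eis} (t : ℝ)
    (hF0 : F a 0 = 0) :
    EE F m X a t = (∑' b : Eis, F a b * v0 (nm b / X) * (nm b : ℂ) ^ ((t : ℂ) * I)) -
        m a * (mellin v0 ((5 : ℂ) / 6 + t * I) * (X : ℂ) ^ ((5 : ℂ) / 6 + t * I)) := by
  unfold EE
  rw [Mm_eq_mellin hX0]
  congr 1
  rw [tsum_eq_sum (s := Div277.nz ⌊8 * X⌋₊)]
  · apply Finset.sum_congr rfl
    intro b hb
    have hb0 : (0 : ℝ) < nm b := by
      exact_mod_cast nm_pos.mpr (Div277.mem_nz.mp hb).1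
    rw [pw_eq_cpow hb0]
    push_cast; rfl
  · intro b hb
    rw [Div277.mem_nz, not_and_or] at hb
    rcases hb with hb | hb
    · push Not at hb
      rw [hb, hF0]; simp
    · push Not at hb
      have h1 : 8 * X < nm b := (Nat.floor_lt (by positivity)).mp hb
      rw [v0_eq_zero_of_ge]
      · simp
      · rw [le_div_iff₀ hX0]; linarith

/-- Cauchy–Schwarz -/
lemma sum_norm_le_sqrt (S : Finset Eis) (f : Eis → ℂ) {c q : ℝ} (hc : (S.card : ℝ) ≤ c)
    (hq : ∑ a ∈ S, ‖f a‖ ^ 2 ≤ q) : ∑ a ∈ S, ‖f a‖ ≤ Real.sqrt (c * q) := by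
  apply Real.le_sqrt_of_sq_le
  have h := sq_sum_le_card_mul_sum_sq (s := S) (f := fun a => ‖f a‖)
  have h0 : 0 ≤ ∑ a ∈ S, ‖f a‖ ^ 2 := Finset.sum_nonneg fun a _ => by positivity
  have hc0 : (0 : ℝ) ≤ S.card := Nat.cast_nonneg _
  calc _ ≤ (S.card : ℝ) * ∑ a ∈ S, ‖f a‖ ^ 2 := h
    _ ≤ c * q := by
      apply mul_le_mul hc hq h0 (hc0.trans hc)

/-- the bound function -/
def GG (δ D Y : ℝ) : ℝ := (Y * D) ^ δ * ((Y * D) ^ ((1 : ℝ) / 2) + Y ^ ((3 : ℝ) / 4))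

lemma GG_mono {δ D D' Y Y' : ℝ} (hδ : 0 ≤ δ) (hD0 : 0 ≤ D) (hD : D ≤ D') (hY0 : 0 ≤ Y)
    (hY : Y ≤ Y') : GG δ D Y ≤ GG δ D' Y' := by
  unfold GG
  have h1 : 0 ≤ Y' := hY0.trans hY
  have h2 : 0 ≤ D' := hD0.trans hD
  gcongr

lemma GG_ge_one {δ D Y : ℝ} (hδ : 0 ≤ δ) (hD : 1 ≤ D) (hY : 1 ≤ Y) : 1 ≤ GG δ D Y := by
  unfold GG
  have h1 : 1 ≤ Y * D := by nlinarith
  have h2 : 1 ≤ (Y * D) ^ δ := Real.one_le_rpow h1 hδ
  have h3 : 1 ≤ (Y * D) ^ ((1 : ℝ) / 2) := Real.one_le_rpow h1 (by norm_num)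
  have h4 : 0 ≤ Y ^ ((3 : ℝ) / 4) := by positivity
  nlinarith

set_option maxHeartbeats 1000000 in
/-- block estimate with the mean square input -/
theorem block2 {δ : ℝ} (hδ : 0 < δ) (hδ1 : δ ≤ 1 / 4) : ∃ C : ℝ, 0 < C ∧
    ∀ (P : Eis → Prop) (F : Eis → Eis → ℂ) (m : Eis → ℂ) (K B M0 : ℝ), 0 ≤ K → 0 ≤ M0 →
    (∀ a b, ‖F a b‖ ≤ B) → (∀ a, F a 0 = 0) →
    (∀ a, IsPrim a → P a → ‖m a‖ ≤ M0 * (nm a : ℝ) ^ (-(1 : ℝ) / 6)) → Hyp P F m K δ →
    ∀ (D Y : ℝ), 1 ≤ D → 1 ≤ Y → ∀ (S : Finset Eis) (yy : Eis → ℝ),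
      (∀ a ∈ S, IsPrim a ∧ P a ∧ D / 2 < nm a ∧ (nm a : ℝ) ≤ D) →
      (∀ a ∈ S, Y / 2 < yy a ∧ yy a ≤ Y) →
      ∑ a ∈ S, ‖Sh F m (yy a) a‖ ≤ C * (Real.sqrt K + B + M0) * GG (3 * δ) D Y := by
  classical
  obtain ⟨k, hk⟩ := exists_nat_ge (1 / δ)
  have hk0 : 0 < k := by
    rcases Nat.eq_zero_or_pos k with rfl | h
    · have : 0 < 1 / δ := by positivity
      simp at hk; linarith
    · exact h
  have hkδ : 1 ≤ δ * k := by
    rw [div_le_iff₀ hδ] at hk; linarith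
  set c1 : ℝ := Cint * (2 + 1 / δ) * 20 with hc1
  set c2 : ℝ := 4 * Ck k * 2 ^ k * 82400 with hc2
  have hCint := Cint_pos
  have hCk := Ck_pos k
  have hc10 : 0 < c1 := by positivity
  have hc20 : 0 < c2 := by positivity
  refine ⟨c1 + c2 + 162400, by positivity, ?_⟩
  intro P F m K B M0 hK hM0 hB hF0 hm hH D Y hD hY S yy hS hyy
  have hB0 : 0 ≤ B := (norm_nonneg _).trans (hB 0 0)
  have hY0 : 0 < Y := by linarith
  have hD0 : 0 < D := by linarith
  have hYD : 1 ≤ Y * D := by nlinarith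
  set η : ℝ := Y ^ (-(1 : ℝ) / 4) / 2 with hη
  set T : ℝ := Y ^ (1 / 4 + δ) with hT
  have hY14 : Y ^ (-(1 : ℝ) / 4) ≤ 1 := Real.rpow_le_one_of_one_le_of_nonpos hY (by norm_num)
  have hη0 : 0 < η := by positivity
  have hη2 : η ≤ 1 / 2 := by rw [hη]; linarith
  have hT0 : 0 < T := by positivity
  have hT1 : 1 ≤ T := Real.one_le_rpow hY (by linarith)
  have hTY : T ≤ Y := by
    calc T ≤ Y ^ (1 : ℝ) := Real.rpow_le_rpow_of_exponent_le hY (by linarith)
      _ = Y := Real.rpow_one Y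
  have hηT : η * T = Y ^ δ / 2 := by
    rw [hη, hT, div_mul_eq_mul_div, ← Real.rpow_add hY0]
    congr 2; ring
  -- the bound `Q`
  set g : ℝ := (Y * D) ^ (2 * δ) * ((Y * D) ^ ((1 : ℝ) / 2) + Y ^ ((3 : ℝ) / 4)) with hg
  have hg0 : 0 ≤ g := by positivity
  have hcard := card_dyadic_le hD0 (fun a ha => (hS a ha).2.2)
  have hQ : ∀ t, |t| ≤ T → ∑ a ∈ S, ‖EE F m (Y / D) a t‖ ≤ 20 * Real.sqrt K * g := by
    intro t ht
    have hsub : S ⊆ (primBall ⌊D⌋₊).filter P := by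
      intro a ha
      obtain ⟨h1, h2, h3, h4⟩ := hS a ha
      rw [Finset.mem_filter, mem_primBall]
      exact ⟨⟨Nat.le_floor h4, h1⟩, h2⟩
    have hN : 1 ≤ ⌊D⌋₊ := by
      rw [Nat.one_le_floor_iff]; exact hD
    have h1 := hH ⌊D⌋₊ (Y / D) t hN (by positivity)
    have h2 : ∑ a ∈ S, ‖EE F m (Y / D) a t‖ ^ 2 ≤
        K * ((1 + |t|) * (1 + Y / D) * ⌊D⌋₊) ^ δ * ((⌊D⌋₊ + t ^ 2) * (Y / D)) := by
      refine le_trans ?_ h1
      rw [Finset.sum_congr rfl (fun a _ => by rw [EE_eq (m := m) (by positivity) t (hF0 a)])]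
      exact Finset.sum_le_sum_of_subset_of_nonneg hsub fun a _ _ => by positivity
    have hfl : (⌊D⌋₊ : ℝ) ≤ D := Nat.floor_le hD0.le
    have hb1 : (1 + |t|) * (1 + Y / D) * ⌊D⌋₊ ≤ 4 * (Y * D) ^ 2 := by
      have e1 : (1 + Y / D) * (⌊D⌋₊ : ℝ) ≤ 2 * (Y * D) := by
        calc (1 + Y / D) * (⌊D⌋₊ : ℝ) ≤ (1 + Y / D) * D := by gcongr
          _ = D + Y := by field_simp
          _ ≤ 2 * (Y * D) := by nlinarith
      have e2 : 1 + |t| ≤ 2 * (Y * D) := by
        have : |t| ≤ Y := ht.trans hTY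
        nlinarith
      calc (1 + |t|) * (1 + Y / D) * ⌊D⌋₊ = (1 + |t|) * ((1 + Y / D) * ⌊D⌋₊) := by ring
        _ ≤ (2 * (Y * D)) * (2 * (Y * D)) := by
          apply mul_le_mul e2 e1 (by positivity) (by positivity)
        _ = _ := by ring
    have hb2 : ((1 + |t|) * (1 + Y / D) * ⌊D⌋₊) ^ δ ≤ 4 * ((Y * D) ^ δ) ^ 2 := by
      calc ((1 + |t|) * (1 + Y / D) * ⌊D⌋₊) ^ δ ≤ (4 * (Y * D) ^ 2) ^ δ := by
            apply Real.rpow_le_rpow (by positivity) hb1 hδ.le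
        _ = 4 ^ δ * ((Y * D) ^ δ) ^ 2 := by
            rw [Real.mul_rpow (by norm_num) (by positivity), ← Real.rpow_natCast,
              ← Real.rpow_natCast, ← Real.rpow_mul (by positivity), ← Real.rpow_mul (by positivity),
              mul_comm (2 : ℕ).cast δ]
        _ ≤ 4 * ((Y * D) ^ δ) ^ 2 := by
            gcongr
            calc (4 : ℝ) ^ δ ≤ 4 ^ (1 : ℝ) :=
                  Real.rpow_le_rpow_of_exponent_le (by norm_num) (by linarith)
              _ = 4 := by norm_num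
    have ht2 : t ^ 2 ≤ T ^ 2 := by
      rw [← sq_abs t]
      exact pow_le_pow_left₀ (abs_nonneg t) ht 2
    have hT2 : T ^ 2 * Y ≤ ((Y * D) ^ δ * Y ^ ((3 : ℝ) / 4)) ^ 2 := by
      have e1 : T ^ 2 * Y = (Y ^ δ * Y ^ ((3 : ℝ) / 4)) ^ 2 := by
        rw [hT, ← Real.rpow_add hY0, ← Real.rpow_natCast, ← Real.rpow_natCast,
          ← Real.rpow_mul hY0.le, ← Real.rpow_mul hY0.le]
        nth_rewrite 2 [← Real.rpow_one Y]
        rw [← Real.rpow_add hY0]
        congr 1; push_cast; ring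
      rw [e1]
      have : Y ^ δ ≤ (Y * D) ^ δ := by
        apply Real.rpow_le_rpow hY0.le _ hδ.le
        nlinarith
      gcongr
    have hYD2 : Y * D ≤ ((Y * D) ^ δ * (Y * D) ^ ((1 : ℝ) / 2)) ^ 2 := by
      have h1 : 1 ≤ (Y * D) ^ δ := Real.one_le_rpow hYD hδ.le
      have h2 : ((Y * D) ^ ((1 : ℝ) / 2)) ^ 2 = Y * D := by
        rw [← Real.rpow_natCast, ← Real.rpow_mul (by positivity)]; norm_num
      rw [mul_pow, h2]
      nlinarith [one_le_pow₀ h1 (n := 2)]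
    have h3 : 100 * D * (K * ((1 + |t|) * (1 + Y / D) * ⌊D⌋₊) ^ δ * ((⌊D⌋₊ + t ^ 2) * (Y / D))) ≤
        (20 * Real.sqrt K * g) ^ 2 := by
      have e1 : (⌊D⌋₊ + t ^ 2) * (Y / D) ≤ (D + T ^ 2) * (Y / D) := by gcongr
      have e0 : D * (Y / D) = Y := by field_simp
      have e2 : 100 * D * (K * (4 * ((Y * D) ^ δ) ^ 2) * ((D + T ^ 2) * (Y / D))) =
          400 * K * ((Y * D) ^ δ) ^ 2 * (Y * D + T ^ 2 * Y) := by
        linear_combination (400 * K * ((Y * D) ^ δ) ^ 2 * (D + T ^ 2)) * e0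
      have e3 : (20 * Real.sqrt K * g) ^ 2 = 400 * K * g ^ 2 := by
        rw [mul_pow, mul_pow, Real.sq_sqrt hK]; ring
      have e4 : g = (Y * D) ^ δ * ((Y * D) ^ δ * (Y * D) ^ ((1 : ℝ) / 2) +
          (Y * D) ^ δ * Y ^ ((3 : ℝ) / 4)) := by
        rw [hg, two_mul, Real.rpow_add (by positivity)]; ring
      have e5 : Y * D + T ^ 2 * Y ≤ ((Y * D) ^ δ * (Y * D) ^ ((1 : ℝ) / 2) +
          (Y * D) ^ δ * Y ^ ((3 : ℝ) / 4)) ^ 2 := by
        have p1 : 0 ≤ (Y * D) ^ δ * (Y * D) ^ ((1 : ℝ) / 2) := by positivity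
        have p2 : 0 ≤ (Y * D) ^ δ * Y ^ ((3 : ℝ) / 4) := by positivity
        nlinarith [mul_nonneg p1 p2]
      calc _ ≤ 100 * D * (K * (4 * ((Y * D) ^ δ) ^ 2) * ((D + T ^ 2) * (Y / D))) := by gcongr
        _ = 400 * K * ((Y * D) ^ δ) ^ 2 * (Y * D + T ^ 2 * Y) := e2
        _ ≤ 400 * K * ((Y * D) ^ δ) ^ 2 * ((Y * D) ^ δ * (Y * D) ^ ((1 : ℝ) / 2) +
          (Y * D) ^ δ * Y ^ ((3 : ℝ) / 4)) ^ 2 := by gcongr
        _ = 400 * K * g ^ 2 := by rw [e4]; ring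
        _ = _ := e3.symm
    refine (sum_norm_le_sqrt S _ hcard h2).trans ?_
    rw [show 20 * Real.sqrt K * g = Real.sqrt ((20 * Real.sqrt K * g) ^ 2) by
      rw [Real.sqrt_sq (by positivity)]]
    exact Real.sqrt_le_sqrt h3
  have hblock := block hB hM0 hY0 hη0 hη2 hD0 (fun a ha => (hS a ha).2.2) hyy
    (fun a ha => hm a (hS a ha).1 (hS a ha).2.1) hT0 (by positivity) hk0 hQ
  refine hblock.trans ?_
  set G3 : ℝ := GG (3 * δ) D Y with hG3
  have hYDδ : 1 ≤ (Y * D) ^ δ := Real.one_le_rpow hYD hδ.le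
  have hgG : (Y * D) ^ δ * g = G3 := by
    rw [hG3, GG, hg, ← mul_assoc, ← Real.rpow_add (by positivity)]
    congr 2; ring
  have hG1 : (Y * D) ^ ((1 : ℝ) / 2) + Y ^ ((3 : ℝ) / 4) ≤ G3 := by
    rw [hG3, GG]
    have h1 : 1 ≤ (Y * D) ^ (3 * δ) := Real.one_le_rpow hYD (by positivity)
    have h2 : 0 ≤ (Y * D) ^ ((1 : ℝ) / 2) + Y ^ ((3 : ℝ) / 4) := by positivity
    nlinarith
  have hG0 : 0 ≤ G3 := le_trans (by positivity) hG1
  -- first term
  have t1 : Cint * (1 + Real.log (1 / η)) * (20 * Real.sqrt K * g) ≤ c1 * Real.sqrt K * G3 := by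
    have e1 : Real.log (1 / η) = Real.log 2 + 1 / 4 * Real.log Y := by
      have : 1 / η = 2 * Y ^ ((1 : ℝ) / 4) := by
        rw [hη, neg_div, Real.rpow_neg hY0.le]; field_simp
      rw [this, Real.log_mul (by norm_num) (by positivity), Real.log_rpow hY0]
    have e2 : Real.log Y ≤ Y ^ δ / δ := Real.log_le_rpow_div hY0.le hδ
    have e3 : Real.log 2 ≤ 1 := by have := Real.log_two_lt_d9; linarith
    have e4 : Y ^ δ ≤ (Y * D) ^ δ := by
      apply Real.rpow_le_rpow hY0.le _ hδ.le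
      nlinarith
    have e5 : 1 + Real.log (1 / η) ≤ (2 + 1 / δ) * (Y * D) ^ δ := by
      rw [e1]
      have e6 : Y ^ δ / δ ≤ 1 / δ * (Y * D) ^ δ := by
        rw [div_eq_mul_one_div, mul_comm]
        gcongr
      have e7 : 0 ≤ 1 / δ * (Y * D) ^ δ := by positivity
      nlinarith
    calc Cint * (1 + Real.log (1 / η)) * (20 * Real.sqrt K * g)
        ≤ Cint * ((2 + 1 / δ) * (Y * D) ^ δ) * (20 * Real.sqrt K * g) := by gcongr
      _ = c1 * Real.sqrt K * ((Y * D) ^ δ * g) := by rw [hc1]; ring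
      _ = _ := by rw [hgG]
  have hY56 : Y ^ ((5 : ℝ) / 6) ≤ Y := by
    calc Y ^ ((5 : ℝ) / 6) ≤ Y ^ (1 : ℝ) := Real.rpow_le_rpow_of_exponent_le hY (by norm_num)
      _ = Y := Real.rpow_one Y
  have t2 : 4 * Ck k / (η * T) ^ k * (80000 * B * Y + 2400 * M0 * Y ^ ((5 : ℝ) / 6)) ≤
      c2 * (B + M0) * G3 := by
    have e1 : (η * T) ^ k = (Y ^ δ) ^ k / 2 ^ k := by rw [hηT, div_pow]
    have e2 : Y ≤ (Y ^ δ) ^ k := by
      rw [← Real.rpow_natCast, ← Real.rpow_mul hY0.le]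
      nth_rewrite 1 [← Real.rpow_one Y]
      exact Real.rpow_le_rpow_of_exponent_le hY hkδ
    have e3 : 4 * Ck k / (η * T) ^ k ≤ 4 * Ck k * 2 ^ k / Y := by
      rw [e1, div_div_eq_mul_div]
      gcongr
    have e4 : 80000 * B * Y + 2400 * M0 * Y ^ ((5 : ℝ) / 6) ≤ 82400 * (B + M0) * Y := by
      have : 2400 * M0 * Y ^ ((5 : ℝ) / 6) ≤ 2400 * M0 * Y := by gcongr
      nlinarith [mul_nonneg hB0 hY0.le, mul_nonneg hM0 hY0.le]
    have hGG1 : 1 ≤ G3 := GG_ge_one (by positivity) hD hY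
    calc _ ≤ 4 * Ck k * 2 ^ k / Y * (82400 * (B + M0) * Y) := by gcongr
      _ = c2 * (B + M0) * 1 := by rw [hc2]; field_simp
      _ ≤ c2 * (B + M0) * G3 := by gcongr
  have t3 : 160000 * B * (η * Y + Real.sqrt (Y * D)) + 2400 * M0 * η * Y ^ ((5 : ℝ) / 6) ≤
      162400 * (B + M0) * G3 := by
    have e1 : η * Y ≤ Y ^ ((3 : ℝ) / 4) := by
      have : Y ^ ((3 : ℝ) / 4) = Y ^ (-(1 : ℝ) / 4) * Y := by
        nth_rewrite 3 [← Real.rpow_one Y]
        rw [← Real.rpow_add hY0]; norm_num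
      rw [this, hη]
      have : 0 < Y ^ (-(1 : ℝ) / 4) := by positivity
      nlinarith
    have e2 : η * Y ^ ((5 : ℝ) / 6) ≤ Y ^ ((3 : ℝ) / 4) := le_trans (by gcongr) e1
    have e3 : Real.sqrt (Y * D) = (Y * D) ^ ((1 : ℝ) / 2) := Real.sqrt_eq_rpow _
    have e4 : η * Y + Real.sqrt (Y * D) ≤ G3 := by rw [e3]; linarith
    have e5 : η * Y ^ ((5 : ℝ) / 6) ≤ G3 := by
      have : 0 ≤ (Y * D) ^ ((1 : ℝ) / 2) := by positivity
      linarith
    have e6 : 160000 * B * (η * Y + Real.sqrt (Y * D)) ≤ 160000 * B * G3 := by gcongr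
    have e7 : 2400 * M0 * η * Y ^ ((5 : ℝ) / 6) ≤ 2400 * M0 * G3 := by
      rw [mul_assoc (2400 * M0)]; gcongr
    have q1 := mul_nonneg hB0 hG0
    have q2 := mul_nonneg hM0 hG0
    have q3 : 162400 * (B + M0) * G3 = (160000 * B * G3 + 2400 * M0 * G3) +
        (2400 * (B * G3) + 160000 * (M0 * G3)) := by ring
    rw [q3]
    exact (add_le_add e6 e7).trans (le_add_of_nonneg_right (by positivity))
  have hs0 := Real.sqrt_nonneg K
  have p1 : 0 ≤ c1 * (B + M0) * G3 := by positivity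
  have p2 : 0 ≤ (c2 + 162400) * Real.sqrt K * G3 := by positivity
  have p3 : (c1 + c2 + 162400) * (Real.sqrt K + B + M0) * G3 =
      (c1 * Real.sqrt K * G3 + c2 * (B + M0) * G3 + 162400 * (B + M0) * G3) +
      (c1 * (B + M0) * G3 + (c2 + 162400) * Real.sqrt K * G3) := by ring
  rw [p3]
  exact (add_le_add (add_le_add t1 t2) t3).trans (le_add_of_nonneg_right (add_nonneg p1 p2))

/-! ### Assembly of the dyadic blocks -/

lemma halve {ι : Type*} (w φ : ι → ℝ) {E c : ℝ} (hE0 : 0 ≤ E) (n : ℕ) :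
    ∀ (S : Finset ι) (Y : ℝ), Y < 2 ^ n → (∀ a ∈ S, w a ≤ Y) →
    (∀ Y' : ℝ, 1 ≤ Y' → Y' ≤ Y → ∀ S' ⊆ S, (∀ a ∈ S', Y' / 2 < w a ∧ w a ≤ Y') →
      ∑ a ∈ S', φ a ≤ E) →
    (∀ S' ⊆ S, (∀ a ∈ S', w a < 1) → ∑ a ∈ S', φ a ≤ c) →
    ∑ a ∈ S, φ a ≤ n * E + c := by
  classical
  induction n with
  | zero =>
    intro S Y hY hw _ hc
    rw [pow_zero] at hY
    have := hc S subset_rfl (fun a ha => lt_of_le_of_lt (hw a ha) hY)
    simpa using this
  | succ n ih =>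
    intro S Y hY hw hE hc
    rcases lt_or_ge Y 1 with h1 | h1
    · have := hc S subset_rfl (fun a ha => lt_of_le_of_lt (hw a ha) h1)
      have h2 : 0 ≤ ((n + 1 : ℕ) : ℝ) * E := by positivity
      linarith
    · rw [← Finset.sum_filter_add_sum_filter_not S (fun a => Y / 2 < w a)]
      have e1 := hE Y h1 le_rfl (S.filter (fun a => Y / 2 < w a)) (Finset.filter_subset _ _)
        (fun a ha => ⟨(Finset.mem_filter.mp ha).2, hw a (Finset.mem_filter.mp ha).1⟩)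
      have e2 := ih (S.filter (fun a => ¬ Y / 2 < w a)) (Y / 2)
        (by rw [pow_succ] at hY; linarith)
        (fun a ha => not_lt.mp (Finset.mem_filter.mp ha).2)
        (fun Y' hY1 hY2 S' hS' h => hE Y' hY1 (by linarith) S'
          (hS'.trans (Finset.filter_subset _ _)) h)
        (fun S' hS' h => hc S' (hS'.trans (Finset.filter_subset _ _)) h)
      push_cast
      linarith

/-- full sharp sum `N(ab) ≤ y` minus the main term. -/
def Fu (F : Eis → Eis → ℂ) (m : Eis → ℂ) (y : ℝ) (a : Eis) : ℂ :=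
  ∑ b ∈ Div277.nz ⌊y / nm a⌋₊, F a b -
    m a * ((6 / 5 * (y / nm a) ^ ((5 : ℝ) / 6) : ℝ) : ℂ)

open Classical in
lemma Fu_eq (F : Eis → Eis → ℂ) (m : Eis → ℂ) {y : ℝ} (hy : 0 ≤ y) {a : Eis} (ha : a ≠ 0) :
    Fu F m y a = Sh F m y a + Fu F m (y / 2) a := by
  have hA : (0 : ℝ) < nm a := by exact_mod_cast nm_pos.mpr ha
  unfold Fu Sh
  have hset : (Div277.nz ⌊y / nm a⌋₊).filter (fun b => ¬ y / 2 < (nm a : ℝ) * nm b) =
      Div277.nz ⌊y / 2 / nm a⌋₊ := by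
    ext b
    simp only [Finset.mem_filter, Div277.mem_nz, not_lt]
    constructor
    · rintro ⟨⟨h0, _⟩, h1⟩
      refine ⟨h0, Nat.le_floor ?_⟩
      rw [le_div_iff₀ hA]; linarith
    · rintro ⟨h0, h3⟩
      have h4 : (nm b : ℝ) ≤ y / 2 / nm a := by
        have h5 := Nat.floor_le (a := y / 2 / (nm a : ℝ)) (by positivity)
        have h6 : (nm b : ℝ) ≤ (⌊y / 2 / (nm a : ℝ)⌋₊ : ℝ) := by exact_mod_cast h3
        linarith
      rw [le_div_iff₀ hA] at h4
      refine ⟨⟨h0, Nat.le_floor ?_⟩, by linarith⟩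
      rw [le_div_iff₀ hA]
      linarith
  rw [← Finset.sum_filter_add_sum_filter_not (Div277.nz ⌊y / nm a⌋₊)
    (fun b => y / 2 < (nm a : ℝ) * nm b), hset]
  push_cast
  ring

lemma nz_empty {y : ℝ} (hy1 : y < 1) {a : Eis} (ha : a ≠ 0) : Div277.nz ⌊y / nm a⌋₊ = ∅ := by
  have hA : (1 : ℝ) ≤ nm a := by exact_mod_cast nm_pos.mpr ha
  have : ⌊y / (nm a : ℝ)⌋₊ = 0 := by
    rw [Nat.floor_eq_zero, div_lt_one (by linarith)]
    linarith
  rw [this]
  ext b
  simp only [Div277.mem_nz, Finset.notMem_empty, iff_false, not_and]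
  intro hb
  have := nm_pos.mpr hb
  omega

lemma trivial_aux {A y : ℝ} (hA : 1 ≤ A) (hy : 0 ≤ y) (hy1 : y < 1) :
    A ^ (-(1 : ℝ) / 6) * (6 / 5 * (y / A) ^ ((5 : ℝ) / 6)) ≤ 6 / 5 / A := by
  have hA0 : 0 < A := by linarith
  have h1 : (y / A) ^ ((5 : ℝ) / 6) ≤ (1 / A) ^ ((5 : ℝ) / 6) := by
    apply Real.rpow_le_rpow (by positivity) _ (by norm_num)
    gcongr
  have h2 : (1 / A) ^ ((5 : ℝ) / 6) = A ^ (-(5 : ℝ) / 6) := by
    rw [one_div, neg_div, Real.rpow_neg hA0.le, Real.inv_rpow hA0.le]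
  have h3 : A ^ (-(1 : ℝ) / 6) * A ^ (-(5 : ℝ) / 6) = 1 / A := by
    rw [← Real.rpow_add hA0, one_div, ← Real.rpow_neg_one]; norm_num
  calc _ ≤ A ^ (-(1 : ℝ) / 6) * (6 / 5 * A ^ (-(5 : ℝ) / 6)) := by
        rw [← h2]; gcongr
    _ = 6 / 5 * (A ^ (-(1 : ℝ) / 6) * A ^ (-(5 : ℝ) / 6)) := by ring
    _ = _ := by rw [h3]; ring

lemma norm_Sh_small {F : Eis → Eis → ℂ} {m : Eis → ℂ} {M0 y : ℝ} (hM0 : 0 ≤ M0) (hy : 0 ≤ y)
    (hy1 : y < 1) {a : Eis} (ha : a ≠ 0) (hm : ‖m a‖ ≤ M0 * (nm a : ℝ) ^ (-(1 : ℝ) / 6)) :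
    ‖Sh F m y a‖ ≤ 6 / 5 * M0 / nm a := by
  have hA : (1 : ℝ) ≤ nm a := by exact_mod_cast nm_pos.mpr ha
  unfold Sh
  rw [nz_empty hy1 ha, Finset.filter_empty, Finset.sum_empty, zero_sub, norm_neg, norm_mul,
    Complex.norm_real, Real.norm_eq_abs]
  have h1 : (y / 2 / nm a) ^ ((5 : ℝ) / 6) ≤ (y / nm a) ^ ((5 : ℝ) / 6) := by
    apply Real.rpow_le_rpow (by positivity) _ (by norm_num)
    gcongr; linarith
  have h2 : 0 ≤ (y / 2 / nm a) ^ ((5 : ℝ) / 6) := by positivity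
  rw [abs_of_nonneg (by linarith)]
  have h3 := trivial_aux hA hy hy1
  calc _ ≤ (M0 * (nm a : ℝ) ^ (-(1 : ℝ) / 6)) * (6 / 5 * (y / nm a) ^ ((5 : ℝ) / 6)) := by
        apply mul_le_mul hm (by linarith) (by linarith) (by positivity)
    _ = M0 * ((nm a : ℝ) ^ (-(1 : ℝ) / 6) * (6 / 5 * (y / nm a) ^ ((5 : ℝ) / 6))) := by ring
    _ ≤ M0 * (6 / 5 / nm a) := by gcongr
    _ = _ := by ring

lemma norm_Fu_small {F : Eis → Eis → ℂ} {m : Eis → ℂ} {M0 y : ℝ} (hM0 : 0 ≤ M0) (hy : 0 ≤ y)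
    (hy1 : y < 1) {a : Eis} (ha : a ≠ 0) (hm : ‖m a‖ ≤ M0 * (nm a : ℝ) ^ (-(1 : ℝ) / 6)) :
    ‖Fu F m y a‖ ≤ 6 / 5 * M0 / nm a := by
  have hA : (1 : ℝ) ≤ nm a := by exact_mod_cast nm_pos.mpr ha
  unfold Fu
  rw [nz_empty hy1 ha, Finset.sum_empty, zero_sub, norm_neg, norm_mul,
    Complex.norm_real, Real.norm_eq_abs, abs_of_nonneg (by positivity)]
  have h3 := trivial_aux hA hy hy1
  calc _ ≤ (M0 * (nm a : ℝ) ^ (-(1 : ℝ) / 6)) * (6 / 5 * (y / nm a) ^ ((5 : ℝ) / 6)) := by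
        gcongr
    _ = M0 * ((nm a : ℝ) ^ (-(1 : ℝ) / 6) * (6 / 5 * (y / nm a) ^ ((5 : ℝ) / 6))) := by ring
    _ ≤ M0 * (6 / 5 / nm a) := by gcongr
    _ = _ := by ring

lemma sum_small {S : Finset Eis} {D M0 : ℝ} (hD : 0 < D) (hM0 : 0 ≤ M0)
    (hS : ∀ a ∈ S, D / 2 < nm a ∧ (nm a : ℝ) ≤ D) {φ : Eis → ℝ}
    (hφ : ∀ a ∈ S, φ a ≤ 6 / 5 * M0 / nm a) : ∑ a ∈ S, φ a ≤ 240 * M0 := by
  calc ∑ a ∈ S, φ a ≤ ∑ a ∈ S, 12 / 5 * M0 / D := by
        refine Finset.sum_le_sum fun a ha => (hφ a ha).trans ?_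
        have h1 := (hS a ha).1
        have h2 : (0 : ℝ) < nm a := by linarith
        rw [div_le_div_iff₀ h2 hD]
        nlinarith
    _ = S.card * (12 / 5 * M0 / D) := by rw [Finset.sum_const, nsmul_eq_mul]
    _ ≤ (100 * D) * (12 / 5 * M0 / D) := by
        have := card_dyadic_le hD hS
        gcongr
    _ = 240 * M0 := by field_simp; ring

/-- recursion `Fu(y) = Sh(y) + Fu(y/2)` summed. -/
lemma sum_Fu_le {F : Eis → Eis → ℂ} {m : Eis → ℂ} {S : Finset Eis} (hS0 : ∀ a ∈ S, a ≠ 0)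
    {E c Y0 : ℝ} (hE0 : 0 ≤ E)
    (hE : ∀ yy : Eis → ℝ, (∀ a ∈ S, 0 ≤ yy a ∧ yy a ≤ Y0) → ∑ a ∈ S, ‖Sh F m (yy a) a‖ ≤ E)
    (hc : ∀ yy : Eis → ℝ, (∀ a ∈ S, 0 ≤ yy a ∧ yy a < 1) → ∑ a ∈ S, ‖Fu F m (yy a) a‖ ≤ c)
    (n : ℕ) : ∀ Y : ℝ, Y < 2 ^ n → Y ≤ Y0 → ∀ yy : Eis → ℝ,
      (∀ a ∈ S, 0 ≤ yy a ∧ yy a ≤ Y) → ∑ a ∈ S, ‖Fu F m (yy a) a‖ ≤ n * E + c := by
  induction n with
  | zero =>
    intro Y hY _ yy hyy
    rw [pow_zero] at hY
    have := hc yy (fun a ha => ⟨(hyy a ha).1, lt_of_le_of_lt (hyy a ha).2 hY⟩)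
    simpa using this
  | succ n ih =>
    intro Y hY hY0 yy hyy
    rcases lt_or_ge Y 1 with h1 | h1
    · have := hc yy (fun a ha => ⟨(hyy a ha).1, lt_of_le_of_lt (hyy a ha).2 h1⟩)
      have h2 : 0 ≤ ((n + 1 : ℕ) : ℝ) * E := by positivity
      linarith
    · have e1 := hE yy (fun a ha => ⟨(hyy a ha).1, (hyy a ha).2.trans hY0⟩)
      have e2 := ih (Y / 2) (by rw [pow_succ] at hY; linarith) (by linarith) (fun a => yy a / 2)
        (fun a ha => ⟨by have := (hyy a ha).1; positivity, by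
          have := (hyy a ha).2; show yy a / 2 ≤ Y / 2; linarith⟩)
      have e3 : ∑ a ∈ S, ‖Fu F m (yy a) a‖ ≤ ∑ a ∈ S, ‖Sh F m (yy a) a‖ +
          ∑ a ∈ S, ‖Fu F m (yy a / 2) a‖ := by
        rw [← Finset.sum_add_distrib]
        refine Finset.sum_le_sum fun a ha => ?_
        rw [Fu_eq F m (hyy a ha).1 (hS0 a ha)]
        exact norm_add_le _ _
      push_cast
      linarith

lemma exists_pow_two_gt {x δ : ℝ} (hx : 1 ≤ x) (hδ : 0 < δ) :
    ∃ n : ℕ, x < 2 ^ n ∧ (n : ℝ) ≤ (2 + 2 / δ) * x ^ δ := by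
  refine ⟨⌊Real.log x / Real.log 2⌋₊ + 1, ?_, ?_⟩
  · have hlog2 : 0 < Real.log 2 := Real.log_pos (by norm_num)
    have h1 := Nat.lt_floor_add_one (Real.log x / Real.log 2)
    rw [div_lt_iff₀ hlog2] at h1
    rw [← Real.log_lt_log_iff (by linarith) (by positivity), Real.log_pow]
    push_cast
    exact h1
  · have hlog2 : (0.5 : ℝ) < Real.log 2 := by have := Real.log_two_gt_d9; linarith
    have hlx : 0 ≤ Real.log x := Real.log_nonneg hx
    have h1 := Nat.floor_le (a := Real.log x / Real.log 2) (by positivity)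
    have h2 : Real.log x / Real.log 2 ≤ 2 * Real.log x := by
      rw [div_le_iff₀ (by linarith)]; nlinarith
    have h3 : Real.log x ≤ x ^ δ / δ := Real.log_le_rpow_div (by linarith) hδ
    have h4 : 1 ≤ x ^ δ := Real.one_le_rpow hx hδ.le
    push_cast
    have h5 : x ^ δ / δ = 1 / δ * x ^ δ := by ring
    have h6 : (2 + 2 / δ) * x ^ δ = 2 * x ^ δ + 2 * (1 / δ * x ^ δ) := by ring
    rw [h6]
    rw [h5] at h3
    linarith

set_option maxHeartbeats 1000000 in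
/-- **Sharp cut-offs from the mean-square bound.**  For every `ε` there are `δ, C`: if `Hyp` holds
with exponent `δ`, then for all `D, Y ≥ 1` and cut-offs `0 ≤ y(a) ≤ Y`
`∑_{a ≤ D} |∑_{N(ab) ≤ y(a)} F(a,b) - (6/5) m(a) (y(a)/N a)^{5/6}| ≤
  C (√K + B + M₀) (YD)^ε ((YD)^{1/2} + Y^{3/4})`. -/
theorem sharp_of_ms {ε : ℝ} (hε : 0 < ε) : ∃ δ C : ℝ, 0 < δ ∧ 0 < C ∧
    ∀ (P : Eis → Prop) (F : Eis → Eis → ℂ) (m : Eis → ℂ) (K B M0 : ℝ), 0 ≤ K → 0 ≤ M0 →
    (∀ a b, ‖F a b‖ ≤ B) → (∀ a, F a 0 = 0) →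
    (∀ a, IsPrim a → P a → ‖m a‖ ≤ M0 * (nm a : ℝ) ^ (-(1 : ℝ) / 6)) → Hyp P F m K δ →
    ∀ (D Y : ℝ), 1 ≤ D → 1 ≤ Y → ∀ (S : Finset Eis) (yy : Eis → ℝ),
      (∀ a ∈ S, IsPrim a ∧ P a ∧ (nm a : ℝ) ≤ D) →
      (∀ a ∈ S, 0 ≤ yy a ∧ yy a ≤ Y) →
      ∑ a ∈ S, ‖Fu F m (yy a) a‖ ≤ C * (Real.sqrt K + B + M0) * GG ε D Y := by
  classical
  set δ : ℝ := min (1 / 4) (ε / 6) with hδ
  have hδ0 : 0 < δ := by positivity
  have hδ1 : δ ≤ 1 / 4 := min_le_left _ _
  have hδε : 6 * δ ≤ ε := by have := min_le_right (1 / 4 : ℝ) (ε / 6); rw [← hδ] at this; linarith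
  obtain ⟨C0, hC0, hblk⟩ := block2 hδ0 hδ1
  set L : ℝ := 2 + 2 / δ with hL
  have hL0 : 0 < L := by positivity
  refine ⟨δ, L * (L * (L * C0 + 240) + 240), hδ0, by positivity, ?_⟩
  intro P F m K B M0 hK hM0 hB hF0 hm hH D Y hD hY S yy hS hyy
  have hB0 : 0 ≤ B := (norm_nonneg _).trans (hB 0 0)
  set R : ℝ := Real.sqrt K + B + M0 with hR
  have hR0 : 0 ≤ R := by have := Real.sqrt_nonneg K; positivity
  have hM0R : M0 ≤ R := by have := Real.sqrt_nonneg K; linarith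
  obtain ⟨n, hn1, hn2⟩ := exists_pow_two_gt hY hδ0
  obtain ⟨n', hn1', hn2'⟩ := exists_pow_two_gt hD hδ0
  have hYδ : 1 ≤ Y ^ δ := Real.one_le_rpow hY hδ0.le
  have hDδ : 1 ≤ D ^ δ := Real.one_le_rpow hD hδ0.le
  set G3 : ℝ := GG (3 * δ) D Y with hG3
  have hG31 : 1 ≤ G3 := GG_ge_one (by positivity) hD hY
  -- one dyadic range of `a`
  set E1 : ℝ := C0 * R * G3 with hE1
  have hE10 : 0 ≤ E1 := by positivity
  set E2 : ℝ := n * E1 + 240 * M0 with hE2
  have hE20 : 0 ≤ E2 := by positivity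
  set E3 : ℝ := n * E2 + 240 * M0 with hE3
  have hE30 : 0 ≤ E3 := by positivity
  have main : ∀ D' : ℝ, 1 ≤ D' → D' ≤ D → ∀ S' ⊆ S,
      (∀ a ∈ S', D' / 2 < (nm a : ℝ) ∧ (nm a : ℝ) ≤ D') →
      ∑ a ∈ S', ‖Fu F m (yy a) a‖ ≤ E3 := by
    intro D' hD1 hD2 S' hS' hdy
    have hD'0 : 0 < D' := by linarith
    have hgood : ∀ a ∈ S', IsPrim a ∧ P a ∧ D' / 2 < nm a ∧ (nm a : ℝ) ≤ D' := fun a ha =>
      ⟨(hS a (hS' ha)).1, (hS a (hS' ha)).2.1, hdy a ha⟩
    have hne : ∀ a ∈ S', a ≠ 0 := fun a ha => (hgood a ha).1.ne_zero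
    have hma : ∀ a ∈ S', ‖m a‖ ≤ M0 * (nm a : ℝ) ^ (-(1 : ℝ) / 6) := fun a ha =>
      hm a (hgood a ha).1 (hgood a ha).2.1
    have hShb : ∀ yy' : Eis → ℝ, (∀ a ∈ S', 0 ≤ yy' a ∧ yy' a ≤ Y) →
        ∑ a ∈ S', ‖Sh F m (yy' a) a‖ ≤ E2 := by
      intro yy' hyy'
      refine halve yy' (fun a => ‖Sh F m (yy' a) a‖) hE10 n S' Y hn1 (fun a ha => (hyy' a ha).2)
        ?_ ?_
      · intro Y' hY1 hY2 S'' hS'' hw
        refine (hblk P F m K B M0 hK hM0 hB hF0 hm hH D' Y' hD1 hY1 S'' yy'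
          (fun a ha => hgood a (hS'' ha)) hw).trans ?_
        rw [hE1, hG3]
        gcongr
        exact GG_mono (by positivity) hD'0.le hD2 (by linarith) hY2
      · intro S'' hS'' hw
        refine sum_small hD'0 hM0 (fun a ha => hdy a (hS'' ha)) fun a ha => ?_
        exact norm_Sh_small hM0 (hyy' a (hS'' ha)).1 (hw a ha) (hne a (hS'' ha))
          (hma a (hS'' ha))
    refine sum_Fu_le hne hE20 hShb ?_ n Y hn1 le_rfl yy (fun a ha => hyy a (hS' ha))
    intro yy' hyy'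
    refine sum_small hD'0 hM0 hdy fun a ha => ?_
    exact norm_Fu_small hM0 (hyy' a ha).1 (hyy' a ha).2 (hne a ha) (hma a ha)
  have hfin := halve (fun a => (nm a : ℝ)) (fun a => ‖Fu F m (yy a) a‖) (c := 0) hE30 n' S D hn1'
    (fun a ha => (hS a ha).2.2) main (by
      intro S' hS' hw
      have : S' = ∅ := by
        by_contra hne
        obtain ⟨a, ha⟩ := Finset.nonempty_iff_ne_empty.mpr hne
        have h1 := hw a ha
        have h2 : (1 : ℝ) ≤ nm a := by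
          exact_mod_cast nm_pos.mpr (hS a (hS' ha)).1.ne_zero
        linarith
      rw [this]; simp)
  rw [add_zero] at hfin
  refine hfin.trans ?_
  -- final arithmetic
  have k1 : E2 ≤ (L * C0 + 240) * R * (Y ^ δ * G3) := by
    have h1 : (n : ℝ) * E1 ≤ (L * Y ^ δ) * E1 := by gcongr
    have h2 : 240 * M0 ≤ 240 * R * (Y ^ δ * G3) := by
      have : 1 ≤ Y ^ δ * G3 := one_le_mul_of_one_le_of_one_le hYδ hG31
      calc 240 * M0 ≤ 240 * R * 1 := by linarith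
        _ ≤ _ := by gcongr
    calc E2 ≤ (L * Y ^ δ) * E1 + 240 * R * (Y ^ δ * G3) := by rw [hE2]; linarith
      _ = _ := by rw [hE1]; ring
  have k2 : E3 ≤ (L * (L * C0 + 240) + 240) * R * ((Y ^ δ) ^ 2 * G3) := by
    have h1 : (n : ℝ) * E2 ≤ (L * Y ^ δ) * ((L * C0 + 240) * R * (Y ^ δ * G3)) := by gcongr
    have h2 : 240 * M0 ≤ 240 * R * ((Y ^ δ) ^ 2 * G3) := by
      have h3 : 1 ≤ (Y ^ δ) ^ 2 := one_le_pow₀ hYδ
      have : 1 ≤ (Y ^ δ) ^ 2 * G3 := one_le_mul_of_one_le_of_one_le h3 hG31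
      calc 240 * M0 ≤ 240 * R * 1 := by linarith
        _ ≤ _ := by gcongr
    calc E3 ≤ (L * Y ^ δ) * ((L * C0 + 240) * R * (Y ^ δ * G3)) +
          240 * R * ((Y ^ δ) ^ 2 * G3) := by rw [hE3]; linarith
      _ = _ := by ring
  have k3 : (Y ^ δ) ^ 2 * D ^ δ * G3 ≤ GG ε D Y := by
    have hYD : 1 ≤ Y * D := one_le_mul_of_one_le_of_one_le hY hD
    have hY0 : 0 ≤ Y := by linarith
    have hD0 : 0 ≤ D := by linarith
    have h1 : Y ^ δ ≤ (Y * D) ^ δ :=
      Real.rpow_le_rpow hY0 (le_mul_of_one_le_right hY0 hD) hδ0.le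
    have h2 : D ^ δ ≤ (Y * D) ^ δ :=
      Real.rpow_le_rpow hD0 (le_mul_of_one_le_left hD0 hY) hδ0.le
    have h3 : (Y ^ δ) ^ 2 * D ^ δ ≤ (Y * D) ^ (3 * δ) := by
      calc (Y ^ δ) ^ 2 * D ^ δ ≤ ((Y * D) ^ δ) ^ 2 * (Y * D) ^ δ := by gcongr
        _ = (Y * D) ^ (3 * δ) := by
          rw [← pow_succ, ← Real.rpow_natCast, ← Real.rpow_mul (by positivity)]
          congr 1; push_cast; ring
    rw [hG3, GG, GG, ← mul_assoc]
    gcongr
    calc (Y ^ δ) ^ 2 * D ^ δ * (Y * D) ^ (3 * δ) ≤ (Y * D) ^ (3 * δ) * (Y * D) ^ (3 * δ) := by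
          gcongr
      _ = (Y * D) ^ (6 * δ) := by
          rw [← Real.rpow_add (by positivity)]; congr 1; ring
      _ ≤ (Y * D) ^ ε := Real.rpow_le_rpow_of_exponent_le hYD hδε
  calc (n' : ℝ) * E3 ≤ (L * D ^ δ) *
        ((L * (L * C0 + 240) + 240) * R * ((Y ^ δ) ^ 2 * G3)) := by gcongr
    _ = L * (L * (L * C0 + 240) + 240) * R * ((Y ^ δ) ^ 2 * D ^ δ * G3) := by ring
    _ ≤ _ := by gcongr

end Crest.Agent.R012.TI2
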