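import Crest.Agent.R012.TypeI5_941

/-!
# Row 12, CR2 type I (part A): mean square of the basic sums for all `Y > 0`  (helper569)
-/

set_option autoImplicit false

noncomputable section

open Complex
open scoped ENNReal

namespace Crest.Agent.R012.TI569

open Crest.Agent.R012 Eis LS2 Mob705 M49 TypeI941

/-- the main term. -/
def mainS (ρ : Eis → ℂ) (l : ℤ) (v : ℝ → ℂ) (τ : ℝ) (h : Eis) (X : ℝ) : ℂ :=
  if l = 0 then
    ρ h * mellin v ((5 : ℂ) / 6 + τ * Complex.I) * (X : ℂ) ^ ((5 : ℂ) / 6 + τ * Complex.I)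
  else 0

lemma SS_zero {v : ℝ → ℂ} {b : ℝ} (hv : ∀ x, b < x → v x = 0) {X : ℝ} (hX : 0 < X)
    (hXb : X * b < 1) (l : ℤ) (τ : ℝ) (h : Eis) : SS l τ v h X = 0 := by
  classical
  unfold SS
  have h0 : ∀ d : Eis, (if IsPrim d then
      gs h d / ((Real.sqrt (nm d) : ℝ) : ℂ) * ang l d * v (nm d / X) *
        (nm d : ℂ) ^ ((τ : ℂ) * Complex.I) else 0) = 0 := by
    intro d
    split_ifs with hd
    · have h1 : (1 : ℝ) ≤ nm d := by exact_mod_cast nm_pos.mpr hd.ne_zero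
      have h2 : v ((nm d : ℝ) / X) = 0 := by
        apply hv
        rw [lt_div_iff₀ hX]
        nlinarith
      rw [h2]; ring
    · rfl
  simp only [h0, tsum_zero]

lemma norm_mainS_scale (ρ : Eis → ℂ) (l : ℤ) (v : ℝ → ℂ) (τ : ℝ) (h : Eis) {X Y : ℝ} (hX : 0 < X)
    (hY : 0 < Y) :
    ‖mainS ρ l v τ h Y‖ ^ 2 = (Y / X) ^ ((5 : ℝ) / 3) * ‖mainS ρ l v τ h X‖ ^ 2 := by
  unfold mainS
  split_ifs
  · have hre : ((5 : ℂ) / 6 + τ * Complex.I).re = 5 / 6 := by simp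
    rw [norm_mul, norm_mul _ ((X : ℂ) ^ _), Complex.norm_cpow_eq_rpow_re_of_pos hY,
      Complex.norm_cpow_eq_rpow_re_of_pos hX, hre, mul_pow, mul_pow, ← Real.rpow_natCast
      (Y ^ ((5 : ℝ) / 6)), ← Real.rpow_natCast (X ^ ((5 : ℝ) / 6)), ← Real.rpow_mul hY.le,
      ← Real.rpow_mul hX.le, Real.div_rpow hY.le hX.le]
    have e : (5 : ℝ) / 6 * ((2 : ℕ) : ℝ) = 5 / 3 := by push_cast; norm_num
    rw [e]
    have : (0 : ℝ) < X ^ ((5 : ℝ) / 3) := Real.rpow_pos_of_pos hX _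
    field_simp
  · simp

/-- mean square for all `Y > 0`, with `Y^{1+ε}`. -/
theorem msy {ρ : Eis → ℂ} (hMS : MS ρ) (l : ℤ) {v : ℝ → ℂ} (hv : Wt v) {ε : ℝ} (hε : 0 < ε)
    (hε2 : ε ≤ 1 / 2) : ∃ C : ℝ, 0 ≤ C ∧ ∀ (N : ℕ) (Y τ : ℝ), 1 ≤ N → 0 < Y →
      ∑ h ∈ ball N, ‖SS l τ v h Y - mainS ρ l v τ h Y‖ ^ 2 ≤
        C * ((1 + |τ|) * N) ^ ε * (N + τ ^ 2) * Y ^ (1 + ε) := by
  obtain ⟨a, b, ha, hab, hsup⟩ := hv.supp
  have hb : 0 < b := ha.trans hab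
  obtain ⟨C0, hC0⟩ := hMS l v hv ε hε
  set Y0 : ℝ := 1 / (2 * b) with hY0
  have hY0p : 0 < Y0 := by positivity
  have hY0b : Y0 * b < 1 := by
    rw [hY0]; field_simp; norm_num
  have hvb : ∀ x, b < x → v x = 0 := fun x hx => hsup x (Or.inr hx)
  refine ⟨|C0| * (1 + 1 / Y0) ^ ε, by positivity, ?_⟩
  intro N Y τ hN hY
  have hNR : (1 : ℝ) ≤ N := by exact_mod_cast hN
  have hT : 0 ≤ (1 + |τ|) * (N : ℝ) := by positivity
  have hC : ∀ X : ℝ, 0 < X → ∑ h ∈ ball N, ‖SS l τ v h X - mainS ρ l v τ h X‖ ^ 2 ≤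
      |C0| * (((1 + |τ|) * N) ^ ε * (1 + X) ^ ε) * ((N + τ ^ 2) * X) := by
    intro X hX
    refine (hC0 N X τ hN hX).trans ?_
    have e : (1 + |τ|) * (1 + X) * (N : ℝ) = ((1 + |τ|) * N) * (1 + X) := by ring
    rw [e, Real.mul_rpow hT (by positivity)]
    gcongr
    exact le_abs_self C0
  rcases le_or_gt Y0 Y with hc | hc
  · refine (hC Y hY).trans ?_
    have h1 : 1 + Y ≤ (1 + 1 / Y0) * Y := by
      have : 1 ≤ 1 / Y0 * Y := by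
        rw [one_div, inv_mul_eq_div, one_le_div hY0p]; exact hc
      linarith
    have h2 : (1 + Y) ^ ε ≤ (1 + 1 / Y0) ^ ε * Y ^ ε := by
      rw [← Real.mul_rpow (by positivity) hY.le]
      exact Real.rpow_le_rpow (by positivity) h1 hε.le
    calc |C0| * (((1 + |τ|) * N) ^ ε * (1 + Y) ^ ε) * ((N + τ ^ 2) * Y)
        ≤ |C0| * (((1 + |τ|) * N) ^ ε * ((1 + 1 / Y0) ^ ε * Y ^ ε)) * ((N + τ ^ 2) * Y) := by
          gcongr
      _ = |C0| * (1 + 1 / Y0) ^ ε * ((1 + |τ|) * N) ^ ε * (N + τ ^ 2) * (Y * Y ^ ε) := by ring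
      _ = _ := by rw [Real.rpow_add hY, Real.rpow_one]
  · have hYb : Y * b < 1 := lt_of_le_of_lt (by gcongr) hY0b
    have h0 : ∑ h ∈ ball N, ‖mainS ρ l v τ h Y0‖ ^ 2 ≤
        |C0| * (((1 + |τ|) * N) ^ ε * (1 + Y0) ^ ε) * ((N + τ ^ 2) * Y0) := by
      refine le_trans (le_of_eq ?_) (hC Y0 hY0p)
      refine Finset.sum_congr rfl fun h _ => ?_
      rw [SS_zero hvb hY0p hY0b, zero_sub, norm_neg]
    calc ∑ h ∈ ball N, ‖SS l τ v h Y - mainS ρ l v τ h Y‖ ^ 2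
        = (Y / Y0) ^ ((5 : ℝ) / 3) * ∑ h ∈ ball N, ‖mainS ρ l v τ h Y0‖ ^ 2 := by
          rw [Finset.mul_sum]
          refine Finset.sum_congr rfl fun h _ => ?_
          rw [SS_zero hvb hY hYb, zero_sub, norm_neg, norm_mainS_scale ρ l v τ h hY0p hY]
      _ ≤ (Y / Y0) ^ (1 + ε) *
          (|C0| * (((1 + |τ|) * N) ^ ε * (1 + Y0) ^ ε) * ((N + τ ^ 2) * Y0)) := by
          have h1 : (Y / Y0) ^ ((5 : ℝ) / 3) ≤ (Y / Y0) ^ (1 + ε) := by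
            apply Real.rpow_le_rpow_of_exponent_ge (by positivity)
              ((div_le_one hY0p).mpr hc.le) (by linarith)
          exact mul_le_mul h1 h0 (Finset.sum_nonneg fun _ _ => by positivity) (by positivity)
      _ = |C0| * (1 + 1 / Y0) ^ ε * ((1 + |τ|) * N) ^ ε * (N + τ ^ 2) * Y ^ (1 + ε) := by
          have e1 : (1 + 1 / Y0) ^ ε = (1 + Y0) ^ ε / Y0 ^ ε := by
            rw [← Real.div_rpow (by positivity) hY0p.le]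
            congr 1; field_simp; ring
          rw [e1, Real.div_rpow hY.le hY0p.le, Real.rpow_add hY0p, Real.rpow_one]
          have : (0 : ℝ) < Y0 ^ ε := Real.rpow_pos_of_pos hY0p _
          field_simp

/-- `U` with empty coprimality condition is `SS`. -/
lemma U_empty (l : ℤ) (τ : ℝ) (v : ℝ → ℂ) (r : Eis) (Y : ℝ) :
    U gt (ch l τ) v r ∅ Y = SS l τ v r Y := by
  classical
  unfold U SS
  refine tsum_congr fun b => ?_
  have h0 : cop ∅ b := fun p hp => absurd hp (Finset.notMem_empty p)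
  by_cases hb : IsPrim b
  · rw [if_pos ⟨hb, h0⟩, if_pos hb]
    unfold gt ch
    ring
  · rw [if_neg (fun h => hb h.1), if_neg hb]

lemma Ef_empty (l : ℤ) (τ : ℝ) (v : ℝ → ℂ) (ρ : Eis → ℂ) (r : Eis) (Y : ℝ) :
    Ef l τ v ρ r ∅ Y = SS l τ v r Y - mainS ρ l v τ r Y := by
  unfold Ef Mt mainS se dens
  rw [U_empty]
  simp

/-- hypothesis `hM` of `Rec.meanSq`. -/
theorem hM_of_MS {ρ : Eis → ℂ} (hMS : MS ρ) (l : ℤ) {v : ℝ → ℂ} (hv : Wt v) {ε : ℝ} (hε : 0 < ε)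
    (hε2 : ε ≤ 1 / 2) : ∃ C : ℝ, 0 ≤ C ∧ ∀ (s0 : Eis), s0 ≠ 0 → ∀ (τ H Y : ℝ), 1 ≤ H → 0 < Y →
      ∑ h ∈ S H, ‖Ef l τ v ρ (s0 * h) ∅ Y‖ ^ 2 ≤
        (C * (1 + |τ|) ^ ε * (nm s0 : ℝ) ^ (1 + ε)) * (H + τ ^ 2) * H ^ ε * Y ^ (1 + ε) := by
  classical
  obtain ⟨C, hC, hb⟩ := msy hMS l hv hε hε2
  refine ⟨C, hC, ?_⟩
  intro s0 hs0 τ H Y hH hY
  have hn0 : (1 : ℝ) ≤ nm s0 := by exact_mod_cast nm_pos.mpr hs0
  have hH0 : (0 : ℝ) ≤ H := by linarith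
  set N : ℕ := ⌊(nm s0 : ℝ) * H⌋₊ with hN
  have hN1 : 1 ≤ N := Nat.le_floor (by push_cast; nlinarith)
  have hNle : (N : ℝ) ≤ nm s0 * H := Nat.floor_le (by positivity)
  have h1 : ∑ h ∈ S H, ‖Ef l τ v ρ (s0 * h) ∅ Y‖ ^ 2 ≤
      ∑ h ∈ ball N, ‖SS l τ v h Y - mainS ρ l v τ h Y‖ ^ 2 := by
    calc ∑ h ∈ S H, ‖Ef l τ v ρ (s0 * h) ∅ Y‖ ^ 2
        = ∑ h ∈ (S H).image (fun h => s0 * h), ‖SS l τ v h Y - mainS ρ l v τ h Y‖ ^ 2 := by
          rw [Finset.sum_image (fun x _ y _ hxy => mul_left_cancel₀ hs0 hxy)]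
          exact Finset.sum_congr rfl fun h _ => by rw [Ef_empty]
      _ ≤ _ := by
          apply Finset.sum_le_sum_of_subset_of_nonneg
          · intro x hx
            rw [Finset.mem_image] at hx
            obtain ⟨h, hh, rfl⟩ := hx
            rw [mem_S hH0] at hh
            rw [mem_ball]
            apply Nat.le_floor
            rw [nm_mul]
            push_cast
            exact mul_le_mul_of_nonneg_left hh.1 (by positivity)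
          · intro _ _ _; positivity
  refine h1.trans ((hb N Y τ hN1 hY).trans ?_)
  have h2 : ((1 + |τ|) * (N : ℝ)) ^ ε ≤ (1 + |τ|) ^ ε * ((nm s0 : ℝ) ^ ε * H ^ ε) := by
    rw [← Real.mul_rpow (by positivity) hH0, ← Real.mul_rpow (by positivity) (by positivity)]
    exact Real.rpow_le_rpow (by positivity) (by gcongr) hε.le
  have h3 : (N : ℝ) + τ ^ 2 ≤ nm s0 * (H + τ ^ 2) := by nlinarith [sq_nonneg τ]
  calc C * ((1 + |τ|) * N) ^ ε * (N + τ ^ 2) * Y ^ (1 + ε)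
      ≤ C * ((1 + |τ|) ^ ε * ((nm s0 : ℝ) ^ ε * H ^ ε)) * (nm s0 * (H + τ ^ 2)) * Y ^ (1 + ε) := by
        gcongr
    _ = _ := by
        rw [Real.rpow_add (by linarith : (0 : ℝ) < nm s0), Real.rpow_one]
        ring

/-- polynomial bound for `ρ h * mellin`. -/
theorem rho_mellin_le {ρ : Eis → ℂ} (hMS : MS ρ) {v : ℝ → ℂ} (hv : Wt v) :
    ∃ C : ℝ, 0 ≤ C ∧ ∀ (h : Eis), h ≠ 0 → ∀ τ : ℝ,
      ‖ρ h * mellin v (se τ)‖ ≤ C * (nm h * (1 + |τ|)) ^ 2 := by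
  obtain ⟨a, b, ha, hab, hsup⟩ := hv.supp
  have hb : 0 < b := ha.trans hab
  obtain ⟨C, hC, hbd⟩ := msy hMS 0 hv (show (0 : ℝ) < 1 / 2 by norm_num) le_rfl
  set Y0 : ℝ := 1 / (2 * b) with hY0
  have hY0p : 0 < Y0 := by positivity
  have hY0b : Y0 * b < 1 := by
    rw [hY0]; field_simp; norm_num
  have hvb : ∀ x, b < x → v x = 0 := fun x hx => hsup x (Or.inr hx)
  set D : ℝ := C * Y0 ^ ((1 : ℝ) + 1 / 2) / (Y0 ^ ((5 : ℝ) / 6)) ^ 2 with hD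
  have hD0 : 0 ≤ D := by positivity
  refine ⟨Real.sqrt D, Real.sqrt_nonneg _, ?_⟩
  intro h hh τ
  have hn : (1 : ℝ) ≤ nm h := by exact_mod_cast nm_pos.mpr hh
  have h1 := hbd (nm h) Y0 τ (nm_pos.mpr hh) hY0p
  have h2 : ‖SS 0 τ v h Y0 - mainS ρ 0 v τ h Y0‖ ^ 2 ≤
      ∑ h ∈ ball (nm h), ‖SS 0 τ v h Y0 - mainS ρ 0 v τ h Y0‖ ^ 2 :=
    Finset.single_le_sum (f := fun h => ‖SS 0 τ v h Y0 - mainS ρ 0 v τ h Y0‖ ^ 2)
      (fun _ _ => by positivity) (mem_ball.mpr le_rfl)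
  rw [SS_zero hvb hY0p hY0b, zero_sub, norm_neg] at h2
  have hre : ((5 : ℂ) / 6 + τ * Complex.I).re = 5 / 6 := by simp
  have h3 : ‖mainS ρ 0 v τ h Y0‖ ^ 2 = ‖ρ h * mellin v (se τ)‖ ^ 2 * (Y0 ^ ((5 : ℝ) / 6)) ^ 2 := by
    unfold mainS se
    rw [if_pos rfl, norm_mul, Complex.norm_cpow_eq_rpow_re_of_pos hY0p, hre, mul_pow]
  rw [h3] at h2
  have hYp : (0 : ℝ) < (Y0 ^ ((5 : ℝ) / 6)) ^ 2 := by positivity
  set T : ℝ := nm h * (1 + |τ|) with hT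
  have hτ1 : 1 ≤ 1 + |τ| := by linarith [abs_nonneg τ]
  have hT1 : 1 ≤ T := one_le_mul_of_one_le_of_one_le hn hτ1
  have h4 : ((1 + |τ|) * (nm h : ℝ)) ^ ((1 : ℝ) / 2) ≤ T := by
    calc ((1 + |τ|) * (nm h : ℝ)) ^ ((1 : ℝ) / 2) = T ^ ((1 : ℝ) / 2) := by rw [hT, mul_comm]
      _ ≤ T ^ (1 : ℝ) := Real.rpow_le_rpow_of_exponent_le hT1 (by norm_num)
      _ = T := Real.rpow_one T
  have h5 : (nm h : ℝ) + τ ^ 2 ≤ T ^ 2 := by
    have e : τ ^ 2 = |τ| ^ 2 := (sq_abs τ).symm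
    have h6 := abs_nonneg τ
    have h7 : (nm h : ℝ) ≤ nm h ^ 2 := by nlinarith
    have h8 : |τ| ^ 2 ≤ nm h ^ 2 * |τ| ^ 2 := by
      apply le_mul_of_one_le_left (by positivity)
      exact one_le_pow₀ hn
    rw [e, hT, mul_pow]
    have h9 : (1 + |τ|) ^ 2 = 1 + 2 * |τ| + |τ| ^ 2 := by ring
    rw [h9]
    have h10 : 0 ≤ (nm h : ℝ) ^ 2 * (2 * |τ|) := by positivity
    nlinarith
  have h6 : ‖ρ h * mellin v (se τ)‖ ^ 2 ≤ D * T ^ 3 := by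
    have h7 : ‖ρ h * mellin v (se τ)‖ ^ 2 * (Y0 ^ ((5 : ℝ) / 6)) ^ 2 ≤
        C * T * T ^ 2 * Y0 ^ ((1 : ℝ) + 1 / 2) := by
      refine (h2.trans h1).trans ?_
      gcongr
    rw [← le_div_iff₀ hYp] at h7
    refine h7.trans (le_of_eq ?_)
    rw [hD]; ring
  have h7 : ‖ρ h * mellin v (se τ)‖ ^ 2 ≤ (Real.sqrt D * T ^ 2) ^ 2 := by
    refine h6.trans ?_
    rw [mul_pow (Real.sqrt D), Real.sq_sqrt hD0, ← pow_mul]
    apply mul_le_mul_of_nonneg_left _ hD0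
    exact pow_le_pow_right₀ hT1 (by norm_num)
  exact (pow_le_pow_iff_left₀ (norm_nonneg _) (by positivity) (by norm_num)).mp h7

end Crest.Agent.R012.TI569
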