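import Crest.Agent.R012.TI7A_569
import Crest.Agent.R012.CR2Spec_180
import Crest.Agent.R012.CF_61
import Crest.Agent.R012.ResOut_785

/-!
# Row 12, CR2 type I (part B): the sums `NatS` in terms of `U`, and the main term  (helper569)
-/

set_option autoImplicit false

noncomputable section

open Complex
open scoped ENNReal

namespace Crest.Agent.R012.TI569

open Crest.Agent.R012 Eis LS2 Mob705 M49 TypeI941

local notation "cj" => starRingEnd ℂ

lemma two_pow_pp_le {d : Eis} (hd : d ≠ 0) : 2 ^ (pp d).card ≤ Div277.tau d := by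
  classical
  rw [← Finset.card_powerset]
  unfold Div277.tau
  rw [← Finset.card_image_of_injOn (s := (pp d).powerset) (f := fun T => ∏ q ∈ T, q)]
  · apply Finset.card_le_card
    intro x hx
    rw [Finset.mem_image] at hx
    obtain ⟨T, hT, rfl⟩ := hx
    rw [Finset.mem_powerset] at hT
    have hTP : PPSet T := (ppSet_pp d).subset hT
    rw [Div277.mem_dvs hd]
    exact ⟨hTP.isPrim_prod, hTP.prod_dvd.mpr fun p hp => dvd_of_mem_pp (hT hp)⟩
  · intro T hT T' hT' h
    rw [Finset.mem_coe, Finset.mem_powerset] at hT hT'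
    have h1 : PPSet T := (ppSet_pp d).subset hT
    have h2 : PPSet T' := (ppSet_pp d).subset hT'
    simp only at h
    rw [← h1.pp_prod, ← h2.pp_prod, h]

/-- `gt s k` for `k` coprime to `s`. -/
lemma gt_of_coprime {s k : Eis} (hk : IsPrim k) (h : IsCoprime s k) :
    gt s k = cj (sy s k) * G k := by
  unfold gt G
  rw [Gauss880.gs_of_coprime Gauss880.syG hk h]
  ring

/-- **the natural sum is a sum with a coprimality condition.** -/
lemma natS_eq_U {V : ℝ → ℝ} {s m n r : Eis} (hnr : n * r = s * m ^ 3) {P : Finset Eis}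
    (hP1 : ∀ p ∈ P, IsPP p ∧ p ∣ n * r) (hP2 : ∀ p, IsPP p → p ∣ n * r → p ∈ P) (X t : ℝ) :
    CR2.NatS V (n * r) X t = U gt (ch 0 t) (fun x => ((V x : ℝ) : ℂ)) s P X := by
  classical
  unfold CR2.NatS U
  refine tsum_congr fun k => ?_
  by_cases hk : IsPrim k
  · by_cases hc : cop P k
    · rw [if_pos hk, if_pos ⟨hk, hc⟩]
      have h1 : IsCoprime k (n * r) := by
        rw [isCoprime_iff_pp hk]
        intro p hp hpk hpn
        exact hc p (hP2 p hp hpn) hpk
      rw [hnr] at h1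
      have hs : IsCoprime s k := h1.of_mul_right_left.symm
      have hm3 : IsCoprime (m ^ 3) k := h1.of_mul_right_right.symm
      have hm : IsCoprime m k := hm3.of_isCoprime_of_dvd_left (dvd_pow_self m (by norm_num))
      rw [gt_of_coprime hk hs, hnr, Sym645.syFacts.mul_left s (m ^ 3) k hk,
        Tau671.sy_cube hk hm, mul_one]
      unfold ch
      have h0 : ang 0 k = 1 := by unfold ang; simp
      rw [h0, one_mul]
      ring
    · rw [if_pos hk, if_neg (fun h => hc h.2)]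
      have : ∃ p ∈ P, p ∣ k := by
        unfold cop at hc
        push Not at hc
        exact hc
      obtain ⟨p, hpP, hpk⟩ := this
      have hpp := hP1 p hpP
      have h0 : sy (n * r) k = 0 := by
        apply Tau671.sy_eq_zero hk
        intro hcop
        exact hpp.1.prime.not_isUnit (hcop.isUnit_of_dvd' hpp.2 hpk)
      rw [h0]
      simp
  · rw [if_neg hk, if_neg (fun h => hk h.1)]

/-- the standard decomposition of the numerator `r`. -/
structure RDec (r r0 a b m : Eis) : Prop where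
  hr0 : ∀ p, IsPP p → ¬ p ∣ r0
  ha : IsPrim a
  hb : IsPrim b
  hm : IsPrim m
  hsa : Squarefree a
  hsb : Squarefree b
  hab : IsCoprime a b
  heq : r = r0 * m ^ 3 * (a * b ^ 2)

lemma exists_dec {r : Eis} (hr : r ≠ 0) : ∃ r0 a b m : Eis, RDec r r0 a b m := by
  obtain ⟨u, j, m, a, b, hu, hm, ha, hb, hsa, hsb, hab, h⟩ := CF61.exists_decomp hr
  refine ⟨u * lam ^ j, a, b, m, ⟨?_, ha, hb, hm, hsa, hsb, hab, h⟩⟩
  intro p hp hdvd
  rcases hp.prime.dvd_or_dvd hdvd with h1 | h1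
  · exact hp.prime.not_isUnit (isUnit_of_dvd_unit h1 hu)
  · have h2 := hp.prime.dvd_of_dvd_pow h1
    have h3 : Associated p lam := (hp.prime.dvd_prime_iff_associated prime_lam).mp h2
    exact hp.isPrim.not_lam_dvd h3.symm.dvd

variable {r r0 a b m n : Eis}

lemma RDec.ne_zero (h : RDec r r0 a b m) (hr : r ≠ 0) : r0 ≠ 0 := by
  rintro rfl
  apply hr
  rw [h.heq]; ring

/-- `P2` -/
def P2 (a b m : Eis) : Finset Eis := by
  classical exact pp m \ (pp a ∪ pp b)

open Classical in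
lemma mem_P2 {p : Eis} : p ∈ P2 a b m ↔ p ∈ pp m ∧ p ∉ pp a ∧ p ∉ pp b := by
  unfold P2
  rw [Finset.mem_sdiff, Finset.mem_union]
  push Not
  rfl

open Classical in
/-- all primes dividing `r` -/
lemma RDec.mem_iff (h : RDec r r0 a b m) {p : Eis} (hp : IsPP p) :
    p ∈ pp a ∪ (P2 a b m ∪ pp b) ↔ p ∣ r := by
  rw [Finset.mem_union, Finset.mem_union, mem_P2, mem_pp h.ha.ne_zero, mem_pp h.hb.ne_zero,
    mem_pp h.hm.ne_zero, h.heq]
  constructor
  · rintro (h1 | h1 | h1)
    · exact dvd_mul_of_dvd_right (dvd_mul_of_dvd_left h1.2 _) _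
    · exact dvd_mul_of_dvd_left (dvd_mul_of_dvd_right (dvd_pow h1.1.2 (by norm_num)) _) _
    · exact dvd_mul_of_dvd_right (dvd_mul_of_dvd_right (dvd_pow h1.2 (by norm_num)) _) _
  · intro h1
    rcases hp.prime.dvd_or_dvd h1 with h2 | h2
    · rcases hp.prime.dvd_or_dvd h2 with h3 | h3
      · exact absurd h3 (h.hr0 p hp)
      · have h4 := hp.prime.dvd_of_dvd_pow h3
        by_cases ha : p ∣ a
        · exact Or.inl ⟨hp, ha⟩
        · by_cases hb : p ∣ b
          · exact Or.inr (Or.inr ⟨hp, hb⟩)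
          · exact Or.inr (Or.inl ⟨⟨hp, h4⟩, fun h => ha h.2, fun h => hb h.2⟩)
    · rcases hp.prime.dvd_or_dvd h2 with h3 | h3
      · exact Or.inl ⟨hp, h3⟩
      · exact Or.inr (Or.inr ⟨hp, hp.prime.dvd_of_dvd_pow h3⟩)

open Classical in
lemma ppset_all (a b m : Eis) : PPSet (pp a ∪ (P2 a b m ∪ pp b)) := by
  intro p hp
  rw [Finset.mem_union, Finset.mem_union, mem_P2] at hp
  rcases hp with h | h | h
  · exact isPP_of_mem_pp h
  · exact isPP_of_mem_pp h.1
  · exact isPP_of_mem_pp h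

lemma ppset_P2 (a b m : Eis) : PPSet (P2 a b m) := by
  intro p hp
  rw [mem_P2] at hp
  exact isPP_of_mem_pp hp.1

open Classical in
/-- the natural sum in terms of `U` -/
lemma RDec.natS_eq (h : RDec r r0 a b m) (hn : IsPrim n) {V : ℝ → ℝ} (X t : ℝ) :
    CR2.NatS V (n * r) X t =
      U gt (ch 0 t) (fun x => ((V x : ℝ) : ℂ)) (r0 * b ^ 2 * (n * a))
        ((pp n ∪ pp a) ∪ (P2 a b m ∪ pp b)) X := by
  have hP : ∀ p, IsPP p → (p ∈ (pp n ∪ pp a) ∪ (P2 a b m ∪ pp b) ↔ p ∣ n * r) := by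
    intro p hp
    rw [Finset.union_assoc, Finset.mem_union, h.mem_iff hp, mem_pp hn.ne_zero,
      hp.prime.dvd_mul]
    constructor
    · rintro (h1 | h1)
      · exact Or.inl h1.2
      · exact Or.inr h1
    · rintro (h1 | h1)
      · exact Or.inl ⟨hp, h1⟩
      · exact Or.inr h1
  have hPP : ∀ p ∈ (pp n ∪ pp a) ∪ (P2 a b m ∪ pp b), IsPP p := by
    intro p hp
    rw [Finset.union_assoc, Finset.mem_union] at hp
    rcases hp with h1 | h1
    · exact isPP_of_mem_pp h1
    · exact ppset_all a b m p h1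
  refine natS_eq_U (m := m) ?_ (fun p hp => ⟨hPP p hp, (hP p (hPP p hp)).mp hp⟩)
    (fun p hp h1 => (hP p hp).mpr h1) X t
  rw [h.heq]; ring

open Classical in
/-- the constant `c` -/
def cst (ρ : Eis → ℂ) (v : ℝ → ℂ) (r0 a b m : Eis) (X t : ℝ) : ℂ :=
  if b = 1 then
    ρ (r0 * a) * dens (pp a ∪ (P2 a b m ∪ pp b)) * mellin v (se t) * (X : ℂ) ^ (se t)
  else 0

lemma dens_pp (n : Eis) : dens (pp n) = ((CR2.phi n : ℝ) : ℂ) := by
  unfold dens CR2.phi
  push_cast
  rfl

lemma norm_dens_le {P : Finset Eis} : ‖dens P‖ ≤ 1 := by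
  unfold dens
  rw [norm_prod]
  apply Finset.prod_le_one (fun _ _ => norm_nonneg _)
  intro p _
  rw [norm_inv]
  have h1 : ((1 : ℂ) + 1 / (nm p : ℂ)) = ((1 + 1 / (nm p : ℝ) : ℝ) : ℂ) := by push_cast; rfl
  rw [h1, Complex.norm_real, Real.norm_of_nonneg (by positivity)]
  apply inv_le_one_of_one_le₀
  have : (0 : ℝ) ≤ 1 / (nm p : ℝ) := by positivity
  linarith

open Classical in
/-- the main term -/
lemma RDec.main_eq (h : RDec r r0 a b m) {ρ : Eis → ℂ} (hρ : RhoRel ρ) (hn : IsPrim n)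
    (hns : Squarefree n) (hnr : IsCoprime n r) (v : ℝ → ℂ) (X t : ℝ) :
    Mt 0 t v ρ (r0 * b ^ 2 * (n * a)) ((pp n ∪ pp a) ∪ (P2 a b m ∪ pp b)) X =
      cst ρ v r0 a b m X t * (sy r n * cj (G n) * (((nm n : ℝ) ^ (-(1 : ℝ) / 6) * CR2.phi n : ℝ) : ℂ)) := by
  -- coprimality facts
  have hdvd : ∀ p, IsPP p → p ∣ n → ¬ p ∣ r := fun p hp h1 h2 =>
    hp.prime.not_isUnit (hnr.isUnit_of_dvd' h1 h2)
  have hdisj : Disjoint (pp n) (pp a ∪ (P2 a b m ∪ pp b)) := by
    rw [Finset.disjoint_left]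
    intro p hp1 hp2
    have hpp := isPP_of_mem_pp hp1
    exact hdvd p hpp (dvd_of_mem_pp hp1) ((h.mem_iff hpp).mp hp2)
  have hdens : dens ((pp n ∪ pp a) ∪ (P2 a b m ∪ pp b)) =
      ((CR2.phi n : ℝ) : ℂ) * dens (pp a ∪ (P2 a b m ∪ pp b)) := by
    rw [Finset.union_assoc, ← dens_pp]
    unfold dens
    rw [Finset.prod_union hdisj]
  unfold Mt cst
  rw [if_pos rfl, hdens]
  by_cases hb1 : b = 1
  · rw [if_pos hb1]
    subst hb1
    have hr' : r = r0 * a * m ^ 3 := by rw [h.heq]; ring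
    have hcop : IsCoprime n (r0 * a) := by
      rw [hr'] at hnr
      exact hnr.of_mul_right_left
    have hcopm : IsCoprime n (m ^ 3) := by
      rw [hr'] at hnr
      exact hnr.of_mul_right_right
    have hcopm' : IsCoprime m n := (hcopm.of_isCoprime_of_dvd_right
      (dvd_pow_self m (by norm_num))).symm
    have e1 : r0 * 1 ^ 2 * (n * a) = (r0 * a) * n := by ring
    rw [e1, hρ.sqfree hn (r0 * a) hns hcop.symm]
    have e2 : gs (r0 * a) n / ((Real.sqrt (nm n) : ℝ) : ℂ) = cj (sy (r0 * a) n) * G n :=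
      gt_of_coprime hn hcop.symm
    rw [e2, map_mul, Complex.conj_conj]
    have e3 : sy r n = sy (r0 * a) n := by
      rw [hr', Sym645.syFacts.mul_left _ _ _ hn, Tau671.sy_cube hn hcopm', mul_one]
    rw [e3]
    push_cast
    ring
  · rw [if_neg hb1]
    obtain ⟨p, hp, hpb⟩ := exists_pp_dvd_of_isPrim h.hb hb1
    obtain ⟨b1, hb1'⟩ := hpb
    have hpr : p ∣ r := by
      rw [h.heq, hb1']
      exact ⟨r0 * m ^ 3 * (a * (p * b1 ^ 2)), by ring⟩
    have hpn : ¬ p ∣ n := fun h1 => hdvd p hp h1 hpr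
    have hpa : ¬ p ∣ a := by
      intro h1
      have : IsUnit p := h.hab.isUnit_of_dvd' h1 ⟨b1, hb1'⟩
      exact hp.prime.not_isUnit this
    have hpb1 : ¬ p ∣ b1 := by
      rintro ⟨c, hc⟩
      apply hp.prime.not_isUnit
      apply h.hsb p
      exact ⟨c, by rw [hb1', hc]; ring⟩
    have e1 : r0 * b ^ 2 * (n * a) = (r0 * b1 ^ 2 * (n * a)) * p ^ 2 := by
      rw [hb1']; ring
    have h0 : ρ (r0 * b ^ 2 * (n * a)) = 0 := by
      rw [e1]
      apply hρ.two_p p _ hp.prime hp.isPrim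
      intro h1
      rcases hp.prime.dvd_or_dvd h1 with h2 | h2
      · rcases hp.prime.dvd_or_dvd h2 with h3 | h3
        · exact h.hr0 p hp h3
        · exact hpb1 (hp.prime.dvd_of_dvd_pow h3)
      · rcases hp.prime.dvd_or_dvd h2 with h3 | h3
        · exact hpn h3
        · exact hpa h3
    rw [h0]; simp

end Crest.Agent.R012.TI569
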