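import Crest.Agent.R012.TypeI7_569
import Crest.Agent.R012.MFinal_49

/-!
# Row 12: `CR2.TypeI V`, unconditional  (helper569)
-/

set_option autoImplicit false

namespace Crest.Agent.R012.TI569

open Crest.Agent.R012 M49

/-- `CR2.TypeI V` for every smooth compactly supported weight on `(0, ∞)`. -/
theorem typeI_nat_final {V : ℝ → ℝ} (hV : Wt (fun x => ((V x : ℝ) : ℂ))) : CR2.TypeI V := by
  obtain ⟨ρ, h1, h2, _⟩ := MFinal49.m_final
  exact typeI_nat h1 h2 hV

end Crest.Agent.R012.TI569
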