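import Crest.Agent.R012.TIISpec_54
import Crest.Agent.R012.TIIsharp_54
import Crest.Agent.R012.TDec_411
import Crest.Agent.R012.CRbeta_852

/-!
# Row 12, TIIS: conversion between `Finset PrP` and `Finset Eis`, Cauchy–Schwarz with `Mu`
(helper852, backup of helper54)
-/

set_option autoImplicit false

noncomputable section

open Complex Finset

namespace Crest.Agent.R012.TIIeng852

open Crest.Agent.R012 Eis Buch420 Main48 MV400 TII54 Weight600

open Classical in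
/-- the set of the `b` -/
def BB (X : ℕ) (β : Finset PrP → ℂ) : Finset Eis :=
  ((UX X).powerset.filter (fun T => β T ≠ 0)).image prd

/-- the coefficients `β_b (b/|b|)^l N(b)^{it}` -/
def bl (l : ℤ) (β : Finset PrP → ℂ) (t : ℝ) (b : Eis) : ℂ := β (pset b) * ang l b * nit t b

lemma mem_BB {X : ℕ} {β : Finset PrP → ℂ} {b : Eis} :
    b ∈ BB X β ↔ ∃ T, T ⊆ UX X ∧ β T ≠ 0 ∧ prd T = b := by
  classical
  unfold BB
  rw [Finset.mem_image]
  constructor
  · rintro ⟨T, hT, rfl⟩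
    rw [Finset.mem_filter, Finset.mem_powerset] at hT
    exact ⟨T, hT.1, hT.2, rfl⟩
  · rintro ⟨T, h1, h2, rfl⟩
    exact ⟨T, Finset.mem_filter.mpr ⟨Finset.mem_powerset.mpr h1, h2⟩, rfl⟩

lemma sqP_BB {X : ℕ} {β : Finset PrP → ℂ} {b : Eis} (hb : b ∈ BB X β) : T411.SqP b := by
  obtain ⟨T, -, -, rfl⟩ := mem_BB.mp hb
  exact ⟨isPrim_prd T, squarefree_prd T⟩

lemma ne_zero_BB {X : ℕ} {β : Finset PrP → ℂ} {b : Eis} (hb : b ∈ BB X β) : b ≠ 0 :=
  (sqP_BB hb).1.ne_zero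

/-- sum over `BB` -/
lemma sum_BB (X : ℕ) (β : Finset PrP → ℂ) (g : Eis → ℂ) :
    ∑ b ∈ BB X β, β (pset b) * g b = ∑ T ∈ (UX X).powerset, β T * g (prd T) := by
  classical
  unfold BB
  rw [Finset.sum_image (fun a _ b _ h => prd_injective h), Finset.sum_filter]
  refine Finset.sum_congr rfl fun T _ => ?_
  split_ifs with h
  · rw [pset_prd]
  · rw [not_not.mp h, zero_mul]

lemma tws_bl (l : ℤ) (X : ℕ) (β : Finset PrP → ℂ) (h : Eis) (t u : ℝ) :
    T411.tws (BB X β) (bl l β t) h u = tw l X β h (t + u) := by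
  unfold T411.tws bl tw
  have h1 := sum_BB X β (fun b => ang l b * nit (t + u) b * sy h b)
  calc _ = ∑ b ∈ BB X β, β (pset b) * (ang l b * nit (t + u) b * sy h b) := by
        refine Finset.sum_congr rfl fun b hb => ?_
        rw [nit_add (ne_zero_BB hb)]
        unfold nit
        ring
    _ = _ := h1
    _ = _ := by
        refine Finset.sum_congr rfl fun T _ => ?_
        ring

lemma norm_bl_le (l : ℤ) {β : Finset PrP → ℂ} (hβ : ∀ T, ‖β T‖ ≤ 1) (t : ℝ) (b : Eis) :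
    ‖bl l β t b‖ ≤ 1 := by
  unfold bl
  rw [norm_mul, norm_mul]
  have h1 := hβ (pset b)
  have h2 := CRbeta852.norm_ang_le' l b
  have h3 : ‖nit t b‖ ≤ 1 := CRbeta852.norm_natCast_cpow_le _ _
  exact mul_le_one₀ (mul_le_one₀ h1 (norm_nonneg _) h2) (norm_nonneg _) h3

lemma cls_bl (l : ℤ) {w B : ℝ} {X : ℕ} {β : Finset PrP → ℂ} (hβ : ∀ T, ‖β T‖ ≤ 1)
    (hs : Supp w B β) (t : ℝ) : T411.Cls w B (BB X β) (bl l β t) := by
  refine ⟨fun b hb => sqP_BB hb, ?_, ?_, ?_, norm_bl_le l hβ t⟩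
  · intro b hb
    obtain ⟨T, -, h, rfl⟩ := mem_BB.mp hb
    exact (hs T h).2.1
  · intro b hb
    obtain ⟨T, -, h, rfl⟩ := mem_BB.mp hb
    exact (hs T h).2.2
  · intro b hb p hp hpb
    obtain ⟨T, -, h, rfl⟩ := mem_BB.mp hb
    exact (hs T h).1 ⟨p, hp⟩ (dvd_prd_iff.mp hpb)

/-- `Fl` in terms of `T411.F` -/
lemma Fl_eq (l : ℤ) {n : Eis} (hn : IsPrim n) : Fl l n = ang l n * T411.F n := by
  unfold Fl T411.F T411.mdl
  split_ifs with h
  · rw [show (-(1 : ℝ) / 6) = -(1 / 6) by ring]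
  · rw [Gauss880.G_eq_zero Gauss880.syG hn h]
    simp

/-- Cauchy–Schwarz with repeated indices. -/
lemma cauchy_mu {ι κ : Type*} [DecidableEq κ] (I : Finset ι) (a : ι → κ) (c : ι → ℂ)
    (H : κ → ℂ) :
    ‖∑ i ∈ I, c i * H (a i)‖ ^ 2 ≤
      (∑ i ∈ I, ∑ j ∈ I, if a i = a j then ‖c i‖ * ‖c j‖ else 0) *
        ∑ k ∈ I.image a, ‖H k‖ ^ 2 := by
  classical
  have h1 : ∑ i ∈ I, c i * H (a i) =
      ∑ k ∈ I.image a, (∑ i ∈ I.filter (fun i => a i = k), c i) * H k := by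
    rw [← Finset.sum_fiberwise_of_maps_to (s := I) (t := I.image a) (g := a)
      (fun i hi => Finset.mem_image_of_mem a hi)]
    refine Finset.sum_congr rfl fun k _ => ?_
    rw [Finset.sum_mul]
    refine Finset.sum_congr rfl fun i hi => ?_
    rw [(Finset.mem_filter.mp hi).2]
  have h2 : ‖∑ i ∈ I, c i * H (a i)‖ ≤
      ∑ k ∈ I.image a, (∑ i ∈ I.filter (fun i => a i = k), ‖c i‖) * ‖H k‖ := by
    rw [h1]
    refine (norm_sum_le _ _).trans (Finset.sum_le_sum fun k _ => ?_)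
    rw [norm_mul]
    exact mul_le_mul_of_nonneg_right (norm_sum_le _ _) (norm_nonneg _)
  have h3 : ∑ k ∈ I.image a, (∑ i ∈ I.filter (fun i => a i = k), ‖c i‖) ^ 2 =
      ∑ i ∈ I, ∑ j ∈ I, if a i = a j then ‖c i‖ * ‖c j‖ else 0 := by
    rw [← Finset.sum_fiberwise_of_maps_to (s := I) (t := I.image a) (g := a)
      (fun i hi => Finset.mem_image_of_mem a hi)]
    refine Finset.sum_congr rfl fun k _ => ?_
    rw [pow_two, Finset.sum_mul]
    refine Finset.sum_congr rfl fun i hi => ?_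
    rw [Finset.mul_sum, ← Finset.sum_filter]
    have hk := (Finset.mem_filter.mp hi).2
    refine Finset.sum_congr ?_ fun _ _ => rfl
    ext j
    rw [Finset.mem_filter, Finset.mem_filter, hk]
    tauto
  calc ‖∑ i ∈ I, c i * H (a i)‖ ^ 2 ≤
      (∑ k ∈ I.image a, (∑ i ∈ I.filter (fun i => a i = k), ‖c i‖) * ‖H k‖) ^ 2 :=
        pow_le_pow_left₀ (norm_nonneg _) h2 2
    _ ≤ (∑ k ∈ I.image a, (∑ i ∈ I.filter (fun i => a i = k), ‖c i‖) ^ 2) *
        ∑ k ∈ I.image a, ‖H k‖ ^ 2 := Finset.sum_mul_sq_le_sq_mul_sq _ _ _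
    _ = _ := by rw [h3]

/-- a finite sum is bounded by `e · SS`. -/
lemma sum_le_SS {A0 : ℝ} (hA0 : 0 < A0) (𝓑 : Finset Eis) (h𝓑 : ∀ b ∈ 𝓑, T411.SqP b)
    {β : Eis → ℂ} (hβ : ∀ b, ‖β b‖ ≤ 1) (𝒜 : Finset (Finset PrP))
    (hA : ∀ S ∈ 𝒜, (nm (prd S) : ℝ) ≤ A0) :
    ∑ S ∈ 𝒜, ‖∑ b ∈ 𝓑, β b * T411.F (prd S * b)‖ ^ 2 ≤ Real.exp 1 * T411.SS A0 𝓑 β := by
  classical
  have hsum : Summable (fun a : Eis => if T411.SqP a then Real.exp (-(nm a : ℝ) / A0) *
      ‖∑ b ∈ 𝓑, β b * T411.F (a * b)‖ ^ 2 else 0) := by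
    refine Summable.of_nonneg_of_le (fun a => ?_) (fun a => ?_)
      ((T411.summable_exp hA0).mul_right (((𝓑.card : ℝ) * (1 + |pC|)) ^ 2))
    · split_ifs
      · positivity
      · exact le_rfl
    · split_ifs with h
      · refine mul_le_mul_of_nonneg_left ?_ (Real.exp_pos _).le
        refine pow_le_pow_left₀ (norm_nonneg _) ?_ 2
        refine (norm_sum_le _ _).trans ?_
        rw [← nsmul_eq_mul]
        refine Finset.sum_le_card_nsmul _ _ _ fun b hb => ?_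
        rw [norm_mul]
        have h1 := T411.norm_F_le (h.1.mul (h𝓑 b hb).1)
        calc ‖β b‖ * ‖T411.F (a * b)‖ ≤ 1 * ‖T411.F (a * b)‖ :=
              mul_le_mul_of_nonneg_right (hβ b) (norm_nonneg _)
          _ ≤ 1 + |pC| := by rw [one_mul]; exact h1
      · positivity
  have h1 : ∑ a ∈ 𝒜.image prd, (if T411.SqP a then Real.exp (-(nm a : ℝ) / A0) *
      ‖∑ b ∈ 𝓑, β b * T411.F (a * b)‖ ^ 2 else 0) ≤ T411.SS A0 𝓑 β := by
    unfold T411.SS
    refine hsum.sum_le_tsum _ (fun a _ => ?_)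
    split_ifs
    · positivity
    · exact le_rfl
  rw [Finset.sum_image (fun a _ b _ h => prd_injective h)] at h1
  refine le_trans ?_ (mul_le_mul_of_nonneg_left h1 (Real.exp_pos 1).le)
  rw [Finset.mul_sum]
  refine Finset.sum_le_sum fun S hS => ?_
  rw [if_pos ⟨isPrim_prd S, squarefree_prd S⟩, ← mul_assoc, ← Real.exp_add]
  refine le_mul_of_one_le_left (by positivity) (Real.one_le_exp ?_)
  have : (nm (prd S) : ℝ) / A0 ≤ 1 := by
    rw [div_le_one hA0]; exact hA S hS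
  have e : 1 + -(nm (prd S) : ℝ) / A0 = 1 - (nm (prd S) : ℝ) / A0 := by ring
  rw [e]; linarith

end Crest.Agent.R012.TIIeng852
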