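import Crest.Agent.R012.TIImean_54
import Crest.Agent.R012.EdgeA_79
import Crest.Agent.R012.PC_355
import Crest.Agent.R012.GaussInst_880

/-!
# Row 12, item TIIS: Cauchy–Schwarz with multiplicities, and the abstract estimate (helper54)

* `cs_mu`     : `∑_i x_i V(a_i) ≤ (∑_{a_i = a_j} x_i x_j)^{1/2} (∑_{a} V(a)²)^{1/2}`
* `sum_le_SS` : finite sum over `nm a ≤ A` is at most `e · SS A`
* `abs_bound` : from the fixed-`t` estimate to the integral against `kB`
-/

set_option autoImplicit false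

noncomputable section

open MeasureTheory Complex Set Filter Topology
open Crest.Agent.R012 Crest.Agent.R012.Eis Crest.Agent.R012.Weight600 Crest.Agent.R012.MV400

namespace Crest.Agent.R012.TII54

/-! ### Cauchy–Schwarz with multiplicities -/

open Classical in
lemma cs_mu {ι κ : Type*} (I : Finset ι) (a : ι → κ) (x : ι → ℝ) (V : κ → ℝ) (P : Finset κ)
    (hP : ∀ i ∈ I, a i ∈ P) :
    ∑ i ∈ I, x i * V (a i) ≤
      Real.sqrt (∑ i ∈ I, ∑ j ∈ I, if a i = a j then x i * x j else 0) *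
        Real.sqrt (∑ c ∈ P, V c ^ 2) := by
  have e1 : ∑ i ∈ I, x i * V (a i) = ∑ c ∈ P, (∑ i ∈ I with a i = c, x i) * V c := by
    rw [← Finset.sum_fiberwise_of_maps_to hP]
    refine Finset.sum_congr rfl fun c _ => ?_
    rw [Finset.sum_mul]
    refine Finset.sum_congr rfl fun i hi => ?_
    rw [(Finset.mem_filter.mp hi).2]
  have e2 : ∑ i ∈ I, ∑ j ∈ I, (if a i = a j then x i * x j else 0) =
      ∑ c ∈ P, (∑ i ∈ I with a i = c, x i) ^ 2 := by
    rw [← Finset.sum_fiberwise_of_maps_to hP]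
    refine Finset.sum_congr rfl fun c _ => ?_
    rw [pow_two, Finset.sum_mul_sum]
    refine Finset.sum_congr rfl fun i hi => ?_
    rw [Finset.sum_filter]
    refine Finset.sum_congr rfl fun j _ => ?_
    rw [(Finset.mem_filter.mp hi).2]
    by_cases h : a j = c
    · rw [if_pos h, if_pos h.symm]
    · rw [if_neg h, if_neg (fun h' => h h'.symm)]
  rw [e1, e2, ← Real.sqrt_mul (Finset.sum_nonneg fun _ _ => by positivity)]
  apply Real.le_sqrt_of_sq_le
  exact Finset.sum_mul_sq_le_sq_mul_sq _ _ _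

/-! ### The dispersion sum -/

/-- bound for `F` -/
def KF : ℝ := 1 + |pC|

lemma KF_pos : 0 < KF := by unfold KF; positivity

lemma norm_F_le {n : Eis} (hn : IsPrim n) : ‖T411.F n‖ ≤ KF := by
  unfold T411.F T411.mdl KF
  refine (norm_sub_le _ _).trans (add_le_add (Gauss880.norm_G_le Gauss880.syG hn) ?_)
  split_ifs
  · rw [Complex.norm_real, Real.norm_eq_abs, abs_mul]
    have h1 : (1 : ℝ) ≤ nm n := by exact_mod_cast nm_pos.mpr hn.ne_zero
    have h2 : |(nm n : ℝ) ^ (-(1 / 6) : ℝ)| ≤ 1 := by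
      rw [abs_of_nonneg (by positivity)]
      exact Real.rpow_le_one_of_one_le_of_nonpos h1 (by norm_num)
    exact mul_le_of_le_one_right (abs_nonneg _) h2
  · simp

lemma F_eq_zero {n : Eis} (hn : IsPrim n) (h : ¬ Squarefree n) : T411.F n = 0 := by
  unfold T411.F T411.mdl
  rw [Gauss880.G_eq_zero Gauss880.syG hn h, if_neg h]
  simp

open Classical in
lemma SS_term_le {A : ℝ} (𝓑 : Finset Eis) (β : Eis → ℂ) (h𝓑 : ∀ b ∈ 𝓑, IsPrim b)
    (hβ : ∀ b, ‖β b‖ ≤ 1) (a : Eis) :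
    (if T411.SqP a then Real.exp (-(nm a : ℝ) / A) * ‖∑ b ∈ 𝓑, β b * T411.F (a * b)‖ ^ 2
      else 0) ≤ (KF * 𝓑.card) ^ 2 * Real.exp (-(1 / A * nm a)) := by
  have hK := KF_pos
  split_ifs with h
  · have h1 : ‖∑ b ∈ 𝓑, β b * T411.F (a * b)‖ ≤ KF * 𝓑.card := by
      refine (norm_sum_le _ _).trans ?_
      calc ∑ b ∈ 𝓑, ‖β b * T411.F (a * b)‖ ≤ ∑ b ∈ 𝓑, KF := by
            refine Finset.sum_le_sum fun b hb => ?_
            rw [norm_mul]
            calc ‖β b‖ * ‖T411.F (a * b)‖ ≤ 1 * KF := by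
                  apply mul_le_mul (hβ b) (norm_F_le (h.1.mul (h𝓑 b hb))) (norm_nonneg _)
                    zero_le_one
              _ = KF := one_mul _
        _ = KF * 𝓑.card := by rw [Finset.sum_const, nsmul_eq_mul]; ring
    have h2 : -(nm a : ℝ) / A = -(1 / A * nm a) := by ring
    rw [h2, mul_comm]
    gcongr
  · positivity

open Classical in
lemma sum_le_SS {A : ℝ} (hA : 0 < A) (𝓑 : Finset Eis) (β : Eis → ℂ)
    (h𝓑 : ∀ b ∈ 𝓑, IsPrim b) (hβ : ∀ b, ‖β b‖ ≤ 1) (P : Finset Eis)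
    (hP : ∀ a ∈ P, T411.SqP a ∧ (nm a : ℝ) ≤ A) :
    ∑ a ∈ P, ‖∑ b ∈ 𝓑, β b * T411.F (a * b)‖ ^ 2 ≤ Real.exp 1 * T411.SS A 𝓑 β := by
  set tm : Eis → ℝ := fun a => if T411.SqP a then
    Real.exp (-(nm a : ℝ) / A) * ‖∑ b ∈ 𝓑, β b * T411.F (a * b)‖ ^ 2 else 0 with htm
  have h0 : ∀ a, 0 ≤ tm a := fun a => by
    rw [htm]; simp only; split_ifs <;> positivity
  have hsum : Summable tm := by
    refine Summable.of_nonneg_of_le h0 (fun a => SS_term_le 𝓑 β h𝓑 hβ a) ?_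
    exact (Edge79.summable_exp (c := 1 / A) (by positivity)).mul_left _
  have h1 : ∑ a ∈ P, tm a ≤ T411.SS A 𝓑 β := by
    have := hsum.sum_le_tsum P (fun a _ => h0 a)
    exact this
  have h2 : ∑ a ∈ P, ‖∑ b ∈ 𝓑, β b * T411.F (a * b)‖ ^ 2 ≤ ∑ a ∈ P, Real.exp 1 * tm a := by
    refine Finset.sum_le_sum fun a ha => ?_
    obtain ⟨q1, q2⟩ := hP a ha
    rw [htm]
    simp only
    rw [if_pos q1, ← mul_assoc, ← Real.exp_add]
    have h3 : (1 : ℝ) ≤ Real.exp (1 + -(nm a : ℝ) / A) := by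
      apply Real.one_le_exp
      rw [neg_div]
      have : (nm a : ℝ) / A ≤ 1 := by rw [div_le_one hA]; exact q2
      linarith
    have h4 : 0 ≤ ‖∑ b ∈ 𝓑, β b * T411.F (a * b)‖ ^ 2 := by positivity
    nlinarith
  rw [← Finset.mul_sum] at h2
  exact h2.trans (mul_le_mul_of_nonneg_left h1 (Real.exp_pos _).le)

/-! ### The abstract estimate -/

/-- From a pointwise bound of `D(t)²` by convolutions `cv (f h) t` to `∫ |kB| D`. -/
theorem abs_bound {κ : Type*} {B : ℝ} (hB : 1 ≤ B) (D : ℝ → ℝ) (hD : Continuous D)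
    (hD0 : ∀ t, 0 ≤ D t) (H : Finset κ) (f : κ → ℝ → ℝ) (hf : ∀ h ∈ H, Continuous (f h))
    (hf0 : ∀ h ∈ H, ∀ t, 0 ≤ f h t) {M E J V q0 q1 T0 T2 Lg : ℝ}
    (hM : ∀ h ∈ H, ∀ t, f h t ≤ M) (hV : 0 ≤ V) (hq0 : 0 ≤ q0) (hq1 : 0 ≤ q1)
    (hM0 : 0 ≤ M) (hE : 0 ≤ E) (hJ : 0 ≤ J)
    (h1 : ∀ t, D t ^ 2 ≤ V * (q0 + q1 * ∑ h ∈ H, cv (f h) t))
    (hT0 : 0 < T0) (h02 : T0 ≤ T2) (hLg : Real.log (T2 / T0) ≤ Lg) (hLg1 : 1 ≤ Lg)
    (h2 : ∀ h ∈ H, ∀ s, |s| ≤ 2 * T0 → f h s ≤ E)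
    (h3 : ∀ h ∈ H, ∀ σ : ℝ, (σ = 1 ∨ σ = -1) → ∫ t in T0..T2, cv (f h) (σ * t) / t ≤ J) :
    ∫ t, ‖kB B t‖ * D t ≤ Real.sqrt V * (
      Cint * (1 + Real.log (32 * B)) *
        Real.sqrt (q0 + q1 * (H.card * (Real.pi * E + 2 * M / T0))) +
      4 * Ck 0 * (Real.sqrt (q0 + q1 * (H.card * J)) * Lg) +
      4 * Ck 1 * ((8 * B + 8) / T2) * Real.sqrt (q0 + q1 * (H.card * (Real.pi * M)))) := by
  have hT2 : 0 < T2 := by linarith
  have hC := Cint_pos
  have hCk0 := Ck_pos 0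
  have hCk1 := Ck_pos 1
  have hLg0 : 0 ≤ Lg := by linarith
  have bd : ∀ {t Z : ℝ}, (∀ h ∈ H, cv (f h) t ≤ Z) →
      D t ≤ Real.sqrt V * Real.sqrt (q0 + q1 * (H.card * Z)) := by
    intro t Z hZ
    rw [← Real.sqrt_mul hV]
    apply Real.le_sqrt_of_sq_le
    refine (h1 t).trans ?_
    have : ∑ h ∈ H, cv (f h) t ≤ H.card * Z := by
      calc ∑ h ∈ H, cv (f h) t ≤ ∑ h ∈ H, Z := Finset.sum_le_sum hZ
        _ = _ := by rw [Finset.sum_const, nsmul_eq_mul]
    gcongr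
  have hZ0 : ∀ t, |t| ≤ T0 →
      D t ≤ Real.sqrt V * Real.sqrt (q0 + q1 * (H.card * (Real.pi * E + 2 * M / T0))) :=
    fun t ht => bd fun h hh => cv_small (hf h hh) (hf0 h hh) (hM h hh) hT0 hE (h2 h hh) ht
  have hMD : ∀ t, D t ≤ Real.sqrt V * Real.sqrt (q0 + q1 * (H.card * (Real.pi * M))) :=
    fun t => bd fun h hh => cv_le (hf h hh) (hf0 h hh) (hM h hh) t
  have hcc : ∀ σ : ℝ, ∀ h ∈ H, Continuous fun t => cv (f h) (σ * t) := fun σ h hh =>
    (continuous_cv (hf h hh) (hf0 h hh) (hM h hh)).comp (by fun_prop)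
  have hne : ∀ t ∈ uIcc T0 T2, t ≠ 0 := by
    intro t ht
    rw [uIcc_of_le h02] at ht
    exact (hT0.trans_le ht.1).ne'
  set ρ := Real.sqrt V * Real.sqrt (q0 + q1 * (H.card * J)) with hρ
  have hρ0 : 0 ≤ ρ := by positivity
  -- the mean square
  have hms : ∀ σ : ℝ, (σ = 1 ∨ σ = -1) →
      ∫ t in T0..T2, D (σ * t) ^ 2 / t ≤ ρ ^ 2 * Lg := by
    intro σ hσ
    have hDc : Continuous fun t => D (σ * t) := hD.comp (by fun_prop)
    have i0 : IntervalIntegrable (fun t : ℝ => q0 * (1 / t)) volume T0 T2 :=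
      (ContinuousOn.intervalIntegrable
        (continuousOn_const.div continuousOn_id hne)).const_mul _
    have ih : ∀ h ∈ H, IntervalIntegrable (fun t : ℝ => cv (f h) (σ * t) / t) volume T0 T2 :=
      fun h hh => ContinuousOn.intervalIntegrable
        ((hcc σ h hh).continuousOn.div continuousOn_id hne)
    have i1 : IntervalIntegrable (fun t : ℝ => q1 * ∑ h ∈ H, cv (f h) (σ * t) / t)
        volume T0 T2 := by
      have h4 := IntervalIntegrable.sum H (f := fun h => fun t : ℝ => cv (f h) (σ * t) / t)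
        (fun h hh => ih h hh)
      have h5 := h4.const_mul q1
      refine h5.congr ?_
      intro t _
      simp [Finset.sum_apply]
    have i2 : IntervalIntegrable (fun t : ℝ => D (σ * t) ^ 2 / t) volume T0 T2 :=
      ContinuousOn.intervalIntegrable ((hDc.pow 2).continuousOn.div continuousOn_id hne)
    have m1 : ∫ t in T0..T2, D (σ * t) ^ 2 / t ≤
        ∫ t in T0..T2, V * (q0 * (1 / t) + q1 * ∑ h ∈ H, cv (f h) (σ * t) / t) := by
      apply intervalIntegral.integral_mono_on h02 i2 ((i0.add i1).const_mul V)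
      intro t ht
      have ht0 : 0 < t := hT0.trans_le ht.1
      have := h1 (σ * t)
      rw [div_le_iff₀ ht0]
      refine this.trans (le_of_eq ?_)
      rw [← Finset.sum_div]
      field_simp
    rw [intervalIntegral.integral_const_mul, intervalIntegral.integral_add i0 i1,
      intervalIntegral.integral_const_mul, intervalIntegral.integral_const_mul,
      intervalIntegral.integral_finsetSum ih] at m1
    have e3 : ∫ t in T0..T2, 1 / t = Real.log (T2 / T0) := by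
      apply integral_one_div
      rw [uIcc_of_le h02]
      rintro ⟨h, -⟩
      linarith
    rw [e3] at m1
    have m2 : ∑ h ∈ H, ∫ t in T0..T2, cv (f h) (σ * t) / t ≤ H.card * J := by
      calc _ ≤ ∑ h ∈ H, J := Finset.sum_le_sum fun h hh => h3 h hh σ hσ
        _ = _ := by rw [Finset.sum_const, nsmul_eq_mul]
    have e4 : ρ ^ 2 = V * (q0 + q1 * (H.card * J)) := by
      rw [hρ, mul_pow, Real.sq_sqrt hV, Real.sq_sqrt (by positivity)]
    rw [e4]
    refine m1.trans ?_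
    rw [mul_assoc]
    apply mul_le_mul_of_nonneg_left _ hV
    have m3 : q0 * Real.log (T2 / T0) ≤ q0 * Lg := by gcongr
    have m4 : q1 * ∑ h ∈ H, ∫ t in T0..T2, cv (f h) (σ * t) / t ≤
        q1 * (H.card * J) * Lg := by
      have : 0 ≤ q1 * (H.card * J) := by positivity
      calc _ ≤ q1 * (H.card * J) := by gcongr
        _ ≤ q1 * (H.card * J) * Lg := by nlinarith
    linarith
  have hi1 : ∫ t in T0..T2, D t / t ≤ ρ * Lg := by
    have := hms 1 (Or.inl rfl)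
    simp only [one_mul] at this
    exact am_gm hD hT0 h02 hρ0 hLg hLg0 this
  have hi2 : ∫ t in T0..T2, D (-t) / t ≤ ρ * Lg := by
    have := hms (-1) (Or.inr rfl)
    simp only [neg_mul, one_mul] at this
    exact am_gm (D := fun t => D (-t)) (by fun_prop) hT0 h02 hρ0 hLg hLg0 this
  have key := int_split hB D hD hD0 hMD hT0 h02 (by positivity) hZ0 (k := 1) one_pos
  refine key.trans ?_
  have e5 : Real.sqrt V * (
      Cint * (1 + Real.log (32 * B)) *
        Real.sqrt (q0 + q1 * (H.card * (Real.pi * E + 2 * M / T0))) +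
      4 * Ck 0 * (Real.sqrt (q0 + q1 * (H.card * J)) * Lg) +
      4 * Ck 1 * ((8 * B + 8) / T2) * Real.sqrt (q0 + q1 * (H.card * (Real.pi * M)))) =
      Cint * (1 + Real.log (32 * B)) *
        (Real.sqrt V * Real.sqrt (q0 + q1 * (H.card * (Real.pi * E + 2 * M / T0)))) +
      2 * Ck 0 * (ρ * Lg + ρ * Lg) +
      4 * Ck 1 * ((8 * B + 8) / T2) *
        (Real.sqrt V * Real.sqrt (q0 + q1 * (H.card * (Real.pi * M)))) := by
    rw [hρ]; ring
  rw [e5]
  gcongr
  exact (pow_one _).le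

end Crest.Agent.R012.TII54
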