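import Crest.Agent.R012.TIIa_852
import Crest.Agent.R012.LScount_448

/-!
# Row 12, TIIS: the `u`-integrals `∫ (1+u²)⁻¹ |tw(t+u)|² du` (helper852, backup of helper54)
-/

set_option autoImplicit false

noncomputable section

open Complex MeasureTheory Set

namespace Crest.Agent.R012.TIIeng852

open Crest.Agent.R012 Eis Buch420 Main48 MV400 TII54 Weight600

/-- coefficients of `tw` as a Dirichlet polynomial -/
def cf (l : ℤ) (β : Finset PrP → ℂ) (h b : Eis) : ℂ := β (pset b) * ang l b * sy h b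

lemma tw_eq_dp (l : ℤ) (X : ℕ) (β : Finset PrP → ℂ) (h : Eis) (t : ℝ) :
    tw l X β h t = dp (BB X β) (cf l β h) t := by
  unfold tw dp cf
  have h1 := sum_BB X β (fun b => ang l b * nit t b * sy h b)
  rw [show (∑ T ∈ (UX X).powerset, β T * ang l (prd T) * nit t (prd T) * sy h (prd T)) =
    ∑ T ∈ (UX X).powerset, β T * (ang l (prd T) * nit t (prd T) * sy h (prd T)) from
      Finset.sum_congr rfl fun T _ => by ring, ← h1]
  exact Finset.sum_congr rfl fun b _ => by ring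

lemma tw_add_eq_dp (l : ℤ) (X : ℕ) (β : Finset PrP → ℂ) (h : Eis) (t u : ℝ) :
    tw l X β h (t + u) = dp (BB X β) (fun b => cf l β h b * nit u b) t := by
  rw [tw_eq_dp]
  unfold dp
  refine Finset.sum_congr rfl fun b hb => ?_
  rw [nit_add (ne_zero_BB hb)]; ring

lemma continuous_tw (l : ℤ) (X : ℕ) (β : Finset PrP → ℂ) (h : Eis) :
    Continuous (fun t => tw l X β h t) := by
  simp_rw [tw_eq_dp]
  exact continuous_dp (fun z hz => ne_zero_BB hz) _

lemma norm_cf_le (l : ℤ) {X : ℕ} {β : Finset PrP → ℂ} (hβ : ∀ T, ‖β T‖ ≤ 1) (h : Eis) {b : Eis}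
    (hb : b ∈ BB X β) : ‖cf l β h b‖ ≤ 1 := by
  unfold cf
  rw [norm_mul, norm_mul]
  exact mul_le_one₀ (mul_le_one₀ (hβ _) (norm_nonneg _) (CRbeta852.norm_ang_le' l b))
    (norm_nonneg _) (Gauss880.norm_sy_le Gauss880.syG (sqP_BB hb).1)

lemma norm_nit_le (t : ℝ) (b : Eis) : ‖nit t b‖ ≤ 1 := CRbeta852.norm_natCast_cpow_le _ _

lemma norm_tw_le (l : ℤ) {X : ℕ} {β : Finset PrP → ℂ} (hβ : ∀ T, ‖β T‖ ≤ 1) (h : Eis) (t : ℝ) :
    ‖tw l X β h t‖ ≤ (BB X β).card := by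
  rw [tw_eq_dp]
  unfold dp
  refine (norm_sum_le _ _).trans ?_
  rw [← nsmul_one, ]
  refine Finset.sum_le_card_nsmul _ _ _ fun b hb => ?_
  rw [norm_mul]
  exact mul_le_one₀ (norm_cf_le l hβ h hb) (norm_nonneg _) (norm_nit_le _ _)

lemma card_BB {w B : ℝ} (hB : 1 ≤ B) {X : ℕ} {β : Finset PrP → ℂ} (hs : Supp w B β) :
    ((BB X β).card : ℝ) ≤ 32 * B := by
  classical
  have h1 : BB X β ⊆ ball ⌊2 * B⌋₊ := by
    intro b hb
    obtain ⟨T, -, h, rfl⟩ := mem_BB.mp hb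
    rw [mem_ball]
    exact Nat.le_floor (hs T h).2.2
  have h2 : 1 ≤ ⌊2 * B⌋₊ := by
    rw [Nat.one_le_floor_iff]; linarith
  have h3 := (Finset.card_le_card h1).trans (LS448.card_ball_le h2)
  have h4 : ((BB X β).card : ℝ) ≤ 16 * (⌊2 * B⌋₊ : ℝ) := by exact_mod_cast h3
  have h5 : (⌊2 * B⌋₊ : ℝ) ≤ 2 * B := Nat.floor_le (by linarith)
  linarith

/-- `∫ (1+u²)⁻¹ |tw(t+u)|² du` -/
def Wh (l : ℤ) (X : ℕ) (β : Finset PrP → ℂ) (h : Eis) (t : ℝ) : ℝ :=
  ∫ u : ℝ, (1 + u ^ 2)⁻¹ * ‖tw l X β h (t + u)‖ ^ 2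

lemma Wh_nonneg (l : ℤ) (X : ℕ) (β : Finset PrP → ℂ) (h : Eis) (t : ℝ) : 0 ≤ Wh l X β h t :=
  integral_nonneg fun u => by positivity

lemma kerI_pos (u : ℝ) : (0 : ℝ) < (1 + u ^ 2)⁻¹ := by positivity

lemma integrand_bd (l : ℤ) {X : ℕ} {β : Finset PrP → ℂ} (hβ : ∀ T, ‖β T‖ ≤ 1) (h : Eis)
    (t u : ℝ) : (1 + u ^ 2)⁻¹ * ‖tw l X β h (t + u)‖ ^ 2 ≤
      (1 + u ^ 2)⁻¹ * ((BB X β).card : ℝ) ^ 2 :=
  mul_le_mul_of_nonneg_left (pow_le_pow_left₀ (norm_nonneg _) (norm_tw_le l hβ h _) 2)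
    (kerI_pos u).le

lemma continuous_integrand (l : ℤ) (X : ℕ) (β : Finset PrP → ℂ) (h : Eis) :
    Continuous (fun p : ℝ × ℝ => (1 + p.2 ^ 2)⁻¹ * ‖tw l X β h (p.1 + p.2)‖ ^ 2) := by
  have h1 : Continuous (fun p : ℝ × ℝ => tw l X β h (p.1 + p.2)) :=
    (continuous_tw l X β h).comp (continuous_fst.add continuous_snd)
  have h2 : Continuous (fun p : ℝ × ℝ => (1 + p.2 ^ 2)⁻¹) := by
    refine Continuous.inv₀ (by fun_prop) fun p => ?_
    positivity
  exact h2.mul (h1.norm.pow 2)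

lemma integrable_integrand (l : ℤ) {X : ℕ} {β : Finset PrP → ℂ} (hβ : ∀ T, ‖β T‖ ≤ 1) (h : Eis)
    (t : ℝ) : Integrable (fun u : ℝ => (1 + u ^ 2)⁻¹ * ‖tw l X β h (t + u)‖ ^ 2) := by
  refine Integrable.mono' (integrable_inv_one_add_sq.mul_const (((BB X β).card : ℝ) ^ 2)) ?_ ?_
  · exact ((continuous_integrand l X β h).comp
      (continuous_const.prodMk continuous_id)).aestronglyMeasurable
  · filter_upwards with u
    rw [Real.norm_of_nonneg (by positivity)]
    exact integrand_bd l hβ h t u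

lemma continuous_Wh (l : ℤ) {X : ℕ} {β : Finset PrP → ℂ} (hβ : ∀ T, ‖β T‖ ≤ 1) (h : Eis) :
    Continuous (fun t => Wh l X β h t) := by
  refine continuous_of_dominated (bound := fun u => (1 + u ^ 2)⁻¹ * ((BB X β).card : ℝ) ^ 2)
    (fun t => (integrable_integrand l hβ h t).aestronglyMeasurable) (fun t => ?_)
    (integrable_inv_one_add_sq.mul_const _) ?_
  · filter_upwards with u
    rw [Real.norm_of_nonneg (by positivity)]
    exact integrand_bd l hβ h t u
  · filter_upwards with u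
    exact (continuous_integrand l X β h).comp (continuous_id.prodMk continuous_const)

/-- mean value over `t` -/
lemma int_Wh_le (l : ℤ) {w B : ℝ} (hB : 1 ≤ B) {X : ℕ} {β : Finset PrP → ℂ}
    (hβ : ∀ T, ‖β T‖ ≤ 1) (hs : Supp w B β) (h : Eis) {T0 T2 : ℝ} (hT0 : 1 ≤ T0)
    (h02 : T0 ≤ T2) (e : ℝ) (he : e = 1 ∨ e = -1) :
    ∫ t in T0..T2, Wh l X β h (e * t) / t ≤
      Real.pi * (900000 * (2 * B / T0 + Real.sqrt (2 * B) * (1 + Real.log (T2 / T0))) *
        (32 * B)) := by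
  have hT0' : 0 < T0 := by linarith
  -- the inner bound
  have hin : ∀ u : ℝ, ∫ t in T0..T2, ‖tw l X β h (e * t + u)‖ ^ 2 / t ≤
      900000 * (2 * B / T0 + Real.sqrt (2 * B) * (1 + Real.log (T2 / T0))) * (32 * B) := by
    intro u
    have hS : ∀ z ∈ BB X β, z ≠ 0 ∧ (nm z : ℝ) ≤ 2 * B := fun z hz => by
      refine ⟨ne_zero_BB hz, ?_⟩
      obtain ⟨T, -, h, rfl⟩ := mem_BB.mp hz
      exact (hs T h).2.2
    have hsum : ∑ z ∈ BB X β, ‖cf l β h z * nit u z‖ ^ 2 ≤ 32 * B := by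
      refine le_trans ?_ (card_BB (X := X) hB hs)
      rw [← nsmul_one]
      refine Finset.sum_le_card_nsmul _ _ _ fun b hb => ?_
      rw [norm_mul]
      exact pow_le_one₀ (by positivity)
        (mul_le_one₀ (norm_cf_le l hβ h hb) (norm_nonneg _) (norm_nit_le _ _))
    have hlog : 0 ≤ Real.log (T2 / T0) := Real.log_nonneg (by rw [le_div_iff₀ hT0']; linarith)
    have hpos : 0 ≤ 900000 * (2 * B / T0 + Real.sqrt (2 * B) * (1 + Real.log (T2 / T0))) := by
      have : 0 ≤ 2 * B / T0 := by positivity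
      positivity
    rcases he with rfl | rfl
    · simp_rw [one_mul, tw_add_eq_dp]
      exact (mv_eis_dt (BB X β) (2 * B) T0 T2 (by linarith) hT0 h02 hS _).trans
        (mul_le_mul_of_nonneg_left hsum hpos)
    · simp_rw [tw_add_eq_dp, neg_one_mul]
      exact (mv_eis_dt_neg (BB X β) (2 * B) T0 T2 (by linarith) hT0 h02 hS _).trans
        (mul_le_mul_of_nonneg_left hsum hpos)
  have hE : ∀ t, Wh l X β h (e * t) / t =
      ∫ u : ℝ, (1 + u ^ 2)⁻¹ * ‖tw l X β h (e * t + u)‖ ^ 2 / t := by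
    intro t
    unfold Wh
    rw [integral_div]
  simp_rw [hE]
  rw [intervalIntegral.integral_of_le h02]
  have hcont : ContinuousOn (fun p : ℝ × ℝ => (1 + p.2 ^ 2)⁻¹ * ‖tw l X β h (e * p.1 + p.2)‖ ^ 2
      / p.1) (Ioc T0 T2 ×ˢ univ) := by
    refine ContinuousOn.div ?_ continuousOn_fst ?_
    · have h1 := (continuous_integrand l X β h).comp
        ((continuous_const.mul continuous_fst : Continuous fun p : ℝ × ℝ => e * p.1).prodMk
          continuous_snd)
      exact h1.continuousOn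
    · rintro ⟨t, u⟩ ⟨ht, -⟩
      simp only at ht ⊢
      linarith [ht.1]
  have hint : Integrable (Function.uncurry (fun (t u : ℝ) => (1 + u ^ 2)⁻¹ *
      ‖tw l X β h (e * t + u)‖ ^ 2 / t)) ((volume.restrict (Ioc T0 T2)).prod volume) := by
    have hb := (integrable_inv_one_add_sq.mul_const
      (((BB X β).card : ℝ) ^ 2 / T0)).comp_snd (volume.restrict (Ioc T0 T2))
    have hmeq : (volume.restrict (Ioc T0 T2)).prod (volume : Measure ℝ) =
        ((volume : Measure ℝ).prod volume).restrict (Ioc T0 T2 ×ˢ univ) := by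
      rw [← Measure.prod_restrict, Measure.restrict_univ]
    refine Integrable.mono' hb ?_ ?_
    · rw [hmeq]
      exact hcont.aestronglyMeasurable (measurableSet_Ioc.prod MeasurableSet.univ)
    · rw [hmeq]
      refine (ae_restrict_iff' (measurableSet_Ioc.prod MeasurableSet.univ)).mpr ?_
      filter_upwards with p
      rintro ⟨hp, -⟩
      have hp1 : T0 < p.1 := hp.1
      have hp0 : 0 < p.1 := by linarith
      simp only [Function.uncurry]
      rw [Real.norm_of_nonneg (by positivity), ← mul_div_assoc]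
      exact div_le_div₀ (by positivity) (integrand_bd l hβ h _ _) hT0' hp1.le
  rw [integral_integral_swap hint]
  have hle : ∀ u : ℝ, ∫ t in Ioc T0 T2, (1 + u ^ 2)⁻¹ * ‖tw l X β h (e * t + u)‖ ^ 2 / t ≤
      (1 + u ^ 2)⁻¹ * (900000 * (2 * B / T0 + Real.sqrt (2 * B) * (1 + Real.log (T2 / T0))) *
        (32 * B)) := by
    intro u
    have e0 : ∀ t : ℝ, (1 + u ^ 2)⁻¹ * ‖tw l X β h (e * t + u)‖ ^ 2 / t =
        (1 + u ^ 2)⁻¹ * (‖tw l X β h (e * t + u)‖ ^ 2 / t) := fun t => by ring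
    simp_rw [e0]
    rw [integral_const_mul]
    refine mul_le_mul_of_nonneg_left ?_ (kerI_pos u).le
    have := hin u
    rwa [intervalIntegral.integral_of_le h02] at this
  calc _ ≤ ∫ u : ℝ, (1 + u ^ 2)⁻¹ * (900000 * (2 * B / T0 + Real.sqrt (2 * B) *
        (1 + Real.log (T2 / T0))) * (32 * B)) := by
        refine integral_mono_of_nonneg ?_ (integrable_inv_one_add_sq.mul_const _) ?_
        · filter_upwards with u
          refine setIntegral_nonneg measurableSet_Ioc fun t ht => ?_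
          have : 0 < t := by linarith [ht.1]
          positivity
        · filter_upwards with u
          exact hle u
    _ = _ := by
        rw [integral_mul_const, integral_univ_inv_one_add_sq]

lemma tail_kerI {T : ℝ} (hT : 0 < T) : Real.pi / 2 - Real.arctan T ≤ 1 / T := by
  rw [← Real.arctan_inv_of_pos hT, one_div]
  have h0 : 0 < T⁻¹ := by positivity
  have := Real.lt_tan (Real.arctan_pos.mpr h0) (Real.arctan_lt_pi_div_two _)
  rw [Real.tan_arctan] at this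
  exact this.le

/-- pointwise bound for small `t` -/
lemma Wh_le_of_small (l : ℤ) {X : ℕ} {β : Finset PrP → ℂ} (hβ : ∀ T, ‖β T‖ ≤ 1) (h : Eis)
    {T0 Z : ℝ} (hT0 : 0 < T0) (hZ : ∀ s, |s| ≤ 2 * T0 → ‖tw l X β h s‖ ≤ Z) {t : ℝ}
    (ht : |t| ≤ T0) :
    Wh l X β h t ≤ Real.pi * Z ^ 2 + 2 / T0 * ((BB X β).card : ℝ) ^ 2 := by
  have hZ0 : 0 ≤ Z := (norm_nonneg _).trans (hZ t (by linarith [abs_nonneg t]))
  set M : ℝ := ((BB X β).card : ℝ) ^ 2 with hM
  have hpt : ∀ u : ℝ, (1 + u ^ 2)⁻¹ * ‖tw l X β h (t + u)‖ ^ 2 ≤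
      (1 + u ^ 2)⁻¹ * Z ^ 2 + (indicator (Iic (-T0)) (fun u : ℝ => (1 + u ^ 2)⁻¹ * M) u +
        indicator (Ioi T0) (fun u : ℝ => (1 + u ^ 2)⁻¹ * M) u) := by
    intro u
    have n1 : 0 ≤ indicator (Iic (-T0)) (fun u : ℝ => (1 + u ^ 2)⁻¹ * M) u :=
      indicator_nonneg (fun u _ => by positivity) u
    have n2 : 0 ≤ indicator (Ioi T0) (fun u : ℝ => (1 + u ^ 2)⁻¹ * M) u :=
      indicator_nonneg (fun u _ => by positivity) u
    have n0 : 0 ≤ (1 + u ^ 2)⁻¹ * Z ^ 2 := by positivity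
    by_cases h1 : u ≤ -T0
    · have e1 : indicator (Iic (-T0)) (fun u : ℝ => (1 + u ^ 2)⁻¹ * M) u = (1 + u ^ 2)⁻¹ * M :=
        indicator_of_mem (by exact h1) _
      have := integrand_bd l (X := X) hβ h t u
      linarith
    by_cases h2 : T0 < u
    · have e1 : indicator (Ioi T0) (fun u : ℝ => (1 + u ^ 2)⁻¹ * M) u = (1 + u ^ 2)⁻¹ * M :=
        indicator_of_mem (by exact h2) _
      have := integrand_bd l (X := X) hβ h t u
      linarith
    push Not at h1 h2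
    have h3 : |t + u| ≤ 2 * T0 := by
      have := abs_add_le t u
      have h4 : |u| ≤ T0 := abs_le.mpr ⟨h1.le, h2⟩
      linarith
    have h5 := mul_le_mul_of_nonneg_left
      (pow_le_pow_left₀ (norm_nonneg _) (hZ _ h3) 2) (kerI_pos u).le
    linarith
  have i0 : Integrable (fun u : ℝ => (1 + u ^ 2)⁻¹ * Z ^ 2) :=
    integrable_inv_one_add_sq.mul_const _
  have iM : Integrable (fun u : ℝ => (1 + u ^ 2)⁻¹ * M) := integrable_inv_one_add_sq.mul_const _
  have i1 : Integrable (indicator (Iic (-T0)) (fun u : ℝ => (1 + u ^ 2)⁻¹ * M)) :=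
    iM.indicator measurableSet_Iic
  have i2 : Integrable (indicator (Ioi T0) (fun u : ℝ => (1 + u ^ 2)⁻¹ * M)) :=
    iM.indicator measurableSet_Ioi
  have hmono := integral_mono (integrable_integrand l hβ h t) (i0.add (i1.add i2)) hpt
  have e : ∫ u : ℝ, ((fun u : ℝ => (1 + u ^ 2)⁻¹ * Z ^ 2) +
      (indicator (Iic (-T0)) (fun u : ℝ => (1 + u ^ 2)⁻¹ * M) +
        indicator (Ioi T0) (fun u : ℝ => (1 + u ^ 2)⁻¹ * M)) : ℝ → ℝ) u =
      Real.pi * Z ^ 2 + ((Real.arctan (-T0) + Real.pi / 2) * M +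
        (Real.pi / 2 - Real.arctan T0) * M) := by
    rw [integral_add' i0 (i1.add i2), integral_add' i1 i2, integral_indicator measurableSet_Iic,
      integral_indicator measurableSet_Ioi, integral_mul_const, integral_mul_const,
      integral_mul_const, integral_univ_inv_one_add_sq, integral_Iic_inv_one_add_sq,
      integral_Ioi_inv_one_add_sq]
  have hfin : Wh l X β h t ≤ _ := hmono.trans (le_of_eq e)
  refine hfin.trans ?_
  rw [Real.arctan_neg]
  have htail := tail_kerI hT0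
  have hM0 : 0 ≤ M := by positivity
  have : (-Real.arctan T0 + Real.pi / 2) * M + (Real.pi / 2 - Real.arctan T0) * M ≤
      2 / T0 * M := by
    have e2 : 2 / T0 * M = 2 * (1 / T0) * M := by ring
    rw [e2]
    nlinarith
  linarith

end Crest.Agent.R012.TIIeng852
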