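import Crest.Agent.R012.TIIabs_54

/-!
# Row 12, item TIIS: the bridge between `Ix` and the dispersion sum (helper54)

* `sB X β`, `bE l β t` : support and coefficients of `β` on `Eis`
* `cls`                : they are in the class `T411.Cls`
* `tws_eq`             : `tws (sB X β) (bE l β t) h u = tw l X β h (t + u)`
* `Ix_le`              : `‖Ix‖ ≤ ∫ ‖kB B t‖ D t`
* `D_sq_le`            : `D t ^ 2 ≤ Mu · e · SS (X/B) (sB X β) (bE l β t)`
-/

set_option autoImplicit false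

noncomputable section

open MeasureTheory Complex Set Filter Topology
open Crest.Agent.R012 Crest.Agent.R012.Eis Crest.Agent.R012.Weight600 Crest.Agent.R012.MV400
open Crest.Agent.R012.Buch420 Crest.Agent.R012.Main48

namespace Crest.Agent.R012.TII54

open Classical in
/-- the support of `β` as a finite set of `Eis` -/
def sB (X : ℕ) (β : Finset PrP → ℂ) : Finset Eis :=
  ((UX X).powerset.filter (fun T => β T ≠ 0)).image prd

/-- the coefficients on `Eis`, twisted -/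
def bE (l : ℤ) (β : Finset PrP → ℂ) (t : ℝ) (b : Eis) : ℂ := β (pset b) * ang l b * nit t b

lemma norm_nit_le (t : ℝ) (z : Eis) : ‖nit t z‖ ≤ 1 := by
  by_cases hz : z = 0
  · subst hz
    unfold nit
    by_cases ht : t = 0
    · subst ht; simp
    · rw [nm_zero, Nat.cast_zero, Complex.zero_cpow]
      · simp
      · simp [ht]
  · exact (norm_nit hz).le

lemma norm_bE_le (l : ℤ) {β : Finset PrP → ℂ} (hβ : ∀ T, ‖β T‖ ≤ 1) (t : ℝ) (b : Eis) :
    ‖bE l β t b‖ ≤ 1 := by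
  unfold bE
  rw [norm_mul, norm_mul]
  exact mul_le_one₀ (mul_le_one₀ (hβ _) (norm_nonneg _) (P355.norm_ang_le l b))
    (norm_nonneg _) (norm_nit_le t b)

/-- sums over `sB` -/
lemma sum_sB (X : ℕ) (β : Finset PrP → ℂ) (g : Eis → ℂ) :
    ∑ b ∈ sB X β, β (pset b) * g b = ∑ T ∈ (UX X).powerset, β T * g (prd T) := by
  classical
  unfold sB
  rw [Finset.sum_image (fun x _ y _ h => prd_injective h), Finset.sum_filter]
  refine Finset.sum_congr rfl fun T _ => ?_
  split_ifs with h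
  · rw [pset_prd]
  · push Not at h
    rw [h, zero_mul]

lemma mem_sB {X : ℕ} {β : Finset PrP → ℂ} {b : Eis} (hb : b ∈ sB X β) :
    ∃ T, T ⊆ UX X ∧ β T ≠ 0 ∧ prd T = b := by
  classical
  unfold sB at hb
  rw [Finset.mem_image] at hb
  obtain ⟨T, hT, rfl⟩ := hb
  rw [Finset.mem_filter, Finset.mem_powerset] at hT
  exact ⟨T, hT.1, hT.2, rfl⟩

lemma sB_prim {X : ℕ} {β : Finset PrP → ℂ} {b : Eis} (hb : b ∈ sB X β) : IsPrim b := by
  obtain ⟨T, -, -, rfl⟩ := mem_sB hb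
  exact isPrim_prd T

lemma cls {X : ℕ} {w B : ℝ} {β : Finset PrP → ℂ} (hβ : ∀ T, ‖β T‖ ≤ 1) (hs : Supp w B β)
    (l : ℤ) (t : ℝ) : T411.Cls w B (sB X β) (bE l β t) := by
  refine ⟨?_, ?_, ?_, ?_, fun b => norm_bE_le l hβ t b⟩
  · intro b hb
    obtain ⟨T, -, -, rfl⟩ := mem_sB hb
    exact ⟨isPrim_prd T, squarefree_prd T⟩
  · intro b hb
    obtain ⟨T, -, h, rfl⟩ := mem_sB hb
    exact (hs T h).2.1
  · intro b hb
    obtain ⟨T, -, h, rfl⟩ := mem_sB hb
    exact (hs T h).2.2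
  · intro b hb p hp hpb
    obtain ⟨T, -, h, rfl⟩ := mem_sB hb
    have h2 : (⟨p, hp⟩ : PrP) ∈ T := dvd_prd_iff.mp hpb
    exact (hs T h).1 ⟨p, hp⟩ h2

lemma nm_sB {X : ℕ} {w B : ℝ} {β : Finset PrP → ℂ} (hs : Supp w B β) {b : Eis}
    (hb : b ∈ sB X β) : B < nm b ∧ (nm b : ℝ) ≤ 2 * B := by
  obtain ⟨T, -, h, rfl⟩ := mem_sB hb
  exact (hs T h).2

lemma card_sB_le {X : ℕ} {w B : ℝ} (hB : 1 ≤ B) {β : Finset PrP → ℂ} (hs : Supp w B β) :
    ((sB X β).card : ℝ) ≤ 200 * B := by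
  have h1 : sB X β ⊆ primBall ⌊2 * B⌋₊ := by
    intro b hb
    obtain ⟨T, -, h, rfl⟩ := mem_sB hb
    rw [mem_primBall]
    exact ⟨Nat.le_floor (hs T h).2.2, isPrim_prd T⟩
  have h2 : ((sB X β).card : ℝ) ≤ ((primBall ⌊2 * B⌋₊).card : ℝ) := by
    exact_mod_cast Finset.card_le_card h1
  have h3 := Lat277.card_primBall_le ⌊2 * B⌋₊
  have h4 : ((⌊2 * B⌋₊ : ℕ) : ℝ) ≤ 2 * B := Nat.floor_le (by linarith)
  linarith

lemma tws_eq (l : ℤ) (X : ℕ) (β : Finset PrP → ℂ) (t : ℝ) (h : Eis) (u : ℝ) :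
    T411.tws (sB X β) (bE l β t) h u = tw l X β h (t + u) := by
  unfold T411.tws tw
  have e : ∑ b ∈ sB X β, bE l β t b * (nm b : ℂ) ^ ((u : ℂ) * Complex.I) * sy h b =
      ∑ b ∈ sB X β, β (pset b) * (ang l b * nit t b * nit u b * sy h b) := by
    refine Finset.sum_congr rfl fun b _ => ?_
    unfold bE
    have : (nm b : ℂ) ^ ((u : ℂ) * Complex.I) = nit u b := rfl
    rw [this]
    ring
  rw [e, sum_sB]
  refine Finset.sum_congr rfl fun T _ => ?_
  rw [nit_add (prd_ne_zero T)]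
  ring

/-- `tw` as a Dirichlet polynomial -/
lemma tw_eq_dp (l : ℤ) (X : ℕ) (β : Finset PrP → ℂ) (h : Eis) (s : ℝ) :
    tw l X β h s = dp (sB X β) (fun b => β (pset b) * (ang l b * sy h b)) s := by
  unfold tw dp
  have e : ∑ b ∈ sB X β, β (pset b) * (ang l b * sy h b) * nit s b =
      ∑ b ∈ sB X β, β (pset b) * (ang l b * sy h b * nit s b) := by
    refine Finset.sum_congr rfl fun b _ => ?_
    ring
  rw [e, sum_sB]
  refine Finset.sum_congr rfl fun T _ => ?_
  ring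

lemma continuous_tw (l : ℤ) (X : ℕ) (β : Finset PrP → ℂ) (h : Eis) :
    Continuous (tw l X β h) := by
  have : tw l X β h = dp (sB X β) (fun b => β (pset b) * (ang l b * sy h b)) :=
    funext fun s => tw_eq_dp l X β h s
  rw [this]
  exact continuous_dp (fun z hz => (sB_prim hz).ne_zero) _

/-! ### The Gauss sums -/

lemma Fl_eq (l : ℤ) {a b : Eis} (ha : IsPrim a) (hb : IsPrim b) :
    Fl l (a * b) = ang l a * ang l b * T411.F (a * b) := by
  classical
  have hab := ha.mul hb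
  by_cases h : Squarefree (a * b)
  · unfold Fl T411.F T411.mdl
    rw [if_pos h, if_pos h, P355.ang_mul, neg_div]
  · rw [F_eq_zero hab h, mul_zero]
    unfold Fl
    rw [if_neg h]

section form

variable {ι : Type} (l : ℤ) (X : ℕ) (B : ℝ) (I : Finset ι) (a : ι → Finset PrP) (g : ι → ℝ)
  (α : ι → ℂ) (β : Finset PrP → ℂ)

/-- the twisted form -/
def DD (t : ℝ) : ℝ :=
  ‖∑ i ∈ I, ∑ b ∈ sB X β, α i * (β (pset b) * Fl l (prd (a i) * b)) *
    (osc t (-cph B (g i)) * pw t (nm b))‖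

lemma continuous_DD : Continuous (DD l X B I a g α β) := by
  unfold DD
  apply Continuous.norm
  apply continuous_finsetSum
  intro i _
  apply continuous_finsetSum
  intro b _
  exact continuous_const.mul ((continuous_osc_left _).mul (continuous_pw_left _))

lemma Ix_le (hB : 1 ≤ B) {w : ℝ} (hs : Supp w B β) :
    ‖Ix l X I a g α β‖ ≤ ∫ t, ‖kB B t‖ * DD l X B I a g α β t := by
  have hS : ∀ b ∈ sB X β, B < nm b ∧ (nm b : ℝ) ≤ 2 * B := fun b hb => nm_sB hs hb
  have h := perron I (sB X β) hB hS (fun i b => α i * (β (pset b) * Fl l (prd (a i) * b))) g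
  refine le_trans (le_of_eq ?_) h
  unfold Ix
  refine congrArg _ ?_
  refine Finset.sum_congr rfl fun i _ => ?_
  rw [Finset.sum_filter]
  have e : ∀ b ∈ sB X β, (if (nm b : ℝ) ≤ g i then
      α i * (β (pset b) * Fl l (prd (a i) * b)) else 0) =
      β (pset b) * (if (nm b : ℝ) ≤ g i then α i * Fl l (prd (a i) * b) else 0) := by
    intro b _
    split_ifs <;> ring
  rw [Finset.sum_congr rfl e, sum_sB, Finset.mul_sum]
  refine Finset.sum_congr rfl fun T _ => ?_
  by_cases hT : (nm (prd T) : ℝ) ≤ g i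
  · rw [if_pos hT, if_pos hT]; ring
  · rw [if_neg hT, if_neg hT]; ring

lemma DD_le (t : ℝ) : DD l X B I a g α β t ≤
    ∑ i ∈ I, ‖α i‖ * ‖∑ b ∈ sB X β, bE l β t b * T411.F (prd (a i) * b)‖ := by
  unfold DD
  refine (norm_sum_le _ _).trans (Finset.sum_le_sum fun i _ => ?_)
  have e : ∑ b ∈ sB X β, α i * (β (pset b) * Fl l (prd (a i) * b)) *
      (osc t (-cph B (g i)) * pw t (nm b)) =
      (α i * ang l (prd (a i)) * osc t (-cph B (g i))) *
        ∑ b ∈ sB X β, bE l β t b * T411.F (prd (a i) * b) := by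
    rw [Finset.mul_sum]
    refine Finset.sum_congr rfl fun b hb => ?_
    have hbp := sB_prim hb
    have h0 : (0 : ℝ) < nm b := by exact_mod_cast nm_pos.mpr hbp.ne_zero
    rw [Fl_eq l (isPrim_prd _) hbp, pw_eq_cpow h0]
    unfold bE nit
    push_cast
    ring
  rw [e, norm_mul, norm_mul, norm_mul, norm_osc, mul_one]
  have h1 := P355.norm_ang_le l (prd (a i))
  have h2 : ‖α i‖ * ‖ang l (prd (a i))‖ ≤ ‖α i‖ := by nlinarith [norm_nonneg (α i)]
  exact mul_le_mul_of_nonneg_right h2 (norm_nonneg _)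

lemma Mu_nonneg : 0 ≤ Mu I a α := by
  unfold Mu
  refine Finset.sum_nonneg fun i _ => Finset.sum_nonneg fun j _ => ?_
  split_ifs <;> positivity

lemma DD_sq_le {A : ℝ} (hA : 0 < A) (hβ : ∀ T, ‖β T‖ ≤ 1)
    (ha : ∀ i ∈ I, (nm (prd (a i)) : ℝ) ≤ A) (t : ℝ) :
    DD l X B I a g α β t ^ 2 ≤
      Mu I a α * (Real.exp 1 * T411.SS A (sB X β) (bE l β t)) := by
  classical
  have hMu := Mu_nonneg I a α
  have h1 := DD_le l X B I a g α β t
  have h2 := cs_mu I a (fun i => ‖α i‖)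
    (fun c => ‖∑ b ∈ sB X β, bE l β t b * T411.F (prd c * b)‖) (I.image a)
    (fun i hi => Finset.mem_image_of_mem a hi)
  have h2' : ∑ i ∈ I, ‖α i‖ * ‖∑ b ∈ sB X β, bE l β t b * T411.F (prd (a i) * b)‖ ≤
      Real.sqrt (Mu I a α) * Real.sqrt (∑ c ∈ I.image a,
        ‖∑ b ∈ sB X β, bE l β t b * T411.F (prd c * b)‖ ^ 2) := by
    refine h2.trans (le_of_eq ?_)
    refine congrArg (fun x => Real.sqrt x * _) ?_
    unfold Mu
    refine Finset.sum_congr rfl fun i _ => Finset.sum_congr rfl fun j _ => ?_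
    by_cases hij : a i = a j
    · rw [if_pos hij, if_pos hij]
    · rw [if_neg hij, if_neg hij]
  have h3 : ∑ c ∈ I.image a, ‖∑ b ∈ sB X β, bE l β t b * T411.F (prd c * b)‖ ^ 2 ≤
      Real.exp 1 * T411.SS A (sB X β) (bE l β t) := by
    have h4 := sum_le_SS hA (sB X β) (bE l β t) (fun b hb => sB_prim hb)
      (norm_bE_le l hβ t) ((I.image a).image prd) (fun x hx => by
        rw [Finset.mem_image] at hx
        obtain ⟨c, hc, rfl⟩ := hx
        rw [Finset.mem_image] at hc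
        obtain ⟨i, hi, rfl⟩ := hc
        exact ⟨⟨isPrim_prd _, squarefree_prd _⟩, ha i hi⟩)
    rw [Finset.sum_image (fun x _ y _ h => prd_injective h)] at h4
    exact h4
  have h0 : 0 ≤ DD l X B I a g α β t := norm_nonneg _
  have h5 : DD l X B I a g α β t ≤ Real.sqrt (Mu I a α) *
      Real.sqrt (Real.exp 1 * T411.SS A (sB X β) (bE l β t)) := by
    refine (h1.trans h2').trans ?_
    exact mul_le_mul_of_nonneg_left (Real.sqrt_le_sqrt h3) (Real.sqrt_nonneg _)
  have hSS : 0 ≤ Real.exp 1 * T411.SS A (sB X β) (bE l β t) :=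
    le_trans (Finset.sum_nonneg fun _ _ => by positivity) h3
  calc DD l X B I a g α β t ^ 2 ≤ (Real.sqrt (Mu I a α) *
      Real.sqrt (Real.exp 1 * T411.SS A (sB X β) (bE l β t))) ^ 2 :=
        pow_le_pow_left₀ h0 h5 2
    _ = _ := by rw [mul_pow, Real.sq_sqrt hMu, Real.sq_sqrt hSS]

end form

end Crest.Agent.R012.TII54
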