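import Crest.Agent.R012.TIIfin_54

/-!
# Row 12, item TIIS: `Main48.TIIx_Prop` and `Main48.TIIcx_Prop`  (helper54)

* `tiix_of`   : `TMainN → SWx_Prop → TIIx_Prop`
* `tiicx_of`  : `TMainC → SWx_Prop → CRx_Prop → TIIcx_Prop`
-/

set_option autoImplicit false

noncomputable section

open MeasureTheory Complex Set Filter Topology
open Crest.Agent.R012 Crest.Agent.R012.Eis Crest.Agent.R012.Weight600 Crest.Agent.R012.MV400
open Crest.Agent.R012.Buch420 Crest.Agent.R012.Main48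

namespace Crest.Agent.R012.TII54

lemma int_tws_eq (l : ℤ) (X : ℕ) (β : Finset PrP → ℂ) (t : ℝ) (h : Eis) :
    ∫ u : ℝ, (1 + u ^ 2)⁻¹ * ‖T411.tws (sB X β) (bE l β t) h u‖ ^ 2 =
      cv (fun s => ‖tw l X β h s‖ ^ 2) t := by
  unfold cv
  refine integral_congr_ae (Eventually.of_forall fun u => ?_)
  simp only
  rw [tws_eq]

/-- exponent identities for `A = X/B` -/
lemma pw1 {x B : ℝ} (hx : 0 < x) (hB : 0 < B) :
    (x / B) ^ ((2 : ℝ) / 3) * B ^ ((5 : ℝ) / 3) = x ^ ((2 : ℝ) / 3) * B := by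
  rw [Real.div_rpow hx.le hB.le]
  have : B ^ ((5 : ℝ) / 3) = B ^ ((2 : ℝ) / 3) * B := by
    rw [← Real.rpow_add_one hB.ne']; norm_num
  rw [this]
  have := Real.rpow_pos_of_pos hB ((2 : ℝ) / 3)
  field_simp

lemma pw2 {x B : ℝ} (hx : 0 < x) (hB : 0 < B) :
    (x / B) ^ ((2 : ℝ) / 3) * B ^ (-(1 : ℝ) / 3) = x ^ ((2 : ℝ) / 3) * B / B ^ 2 := by
  rw [Real.div_rpow hx.le hB.le]
  have h1 : B ^ (-(1 : ℝ) / 3) * B = B ^ ((2 : ℝ) / 3) := by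
    rw [← Real.rpow_add_one hB.ne']; norm_num
  have h2 := Real.rpow_pos_of_pos hB ((2 : ℝ) / 3)
  have h3 : B ^ (-(1 : ℝ) / 3) = B ^ ((2 : ℝ) / 3) / B := by
    rw [← h1]; field_simp
  rw [h3]
  field_simp

lemma pw3 {x : ℝ} (hx : 0 < x) : x = x ^ ((2 : ℝ) / 3) * x ^ ((1 : ℝ) / 3) := by
  rw [← Real.rpow_add hx]; norm_num

lemma LY (L : ℝ) (hL : 0 < L) (A : ℕ) :
    L ^ (-(2 * (A : ℝ) + 2)) = ((L ^ (A + 1)) ^ 2)⁻¹ := by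
  rw [Real.rpow_neg hL.le, ← pow_mul]
  have : (2 * (A : ℝ) + 2) = (((A + 1) * 2 : ℕ) : ℝ) := by push_cast; ring
  rw [this, Real.rpow_natCast]

/-- the first term -/
lemma t1_le {x B L C : ℝ} {A : ℕ} (hx : 0 < x) (hL : 0 < L)
    (h : x ^ ((1 : ℝ) / 3) * L ^ (C + (2 * A + 2)) ≤ B) :
    x * L ^ C ≤ x ^ ((2 : ℝ) / 3) * B * ((L ^ (A + 1)) ^ 2)⁻¹ := by
  rw [← LY L hL A]
  have h1 : L ^ (C + (2 * (A : ℝ) + 2)) * L ^ (-(2 * (A : ℝ) + 2)) = L ^ C := by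
    rw [← Real.rpow_add hL]; congr 1; ring
  have h2 : 0 < L ^ (-(2 * (A : ℝ) + 2)) := Real.rpow_pos_of_pos hL _
  have h3 : 0 < x ^ ((2 : ℝ) / 3) := Real.rpow_pos_of_pos hx _
  calc x * L ^ C = x ^ ((2 : ℝ) / 3) * (x ^ ((1 : ℝ) / 3) * L ^ (C + (2 * (A : ℝ) + 2))) *
        L ^ (-(2 * (A : ℝ) + 2)) := by
        rw [← h1]; nth_rewrite 1 [pw3 hx]; ring
    _ ≤ _ := by gcongr

theorem tiix_of (hN : T411.TMainN) (hSW : SWx_Prop) : TIIx_Prop := by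
  intro l A η hη
  obtain ⟨C, hC, hT⟩ := hN (4 * η) (2 * A + 2) (by positivity) (by positivity)
  obtain ⟨K, X1, hK⟩ := core hSW l A C 2 hC (by norm_num)
  obtain ⟨X2, hX2⟩ := eventually_atTop.mp ((ev_log_ge 2).and (eventually_ge_atTop (max X1 8)))
  refine ⟨C + (2 * A + 2), K, X2, ?_⟩
  intro X hX B β hB1 hB2 hβ hs ι I a g α ha
  obtain ⟨hL2, hXX⟩ := hX2 X hX
  have hXX1 : X1 ≤ X := (le_max_left _ _).trans hXX
  have hX8 : 8 ≤ X := (le_max_right _ _).trans hXX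
  have hXr : (8 : ℝ) ≤ X := by exact_mod_cast hX8
  have hX0 : (0 : ℝ) < X := by linarith
  have hX1 : (1 : ℝ) ≤ X := by linarith
  have hLL : LX X = Real.log X := rfl
  have hL2' : 2 ≤ LX X := hL2
  have hL0 : 0 < LX X := by linarith
  have hL1 : 1 ≤ LX X := by linarith
  have hB13 : (X : ℝ) ^ ((1 : ℝ) / 3) ≤ B := by
    refine le_trans ?_ hB1
    have h1 : (1 : ℝ) ≤ LX X ^ (C + (2 * (A : ℝ) + 2)) :=
      Real.one_le_rpow hL1 (by positivity)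
    have h2 : 0 < (X : ℝ) ^ ((1 : ℝ) / 3) := by positivity
    nlinarith
  have hB14 : (X : ℝ) ^ ((1 : ℝ) / 4) ≤ B :=
    (Real.rpow_le_rpow_of_exponent_le hX1 (by norm_num)).trans hB13
  have hB : 1 ≤ B := (Real.one_le_rpow hX1 (by norm_num)).trans hB14
  have hB0 : 0 < B := by linarith
  -- `2 B ≤ X`
  have hB12 : B ≤ (X : ℝ) ^ ((1 : ℝ) / 2) :=
    hB2.trans (Real.rpow_le_rpow_of_exponent_le hX1 (by linarith))
  have hX12 : 2 ≤ (X : ℝ) ^ ((1 : ℝ) / 2) := by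
    rw [← Real.sqrt_eq_rpow]
    apply Real.le_sqrt_of_sq_le
    linarith
  have hsq : (X : ℝ) ^ ((1 : ℝ) / 2) * (X : ℝ) ^ ((1 : ℝ) / 2) = X := by
    rw [← Real.rpow_add hX0]; norm_num
  have h2B : 2 * B ≤ X := by
    calc 2 * B ≤ (X : ℝ) ^ ((1 : ℝ) / 2) * (X : ℝ) ^ ((1 : ℝ) / 2) := by gcongr
      _ = X := hsq
  -- `B^(1+e0) ≤ X/B`
  have hAB : B ^ (1 + 4 * η) ≤ X / B := by
    rw [le_div_iff₀ hB0, ← Real.rpow_add_one hB0.ne']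
    calc B ^ (1 + 4 * η + 1) ≤ ((X : ℝ) ^ (1 / 2 - η)) ^ (1 + 4 * η + 1) :=
          Real.rpow_le_rpow hB0.le hB2 (by positivity)
      _ = (X : ℝ) ^ ((1 / 2 - η) * (1 + 4 * η + 1)) := by rw [Real.rpow_mul hX0.le]
      _ ≤ (X : ℝ) ^ (1 : ℝ) := Real.rpow_le_rpow_of_exponent_le hX1 (by nlinarith)
      _ = X := Real.rpow_one _
  have hAX : X / B ≤ X := div_le_self hX0.le hB
  refine hK X hXX1 B β hB14 h2B hβ hs ?_ ι I a g α ha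
  intro t
  have key := hT X (X / B) B (by linarith) hB14 hAB hAX (sB X β) (bE l β t) (cls hβ.bd hs l t)
  simp only [int_tws_eq] at key
  rw [← hLL] at key
  refine key.trans ?_
  have e1 : (X : ℝ) / B * B = X := by field_simp
  rw [e1, LY _ hL0, pw1 hX0 hB0, pw2 hX0 hB0]
  have h1 := t1_le (A := A) hX0 hL0 hB1
  apply mul_le_mul_of_nonneg_left _ hC.le
  have e2 : (X : ℝ) ^ ((2 : ℝ) / 3) * B * (2 * ((LX X ^ (A + 1)) ^ 2)⁻¹ +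
      LX X ^ C / B ^ 2 * ∑ h ∈ T411.NC (LX X ^ C), cv (fun s => ‖tw l X β h s‖ ^ 2) t) =
      (X : ℝ) ^ ((2 : ℝ) / 3) * B * ((LX X ^ (A + 1)) ^ 2)⁻¹ +
      (X : ℝ) ^ ((2 : ℝ) / 3) * B * ((LX X ^ (A + 1)) ^ 2)⁻¹ +
      (X : ℝ) ^ ((2 : ℝ) / 3) * B / B ^ 2 * LX X ^ C *
        ∑ h ∈ T411.NC (LX X ^ C), cv (fun s => ‖tw l X β h s‖ ^ 2) t := by ring
  rw [e2]
  linarith

/-! ### The critical range -/

lemma S_mono {H H' : ℝ} (hH : 0 ≤ H) (h : H ≤ H') : LS2.S H ⊆ LS2.S H' := by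
  intro x hx
  rw [LS2.mem_S hH] at hx
  rw [LS2.mem_S (hH.trans h)]
  exact ⟨hx.1.trans h, hx.2⟩

lemma Ker_mono {H H' : ℝ} (hH : 0 ≤ H) (h : H ≤ H') : T411.Ker H ⊆ T411.Ker H' := by
  classical
  intro q hq
  unfold T411.Ker at hq ⊢
  rw [Finset.mem_filter, Finset.mem_product, Finset.mem_product, Finset.mem_product] at hq ⊢
  exact ⟨⟨hq.1.1, hq.1.2.1, S_mono hH h hq.1.2.2.1, S_mono hH h hq.1.2.2.2⟩, hq.2.1,
    hq.2.2.trans h⟩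

lemma sum_cv_le {κ : Type*} (S : Finset κ) (f : κ → ℝ → ℝ) (hf : ∀ q ∈ S, Continuous (f q))
    (hf0 : ∀ q ∈ S, ∀ t, 0 ≤ f q t) {M W : ℝ} (hM : ∀ q ∈ S, ∀ t, f q t ≤ M)
    (hW : ∀ t, ∑ q ∈ S, f q t ≤ W) (t : ℝ) : ∑ q ∈ S, cv (f q) t ≤ Real.pi * W := by
  unfold cv
  rw [← integral_finsetSum S (fun q hq => cv_int (hf q hq) (hf0 q hq) (hM q hq) t)]
  have h : ∫ u : ℝ, ∑ q ∈ S, (1 + u ^ 2)⁻¹ * f q (t + u) ≤ ∫ u : ℝ, (1 + u ^ 2)⁻¹ * W := by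
    apply integral_mono (integrable_finsetSum S
      (fun q hq => cv_int (hf q hq) (hf0 q hq) (hM q hq) t))
      (integrable_inv_one_add_sq.mul_const _)
    intro u
    simp only
    rw [← Finset.mul_sum]
    have := hW (t + u)
    gcongr
  rw [integral_mul_const, integral_univ_inv_one_add_sq] at h
  exact h

/-- `w ≤ X^0.06` -/
lemma ev_wX : ∀ᶠ X : ℕ in atTop, wX X ≤ (X : ℝ) ^ (0.06 : ℝ) := by
  filter_upwards [ev_log_ge 8000, eventually_ge_atTop 1] with X hX h1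
  have hX0 : (0 : ℝ) < X := by exact_mod_cast h1
  unfold wX
  rw [Real.rpow_def_of_pos hX0]
  apply Real.exp_le_exp.mpr
  have hL0 : 0 < Real.log X := by linarith
  have h2 : (20 : ℝ) ≤ Real.log X ^ ((1 : ℝ) / 3) := by
    have h3 : (8000 : ℝ) ^ ((1 : ℝ) / 3) ≤ Real.log X ^ ((1 : ℝ) / 3) :=
      Real.rpow_le_rpow (by norm_num) hX (by norm_num)
    have h4 : (8000 : ℝ) ^ ((1 : ℝ) / 3) = 20 := by
      rw [show (8000 : ℝ) = 20 ^ (3 : ℝ) by norm_num, ← Real.rpow_mul (by norm_num)]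
      norm_num
    linarith
  have h5 : Real.log X = Real.log X ^ ((2 : ℝ) / 3) * Real.log X ^ ((1 : ℝ) / 3) := pw3 hL0
  have h6 : 0 < Real.log X ^ ((2 : ℝ) / 3) := by positivity
  nlinarith

/-- exponents of the CR term -/
lemma cr_exp {B L C e d : ℝ} {A : ℕ} (hB : 1 ≤ B) (hL : 0 < L) (hd : 2 * e ≤ d)
    (h : L ^ (C + (2 * A + 2)) ≤ B ^ (4 * e / 3)) :
    (B ^ 2)⁻¹ * B ^ (-(1 - 2 * e) / 3) * L ^ C * B ^ ((7 : ℝ) / 3 - d) ≤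
      ((L ^ (A + 1)) ^ 2)⁻¹ := by
  have hB0 : 0 < B := by linarith
  have e1 : (B ^ 2)⁻¹ * B ^ (-(1 - 2 * e) / 3) * B ^ ((7 : ℝ) / 3 - d) =
      B ^ (2 * e / 3 - d) := by
    have : (B ^ 2)⁻¹ = B ^ (-2 : ℝ) := by
      rw [Real.rpow_neg hB0.le]; norm_cast
    rw [this, ← Real.rpow_add hB0, ← Real.rpow_add hB0]
    congr 1
    ring
  have e2 : B ^ (2 * e / 3 - d) ≤ B ^ (-(4 * e / 3)) :=
    Real.rpow_le_rpow_of_exponent_le hB (by linarith)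
  have e3 : B ^ (-(4 * e / 3)) ≤ (L ^ (C + (2 * (A : ℝ) + 2)))⁻¹ := by
    rw [Real.rpow_neg hB0.le]
    have : 0 < L ^ (C + (2 * (A : ℝ) + 2)) := Real.rpow_pos_of_pos hL _
    gcongr
  have e4 : (L ^ (C + (2 * (A : ℝ) + 2)))⁻¹ * L ^ C = ((L ^ (A + 1)) ^ 2)⁻¹ := by
    rw [← LY L hL A, ← Real.rpow_neg hL.le, ← Real.rpow_add hL]
    congr 1
    ring
  have hLC : 0 < L ^ C := Real.rpow_pos_of_pos hL _
  calc (B ^ 2)⁻¹ * B ^ (-(1 - 2 * e) / 3) * L ^ C * B ^ ((7 : ℝ) / 3 - d)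
      = ((B ^ 2)⁻¹ * B ^ (-(1 - 2 * e) / 3) * B ^ ((7 : ℝ) / 3 - d)) * L ^ C := by ring
    _ = B ^ (2 * e / 3 - d) * L ^ C := by rw [e1]
    _ ≤ (L ^ (C + (2 * (A : ℝ) + 2)))⁻¹ * L ^ C := by
        exact mul_le_mul_of_nonneg_right (e2.trans e3) hLC.le
    _ = _ := e4

/-- `TMainC` restricted to `e0 ≤ d1` (all that is used) -/
def TMainC' : Prop := ∀ e0 d1 K : ℝ, 0 < e0 → e0 ≤ 1 / 10 → 0 < d1 → e0 ≤ d1 → 0 < K →
  ∃ C : ℝ, 0 < C ∧ ∀ X A B : ℝ, 2 ≤ X →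
  X ^ ((1 : ℝ) / 4) ≤ B → A ≤ B ^ (1 + e0) → B ^ (1 - e0 / 2) ≤ A → A ≤ X →
  ∀ (𝓑 : Finset Eis) (β : Eis → ℂ), T411.Cls (X ^ d1) B 𝓑 β →
  T411.SS A 𝓑 β ≤ C * (A * B * Real.log X ^ C +
    A ^ ((2 : ℝ) / 3) * B ^ ((5 : ℝ) / 3) * Real.log X ^ (-K)
    + A ^ ((2 : ℝ) / 3) * B ^ (-(1 : ℝ) / 3) * Real.log X ^ C *
      (∑ h ∈ T411.NC (Real.log X ^ C), ∫ u : ℝ, (1 + u ^ 2)⁻¹ * ‖T411.tws 𝓑 β h u‖ ^ 2)
    + A ^ ((2 : ℝ) / 3) * B ^ (-(1 : ℝ) / 3) * B ^ (-(1 - 2 * e0) / 3) * Real.log X ^ C *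
      ∑ q ∈ T411.Ker (B ^ (1 + e0)), ∫ u : ℝ, (1 + u ^ 2)⁻¹ * ‖T411.tws 𝓑 β (T411.kv q) u‖ ^ 2)

theorem tiicx_of (hCC : TMainC') (hSW : SWx_Prop) (hCR : CRx_Prop) : TIIcx_Prop := by
  obtain ⟨e0, d, η0, he0, he01, hde, hη0, hCR⟩ := hCR
  obtain ⟨e, he⟩ : ∃ e : ℝ, e = min e0 0.06 := ⟨_, rfl⟩
  have he_pos : 0 < e := by rw [he]; exact lt_min he0 (by norm_num)
  have he_e0 : e ≤ e0 := by rw [he]; exact min_le_left _ _
  have he_6 : e ≤ 0.06 := by rw [he]; exact min_le_right _ _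
  obtain ⟨η, hη⟩ : ∃ η : ℝ, η = min η0 (e / 8) := ⟨_, rfl⟩
  have hη_pos : 0 < η := by rw [hη]; exact lt_min hη0 (by positivity)
  have hη_0 : η ≤ η0 := by rw [hη]; exact min_le_left _ _
  have hη_e : η ≤ e / 8 := by rw [hη]; exact min_le_right _ _
  refine ⟨η, hη_pos, ?_⟩
  intro l A
  obtain ⟨CR, X3, hCRpos, hCR⟩ := hCR l
  obtain ⟨C, hC, hT⟩ := hCC e 0.06 (2 * A + 2) he_pos (by linarith) (by norm_num) he_6
    (by positivity)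
  have hpi := Real.pi_pos
  obtain ⟨K, X1, hK⟩ := core hSW l A C (2 + Real.pi * CR) hC (by positivity)
  obtain ⟨X2, hX2⟩ := eventually_atTop.mp ((ev_log_ge 2).and ((eventually_ge_atTop
    (max X1 (max X3 16))).and ((ev_log_le (C + (2 * A + 2)) (1 / 12) (by norm_num)).and
    ((ev_log_le (C + (2 * A + 2)) (e / 3) (by positivity)).and ev_wX))))
  refine ⟨K, X2, ?_⟩
  intro X hX B β hB1 hB2 hβ hsupp ι I a g α ha
  obtain ⟨hL2, hXX, hl1, hl2, hwX⟩ := hX2 X hX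
  have hXX1 : X1 ≤ X := (le_max_left _ _).trans hXX
  have hXX3 : X3 ≤ X := ((le_max_left _ _).trans (le_max_right _ _)).trans hXX
  have hX16 : 16 ≤ X := ((le_max_right _ _).trans (le_max_right _ _)).trans hXX
  have hXr : (16 : ℝ) ≤ X := by exact_mod_cast hX16
  have hX0 : (0 : ℝ) < X := by linarith
  have hX1 : (1 : ℝ) ≤ X := by linarith
  have hLL : LX X = Real.log X := rfl
  rw [← hLL] at hL2 hl1 hl2
  have hL0 : 0 < LX X := by linarith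
  have hL1 : 1 ≤ LX X := by linarith
  have hη1 : η ≤ 0.01 := by linarith
  have hB14 : (X : ℝ) ^ ((1 : ℝ) / 4) ≤ B :=
    (Real.rpow_le_rpow_of_exponent_le hX1 (by linarith)).trans hB1
  have hB : 1 ≤ B := (Real.one_le_rpow hX1 (by norm_num)).trans hB14
  have hB0 : 0 < B := by linarith
  -- `2 B ≤ X`
  have hB34 : B ≤ (X : ℝ) ^ ((3 : ℝ) / 4) :=
    hB2.trans (Real.rpow_le_rpow_of_exponent_le hX1 (by linarith))
  have hX14 : 2 ≤ (X : ℝ) ^ ((1 : ℝ) / 4) := by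
    have h1 : (16 : ℝ) ^ ((1 : ℝ) / 4) ≤ (X : ℝ) ^ ((1 : ℝ) / 4) :=
      Real.rpow_le_rpow (by norm_num) hXr (by norm_num)
    have h2 : (16 : ℝ) ^ ((1 : ℝ) / 4) = 2 := by
      rw [show (16 : ℝ) = 2 ^ (4 : ℝ) by norm_num, ← Real.rpow_mul (by norm_num)]
      norm_num
    linarith
  have hsq : (X : ℝ) ^ ((1 : ℝ) / 4) * (X : ℝ) ^ ((3 : ℝ) / 4) = X := by
    rw [← Real.rpow_add hX0]; norm_num
  have h2B : 2 * B ≤ X := by
    calc 2 * B ≤ (X : ℝ) ^ ((1 : ℝ) / 4) * (X : ℝ) ^ ((3 : ℝ) / 4) := by gcongr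
      _ = X := hsq
  -- the range of `A = X/B`
  have hAB : X / B ≤ B ^ (1 + e) := by
    rw [div_le_iff₀ hB0, ← Real.rpow_add_one hB0.ne']
    calc (X : ℝ) = (X : ℝ) ^ (1 : ℝ) := (Real.rpow_one _).symm
      _ ≤ (X : ℝ) ^ ((1 / 2 - η) * (1 + e + 1)) :=
          Real.rpow_le_rpow_of_exponent_le hX1 (by nlinarith)
      _ = ((X : ℝ) ^ (1 / 2 - η)) ^ (1 + e + 1) := by rw [Real.rpow_mul hX0.le]
      _ ≤ B ^ (1 + e + 1) := Real.rpow_le_rpow (by positivity) hB1 (by positivity)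
  have hAB2 : B ^ (1 - e / 2) ≤ X / B := by
    rw [le_div_iff₀ hB0, ← Real.rpow_add_one hB0.ne']
    calc B ^ (1 - e / 2 + 1) ≤ ((X : ℝ) ^ (1 / 2 + η)) ^ (1 - e / 2 + 1) :=
          Real.rpow_le_rpow hB0.le hB2 (by linarith)
      _ = (X : ℝ) ^ ((1 / 2 + η) * (1 - e / 2 + 1)) := by rw [Real.rpow_mul hX0.le]
      _ ≤ (X : ℝ) ^ (1 : ℝ) := Real.rpow_le_rpow_of_exponent_le hX1 (by nlinarith)
      _ = X := Real.rpow_one _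
  have hAX : X / B ≤ X := div_le_self hX0.le hB
  -- the supports
  have hs6 : Supp ((X : ℝ) ^ (0.06 : ℝ)) B β := fun T hTT =>
    ⟨(hsupp T hTT).2.1, (hsupp T hTT).2.2⟩
  have hsw : Supp (wX X) B β := fun T hTT =>
    ⟨fun p hp => hwX.trans ((hsupp T hTT).2.1 p hp), (hsupp T hTT).2.2⟩
  refine hK X hXX1 B β hB14 h2B hβ hsw ?_ ι I a g α ha
  intro t
  have key := hT X (X / B) B (by linarith) hB14 hAB hAB2 hAX (sB X β) (bE l β t)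
    (cls hβ.bd hs6 l t)
  simp only [int_tws_eq] at key
  rw [← hLL] at key
  refine key.trans ?_
  have e1 : (X : ℝ) / B * B = X := by field_simp
  rw [e1, LY _ hL0, pw1 hX0 hB0, pw2 hX0 hB0]
  -- first term
  have hB13 : (X : ℝ) ^ ((1 : ℝ) / 3) * LX X ^ (C + (2 * (A : ℝ) + 2)) ≤ B := by
    calc (X : ℝ) ^ ((1 : ℝ) / 3) * LX X ^ (C + (2 * (A : ℝ) + 2))
        ≤ (X : ℝ) ^ ((1 : ℝ) / 3) * (X : ℝ) ^ ((1 : ℝ) / 12) := by gcongr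
      _ = (X : ℝ) ^ ((1 : ℝ) / 3 + 1 / 12) := by rw [Real.rpow_add hX0]
      _ ≤ (X : ℝ) ^ (1 / 2 - η) := Real.rpow_le_rpow_of_exponent_le hX1 (by linarith)
      _ ≤ B := hB1
  have h1 := t1_le (A := A) hX0 hL0 hB13
  -- critical term
  have hker : ∑ q ∈ T411.Ker (B ^ (1 + e)), cv (fun s => ‖tw l X β (T411.kv q) s‖ ^ 2) t ≤
      Real.pi * (CR * B ^ ((7 : ℝ) / 3 - d)) := by
    refine sum_cv_le (T411.Ker (B ^ (1 + e))) (fun q s => ‖tw l X β (T411.kv q) s‖ ^ 2)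
      ?_ ?_ (M := ((sB X β).card : ℝ) ^ 2) ?_ ?_ t
    · intro q _
      have := continuous_tw l X β (T411.kv q)
      fun_prop
    · intro q _ s; positivity
    · intro q _ s
      exact pow_le_pow_left₀ (norm_nonneg _) (norm_tw_le l X hβ.bd _ s) 2
    · intro s
      have h3 := hCR X hXX3 B β
        ((Real.rpow_le_rpow_of_exponent_le hX1 (by linarith)).trans hB1)
        (hB2.trans (Real.rpow_le_rpow_of_exponent_le hX1 (by linarith))) hβ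
        (fun T hTT => (hsupp T hTT).1) hs6 s
      refine le_trans ?_ h3
      apply Finset.sum_le_sum_of_subset_of_nonneg
      · exact Ker_mono (by positivity) (Real.rpow_le_rpow_of_exponent_le hB (by linarith))
      · intro q _ _; positivity
  have hBe : LX X ^ (C + (2 * (A : ℝ) + 2)) ≤ B ^ (4 * e / 3) := by
    calc LX X ^ (C + (2 * (A : ℝ) + 2)) ≤ (X : ℝ) ^ (e / 3) := hl2
      _ = ((X : ℝ) ^ ((1 : ℝ) / 4)) ^ (4 * e / 3) := by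
          rw [← Real.rpow_mul hX0.le]; congr 1; ring
      _ ≤ B ^ (4 * e / 3) := Real.rpow_le_rpow (by positivity) hB14 (by positivity)
  have hcr := cr_exp (C := C) (A := A) (d := d) (e := e) hB hL0 (by linarith) hBe
  have h2 : (X : ℝ) ^ ((2 : ℝ) / 3) * B / B ^ 2 * B ^ (-(1 - 2 * e) / 3) * LX X ^ C *
      ∑ q ∈ T411.Ker (B ^ (1 + e)), cv (fun s => ‖tw l X β (T411.kv q) s‖ ^ 2) t ≤
      (X : ℝ) ^ ((2 : ℝ) / 3) * B * (Real.pi * CR * ((LX X ^ (A + 1)) ^ 2)⁻¹) := by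
    calc _ ≤ (X : ℝ) ^ ((2 : ℝ) / 3) * B / B ^ 2 * B ^ (-(1 - 2 * e) / 3) * LX X ^ C *
          (Real.pi * (CR * B ^ ((7 : ℝ) / 3 - d))) := by gcongr
      _ = (X : ℝ) ^ ((2 : ℝ) / 3) * B * (Real.pi * CR * ((B ^ 2)⁻¹ * B ^ (-(1 - 2 * e) / 3) *
          LX X ^ C * B ^ ((7 : ℝ) / 3 - d))) := by
          rw [div_eq_mul_inv]; ring
      _ ≤ _ := by gcongr
  apply mul_le_mul_of_nonneg_left _ hC.le
  have e2 : (X : ℝ) ^ ((2 : ℝ) / 3) * B * ((2 + Real.pi * CR) * ((LX X ^ (A + 1)) ^ 2)⁻¹ +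
      LX X ^ C / B ^ 2 * ∑ h ∈ T411.NC (LX X ^ C), cv (fun s => ‖tw l X β h s‖ ^ 2) t) =
      (X : ℝ) ^ ((2 : ℝ) / 3) * B * ((LX X ^ (A + 1)) ^ 2)⁻¹ +
      (X : ℝ) ^ ((2 : ℝ) / 3) * B * ((LX X ^ (A + 1)) ^ 2)⁻¹ +
      (X : ℝ) ^ ((2 : ℝ) / 3) * B / B ^ 2 * LX X ^ C *
        (∑ h ∈ T411.NC (LX X ^ C), cv (fun s => ‖tw l X β h s‖ ^ 2) t) +
      (X : ℝ) ^ ((2 : ℝ) / 3) * B * (Real.pi * CR * ((LX X ^ (A + 1)) ^ 2)⁻¹) := by ring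
  rw [e2]
  linarith

end Crest.Agent.R012.TII54
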