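import Mathlib

/-!
# Row 12, item TIIS: numeric lemmas (helper54)
-/

set_option autoImplicit false

noncomputable section

open Filter Topology

namespace Crest.Agent.R012.TII54

/-- first bracket -/
lemma num1 {c0 CS L U Y B T0 H : ℝ} (hc0 : 0 ≤ c0) (hL : 1 ≤ L) (hU : 1 ≤ U)
    (hY : 0 < Y) (hY1 : Y ≤ 1) (hB : 1 ≤ B) (hT0 : T0 = U ^ 2 / Y) (hH0 : 0 ≤ H)
    (hH : H ≤ 100 * U) :
    c0 * Y + U / B ^ 2 * (H * (Real.pi * (CS * B * (Y / (U ^ 2 * L))) ^ 2 +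
      2 * (200 * B) ^ 2 / T0)) ≤ (c0 + 100 * (Real.pi * CS ^ 2 + 80000)) * Y := by
  have hpi := Real.pi_pos
  have h1 : Real.pi * (CS * B * (Y / (U ^ 2 * L))) ^ 2 + 2 * (200 * B) ^ 2 / T0 =
      B ^ 2 * (Real.pi * CS ^ 2 * (Y ^ 2 / (U ^ 4 * L ^ 2)) + 80000 * (Y / U ^ 2)) := by
    rw [hT0]; field_simp; ring
  have h2 : Y ^ 2 / (U ^ 4 * L ^ 2) ≤ Y / U ^ 2 := by
    rw [div_le_div_iff₀ (by positivity) (by positivity)]
    have e1 : Y ^ 2 * U ^ 2 = Y * (Y * (U ^ 2 * 1)) := by ring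
    have e2 : Y * (U ^ 4 * L ^ 2) = Y * (1 * (U ^ 2 * (U ^ 2 * L ^ 2))) := by ring
    rw [e1, e2]
    have h3 : (1 : ℝ) ≤ U ^ 2 * L ^ 2 := by
      have := one_le_pow₀ hU (n := 2)
      have := one_le_pow₀ hL (n := 2)
      nlinarith
    gcongr
  rw [h1]
  calc c0 * Y + U / B ^ 2 * (H * (B ^ 2 * (Real.pi * CS ^ 2 * (Y ^ 2 / (U ^ 4 * L ^ 2)) +
        80000 * (Y / U ^ 2))))
      ≤ c0 * Y + U / B ^ 2 * (100 * U * (B ^ 2 * (Real.pi * CS ^ 2 * (Y / U ^ 2) +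
        80000 * (Y / U ^ 2)))) := by gcongr
    _ = _ := by field_simp

/-- second bracket -/
lemma num2 {c0 L U Y B T0 H : ℝ} (hc0 : 0 ≤ c0) (hL : 1 ≤ L) (hU : 1 ≤ U)
    (hY : 0 < Y) (hY1 : Y ≤ 1) (hB : 1 ≤ B) (hT0 : T0 = U ^ 2 / Y) (hH0 : 0 ≤ H)
    (hH : H ≤ 100 * U) (hB2 : U ^ 2 * L / Y ≤ Real.sqrt B) :
    c0 * Y + U / B ^ 2 * (H * (Real.pi * (900000 * (2 * B / T0 + Real.sqrt (2 * B) *
      (1 + 5 * L)) * (200 * B)))) ≤ (c0 + 18000000000 * 14 * Real.pi) * Y := by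
  have hpi := Real.pi_pos
  have hs : Real.sqrt (2 * B) ≤ 2 * Real.sqrt B := by
    rw [Real.sqrt_le_left (by positivity), mul_pow, Real.sq_sqrt (by linarith)]
    linarith
  have hsB : 0 < Real.sqrt B := Real.sqrt_pos.mpr (by linarith)
  have hB3 : Real.sqrt B * Real.sqrt B = B := Real.mul_self_sqrt (by linarith)
  have h5 : U ^ 2 * L ≤ Real.sqrt B * Y := by
    rwa [div_le_iff₀ hY] at hB2
  have h6 : U ^ 2 * (Real.sqrt (2 * B) * (1 + 5 * L)) ≤ 12 * B * Y := by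
    calc U ^ 2 * (Real.sqrt (2 * B) * (1 + 5 * L)) ≤ U ^ 2 * (2 * Real.sqrt B * (6 * L)) := by
          gcongr
          linarith
      _ = 12 * Real.sqrt B * (U ^ 2 * L) := by ring
      _ ≤ 12 * Real.sqrt B * (Real.sqrt B * Y) := by gcongr
      _ = 12 * (Real.sqrt B * Real.sqrt B) * Y := by ring
      _ = 12 * B * Y := by rw [hB3]
  have h7 : U ^ 2 * (2 * B / T0) = 2 * B * Y := by
    rw [hT0]; field_simp
  calc c0 * Y + U / B ^ 2 * (H * (Real.pi * (900000 * (2 * B / T0 + Real.sqrt (2 * B) *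
        (1 + 5 * L)) * (200 * B))))
      ≤ c0 * Y + U / B ^ 2 * ((100 * U) * (Real.pi * (900000 * (2 * B / T0 + Real.sqrt (2 * B) *
        (1 + 5 * L)) * (200 * B)))) := by
        have : 0 < T0 := by rw [hT0]; positivity
        gcongr
    _ = c0 * Y + 18000000000 * Real.pi / B * (U ^ 2 * (2 * B / T0) +
        U ^ 2 * (Real.sqrt (2 * B) * (1 + 5 * L))) := by
        field_simp
        ring
    _ ≤ c0 * Y + 18000000000 * Real.pi / B * (2 * B * Y + 12 * B * Y) := by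
        rw [h7]
        gcongr
    _ = _ := by field_simp; ring

/-- third bracket -/
lemma num3 {c0 U Y B H : ℝ} (hc0 : 0 ≤ c0) (hU : 1 ≤ U)
    (hY : 0 < Y) (hY1 : Y ≤ 1) (hB : 1 ≤ B) (hH0 : 0 ≤ H) (hH : H ≤ 100 * U) :
    c0 * Y + U / B ^ 2 * (H * (Real.pi * (200 * B) ^ 2)) ≤
      (c0 + 4000000 * Real.pi) * U ^ 2 := by
  have hpi := Real.pi_pos
  have h1 : (1 : ℝ) ≤ U ^ 2 := one_le_pow₀ hU
  calc c0 * Y + U / B ^ 2 * (H * (Real.pi * (200 * B) ^ 2))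
      ≤ c0 * U ^ 2 + U / B ^ 2 * ((100 * U) * (Real.pi * (200 * B) ^ 2)) := by
        gcongr
        linarith
    _ = _ := by field_simp; ring

/-- the final combination -/
lemma num_final {A : ℕ} {L U Y B k1 k2 k3 cI cK0 cK1 q1 q2 q3 lg ef : ℝ}
    (hL : 1 ≤ L) (hU : 1 ≤ U) (hB : 1 ≤ B) (hYdef : Y = ((L ^ (A + 1)) ^ 2)⁻¹)
    (hk1 : 0 ≤ k1) (hk2 : 0 ≤ k2) (hk3 : 0 ≤ k3) (hI : 0 ≤ cI) (hK0 : 0 ≤ cK0)
    (hK1 : 0 ≤ cK1) (h1 : q1 ≤ k1 * Y) (h2 : q2 ≤ k2 * Y) (h3 : q3 ≤ k3 * U ^ 2)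
    (hB2 : U ^ 2 * L / Y ≤ Real.sqrt B) (hlg : lg ≤ 4 * L) (hlg0 : 0 ≤ lg)
    (hef : ef ≤ 1 / B) (hef0 : 0 ≤ ef) :
    cI * lg * Real.sqrt q1 + 4 * cK0 * (Real.sqrt q2 * (5 * L)) +
      4 * cK1 * ef * Real.sqrt q3 ≤
      (4 * cI * Real.sqrt k1 + 20 * cK0 * Real.sqrt k2 + 4 * cK1 * Real.sqrt k3) / L ^ A := by
  have hL0 : 0 < L := by linarith
  have hLA : 0 < L ^ (A + 1) := by positivity
  have hLA1 : 1 ≤ L ^ (A + 1) := one_le_pow₀ hL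
  have hY : 0 < Y := by rw [hYdef]; positivity
  have sY : Real.sqrt Y = (L ^ (A + 1))⁻¹ := by
    rw [hYdef, Real.sqrt_inv, Real.sqrt_sq hLA.le]
  have s1 : Real.sqrt q1 ≤ Real.sqrt k1 * (L ^ (A + 1))⁻¹ := by
    rw [← sY, ← Real.sqrt_mul hk1]
    exact Real.sqrt_le_sqrt h1
  have s2 : Real.sqrt q2 ≤ Real.sqrt k2 * (L ^ (A + 1))⁻¹ := by
    rw [← sY, ← Real.sqrt_mul hk2]
    exact Real.sqrt_le_sqrt h2
  have s3 : Real.sqrt q3 ≤ Real.sqrt k3 * U := by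
    have : Real.sqrt (k3 * U ^ 2) = Real.sqrt k3 * U := by
      rw [Real.sqrt_mul hk3, Real.sqrt_sq (by linarith)]
    rw [← this]
    exact Real.sqrt_le_sqrt h3
  have hB4 : U * L ^ A ≤ B := by
    have hB0 : 0 ≤ B := by linarith
    have e1 : Real.sqrt B ≤ B := by
      rw [Real.sqrt_le_left hB0]; nlinarith
    have e2 : U * L ^ A ≤ U ^ 2 * L / Y := by
      rw [hYdef, div_inv_eq_mul]
      have e3 : U * L ^ A = U * (1 * (L ^ A)) := by ring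
      have e4 : U ^ 2 * L * (L ^ (A + 1)) ^ 2 = U * (U * L * (L ^ (A + 1)) * L * L ^ A) := by
        ring
      rw [e3, e4]
      have e5 : (1 : ℝ) ≤ U * L * (L ^ (A + 1)) * L := by
        have : (1 : ℝ) ≤ U * L := by nlinarith
        have : (1 : ℝ) ≤ U * L * L ^ (A + 1) := by nlinarith
        nlinarith
      have e6 : 0 < L ^ A := by positivity
      gcongr
    linarith
  have hpow : L ^ (A + 1) = L ^ A * L := pow_succ L A
  have hLA0 : 0 < L ^ A := by positivity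
  have t1 : cI * lg * Real.sqrt q1 ≤ 4 * cI * Real.sqrt k1 / L ^ A := by
    calc cI * lg * Real.sqrt q1 ≤ cI * (4 * L) * (Real.sqrt k1 * (L ^ (A + 1))⁻¹) := by gcongr
      _ = _ := by rw [hpow]; field_simp
  have t2 : 4 * cK0 * (Real.sqrt q2 * (5 * L)) ≤ 20 * cK0 * Real.sqrt k2 / L ^ A := by
    calc 4 * cK0 * (Real.sqrt q2 * (5 * L)) ≤
        4 * cK0 * (Real.sqrt k2 * (L ^ (A + 1))⁻¹ * (5 * L)) := by gcongr
      _ = _ := by rw [hpow]; field_simp; ring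
  have t3 : 4 * cK1 * ef * Real.sqrt q3 ≤ 4 * cK1 * Real.sqrt k3 / L ^ A := by
    have hUB : U / B ≤ 1 / L ^ A := by
      rw [div_le_div_iff₀ (by linarith) hLA0]
      linarith
    calc 4 * cK1 * ef * Real.sqrt q3 ≤ 4 * cK1 * (1 / B) * (Real.sqrt k3 * U) := by gcongr
      _ = 4 * cK1 * Real.sqrt k3 * (U / B) := by ring
      _ ≤ 4 * cK1 * Real.sqrt k3 * (1 / L ^ A) := by gcongr
      _ = _ := by ring
  rw [add_div, add_div]
  linarith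

/-- `log^p ≤ X^s` eventually, natural `X` -/
lemma ev_log_le (p s : ℝ) (hs : 0 < s) :
    ∀ᶠ X : ℕ in atTop, Real.log X ^ p ≤ (X : ℝ) ^ s := by
  have h := (isLittleO_log_rpow_rpow_atTop p hs).comp_tendsto tendsto_natCast_atTop_atTop
  have h2 := h.bound (show (0 : ℝ) < 1 by norm_num)
  filter_upwards [h2, eventually_ge_atTop 3] with X hX h3
  simp only [Function.comp_apply, one_mul] at hX
  have h4 : (0 : ℝ) ≤ Real.log X := Real.log_natCast_nonneg X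
  rw [Real.norm_of_nonneg (by positivity), Real.norm_of_nonneg (by positivity)] at hX
  exact hX

lemma ev_log_ge (c : ℝ) : ∀ᶠ X : ℕ in atTop, c ≤ Real.log X :=
  (Real.tendsto_log_atTop.comp tendsto_natCast_atTop_atTop).eventually_ge_atTop c

end Crest.Agent.R012.TII54
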