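import Crest.Agent.R012.TIIcore_54
import Crest.Agent.R012.TIInum_54
import Crest.Agent.R012.Tau_671

/-!
# Row 12, item TIIS: the common part of `TIIx_Prop` and `TIIcx_Prop`  (helper54)
-/

set_option autoImplicit false

noncomputable section

open MeasureTheory Complex Set Filter Topology
open Crest.Agent.R012 Crest.Agent.R012.Eis Crest.Agent.R012.Weight600 Crest.Agent.R012.MV400
open Crest.Agent.R012.Buch420 Crest.Agent.R012.Main48

namespace Crest.Agent.R012.TII54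

lemma card_NC_le {H : ℝ} (hH : 0 ≤ H) : ((T411.NC H).card : ℝ) ≤ 100 * H := by
  classical
  have h1 : T411.NC H ⊆ LS2.bl H := Finset.filter_subset _ _
  have h2 : ((T411.NC H).card : ℝ) ≤ ((LS2.bl H).card : ℝ) := by
    exact_mod_cast Finset.card_le_card h1
  have h3 : ((LS2.bl H).card : ℝ) ≤ 100 * ⌊H⌋₊ := Lat277.card_ball_erase_le ⌊H⌋₊
  have h4 : ((⌊H⌋₊ : ℕ) : ℝ) ≤ H := Nat.floor_le hH
  linarith

lemma NC_mono {H H' : ℝ} (hH : 0 ≤ H) (h : H ≤ H') {x : Eis} (hx : x ∈ T411.NC H) :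
    x ∈ T411.NC H' := by
  classical
  unfold T411.NC at hx ⊢
  rw [Finset.mem_filter, LS2.mem_bl hH] at hx
  rw [Finset.mem_filter, LS2.mem_bl (hH.trans h)]
  exact ⟨⟨hx.1.1, hx.1.2.trans h⟩, hx.2⟩

lemma norm_tw_le (l : ℤ) (X : ℕ) {β : Finset PrP → ℂ} (hβ : ∀ T, ‖β T‖ ≤ 1) (h : Eis) (s : ℝ) :
    ‖tw l X β h s‖ ≤ (sB X β).card := by
  rw [tw_eq_dp]
  unfold dp
  refine (norm_sum_le _ _).trans ?_
  calc _ ≤ ∑ b ∈ sB X β, (1 : ℝ) := by
        refine Finset.sum_le_sum fun b hb => ?_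
        rw [norm_mul, norm_mul, norm_mul]
        exact mul_le_one₀ (mul_le_one₀ (hβ _) (by positivity)
          (mul_le_one₀ (P355.norm_ang_le l b) (norm_nonneg _)
            (Tau671.norm_sy_le (sB_prim hb)))) (norm_nonneg _) (norm_nit_le s b)
    _ = _ := by rw [Finset.sum_const, nsmul_eq_mul, mul_one]

set_option maxHeartbeats 2000000 in
/-- **The common part.** -/
theorem core (hSW : SWx_Prop) (l : ℤ) (A : ℕ) (C c0 : ℝ) (hC : 0 < C) (hc0 : 0 ≤ c0) :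
    ∃ (K : ℝ) (X0 : ℕ), ∀ X : ℕ, X0 ≤ X → ∀ (B : ℝ) (β : Finset PrP → ℂ),
      (X : ℝ) ^ ((1 : ℝ) / 4) ≤ B → 2 * B ≤ X → SWc β → Supp (wX X) B β →
      (∀ t : ℝ, T411.SS (X / B) (sB X β) (bE l β t) ≤
        C * ((X : ℝ) ^ ((2 : ℝ) / 3) * B * (c0 * ((LX X ^ (A + 1)) ^ 2)⁻¹ +
          LX X ^ C / B ^ 2 * ∑ h ∈ T411.NC (LX X ^ C), cv (fun s => ‖tw l X β h s‖ ^ 2) t))) →
      ∀ (ι : Type) (I : Finset ι) (a : ι → Finset PrP) (g : ι → ℝ) (α : ι → ℂ),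
        (∀ i ∈ I, (nm (prd (a i)) : ℝ) ≤ X / B) →
        ‖Ix l X I a g α β‖ ≤
          K * (X : ℝ) ^ ((1 : ℝ) / 3) * Real.sqrt B * Real.sqrt (Mu I a α) / LX X ^ A := by
  obtain ⟨K2, hK2⟩ : ∃ K2 : ℝ, K2 = 2 * C + (2 * A + 2) + 1 := ⟨_, rfl⟩
  have hK2pos : 0 < K2 := by rw [hK2]; positivity
  obtain ⟨CS, X1, hCS, hS⟩ := hSW l K2 hK2pos
  have hpi := Real.pi_pos
  have hCint := Cint_pos
  have hCk0 := Ck_pos 0
  have hCk1 := Ck_pos 1
  obtain ⟨k1, hk1⟩ : ∃ k1 : ℝ, k1 = c0 + 100 * (Real.pi * CS ^ 2 + 80000) := ⟨_, rfl⟩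
  obtain ⟨k2, hk2⟩ : ∃ k2 : ℝ, k2 = c0 + 18000000000 * 14 * Real.pi := ⟨_, rfl⟩
  obtain ⟨k3, hk3⟩ : ∃ k3 : ℝ, k3 = c0 + 4000000 * Real.pi := ⟨_, rfl⟩
  have hk10 : 0 ≤ k1 := by rw [hk1]; positivity
  have hk20 : 0 ≤ k2 := by rw [hk2]; positivity
  have hk30 : 0 ≤ k3 := by rw [hk3]; positivity
  obtain ⟨X2, hX2⟩ := eventually_atTop.mp ((ev_log_le K2 (1 / 8) (by norm_num)).and
    ((ev_log_ge 2).and (eventually_ge_atTop (max X1 8))))
  refine ⟨Real.sqrt (Real.exp 1 * C) *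
    (4 * Cint * Real.sqrt k1 + 20 * Ck 0 * Real.sqrt k2 + 4 * Ck 1 * Real.sqrt k3), X2, ?_⟩
  intro X hX B β hB1 hB2 hβ hs hSS ι I a g α ha
  obtain ⟨hlog, hL2, hXX⟩ := hX2 X hX
  have hXX1 : X1 ≤ X := (le_max_left _ _).trans hXX
  have hX8 : 8 ≤ X := (le_max_right _ _).trans hXX
  have hXr : (8 : ℝ) ≤ X := by exact_mod_cast hX8
  have hX0 : (0 : ℝ) < X := by linarith
  obtain ⟨L, hL⟩ : ∃ L : ℝ, L = LX X := ⟨_, rfl⟩
  have hLd : L = Real.log X := hL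
  rw [← hLd] at hlog hL2
  simp only [← hL] at hSS hS ⊢
  have hL1 : 1 ≤ L := by linarith
  have hL0 : 0 < L := by linarith
  have hB : 1 ≤ B := le_trans (Real.one_le_rpow (by linarith) (by norm_num)) hB1
  have hB0 : 0 < B := by linarith
  obtain ⟨U, hU⟩ : ∃ U : ℝ, U = L ^ C := ⟨_, rfl⟩
  rw [← hU] at hSS
  have hU1 : 1 ≤ U := by rw [hU]; exact Real.one_le_rpow hL1 hC.le
  have hU0 : 0 < U := by linarith
  obtain ⟨Y, hY⟩ : ∃ Y : ℝ, Y = ((L ^ (A + 1)) ^ 2)⁻¹ := ⟨_, rfl⟩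
  rw [← hY] at hSS
  have hY0 : 0 < Y := by rw [hY]; positivity
  have hYinv : Y⁻¹ = (L ^ (A + 1)) ^ 2 := by rw [hY, inv_inv]
  have hYi1 : 1 ≤ Y⁻¹ := by
    rw [hYinv]; exact one_le_pow₀ (one_le_pow₀ hL1)
  have hY1 : Y ≤ 1 := by
    rw [← inv_inv Y]; exact inv_le_one_of_one_le₀ hYi1
  -- `L ^ K2 = U ^ 2 * L / Y`
  have hLK2 : L ^ K2 = U ^ 2 * L / Y := by
    rw [div_eq_mul_inv, hYinv, hK2, Real.rpow_add hL0, Real.rpow_add hL0, Real.rpow_one]
    have e1 : L ^ (2 * C) = U ^ 2 := by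
      rw [hU, mul_comm, Real.rpow_mul hL0.le]
      norm_cast
    have e2 : L ^ (2 * (A : ℝ) + 2) = (L ^ (A + 1)) ^ 2 := by
      rw [← pow_mul]
      have : (2 * (A : ℝ) + 2) = (((A + 1) * 2 : ℕ) : ℝ) := by push_cast; ring
      rw [this, Real.rpow_natCast]
    rw [e1, e2]
    ring
  have hsB : U ^ 2 * L / Y ≤ Real.sqrt B := by
    rw [← hLK2]
    refine hlog.trans ?_
    apply Real.le_sqrt_of_sq_le
    calc ((X : ℝ) ^ ((1 : ℝ) / 8)) ^ 2 = (X : ℝ) ^ ((1 : ℝ) / 4) := by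
          rw [← Real.rpow_natCast, ← Real.rpow_mul hX0.le]; norm_num
      _ ≤ B := hB1
  obtain ⟨T0, hT0⟩ : ∃ T0 : ℝ, T0 = U ^ 2 / Y := ⟨_, rfl⟩
  have hT01 : 1 ≤ T0 := by
    rw [hT0, div_eq_mul_inv]
    exact one_le_mul_of_one_le_of_one_le (one_le_pow₀ hU1) hYi1
  have hT00 : 0 < T0 := by linarith
  obtain ⟨T2, hT2⟩ : ∃ T2 : ℝ, T2 = (8 * B + 8) ^ 2 := ⟨_, rfl⟩
  have hT20 : 0 < T2 := by rw [hT2]; positivity
  have h02 : T0 ≤ T2 := by
    have h1 : T0 ≤ Real.sqrt B := by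
      refine le_trans ?_ hsB
      rw [hT0]
      apply div_le_div_of_nonneg_right _ hY0.le
      exact le_mul_of_one_le_right (by positivity) hL1
    have h2 : Real.sqrt B ≤ B := by
      rw [Real.sqrt_le_left hB0.le]; nlinarith
    rw [hT2]
    have h3 : B ≤ (8 * B + 8) ^ 2 := by nlinarith
    linarith
  have hLg : Real.log (T2 / T0) ≤ 5 * L := by
    have h1 : Real.log (T2 / T0) ≤ Real.log ((8 * X) ^ 2) := by
      apply Real.log_le_log (by positivity)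
      rw [div_le_iff₀ hT00]
      have : T2 ≤ (8 * X) ^ 2 := by
        rw [hT2]
        apply pow_le_pow_left₀ (by positivity)
        linarith
      have h3 : 0 ≤ (8 * (X : ℝ)) ^ 2 := by positivity
      have h4 : (8 * (X : ℝ)) ^ 2 * 1 ≤ (8 * (X : ℝ)) ^ 2 * T0 :=
        mul_le_mul_of_nonneg_left hT01 h3
      linarith
    have h2 : Real.log ((8 * (X : ℝ)) ^ 2) = 2 * (3 * Real.log 2 + L) := by
      rw [Real.log_pow, Real.log_mul (by norm_num) hX0.ne']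
      have : (8 : ℝ) = 2 ^ 3 := by norm_num
      rw [this, Real.log_pow, hLd]
      push_cast
      rfl
    have := Real.log_two_lt_d9
    linarith
  have hlg1 : 1 + Real.log (32 * B) ≤ 4 * L := by
    have h1 : Real.log (32 * B) ≤ Real.log (16 * X) :=
      Real.log_le_log (by positivity) (by linarith)
    have h2 : Real.log (16 * (X : ℝ)) = 4 * Real.log 2 + L := by
      rw [Real.log_mul (by norm_num) hX0.ne']
      have : (16 : ℝ) = 2 ^ 4 := by norm_num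
      rw [this, Real.log_pow, hLd]
      push_cast
      rfl
    have := Real.log_two_lt_d9
    linarith
  have hlg0 : 0 ≤ 1 + Real.log (32 * B) := by
    have : 0 ≤ Real.log (32 * B) := Real.log_nonneg (by linarith)
    linarith
  -- the family
  obtain ⟨H, hH⟩ : ∃ H : Finset Eis, H = T411.NC U := ⟨_, rfl⟩
  rw [← hH] at hSS
  have hHc : ((H.card : ℕ) : ℝ) ≤ 100 * U := by rw [hH]; exact card_NC_le hU0.le
  obtain ⟨f, hf⟩ : ∃ f : Eis → ℝ → ℝ, ∀ h, f h = fun s => ‖tw l X β h s‖ ^ 2 :=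
    ⟨fun h s => ‖tw l X β h s‖ ^ 2, fun _ => rfl⟩
  simp only [← hf] at hSS
  have hfc : ∀ h ∈ H, Continuous (f h) := fun h _ => by
    have := continuous_tw l X β h
    rw [hf]
    fun_prop
  have hf0 : ∀ h ∈ H, ∀ s, 0 ≤ f h s := fun h _ s => by
    rw [hf]
    positivity
  have hcard := card_sB_le (X := X) hB hs
  have hfM : ∀ h ∈ H, ∀ s, f h s ≤ (200 * B) ^ 2 := fun h _ s => by
    rw [hf]
    exact pow_le_pow_left₀ (norm_nonneg _) ((norm_tw_le l X hβ.bd h s).trans hcard) 2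
  obtain ⟨E, hE⟩ : ∃ E : ℝ, E = (CS * B * (Y / (U ^ 2 * L))) ^ 2 := ⟨_, rfl⟩
  have hE0 : 0 ≤ E := by rw [hE]; positivity
  have hfE : ∀ h ∈ H, ∀ s, |s| ≤ 2 * T0 → f h s ≤ E := by
    intro h hh s hsT
    have h1 : |s| ≤ L ^ K2 := by
      rw [hLK2]
      refine hsT.trans ?_
      rw [hT0]
      calc 2 * (U ^ 2 / Y) ≤ L * (U ^ 2 / Y) :=
            mul_le_mul_of_nonneg_right hL2 (by positivity)
        _ = _ := by ring
    have h2 : h ∈ T411.NC (L ^ K2) := by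
      rw [hH] at hh
      apply NC_mono hU0.le _ hh
      rw [hU]
      apply Real.rpow_le_rpow_of_exponent_le hL1
      rw [hK2]
      have : (0 : ℝ) ≤ A := Nat.cast_nonneg A
      linarith
    have h3 := hS X hXX1 B β hB hB2 hβ hs h (by rw [← hL]; exact h2) s (by rw [← hL]; exact h1)
    have h4 : LX X ^ (-K2) = Y / (U ^ 2 * L) := by
      rw [← hL, Real.rpow_neg hL0.le, hLK2, inv_div]
    rw [h4] at h3
    rw [hf, hE]
    exact pow_le_pow_left₀ (norm_nonneg _) h3 2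
  obtain ⟨J, hJ⟩ : ∃ J : ℝ, J = Real.pi * (900000 * (2 * B / T0 + Real.sqrt (2 * B) *
    (1 + 5 * L)) * (200 * B)) := ⟨_, rfl⟩
  have hJ0 : 0 ≤ J := by rw [hJ]; positivity
  have hfJ : ∀ h ∈ H, ∀ σ : ℝ, (σ = 1 ∨ σ = -1) →
      ∫ t in T0..T2, cv (f h) (σ * t) / t ≤ J := by
    intro h _ σ hσ
    have h1 := tavg (sB X β) (fun b => β (pset b) * (ang l b * sy h b)) (N := 2 * B)
      (T1 := T0) (T2 := T2) (by linarith) hT01 h02
      (fun z hz => ⟨(sB_prim hz).ne_zero, (nm_sB hs hz).2⟩) hσ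
    have h2 : (fun s => ‖dp (sB X β) (fun b => β (pset b) * (ang l b * sy h b)) s‖ ^ 2) = f h := by
      rw [hf]
      funext s
      rw [tw_eq_dp]
    rw [h2] at h1
    refine h1.trans ?_
    have h3 : ∑ z ∈ sB X β, ‖β (pset z) * (ang l z * sy h z)‖ ^ 2 ≤ 200 * B := by
      refine le_trans ?_ hcard
      calc _ ≤ ∑ b ∈ sB X β, (1 : ℝ) := by
            refine Finset.sum_le_sum fun b hb => ?_
            apply pow_le_one₀ (norm_nonneg _)
            rw [norm_mul, norm_mul]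
            exact mul_le_one₀ (hβ.bd _) (by positivity)
              (mul_le_one₀ (P355.norm_ang_le l b) (norm_nonneg _)
                (Tau671.norm_sy_le (sB_prim hb)))
        _ = _ := by rw [Finset.sum_const, nsmul_eq_mul, mul_one]
    rw [hJ]
    have h4 : 0 ≤ Real.log (T2 / T0) := Real.log_nonneg (by
      rw [le_div_iff₀ hT00]; linarith)
    have h5 : 0 ≤ Real.sqrt (2 * B) := Real.sqrt_nonneg _
    apply mul_le_mul_of_nonneg_left _ Real.pi_pos.le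
    apply mul_le_mul _ h3 (Finset.sum_nonneg fun _ _ => by positivity) (by positivity)
    apply mul_le_mul_of_nonneg_left _ (by norm_num)
    have h6 : Real.sqrt (2 * B) * (1 + Real.log (T2 / T0)) ≤
        Real.sqrt (2 * B) * (1 + 5 * L) := mul_le_mul_of_nonneg_left (by linarith) h5
    linarith
  -- the pointwise bound
  have hMu := Mu_nonneg I a α
  obtain ⟨V, hV⟩ : ∃ V : ℝ, V = Mu I a α * (Real.exp 1 * C * ((X : ℝ) ^ ((2 : ℝ) / 3) * B)) :=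
    ⟨_, rfl⟩
  have hV0 : 0 ≤ V := by rw [hV]; positivity
  have hpt : ∀ t, DD l X B I a g α β t ^ 2 ≤
      V * (c0 * Y + U / B ^ 2 * ∑ h ∈ H, cv (f h) t) := by
    intro t
    have h1 := DD_sq_le l X B I a g α β (A := X / B) (by positivity) hβ.bd ha t
    have h2 := hSS t
    refine h1.trans ?_
    calc Mu I a α * (Real.exp 1 * T411.SS (X / B) (sB X β) (bE l β t))
        ≤ Mu I a α * (Real.exp 1 * (C * ((X : ℝ) ^ ((2 : ℝ) / 3) * B * (c0 * Y +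
          U / B ^ 2 * ∑ h ∈ H, cv (f h) t)))) :=
          mul_le_mul_of_nonneg_left (mul_le_mul_of_nonneg_left h2 (Real.exp_pos _).le) hMu
      _ = _ := by rw [hV]; ring
  have hq1 : 0 ≤ U / B ^ 2 := by positivity
  have key := abs_bound hB (DD l X B I a g α β) (continuous_DD l X B I a g α β)
    (fun t => norm_nonneg _) H f hfc hf0 hfM hV0 (by positivity : 0 ≤ c0 * Y) hq1
    (by positivity) hE0 hJ0 hpt hT00 h02 hLg
    (by linarith) hfE hfJ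
  refine (Ix_le l X B I a g α β hB hs).trans (key.trans ?_)
  have hHc0 : (0 : ℝ) ≤ H.card := Nat.cast_nonneg _
  have n1 := num1 (CS := CS) hc0 hL1 hU1 hY0 hY1 hB hT0 hHc0 hHc
  have n2 := num2 hc0 hL1 hU1 hY0 hY1 hB hT0 hHc0 hHc hsB
  have n3 := num3 hc0 hU1 hY0 hY1 hB hHc0 hHc
  rw [← hE, ← hk1] at n1
  rw [← hJ, ← hk2] at n2
  rw [← hk3] at n3
  have hef : (8 * B + 8) / T2 ≤ 1 / B := by
    rw [hT2, div_le_div_iff₀ (by positivity) hB0]
    nlinarith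
  have nf := num_final (A := A) hL1 hU1 hB hY hk10 hk20 hk30 hCint.le hCk0.le hCk1.le n1 n2 n3
    hsB hlg1 hlg0 hef (by positivity)
  have hsV : Real.sqrt V = Real.sqrt (Real.exp 1 * C) * ((X : ℝ) ^ ((1 : ℝ) / 3) *
      Real.sqrt B * Real.sqrt (Mu I a α)) := by
    have e1 : V = (Real.exp 1 * C) * (((X : ℝ) ^ ((1 : ℝ) / 3)) ^ 2 * B * Mu I a α) := by
      have : ((X : ℝ) ^ ((1 : ℝ) / 3)) ^ 2 = (X : ℝ) ^ ((2 : ℝ) / 3) := by
        rw [← Real.rpow_natCast, ← Real.rpow_mul hX0.le]; norm_num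
      rw [this, hV]; ring
    rw [e1, Real.sqrt_mul (show 0 ≤ Real.exp 1 * C by positivity),
      Real.sqrt_mul (show 0 ≤ ((X : ℝ) ^ ((1 : ℝ) / 3)) ^ 2 * B by positivity),
      Real.sqrt_mul (show 0 ≤ ((X : ℝ) ^ ((1 : ℝ) / 3)) ^ 2 by positivity),
      Real.sqrt_sq (by positivity)]
  have nf2 := mul_le_mul_of_nonneg_left nf (Real.sqrt_nonneg V)
  refine nf2.trans (le_of_eq ?_)
  rw [hsV]
  ring

end Crest.Agent.R012.TII54
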