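import Crest.Agent.R012.TIIsharp_54
import Crest.Agent.R012.TIISpec_54

/-!
# Row 12, item TIIS: averages in `t`  (helper54)

* `cv f t = ∫ (1+u²)⁻¹ f(t+u) du`, continuity, bounds, `cv_small`
* `tavg`   : `∫_{T1}^{T2} cv(|P|²)(± t) dt/t` by the mean value theorem
* `am_gm`  : `∫ D dt/t` from `∫ D² dt/t`
-/

set_option autoImplicit false

noncomputable section

open MeasureTheory Complex Set Filter Topology
open Crest.Agent.R012 Crest.Agent.R012.Eis Crest.Agent.R012.Weight600 Crest.Agent.R012.MV400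

namespace Crest.Agent.R012.TII54

/-- convolution with `(1+u²)⁻¹` -/
def cv (f : ℝ → ℝ) (t : ℝ) : ℝ := ∫ u : ℝ, (1 + u ^ 2)⁻¹ * f (t + u)

lemma cont_w : Continuous (fun u : ℝ => (1 + u ^ 2)⁻¹) := by
  apply Continuous.inv₀ (by fun_prop)
  intro u
  positivity

section conv

variable {f : ℝ → ℝ}

lemma cv_int (hf : Continuous f) (hf0 : ∀ t, 0 ≤ f t) {M : ℝ} (hM : ∀ t, f t ≤ M) (t : ℝ) :
    Integrable (fun u : ℝ => (1 + u ^ 2)⁻¹ * f (t + u)) := by
  refine integrable_inv_one_add_sq.mul_bdd (c := M) (g := fun u => f (t + u))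
    (by fun_prop) ?_
  exact Eventually.of_forall fun u => by
    rw [Real.norm_eq_abs, abs_of_nonneg (hf0 _)]; exact hM _

lemma cv_nonneg (hf0 : ∀ t, 0 ≤ f t) (t : ℝ) : 0 ≤ cv f t :=
  integral_nonneg fun u => by have := hf0 (t + u); positivity

lemma cv_le (hf : Continuous f) (hf0 : ∀ t, 0 ≤ f t) {M : ℝ} (hM : ∀ t, f t ≤ M) (t : ℝ) :
    cv f t ≤ Real.pi * M := by
  have h : cv f t ≤ ∫ u : ℝ, (1 + u ^ 2)⁻¹ * M := by
    apply integral_mono (cv_int hf hf0 hM t) (integrable_inv_one_add_sq.mul_const _)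
    intro u
    have := hM (t + u)
    simp only
    gcongr
  rw [integral_mul_const, integral_univ_inv_one_add_sq] at h
  exact h

lemma continuous_cv (hf : Continuous f) (hf0 : ∀ t, 0 ≤ f t) {M : ℝ} (hM : ∀ t, f t ≤ M) :
    Continuous (cv f) := by
  unfold cv
  apply continuous_of_dominated (bound := fun u => (1 + u ^ 2)⁻¹ * M)
  · intro t
    exact (cv_int hf hf0 hM t).aestronglyMeasurable
  · intro t
    refine Eventually.of_forall fun u => ?_
    have h1 := hf0 (t + u)
    have h2 := hM (t + u)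
    rw [Real.norm_eq_abs, abs_of_nonneg (by positivity)]
    gcongr
  · exact integrable_inv_one_add_sq.mul_const _
  · exact Eventually.of_forall fun u => by fun_prop

lemma tail_w {T : ℝ} (hT : 0 < T) : ∫ u in Ioi T, (1 + u ^ 2)⁻¹ ≤ 1 / T := by
  rw [integral_Ioi_inv_one_add_sq, ← Real.arctan_inv_of_pos hT, one_div]
  have h0 : 0 ≤ Real.arctan T⁻¹ := Real.arctan_nonneg.mpr (by positivity)
  have := Real.le_tan h0 (Real.arctan_lt_pi_div_two _)
  rwa [Real.tan_arctan] at this

lemma tail_w' {T : ℝ} (hT : 0 < T) : ∫ u in Iic (-T), (1 + u ^ 2)⁻¹ ≤ 1 / T := by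
  have h := integral_comp_neg_Iic (-T) (fun u : ℝ => (1 + u ^ 2)⁻¹)
  simp only [neg_sq, neg_neg] at h
  rw [h]
  exact tail_w hT

lemma cv_small (hf : Continuous f) (hf0 : ∀ t, 0 ≤ f t) {M : ℝ} (hM : ∀ t, f t ≤ M)
    {T0 E : ℝ} (hT0 : 0 < T0) (hE : 0 ≤ E) (h1 : ∀ s, |s| ≤ 2 * T0 → f s ≤ E) {t : ℝ}
    (ht : |t| ≤ T0) : cv f t ≤ Real.pi * E + 2 * M / T0 := by
  have hM0 : 0 ≤ M := (hf0 0).trans (hM 0)
  have i1 : Integrable ((Ioi T0).indicator fun u : ℝ => (1 + u ^ 2)⁻¹ * M) :=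
    (integrable_indicator_iff measurableSet_Ioi).mpr
      (integrable_inv_one_add_sq.mul_const _).integrableOn
  have i2 : Integrable ((Iic (-T0)).indicator fun u : ℝ => (1 + u ^ 2)⁻¹ * M) :=
    (integrable_indicator_iff measurableSet_Iic).mpr
      (integrable_inv_one_add_sq.mul_const _).integrableOn
  have i0 : Integrable (fun u : ℝ => (1 + u ^ 2)⁻¹ * E) := integrable_inv_one_add_sq.mul_const _
  have h : cv f t ≤ ∫ u : ℝ, ((fun u : ℝ => (1 + u ^ 2)⁻¹ * E) +
      ((Ioi T0).indicator (fun u : ℝ => (1 + u ^ 2)⁻¹ * M) +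
      (Iic (-T0)).indicator (fun u : ℝ => (1 + u ^ 2)⁻¹ * M))) u := by
    apply integral_mono (cv_int hf hf0 hM t) (i0.add (i1.add i2))
    intro u
    have hw : (0 : ℝ) ≤ (1 + u ^ 2)⁻¹ := by positivity
    have n1 : 0 ≤ (Ioi T0).indicator (fun u : ℝ => (1 + u ^ 2)⁻¹ * M) u :=
      indicator_nonneg (fun u _ => by positivity) u
    have n2 : 0 ≤ (Iic (-T0)).indicator (fun u : ℝ => (1 + u ^ 2)⁻¹ * M) u :=
      indicator_nonneg (fun u _ => by positivity) u
    have n0 : 0 ≤ (1 + u ^ 2)⁻¹ * E := by positivity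
    simp only [Pi.add_apply]
    rcases le_or_gt |u| T0 with hu | hu
    · have h3 : |t + u| ≤ 2 * T0 := (abs_add_le t u).trans (by linarith)
      have := mul_le_mul_of_nonneg_left (h1 _ h3) hw
      linarith
    · have h4 := mul_le_mul_of_nonneg_left (hM (t + u)) hw
      rcases le_total 0 u with h0 | h0
      · rw [abs_of_nonneg h0] at hu
        have e : (Ioi T0).indicator (fun u : ℝ => (1 + u ^ 2)⁻¹ * M) u = (1 + u ^ 2)⁻¹ * M :=
          indicator_of_mem (by exact hu) _
        linarith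
      · rw [abs_of_nonpos h0] at hu
        have e : (Iic (-T0)).indicator (fun u : ℝ => (1 + u ^ 2)⁻¹ * M) u =
            (1 + u ^ 2)⁻¹ * M := indicator_of_mem (by show u ≤ -T0; linarith) _
        linarith
  refine h.trans ?_
  rw [integral_add' i0 (i1.add i2), integral_add' i1 i2, integral_indicator measurableSet_Ioi,
    integral_indicator measurableSet_Iic, integral_mul_const, integral_mul_const,
    integral_mul_const, integral_univ_inv_one_add_sq]
  have t1 := mul_le_mul_of_nonneg_right (tail_w hT0) hM0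
  have t2 := mul_le_mul_of_nonneg_right (tail_w' hT0) hM0
  have e : 2 * M / T0 = 1 / T0 * M + 1 / T0 * M := by ring
  rw [e]
  linarith

lemma cv_swap (hf : Continuous f) (hf0 : ∀ t, 0 ≤ f t) {M : ℝ} (hM : ∀ t, f t ≤ M) (σ : ℝ)
    {T1 T2 : ℝ} (hT1 : 0 < T1) (h12 : T1 ≤ T2) :
    ∫ t in T1..T2, cv f (σ * t) / t =
      ∫ u : ℝ, (1 + u ^ 2)⁻¹ * ∫ t in T1..T2, f (σ * t + u) / t := by
  have hM0 : 0 ≤ M := (hf0 0).trans (hM 0)
  have e1 : ∫ t in T1..T2, cv f (σ * t) / t =
      ∫ t in T1..T2, ∫ u : ℝ, (1 + u ^ 2)⁻¹ * (f (σ * t + u) / t) := by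
    apply intervalIntegral.integral_congr
    intro t _
    simp only
    unfold cv
    rw [← integral_div]
    congr 1
    ext u
    ring
  rw [e1, intervalIntegral_integral_swap]
  · congr 1
    ext u
    rw [intervalIntegral.integral_const_mul]
  · -- integrability
    rw [uIoc_of_le h12]
    have hb : Integrable (fun p : ℝ × ℝ => (M / T1) * (1 + p.2 ^ 2)⁻¹)
        ((volume.restrict (Ioc T1 T2)).prod volume) :=
      Integrable.mul_prod (μ := volume.restrict (Ioc T1 T2)) (ν := volume)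
        (f := fun _ : ℝ => M / T1) (g := fun u : ℝ => (1 + u ^ 2)⁻¹)
        (integrable_const _) integrable_inv_one_add_sq
    refine hb.mono' ?_ ?_
    · apply Measurable.aestronglyMeasurable
      have h2 : Measurable (fun p : ℝ × ℝ => f (σ * p.1 + p.2)) :=
        (hf.comp (by fun_prop : Continuous fun p : ℝ × ℝ => σ * p.1 + p.2)).measurable
      have h3 : Measurable (fun p : ℝ × ℝ => (1 + p.2 ^ 2)⁻¹) :=
        (cont_w.comp continuous_snd).measurable
      show Measurable (fun p : ℝ × ℝ => (1 + p.2 ^ 2)⁻¹ * (f (σ * p.1 + p.2) / p.1))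
      exact h3.mul (h2.div measurable_fst)
    · have : ∀ᵐ p ∂((volume.restrict (Ioc T1 T2)).prod (volume : Measure ℝ)),
          p ∈ (Ioc T1 T2) ×ˢ (univ : Set ℝ) := by
        have : (volume.restrict (Ioc T1 T2)).prod (volume : Measure ℝ) =
            ((volume : Measure ℝ).prod (volume : Measure ℝ)).restrict
              ((Ioc T1 T2) ×ˢ (univ : Set ℝ)) := by
          rw [← Measure.prod_restrict, Measure.restrict_univ]
        rw [this]
        exact ae_restrict_mem (measurableSet_Ioc.prod MeasurableSet.univ)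
      filter_upwards [this] with p hp
      obtain ⟨⟨hp1, hp2⟩, -⟩ := hp
      show ‖(1 + p.2 ^ 2)⁻¹ * (f (σ * p.1 + p.2) / p.1)‖ ≤ _
      have hp0 : 0 < p.1 := hT1.trans hp1
      have := hf0 (σ * p.1 + p.2)
      have h5 := hM (σ * p.1 + p.2)
      rw [Real.norm_eq_abs, abs_of_nonneg (by positivity), mul_comm]
      gcongr

end conv

/-! ### The mean value theorem -/

lemma dp_shift {S : Finset Eis} (hS : ∀ z ∈ S, z ≠ 0) (a : Eis → ℂ) (t u : ℝ) :
    dp S a (t + u) = dp S (fun z => a z * nit u z) t := by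
  unfold dp
  refine Finset.sum_congr rfl fun z hz => ?_
  rw [nit_add (hS z hz)]
  ring

/-- The average in `t` of the convolution of `|P|²`. -/
theorem tavg (S : Finset Eis) (a : Eis → ℂ) {N T1 T2 : ℝ} (hN : 1 ≤ N) (hT1 : 1 ≤ T1)
    (h12 : T1 ≤ T2) (hS : ∀ z ∈ S, z ≠ 0 ∧ (nm z : ℝ) ≤ N) {σ : ℝ} (hσ : σ = 1 ∨ σ = -1) :
    ∫ t in T1..T2, cv (fun s => ‖dp S a s‖ ^ 2) (σ * t) / t ≤
      Real.pi * (900000 * (N / T1 + Real.sqrt N * (1 + Real.log (T2 / T1))) *
        ∑ z ∈ S, ‖a z‖ ^ 2) := by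
  have hS0 : ∀ z ∈ S, z ≠ 0 := fun z hz => (hS z hz).1
  have hc := continuous_dp hS0 a
  have hf : Continuous (fun s => ‖dp S a s‖ ^ 2) := by fun_prop
  have hf0 : ∀ s, 0 ≤ ‖dp S a s‖ ^ 2 := fun s => by positivity
  have hb : ∀ s, ‖dp S a s‖ ≤ ∑ z ∈ S, ‖a z‖ := fun s => by
    unfold dp
    refine (norm_sum_le _ _).trans (le_of_eq (Finset.sum_congr rfl fun z hz => ?_))
    rw [norm_mul, norm_nit (hS0 z hz), mul_one]
  have hM : ∀ s, ‖dp S a s‖ ^ 2 ≤ (∑ z ∈ S, ‖a z‖) ^ 2 := fun s =>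
    pow_le_pow_left₀ (norm_nonneg _) (hb s) 2
  rw [cv_swap hf hf0 hM σ (by linarith) h12]
  set R := 900000 * (N / T1 + Real.sqrt N * (1 + Real.log (T2 / T1))) * ∑ z ∈ S, ‖a z‖ ^ 2
    with hR
  have key : ∀ u : ℝ, ∫ t in T1..T2, ‖dp S a (σ * t + u)‖ ^ 2 / t ≤ R := by
    intro u
    have e : ∑ z ∈ S, ‖a z * nit u z‖ ^ 2 = ∑ z ∈ S, ‖a z‖ ^ 2 :=
      Finset.sum_congr rfl fun z hz => by rw [norm_mul, norm_nit (hS0 z hz), mul_one]
    rcases hσ with rfl | rfl
    · have := mv_eis_dt S N T1 T2 hN hT1 h12 hS (fun z => a z * nit u z)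
      rw [e] at this
      refine le_trans (le_of_eq ?_) this
      apply intervalIntegral.integral_congr
      intro t _
      simp only [one_mul]
      rw [dp_shift hS0]
    · have := mv_eis_dt_neg S N T1 T2 hN hT1 h12 hS (fun z => a z * nit u z)
      rw [e] at this
      refine le_trans (le_of_eq ?_) this
      apply intervalIntegral.integral_congr
      intro t _
      simp only [neg_mul, one_mul]
      rw [dp_shift hS0]
  have hR0 : 0 ≤ R := by
    refine le_trans ?_ (key 0)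
    apply intervalIntegral.integral_nonneg h12
    intro t ht
    have : 0 < t := by linarith [ht.1]
    positivity
  have hint : ∀ u : ℝ, 0 ≤ ∫ t in T1..T2, ‖dp S a (σ * t + u)‖ ^ 2 / t := fun u => by
    apply intervalIntegral.integral_nonneg h12
    intro t ht
    have : 0 < t := by linarith [ht.1]
    positivity
  calc ∫ u : ℝ, (1 + u ^ 2)⁻¹ * ∫ t in T1..T2, ‖dp S a (σ * t + u)‖ ^ 2 / t
      ≤ ∫ u : ℝ, (1 + u ^ 2)⁻¹ * R := by
        apply integral_mono_of_nonneg
        · exact Eventually.of_forall fun u => by have := hint u; positivity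
        · exact integrable_inv_one_add_sq.mul_const _
        · refine Eventually.of_forall fun u => ?_
          simp only
          have := key u
          gcongr
    _ = Real.pi * R := by rw [integral_mul_const, integral_univ_inv_one_add_sq]

/-! ### AM-GM -/

/-- `∫ D dt/t` from `∫ D² dt/t`. -/
theorem am_gm {D : ℝ → ℝ} (hD : Continuous D) {T0 T2 ρ Lg : ℝ} (hT0 : 0 < T0)
    (h02 : T0 ≤ T2) (hρ : 0 ≤ ρ) (hLg : Real.log (T2 / T0) ≤ Lg) (hLg0 : 0 ≤ Lg)
    (hJ : ∫ t in T0..T2, D t ^ 2 / t ≤ ρ ^ 2 * Lg) : ∫ t in T0..T2, D t / t ≤ ρ * Lg := by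
  have hne : ∀ t ∈ uIcc T0 T2, t ≠ 0 := by
    intro t ht
    rw [uIcc_of_le h02] at ht
    exact (hT0.trans_le ht.1).ne'
  have i1 : IntervalIntegrable (fun t => D t / t) volume T0 T2 :=
    ContinuousOn.intervalIntegrable (hD.continuousOn.div continuousOn_id hne)
  have i2 : IntervalIntegrable (fun t => D t ^ 2 / t) volume T0 T2 :=
    ContinuousOn.intervalIntegrable ((hD.pow 2).continuousOn.div continuousOn_id hne)
  have i3 : IntervalIntegrable (fun t : ℝ => 1 / t) volume T0 T2 :=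
    ContinuousOn.intervalIntegrable (continuousOn_const.div continuousOn_id hne)
  have e3 : ∫ t in T0..T2, 1 / t = Real.log (T2 / T0) := by
    apply integral_one_div
    rw [uIcc_of_le h02]
    rintro ⟨h, -⟩
    linarith
  have main : ∀ r : ℝ, 0 < r → ρ ≤ r → ∫ t in T0..T2, D t / t ≤ r * Lg := by
    intro r hr hρr
    have h1 : ∫ t in T0..T2, D t / t ≤
        ∫ t in T0..T2, ((1 / (2 * r)) * (D t ^ 2 / t) + (r / 2) * (1 / t)) := by
      apply intervalIntegral.integral_mono_on h02 i1 ((i2.const_mul _).add (i3.const_mul _))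
      intro t ht
      have ht0 : 0 < t := hT0.trans_le ht.1
      have : (1 / (2 * r)) * (D t ^ 2 / t) + (r / 2) * (1 / t) - D t / t =
          (D t - r) ^ 2 / (2 * r * t) := by
        field_simp
        ring
      have h4 : 0 ≤ (D t - r) ^ 2 / (2 * r * t) := by positivity
      linarith
    rw [intervalIntegral.integral_add (i2.const_mul _) (i3.const_mul _),
      intervalIntegral.integral_const_mul, intervalIntegral.integral_const_mul, e3] at h1
    have h2 : 1 / (2 * r) * ∫ t in T0..T2, D t ^ 2 / t ≤ 1 / (2 * r) * (r ^ 2 * Lg) := by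
      apply mul_le_mul_of_nonneg_left _ (by positivity)
      refine hJ.trans ?_
      gcongr
    have h3 : 1 / (2 * r) * (r ^ 2 * Lg) = r / 2 * Lg := by
      field_simp
    have h5 : r / 2 * Real.log (T2 / T0) ≤ r / 2 * Lg := by gcongr
    linarith
  rcases hρ.eq_or_lt with h0 | h0
  · rw [← h0, zero_mul]
    apply le_of_forall_pos_le_add
    intro ε hε
    have h6 := main (ε / (Lg + 1)) (by positivity) (by rw [← h0]; positivity)
    have h7 : ε / (Lg + 1) * Lg ≤ ε := by
      rw [div_mul_eq_mul_div, div_le_iff₀ (by linarith)]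
      nlinarith
    linarith
  · exact main ρ h0 le_rfl

end Crest.Agent.R012.TII54
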