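import Crest.Agent.R012.TI2b_581
import Crest.Agent.R012.MTypeI_49

/-!
# Row 12: `Main48.TI_Prop`, unconditional

Glue only: helper581's `M49.TypeI → Main48.TI_Prop` applied to `MFinal49.typeI`.
-/

namespace Crest.Agent.R012.MFinal49

/-- **Type I with sharp cut-offs**, unconditional. -/
theorem ti_prop : Main48.TI_Prop := TI2.ti_prop_of_typeI typeI

end Crest.Agent.R012.MFinal49
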