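import Crest.Agent.R012.SpecMain_48
import Crest.Agent.R012.SpecM_49

/-!
# Row 12, Type I: block form of the sharp Type I estimate (interface, helper355)

`M49.TypeI → TIblk` (helper988/581), `TIblk → Main48.TI_Prop` (helper355).
-/

set_option autoImplicit false

noncomputable section

namespace Crest.Agent.R012.TIB355

open Crest.Agent.R012 Eis

open Classical in
/-- squarefree primary `a` with `D < nm a ≤ 2 D` -/
def blkSet (D : ℝ) : Finset Eis :=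
  (primBall ⌊2 * D⌋₊).filter (fun a => Squarefree a ∧ D < (nm a : ℝ))

open Classical in
/-- primary `b` with `y / 2 < nm b ≤ y` -/
def win (y : ℝ) : Finset Eis := (primBall ⌊y⌋₊).filter (fun b => y / 2 < (nm b : ℝ))

/-- the constant of the main term -/
def mc (a : Eis) : ℝ := pC * M49.Dsf * M49.ga a * (nm a : ℝ) ^ (-(1 : ℝ) / 6)

/-- sharp Type I, dyadic block of moduli `a ~ D`, one window `(y a / 2, y a]` per modulus. -/
def TIblk : Prop := ∀ (l : ℤ) (ε : ℝ), 0 < ε → ∃ δ C : ℝ, 0 < δ ∧ 0 < C ∧ ∀ X D : ℝ, 2 ≤ X →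
  1 / 2 ≤ D → D ≤ X ^ (2 / 3 - ε) → ∀ y : Eis → ℝ, (∀ a, 0 ≤ y a ∧ y a * D ≤ X) →
  ∑ a ∈ blkSet D, ‖∑ b ∈ win (y a), G (a * b) * ang l b -
    (if l = 0 then ((mc a * (6 / 5 * ((y a) ^ ((5 : ℝ) / 6) - (y a / 2) ^ ((5 : ℝ) / 6))) : ℝ) : ℂ)
      else 0)‖ ≤ C * X ^ (5 / 6 - δ)

end Crest.Agent.R012.TIB355
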