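import Crest.Agent.R012.Spec_T_411
import Crest.Agent.R012.SpecM_49
import Crest.Agent.R012.ModelFin_705
import Crest.Agent.R012.MellinExp_448
import Crest.Agent.R012.Weight_600

/-!
# Row 12, TIf (helper645), part A

* `l2_integral`, `l2_sum` : Minkowski in `ℓ²` of a finite index set;
* `gamma_decay` : `‖Γ(σ+it)‖ ≤ C (1+|t|)^(-6)`;
* `ms_SF` : mean square of `∑_b F(rb) v(nm b / X) nm(b)^{iτ}` over squarefree `r`.
-/

set_option autoImplicit false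

noncomputable section

open MeasureTheory Set Filter Topology Complex

namespace Crest.Agent.R012.TIf645

open Crest.Agent.R012 Crest.Agent.R012.Eis

/-! ### Minkowski in finite `ℓ²` -/

lemma cs_norm {ι : Type*} (s : Finset ι) (x y : ι → ℂ) :
    ‖∑ i ∈ s, x i * y i‖ ≤ Real.sqrt (∑ i ∈ s, ‖x i‖ ^ 2) * Real.sqrt (∑ i ∈ s, ‖y i‖ ^ 2) := by
  calc ‖∑ i ∈ s, x i * y i‖ ≤ ∑ i ∈ s, ‖x i‖ * ‖y i‖ := by
        refine (norm_sum_le _ _).trans (le_of_eq ?_)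
        exact Finset.sum_congr rfl fun i _ => norm_mul _ _
    _ ≤ _ := Real.sum_mul_le_sqrt_mul_sqrt _ _ _

lemma self_le_sq_of_le_sqrt_mul {A c : ℝ} (hA : 0 ≤ A) (h : A ≤ Real.sqrt A * c) :
    A ≤ c ^ 2 := by
  rcases hA.eq_or_lt with h0 | h0
  · rw [← h0]; positivity
  · have hs : 0 < Real.sqrt A := Real.sqrt_pos.2 h0
    have h1 : Real.sqrt A * Real.sqrt A ≤ Real.sqrt A * c := by
      rw [Real.mul_self_sqrt hA]; exact h
    have h2 : Real.sqrt A ≤ c := le_of_mul_le_mul_left h1 hs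
    calc A = Real.sqrt A ^ 2 := (Real.sq_sqrt hA).symm
      _ ≤ c ^ 2 := by gcongr

/-- Minkowski's integral inequality in finite `ℓ²`. -/
lemma l2_integral {ι : Type*} (s : Finset ι) (f : ℝ → ι → ℂ) (B : ℝ → ℝ)
    (hf : ∀ i ∈ s, Integrable (fun t => f t i)) (hB : Integrable B)
    (h : ∀ t, ∑ i ∈ s, ‖f t i‖ ^ 2 ≤ B t ^ 2) (hB0 : ∀ t, 0 ≤ B t) :
    ∑ i ∈ s, ‖∫ t, f t i‖ ^ 2 ≤ (∫ t, B t) ^ 2 := by
  classical
  set T : ι → ℂ := fun i => ∫ t, f t i with hT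
  set A : ℝ := ∑ i ∈ s, ‖T i‖ ^ 2 with hA
  have hA0 : 0 ≤ A := Finset.sum_nonneg fun i _ => by positivity
  have h1 : ((A : ℝ) : ℂ) = ∫ t, ∑ i ∈ s, (starRingEnd ℂ) (T i) * f t i := by
    rw [integral_finsetSum]
    · rw [hA]
      push_cast
      refine Finset.sum_congr rfl fun i _ => ?_
      rw [integral_const_mul, ← Complex.conj_mul']
    · intro i hi
      exact (hf i hi).const_mul _
  have h2 : A ≤ Real.sqrt A * ∫ t, B t := by
    calc A = ‖((A : ℝ) : ℂ)‖ := by rw [Complex.norm_real, Real.norm_of_nonneg hA0]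
      _ = ‖∫ t, ∑ i ∈ s, (starRingEnd ℂ) (T i) * f t i‖ := by rw [h1]
      _ ≤ ∫ t, Real.sqrt A * B t := by
          refine norm_integral_le_of_norm_le (hB.const_mul _) (Eventually.of_forall fun t => ?_)
          refine (cs_norm s _ _).trans ?_
          have e1 : ∑ i ∈ s, ‖(starRingEnd ℂ) (T i)‖ ^ 2 = A := by
            rw [hA]; exact Finset.sum_congr rfl fun i _ => by rw [RCLike.norm_conj]
          rw [e1]
          refine mul_le_mul_of_nonneg_left ?_ (Real.sqrt_nonneg _)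
          rw [Real.sqrt_le_left (hB0 t)]
          exact h t
      _ = _ := by rw [integral_const_mul]
  exact self_le_sq_of_le_sqrt_mul hA0 h2

/-- Minkowski's inequality for finite sums in finite `ℓ²`. -/
lemma l2_sum {ι κ : Type*} (s : Finset ι) (J : Finset κ) (f : κ → ι → ℂ) (B : κ → ℝ)
    (h : ∀ j ∈ J, ∑ i ∈ s, ‖f j i‖ ^ 2 ≤ B j ^ 2) (hB0 : ∀ j ∈ J, 0 ≤ B j) :
    ∑ i ∈ s, ‖∑ j ∈ J, f j i‖ ^ 2 ≤ (∑ j ∈ J, B j) ^ 2 := by
  classical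
  set T : ι → ℂ := fun i => ∑ j ∈ J, f j i with hT
  set A : ℝ := ∑ i ∈ s, ‖T i‖ ^ 2 with hA
  have hA0 : 0 ≤ A := Finset.sum_nonneg fun i _ => by positivity
  have h1 : ((A : ℝ) : ℂ) = ∑ j ∈ J, ∑ i ∈ s, (starRingEnd ℂ) (T i) * f j i := by
    rw [Finset.sum_comm, hA]
    push_cast
    refine Finset.sum_congr rfl fun i _ => ?_
    rw [← Finset.mul_sum, ← Complex.conj_mul']
  have h2 : A ≤ Real.sqrt A * ∑ j ∈ J, B j := by
    calc A = ‖((A : ℝ) : ℂ)‖ := by rw [Complex.norm_real, Real.norm_of_nonneg hA0]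
      _ = ‖∑ j ∈ J, ∑ i ∈ s, (starRingEnd ℂ) (T i) * f j i‖ := by rw [h1]
      _ ≤ ∑ j ∈ J, Real.sqrt A * B j := by
          refine norm_sum_le_of_le _ fun j hj => ?_
          refine (cs_norm s _ _).trans ?_
          have e1 : ∑ i ∈ s, ‖(starRingEnd ℂ) (T i)‖ ^ 2 = A := by
            rw [hA]; exact Finset.sum_congr rfl fun i _ => by rw [RCLike.norm_conj]
          rw [e1]
          refine mul_le_mul_of_nonneg_left ?_ (Real.sqrt_nonneg _)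
          rw [Real.sqrt_le_left (hB0 j hj)]
          exact h j hj
      _ = _ := by rw [Finset.mul_sum]
  exact self_le_sq_of_le_sqrt_mul hA0 h2

/-! ### Decay of the Gamma function -/

lemma norm_Gamma_step {σ : ℝ} (hσ : 0 < σ) (t : ℝ) :
    ‖Complex.Gamma (σ + t * I)‖ ≤ ‖Complex.Gamma (((σ + 2 : ℝ) : ℂ) + t * I)‖ / (σ ^ 2 + t ^ 2) := by
  have hre : ((σ : ℂ) + t * I).re = σ := by simp
  have hs : 0 < ((σ : ℂ) + t * I).re := by rw [hre]; exact hσ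
  rw [MellinExp448.Gamma_eq_div hs, norm_div, norm_mul]
  have e : (σ : ℂ) + t * I + 2 = ((σ + 2 : ℝ) : ℂ) + t * I := by push_cast; ring
  rw [e]
  have hpos : 0 < σ ^ 2 + t ^ 2 := by positivity
  refine div_le_div_of_nonneg_left (norm_nonneg _) hpos ?_
  rw [← MellinExp448.norm_sq_ge, pow_two]
  exact mul_le_mul_of_nonneg_left (MellinExp448.norm_add_one_ge hσ t) (norm_nonneg _)

/-- `‖Γ(σ+it)‖ (1+|t|)² ≤ C / (1+t²)`. -/
lemma gamma_decay {σ : ℝ} (hσ : 0 < σ) : ∃ C : ℝ, 0 < C ∧ ∀ t : ℝ,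
    ‖Complex.Gamma (σ + t * I)‖ * (1 + |t|) ^ 2 ≤ C * (1 + t ^ 2)⁻¹ := by
  have hG : 0 < Real.Gamma (σ + 2 + 2) := Real.Gamma_pos_of_pos (by linarith)
  set m : ℝ := min (σ ^ 2) 1 with hm
  have hm0 : 0 < m := lt_min (by positivity) one_pos
  refine ⟨2 * Real.Gamma (σ + 2 + 2) / m, by positivity, fun t => ?_⟩
  have h1 := norm_Gamma_step hσ t
  have h2 := MellinExp448.norm_Gamma_le' (σ := σ + 2) (by linarith) t
  have hT : 0 < 1 + t ^ 2 := by positivity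
  have h3 : m * (1 + t ^ 2) ≤ σ ^ 2 + t ^ 2 := by
    have a1 : m ≤ σ ^ 2 := min_le_left _ _
    have a2 : m ≤ 1 := min_le_right _ _
    nlinarith [sq_nonneg t]
  have h4 : 1 + t ^ 2 ≤ (σ + 2) ^ 2 + t ^ 2 := by nlinarith
  have h5 : (1 + |t|) ^ 2 ≤ 2 * (1 + t ^ 2) := by
    nlinarith [sq_nonneg (1 - |t|), sq_abs t]
  have h6 : ‖Complex.Gamma (((σ + 2 : ℝ) : ℂ) + t * I)‖ ≤
      Real.Gamma (σ + 2 + 2) / (1 + t ^ 2) :=
    h2.trans (div_le_div_of_nonneg_left hG.le hT h4)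
  have h7 : ‖Complex.Gamma (σ + t * I)‖ ≤
      Real.Gamma (σ + 2 + 2) / (1 + t ^ 2) / (m * (1 + t ^ 2)) := by
    refine h1.trans ?_
    have hpos : 0 < m * (1 + t ^ 2) := by positivity
    calc ‖Complex.Gamma (((σ + 2 : ℝ) : ℂ) + t * I)‖ / (σ ^ 2 + t ^ 2) ≤
          ‖Complex.Gamma (((σ + 2 : ℝ) : ℂ) + t * I)‖ / (m * (1 + t ^ 2)) :=
          div_le_div_of_nonneg_left (norm_nonneg _) hpos h3
      _ ≤ _ := by gcongr
  calc ‖Complex.Gamma (σ + t * I)‖ * (1 + |t|) ^ 2 ≤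
        (Real.Gamma (σ + 2 + 2) / (1 + t ^ 2) / (m * (1 + t ^ 2))) * (2 * (1 + t ^ 2)) := by
        gcongr
    _ = _ := by field_simp

/-! ### The mean square for a fixed weight -/

open Classical in
/-- `∑_b F(rb) v(nm b / X) nm(b)^{iτ}`. -/
def SF (τ : ℝ) (v : ℝ → ℂ) (r : Eis) (X : ℝ) : ℂ :=
  ∑' b : Eis, if IsPrim b then
    T411.F (r * b) * v (nm b / X) * (nm b : ℂ) ^ ((τ : ℂ) * Complex.I) else 0

open Classical in
/-- the model sum -/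
def MO (τ : ℝ) (v : ℝ → ℂ) (r : Eis) (X : ℝ) : ℂ :=
  ∑' b : Eis, if IsPrim b then
    ((T411.mdl (r * b) : ℝ) : ℂ) * v (nm b / X) * (nm b : ℂ) ^ ((τ : ℂ) * Complex.I) else 0

lemma finite_v {v : ℝ → ℂ} (hv : M49.Wt v) {X : ℝ} (hX : 0 < X) :
    {b : Eis | v (nm b / X) ≠ 0}.Finite := by
  obtain ⟨al, be, hal, hab, hs⟩ := hv.supp
  refine (ball ⌊be * X⌋₊).finite_toSet.subset fun b hb => ?_
  have h1 : (nm b : ℝ) / X ≤ be := by
    by_contra hc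
    push Not at hc
    exact hb (hs _ (Or.inr hc))
  rw [div_le_iff₀ hX] at h1
  simp only [Finset.mem_coe]
  rw [mem_ball]
  exact Nat.le_floor h1

lemma summable_v {v : ℝ → ℂ} (hv : M49.Wt v) {X : ℝ} (hX : 0 < X) (P : Eis → Prop)
    [DecidablePred P] (g h : Eis → ℂ) :
    Summable (fun b : Eis => if P b then g b * v (nm b / X) * h b else 0) := by
  refine summable_of_hasFiniteSupport ((finite_v hv hX).subset fun b hb => ?_)
  intro h0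
  apply hb
  simp only [h0]
  simp

lemma SF_eq {v : ℝ → ℂ} (hv : M49.Wt v) {X : ℝ} (hX : 0 < X) (τ : ℝ) (r : Eis) :
    SF τ v r X = M49.TT 0 τ v r X - MO τ v r X := by
  classical
  unfold SF M49.TT MO
  rw [← Summable.tsum_sub]
  · refine tsum_congr fun b => ?_
    by_cases hb : IsPrim b
    · simp only [hb, if_true]
      unfold T411.F ang
      simp only [zpow_zero]
      ring
    · simp [hb]
  · have := summable_v hv hX IsPrim (fun b => G (r * b) * ang 0 b)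
      (fun b => (nm b : ℂ) ^ ((τ : ℂ) * Complex.I))
    exact this
  · exact summable_v hv hX IsPrim (fun b => ((T411.mdl (r * b) : ℝ) : ℂ))
      (fun b => (nm b : ℂ) ^ ((τ : ℂ) * Complex.I))

lemma MO_eq {v : ℝ → ℂ} (τ : ℝ) {r : Eis} (hr : IsPrim r) (hrs : Squarefree r) (X : ℝ) :
    MO τ v r X = ((pC * (nm r : ℝ) ^ (-(1 : ℝ) / 6) : ℝ) : ℂ) *
      ∑' b : Eis, Model705.iSf r b * (((nm b : ℝ) : ℂ) ^ (-(((1 / 6 : ℝ)) : ℂ) + τ * Complex.I) *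
        v (nm b / X)) := by
  classical
  unfold MO
  rw [← tsum_mul_left]
  refine tsum_congr fun b => ?_
  by_cases hb : IsPrim b
  · rw [if_pos hb]
    unfold Model705.iSf T411.mdl
    by_cases hs : Squarefree (r * b)
    · have h5 := squarefree_mul_iff.mp hs
      have hbr : IsCoprime b r := h5.1.isCoprime.symm
      rw [if_pos hs, if_pos ⟨hb, hbr, h5.2.2⟩]
      have hb0 : ((nm b : ℝ) : ℂ) ≠ 0 := by
        have := nm_pos.mpr hb.ne_zero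
        exact_mod_cast this.ne'
      have e1 : ((nm (r * b) : ℝ)) ^ (-(1 / 6) : ℝ) =
          (nm r : ℝ) ^ (-(1 : ℝ) / 6) * (nm b : ℝ) ^ (-(1 / 6) : ℝ) := by
        rw [nm_mul]
        push_cast
        rw [Real.mul_rpow (by positivity) (by positivity)]
        congr 2; norm_num
      have e2 : ((nm b : ℝ) : ℂ) ^ (-(((1 / 6 : ℝ)) : ℂ) + τ * Complex.I) =
          (((nm b : ℝ) ^ (-(1 / 6) : ℝ) : ℝ) : ℂ) * (nm b : ℂ) ^ ((τ : ℂ) * Complex.I) := by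
        rw [Complex.cpow_add _ _ hb0, Complex.ofReal_cpow (by positivity)]
        push_cast
        rfl
      rw [e1, e2]
      push_cast
      ring
    · rw [if_neg hs, if_neg]
      · simp
      · rintro ⟨_, h2, h3⟩
        exact hs (squarefree_mul_iff.mpr ⟨h2.symm.isRelPrime, hrs, h3⟩)
  · rw [if_neg hb]
    unfold Model705.iSf
    rw [if_neg (fun h => hb h.1)]
    simp

/-- the main term -/
def MT (τ : ℝ) (v : ℝ → ℂ) (r : Eis) (X : ℝ) : ℂ :=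
  ((pC * M49.Dsf * M49.ga r * (nm r : ℝ) ^ (-(1 : ℝ) / 6) : ℝ) : ℂ) *
    mellin v ((5 : ℂ) / 6 + τ * Complex.I) * (X : ℂ) ^ ((5 : ℂ) / 6 + τ * Complex.I)

lemma MO_bound {v : ℝ → ℂ} (hv : M49.Wt v) : ∃ C : ℝ, 0 ≤ C ∧ ∀ (r : Eis) (X τ : ℝ), IsPrim r →
    Squarefree r → 0 < X →
    ‖MO τ v r X - MT τ v r X‖ ≤
      C * Mob705.sig r * (1 + |τ|) * (X ^ (-(1 / 6) : ℝ) * Model705.er X) := by
  obtain ⟨C, hC, h⟩ := Model705.abel_wt v hv (1 / 6)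
  have hpC := Model705.pC_pos
  refine ⟨pC * C * 12800, by positivity, fun r X τ hr hrs hX => ?_⟩
  have hsig := Mob705.sig_pos r
  obtain ⟨-, h1⟩ := h Eis (Model705.iSf r) (fun b => (nm b : ℝ)) (Mob705.sfc r) 100
    ((Mob705.kap 1 * Mob705.LF r : ℝ) : ℂ) (12800 * Mob705.sig r) (Model705.dataSf r)
    (by positivity) (Model705.errSf hr.ne_zero) X τ hX
  rw [MO_eq τ hr hrs]
  unfold MT
  rw [Model705.ga_eq_LF hr hrs, ← Model705.kap_one_eq_Dsf]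
  have e1 : (1 : ℂ) - ((1 / 6 : ℝ) : ℂ) + τ * Complex.I = (5 : ℂ) / 6 + τ * Complex.I := by
    push_cast; ring
  rw [e1] at h1
  have e2 : ((pC * (nm r : ℝ) ^ (-(1 : ℝ) / 6) : ℝ) : ℂ) *
      (∑' b : Eis, Model705.iSf r b * (((nm b : ℝ) : ℂ) ^ (-(((1 / 6 : ℝ)) : ℂ) + τ * Complex.I) *
        v (nm b / X))) -
      ((pC * Mob705.kap 1 * Mob705.LF r * (nm r : ℝ) ^ (-(1 : ℝ) / 6) : ℝ) : ℂ) *
        mellin v ((5 : ℂ) / 6 + τ * Complex.I) * (X : ℂ) ^ ((5 : ℂ) / 6 + τ * Complex.I) =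
      ((pC * (nm r : ℝ) ^ (-(1 : ℝ) / 6) : ℝ) : ℂ) *
      ((∑' b : Eis, Model705.iSf r b * (((nm b : ℝ) : ℂ) ^ (-(((1 / 6 : ℝ)) : ℂ) + τ * Complex.I) *
        v (nm b / X))) - ((Mob705.kap 1 * Mob705.LF r : ℝ) : ℂ) *
        (mellin v ((5 : ℂ) / 6 + τ * Complex.I) * (X : ℂ) ^ ((5 : ℂ) / 6 + τ * Complex.I))) := by
    push_cast; ring
  rw [e2, norm_mul, Complex.norm_real, Real.norm_of_nonneg (by positivity)]
  have hr1 : (nm r : ℝ) ^ (-(1 : ℝ) / 6) ≤ 1 := by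
    have h1 : (1 : ℝ) ≤ nm r := Mob705.one_le_nm_of_isPrim hr
    exact Real.rpow_le_one_of_one_le_of_nonpos h1 (by norm_num)
  calc pC * (nm r : ℝ) ^ (-(1 : ℝ) / 6) * _ ≤ pC * 1 *
        (C * (12800 * Mob705.sig r) * (1 + |τ|) * (X ^ (-(1 / 6) : ℝ) * Model705.er X)) := by
        gcongr
    _ = _ := by ring

lemma er_bound {be δ : ℝ} (hbe : 0 < be) (hδ : 0 < δ) : ∃ C : ℝ, 0 < C ∧ ∀ X : ℝ, 0 < X →
    1 ≤ be * X → (X ^ (-(1 / 6) : ℝ) * Model705.er X) ^ 2 ≤ C * (X * (1 + X) ^ δ) := by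
  refine ⟨be ^ ((1 : ℝ) / 3) * (1 + 2 / δ) ^ 2, by positivity, fun X hX hbX => ?_⟩
  have h1 : Real.log (1 + X) ≤ (1 + X) ^ (δ / 2) / (δ / 2) :=
    Real.log_le_rpow_div (by linarith) (by positivity)
  have h2 : 1 ≤ (1 + X) ^ (δ / 2) := Real.one_le_rpow (by linarith) (by positivity)
  have h3 : 1 + Real.log (1 + X) ≤ (1 + 2 / δ) * (1 + X) ^ (δ / 2) := by
    have : (1 + X) ^ (δ / 2) / (δ / 2) = (2 / δ) * (1 + X) ^ (δ / 2) := by field_simp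
    rw [this] at h1
    linarith
  have h4 : 0 ≤ 1 + Real.log (1 + X) := by
    have := Real.log_nonneg (x := 1 + X) (by linarith)
    linarith
  have h5 : (X ^ (-(1 / 6) : ℝ)) ^ 2 = X ^ (-(1 / 3) : ℝ) := by
    rw [← Real.rpow_natCast, ← Real.rpow_mul hX.le]; norm_num
  have h6 : X ^ (-(1 / 3) : ℝ) ≤ be ^ ((1 : ℝ) / 3) := by
    rw [Real.rpow_neg hX.le]
    have h7 : 1 ≤ be ^ ((1 : ℝ) / 3) * X ^ ((1 : ℝ) / 3) := by
      rw [← Real.mul_rpow hbe.le hX.le]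
      exact Real.one_le_rpow hbX (by norm_num)
    have h8 : 0 < X ^ ((1 : ℝ) / 3) := by positivity
    rw [inv_le_iff_one_le_mul₀ h8]
    exact h7
  have h9 : ((1 + X) ^ (δ / 2)) ^ 2 = (1 + X) ^ δ := by
    rw [← Real.rpow_natCast, ← Real.rpow_mul (by linarith)]; congr 1; push_cast; ring
  unfold Model705.er
  calc (X ^ (-(1 / 6) : ℝ) * (Real.sqrt X * (1 + Real.log (1 + X)))) ^ 2 =
        (X ^ (-(1 / 6) : ℝ)) ^ 2 * (Real.sqrt X ^ 2) * (1 + Real.log (1 + X)) ^ 2 := by ring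
    _ = X ^ (-(1 / 3) : ℝ) * X * (1 + Real.log (1 + X)) ^ 2 := by rw [h5, Real.sq_sqrt hX.le]
    _ ≤ be ^ ((1 : ℝ) / 3) * X * ((1 + 2 / δ) * (1 + X) ^ (δ / 2)) ^ 2 := by gcongr
    _ = _ := by rw [mul_pow, h9]; ring

lemma SF_zero {v : ℝ → ℂ} {be : ℝ} (hs : ∀ x, be < x → v x = 0) {X : ℝ} (hX : 0 < X)
    (hbX : be * X < 1) (τ : ℝ) (r : Eis) : SF τ v r X = 0 := by
  classical
  unfold SF
  convert tsum_zero with b
  by_cases hb : IsPrim b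
  · rw [if_pos hb]
    have h1 : (1 : ℝ) ≤ nm b := Mob705.one_le_nm_of_isPrim hb
    rw [hs _ (by rw [lt_div_iff₀ hX]; linarith)]
    simp
  · rw [if_neg hb]

/-- **mean square for a fixed weight** -/
theorem ms_SF (hT : M49.TypeI) {v : ℝ → ℂ} (hv : M49.Wt v) {δ : ℝ} (hδ : 0 < δ) (hδ1 : δ ≤ 1) :
    ∃ C : ℝ, 0 < C ∧ ∀ R X τ : ℝ, 1 ≤ R → 0 < X →
      ∑ r ∈ LS2.S R, ‖SF τ v r X‖ ^ 2 ≤ C * (1 + |τ|) ^ 4 * ((1 + X) * R) ^ δ * (R * X) := by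
  classical
  obtain ⟨C1, hC1⟩ := hT 0 v hv δ hδ
  obtain ⟨C2, hC2, h2⟩ := MO_bound hv
  obtain ⟨Ct, hCt, ht⟩ := Div277.tau_le_rpow (ε := δ / 2) (by positivity)
  obtain ⟨al, be, hal, hab, hs⟩ := hv.supp
  have hbe : 0 < be := hal.trans hab
  obtain ⟨C3, hC3, h3⟩ := er_bound hbe hδ
  refine ⟨2 * |C1| + 200 * (C2 ^ 2 * Ct ^ 2 * C3) + 1, by positivity, fun R X τ hR hX => ?_⟩
  have hR0 : 0 < R := by linarith
  by_cases hbX : be * X < 1
  · have : ∑ r ∈ LS2.S R, ‖SF τ v r X‖ ^ 2 = 0 := by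
      refine Finset.sum_eq_zero fun r _ => ?_
      rw [SF_zero (fun x hx => hs x (Or.inr hx)) hX hbX]
      simp
    rw [this]
    positivity
  push Not at hbX
  have ha : 0 ≤ |τ| := abs_nonneg τ
  -- (i) the G part
  set N : ℕ := ⌊R⌋₊ with hN
  have hN1 : 1 ≤ N := Nat.le_floor (by simpa using hR)
  have hNR : (N : ℝ) ≤ R := Nat.floor_le hR0.le
  have g1 : ∑ r ∈ LS2.S R, ‖M49.TT 0 τ v r X - MT τ v r X‖ ^ 2 ≤
      |C1| * ((1 + |τ|) ^ 4 * ((1 + X) * R) ^ δ * (R * X)) := by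
    have h := hC1 N X τ hN1 hX
    have e : ∑ r ∈ LS2.S R, ‖M49.TT 0 τ v r X - MT τ v r X‖ ^ 2 =
        ∑ a ∈ (by classical exact (primBall N).filter (fun a => Squarefree a)),
        ‖M49.TT 0 τ v a X - (if (0 : ℤ) = 0 then
        ((pC * M49.Dsf * M49.ga a * (nm a : ℝ) ^ (-(1 : ℝ) / 6) : ℝ) : ℂ) *
        mellin v ((5 : ℂ) / 6 + τ * Complex.I) * (X : ℂ) ^ ((5 : ℂ) / 6 + τ * Complex.I)
        else 0)‖ ^ 2 := by
      refine Finset.sum_congr ?_ fun r _ => ?_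
      · ext r; simp [LS2.S, hN]
      · rw [if_pos rfl]; rfl
    rw [e]
    refine h.trans ?_
    have k1 : ((1 + |τ|) * (1 + X) * N) ^ δ ≤ (1 + |τ|) * ((1 + X) * R) ^ δ := by
      have k2 : (1 + |τ|) ^ δ ≤ 1 + |τ| := by
        calc (1 + |τ|) ^ δ ≤ (1 + |τ|) ^ (1 : ℝ) :=
              Real.rpow_le_rpow_of_exponent_le (by linarith) hδ1
          _ = _ := Real.rpow_one _
      calc ((1 + |τ|) * (1 + X) * N) ^ δ ≤ ((1 + |τ|) * ((1 + X) * R)) ^ δ := by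
            refine Real.rpow_le_rpow (by positivity) ?_ hδ.le
            rw [mul_assoc]; gcongr
        _ = (1 + |τ|) ^ δ * ((1 + X) * R) ^ δ := Real.mul_rpow (by positivity) (by positivity)
        _ ≤ _ := by gcongr
    have k3 : ((N : ℝ) + τ ^ 2) * X ≤ (1 + |τ|) ^ 3 * (R * X) := by
      have k4 : (N : ℝ) + τ ^ 2 ≤ (1 + |τ|) ^ 3 * R := by
        have k5 : 1 + τ ^ 2 ≤ (1 + |τ|) ^ 3 := by nlinarith [sq_abs τ, pow_nonneg ha 3]
        nlinarith [sq_nonneg τ, sq_abs τ]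
      nlinarith
    calc C1 * ((1 + |τ|) * (1 + X) * N) ^ δ * (((N : ℝ) + τ ^ 2) * X) ≤
          |C1| * ((1 + |τ|) * ((1 + X) * R) ^ δ) * ((1 + |τ|) ^ 3 * (R * X)) := by
          have := le_abs_self C1
          gcongr
      _ = _ := by ring
  -- (ii) the model part
  have hcard : ((LS2.S R).card : ℝ) ≤ 100 * R := by
    have h := Mob705.card_pb_le R hR0.le
    refine le_trans ?_ h
    exact_mod_cast Finset.card_le_card (Finset.filter_subset _ _)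
  have g2 : ∑ r ∈ LS2.S R, ‖MO τ v r X - MT τ v r X‖ ^ 2 ≤
      100 * (C2 ^ 2 * Ct ^ 2 * C3) * ((1 + |τ|) ^ 4 * ((1 + X) * R) ^ δ * (R * X)) := by
    have k1 : ∀ r ∈ LS2.S R, ‖MO τ v r X - MT τ v r X‖ ^ 2 ≤
        (C2 ^ 2 * Ct ^ 2 * C3) * ((1 + |τ|) ^ 2 * (((1 + X) * R) ^ δ * X)) := by
      intro r hr
      rw [LS2.mem_S hR0.le] at hr
      obtain ⟨hrR, hrp, hrs⟩ := hr
      have h4 := h2 r X τ hrp hrs hX
      have h5 := Mob705.sig_le_tau hrp.ne_zero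
      have h6 := ht r hrp.ne_zero
      have h7 : (Mob705.sig r) ^ 2 ≤ Ct ^ 2 * R ^ δ := by
        have h8 : Mob705.sig r ≤ Ct * R ^ (δ / 2) := by
          refine (h5.trans h6).trans ?_
          gcongr
        have h9 : (R ^ (δ / 2)) ^ 2 = R ^ δ := by
          rw [← Real.rpow_natCast, ← Real.rpow_mul hR0.le]; congr 1; push_cast; ring
        calc (Mob705.sig r) ^ 2 ≤ (Ct * R ^ (δ / 2)) ^ 2 := by
              have := Mob705.sig_pos r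
              gcongr
          _ = _ := by rw [mul_pow, h9]
      have h10 := h3 X hX hbX
      have h11 : 0 ≤ X ^ (-(1 / 6) : ℝ) * Model705.er X := by
        have := Model705.er_nonneg hX.le
        positivity
      calc ‖MO τ v r X - MT τ v r X‖ ^ 2 ≤
            (C2 * Mob705.sig r * (1 + |τ|) * (X ^ (-(1 / 6) : ℝ) * Model705.er X)) ^ 2 := by
            gcongr
        _ = C2 ^ 2 * (Mob705.sig r) ^ 2 * (1 + |τ|) ^ 2 *
            (X ^ (-(1 / 6) : ℝ) * Model705.er X) ^ 2 := by ring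
        _ ≤ C2 ^ 2 * (Ct ^ 2 * R ^ δ) * (1 + |τ|) ^ 2 * (C3 * (X * (1 + X) ^ δ)) := by gcongr
        _ = _ := by
            rw [Real.mul_rpow (by positivity) (by positivity)]; ring
    calc ∑ r ∈ LS2.S R, ‖MO τ v r X - MT τ v r X‖ ^ 2 ≤
          ∑ r ∈ LS2.S R, (C2 ^ 2 * Ct ^ 2 * C3) * ((1 + |τ|) ^ 2 * (((1 + X) * R) ^ δ * X)) :=
          Finset.sum_le_sum k1
      _ = (LS2.S R).card * ((C2 ^ 2 * Ct ^ 2 * C3) * ((1 + |τ|) ^ 2 * (((1 + X) * R) ^ δ * X))) := by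
          rw [Finset.sum_const, nsmul_eq_mul]
      _ ≤ (100 * R) * ((C2 ^ 2 * Ct ^ 2 * C3) * ((1 + |τ|) ^ 4 * (((1 + X) * R) ^ δ * X))) := by
          have : (1 + |τ|) ^ 2 ≤ (1 + |τ|) ^ 4 := pow_le_pow_right₀ (by linarith) (by norm_num)
          gcongr
      _ = _ := by ring
  -- combine
  have g3 : ∀ r ∈ LS2.S R, ‖SF τ v r X‖ ^ 2 ≤
      2 * ‖M49.TT 0 τ v r X - MT τ v r X‖ ^ 2 + 2 * ‖MO τ v r X - MT τ v r X‖ ^ 2 := by
    intro r _
    rw [SF_eq hv hX]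
    have e : M49.TT 0 τ v r X - MO τ v r X =
        (M49.TT 0 τ v r X - MT τ v r X) - (MO τ v r X - MT τ v r X) := by ring
    rw [e]
    have h1 := norm_sub_le (M49.TT 0 τ v r X - MT τ v r X) (MO τ v r X - MT τ v r X)
    have h0 := norm_nonneg ((M49.TT 0 τ v r X - MT τ v r X) - (MO τ v r X - MT τ v r X))
    nlinarith [sq_nonneg (‖M49.TT 0 τ v r X - MT τ v r X‖ - ‖MO τ v r X - MT τ v r X‖),
      mul_self_le_mul_self h0 h1]
  calc ∑ r ∈ LS2.S R, ‖SF τ v r X‖ ^ 2 ≤ ∑ r ∈ LS2.S R,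
        (2 * ‖M49.TT 0 τ v r X - MT τ v r X‖ ^ 2 + 2 * ‖MO τ v r X - MT τ v r X‖ ^ 2) :=
        Finset.sum_le_sum g3
    _ = 2 * ∑ r ∈ LS2.S R, ‖M49.TT 0 τ v r X - MT τ v r X‖ ^ 2 +
        2 * ∑ r ∈ LS2.S R, ‖MO τ v r X - MT τ v r X‖ ^ 2 := by
        rw [Finset.sum_add_distrib, Finset.mul_sum, Finset.mul_sum]
    _ ≤ 2 * (|C1| * ((1 + |τ|) ^ 4 * ((1 + X) * R) ^ δ * (R * X))) +
        2 * (100 * (C2 ^ 2 * Ct ^ 2 * C3) * ((1 + |τ|) ^ 4 * ((1 + X) * R) ^ δ * (R * X))) := by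
        gcongr
    _ ≤ _ := by
        have : 0 ≤ (1 + |τ|) ^ 4 * ((1 + X) * R) ^ δ * (R * X) := by positivity
        nlinarith

end Crest.Agent.R012.TIf645
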