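import Crest.Agent.R012.SpecM_49
import Crest.Agent.R012.Base_666

/-!
# Row 12, (M): from conjugate sums to `MS1` (helper663)

`CS w l t h X = Σ_{d ≡ 1 (3)} conj g(h,d) w(N d/X) (N d)^{it} (d/|d|)^l`.
`MS0 ρ` is the mean square statement for `CS`; `MS1_of_MS0 : MS0 ρ → MS1 (π conj ρ)`.
-/

set_option autoImplicit false

noncomputable section

open MeasureTheory Complex Set Filter Topology
open Crest.Agent.R012.Eis
open scoped ComplexConjugate

namespace Crest.Agent.R012.TIt663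

open Crest.Agent.R012 Crest.Agent.R012.M49

/-- `Σ_{d ≡ 1 (3)} conj g(h,d) w(N d/X) (N d)^{it} (d/|d|)^l`. -/
def CS (w : ℝ → ℂ) (l : ℤ) (t : ℝ) (h : Eis) (X : ℝ) : ℂ := by
  classical
  exact ∑' d : Eis, (if IsPrim d then
    conj (gs h d) * w (nm d / X) * (nm d : ℂ) ^ ((t : ℂ) * Complex.I) * ang l d else 0)

/-- the main term `[l = 0] π w^(4/3 + it) X^{4/3 + it}`. -/
def mainT (w : ℝ → ℂ) (l : ℤ) (t : ℝ) (X : ℝ) : ℂ :=
  if l = 0 then (Real.pi : ℂ) * mellin w ((4 : ℂ) / 3 + t * Complex.I) *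
    (X : ℂ) ^ ((4 : ℂ) / 3 + t * Complex.I) else 0

/-- the error term. -/
def DD (ρ : Eis → ℂ) (w : ℝ → ℂ) (l : ℤ) (t : ℝ) (h : Eis) (X : ℝ) : ℂ :=
  CS w l t h X - mainT w l t X * ρ h

/-- the mean square statement for the conjugate sums. -/
def MS0 (ρ : Eis → ℂ) : Prop :=
  ∀ (l : ℤ) (w : ℝ → ℂ), Wt w → ∀ δ : ℝ, 0 < δ → ∃ C : ℝ, ∀ (N : ℕ) (X t : ℝ),
    1 ≤ N → 1 ≤ X →
    ∑ h ∈ ball N, ‖DD ρ w l t h X‖ ^ 2 ≤
      C * ((1 + |t|) * X * N) ^ δ * ((N + t ^ 2) * X ^ 2)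

/-! ### conjugation -/


lemma conj_ang (l : ℤ) (z : Eis) : conj (ang l z) = ang (-l) z := by
  unfold ang
  rw [map_zpow₀, map_div₀, Complex.conj_ofReal]
  by_cases hz : toC z = 0
  · simp only [hz, map_zero, norm_zero, Complex.ofReal_zero, div_zero]
    by_cases hl : l = 0
    · simp [hl]
    · rw [zero_zpow _ hl, zero_zpow _ (by omega)]
  · have hn : (‖toC z‖ : ℂ) ≠ 0 := by
      rw [Ne, Complex.ofReal_eq_zero, norm_eq_zero]; exact hz
    rw [zpow_neg, ← inv_zpow]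
    congr 1
    rw [inv_div, div_eq_div_iff hn hz]
    rw [mul_comm, Complex.mul_conj, Complex.normSq_eq_norm_sq]
    push_cast
    ring

lemma conj_cpow_real {x : ℝ} (hx : 0 ≤ x) (s : ℂ) :
    conj ((x : ℂ) ^ s) = (x : ℂ) ^ (conj s) := by
  have := Complex.cpow_conj (x : ℂ) s (by
    rw [Complex.arg_ofReal_of_nonneg hx]; exact Real.pi_pos.ne)
  rw [this, Complex.conj_ofReal]

lemma mellin_conj (w : ℝ → ℂ) (s : ℂ) :
    conj (mellin w s) = mellin (fun x => conj (w x)) (conj s) := by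
  unfold mellin
  rw [← integral_conj]
  refine setIntegral_congr_fun measurableSet_Ioi fun x hx => ?_
  simp only [smul_eq_mul, map_mul]
  rw [conj_cpow_real (le_of_lt hx)]
  simp

/-! ### the weight `conj (v x) x^{-1/2}` -/

/-- `w(x) = conj (v x) x^{-1/2}`. -/
def wOf (v : ℝ → ℂ) (x : ℝ) : ℂ := ((x ^ (-(1 : ℝ) / 2) : ℝ) : ℂ) * conj (v x)

lemma wt_zero_near {v : ℝ → ℂ} (hv : Wt v) : ∃ a b : ℝ, 0 < a ∧ a < b ∧
    ∀ x, v x ≠ 0 → a ≤ x ∧ x ≤ b := by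
  obtain ⟨a, b, ha, hab, h⟩ := hv.supp
  refine ⟨a, b, ha, hab, fun x hx => ?_⟩
  by_contra hc
  exact hx (h x (by
    rw [not_and_or, not_le, not_le] at hc; exact hc))

lemma wt_wOf {v : ℝ → ℂ} (hv : Wt v) : Wt (wOf v) := by
  obtain ⟨a, b, ha, hab, h⟩ := hv.supp
  refine ⟨?_, a, b, ha, hab, fun x hx => ?_⟩
  · rw [contDiff_iff_contDiffAt]
    intro x
    by_cases hx : x < a
    · have : TIt663.wOf v =ᶠ[𝓝 x] fun _ => 0 := by
        filter_upwards [Iio_mem_nhds hx] with y hy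
        simp [TIt663.wOf, h y (Or.inl hy)]
      exact contDiffAt_const.congr_of_eventuallyEq this
    · have hx0 : x ≠ 0 := by
        have : a ≤ x := not_lt.mp hx
        linarith
      unfold TIt663.wOf
      refine ContDiffAt.mul ?_ ?_
      · exact (Complex.ofRealCLM.contDiff.contDiffAt).comp x
          (Real.contDiffAt_rpow_const_of_ne hx0)
      · exact (Complex.conjCLE.contDiff.contDiffAt).comp x (hv.smooth.contDiffAt)
  · simp [TIt663.wOf, h x hx]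

lemma SS_eq_conj_CS (v : ℝ → ℂ) (l : ℤ) (τ : ℝ) (h : Eis) {X : ℝ} (hX : 0 < X) :
    SS l τ v h X = ((X ^ (-(1 : ℝ) / 2) : ℝ) : ℂ) * conj (CS (wOf v) (-l) (-τ) h X) := by
  classical
  unfold SS CS
  rw [Complex.conj_tsum, ← tsum_mul_left]
  refine tsum_congr fun d => ?_
  by_cases hd : IsPrim d
  · have hnm : 0 < nm d := by
      rw [Nat.pos_iff_ne_zero, Ne, nm_eq_zero]; exact hd.ne_zero
    have hnm' : (0 : ℝ) < nm d := by exact_mod_cast hnm
    simp only [hd, if_true, map_mul, Complex.conj_conj]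
    rw [conj_ang, neg_neg]
    have e1 : conj ((nm d : ℂ) ^ (((-τ : ℝ) : ℂ) * Complex.I)) =
        (nm d : ℂ) ^ ((τ : ℂ) * Complex.I) := by
      have := conj_cpow_real hnm'.le (((-τ : ℝ) : ℂ) * Complex.I)
      rw [Complex.ofReal_natCast] at this
      rw [this]
      congr 1
      simp
    rw [e1]
    have e2 : conj (wOf v (nm d / X)) = (((nm d / X : ℝ) ^ (-(1 : ℝ) / 2) : ℝ) : ℂ) *
        v (nm d / X) := by
      simp [wOf]
    rw [e2]
    have e3 : (((X : ℝ) ^ (-(1 : ℝ) / 2) : ℝ) : ℂ) * (((nm d / X : ℝ) ^ (-(1 : ℝ) / 2) : ℝ) : ℂ) =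
        (((Real.sqrt (nm d) : ℝ) : ℂ))⁻¹ := by
      rw [← Complex.ofReal_mul, ← Complex.ofReal_inv]
      congr 1
      rw [← Real.mul_rpow hX.le (by positivity), mul_div_cancel₀ _ hX.ne',
        Real.sqrt_eq_rpow, ← Real.rpow_neg hnm'.le]
      norm_num
    rw [div_eq_mul_inv, ← e3]
    ring
  · simp [hd]

lemma mellin_wOf (v : ℝ → ℂ) (s : ℂ) :
    mellin (fun x => conj (wOf v x)) s = mellin v (s - 1 / 2) := by
  have e := mellin_cpow_smul v s (-(1 / 2 : ℂ))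
  rw [show s - 1 / 2 = s + -(1 / 2 : ℂ) by ring, ← e]
  unfold mellin
  refine setIntegral_congr_fun measurableSet_Ioi fun x hx => ?_
  have hx' : (0 : ℝ) < x := hx
  simp only [wOf, map_mul, Complex.conj_conj, Complex.conj_ofReal, smul_eq_mul]
  congr 2
  rw [Complex.ofReal_cpow hx'.le]
  congr 1
  push_cast
  ring

lemma main_eq (v : ℝ → ℂ) (l : ℤ) (τ : ℝ) (ρ : ℂ) {X : ℝ} (hX : 0 < X) :
    (if l = 0 then (Real.pi * conj ρ) * mellin v ((5 : ℂ) / 6 + τ * Complex.I) *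
      (X : ℂ) ^ ((5 : ℂ) / 6 + τ * Complex.I) else 0) =
    ((X ^ (-(1 : ℝ) / 2) : ℝ) : ℂ) * conj (mainT (wOf v) (-l) (-τ) X * ρ) := by
  unfold mainT
  by_cases hl : l = 0
  · subst hl
    simp only [if_true, neg_zero, map_mul, Complex.conj_ofReal]
    rw [mellin_conj, mellin_wOf, conj_cpow_real hX.le]
    have e1 : conj ((4 : ℂ) / 3 + ((-τ : ℝ) : ℂ) * Complex.I) = 4 / 3 + τ * Complex.I := by
      have h4 : conj (4 : ℂ) = 4 := Complex.conj_ofNat 4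
      have h3 : conj (3 : ℂ) = 3 := Complex.conj_ofNat 3
      simp [h4, h3]
    have hX0 : (X : ℂ) ≠ 0 := by exact_mod_cast hX.ne'
    rw [e1, show (4 : ℂ) / 3 + τ * Complex.I - 1 / 2 = 5 / 6 + τ * Complex.I by ring]
    have e2 : (X : ℂ) ^ ((5 : ℂ) / 6 + τ * Complex.I) =
        ((X ^ (-(1 : ℝ) / 2) : ℝ) : ℂ) * (X : ℂ) ^ ((4 : ℂ) / 3 + τ * Complex.I) := by
      rw [Complex.ofReal_cpow hX.le, ← Complex.cpow_add _ _ hX0]
      congr 1
      push_cast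
      ring
    rw [e2]
    ring
  · simp [hl]

theorem MS1_of_MS0 {ρ : Eis → ℂ} (H : MS0 ρ) :
    MS1 (fun h => (Real.pi : ℂ) * conj (ρ h)) := by
  intro l v hv δ hδ
  obtain ⟨C, hC⟩ := H (-l) (wOf v) (wt_wOf hv) δ hδ
  refine ⟨C, fun N X τ hN hX => ?_⟩
  have hX0 : 0 < X := by linarith
  have h1 := hC N X (-τ) hN hX
  rw [abs_neg, neg_sq] at h1
  have key : ∀ h : Eis, ‖SS l τ v h X - (if l = 0 then
        ((Real.pi : ℂ) * conj (ρ h)) * mellin v ((5 : ℂ) / 6 + τ * Complex.I) *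
          (X : ℂ) ^ ((5 : ℂ) / 6 + τ * Complex.I) else 0)‖ ^ 2 =
      X⁻¹ * ‖DD ρ (wOf v) (-l) (-τ) h X‖ ^ 2 := by
    intro h
    rw [SS_eq_conj_CS v l τ h hX0, main_eq v l τ (ρ h) hX0, ← mul_sub, ← map_sub, norm_mul,
      RCLike.norm_conj, mul_pow, Complex.norm_real, Real.norm_of_nonneg (by positivity)]
    congr 1
    rw [← Real.rpow_natCast, ← Real.rpow_mul hX0.le]
    norm_num
    rw [Real.rpow_neg_one]
  simp only [key]
  rw [← Finset.mul_sum]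
  calc X⁻¹ * ∑ h ∈ ball N, ‖DD ρ (wOf v) (-l) (-τ) h X‖ ^ 2
      ≤ X⁻¹ * (C * ((1 + |τ|) * X * N) ^ δ * ((N + τ ^ 2) * X ^ 2)) := by gcongr
    _ = C * ((1 + |τ|) * X * N) ^ δ * ((N + τ ^ 2) * X) := by
        field_simp

end Crest.Agent.R012.TIt663
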