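import Crest.Agent.R012.TItB_663
import Crest.Agent.R012.Four_813
import Crest.Agent.R012.Trace_384

/-!
# Row 12, (M): the sums at the special frames in polar form (helper663)
-/

set_option autoImplicit false

noncomputable section

open MeasureTheory Complex Set Filter Topology
open Crest.Agent.R012.Eis
open scoped ComplexConjugate ENNReal

namespace Crest.Agent.R012.TIt663

open Crest.Agent.R012 Crest.Agent.R012.M49 Crest.Agent.R012.Four813

/-- the weight `W_{w,t,l,B}(z) = w(|z|²/B) |z|^{2it} (z/|z|)^l`. -/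
def Ww (w : ℝ → ℂ) (t : ℝ) (l : ℤ) (B : ℝ) (z : ℂ) : ℂ :=
  w (‖z‖ ^ 2 / B) * ((‖z‖ : ℝ) : ℂ) ^ (2 * (t : ℂ) * Complex.I) * (z / ((‖z‖ : ℝ) : ℂ)) ^ l

/-- the mass `∫ U(z) |z|^{2/3} dz`. -/
def mU (U : ℂ → ℂ) : ℂ := ∫ z, U z * ((‖z‖ ^ ((2 : ℝ) / 3) : ℝ) : ℂ)

/-- the phase `|e|^{2it} (e/|e|)^l`. -/
def ph (t : ℝ) (l : ℤ) (e : ℂ) : ℂ :=
  ((‖e‖ : ℝ) : ℂ) ^ (2 * (t : ℂ) * Complex.I) * (e / ((‖e‖ : ℝ) : ℂ)) ^ l

lemma norm_ph (t : ℝ) (l : ℤ) {e : ℂ} (he : e ≠ 0) : ‖ph t l e‖ = 1 := by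
  have h0 : 0 < ‖e‖ := norm_pos_iff.mpr he
  unfold ph
  rw [norm_mul, Complex.norm_cpow_eq_rpow_re_of_pos h0]
  have h1 : (2 * (t : ℂ) * Complex.I).re = 0 := by simp
  rw [h1, Real.rpow_zero, norm_zpow, norm_div, Complex.norm_real, norm_norm,
    div_self h0.ne', one_zpow, one_mul]

lemma Ww_mul (w : ℝ → ℂ) (t : ℝ) (l : ℤ) (B : ℝ) (z e : ℂ) :
    Ww w t l B (z * e) = w (‖z‖ ^ 2 * ‖e‖ ^ 2 / B) * ph t l z * ph t l e := by
  unfold Ww ph
  rw [norm_mul, mul_pow, Complex.ofReal_mul,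
    Complex.mul_cpow_ofReal_nonneg (norm_nonneg _) (norm_nonneg _), mul_div_mul_comm, mul_zpow]
  ring

lemma cpow_sq {x : ℝ} (hx : 0 < x) (t : ℂ) :
    (x : ℂ) ^ (2 * t * Complex.I) = ((x ^ 2 : ℝ) : ℂ) ^ (t * Complex.I) := by
  have h1 : (x : ℂ) ≠ 0 := by exact_mod_cast hx.ne'
  have h2 : ((x ^ 2 : ℝ) : ℂ) ≠ 0 := by
    rw [Ne, Complex.ofReal_eq_zero]; positivity
  rw [Complex.cpow_def_of_ne_zero h1, Complex.cpow_def_of_ne_zero h2, ← Complex.ofReal_log hx.le,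
    ← Complex.ofReal_log (by positivity), Real.log_pow]
  congr 1
  push_cast
  ring

lemma ph_toC (t : ℝ) (l : ℤ) {d : Eis} (hd : d ≠ 0) :
    ph t l (toC d) = (nm d : ℂ) ^ ((t : ℂ) * Complex.I) * ang l d := by
  have hn : toC d ≠ 0 := by rwa [Ne, toC_eq_zero]
  have h0 : 0 < ‖toC d‖ := norm_pos_iff.mpr hn
  unfold ph ang
  congr 1
  rw [cpow_sq h0, norm_toC_sq]
  simp

open Classical in
/-- the sum at a special frame. -/
lemma Sg_Ww (w : ℝ → ℂ) (t : ℝ) (l : ℤ) {B : ℝ} (u : Eis) {e : ℂ} (he : e ≠ 0) :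
    Sg (fun _ => 1) (Ww w t l B) u e = ph t l e * CS w l t u (B / ‖e‖ ^ 2) := by
  unfold Sg CS
  rw [← tsum_mul_left]
  refine tsum_congr fun d => ?_
  by_cases hd : IsPrim d
  · simp only [hd, if_true]
    rw [Ww_mul, ph_toC t l hd.ne_zero, norm_toC_sq]
    have h0 : ‖e‖ ≠ 0 := norm_ne_zero_iff.mpr he
    have : (nm d : ℝ) * ‖e‖ ^ 2 / B = nm d / (B / ‖e‖ ^ 2) := by
      rw [div_div_eq_mul_div]
    rw [this]
    ring
  · simp [hd]

/-! ### the mass -/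

lemma integral_polar_prod (f : ℝ → ℂ) (g : ℝ → ℂ) (F : ℂ → ℂ)
    (hF : ∀ p ∈ polarCoord.target, F (Complex.polarCoord.symm p) = f p.1 * g p.2) :
    ∫ z, F z = (∫ x in Ioi (0 : ℝ), (x : ℂ) * f x) * ∫ θ in Ioo (-Real.pi) Real.pi, g θ := by
  rw [← Complex.integral_comp_polarCoord_symm]
  have h1 : ∫ p in polarCoord.target, p.1 • F (Complex.polarCoord.symm p) =
      ∫ p in (Ioi (0 : ℝ)) ×ˢ (Ioo (-Real.pi) Real.pi), ((p.1 : ℂ) * f p.1) * g p.2 := by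
    refine setIntegral_congr_fun polarCoord.open_target.measurableSet fun p hp => ?_
    rw [hF p hp, Complex.real_smul]
    ring
  rw [h1, Measure.volume_eq_prod, ← setIntegral_prod_mul]

lemma integral_circle (l : ℤ) :
    ∫ θ in Ioo (-Real.pi) Real.pi, (Complex.exp (θ * Complex.I)) ^ l =
      if l = 0 then (2 * Real.pi : ℂ) else 0 := by
  rw [← integral_Ioc_eq_integral_Ioo, ← intervalIntegral.integral_of_le
    (by linarith [Real.pi_pos])]
  by_cases hl : l = 0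
  · simp [hl]
    ring
  · simp only [hl, if_false]
    have h1 : ∀ θ : ℝ, (Complex.exp (θ * Complex.I)) ^ l = Complex.exp ((l * Complex.I) * θ) := by
      intro θ
      rw [← Complex.exp_int_mul]
      congr 1; ring
    simp_rw [h1]
    have hl' : (l : ℂ) * Complex.I ≠ 0 := mul_ne_zero (by exact_mod_cast hl) Complex.I_ne_zero
    rw [integral_exp_mul_complex hl']
    have h2 : Complex.exp ((l : ℂ) * Complex.I * (Real.pi : ℝ)) =
        Complex.exp ((l : ℂ) * Complex.I * ((-Real.pi : ℝ) : ℂ)) := by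
      rw [Complex.exp_eq_exp_iff_exists_int]
      refine ⟨l, ?_⟩
      push_cast
      ring
    rw [h2, sub_self, zero_div]

lemma mellin_sq (w : ℝ → ℂ) (t : ℝ) {X : ℝ} (hX : 0 < X) :
    mellin (fun x => w (x ^ (2 : ℝ) * X⁻¹)) (8 / 3 + 2 * t * Complex.I) =
      (1 / 2) * (mellin w (4 / 3 + t * Complex.I) * (X : ℂ) ^ ((4 : ℂ) / 3 + t * Complex.I)) := by
  have h1 := mellin_comp_rpow (fun y => w (y * X⁻¹)) (8 / 3 + 2 * t * Complex.I) 2
  rw [h1]
  rw [show (8 / 3 + 2 * t * Complex.I) / ((2 : ℝ) : ℂ) = 4 / 3 + t * Complex.I by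
    push_cast; ring]
  rw [mellin_comp_mul_right w _ (inv_pos.mpr hX)]
  have h2 : ((X⁻¹ : ℝ) : ℂ) ^ (-((4 : ℂ) / 3 + t * Complex.I)) =
      (X : ℂ) ^ ((4 : ℂ) / 3 + t * Complex.I) := by
    rw [Complex.ofReal_inv, Complex.inv_cpow _ _ (by
      rw [Complex.arg_ofReal_of_nonneg hX.le]; exact Real.pi_pos.ne), Complex.cpow_neg, inv_inv]
  rw [h2]
  simp only [smul_eq_mul, Complex.real_smul]
  rw [show |(2 : ℝ)|⁻¹ = 1 / 2 by norm_num]
  push_cast
  ring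

lemma mU_Ww (w : ℝ → ℂ) (t : ℝ) (l : ℤ) {B : ℝ} (hB : 0 < B) {e : ℂ} (he : e ≠ 0) :
    mU (fun z => Ww w t l B (z * e)) = ph t l e * mainT w l t (B / ‖e‖ ^ 2) := by
  have h0 : 0 < ‖e‖ := norm_pos_iff.mpr he
  have hX : 0 < B / ‖e‖ ^ 2 := by positivity
  unfold mU
  rw [integral_polar_prod
    (fun x => ph t l e * (w (x ^ (2 : ℝ) * (B / ‖e‖ ^ 2)⁻¹) *
      ((x : ℂ) ^ (2 * (t : ℂ) * Complex.I) * (x : ℂ) ^ ((2 : ℂ) / 3))))
    (fun θ => (Complex.exp (θ * Complex.I)) ^ l)]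
  · rw [integral_circle]
    unfold mainT
    by_cases hl : l = 0
    · simp only [hl, if_true]
      have h1 : ∫ x in Ioi (0 : ℝ), (x : ℂ) * (ph t 0 e * (w (x ^ (2 : ℝ) * (B / ‖e‖ ^ 2)⁻¹) *
          ((x : ℂ) ^ (2 * (t : ℂ) * Complex.I) * (x : ℂ) ^ ((2 : ℂ) / 3)))) =
          ph t 0 e * mellin (fun x => w (x ^ (2 : ℝ) * (B / ‖e‖ ^ 2)⁻¹))
            (8 / 3 + 2 * t * Complex.I) := by
        unfold mellin
        rw [← integral_const_mul]
        refine setIntegral_congr_fun measurableSet_Ioi fun x hx => ?_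
        have hx' : (x : ℂ) ≠ 0 := by exact_mod_cast (ne_of_gt hx)
        simp only [smul_eq_mul]
        have h3 : (x : ℂ) ^ (8 / 3 + 2 * t * Complex.I - 1) =
            (x : ℂ) * ((x : ℂ) ^ (2 * (t : ℂ) * Complex.I) * (x : ℂ) ^ ((2 : ℂ) / 3)) := by
          rw [← Complex.cpow_add _ _ hx']
          nth_rewrite 2 [← Complex.cpow_one (x : ℂ)]
          rw [← Complex.cpow_add _ _ hx']
          congr 1
          ring
        rw [h3]
        ring
      rw [h1, mellin_sq w t hX]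
      ring
    · simp [hl]
  · intro p hp
    have hp1 : 0 < p.1 := by
      rw [polarCoord_target] at hp
      exact hp.1
    show Ww w t l B (Complex.polarCoord.symm p * e) * _ = _
    rw [Ww_mul]
    have h1 : ‖Complex.polarCoord.symm p‖ = p.1 := by
      rw [Complex.norm_polarCoord_symm, abs_of_pos hp1]
    have h2 : Complex.polarCoord.symm p = (p.1 : ℂ) * Complex.exp (p.2 * Complex.I) := by
      rw [Complex.polarCoord_symm_apply, Complex.exp_mul_I]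
      push_cast
      ring
    have h3 : ph t l (Complex.polarCoord.symm p) =
        (p.1 : ℂ) ^ (2 * (t : ℂ) * Complex.I) * (Complex.exp (p.2 * Complex.I)) ^ l := by
      unfold ph
      rw [h1, h2, mul_div_cancel_left₀]
      exact_mod_cast hp1.ne'
    rw [h3, h1, Complex.ofReal_cpow hp1.le]
    have h4 : p.1 ^ 2 * ‖e‖ ^ 2 / B = p.1 ^ (2 : ℝ) * (B / ‖e‖ ^ 2)⁻¹ := by
      rw [inv_div, Real.rpow_two]; ring
    rw [h4]
    push_cast
    ring

/-- the difference at a special frame. -/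
lemma diff_special (ρ : Eis → ℂ) (w : ℝ → ℂ) (t : ℝ) (l : ℤ) {B : ℝ} (hB : 0 < B) (u : Eis)
    {e : ℂ} (he : e ≠ 0) :
    ‖Sg (fun _ => 1) (Ww w t l B) u e - mU (fun z => Ww w t l B (z * e)) * ρ u‖ =
      ‖DD ρ w l t u (B / ‖e‖ ^ 2)‖ := by
  rw [Sg_Ww w t l u he, mU_Ww w t l hB he, mul_assoc, ← mul_sub, norm_mul, norm_ph t l he, one_mul]
  rfl

end Crest.Agent.R012.TIt663
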