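import Crest.Agent.R012.TItC1_663

/-!
# Row 12, (M): dilation trace and polar lower bound (helper663)
-/

set_option autoImplicit false

noncomputable section

open MeasureTheory Complex Set Filter Topology
open Crest.Agent.R012.Eis
open scoped ComplexConjugate ENNReal

namespace Crest.Agent.R012.TIt663

open Crest.Agent.R012 Crest.Agent.R012.M49 Crest.Agent.R012.Four813

/-! ### the Euler derivative of a weight -/

/-- `x w'(x)`. -/
def wD (w : ℝ → ℂ) (x : ℝ) : ℂ := (x : ℂ) * deriv w x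

lemma wt_wD {w : ℝ → ℂ} (hw : Wt w) : Wt (wD w) := by
  obtain ⟨a, b, ha, hab, h⟩ := hw.supp
  have hd : ContDiff ℝ ((⊤ : ℕ∞) : WithTop ℕ∞) (deriv w) := by
    have := (contDiff_infty_iff_deriv (f := w)).mp hw.smooth
    exact this.2
  refine ⟨?_, a, b, ha, hab, fun x hx => ?_⟩
  · exact (Complex.ofRealCLM.contDiff).mul hd
  · unfold wD
    have : deriv w x = 0 := by
      have h1 : w =ᶠ[𝓝 x] fun _ => 0 := by
        rcases hx with hx | hx
        · filter_upwards [Iio_mem_nhds hx] with y hy using h y (Or.inl hy)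
        · filter_upwards [Ioi_mem_nhds hx] with y hy using h y (Or.inr hy)
      rw [h1.deriv_eq, deriv_const]
    rw [this, mul_zero]

lemma hasDerivAt_wt {w : ℝ → ℂ} (hw : Wt w) (x : ℝ) : HasDerivAt w (deriv w x) x :=
  ((hw.smooth.differentiable (by simp)) x).hasDerivAt

lemma mellin_wD {w : ℝ → ℂ} (hw : Wt w) (s : ℂ) : mellin (wD w) s = -s * mellin w s := by
  obtain ⟨a, b, ha, hab, h⟩ := hw.supp
  have hdc : Continuous (deriv w) := by
    have := (contDiff_infty_iff_deriv (f := w)).mp hw.smooth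
    exact this.2.continuous
  -- both Mellin transforms are interval integrals on `[a/2, b+1]`
  have hI : ∀ g : ℝ → ℂ, (∀ x, x < a ∨ b < x → g x = 0) → ∀ s : ℂ,
      mellin g s = ∫ x in (a / 2)..(b + 1), (x : ℂ) ^ (s - 1) * g x := by
    intro g hg s
    unfold mellin
    rw [intervalIntegral.integral_of_le (by linarith)]
    refine setIntegral_eq_of_subset_of_forall_sdiff_eq_zero measurableSet_Ioi ?_ ?_
    · intro x hx
      have := hx.1
      simp only [mem_Ioi]
      linarith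
    · intro x hx
      have h1 : ¬ (a / 2 < x ∧ x ≤ b + 1) := hx.2
      rw [not_and_or, not_lt, not_le] at h1
      rw [hg x (by
        rcases h1 with h1 | h1
        · left; linarith
        · right; linarith), smul_zero]
  have hwD := (wt_wD hw)
  have h2 : ∀ x, x < a ∨ b < x → wD w x = 0 := by
    intro x hx
    unfold wD
    have : deriv w x = 0 := by
      have h1 : w =ᶠ[𝓝 x] fun _ => 0 := by
        rcases hx with hx | hx
        · filter_upwards [Iio_mem_nhds hx] with y hy using h y (Or.inl hy)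
        · filter_upwards [Ioi_mem_nhds hx] with y hy using h y (Or.inr hy)
      rw [h1.deriv_eq, deriv_const]
    rw [this, mul_zero]
  rw [hI _ h2, hI _ h]
  by_cases hs : s = 0
  · subst hs
    have h3 : ∀ x ∈ uIcc (a / 2) (b + 1), (x : ℂ) ^ ((0 : ℂ) - 1) * wD w x = deriv w x := by
      intro x hx
      rw [uIcc_of_le (by linarith)] at hx
      have hx0 : (x : ℂ) ≠ 0 := by
        have : 0 < x := by linarith [hx.1]
        exact_mod_cast this.ne'
      unfold wD
      rw [zero_sub, Complex.cpow_neg_one, ← mul_assoc, inv_mul_cancel₀ hx0, one_mul]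
    rw [intervalIntegral.integral_congr h3, intervalIntegral.integral_deriv_eq_sub
      (fun x _ => (hasDerivAt_wt hw x).differentiableAt) (hdc.intervalIntegrable _ _),
      h (a / 2) (Or.inl (by linarith)), h (b + 1) (Or.inr (by linarith))]
    simp
  · have hu : ∀ x ∈ uIcc (a / 2) (b + 1), HasDerivAt (fun x : ℝ => (x : ℂ) ^ s)
        (s * (x : ℂ) ^ (s - 1)) x := by
      intro x hx
      rw [uIcc_of_le (by linarith)] at hx
      have hx0 : 0 < x := by linarith [hx.1]
      exact hasDerivAt_ofReal_cpow_const hx0.ne' hs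
    have hcont : ContinuousOn (fun x : ℝ => s * (x : ℂ) ^ (s - 1)) (uIcc (a / 2) (b + 1)) := by
      intro x hx
      rw [uIcc_of_le (by linarith)] at hx
      have hx0 : 0 < x := by linarith [hx.1]
      refine ContinuousAt.continuousWithinAt ?_
      refine continuousAt_const.mul ?_
      exact (continuousAt_ofReal_cpow_const _ _ (Or.inr hx0.ne'))
    have h5 := intervalIntegral.integral_mul_deriv_eq_deriv_mul (a := a / 2) (b := b + 1)
      (u := fun x : ℝ => (x : ℂ) ^ s) (v := w) (u' := fun x : ℝ => s * (x : ℂ) ^ (s - 1))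
      (v' := deriv w) hu (fun x _ => hasDerivAt_wt hw x) hcont.intervalIntegrable
      (hdc.intervalIntegrable _ _)
    rw [h (a / 2) (Or.inl (by linarith)), h (b + 1) (Or.inr (by linarith))] at h5
    have h6 : ∫ x in (a / 2)..(b + 1), (x : ℂ) ^ (s - 1) * wD w x =
        ∫ x in (a / 2)..(b + 1), (x : ℂ) ^ s * deriv w x := by
      refine intervalIntegral.integral_congr fun x hx => ?_
      rw [uIcc_of_le (by linarith)] at hx
      have hx0 : (x : ℂ) ≠ 0 := by
        have : 0 < x := by linarith [hx.1]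
        exact_mod_cast this.ne'
      simp only [wD]
      rw [← mul_assoc]
      congr 1
      nth_rewrite 2 [← Complex.cpow_one (x : ℂ)]
      rw [← Complex.cpow_add _ _ hx0]
      congr 1; ring
    rw [h6, h5]
    have h7 : ∫ x in (a / 2)..(b + 1), s * (x : ℂ) ^ (s - 1) * w x =
        s * ∫ x in (a / 2)..(b + 1), (x : ℂ) ^ (s - 1) * w x := by
      rw [← intervalIntegral.integral_const_mul]
      refine intervalIntegral.integral_congr fun x _ => ?_
      ring
    rw [h7]
    ring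

/-! ### finite sums -/

/-- finite version of `CS`. -/
def CSf (M : ℕ) (w : ℝ → ℂ) (l : ℤ) (t : ℝ) (h : Eis) (X : ℝ) : ℂ :=
  ∑ d ∈ primBall M, conj (gs h d) * w (nm d / X) * (nm d : ℂ) ^ ((t : ℂ) * Complex.I) * ang l d

lemma CS_eq_CSf {w : ℝ → ℂ} {b : ℝ} (hw : ∀ x, b < x → w x = 0) (l : ℤ) (t : ℝ) (h : Eis)
    {X : ℝ} (hX : 0 < X) {M : ℕ} (hM : b * X ≤ M) : CS w l t h X = CSf M w l t h X := by
  classical
  unfold CS CSf
  rw [tsum_eq_sum (s := primBall M)]
  · refine Finset.sum_congr rfl fun d hd => ?_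
    rw [if_pos (mem_primBall.mp hd).2]
  · intro d hd
    by_cases hp : IsPrim d
    · rw [if_pos hp]
      have h1 : M < nm d := by
        by_contra hc
        exact hd (mem_primBall.mpr ⟨not_lt.mp hc, hp⟩)
      have h2 : b < nm d / X := by
        rw [lt_div_iff₀ hX]
        have : (M : ℝ) < nm d := by exact_mod_cast h1
        linarith
      rw [hw _ h2]
      simp
    · rw [if_neg hp]

/-- finite version of `DD`. -/
def DDf (M : ℕ) (ρ : Eis → ℂ) (w : ℝ → ℂ) (l : ℤ) (t : ℝ) (h : Eis) (X : ℝ) : ℂ :=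
  CSf M w l t h X - mainT w l t X * ρ h

lemma DD_eq_DDf (ρ : Eis → ℂ) {w : ℝ → ℂ} {b : ℝ} (hw : ∀ x, b < x → w x = 0) (l : ℤ) (t : ℝ)
    (h : Eis) {X : ℝ} (hX : 0 < X) {M : ℕ} (hM : b * X ≤ M) :
    DD ρ w l t h X = DDf M ρ w l t h X := by
  unfold DD DDf
  rw [CS_eq_CSf hw l t h hX hM]

lemma measurable_DDf (M : ℕ) (ρ : Eis → ℂ) {w : ℝ → ℂ} (hw : Continuous w) (l : ℤ) (t : ℝ)
    (h : Eis) : Measurable (DDf M ρ w l t h) := by
  unfold DDf CSf mainT
  refine Measurable.sub ?_ ?_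
  · refine Finset.measurable_sum _ fun d _ => ?_
    refine Measurable.mul (Measurable.mul (Measurable.mul measurable_const ?_) measurable_const)
      measurable_const
    exact hw.measurable.comp (measurable_const.div measurable_id)
  · refine Measurable.mul ?_ measurable_const
    by_cases hl : l = 0
    · simp only [hl, if_true]
      refine Measurable.mul measurable_const ?_
      exact (Complex.measurable_ofReal).pow_const _
    · simp only [hl, if_false]
      exact measurable_const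

/-! ### the dilation trace -/

/-- the scale `Y 4^{-s}`. -/
def sc (Y s : ℝ) : ℝ := Y * Real.exp (-(s * Real.log 4))

lemma sc_pos {Y : ℝ} (hY : 0 < Y) (s : ℝ) : 0 < sc Y s := by unfold sc; positivity

lemma sc_le {Y : ℝ} (hY : 0 < Y) {s : ℝ} (hs : 0 ≤ s) : sc Y s ≤ Y := by
  unfold sc
  have h4 : 0 < Real.log 4 := Real.log_pos (by norm_num)
  have : Real.exp (-(s * Real.log 4)) ≤ 1 := by
    rw [Real.exp_le_one_iff]; nlinarith
  nlinarith

@[simp] lemma sc_zero (Y : ℝ) : sc Y 0 = Y := by simp [sc]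

lemma hasDerivAt_w_sc {w : ℝ → ℂ} (hw : Wt w) {Y : ℝ} (hY : 0 < Y) (n s : ℝ) :
    HasDerivAt (fun s => w (n / sc Y s)) (Real.log 4 * wD w (n / sc Y s)) s := by
  have h1 : ∀ s, n / sc Y s = (n / Y) * Real.exp (s * Real.log 4) := by
    intro s
    unfold sc
    rw [Real.exp_neg]
    field_simp
  have h2 : HasDerivAt (fun s : ℝ => (n / Y) * Real.exp (s * Real.log 4))
      ((n / Y) * (Real.exp (s * Real.log 4) * Real.log 4)) s := by
    refine HasDerivAt.const_mul _ ?_
    exact (((hasDerivAt_id s).mul_const (Real.log 4)).exp).congr_deriv (by simp)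
  have h3 := (hasDerivAt_wt hw ((n / Y) * Real.exp (s * Real.log 4))).scomp s h2
  simp only [h1]
  refine h3.congr_deriv ?_
  unfold wD
  rw [Complex.real_smul]
  push_cast
  ring

lemma hasDerivAt_pow_sc {Y : ℝ} (hY : 0 < Y) (z : ℂ) (s : ℝ) :
    HasDerivAt (fun s => ((sc Y s : ℝ) : ℂ) ^ z) (Real.log 4 * (-z * ((sc Y s : ℝ) : ℂ) ^ z)) s := by
  have h1 : ∀ s, ((sc Y s : ℝ) : ℂ) ^ z = (Y : ℂ) ^ z * Complex.exp (-(s * Real.log 4) * z) := by
    intro s
    have h0 := sc_pos hY s
    have hY0 : (Y : ℂ) ≠ 0 := by exact_mod_cast hY.ne'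
    have h00 : ((sc Y s : ℝ) : ℂ) ≠ 0 := by exact_mod_cast h0.ne'
    rw [Complex.cpow_def_of_ne_zero h00, Complex.cpow_def_of_ne_zero hY0, ← Complex.exp_add,
      ← Complex.ofReal_log h0.le, ← Complex.ofReal_log hY.le]
    congr 1
    unfold sc
    rw [Real.log_mul hY.ne' (Real.exp_pos _).ne', Real.log_exp]
    push_cast
    ring
  simp only [h1]
  have h2 : HasDerivAt (fun s : ℝ => -((s : ℂ) * Real.log 4) * z) (-(Real.log 4) * z) s := by
    have : HasDerivAt (fun s : ℝ => (s : ℂ)) 1 s := Complex.ofRealCLM.hasDerivAt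
    exact (((this.mul_const (Real.log 4 : ℂ)).neg).mul_const z).congr_deriv (by simp)
  exact ((h2.cexp).const_mul _).congr_deriv (by ring)

lemma hasDerivAt_DDf (M : ℕ) (ρ : Eis → ℂ) {w : ℝ → ℂ} (hw : Wt w) (l : ℤ) (t : ℝ) (u : Eis)
    {Y : ℝ} (hY : 0 < Y) (s : ℝ) :
    HasDerivAt (fun s => DDf M ρ w l t u (sc Y s)) (Real.log 4 * DDf M ρ (wD w) l t u (sc Y s)) s := by
  unfold DDf
  have h1 : HasDerivAt (fun s => CSf M w l t u (sc Y s))
      (Real.log 4 * CSf M (wD w) l t u (sc Y s)) s := by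
    unfold CSf
    rw [Finset.mul_sum]
    refine HasDerivAt.fun_sum fun d _ => ?_
    have := (((hasDerivAt_w_sc hw hY (nm d) s).const_mul (conj (gs u d))).mul_const
      ((nm d : ℂ) ^ ((t : ℂ) * Complex.I))).mul_const (ang l d)
    exact this.congr_deriv (by ring)
  have h2 : HasDerivAt (fun s => mainT w l t (sc Y s))
      (Real.log 4 * mainT (wD w) l t (sc Y s)) s := by
    unfold mainT
    by_cases hl : l = 0
    · simp only [hl, if_true]
      have := (hasDerivAt_pow_sc hY ((4 : ℂ) / 3 + t * Complex.I) s).const_mul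
        ((Real.pi : ℂ) * mellin w ((4 : ℂ) / 3 + t * Complex.I))
      refine this.congr_deriv ?_
      rw [mellin_wD hw]
      ring
    · simp only [hl, if_false, mul_zero]
      exact hasDerivAt_const _ _
  exact (h1.sub (h2.mul_const _)).congr_deriv (by ring)

lemma wD_zero {w : ℝ → ℂ} {b : ℝ} (hv1 : ∀ x, b < x → w x = 0) : ∀ x, b < x → wD w x = 0 := by
  intro x hx
  unfold wD
  have h1 : w =ᶠ[𝓝 x] fun _ => 0 := by
    filter_upwards [Ioi_mem_nhds hx] with y hy using hv1 y hy
  rw [h1.deriv_eq, deriv_const, mul_zero]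

lemma measurable_sc (Y : ℝ) : Measurable (sc Y) := by
  unfold sc; fun_prop

/-- the dilation trace, with the finite sums on the right. -/
theorem dil_trace (ρ : Eis → ℂ) {w : ℝ → ℂ} (hw : Wt w) (l : ℤ) (t : ℝ) (u : Eis)
    {Y : ℝ} (hY : 0 < Y) {b : ℝ} (hv1 : ∀ x, b < x → w x = 0) {M : ℕ}
    (hMb : b * Y ≤ M) :
    ‖DD ρ w l t u Y‖ₑ ^ 2 ≤ 2 * ∫⁻ s in Icc (0 : ℝ) 1,
      (‖DDf M ρ w l t u (sc Y s)‖ₑ ^ 2 + 4 * ‖DDf M ρ (wD w) l t u (sc Y s)‖ₑ ^ 2) := by
  have key := Trace384.sob1 (h := fun s => DDf M ρ w l t u (sc Y s))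
    (h' := fun s => Real.log 4 * DDf M ρ (wD w) l t u (sc Y s))
    (fun s => hasDerivAt_DDf M ρ hw l t u hY s)
    (continuous_const.mul (continuous_iff_continuousAt.mpr fun s =>
      (hasDerivAt_DDf M ρ (wt_wD hw) l t u hY s).continuousAt))
  simp only [sc_zero] at key
  rw [DD_eq_DDf ρ hv1 l t u hY hMb]
  refine key.trans ?_
  gcongr 2 * ?_
  refine setLIntegral_mono' measurableSet_Icc fun s hs => ?_
  rw [enorm_mul, mul_pow]
  gcongr
  have h4 : ‖((Real.log 4 : ℝ) : ℂ)‖ₑ ≤ 2 := by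
    rw [← ofReal_norm, Complex.norm_real, Real.norm_of_nonneg (Real.log_nonneg (by norm_num))]
    rw [show (2 : ℝ≥0∞) = ENNReal.ofReal 2 by simp]
    apply ENNReal.ofReal_le_ofReal
    have h5 : Real.log 4 = 2 * Real.log 2 := by
      rw [show (4 : ℝ) = 2 ^ 2 by norm_num, Real.log_pow]; norm_num
    have := Real.log_two_lt_d9
    linarith
  calc ‖((Real.log 4 : ℝ) : ℂ)‖ₑ ^ 2 ≤ 2 ^ 2 := by gcongr
    _ = 4 := by norm_num

/-! ### polar lower bound -/

lemma lintegral_polar_radial (F : ℝ → ℝ≥0∞) (hF : Measurable F) :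
    ∫⁻ e : ℂ, F ‖e‖ = ENNReal.ofReal (2 * Real.pi) * ∫⁻ x in Ioi (0 : ℝ), ENNReal.ofReal x * F x := by
  rw [← Complex.lintegral_comp_polarCoord_symm]
  have h1 : ∫⁻ p in polarCoord.target, ENNReal.ofReal p.1 • F ‖Complex.polarCoord.symm p‖ =
      ∫⁻ p in (Ioi (0 : ℝ)) ×ˢ (Ioo (-Real.pi) Real.pi), (ENNReal.ofReal p.1 * F p.1) * 1 := by
    refine setLIntegral_congr_fun polarCoord.open_target.measurableSet fun p hp => ?_
    have hp1 : 0 < p.1 := by
      rw [polarCoord_target] at hp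
      exact hp.1
    simp only [smul_eq_mul, mul_one]
    rw [Complex.norm_polarCoord_symm, abs_of_pos hp1]
  rw [h1, Measure.volume_eq_prod, ← Measure.prod_restrict]
  rw [lintegral_prod_mul (f := fun x => ENNReal.ofReal x * F x) (g := fun _ => 1)
    (by fun_prop) (by fun_prop)]
  simp only [lintegral_const, Measure.restrict_apply, MeasurableSet.univ, univ_inter,
    Real.volume_Ioo, one_mul]
  rw [mul_comm]
  congr 2
  ring

theorem polar_lower (F : ℝ → ℝ≥0∞) (hF : Measurable F) {R : ℝ} (hR : 0 < R) :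
    ENNReal.ofReal (R ^ 2) * ∫⁻ s in Icc (0 : ℝ) 1, F (R * Real.exp (s * Real.log 2)) ≤
      ∫⁻ e in {e : ℂ | R ≤ ‖e‖ ∧ ‖e‖ ≤ 2 * R}, F ‖e‖ := by
  have hA : MeasurableSet {e : ℂ | R ≤ ‖e‖ ∧ ‖e‖ ≤ 2 * R} :=
    (measurableSet_le measurable_const measurable_norm).inter
      (measurableSet_le measurable_norm measurable_const)
  have hI : MeasurableSet (Icc R (2 * R)) := measurableSet_Icc
  rw [← lintegral_indicator hA]
  have h1 : ∀ e : ℂ, {e : ℂ | R ≤ ‖e‖ ∧ ‖e‖ ≤ 2 * R}.indicator (fun e => F ‖e‖) e =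
      (Icc R (2 * R)).indicator F ‖e‖ := by
    intro e
    by_cases he : R ≤ ‖e‖ ∧ ‖e‖ ≤ 2 * R
    · rw [indicator_of_mem (s := {e : ℂ | R ≤ ‖e‖ ∧ ‖e‖ ≤ 2 * R}) he,
        indicator_of_mem (s := Icc R (2 * R)) he]
    · rw [indicator_of_notMem (s := {e : ℂ | R ≤ ‖e‖ ∧ ‖e‖ ≤ 2 * R}) he,
        indicator_of_notMem (s := Icc R (2 * R)) he]
  simp only [h1]
  rw [lintegral_polar_radial _ (hF.indicator hI)]
  have hlog : 0 < Real.log 2 := Real.log_pos (by norm_num)
  -- change of variables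
  have himg : ∫⁻ s in Icc (0 : ℝ) 1, ENNReal.ofReal (R ^ 2 * Real.log 2) *
      F (R * Real.exp (s * Real.log 2)) ≤
      ∫⁻ x in Ioi (0 : ℝ), ENNReal.ofReal x * (Icc R (2 * R)).indicator F x := by
    have hd : ∀ s ∈ Icc (0 : ℝ) 1, HasDerivWithinAt (fun s => R * Real.exp (s * Real.log 2))
        (R * (Real.exp (s * Real.log 2) * Real.log 2)) (Icc 0 1) s := by
      intro s _
      refine HasDerivAt.hasDerivWithinAt ?_
      refine HasDerivAt.const_mul _ ?_
      exact (((hasDerivAt_id s).mul_const (Real.log 2)).exp).congr_deriv (by simp)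
    have hinj : InjOn (fun s => R * Real.exp (s * Real.log 2)) (Icc (0 : ℝ) 1) := by
      intro x _ y _ hxy
      have := mul_left_cancel₀ hR.ne' hxy
      rw [Real.exp_eq_exp] at this
      exact mul_right_cancel₀ hlog.ne' this
    have hmem : ∀ s ∈ Icc (0 : ℝ) 1, R * Real.exp (s * Real.log 2) ∈ Icc R (2 * R) := by
      intro s hs
      have e1 : 1 ≤ Real.exp (s * Real.log 2) := Real.one_le_exp (by nlinarith [hs.1])
      have e2 : Real.exp (s * Real.log 2) ≤ 2 := by
        calc Real.exp (s * Real.log 2) ≤ Real.exp (1 * Real.log 2) := by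
              apply Real.exp_le_exp.mpr
              nlinarith [hs.2]
          _ = 2 := by rw [one_mul, Real.exp_log (by norm_num)]
      constructor <;> nlinarith
    have hcv := lintegral_image_eq_lintegral_abs_deriv_mul measurableSet_Icc hd hinj
      (fun x => ENNReal.ofReal x * (Icc R (2 * R)).indicator F x)
    have hsub : (fun s => R * Real.exp (s * Real.log 2)) '' (Icc (0 : ℝ) 1) ⊆ Ioi 0 := by
      rintro x ⟨s, hs, rfl⟩
      simp only [mem_Ioi]
      positivity
    refine le_trans ?_ (lintegral_mono_set hsub)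
    rw [hcv]
    refine setLIntegral_mono' measurableSet_Icc fun s hs => ?_
    rw [indicator_of_mem (hmem s hs), ← mul_assoc, ← ENNReal.ofReal_mul (abs_nonneg _)]
    refine mul_le_mul' (ENNReal.ofReal_le_ofReal ?_) le_rfl
    rw [abs_of_nonneg (by positivity)]
    have e1 : 1 ≤ Real.exp (s * Real.log 2) := Real.one_le_exp (by nlinarith [hs.1])
    have e3 : 1 ≤ Real.exp (s * Real.log 2) * Real.exp (s * Real.log 2) := by nlinarith
    calc R ^ 2 * Real.log 2 = R ^ 2 * Real.log 2 * 1 := by ring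
      _ ≤ R ^ 2 * Real.log 2 * (Real.exp (s * Real.log 2) * Real.exp (s * Real.log 2)) := by gcongr
      _ = _ := by ring
  refine le_trans ?_ (mul_le_mul_right himg _)
  rw [lintegral_const_mul' _ _ ENNReal.ofReal_ne_top, ← mul_assoc,
    ← ENNReal.ofReal_mul (by positivity)]
  gcongr
  have h3 : (3 : ℝ) ≤ Real.pi := Real.pi_gt_three.le
  have h4 : 1 / 2 ≤ Real.log 2 := by
    have := Real.log_two_gt_d9
    linarith
  nlinarith [sq_nonneg R, mul_nonneg (sq_nonneg R) (by linarith : (0 : ℝ) ≤ Real.pi - 3),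
    mul_nonneg (sq_nonneg R) (by linarith : (0 : ℝ) ≤ Real.log 2 - 1 / 2),
    mul_le_mul h3 h4 (by norm_num) (by linarith)]

end Crest.Agent.R012.TIt663
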