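import Crest.Agent.R012.Spec_T_411
import Crest.Agent.R012.NonCubeW_52
import Crest.Agent.R012.Sym6_645
import Crest.Agent.R012.LatW_413

/-!
# Row 12: the terms `(e, g) ≠ (1, 1)` of the critical range of (TNX) (helper298, for helper411)

* `sum_om_le`  : `∑_h om K h |∑_n a(n) (h/n)|² ≤ C B^(1+ε) (K^(1+2ε) + B K^(1/3+2ε) + K^(2/3+2ε) B^(2/3))`
* `int_om_le`  : the same inside `∫ (1+u²)⁻¹ ∑'_h`
* `eg_crit`    : the terms `(e, g) ≠ (1, 1)` of `RHSd`, all primes of `b` at least `X^d1`.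
-/

set_option autoImplicit false

noncomputable section

open Finset

namespace Crest.Agent.R012.TNXC2298

open Crest.Agent.R012 Crest.Agent.R012.Eis Crest.Agent.R012.Div277 Crest.Agent.R012.Mob705
open Crest.Agent.R012.T411 Crest.Agent.R012.CharSum852

/-- `∑ nm z ^ (-s)` over finite sets is bounded, `s > 1`. -/
lemma sum_rpow_le {s : ℝ} (hs : 1 < s) :
    ∃ C : ℝ, 0 < C ∧ ∀ S : Finset Eis, ∑ z ∈ S, (nm z : ℝ) ^ (-s) ≤ C := by
  have h := LatSum413.summable_nm_rpow hs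
  refine ⟨1 + ∑' z : Eis, (nm z : ℝ) ^ (-s), ?_, fun S => ?_⟩
  · have : 0 ≤ ∑' z : Eis, (nm z : ℝ) ^ (-s) := tsum_nonneg fun z => by positivity
    linarith
  · have := h.sum_le_tsum S (fun z _ => by positivity)
    linarith

lemma om_nonneg {K : ℝ} (hK : 0 ≤ K) (h : Eis) : 0 ≤ om K h := by
  unfold om
  positivity

lemma om_le_rpow {K : ℝ} (hK : 0 < K) {h : Eis} {m : ℝ} (hm : 0 < m) (hmh : m ≤ nm h)
    {a : ℝ} (ha1 : 1 / 4 ≤ a) (ha2 : a ≤ 2) : om K h ≤ (K / m) ^ a := by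
  have hh : (0 : ℝ) < nm h := hm.trans_le hmh
  have h1 : om K h ≤ (K / nm h) ^ a := by
    unfold om
    have ht : 0 < K / nm h := by positivity
    rcases le_total 1 (K / nm h) with h | h
    · exact (min_le_left _ _).trans (Real.rpow_le_rpow_of_exponent_le h (by linarith))
    · exact (min_le_right _ _).trans (Real.rpow_le_rpow_of_exponent_ge ht h ha2)
  refine h1.trans (Real.rpow_le_rpow (by positivity) ?_ (by linarith))
  exact div_le_div_of_nonneg_left hK.le hm hmh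

/-- the weighted dual sum, all `h ≠ 0`, `ε`-loss, arbitrary `K > 0`. -/
theorem sum_om_le (hHB : NonCube52.HBProp) {ε : ℝ} (hε : 0 < ε) (hε2 : ε ≤ 1 / 2) :
    ∃ C : ℝ, 0 < C ∧ ∀ B K : ℝ, 1 ≤ B → 0 < K →
      ∀ T : Finset Eis, (∀ n ∈ T, IsPrim n ∧ Squarefree n ∧ (nm n : ℝ) ≤ B) → ∀ a : Eis → ℂ,
      (∀ n ∈ T, ‖a n‖ ≤ 1) → ∀ S : Finset Eis, (∀ h ∈ S, h ≠ 0) →
      ∑ h ∈ S, om K h * ‖∑ n ∈ T, a n * sy h n‖ ^ 2 ≤
        C * B ^ (1 + ε) * (K ^ (1 + 2 * ε) + B * K ^ (1 / 3 + 2 * ε) +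
          B ^ ((2 : ℝ) / 3) * K ^ (2 / 3 + 2 * ε)) := by
  classical
  obtain ⟨C0, hC0, hall⟩ := NonCube52.all_bound Sym645.syFacts NonCube52.L1Prop_holds hHB hε
  set q : ℝ := (2 : ℝ) ^ (-ε) with hq
  have hq0 : 0 < q := Real.rpow_pos_of_pos (by norm_num) _
  have hq1 : q < 1 := Real.rpow_lt_one_of_one_lt_of_neg (by norm_num) (by linarith)
  have hq2 : 0 < 1 - q := by linarith
  refine ⟨C0 * 2 ^ ε * 32 * (1 - q)⁻¹, by positivity, ?_⟩
  intro B K hB hK T hT a ha S hS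
  have hB0 : (0 : ℝ) < B := by linarith
  set D : ℝ := K ^ (1 + 2 * ε) + B * K ^ (1 / 3 + 2 * ε) +
          B ^ ((2 : ℝ) / 3) * K ^ (2 / 3 + 2 * ε) with hD
  have hD0 : 0 < D := by positivity
  -- energy
  have hE : ∑ n ∈ T, ‖a n‖ ^ 2 ≤ 16 * B := by
    have h1 : ∑ n ∈ T, ‖a n‖ ^ 2 ≤ ∑ n ∈ T, (1 : ℝ) :=
      sum_le_sum fun n hn => pow_le_one₀ (norm_nonneg _) (ha n hn)
    have h2 : T ⊆ LS448.nz B := fun n hn => by
      rw [LS448.mem_nz]; exact ⟨(hT n hn).1.ne_zero, (hT n hn).2.2⟩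
    have h3 := NonCube52.card_nz_le16 hB0.le
    have h4 : (T.card : ℝ) ≤ (LS448.nz B).card := by exact_mod_cast card_le_card h2
    rw [sum_const, nsmul_eq_mul, mul_one] at h1
    linarith
  have hE0 : 0 ≤ ∑ n ∈ T, ‖a n‖ ^ 2 := sum_nonneg fun _ _ => by positivity
  have hone : ∀ j : ℕ, ∑ h ∈ S with Nat.log 2 (nm h) = j,
      om K h * ‖∑ n ∈ T, a n * sy h n‖ ^ 2 ≤ C0 * 2 ^ ε * 32 * B ^ (1 + ε) * D * q ^ j := by
    intro j
    set p : ℝ := (2 : ℝ) ^ j with hp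
    have hp0 : 0 < p := by positivity
    have hp1 : 1 ≤ p := one_le_pow₀ (by norm_num)
    set V : ℝ := min ((K / p) ^ (1 + 2 * ε))
      (min ((K / p) ^ (1 / 3 + 2 * ε)) ((K / p) ^ (2 / 3 + 2 * ε))) with hV
    have hV0 : 0 ≤ V := by positivity
    set Sj := S.filter (fun h => Nat.log 2 (nm h) = j) with hSj
    have hlow : ∀ h ∈ Sj, p ≤ (nm h : ℝ) ∧ (nm h : ℝ) ≤ 2 * p ∧ h ≠ 0 := by
      intro h hh
      rw [hSj, mem_filter] at hh
      have h0 := hS h hh.1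
      have h2 : 2 ^ Nat.log 2 (nm h) ≤ nm h := Nat.pow_log_le_self 2 (nm_pos.mpr h0).ne'
      have h3 := Nat.lt_pow_succ_log_self (b := 2) (by norm_num) (nm h)
      rw [hh.2] at h2 h3
      refine ⟨by rw [hp]; exact_mod_cast h2, ?_, h0⟩
      have h4 : (nm h : ℝ) ≤ (2 : ℝ) ^ (j + 1) := by exact_mod_cast h3.le
      rw [pow_succ] at h4
      rw [hp]; linarith
    have hom : ∀ h ∈ Sj, om K h ≤ V := by
      intro h hh
      obtain ⟨h1, -, -⟩ := hlow h hh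
      rw [hV]
      refine le_min ?_ (le_min ?_ ?_)
      · exact om_le_rpow hK hp0 h1 (by linarith) (by linarith)
      · exact om_le_rpow hK hp0 h1 (by linarith) (by linarith)
      · exact om_le_rpow hK hp0 h1 (by linarith) (by linarith)
    have hb := hall B (2 * p) hB (by linarith) T hT a Sj (fun h hh =>
      ⟨(hlow h hh).2.2, (hlow h hh).2.1⟩)
    have h1 : ∑ h ∈ Sj, om K h * ‖∑ n ∈ T, a n * sy h n‖ ^ 2 ≤
        V * ∑ h ∈ Sj, ‖∑ n ∈ T, a n * sy h n‖ ^ 2 := by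
      rw [mul_sum]
      exact sum_le_sum fun h hh => mul_le_mul_of_nonneg_right (hom h hh) (by positivity)
    refine h1.trans ?_
    have h2 : V * ∑ h ∈ Sj, ‖∑ n ∈ T, a n * sy h n‖ ^ 2 ≤
        V * (C0 * (2 * p * B) ^ ε * (2 * p + B * (2 * p) ^ ((1 : ℝ) / 3) +
          (2 * p * B) ^ ((2 : ℝ) / 3)) * (16 * B)) := by
      refine mul_le_mul_of_nonneg_left (hb.trans ?_) hV0
      exact mul_le_mul_of_nonneg_left hE (by positivity)
    refine h2.trans ?_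
    have e1 : (2 * p * B) ^ ε = 2 ^ ε * p ^ ε * B ^ ε := by
      rw [Real.mul_rpow (by positivity) hB0.le, Real.mul_rpow (by norm_num) hp0.le]
    have e2 : (2 * p) ^ ((1 : ℝ) / 3) ≤ 2 * p ^ ((1 : ℝ) / 3) := by
      rw [Real.mul_rpow (by norm_num) hp0.le]
      gcongr
      calc (2 : ℝ) ^ ((1 : ℝ) / 3) ≤ 2 ^ (1 : ℝ) :=
            Real.rpow_le_rpow_of_exponent_le (by norm_num) (by norm_num)
        _ = 2 := Real.rpow_one _
    have e3 : (2 * p * B) ^ ((2 : ℝ) / 3) ≤ 2 * (p ^ ((2 : ℝ) / 3) * B ^ ((2 : ℝ) / 3)) := by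
      rw [Real.mul_rpow (by positivity) hB0.le, Real.mul_rpow (by norm_num) hp0.le, mul_assoc]
      gcongr
      calc (2 : ℝ) ^ ((2 : ℝ) / 3) ≤ 2 ^ (1 : ℝ) :=
            Real.rpow_le_rpow_of_exponent_le (by norm_num) (by norm_num)
        _ = 2 := Real.rpow_one _
    have hqp : q ^ j = p ^ (-ε) := by
      rw [hq, hp, ← Real.rpow_natCast, ← Real.rpow_natCast, ← Real.rpow_mul (by norm_num),
        ← Real.rpow_mul (by norm_num), mul_comm]
    have key : ∀ s : ℝ, (K / p) ^ (s + 2 * ε) * (p ^ ε * p ^ s) = K ^ (s + 2 * ε) * p ^ (-ε) := by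
      intro s
      rw [Real.div_rpow hK.le hp0.le, div_mul_eq_mul_div, ← Real.rpow_add hp0, mul_div_assoc,
        ← Real.rpow_sub hp0]
      congr 2; ring
    have k1 : V * (p ^ ε * p) ≤ K ^ (1 + 2 * ε) * p ^ (-ε) := by
      have := key 1
      rw [Real.rpow_one] at this
      rw [← this]
      exact mul_le_mul_of_nonneg_right (min_le_left _ _) (by positivity)
    have k2 : V * (p ^ ε * p ^ ((1 : ℝ) / 3)) ≤ K ^ (1 / 3 + 2 * ε) * p ^ (-ε) := by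
      rw [← key (1 / 3)]
      exact mul_le_mul_of_nonneg_right ((min_le_right _ _).trans (min_le_left _ _))
        (by positivity)
    have k3 : V * (p ^ ε * p ^ ((2 : ℝ) / 3)) ≤ K ^ (2 / 3 + 2 * ε) * p ^ (-ε) := by
      rw [← key (2 / 3)]
      exact mul_le_mul_of_nonneg_right ((min_le_right _ _).trans (min_le_right _ _))
        (by positivity)
    have hBB : B ^ (1 + ε) = B * B ^ ε := by rw [Real.rpow_add hB0, Real.rpow_one]
    calc V * (C0 * (2 * p * B) ^ ε * (2 * p + B * (2 * p) ^ ((1 : ℝ) / 3) +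
          (2 * p * B) ^ ((2 : ℝ) / 3)) * (16 * B))
        ≤ V * (C0 * (2 ^ ε * p ^ ε * B ^ ε) * (2 * p + B * (2 * p ^ ((1 : ℝ) / 3)) +
          2 * (p ^ ((2 : ℝ) / 3) * B ^ ((2 : ℝ) / 3))) * (16 * B)) := by
          rw [e1]
          gcongr
      _ = C0 * 2 ^ ε * 32 * (B * B ^ ε) * (V * (p ^ ε * p) + B * (V * (p ^ ε * p ^ ((1 : ℝ) / 3))) +
          B ^ ((2 : ℝ) / 3) * (V * (p ^ ε * p ^ ((2 : ℝ) / 3)))) := by ring
      _ ≤ C0 * 2 ^ ε * 32 * (B * B ^ ε) * (K ^ (1 + 2 * ε) * p ^ (-ε) +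
          B * (K ^ (1 / 3 + 2 * ε) * p ^ (-ε)) +
          B ^ ((2 : ℝ) / 3) * (K ^ (2 / 3 + 2 * ε) * p ^ (-ε))) := by gcongr
      _ = C0 * 2 ^ ε * 32 * B ^ (1 + ε) * D * q ^ j := by
          rw [hqp, hBB, hD]; ring
  rw [← sum_fiberwise_of_maps_to (g := fun h => Nat.log 2 (nm h))
    (t := S.image (fun h => Nat.log 2 (nm h))) (fun h hh => mem_image_of_mem _ hh)]
  calc ∑ j ∈ S.image (fun h => Nat.log 2 (nm h)), ∑ h ∈ S with Nat.log 2 (nm h) = j,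
        om K h * ‖∑ n ∈ T, a n * sy h n‖ ^ 2
      ≤ ∑ j ∈ S.image (fun h => Nat.log 2 (nm h)), C0 * 2 ^ ε * 32 * B ^ (1 + ε) * D * q ^ j :=
        sum_le_sum fun j _ => hone j
    _ = C0 * 2 ^ ε * 32 * B ^ (1 + ε) * D *
        ∑ j ∈ S.image (fun h => Nat.log 2 (nm h)), q ^ j := by rw [mul_sum]
    _ ≤ C0 * 2 ^ ε * 32 * B ^ (1 + ε) * D * (1 - q)⁻¹ := by
        gcongr
        exact (Summable.sum_le_tsum _ (fun _ _ => by positivity)
          (summable_geometric_of_lt_one hq0.le hq1)).trans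
          (tsum_geometric_of_lt_one hq0.le hq1).le
    _ = _ := by ring

section logs
variable {a b c t x y z e0 d : ℝ}

lemma log_facts (hc : 0 < c) (hct : c ≤ t) (hb : t * (1 / 4) ≤ b) (hba : b * (1 - e0 / 2) ≤ a)
    (hat : a ≤ t) (_he0 : 0 < e0) (he1 : e0 ≤ 1 / 10) :
    0 < b ∧ 0 < a ∧ 19 / 20 * b ≤ t ∧ 19 / 20 * b ≤ a ∧ e0 * b ≤ b / 10 := by
  have hb0 : 0 < b := by linarith
  have h1 : e0 * b ≤ b / 10 := by nlinarith
  have h2 : 19 / 20 * b ≤ a := by nlinarith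
  exact ⟨hb0, by linarith, by linarith, h2, h1⟩

lemma log_T1 (hc : 0 < c) (hct : c ≤ t) (hb : t * (1 / 4) ≤ b) (hba : b * (1 - e0 / 2) ≤ a)
    (hat : a ≤ t) (hz : 0 ≤ z) (hzx : z ≤ x) (hy : 0 ≤ y) (hxy : x + y ≤ c + b)
    (he0 : 0 < e0) (he1 : e0 ≤ 1 / 10) (hed : e0 ≤ d) (hd1 : d ≤ 1) :
    a + x - b - z + (1 + d / 200) * (c + b - x - y) + (1 + 2 * (d / 200)) * (z + 2 * b - 2 * x - a)
      ≤ 3 * c + 2 / 3 * a + 5 / 3 * b - d / 100 * t - 17 / 12 * x - 13 / 12 * y := by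
  obtain ⟨hb0, ha0, h1, h2, h3⟩ := log_facts hc hct hb hba hat he0 he1
  have hd0 : 0 < d := by linarith
  have p1 : 0 ≤ d * (4 * b - t) := mul_nonneg hd0.le (by linarith)
  have p2 : 0 ≤ d * (x + y) := mul_nonneg hd0.le (by linarith)
  have p3 : 0 ≤ (1 - d) * (c + b) := mul_nonneg (by linarith) (by linarith)
  have p4 : 0 ≤ d * (2 * x + a - z) := mul_nonneg hd0.le (by linarith)
  have p5 : 0 ≤ (1 - d) * b := mul_nonneg (by linarith) hb0.le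
  nlinarith

lemma log_T2 (hc : 0 < c) (hct : c ≤ t) (hb : t * (1 / 4) ≤ b) (hba : b * (1 - e0 / 2) ≤ a)
    (hat : a ≤ t) (hz : 0 ≤ z) (hzx : z ≤ x) (hy : 0 ≤ y)
    (htd : t * d ≤ x + y)
    (he0 : 0 < e0) (he1 : e0 ≤ 1 / 10) (hed : e0 ≤ d) (hd1 : d ≤ 1) :
    a + x - b - z + (1 + d / 200) * (c + b - x - y) + (c + b - x - y) +
      (1 / 3 + 2 * (d / 200)) * (z + 2 * b - 2 * x - a)
      ≤ 3 * c + 2 / 3 * a + 5 / 3 * b - d / 100 * t - 17 / 12 * x - 13 / 12 * y := by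
  obtain ⟨hb0, ha0, h1, h2, h3⟩ := log_facts hc hct hb hba hat he0 he1
  have hd0 : 0 < d := by linarith
  have p1 : 0 ≤ d * (t - 19 / 20 * b) := mul_nonneg hd0.le (by linarith)
  have p2 : 0 ≤ d * (x + y) := mul_nonneg hd0.le (by linarith)
  have p3 : 0 ≤ (1 - d) * c := mul_nonneg (by linarith) (by linarith)
  have p4 : 0 ≤ d * (2 * x + a - z) := mul_nonneg hd0.le (by linarith)
  have p5 : 0 ≤ d * t := mul_nonneg hd0.le (by linarith)
  nlinarith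

lemma log_T3 (hc : 0 < c) (hct : c ≤ t) (hb : t * (1 / 4) ≤ b) (hba : b * (1 - e0 / 2) ≤ a)
    (hat : a ≤ t) (hz : 0 ≤ z) (hzx : z ≤ x) (hy : 0 ≤ y)
    (htd : t * d ≤ x + y)
    (he0 : 0 < e0) (he1 : e0 ≤ 1 / 10) (hed : e0 ≤ d) (hd1 : d ≤ 1) :
    a + x - b - z + (1 + d / 200) * (c + b - x - y) + 2 / 3 * (c + b - x - y) +
      (2 / 3 + 2 * (d / 200)) * (z + 2 * b - 2 * x - a)
      ≤ 3 * c + 2 / 3 * a + 5 / 3 * b - d / 100 * t - 17 / 12 * x - 13 / 12 * y := by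
  obtain ⟨hb0, ha0, h1, h2, h3⟩ := log_facts hc hct hb hba hat he0 he1
  have hd0 : 0 < d := by linarith
  have p1 : 0 ≤ d * (t - 19 / 20 * b) := mul_nonneg hd0.le (by linarith)
  have p2 : 0 ≤ d * (x + y) := mul_nonneg hd0.le (by linarith)
  have p3 : 0 ≤ (1 - d) * c := mul_nonneg (by linarith) (by linarith)
  have p4 : 0 ≤ d * (2 * x + a - z) := mul_nonneg hd0.le (by linarith)
  have p5 : 0 ≤ d * t := mul_nonneg hd0.le (by linarith)
  have p6 : 0 ≤ (d - e0) * b := mul_nonneg (by linarith) hb0.le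
  nlinarith

end logs

lemma real_terms {A B E F G X e0 d : ℝ} (hX : 2 ≤ X) (hA : 0 < A) (hXB : X ^ ((1 : ℝ) / 4) ≤ B)
    (hBA : B ^ (1 - e0 / 2) ≤ A) (hAX : A ≤ X) (hF : 1 ≤ F) (hFE : F ≤ E)
    (hG : 1 ≤ G) (hEG : E * G ≤ 2 * B) (hd : X ^ d ≤ E * G) (he0 : 0 < e0) (he1 : e0 ≤ 1 / 10)
    (hed : e0 ≤ d) (hd1 : d ≤ 1) :
    A * E / (B * F) * ((2 * B / (E * G)) ^ (1 + d / 200) *
      ((F * B ^ 2 / (E ^ 2 * A)) ^ (1 + 2 * (d / 200)) +
        (2 * B / (E * G)) * (F * B ^ 2 / (E ^ 2 * A)) ^ (1 / 3 + 2 * (d / 200)) +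
        (2 * B / (E * G)) ^ ((2 : ℝ) / 3) *
          (F * B ^ 2 / (E ^ 2 * A)) ^ (2 / 3 + 2 * (d / 200)))) ≤
    24 * (A ^ ((2 : ℝ) / 3) * B ^ ((5 : ℝ) / 3) * X ^ (-(d / 100)) *
      (E ^ (-(17 / 12 : ℝ)) * G ^ (-(13 / 12 : ℝ)))) := by
  have hX0 : 0 < X := by linarith
  have hB0 : 0 < B := lt_of_lt_of_le (Real.rpow_pos_of_pos hX0 _) hXB
  have hF0 : 0 < F := by linarith
  have hE0 : 0 < E := by linarith
  have hG0 : 0 < G := by linarith
  obtain ⟨a, rfl⟩ : ∃ a, A = Real.exp a := ⟨Real.log A, (Real.exp_log hA).symm⟩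
  obtain ⟨b, rfl⟩ : ∃ b, B = Real.exp b := ⟨Real.log B, (Real.exp_log hB0).symm⟩
  obtain ⟨x, rfl⟩ : ∃ x, E = Real.exp x := ⟨Real.log E, (Real.exp_log hE0).symm⟩
  obtain ⟨z, rfl⟩ : ∃ z, F = Real.exp z := ⟨Real.log F, (Real.exp_log hF0).symm⟩
  obtain ⟨y, rfl⟩ : ∃ y, G = Real.exp y := ⟨Real.log G, (Real.exp_log hG0).symm⟩
  obtain ⟨t, rfl⟩ : ∃ t, X = Real.exp t := ⟨Real.log X, (Real.exp_log hX0).symm⟩
  obtain ⟨c, hc⟩ : ∃ c, (2 : ℝ) = Real.exp c := ⟨Real.log 2, (Real.exp_log (by norm_num)).symm⟩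
  have h8 : (24 : ℝ) = 3 * Real.exp (3 * c) := by
    have : Real.exp (3 * c) = Real.exp c ^ 3 := by rw [← Real.exp_nat_mul]; norm_num
    rw [this, ← hc]; norm_num
  have hc0 : 0 < c := by
    by_contra h
    have := Real.exp_le_one_iff.mpr (not_lt.mp h)
    rw [← hc] at this; norm_num at this
  have hct : c ≤ t := by rw [hc] at hX; exact Real.exp_le_exp.mp hX
  have hb : t * (1 / 4) ≤ b := by
    rw [← Real.exp_mul] at hXB; exact Real.exp_le_exp.mp hXB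
  have hba : b * (1 - e0 / 2) ≤ a := by
    rw [← Real.exp_mul] at hBA; exact Real.exp_le_exp.mp hBA
  have hat : a ≤ t := Real.exp_le_exp.mp hAX
  have hz : 0 ≤ z := by rw [← Real.exp_zero] at hF; exact Real.exp_le_exp.mp hF
  have hzx : z ≤ x := Real.exp_le_exp.mp hFE
  have hy : 0 ≤ y := by rw [← Real.exp_zero] at hG; exact Real.exp_le_exp.mp hG
  have hxy : x + y ≤ c + b := by
    rw [hc, ← Real.exp_add, ← Real.exp_add] at hEG; exact Real.exp_le_exp.mp hEG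
  have htd : t * d ≤ x + y := by
    rw [← Real.exp_mul, ← Real.exp_add] at hd; exact Real.exp_le_exp.mp hd
  have hW : 2 * Real.exp b / (Real.exp x * Real.exp y) = Real.exp (c + b - x - y) := by
    rw [hc, ← Real.exp_add, ← Real.exp_add, ← Real.exp_sub]; congr 1; ring
  have hK : Real.exp z * Real.exp b ^ 2 / (Real.exp x ^ 2 * Real.exp a) =
      Real.exp (z + 2 * b - 2 * x - a) := by
    rw [← Real.exp_nat_mul, ← Real.exp_nat_mul, ← Real.exp_add, ← Real.exp_add, ← Real.exp_sub]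
    congr 1; push_cast; ring
  have hP : Real.exp a * Real.exp x / (Real.exp b * Real.exp z) = Real.exp (a + x - b - z) := by
    rw [← Real.exp_add, ← Real.exp_add, ← Real.exp_sub]; congr 1; ring
  have hR : Real.exp a ^ ((2 : ℝ) / 3) * Real.exp b ^ ((5 : ℝ) / 3) * Real.exp t ^ (-(d / 100)) *
      (Real.exp x ^ (-(17 / 12 : ℝ)) * Real.exp y ^ (-(13 / 12 : ℝ))) =
      Real.exp (2 / 3 * a + 5 / 3 * b - d / 100 * t - 17 / 12 * x - 13 / 12 * y) := by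
    rw [← Real.exp_mul, ← Real.exp_mul, ← Real.exp_mul, ← Real.exp_mul, ← Real.exp_mul,
      ← Real.exp_add, ← Real.exp_add, ← Real.exp_add, ← Real.exp_add]
    congr 1; ring
  rw [hW, hK, hP, hR, h8]
  have e1 : Real.exp (a + x - b - z) * (Real.exp (c + b - x - y) ^ (1 + d / 200) *
      Real.exp (z + 2 * b - 2 * x - a) ^ (1 + 2 * (d / 200))) ≤
      Real.exp (3 * c) * Real.exp (2 / 3 * a + 5 / 3 * b - d / 100 * t - 17 / 12 * x -
        13 / 12 * y) := by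
    rw [← Real.exp_mul, ← Real.exp_mul, ← Real.exp_add, ← Real.exp_add, ← Real.exp_add]
    apply Real.exp_le_exp.mpr
    have := log_T1 hc0 hct hb hba hat hz hzx hy hxy he0 he1 hed hd1
    linarith
  have e2 : Real.exp (a + x - b - z) * (Real.exp (c + b - x - y) ^ (1 + d / 200) *
      (Real.exp (c + b - x - y) * Real.exp (z + 2 * b - 2 * x - a) ^ (1 / 3 + 2 * (d / 200)))) ≤
      Real.exp (3 * c) * Real.exp (2 / 3 * a + 5 / 3 * b - d / 100 * t - 17 / 12 * x -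
        13 / 12 * y) := by
    rw [← Real.exp_mul, ← Real.exp_mul, ← Real.exp_add, ← Real.exp_add, ← Real.exp_add,
      ← Real.exp_add]
    apply Real.exp_le_exp.mpr
    have := log_T2 hc0 hct hb hba hat hz hzx hy htd he0 he1 hed hd1
    linarith
  have e3 : Real.exp (a + x - b - z) * (Real.exp (c + b - x - y) ^ (1 + d / 200) *
      (Real.exp (c + b - x - y) ^ ((2 : ℝ) / 3) *
        Real.exp (z + 2 * b - 2 * x - a) ^ (2 / 3 + 2 * (d / 200)))) ≤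
      Real.exp (3 * c) * Real.exp (2 / 3 * a + 5 / 3 * b - d / 100 * t - 17 / 12 * x -
        13 / 12 * y) := by
    rw [← Real.exp_mul, ← Real.exp_mul, ← Real.exp_mul, ← Real.exp_add, ← Real.exp_add,
      ← Real.exp_add, ← Real.exp_add]
    apply Real.exp_le_exp.mpr
    have := log_T3 hc0 hct hb hba hat hz hzx hy htd he0 he1 hed hd1
    linarith
  calc _ = Real.exp (a + x - b - z) * (Real.exp (c + b - x - y) ^ (1 + d / 200) *
      Real.exp (z + 2 * b - 2 * x - a) ^ (1 + 2 * (d / 200))) +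
      Real.exp (a + x - b - z) * (Real.exp (c + b - x - y) ^ (1 + d / 200) *
      (Real.exp (c + b - x - y) * Real.exp (z + 2 * b - 2 * x - a) ^ (1 / 3 + 2 * (d / 200)))) +
      Real.exp (a + x - b - z) * (Real.exp (c + b - x - y) ^ (1 + d / 200) *
      (Real.exp (c + b - x - y) ^ ((2 : ℝ) / 3) *
        Real.exp (z + 2 * b - 2 * x - a) ^ (2 / 3 + 2 * (d / 200)))) := by ring
    _ ≤ _ := by linarith


/-- the weighted dual sum inside the integral. -/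
theorem int_om_le (hHB : NonCube52.HBProp) {ε : ℝ} (hε : 0 < ε) (hε2 : ε ≤ 1 / 2) :
    ∃ C : ℝ, 0 < C ∧ ∀ B K : ℝ, 1 ≤ B → 0 < K →
      ∀ T : Finset Eis, (∀ n ∈ T, IsPrim n ∧ Squarefree n ∧ (nm n : ℝ) ≤ B) → ∀ a : ℝ → Eis → ℂ,
      (∀ u, ∀ n ∈ T, ‖a u n‖ ≤ 1) → ∀ (P : Eis → Prop) [DecidablePred P], (∀ h, P h → h ≠ 0) →
      ∫ u : ℝ, (1 + u ^ 2)⁻¹ * ∑' h : Eis, (if P h then
        om K h * ‖∑ n ∈ T, a u n * sy h n‖ ^ 2 else 0) ≤
        C * (B ^ (1 + ε) * (K ^ (1 + 2 * ε) + B * K ^ (1 / 3 + 2 * ε) +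
          B ^ ((2 : ℝ) / 3) * K ^ (2 / 3 + 2 * ε))) := by
  classical
  obtain ⟨C, hC, hom⟩ := sum_om_le hHB hε hε2
  refine ⟨Real.pi * C, by positivity, fun B K hB hK T hT a ha P _ hP => ?_⟩
  set M : ℝ := C * (B ^ (1 + ε) * (K ^ (1 + 2 * ε) + B * K ^ (1 / 3 + 2 * ε) +
          B ^ ((2 : ℝ) / 3) * K ^ (2 / 3 + 2 * ε))) with hM
  have hB0 : (0 : ℝ) < B := by linarith
  have hM0 : 0 ≤ M := by positivity
  have hts : ∀ u : ℝ, ∑' h : Eis, (if P h then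
        om K h * ‖∑ n ∈ T, a u n * sy h n‖ ^ 2 else 0) ≤ M := by
    intro u
    refine tsum_le_of_sum_le' hM0 fun S => ?_
    rw [← sum_filter]
    have h1 := hom B K hB hK T hT (a u) (ha u) (S.filter P)
      (fun h hh => hP h (mem_filter.mp hh).2)
    rw [mul_assoc] at h1
    exact h1
  have hts0 : ∀ u : ℝ, 0 ≤ ∑' h : Eis, (if P h then
        om K h * ‖∑ n ∈ T, a u n * sy h n‖ ^ 2 else 0) := by
    intro u
    refine tsum_nonneg fun h => ?_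
    split_ifs
    · exact mul_nonneg (om_nonneg hK.le h) (by positivity)
    · exact le_rfl
  calc ∫ u : ℝ, (1 + u ^ 2)⁻¹ * ∑' h : Eis, (if P h then
        om K h * ‖∑ n ∈ T, a u n * sy h n‖ ^ 2 else 0)
      ≤ ∫ u : ℝ, (1 + u ^ 2)⁻¹ * M := by
        refine MeasureTheory.integral_mono_of_nonneg (Filter.Eventually.of_forall fun u =>
          mul_nonneg (by positivity) (hts0 u)) (integrable_inv_one_add_sq.mul_const M)
          (Filter.Eventually.of_forall fun u => mul_le_mul_of_nonneg_left (hts u) (by positivity))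
    _ = Real.pi * M := by
        rw [MeasureTheory.integral_mul_const, integral_univ_inv_one_add_sq]
    _ = _ := by rw [hM]; ring

/-- divisors of the elements of `𝓑` -/
lemma mem_D {w B : ℝ} {𝓑 : Finset Eis} {β : Eis → ℂ} (h : Cls w B 𝓑 β) {n : Eis}
    (hn : n ∈ 𝓑.biUnion dvs) : IsPrim n ∧ Squarefree n ∧ ∃ b ∈ 𝓑, n ∣ b := by
  rw [mem_biUnion] at hn
  obtain ⟨b, hb, hn⟩ := hn
  have h1 := (mem_dvs (h.sq b hb).1.ne_zero).mp hn
  exact ⟨h1.1, (h.sq b hb).2.squarefree_of_dvd h1.2, b, hb, h1.2⟩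

lemma one_le_nmD {w B : ℝ} {𝓑 : Finset Eis} {β : Eis → ℂ} (h : Cls w B 𝓑 β) {n : Eis}
    (hn : n ∈ 𝓑.biUnion dvs) : (1 : ℝ) ≤ nm n := by
  have := nm_pos.mpr (mem_D h hn).1.ne_zero
  exact_mod_cast this

lemma rough_D {w B : ℝ} {𝓑 : Finset Eis} {β : Eis → ℂ} (h : Cls w B 𝓑 β) {n : Eis}
    (hn : n ∈ 𝓑.biUnion dvs) (h1 : n ≠ 1) : w ≤ nm n := by
  obtain ⟨hp, -, b, hb, hd⟩ := mem_D h hn
  obtain ⟨p, hp1, hp2⟩ := exists_pp_dvd_of_isPrim hp h1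
  have h2 := h.rough b hb p hp1 (hp2.trans hd)
  have h3 : (nm p : ℝ) ≤ nm n := by exact_mod_cast nm_le_of_dvd hp.ne_zero hp2
  exact h2.trans h3

/-- the inner coefficients -/
def cf (β : Eis → ℂ) (e f g : Eis) (u : ℝ) (n : Eis) : ℂ :=
  β (e * g * n) * (starRingEnd ℂ) (sy (f * e) n) * (nm n : ℂ) ^ ((u : ℂ) * Complex.I)

lemma norm_cf_le {w B : ℝ} {𝓑 : Finset Eis} {β : Eis → ℂ} (h : Cls w B 𝓑 β) (e f g : Eis) (u : ℝ)
    {n : Eis} (hn : IsPrim n) : ‖cf β e f g u n‖ ≤ 1 := by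
  unfold cf
  have hpos : 0 < nm n := nm_pos.mpr hn.ne_zero
  rw [norm_mul, norm_mul, Complex.norm_natCast_cpow_of_pos hpos]
  have h1 : ((u : ℂ) * Complex.I).re = 0 := by simp
  rw [h1, Real.rpow_zero, mul_one, RCLike.norm_conj]
  have h2 := h.le (e * g * n)
  have h3 := NonCube52.norm_sy_le Sym645.syFacts (f * e) n hn
  exact mul_le_one₀ h2 (norm_nonneg _) h3

open Classical in
/-- one term `(e, f, g)` of `RHSd` -/
def trm (A B : ℝ) (𝓑 : Finset Eis) (β : Eis → ℂ) (e f g : Eis) : ℝ :=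
  A * nm e / (B * nm f) * ∫ u : ℝ, (1 + u ^ 2)⁻¹ *
      ∑' h : Eis, if isNonCubeE e f h then
        om (nm f * B ^ 2 / ((nm e : ℝ) ^ 2 * A)) h *
        ‖∑ n ∈ (𝓑.biUnion dvs).filter (fun n => e * g * n ∈ 𝓑),
          β (e * g * n) * (starRingEnd ℂ) (sy (f * e) n) * sy h n *
            (nm n : ℂ) ^ ((u : ℂ) * Complex.I)‖ ^ 2 else 0

/-- bound of one term by the large sieve, `ε`-loss; no use of roughness. -/
theorem trm_le (hHB : NonCube52.HBProp) {ε : ℝ} (hε : 0 < ε) (hε2 : ε ≤ 1 / 2) :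
    ∃ C : ℝ, 0 < C ∧ ∀ w A B : ℝ, 0 < A → 0 < B → ∀ (𝓑 : Finset Eis) (β : Eis → ℂ), Cls w B 𝓑 β →
      ∀ e ∈ 𝓑.biUnion dvs, ∀ f ∈ dvs e, ∀ g ∈ 𝓑.biUnion dvs,
      trm A B 𝓑 β e f g ≤ 0 ∨ ((nm e : ℝ) * nm g ≤ 2 * B ∧ trm A B 𝓑 β e f g ≤
        C * (A * nm e / (B * nm f) * ((2 * B / (nm e * nm g)) ^ (1 + ε) *
          ((nm f * B ^ 2 / ((nm e : ℝ) ^ 2 * A)) ^ (1 + 2 * ε) +
          (2 * B / (nm e * nm g)) * (nm f * B ^ 2 / ((nm e : ℝ) ^ 2 * A)) ^ (1 / 3 + 2 * ε) +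
          (2 * B / (nm e * nm g)) ^ ((2 : ℝ) / 3) *
            (nm f * B ^ 2 / ((nm e : ℝ) ^ 2 * A)) ^ (2 / 3 + 2 * ε))))) := by
  classical
  obtain ⟨C, hC, hint⟩ := int_om_le hHB hε hε2
  refine ⟨C, hC, ?_⟩
  intro w A B hA hB 𝓑 β hcls e he f hf g hg
  have he1 := one_le_nmD hcls he
  have hg1 := one_le_nmD hcls hg
  have hfp : IsPrim f := isPrim_of_mem_dvs hf
  have hf1 : (1 : ℝ) ≤ nm f := by
    have := nm_pos.mpr hfp.ne_zero
    exact_mod_cast this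
  set T := (𝓑.biUnion dvs).filter (fun n => e * g * n ∈ 𝓑) with hT
  rcases T.eq_empty_or_nonempty with hem | ⟨n0, hn0⟩
  · left
    unfold trm
    rw [← hT, hem]
    simp
  right
  have hTn : ∀ n ∈ T, (nm e : ℝ) * nm g * nm n ≤ 2 * B := by
    intro n hn
    have h1 := hcls.hi _ (mem_filter.mp hn).2
    rw [nm_mul, nm_mul] at h1
    push_cast at h1
    exact h1
  have hn01 := one_le_nmD hcls (mem_filter.mp hn0).1
  have hEG : (nm e : ℝ) * nm g ≤ 2 * B := by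
    have h1 := hTn n0 hn0
    have h2 : 0 ≤ (nm e : ℝ) * nm g := by positivity
    nlinarith
  refine ⟨hEG, ?_⟩
  have hEG0 : 0 < (nm e : ℝ) * nm g := by positivity
  have hB' : 1 ≤ 2 * B / ((nm e : ℝ) * nm g) := by rw [le_div_iff₀ hEG0]; linarith
  have h1 := hint (2 * B / ((nm e : ℝ) * nm g)) (nm f * B ^ 2 / ((nm e : ℝ) ^ 2 * A)) hB'
    (by positivity) T (fun n hn => by
      obtain ⟨h2, h3, -⟩ := mem_D hcls (mem_filter.mp hn).1
      refine ⟨h2, h3, ?_⟩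
      rw [le_div_iff₀ hEG0]
      have := hTn n hn
      linarith) (fun u n => cf β e f g u n)
    (fun u n hn => norm_cf_le hcls e f g u (mem_D hcls (mem_filter.mp hn).1).1)
    (fun h => isNonCubeE e f h) (fun h hh => hh.1)
  unfold trm
  rw [mul_left_comm C]
  refine mul_le_mul_of_nonneg_left ?_ (by positivity)
  refine le_trans (le_of_eq ?_) h1
  congr 1
  funext u
  congr 1
  refine tsum_congr fun h => ?_
  split_ifs
  · congr 3
    refine sum_congr rfl fun n _ => ?_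
    unfold cf
    ring
  · rfl

open Classical in
/-- **(TNX), critical range, the terms `(e, g) ≠ (1, 1)`.** -/
theorem eg_crit (hHB : NonCube52.HBProp) : ∀ e0 d1 : ℝ, 0 < e0 → e0 ≤ 1/10 → 0 < d1 → e0 ≤ d1 →
    ∃ C δ : ℝ, 0 < C ∧ 0 < δ ∧ ∀ X A B : ℝ, 2 ≤ X → X ^ ((1:ℝ)/4) ≤ B → A ≤ B ^ (1 + e0) →
    B ^ (1 - e0/2) ≤ A → A ≤ X → ∀ (𝓑 : Finset Eis) (β : Eis → ℂ), Cls (X ^ d1) B 𝓑 β →
    ∑ e ∈ 𝓑.biUnion dvs, ∑ f ∈ dvs e, ∑ g ∈ (𝓑.biUnion dvs).filter (IsCoprime · e),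
      (if e = 1 ∧ g = 1 then 0 else A * nm e / (B * nm f) * ∫ u : ℝ, (1 + u ^ 2)⁻¹ *
      ∑' h : Eis, if isNonCubeE e f h then om (nm f * B ^ 2 / ((nm e : ℝ) ^ 2 * A)) h *
        ‖∑ n ∈ (𝓑.biUnion dvs).filter (fun n => e * g * n ∈ 𝓑), β (e * g * n) *
          (starRingEnd ℂ) (sy (f * e) n) * sy h n * (nm n : ℂ) ^ ((u : ℂ) * Complex.I)‖ ^ 2
        else 0) ≤ C * A^((2:ℝ)/3) * B^((5:ℝ)/3) * X^(-δ) := by
  intro e0 d1 he0 he1 hd1 hed
  set d : ℝ := min d1 1 with hd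
  have hd0 : 0 < d := lt_min hd1 one_pos
  have hdle : d ≤ 1 := min_le_right _ _
  have hed' : e0 ≤ d := le_min hed (by linarith)
  obtain ⟨C1, hC1, htrm⟩ := trm_le hHB (ε := d / 200) (by positivity) (by linarith)
  obtain ⟨C2, hC2, htau⟩ := tau_le_rpow (ε := 1 / 4) (by norm_num)
  obtain ⟨C3, hC3, hsE⟩ := sum_rpow_le (s := 7 / 6) (by norm_num)
  obtain ⟨C4, hC4, hsG⟩ := sum_rpow_le (s := 13 / 12) (by norm_num)
  have hC2' : 0 < C2 := by linarith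
  refine ⟨C1 * 24 * C2 * C3 * C4, d / 100, by positivity, by positivity, ?_⟩
  intro X A B hX hXB _hAB hBA hAX 𝓑 β hcls
  have hX0 : 0 < X := by linarith
  have hB0 : 0 < B := lt_of_lt_of_le (Real.rpow_pos_of_pos hX0 _) hXB
  have hA0 : 0 < A := lt_of_lt_of_le (Real.rpow_pos_of_pos hB0 _) hBA
  set M : ℝ := A ^ ((2 : ℝ) / 3) * B ^ ((5 : ℝ) / 3) * X ^ (-(d / 100)) with hM
  have hM0 : 0 < M := by positivity
  -- one term
  have hone : ∀ e ∈ 𝓑.biUnion dvs, ∀ f ∈ dvs e, ∀ g ∈ (𝓑.biUnion dvs).filter (IsCoprime · e),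
      (if e = 1 ∧ g = 1 then 0 else A * nm e / (B * nm f) * ∫ u : ℝ, (1 + u ^ 2)⁻¹ *
      ∑' h : Eis, if isNonCubeE e f h then om (nm f * B ^ 2 / ((nm e : ℝ) ^ 2 * A)) h *
        ‖∑ n ∈ (𝓑.biUnion dvs).filter (fun n => e * g * n ∈ 𝓑), β (e * g * n) *
          (starRingEnd ℂ) (sy (f * e) n) * sy h n * (nm n : ℂ) ^ ((u : ℂ) * Complex.I)‖ ^ 2
        else 0) ≤ (C1 * 24 * M * (nm e : ℝ) ^ (-(17 / 12 : ℝ))) *
          (nm g : ℝ) ^ (-(13 / 12 : ℝ)) := by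
    intro e he f hf g hg
    have hg' := (mem_filter.mp hg).1
    have he1' := one_le_nmD hcls he
    have hg1' := one_le_nmD hcls hg'
    have hrhs : 0 ≤ (C1 * 24 * M * (nm e : ℝ) ^ (-(17 / 12 : ℝ))) *
          (nm g : ℝ) ^ (-(13 / 12 : ℝ)) := by positivity
    split_ifs with h1
    · exact hrhs
    have hXd : X ^ d ≤ (nm e : ℝ) * nm g := by
      have h2 : X ^ d ≤ X ^ d1 :=
        Real.rpow_le_rpow_of_exponent_le (by linarith) (min_le_left _ _)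
      refine h2.trans ?_
      by_cases he1 : e = 1
      · have hg1 : g ≠ 1 := fun h => h1 ⟨he1, h⟩
        have h3 := rough_D hcls hg' hg1
        have h4 : (0 : ℝ) ≤ nm g := by positivity
        nlinarith
      · have h3 := rough_D hcls he he1
        have h4 : (0 : ℝ) ≤ nm e := by positivity
        nlinarith
    have hfe : (nm f : ℝ) ≤ nm e := by
      exact_mod_cast nm_le_of_dvd (mem_D hcls he).1.ne_zero (dvd_of_mem_dvs hf)
    have hf1 : (1 : ℝ) ≤ nm f := by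
      have := nm_pos.mpr (isPrim_of_mem_dvs hf).ne_zero
      exact_mod_cast this
    rcases htrm (X ^ d1) A B hA0 hB0 𝓑 β hcls e he f hf g hg' with h2 | ⟨h2, h3⟩
    · exact h2.trans hrhs
    · refine h3.trans ?_
      have h4 := real_terms hX hA0 hXB hBA hAX hf1 hfe hg1' h2 hXd he0 he1 hed' hdle
      calc _ ≤ C1 * (24 * (A ^ ((2 : ℝ) / 3) * B ^ ((5 : ℝ) / 3) * X ^ (-(d / 100)) *
            ((nm e : ℝ) ^ (-(17 / 12 : ℝ)) * (nm g : ℝ) ^ (-(13 / 12 : ℝ))))) :=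
            mul_le_mul_of_nonneg_left h4 hC1.le
        _ = _ := by rw [hM]; ring
  calc _ ≤ ∑ e ∈ 𝓑.biUnion dvs, ∑ f ∈ dvs e, ∑ g ∈ (𝓑.biUnion dvs).filter (IsCoprime · e),
        (C1 * 24 * M * (nm e : ℝ) ^ (-(17 / 12 : ℝ))) * (nm g : ℝ) ^ (-(13 / 12 : ℝ)) :=
        sum_le_sum fun e he => sum_le_sum fun f hf => sum_le_sum fun g hg => hone e he f hf g hg
    _ ≤ ∑ e ∈ 𝓑.biUnion dvs, ∑ f ∈ dvs e,
        (C1 * 24 * M * (nm e : ℝ) ^ (-(17 / 12 : ℝ))) * C4 := by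
        refine sum_le_sum fun e _ => sum_le_sum fun f _ => ?_
        rw [← mul_sum]
        exact mul_le_mul_of_nonneg_left (hsG _) (by positivity)
    _ = ∑ e ∈ 𝓑.biUnion dvs, (tau e : ℝ) *
        ((C1 * 24 * M * (nm e : ℝ) ^ (-(17 / 12 : ℝ))) * C4) := by
        refine sum_congr rfl fun e _ => ?_
        rw [sum_const, nsmul_eq_mul]; rfl
    _ ≤ ∑ e ∈ 𝓑.biUnion dvs, (C1 * 24 * M * C4 * C2) * (nm e : ℝ) ^ (-(7 / 6 : ℝ)) := by
        refine sum_le_sum fun e he => ?_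
        have h1 := htau e (mem_D hcls he).1.ne_zero
        have h2 : (0 : ℝ) < nm e := by linarith [one_le_nmD hcls he]
        have h3 : (nm e : ℝ) ^ (1 / 4 : ℝ) * (nm e : ℝ) ^ (-(17 / 12 : ℝ)) =
            (nm e : ℝ) ^ (-(7 / 6 : ℝ)) := by
          rw [← Real.rpow_add h2]; norm_num
        calc (tau e : ℝ) * ((C1 * 24 * M * (nm e : ℝ) ^ (-(17 / 12 : ℝ))) * C4)
            ≤ (C2 * (nm e : ℝ) ^ (1 / 4 : ℝ)) *
              ((C1 * 24 * M * (nm e : ℝ) ^ (-(17 / 12 : ℝ))) * C4) :=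
              mul_le_mul_of_nonneg_right h1 (by positivity)
          _ = (C1 * 24 * M * C4 * C2) *
              ((nm e : ℝ) ^ (1 / 4 : ℝ) * (nm e : ℝ) ^ (-(17 / 12 : ℝ))) := by ring
          _ = _ := by rw [h3]
    _ ≤ (C1 * 24 * M * C4 * C2) * C3 := by
        rw [← mul_sum]
        exact mul_le_mul_of_nonneg_left (hsE _) (by positivity)
    _ = _ := by rw [hM]; ring

end Crest.Agent.R012.TNXC2298
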