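import Crest.Agent.R012.TNXa_52
import Crest.Agent.R012.Rough_298
import Crest.Agent.R012.TMain_411
import Crest.Agent.R012.TNXC2_298

/-!
# Row 12, item TNXC: the non-cube terms in the critical range (helper411)

From helper52's `noncube_omC` (the `(e,f,g) = (1,1,1)` term) and the bound of the terms with
`nm e nm g ≥ Z` (`Z = X^d1`).
-/

set_option autoImplicit false
set_option linter.unusedVariables false

noncomputable section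

namespace Crest.Agent.R012.TNX411

open Finset Eis LS448 CharSum852 Char766 NonCube52 Div277
open T411 (om NC tws Cls SqP RHSd isNonCubeE NCube)

lemma om_eq (K : ℝ) (h : Eis) : om K h = omx (K / nm h) := rfl

lemma om_nonneg {K : ℝ} (hK : 0 ≤ K) (h : Eis) : 0 ≤ om K h := by
  rw [om_eq]; exact omx_nonneg (by positivity)

lemma ncs_eq {L : ℝ} (hL : 0 ≤ L) : ncs L = NC L := by
  ext h
  unfold ncs NC
  simp only [mem_filter, LS448.mem_nz, LS2.mem_bl hL, NCube, not_exists]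
  tauto

/-- conversion of kernels -/
def toK (q : ℕ × ℕ × Eis × Eis) : NonCube52.Ker := ((q.1, q.2.1), (q.2.2.1, q.2.2.2))

lemma kv_toK (q : ℕ × ℕ × Eis × Eis) : NonCube52.kv (toK q) = T411.kv q := rfl

open Classical in
lemma mem_kers {H : ℝ} (hH : 0 ≤ H) {κ : NonCube52.Ker} (hg : Good κ) (hκ : (nm (NonCube52.kv κ) : ℝ) ≤ H) :
    κ ∈ (T411.Ker H).image toK := by
  rw [mem_image]
  refine ⟨(κ.1.1, κ.1.2, κ.2.1, κ.2.2), ?_, rfl⟩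
  unfold T411.Ker
  have h1 := one_le_nm1 hg
  have h2 := one_le_nm2 hg
  have h3 := nm_kv_ge κ
  have h6 : (1 : ℝ) ≤ (nm κ.2.2 : ℝ) ^ 2 := one_le_pow₀ h2
  have h4 : (nm κ.2.1 : ℝ) ≤ (nm κ.2.1 : ℝ) * nm κ.2.2 ^ 2 := by nlinarith
  have h5 : (nm κ.2.2 : ℝ) ≤ (nm κ.2.1 : ℝ) * nm κ.2.2 ^ 2 := by nlinarith
  rw [mem_filter]
  simp only [mem_product, mem_range, LS2.mem_S hH]
  exact ⟨⟨hg.hi, hg.hj, ⟨by linarith, hg.prim1, hg.sqf1⟩, by linarith, hg.prim2, hg.sqf2⟩,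
    hg.cop, hκ⟩

open Classical in
lemma sum_kers_le (H : ℝ) (f : Eis → ℝ) (hf : ∀ x, 0 ≤ f x) :
    ∑ κ ∈ (T411.Ker H).image toK, f (NonCube52.kv κ) ≤ ∑ q ∈ T411.Ker H, f (T411.kv q) := by
  rw [sum_image]
  · rfl
  · intro a _ b _ hab
    unfold toK at hab
    simp only [Prod.mk.injEq] at hab
    ext <;> simp [hab]

lemma norm_nit {b : Eis} (hb : b ≠ 0) (u : ℝ) : ‖(nm b : ℂ) ^ ((u : ℂ) * Complex.I)‖ = 1 := by
  have h : (0 : ℝ) < nm b := by exact_mod_cast nm_pos.2 hb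
  have := Complex.norm_cpow_eq_rpow_re_of_pos h ((u : ℂ) * Complex.I)
  rw [Complex.ofReal_natCast] at this
  rw [this]
  simp

/-! ### integrability -/

lemma continuous_tws {𝓑 : Finset Eis} (h𝓑 : ∀ b ∈ 𝓑, b ≠ 0) (β : Eis → ℂ) (h : Eis) :
    Continuous (fun u : ℝ => tws 𝓑 β h u) := by
  unfold tws
  refine continuous_finsetSum _ fun b hb => ?_
  refine Continuous.mul (Continuous.mul continuous_const ?_) continuous_const
  refine Continuous.const_cpow (by fun_prop) (Or.inl ?_)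
  exact_mod_cast (nm_pos.2 (h𝓑 b hb)).ne'

lemma norm_tws_le (H : SyFacts) {𝓑 : Finset Eis} (h𝓑 : ∀ b ∈ 𝓑, IsPrim b) {β : Eis → ℂ}
    (hβ : ∀ b, ‖β b‖ ≤ 1) (h : Eis) (u : ℝ) : ‖tws 𝓑 β h u‖ ≤ #𝓑 := by
  unfold tws
  refine (norm_sum_le _ _).trans ?_
  calc ∑ b ∈ 𝓑, ‖β b * (nm b : ℂ) ^ ((u : ℂ) * Complex.I) * sy h b‖ ≤ ∑ _b ∈ 𝓑, (1 : ℝ) := by
        refine sum_le_sum fun b hb => ?_
        rw [norm_mul, norm_mul, norm_nit (h𝓑 b hb).ne_zero, mul_one]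
        have h1 := norm_sy_le H h b (h𝓑 b hb)
        have h2 := hβ b
        nlinarith [norm_nonneg (β b), norm_nonneg (sy h b)]
    _ = #𝓑 := by simp

lemma integrable_tws (H : SyFacts) {𝓑 : Finset Eis} (h𝓑 : ∀ b ∈ 𝓑, IsPrim b) {β : Eis → ℂ}
    (hβ : ∀ b, ‖β b‖ ≤ 1) (h : Eis) :
    MeasureTheory.Integrable (fun u : ℝ => (1 + u ^ 2)⁻¹ * ‖tws 𝓑 β h u‖ ^ 2) := by
  refine integrable_inv_one_add_sq.mul_bdd (c := (#𝓑 : ℝ) ^ 2) ?_ ?_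
  · exact ((continuous_tws (fun b hb => (h𝓑 b hb).ne_zero) β h).norm.pow 2).aestronglyMeasurable
  · refine Filter.Eventually.of_forall fun u => ?_
    rw [norm_pow, norm_norm]
    exact pow_le_pow_left₀ (norm_nonneg _) (norm_tws_le H h𝓑 hβ h u) 2

/-! ### the hypotheses `R`, `R2` -/

lemma card_le_of_cls {w B : ℝ} {𝓑 : Finset Eis} {β : Eis → ℂ} (hB : 0 ≤ B) (h : Cls w B 𝓑 β) :
    (#𝓑 : ℝ) ≤ 32 * B := by
  have h1 : 𝓑 ⊆ LS448.nz (2 * B) := fun b hb =>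
    LS448.mem_nz.2 ⟨(h.sq b hb).1.ne_zero, h.hi b hb⟩
  calc (#𝓑 : ℝ) ≤ #(LS448.nz (2 * B)) := by exact_mod_cast card_le_card h1
    _ ≤ 16 * (2 * B) := card_nz_le16 (by positivity)
    _ = _ := by ring

lemma card_nc {X B d1 : ℝ} (hX : 2 ≤ X) (hd : 0 < d1) (hB : 0 ≤ B) (hBX : B ≤ X ^ 2)
    {𝓑 : Finset Eis} {β : Eis → ℂ} (h : Cls (X ^ d1) B 𝓑 β) {m : Eis} (hm : m ≠ 0)
    (hmX : (nm m : ℝ) ≤ (2 * B) ^ 4) :
    (open Classical in ((𝓑.filter (fun b => ¬ IsCoprime m b)).card : ℝ)) ≤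
      2400 / d1 * (B * X ^ (-d1)) := by
  classical
  have hX0 : 0 < X := by linarith
  have hz : 1 < X ^ d1 := Real.one_lt_rpow (by linarith) hd
  have h1 := Rough298.card_not_coprime_le hz hB h hm
  have hmX' : (nm m : ℝ) ≤ X ^ 12 := by
    refine hmX.trans ?_
    have h3 : 2 * B ≤ X ^ 3 := by nlinarith
    calc (2 * B) ^ 4 ≤ (X ^ 3) ^ 4 := by gcongr
      _ = X ^ 12 := by ring
  have hL : 0 < Real.log X := Real.log_pos (by linarith)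
  have h2 := (Rough298.pow_card_bigP_le (by positivity : (0 : ℝ) ≤ X ^ d1) hm).trans hmX'
  have h3 := Real.log_le_log (by positivity) h2
  rw [Real.log_pow, Real.log_pow, Real.log_rpow hX0] at h3
  have h4 : ((Rough298.bigP (X ^ d1) m).card : ℝ) ≤ 12 / d1 := by
    rw [le_div_iff₀ hd]
    have h5 : (((Rough298.bigP (X ^ d1) m).card : ℝ) * d1) * Real.log X ≤ 12 * Real.log X := by
      push_cast at h3
      linarith
    exact le_of_mul_le_mul_right h5 hL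
  calc _ ≤ _ := h1
    _ ≤ 12 / d1 * (200 * B / X ^ d1) := by gcongr
    _ = _ := by rw [Real.rpow_neg hX0.le]; field_simp; ring

lemma sum_cop_le {𝓑 : Finset Eis} {γ : Eis → ℂ} (hγ : ∀ b ∈ 𝓑, ‖γ b‖ ≤ 1) (m : Eis) (k : ℕ)
    (hk : k ≠ 0) :
    ∑ b ∈ 𝓑, ‖γ b * (1 - cop m b)‖ ^ k ≤
      (open Classical in ((𝓑.filter (fun b => ¬ IsCoprime m b)).card : ℝ)) := by
  classical
  rw [card_filter]
  push_cast
  refine sum_le_sum fun b hb => ?_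
  unfold cop
  by_cases hc : IsCoprime m b
  · simp [hc, hk]
  · simp only [hc, if_false, not_false_iff, if_true, sub_zero, mul_one]
    exact pow_le_one₀ (norm_nonneg _) (hγ b hb)


/-! ### the `(1,1,1)` term -/

lemma Tn_one {𝓑 : Finset Eis} (hsq : ∀ b ∈ 𝓑, SqP b) : Tn 𝓑 1 1 = 𝓑 := by
  classical
  unfold Tn
  ext n
  simp only [mem_filter, one_mul, mem_biUnion]
  constructor
  · exact fun h => h.2
  · exact fun h => ⟨⟨n, h, self_mem_dvs (hsq n h).1⟩, h⟩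

lemma bet_one (H : SyFacts) {β : Eis → ℂ} {n : Eis} (hn : IsPrim n) (u : ℝ) :
    bet β 1 1 1 u n = β n * (nm n : ℂ) ^ ((u : ℂ) * Complex.I) := by
  unfold bet
  rw [one_mul, one_mul, sy_one_left H n hn, map_one, mul_one]

lemma sum_bet_one (H : SyFacts) {𝓑 : Finset Eis} (hsq : ∀ b ∈ 𝓑, SqP b) (β : Eis → ℂ) (h : Eis)
    (u : ℝ) : ∑ n ∈ Tn 𝓑 1 1, bet β 1 1 1 u n * sy h n = tws 𝓑 β h u := by
  rw [Tn_one hsq]
  unfold tws
  exact sum_congr rfl fun n hn => by rw [bet_one H (hsq n hn).1]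

/-- **the `(1,1,1)` term, critical range** -/
theorem trm_one (H : SyFacts) (hL1 : L1Prop) (hHB : HBProp) {e0 d1 : ℝ} (he0 : 0 < e0)
    (he1 : e0 ≤ 1 / 10) (hd1 : 0 < d1) :
    ∃ C : ℝ, 0 < C ∧ ∀ X A B Λ : ℝ, 2 ≤ X → 1 ≤ B → B ≤ X ^ 2 → 0 < A →
      B ^ 2 / A ≤ (2 * B) ^ (1 + 3 * (9 * e0 / 10) / 5) →
      (2 * B) ^ (1 + 9 * e0 / 10) ≤ B ^ (1 + e0) → 1 ≤ Λ → ∀ (𝓑 : Finset Eis) (β : Eis → ℂ),
      Cls (X ^ d1) B 𝓑 β →
      trm A B 𝓑 β 1 1 1 ≤ C * (A / B * (B ^ 2 / A) ^ ((1 : ℝ) / 3)) *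
        ((∑ v ∈ NC Λ, ∫ u : ℝ, (1 + u ^ 2)⁻¹ * ‖tws 𝓑 β v u‖ ^ 2) +
          Λ * (B * X ^ (-d1)) ^ 2 + (Λ ^ (-(1 : ℝ) / 3) + (2 * B) ^ (-(9 * e0 / 10 / 12))) * B ^ 2 +
          (2 * B) ^ (-(1 - 9 * e0 / 10) / 3) *
            (∑ q ∈ T411.Ker (B ^ (1 + e0)), ∫ u : ℝ, (1 + u ^ 2)⁻¹ * ‖tws 𝓑 β (T411.kv q) u‖ ^ 2) +
          (2 * B) ^ (1 + 9 * e0 / 10 / 2) * (B * X ^ (-d1))) := by
  classical
  set η : ℝ := 9 * e0 / 10 with hη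
  obtain ⟨C, hC, hmain⟩ := noncube_omC H hL1 hHB (η := η) (by positivity) (by rw [hη]; linarith)
  set r : ℝ := 2400 / d1 with hr
  have hr0 : 0 < r := by positivity
  refine ⟨C * (1 + Real.pi * (r ^ 2 + 64 + r) ), by positivity, ?_⟩
  intro X A B Λ hX hB hBX hA hK1 hK2 hΛ 𝓑 β hcls
  have hB0 : (0 : ℝ) < B := by linarith
  have hX0 : (0 : ℝ) < X := by linarith
  have hA0 : (0 : ℝ) < A := hA
  have hpr : ∀ b ∈ 𝓑, IsPrim b := fun b hb => (hcls.sq b hb).1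
  have h0 : ∀ b ∈ 𝓑, b ≠ 0 := fun b hb => (hpr b hb).ne_zero
  set K : ℝ := B ^ 2 / A with hK
  have hKpos : 0 < K := by positivity
  set δ : ℝ := B * X ^ (-d1) with hδ
  have hδ0 : 0 < δ := by positivity
  set N : ℝ → ℝ := fun u => ∑ v ∈ NC Λ, ‖tws 𝓑 β v u‖ ^ 2 with hN
  set M : ℝ → ℝ := fun u => ∑ q ∈ T411.Ker (B ^ (1 + e0)), ‖tws 𝓑 β (T411.kv q) u‖ ^ 2 with hM
  set b3 : ℝ := (2 * B) ^ (-(1 - η) / 3) with hb3
  set b5 : ℝ := (2 * B) ^ (1 + η / 2) with hb5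
  set L3 : ℝ := Λ ^ (-(1 : ℝ) / 3) + (2 * B) ^ (-(η / 12)) with hL3
  have hL30 : 0 ≤ L3 := by positivity
  set c : ℝ → ℝ := fun u => C * K ^ ((1 : ℝ) / 3) * (N u + Λ * (r * δ) ^ 2 +
      L3 * (2 * B) * (32 * B) + (b3 * M u + b5 * (r * δ))) with hc
  have hNi : MeasureTheory.Integrable (fun u : ℝ => (1 + u ^ 2)⁻¹ * N u) := by
    simp only [hN, mul_sum]
    exact MeasureTheory.integrable_finsetSum _ fun v _ => integrable_tws H hpr hcls.le v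
  have hMi : MeasureTheory.Integrable (fun u : ℝ => (1 + u ^ 2)⁻¹ * M u) := by
    simp only [hM, mul_sum]
    exact MeasureTheory.integrable_finsetSum _ fun v _ => integrable_tws H hpr hcls.le _
  have hce : (fun u : ℝ => (1 + u ^ 2)⁻¹ * c u) = fun u : ℝ => C * K ^ ((1 : ℝ) / 3) *
      ((1 + u ^ 2)⁻¹ * N u + b3 * ((1 + u ^ 2)⁻¹ * M u) +
        (1 + u ^ 2)⁻¹ * (Λ * (r * δ) ^ 2 + L3 * (2 * B) * (32 * B) + b5 * (r * δ))) := by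
    ext u
    simp only [hc]
    ring
  have hi1 : MeasureTheory.Integrable (fun u : ℝ => (1 + u ^ 2)⁻¹ * N u +
      b3 * ((1 + u ^ 2)⁻¹ * M u)) := hNi.add (hMi.const_mul _)
  have hi2 : MeasureTheory.Integrable (fun u : ℝ => (1 + u ^ 2)⁻¹ *
      (Λ * (r * δ) ^ 2 + L3 * (2 * B) * (32 * B) + b5 * (r * δ))) :=
    integrable_inv_one_add_sq.mul_const _
  have hci : MeasureTheory.Integrable (fun u : ℝ => (1 + u ^ 2)⁻¹ * c u) := by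
    rw [hce]
    exact (hi1.add hi2).const_mul _
  have hkey : trm A B 𝓑 β 1 1 1 ≤ A * nm 1 / (B * nm 1) * ∫ u : ℝ, (1 + u ^ 2)⁻¹ * c u := by
    refine trm_le' hA0 hB0 𝓑 β 1 1 1 c hci ?_
    intro u S hS
    have hmain' := hmain (2 * B) K Λ (r * δ) (r * δ) (by linarith) hKpos hK1 hΛ (by positivity)
      (by positivity) 𝓑 (fun b hb => ⟨hpr b hb, (hcls.sq b hb).2, hcls.hi b hb⟩)
      (fun b => β b * (nm b : ℂ) ^ ((u : ℂ) * Complex.I)) ?_ ?_ ((T411.Ker (B ^ (1 + e0))).image toK)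
      ?_ S ?_
    · have e1 : (nm (1 : Eis) : ℝ) * B ^ 2 / ((nm (1 : Eis) : ℝ) ^ 2 * A) = K := by
        rw [nm_one]; simp [hK]
      rw [e1]
      have e2 : ∀ h, ∑ n ∈ Tn 𝓑 1 1, bet β 1 1 1 u n * sy h n
          = ∑ b ∈ 𝓑, β b * (nm b : ℂ) ^ ((u : ℂ) * Complex.I) * sy h b := fun h =>
        sum_bet_one H hcls.sq β h u
      simp only [e2]
      refine hmain'.trans ?_
      rw [hc]
      simp only
      have e3 : ∑ v ∈ ncs Λ, ‖∑ b ∈ 𝓑, β b * (nm b : ℂ) ^ ((u : ℂ) * Complex.I) * sy v b‖ ^ 2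
          = N u := by
        rw [ncs_eq (by linarith)]; rfl
      have e4 : ∑ κ ∈ (T411.Ker (B ^ (1 + e0))).image toK,
          ‖∑ b ∈ 𝓑, β b * (nm b : ℂ) ^ ((u : ℂ) * Complex.I) * sy (NonCube52.kv κ) b‖ ^ 2
          ≤ M u :=
        sum_kers_le (B ^ (1 + e0)) (fun x => ‖tws 𝓑 β x u‖ ^ 2) (fun x => by positivity)
      have e5 : ∑ b ∈ 𝓑, ‖β b * (nm b : ℂ) ^ ((u : ℂ) * Complex.I)‖ ^ 2 ≤ 32 * B := by
        calc _ ≤ ∑ _b ∈ 𝓑, (1 : ℝ) := by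
              refine sum_le_sum fun b hb => ?_
              rw [norm_mul, norm_nit (h0 b hb), mul_one]
              exact pow_le_one₀ (norm_nonneg _) (hcls.le b)
          _ = #𝓑 := by simp
          _ ≤ 32 * B := card_le_of_cls hB0.le hcls
      rw [e3]
      gcongr
    · intro m hm hmB
      have h1 := sum_cop_le (𝓑 := 𝓑) (γ := fun b => β b * (nm b : ℂ) ^ ((u : ℂ) * Complex.I))
        (fun b hb => by
          show ‖β b * (nm b : ℂ) ^ ((u : ℂ) * Complex.I)‖ ≤ 1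
          rw [norm_mul, norm_nit (h0 b hb), mul_one]; exact hcls.le b) m 1 one_ne_zero
      simp only [pow_one] at h1
      exact h1.trans (card_nc hX hd1 hB0.le hBX hcls hm hmB)
    · intro m hm hmB
      have h1 := sum_cop_le (𝓑 := 𝓑) (γ := fun b => β b * (nm b : ℂ) ^ ((u : ℂ) * Complex.I))
        (fun b hb => by
          show ‖β b * (nm b : ℂ) ^ ((u : ℂ) * Complex.I)‖ ≤ 1
          rw [norm_mul, norm_nit (h0 b hb), mul_one]; exact hcls.le b) m 2 two_ne_zero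
      exact h1.trans (card_nc hX hd1 hB0.le hBX hcls hm hmB)
    · intro κ hκ hκn
      exact mem_kers (by positivity) hκ (hκn.trans hK2)
    · intro h hh
      obtain ⟨h1, h2⟩ := hS h hh
      refine ⟨h1, ?_⟩
      rintro ⟨t, ht⟩
      apply h2
      refine ⟨t, ?_, by rw [ht]; ring⟩
      rintro rfl
      apply h1
      rw [ht]; ring
  refine hkey.trans ?_
  rw [hce, MeasureTheory.integral_const_mul, MeasureTheory.integral_add hi1 hi2,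
    MeasureTheory.integral_add hNi (hMi.const_mul _), MeasureTheory.integral_const_mul,
    MeasureTheory.integral_mul_const, integral_univ_inv_one_add_sq]
  have e6 : ∫ u : ℝ, (1 + u ^ 2)⁻¹ * N u
      = ∑ v ∈ NC Λ, ∫ u : ℝ, (1 + u ^ 2)⁻¹ * ‖tws 𝓑 β v u‖ ^ 2 := by
    simp only [hN, mul_sum]
    exact MeasureTheory.integral_finsetSum _ fun v _ => integrable_tws H hpr hcls.le v
  have e7 : ∫ u : ℝ, (1 + u ^ 2)⁻¹ * M u
      = ∑ q ∈ T411.Ker (B ^ (1 + e0)), ∫ u : ℝ, (1 + u ^ 2)⁻¹ * ‖tws 𝓑 β (T411.kv q) u‖ ^ 2 := by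
    simp only [hM, mul_sum]
    exact MeasureTheory.integral_finsetSum _ fun v _ => integrable_tws H hpr hcls.le _
  rw [e6, e7]
  set S1 : ℝ := ∑ v ∈ NC Λ, ∫ u : ℝ, (1 + u ^ 2)⁻¹ * ‖tws 𝓑 β v u‖ ^ 2 with hS1
  set S2 : ℝ := ∑ q ∈ T411.Ker (B ^ (1 + e0)),
    ∫ u : ℝ, (1 + u ^ 2)⁻¹ * ‖tws 𝓑 β (T411.kv q) u‖ ^ 2 with hS2
  have hS10 : 0 ≤ S1 := sum_nonneg fun v _ => T411.integral_nonneg' 𝓑 β v
  have hS20 : 0 ≤ S2 := sum_nonneg fun v _ => T411.integral_nonneg' 𝓑 β _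
  have hpi := Real.pi_pos
  have e8 : A * (nm (1 : Eis) : ℝ) / (B * nm (1 : Eis)) = A / B := by rw [nm_one]; simp
  rw [e8]
  have hW : S1 + b3 * S2 + Real.pi * (Λ * (r * δ) ^ 2 + L3 * (2 * B) * (32 * B) + b5 * (r * δ)) ≤
      (1 + Real.pi * (r ^ 2 + 64 + r)) * (S1 + Λ * δ ^ 2 + L3 * B ^ 2 + b3 * S2 + b5 * δ) := by
    have x1 : 0 ≤ Λ * δ ^ 2 := by positivity
    have x2 : 0 ≤ L3 * B ^ 2 := by positivity
    have x3 : 0 ≤ b5 * δ := by positivity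
    have x4 : 0 ≤ b3 * S2 := by positivity
    have x5 : 0 ≤ Real.pi * (r ^ 2 + 64 + r) := by positivity
    have y1 : Real.pi * (Λ * (r * δ) ^ 2) ≤ Real.pi * (r ^ 2 + 64 + r) * (Λ * δ ^ 2) := by
      have : Real.pi * (Λ * (r * δ) ^ 2) = Real.pi * r ^ 2 * (Λ * δ ^ 2) := by ring
      rw [this]
      gcongr
      linarith
    have y2 : Real.pi * (L3 * (2 * B) * (32 * B)) ≤ Real.pi * (r ^ 2 + 64 + r) * (L3 * B ^ 2) := by
      have : Real.pi * (L3 * (2 * B) * (32 * B)) = Real.pi * 64 * (L3 * B ^ 2) := by ring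
      rw [this]
      gcongr
      have : 0 ≤ r ^ 2 := by positivity
      linarith
    have y3 : Real.pi * (b5 * (r * δ)) ≤ Real.pi * (r ^ 2 + 64 + r) * (b5 * δ) := by
      have : Real.pi * (b5 * (r * δ)) = Real.pi * r * (b5 * δ) := by ring
      rw [this]
      gcongr
      have : 0 ≤ r ^ 2 := by positivity
      linarith
    have z1 := mul_nonneg x5 hS10
    have z2 := mul_nonneg x5 x4
    generalize Real.pi * (r ^ 2 + 64 + r) = P at *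
    have e9 : (1 + P) * (S1 + Λ * δ ^ 2 + L3 * B ^ 2 + b3 * S2 + b5 * δ) =
        S1 + Λ * δ ^ 2 + L3 * B ^ 2 + b3 * S2 + b5 * δ +
        (P * S1 + P * (Λ * δ ^ 2) + P * (L3 * B ^ 2) + P * (b3 * S2) + P * (b5 * δ)) := by ring
    have e10 : Real.pi * (Λ * (r * δ) ^ 2 + L3 * (2 * B) * (32 * B) + b5 * (r * δ)) =
        Real.pi * (Λ * (r * δ) ^ 2) + Real.pi * (L3 * (2 * B) * (32 * B)) +
          Real.pi * (b5 * (r * δ)) := by ring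
    rw [e9, e10]
    linarith
  calc A / B * (C * K ^ ((1 : ℝ) / 3) * (S1 + b3 * S2 +
        Real.pi * (Λ * (r * δ) ^ 2 + L3 * (2 * B) * (32 * B) + b5 * (r * δ))))
      ≤ A / B * (C * K ^ ((1 : ℝ) / 3) * ((1 + Real.pi * (r ^ 2 + 64 + r)) *
        (S1 + Λ * δ ^ 2 + L3 * B ^ 2 + b3 * S2 + b5 * δ))) := by gcongr
    _ = _ := by ring

/-! ### splitting off the `(1,1,1)` term -/

lemma dvs_one : dvs (1 : Eis) = {1} := by
  ext d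
  rw [mem_dvs one_ne_zero, mem_singleton]
  constructor
  · rintro ⟨h1, h2⟩
    exact Mob705.isPrim_eq_one_of_isUnit h1 (isUnit_of_dvd_one h2)
  · rintro rfl
    exact ⟨isPrim_of_mem_dvs (one_mem_dvs one_ne_zero), dvd_refl _⟩

lemma trm_nonneg {A B : ℝ} (hA : 0 < A) (hB : 0 < B) (𝓑 : Finset Eis) (β : Eis → ℂ)
    (e f g : Eis) : 0 ≤ trm A B 𝓑 β e f g := by
  unfold trm
  refine mul_nonneg (by positivity) (MeasureTheory.integral_nonneg fun u => ?_)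
  have := hsum_nonneg hA hB 𝓑 β e f g u
  show 0 ≤ (1 + u ^ 2)⁻¹ * hsum A B 𝓑 β e f g u
  positivity

open Classical in
lemma RHSd_split {A B : ℝ} (hA : 0 < A) (hB : 0 < B) (𝓑 : Finset Eis) (β : Eis → ℂ) :
    RHSd A B 𝓑 β ≤ (if (1 : Eis) ∈ 𝓑.biUnion dvs then trm A B 𝓑 β 1 1 1 else 0) +
      ∑ e ∈ 𝓑.biUnion dvs, ∑ f ∈ dvs e, ∑ g ∈ (𝓑.biUnion dvs).filter (IsCoprime · e),
        (if e = 1 ∧ g = 1 then 0 else trm A B 𝓑 β e f g) := by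
  rw [RHSd_eq]
  have h1 : ∀ e ∈ 𝓑.biUnion dvs, ∑ f ∈ dvs e, ∑ g ∈ (𝓑.biUnion dvs).filter (IsCoprime · e),
      trm A B 𝓑 β e f g ≤ (if e = 1 then trm A B 𝓑 β 1 1 1 else 0) +
      ∑ f ∈ dvs e, ∑ g ∈ (𝓑.biUnion dvs).filter (IsCoprime · e),
        (if e = 1 ∧ g = 1 then 0 else trm A B 𝓑 β e f g) := by
    intro e he
    by_cases h : e = 1
    · subst h
      rw [if_pos rfl, dvs_one, sum_singleton, sum_singleton]
      have h2 : ∀ g ∈ (𝓑.biUnion dvs).filter (IsCoprime · (1 : Eis)), trm A B 𝓑 β 1 1 g =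
          (if g = 1 then trm A B 𝓑 β 1 1 1 else 0) +
            (if (1 : Eis) = 1 ∧ g = 1 then 0 else trm A B 𝓑 β 1 1 g) := by
        intro g _
        by_cases hg : g = 1
        · subst hg; simp
        · simp [hg]
      rw [sum_congr rfl h2, sum_add_distrib, sum_ite_eq']
      gcongr
      split_ifs
      · exact le_rfl
      · exact trm_nonneg hA hB _ _ _ _ _
    · rw [if_neg h, zero_add]
      refine sum_le_sum fun f _ => sum_le_sum fun g _ => ?_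
      rw [if_neg (fun hc => h hc.1)]
  refine (sum_le_sum h1).trans ?_
  rw [sum_add_distrib, sum_ite_eq']

/-- crude bound of the `(1,1,1)` term for bounded parameters -/
lemma trm_crude (hHB : HBProp) (P : ℝ) (hP : 2 ≤ P) : ∃ C : ℝ, 0 < C ∧ ∀ w A B : ℝ,
    1 ≤ A → A ≤ P → 1 ≤ B → B ≤ P ^ 2 → 1 ≤ B ^ 2 / A → B ^ 2 / A ≤ P ^ 4 →
    ∀ (𝓑 : Finset Eis) (β : Eis → ℂ), Cls w B 𝓑 β → (1 : Eis) ∈ (open Classical in 𝓑.biUnion dvs) →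
    trm A B 𝓑 β 1 1 1 ≤ C * (A ^ ((2 : ℝ) / 3) * B ^ ((5 : ℝ) / 3)) := by
  classical
  obtain ⟨C, hC, h⟩ := TNXC2298.trm_le hHB (ε := 1 / 2) (by norm_num) le_rfl
  refine ⟨C * (20 * P ^ 15), by positivity, ?_⟩
  intro w A B hA hAP hB hBP hK1 hKP 𝓑 β hcls h1
  have hA0 : 0 < A := by linarith
  have hB0 : 0 < B := by linarith
  have hM : 0 ≤ C * (20 * P ^ 15) * (A ^ ((2 : ℝ) / 3) * B ^ ((5 : ℝ) / 3)) := by positivity
  have h2 := h w A B hA0 hB0 𝓑 β hcls 1 h1 1 (one_mem_dvs one_ne_zero) 1 h1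
  have e0 : TNXC2298.trm A B 𝓑 β 1 1 1 = trm A B 𝓑 β 1 1 1 := rfl
  rw [e0] at h2
  rcases h2 with h2 | ⟨-, h2⟩
  · linarith
  refine h2.trans ?_
  rw [nm_one]
  simp only [Nat.cast_one, mul_one, one_mul, div_one, one_pow]
  set K : ℝ := B ^ 2 / A with hK
  have hK0 : 0 < K := by linarith
  have a1 : (2 * B) ^ ((1 : ℝ) + 1 / 2) ≤ 4 * P ^ 4 := by
    calc (2 * B) ^ ((1 : ℝ) + 1 / 2) ≤ (2 * B) ^ (2 : ℝ) :=
          Real.rpow_le_rpow_of_exponent_le (by linarith) (by norm_num)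
      _ = (2 * B) ^ 2 := by norm_num
      _ ≤ (2 * P ^ 2) ^ 2 := by gcongr
      _ = _ := by ring
  have hK2 : K ^ (2 : ℝ) ≤ P ^ 8 := by
    calc K ^ (2 : ℝ) = K ^ 2 := by norm_num
      _ ≤ (P ^ 4) ^ 2 := by gcongr
      _ = _ := by ring
  have a2 : K ^ ((1 : ℝ) + 2 * (1 / 2)) ≤ P ^ 8 :=
    (Real.rpow_le_rpow_of_exponent_le hK1 (by norm_num)).trans hK2
  have a3 : K ^ ((1 : ℝ) / 3 + 2 * (1 / 2)) ≤ P ^ 8 :=
    (Real.rpow_le_rpow_of_exponent_le hK1 (by norm_num)).trans hK2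
  have a4 : K ^ ((2 : ℝ) / 3 + 2 * (1 / 2)) ≤ P ^ 8 :=
    (Real.rpow_le_rpow_of_exponent_le hK1 (by norm_num)).trans hK2
  have a5 : (2 * B) ^ ((2 : ℝ) / 3) ≤ 2 * P ^ 2 := by
    calc (2 * B) ^ ((2 : ℝ) / 3) ≤ (2 * B) ^ (1 : ℝ) :=
          Real.rpow_le_rpow_of_exponent_le (by linarith) (by norm_num)
      _ = 2 * B := Real.rpow_one _
      _ ≤ _ := by linarith
  have hP2 : 1 ≤ P ^ 2 := by nlinarith
  have hP8 : 0 ≤ P ^ 8 := by positivity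
  have a6 : K ^ ((1 : ℝ) + 2 * (1 / 2)) + 2 * B * K ^ ((1 : ℝ) / 3 + 2 * (1 / 2)) +
      (2 * B) ^ ((2 : ℝ) / 3) * K ^ ((2 : ℝ) / 3 + 2 * (1 / 2)) ≤ 5 * P ^ 10 := by
    calc _ ≤ P ^ 8 + (2 * P ^ 2) * P ^ 8 + (2 * P ^ 2) * P ^ 8 := by gcongr
      _ = P ^ 8 + 4 * P ^ 10 := by ring
      _ ≤ P ^ 10 + 4 * P ^ 10 := by
          have : P ^ 8 * 1 ≤ P ^ 8 * P ^ 2 := by gcongr
          nlinarith
      _ = _ := by ring
  have a7 : A / B ≤ P * (A ^ ((2 : ℝ) / 3) * B ^ ((5 : ℝ) / 3)) := by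
    have b1 : A / B ≤ A := div_le_self hA0.le hB
    have b2 : A = A ^ ((1 : ℝ) / 3) * A ^ ((2 : ℝ) / 3) := by
      rw [← Real.rpow_add hA0]; norm_num
    have b3 : A ^ ((1 : ℝ) / 3) ≤ P := by
      calc A ^ ((1 : ℝ) / 3) ≤ A ^ (1 : ℝ) := Real.rpow_le_rpow_of_exponent_le hA (by norm_num)
        _ = A := Real.rpow_one _
        _ ≤ P := hAP
    have b4 : 1 ≤ B ^ ((5 : ℝ) / 3) := Real.one_le_rpow hB (by norm_num)
    calc A / B ≤ A := b1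
      _ = A ^ ((1 : ℝ) / 3) * A ^ ((2 : ℝ) / 3) := b2
      _ ≤ P * A ^ ((2 : ℝ) / 3) := by gcongr
      _ = P * (A ^ ((2 : ℝ) / 3) * 1) := by ring
      _ ≤ _ := by gcongr
  calc C * (A / B * ((2 * B) ^ ((1 : ℝ) + 1 / 2) * (K ^ ((1 : ℝ) + 2 * (1 / 2)) +
        2 * B * K ^ ((1 : ℝ) / 3 + 2 * (1 / 2)) +
      (2 * B) ^ ((2 : ℝ) / 3) * K ^ ((2 : ℝ) / 3 + 2 * (1 / 2)))))
      ≤ C * (P * (A ^ ((2 : ℝ) / 3) * B ^ ((5 : ℝ) / 3)) * ((4 * P ^ 4) * (5 * P ^ 10))) := by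
        gcongr
    _ = _ := by ring

lemma prefactor {A B : ℝ} (hA : 0 < A) (hB : 0 < B) :
    A / B * (B ^ 2 / A) ^ ((1 : ℝ) / 3) = A ^ ((2 : ℝ) / 3) * B ^ (-(1 : ℝ) / 3) := by
  have e1 : (B ^ 2 / A) ^ ((1 : ℝ) / 3) = B ^ ((2 : ℝ) / 3) * A ^ (-(1 : ℝ) / 3) := by
    rw [Real.div_rpow (by positivity) hA.le, ← Real.rpow_natCast B 2, ← Real.rpow_mul hB.le,
      div_eq_mul_inv, ← Real.rpow_neg hA.le]
    norm_num
  have e2 : A / B = A ^ (1 : ℝ) * B ^ (-1 : ℝ) := by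
    rw [Real.rpow_one, Real.rpow_neg_one, div_eq_mul_inv]
  rw [e1, e2]
  calc A ^ (1 : ℝ) * B ^ (-1 : ℝ) * (B ^ ((2 : ℝ) / 3) * A ^ (-(1 : ℝ) / 3))
      = (A ^ (1 : ℝ) * A ^ (-(1 : ℝ) / 3)) * (B ^ (-1 : ℝ) * B ^ ((2 : ℝ) / 3)) := by ring
    _ = _ := by
        rw [← Real.rpow_add hA, ← Real.rpow_add hB]
        norm_num

lemma T_mul {A B : ℝ} (hB : 0 < B) :
    A ^ ((2 : ℝ) / 3) * B ^ (-(1 : ℝ) / 3) * B ^ 2 = A ^ ((2 : ℝ) / 3) * B ^ ((5 : ℝ) / 3) := by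
  rw [mul_assoc, ← Real.rpow_natCast B 2, ← Real.rpow_add hB]
  norm_num

/-! ### numerical lemmas -/

section num
variable {X B e0 d1 s : ℝ}

lemma num1 (hX : 1 ≤ X) (hd1 : 0 < d1) (hs : s ≤ d1) : (X ^ (-d1)) ^ 2 ≤ X ^ (-s) := by
  have hX0 : 0 < X := by linarith
  have e2 : X ^ (-d1) ≤ 1 := Real.rpow_le_one_of_one_le_of_nonpos hX (by linarith)
  have e3 : 0 < X ^ (-d1) := Real.rpow_pos_of_pos hX0 _
  have e4 : X ^ (-d1) ≤ X ^ (-s) := Real.rpow_le_rpow_of_exponent_le hX (by linarith)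
  nlinarith

lemma num2 (hX : 1 ≤ X) (hXB : X ^ ((1 : ℝ) / 4) ≤ B) (he0 : 0 < e0) (hs : s ≤ 3 * e0 / 160) :
    (2 * B) ^ (-(9 * e0 / 10 / 12)) ≤ X ^ (-s) := by
  have hX0 : 0 < X := by linarith
  have hx : 0 < X ^ ((1 : ℝ) / 4) := Real.rpow_pos_of_pos hX0 _
  calc (2 * B) ^ (-(9 * e0 / 10 / 12)) ≤ (X ^ ((1 : ℝ) / 4)) ^ (-(9 * e0 / 10 / 12)) :=
        Real.rpow_le_rpow_of_nonpos hx (by linarith) (by linarith)
    _ = X ^ (-(3 * e0 / 160)) := by rw [← Real.rpow_mul hX0.le]; congr 1; ring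
    _ ≤ X ^ (-s) := Real.rpow_le_rpow_of_exponent_le hX (by linarith)

lemma num3 (hB : 1 ≤ B) (he0 : 0 < e0) (he1 : e0 ≤ 1 / 10) :
    (2 * B) ^ (-(1 - 9 * e0 / 10) / 3) ≤ B ^ (-(1 - 2 * e0) / 3) := by
  calc (2 * B) ^ (-(1 - 9 * e0 / 10) / 3) ≤ B ^ (-(1 - 9 * e0 / 10) / 3) :=
        Real.rpow_le_rpow_of_nonpos (by linarith) (by linarith) (by linarith)
    _ ≤ B ^ (-(1 - 2 * e0) / 3) := Real.rpow_le_rpow_of_exponent_le hB (by linarith)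

lemma two_pow {a : ℝ} (ha : a ≤ 1) : (2 : ℝ) ^ (1 + a) ≤ 4 := by
  calc (2 : ℝ) ^ (1 + a) ≤ (2 : ℝ) ^ (2 : ℝ) :=
        Real.rpow_le_rpow_of_exponent_le (by norm_num) (by linarith)
    _ = 4 := by norm_num

lemma num4 (hX : 1 ≤ X) (hB : 1 ≤ B) (hBX : B ≤ X ^ 2) (he0 : 0 < e0) (he1 : e0 ≤ 1 / 10)
    (hed : e0 ≤ d1) (hs : s ≤ d1 / 10) :
    (2 * B) ^ (1 + 9 * e0 / 10 / 2) * (B * X ^ (-d1)) ≤ 4 * B ^ 2 * X ^ (-s) := by
  have hX0 : 0 < X := by linarith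
  have hB0 : 0 < B := by linarith
  have e2 : B ^ (9 * e0 / 10 / 2) ≤ X ^ (9 * d1 / 10) := by
    calc B ^ (9 * e0 / 10 / 2) ≤ (X ^ 2) ^ (9 * e0 / 10 / 2) :=
          Real.rpow_le_rpow hB0.le hBX (by positivity)
      _ = X ^ (9 * e0 / 10) := by
          rw [← Real.rpow_natCast X 2, ← Real.rpow_mul hX0.le]; congr 1; push_cast; ring
      _ ≤ X ^ (9 * d1 / 10) := Real.rpow_le_rpow_of_exponent_le hX (by linarith)
  have e3 := two_pow (a := 9 * e0 / 10 / 2) (by linarith)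
  have e4 : X ^ (9 * d1 / 10) * X ^ (-d1) ≤ X ^ (-s) := by
    rw [← Real.rpow_add hX0]
    exact Real.rpow_le_rpow_of_exponent_le hX (by linarith)
  rw [Real.mul_rpow (by norm_num) hB0.le]
  calc (2 : ℝ) ^ (1 + 9 * e0 / 10 / 2) * B ^ (1 + 9 * e0 / 10 / 2) * (B * X ^ (-d1))
      = (2 : ℝ) ^ (1 + 9 * e0 / 10 / 2) * (B * B ^ (9 * e0 / 10 / 2)) * (B * X ^ (-d1)) := by
        rw [Real.rpow_add hB0 1, Real.rpow_one]
    _ ≤ 4 * (B * X ^ (9 * d1 / 10)) * (B * X ^ (-d1)) := by gcongr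
    _ = 4 * B ^ 2 * (X ^ (9 * d1 / 10) * X ^ (-d1)) := by ring
    _ ≤ _ := by gcongr

lemma num5 (hX : 1 ≤ X) (hXB : X ^ ((1 : ℝ) / 4) ≤ B) (hB : 1 ≤ B) (he0 : 0 < e0)
    (he1 : e0 ≤ 1 / 10) (h4 : (4 : ℝ) ^ (40 / e0) ≤ X) :
    (2 * B) ^ (1 + 9 * e0 / 10) ≤ B ^ (1 + e0) := by
  have hX0 : 0 < X := by linarith
  have hB0 : 0 < B := by linarith
  have h4B : (4 : ℝ) ≤ B ^ (e0 / 10) := by
    have e0' : 40 / e0 * (e0 / 40) = 1 := by field_simp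
    have e1 : (4 : ℝ) = ((4 : ℝ) ^ (40 / e0)) ^ (e0 / 40) := by
      rw [← Real.rpow_mul (by norm_num), e0', Real.rpow_one]
    calc (4 : ℝ) = ((4 : ℝ) ^ (40 / e0)) ^ (e0 / 40) := e1
      _ ≤ X ^ (e0 / 40) := Real.rpow_le_rpow (by positivity) h4 (by positivity)
      _ = (X ^ ((1 : ℝ) / 4)) ^ (e0 / 10) := by
          rw [← Real.rpow_mul hX0.le]; congr 1; ring
      _ ≤ B ^ (e0 / 10) := Real.rpow_le_rpow (by positivity) hXB (by positivity)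
  rw [Real.mul_rpow (by norm_num) hB0.le]
  calc (2 : ℝ) ^ (1 + 9 * e0 / 10) * B ^ (1 + 9 * e0 / 10)
      ≤ B ^ (e0 / 10) * B ^ (1 + 9 * e0 / 10) := by
        gcongr
        exact (two_pow (by linarith)).trans h4B
    _ = B ^ (1 + e0) := by rw [← Real.rpow_add hB0]; congr 1; ring

lemma num6 {A : ℝ} (hB : 1 ≤ B) (hA : 0 < A) (he0 : 0 < e0) (hBA : B ^ (1 - e0 / 2) ≤ A) :
    B ^ 2 / A ≤ B ^ (1 + e0 / 2) := by
  have hB0 : 0 < B := by linarith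
  rw [div_le_iff₀ hA]
  calc B ^ 2 = B ^ (1 + e0 / 2) * B ^ (1 - e0 / 2) := by
        rw [← Real.rpow_add hB0, ← Real.rpow_natCast]; congr 1; push_cast; ring
    _ ≤ B ^ (1 + e0 / 2) * A := by gcongr

lemma num7 (hB : 1 ≤ B) (he0 : 0 < e0) :
    B ^ (1 + e0 / 2) ≤ (2 * B) ^ (1 + 3 * (9 * e0 / 10) / 5) := by
  calc B ^ (1 + e0 / 2) ≤ B ^ (1 + 3 * (9 * e0 / 10) / 5) :=
        Real.rpow_le_rpow_of_exponent_le hB (by linarith)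
    _ ≤ (2 * B) ^ (1 + 3 * (9 * e0 / 10) / 5) :=
        Real.rpow_le_rpow (by linarith) (by linarith) (by positivity)

lemma num8 {K C4 L : ℝ} (hX : 1 ≤ X) (hL1 : 1 ≤ L) (hK : 0 < K)
    (h4 : L ^ (4 * K) ≤ C4 * X ^ s) :
    X ^ (-s) * L ^ (3 * K) ≤ C4 * L ^ (-K) ∧ X ^ (-s) ≤ C4 * L ^ (-K) := by
  have hX0 : 0 < X := by linarith
  have hLp : 0 < L := by linarith
  have hxs : 0 < X ^ (-s) := Real.rpow_pos_of_pos hX0 _
  have h1 : X ^ (-s) * L ^ (3 * K) ≤ C4 * L ^ (-K) := by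
    have e1 : L ^ (3 * K) = L ^ (4 * K) * L ^ (-K) := by
      rw [← Real.rpow_add hLp]; congr 1; ring
    have e2 : X ^ (-s) * X ^ s = 1 := by rw [← Real.rpow_add hX0]; simp
    calc X ^ (-s) * L ^ (3 * K) = X ^ (-s) * L ^ (4 * K) * L ^ (-K) := by rw [e1]; ring
      _ ≤ X ^ (-s) * (C4 * X ^ s) * L ^ (-K) := by gcongr
      _ = C4 * L ^ (-K) * (X ^ (-s) * X ^ s) := by ring
      _ = _ := by rw [e2, mul_one]
  refine ⟨h1, le_trans ?_ h1⟩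
  have hL3K : 1 ≤ L ^ (3 * K) := Real.one_le_rpow hL1 (by positivity)
  nlinarith

end num

/-- bound of the `(1,1,1)` term for large `X` -/
theorem one_large (H : SyFacts) (hL1 : L1Prop) (hHB : HBProp) {e0 d1 s K C4 : ℝ} (he0 : 0 < e0)
    (he1 : e0 ≤ 1 / 10) (hd1 : 0 < d1) (hed : e0 ≤ d1) (hsd : s ≤ d1 / 10)
    (hse : s ≤ 3 * e0 / 160) (hK : 0 < K) (hC4 : 0 < C4) :
    ∃ C1 : ℝ, 0 < C1 ∧ ∀ X A B : ℝ, 3 ≤ X → (4 : ℝ) ^ (40 / e0) ≤ X → 1 ≤ Real.log X →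
      Real.log X ^ (4 * K) ≤ C4 * X ^ s → 1 ≤ B → B ≤ X ^ 2 → 0 < A → X ^ ((1 : ℝ) / 4) ≤ B →
      B ^ (1 - e0 / 2) ≤ A → ∀ (𝓑 : Finset Eis) (β : Eis → ℂ), Cls (X ^ d1) B 𝓑 β →
      trm A B 𝓑 β 1 1 1 ≤ C1 * (A ^ ((2 : ℝ) / 3) * B ^ (-(1 : ℝ) / 3) *
          (∑ v ∈ NC (Real.log X ^ (3 * K)), ∫ u : ℝ, (1 + u ^ 2)⁻¹ * ‖tws 𝓑 β v u‖ ^ 2) +
        A ^ ((2 : ℝ) / 3) * B ^ (-(1 : ℝ) / 3) * B ^ (-(1 - 2 * e0) / 3) *
          (∑ q ∈ T411.Ker (B ^ (1 + e0)),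
            ∫ u : ℝ, (1 + u ^ 2)⁻¹ * ‖tws 𝓑 β (T411.kv q) u‖ ^ 2) +
        (1 + 6 * C4) * (A ^ ((2 : ℝ) / 3) * B ^ ((5 : ℝ) / 3) * Real.log X ^ (-K))) := by
  obtain ⟨C1, hC1, h1⟩ := trm_one H hL1 hHB he0 he1 hd1
  refine ⟨C1, hC1, ?_⟩
  intro X A B hX3 hX4 hL1 hXL hB1 hBX hA0 hXB hBA 𝓑 β hcls
  have hX1 : 1 ≤ X := by linarith
  have hB0 : 0 < B := by linarith
  have h5 := h1 X A B (Real.log X ^ (3 * K)) (by linarith) hB1 hBX hA0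
    ((num6 hB1 hA0 he0 hBA).trans (num7 hB1 he0)) (num5 hX1 hXB hB1 he0 he1 hX4)
    (Real.one_le_rpow hL1 (by positivity)) 𝓑 β hcls
  rw [prefactor hA0 hB0] at h5
  obtain ⟨n1, n2⟩ := num8 hX1 hL1 hK hXL
  have n3 := num1 hX1 hd1 (s := s) (by linarith)
  have n4 := num2 hX1 hXB he0 hse
  have n5 := num3 hB1 he0 he1
  have n6 := num4 hX1 hB1 hBX he0 he1 hed hsd
  have hTB := T_mul (A := A) hB0
  have n7 : (Real.log X ^ (3 * K)) ^ (-(1 : ℝ) / 3) = Real.log X ^ (-K) := by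
    rw [← Real.rpow_mul (by linarith)]; congr 1; ring
  rw [n7] at h5
  have hS1 : 0 ≤ ∑ v ∈ NC (Real.log X ^ (3 * K)), ∫ u : ℝ, (1 + u ^ 2)⁻¹ * ‖tws 𝓑 β v u‖ ^ 2 :=
    sum_nonneg fun h _ => T411.integral_nonneg' _ _ _
  have hS2 : 0 ≤ ∑ q ∈ T411.Ker (B ^ (1 + e0)),
      ∫ u : ℝ, (1 + u ^ 2)⁻¹ * ‖tws 𝓑 β (T411.kv q) u‖ ^ 2 :=
    sum_nonneg fun h _ => T411.integral_nonneg' _ _ _
  have hT0 : 0 < A ^ ((2 : ℝ) / 3) * B ^ (-(1 : ℝ) / 3) := by positivity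
  generalize (∑ v ∈ NC (Real.log X ^ (3 * K)), ∫ u : ℝ, (1 + u ^ 2)⁻¹ * ‖tws 𝓑 β v u‖ ^ 2) = S1
    at *
  generalize (∑ q ∈ T411.Ker (B ^ (1 + e0)),
      ∫ u : ℝ, (1 + u ^ 2)⁻¹ * ‖tws 𝓑 β (T411.kv q) u‖ ^ 2) = S2 at *
  have hLK : 0 < Real.log X ^ (-K) := Real.rpow_pos_of_pos (by linarith) _
  have hL3 : 0 < Real.log X ^ (3 * K) := Real.rpow_pos_of_pos (by linarith) _
  rw [← hTB]
  generalize A ^ ((2 : ℝ) / 3) * B ^ (-(1 : ℝ) / 3) = T at *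
  generalize Real.log X ^ (-K) = l at *
  generalize Real.log X ^ (3 * K) = l3 at *
  generalize (2 * B) ^ (-(9 * e0 / 10 / 12)) = a2 at *
  generalize (2 * B) ^ (-(1 - 9 * e0 / 10) / 3) = a3 at *
  generalize B ^ (-(1 - 2 * e0) / 3) = a3' at *
  generalize (2 * B) ^ (1 + 9 * e0 / 10 / 2) * (B * X ^ (-d1)) = a4 at *
  have hxs : 0 < X ^ (-s) := Real.rpow_pos_of_pos (by linarith) _
  generalize X ^ (-s) = xs at *
  have hB2 : 0 ≤ B ^ 2 := by positivity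
  have m1 : l3 * (B * X ^ (-d1)) ^ 2 ≤ B ^ 2 * (C4 * l) := by
    calc l3 * (B * X ^ (-d1)) ^ 2 = B ^ 2 * (l3 * (X ^ (-d1)) ^ 2) := by ring
      _ ≤ B ^ 2 * (l3 * xs) := by gcongr
      _ = B ^ 2 * (xs * l3) := by ring
      _ ≤ _ := by gcongr
  have m2 : (l + a2) * B ^ 2 ≤ (l + C4 * l) * B ^ 2 := by
    have := n4.trans n2
    gcongr
  have m3 : a3 * S2 ≤ a3' * S2 := by gcongr
  have m4 : a4 ≤ 4 * B ^ 2 * (C4 * l) := n6.trans (by gcongr)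
  refine h5.trans ?_
  rw [mul_assoc]
  refine mul_le_mul_of_nonneg_left ?_ hC1.le
  calc T * (S1 + l3 * (B * X ^ (-d1)) ^ 2 + (l + a2) * B ^ 2 + a3 * S2 + a4)
      ≤ T * (S1 + B ^ 2 * (C4 * l) + (l + C4 * l) * B ^ 2 + a3' * S2 + 4 * B ^ 2 * (C4 * l)) := by
        gcongr
    _ = T * S1 + T * a3' * S2 + (1 + 6 * C4) * (T * B ^ 2 * l) := by ring

set_option maxHeartbeats 1000000 in
/-- **(TNX), critical range** -/
theorem tnxC_of (H : SyFacts) (hL1 : L1Prop) (hHB : HBProp) : T411.TNXC := by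
  classical
  intro e0 d1 K he0 he1 hd1 hed hK
  obtain ⟨C2, δ, hC2, hδ, h2⟩ := TNXC2298.eg_crit hHB e0 d1 he0 he1 hd1 hed
  obtain ⟨P, hP3, hP4⟩ : ∃ P : ℝ, 3 ≤ P ∧ (4 : ℝ) ^ (40 / e0) ≤ P :=
    ⟨max 3 ((4 : ℝ) ^ (40 / e0)), le_max_left _ _, le_max_right _ _⟩
  obtain ⟨C3, hC3, h3⟩ := trm_crude hHB P (by linarith)
  obtain ⟨s, hs0, hsδ, hsd, hse⟩ : ∃ s : ℝ, 0 < s ∧ s ≤ δ ∧ s ≤ d1 / 10 ∧ s ≤ 3 * e0 / 160 :=
    ⟨min δ (min (d1 / 10) (3 * e0 / 160)), lt_min hδ (lt_min (by positivity) (by positivity)),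
      min_le_left _ _, (min_le_right _ _).trans (min_le_left _ _),
      (min_le_right _ _).trans (min_le_right _ _)⟩
  obtain ⟨C4, hC4, h4⟩ := T411.log_pow_le (4 * K) s hs0
  obtain ⟨C1, hC1, h1⟩ := one_large H hL1 hHB he0 he1 hd1 hed hsd hse hK hC4
  have hlogP : 0 < Real.log P := Real.log_pos (by linarith)
  obtain ⟨C5, hC5⟩ : ∃ C5 : ℝ, C5 = Real.log P ^ K := ⟨_, rfl⟩
  have hC50 : 0 < C5 := by rw [hC5]; exact Real.rpow_pos_of_pos hlogP _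
  obtain ⟨C, hC⟩ : ∃ C : ℝ, C = 3 * K + C1 * (2 + 6 * C4) + C2 * C4 + (C2 + C3) * C5 := ⟨_, rfl⟩
  have q0 : 0 < 3 * K := by positivity
  have q1 : 0 < C1 * (2 + 6 * C4) := by positivity
  have q2 : 0 < C2 * C4 := by positivity
  have q3 : 0 < (C2 + C3) * C5 := by positivity
  have hCpos : 0 < C := by rw [hC]; linarith
  refine ⟨C, hCpos, ?_⟩
  intro X A B hX hXB hAB hBA hAX 𝓑 β hcls
  have hX0 : 0 < X := by linarith
  have hB1 : 1 ≤ B := le_trans (Real.one_le_rpow (by linarith) (by norm_num)) hXB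
  have hB0 : 0 < B := by linarith
  have hA1 : 1 ≤ A := le_trans (Real.one_le_rpow hB1 (by linarith)) hBA
  have hA0 : 0 < A := by linarith
  have hLp : 0 < Real.log X := Real.log_pos (by linarith)
  have hBX : B ≤ X ^ 2 := by
    have hh : B ^ ((1 : ℝ) / 2) ≤ X :=
      ((Real.rpow_le_rpow_of_exponent_le hB1 (by linarith)).trans hBA).trans hAX
    calc B = (B ^ ((1 : ℝ) / 2)) ^ 2 := by
          rw [← Real.rpow_natCast, ← Real.rpow_mul hB0.le]; norm_num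
      _ ≤ X ^ 2 := by gcongr
  have hS2 : 0 ≤ ∑ q ∈ T411.Ker (B ^ (1 + e0)),
      ∫ u : ℝ, (1 + u ^ 2)⁻¹ * ‖tws 𝓑 β (T411.kv q) u‖ ^ 2 :=
    sum_nonneg fun h _ => T411.integral_nonneg' _ _ _
  have hS1 : 0 ≤ ∑ v ∈ NC (Real.log X ^ C), ∫ u : ℝ, (1 + u ^ 2)⁻¹ * ‖tws 𝓑 β v u‖ ^ 2 :=
    sum_nonneg fun h _ => T411.integral_nonneg' _ _ _
  have hegle := h2 X A B hX hXB hAB hBA hAX 𝓑 β hcls
  have hsplit := RHSd_split hA0 hB0 𝓑 β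
  refine hsplit.trans ((add_le_add le_rfl hegle).trans ?_)
  have hABL : 0 ≤ A * B * Real.log X ^ C := by positivity
  rcases lt_or_ge X P with hXP | hXP
  · -- bounded X
    have hK1 : 1 ≤ B ^ 2 / A := by
      rw [one_le_div hA0]
      refine hAB.trans ?_
      calc B ^ (1 + e0) ≤ B ^ (2 : ℝ) := Real.rpow_le_rpow_of_exponent_le hB1 (by linarith)
        _ = B ^ 2 := by norm_num
    have hBP : B ≤ P ^ 2 := hBX.trans (by gcongr)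
    have hKP : B ^ 2 / A ≤ P ^ 4 := by
      refine (num6 hB1 hA0 he0 hBA).trans ?_
      calc B ^ (1 + e0 / 2) ≤ B ^ (2 : ℝ) := Real.rpow_le_rpow_of_exponent_le hB1 (by linarith)
        _ = B ^ 2 := by norm_num
        _ ≤ (P ^ 2) ^ 2 := by gcongr
        _ = _ := by ring
    have ht1le : (if (1 : Eis) ∈ 𝓑.biUnion dvs then trm A B 𝓑 β 1 1 1 else 0) ≤
        C3 * (A ^ ((2 : ℝ) / 3) * B ^ ((5 : ℝ) / 3)) := by
      split_ifs with hmem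
      · exact h3 _ A B hA1 (by linarith) hB1 hBP hK1 hKP 𝓑 β hcls hmem
      · positivity
    have hXδ : X ^ (-δ) ≤ 1 := Real.rpow_le_one_of_one_le_of_nonpos (by linarith) (by linarith)
    have hLK : 1 ≤ C5 * Real.log X ^ (-K) := by
      rw [Real.rpow_neg hLp.le, hC5, ← div_eq_mul_inv, one_le_div (by positivity)]
      exact Real.rpow_le_rpow hLp.le (Real.log_le_log hX0 hXP.le) hK.le
    refine (add_le_add ht1le le_rfl).trans ?_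
    have p1 : 0 ≤ A ^ ((2 : ℝ) / 3) * B ^ (-(1 : ℝ) / 3) * Real.log X ^ C *
      (∑ v ∈ NC (Real.log X ^ C), ∫ u : ℝ, (1 + u ^ 2)⁻¹ * ‖tws 𝓑 β v u‖ ^ 2) := by positivity
    have p2 : 0 ≤ A ^ ((2 : ℝ) / 3) * B ^ (-(1 : ℝ) / 3) * B ^ (-(1 - 2 * e0) / 3) *
      Real.log X ^ C * (∑ q ∈ T411.Ker (B ^ (1 + e0)),
      ∫ u : ℝ, (1 + u ^ 2)⁻¹ * ‖tws 𝓑 β (T411.kv q) u‖ ^ 2) := by positivity
    have hM0 : 0 < A ^ ((2 : ℝ) / 3) * B ^ ((5 : ℝ) / 3) := by positivity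
    have hCC : (C2 + C3) * C5 ≤ C := by rw [hC]; linarith
    have hLKp : 0 < Real.log X ^ (-K) := Real.rpow_pos_of_pos hLp _
    calc C3 * (A ^ ((2 : ℝ) / 3) * B ^ ((5 : ℝ) / 3)) +
          C2 * A ^ ((2 : ℝ) / 3) * B ^ ((5 : ℝ) / 3) * X ^ (-δ)
        ≤ C3 * (A ^ ((2 : ℝ) / 3) * B ^ ((5 : ℝ) / 3)) +
          C2 * A ^ ((2 : ℝ) / 3) * B ^ ((5 : ℝ) / 3) * 1 := by gcongr
      _ = (C2 + C3) * (A ^ ((2 : ℝ) / 3) * B ^ ((5 : ℝ) / 3)) * 1 := by ring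
      _ ≤ (C2 + C3) * (A ^ ((2 : ℝ) / 3) * B ^ ((5 : ℝ) / 3)) * (C5 * Real.log X ^ (-K)) := by
          gcongr
      _ = (C2 + C3) * C5 * (A ^ ((2 : ℝ) / 3) * B ^ ((5 : ℝ) / 3) * Real.log X ^ (-K)) := by ring
      _ ≤ C * (A ^ ((2 : ℝ) / 3) * B ^ ((5 : ℝ) / 3) * Real.log X ^ (-K)) := by gcongr
      _ ≤ _ := by
          refine mul_le_mul_of_nonneg_left ?_ hCpos.le
          linarith
  · -- large X
    have hX3 : 3 ≤ X := hP3.trans hXP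
    have hL1 : 1 ≤ Real.log X := by
      by_contra hcon
      rw [not_le] at hcon
      have := T411.lt_three_of_log hX0 hcon
      linarith
    have hXL := h4 X (by linarith) hL1
    have hXs1 := (num8 (by linarith) hL1 hK hXL).2
    have hXδ : X ^ (-δ) ≤ C4 * Real.log X ^ (-K) :=
      (Real.rpow_le_rpow_of_exponent_le (by linarith) (by linarith)).trans hXs1
    have hl : Real.log X ^ (3 * K) ≤ Real.log X ^ C :=
      Real.rpow_le_rpow_of_exponent_le hL1 (by rw [hC]; linarith)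
    have hsub : ∑ v ∈ NC (Real.log X ^ (3 * K)), ∫ u : ℝ, (1 + u ^ 2)⁻¹ * ‖tws 𝓑 β v u‖ ^ 2 ≤
        ∑ v ∈ NC (Real.log X ^ C), ∫ u : ℝ, (1 + u ^ 2)⁻¹ * ‖tws 𝓑 β v u‖ ^ 2 :=
      sum_le_sum_of_subset_of_nonneg (T411.NC_mono hl) (fun h _ _ => T411.integral_nonneg' _ _ _)
    have hLC : 1 ≤ Real.log X ^ C := Real.one_le_rpow hL1 hCpos.le
    have hLK : 0 < Real.log X ^ (-K) := Real.rpow_pos_of_pos hLp _
    have h5 := h1 X A B hX3 (hP4.trans hXP) hL1 hXL hB1 hBX hA0 hXB hBA 𝓑 β hcls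
    have hS3 : 0 ≤ ∑ v ∈ NC (Real.log X ^ (3 * K)), ∫ u : ℝ, (1 + u ^ 2)⁻¹ * ‖tws 𝓑 β v u‖ ^ 2 :=
      sum_nonneg fun h _ => T411.integral_nonneg' _ _ _
    generalize (∑ v ∈ NC (Real.log X ^ (3 * K)), ∫ u : ℝ, (1 + u ^ 2)⁻¹ * ‖tws 𝓑 β v u‖ ^ 2) = S3
      at *
    generalize (∑ v ∈ NC (Real.log X ^ C), ∫ u : ℝ, (1 + u ^ 2)⁻¹ * ‖tws 𝓑 β v u‖ ^ 2) = S1
      at *
    generalize (∑ q ∈ T411.Ker (B ^ (1 + e0)),
      ∫ u : ℝ, (1 + u ^ 2)⁻¹ * ‖tws 𝓑 β (T411.kv q) u‖ ^ 2) = S2 at *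
    have ht1le : (if (1 : Eis) ∈ 𝓑.biUnion dvs then trm A B 𝓑 β 1 1 1 else 0) ≤
        C1 * (A ^ ((2 : ℝ) / 3) * B ^ (-(1 : ℝ) / 3) * S3 +
        A ^ ((2 : ℝ) / 3) * B ^ (-(1 : ℝ) / 3) * B ^ (-(1 - 2 * e0) / 3) * S2 +
        (1 + 6 * C4) * (A ^ ((2 : ℝ) / 3) * B ^ ((5 : ℝ) / 3) * Real.log X ^ (-K))) := by
      split_ifs with hmem
      · exact h5
      · positivity
    refine (add_le_add ht1le le_rfl).trans ?_
    have hT0 : 0 < A ^ ((2 : ℝ) / 3) * B ^ (-(1 : ℝ) / 3) := by positivity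
    have ha3 : 0 < B ^ (-(1 - 2 * e0) / 3) := by positivity
    have hM0 : 0 < A ^ ((2 : ℝ) / 3) * B ^ ((5 : ℝ) / 3) := by positivity
    have c1 : C1 ≤ C := by
      have : C1 * 1 ≤ C1 * (2 + 6 * C4) := by gcongr; linarith
      rw [hC]; linarith
    have c2 : C1 * (1 + 6 * C4) + C2 * C4 ≤ C := by
      have : C1 * (1 + 6 * C4) ≤ C1 * (2 + 6 * C4) := by gcongr; linarith
      rw [hC]; linarith
    rw [mul_assoc C2]
    generalize A ^ ((2 : ℝ) / 3) * B ^ (-(1 : ℝ) / 3) = T at *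
    generalize A ^ ((2 : ℝ) / 3) * B ^ ((5 : ℝ) / 3) = M0 at *
    generalize B ^ (-(1 - 2 * e0) / 3) = a3 at *
    generalize Real.log X ^ (-K) = l at *
    generalize Real.log X ^ C = lC at *
    generalize X ^ (-δ) = xd at *
    calc C1 * (T * S3 + T * a3 * S2 + (1 + 6 * C4) * (M0 * l)) + C2 * M0 * xd
        ≤ C1 * (T * S1 + T * a3 * S2 + (1 + 6 * C4) * (M0 * l)) + C2 * M0 * (C4 * l) := by gcongr
      _ = C1 * (T * 1 * S1 + T * a3 * 1 * S2) + (C1 * (1 + 6 * C4) + C2 * C4) * (M0 * l) := by ring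
      _ ≤ C * (T * lC * S1 + T * a3 * lC * S2) + C * (M0 * l) := by gcongr
      _ = C * (M0 * l + T * lC * S1 + T * a3 * lC * S2) := by ring
      _ ≤ C * (A * B * lC + M0 * l + T * lC * S1 + T * a3 * lC * S2) := by
          refine mul_le_mul_of_nonneg_left ?_ hCpos.le
          linarith

end Crest.Agent.R012.TNX411
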