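import Crest.Agent.R012.TNXa_52
import Crest.Agent.R012.Rough_298
import Crest.Agent.R012.Sym6_645

/-!
# Row 12, item TNX, non-critical case: `TNXN`
-/

set_option autoImplicit false
set_option linter.unusedVariables false
set_option linter.unusedSectionVars false

noncomputable section

namespace Crest.Agent.R012.NonCube52

open Finset Eis LS448 CharSum852 Char766 Div277

/-! ### the twisted sums as functions of `u` -/

lemma continuous_tws (𝓑 : Finset Eis) (hp : ∀ b ∈ 𝓑, b ≠ 0) (β : Eis → ℂ) (h : Eis) :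
    Continuous (fun u : ℝ => T411.tws 𝓑 β h u) := by
  unfold T411.tws
  refine continuous_finsetSum _ fun b hb => ?_
  refine Continuous.mul (Continuous.mul continuous_const ?_) continuous_const
  refine Continuous.const_cpow (by fun_prop) (Or.inl ?_)
  have := nm_pos.mpr (hp b hb)
  exact_mod_cast this.ne'

lemma norm_tws_le (H : SyFacts) {w B : ℝ} {𝓑 : Finset Eis} {β : Eis → ℂ}
    (hc : T411.Cls w B 𝓑 β) (h : Eis) (u : ℝ) : ‖T411.tws 𝓑 β h u‖ ≤ #𝓑 := by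
  unfold T411.tws
  refine (norm_sum_le _ _).trans ?_
  calc ∑ b ∈ 𝓑, ‖β b * (nm b : ℂ) ^ ((u : ℂ) * Complex.I) * sy h b‖ ≤ ∑ b ∈ 𝓑, (1 : ℝ) := by
        refine sum_le_sum fun b hb => ?_
        rw [norm_mul, norm_mul]
        have h1 := hc.le b
        have h2 := norm_sy_le H h b (hc.sq b hb).1
        have h3 : ‖((nm b : ℂ)) ^ ((u : ℂ) * Complex.I)‖ = 1 := by
          have hp : (0 : ℝ) < nm b := by exact_mod_cast nm_pos.mpr (hc.sq b hb).1.ne_zero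
          have := Complex.norm_cpow_eq_rpow_re_of_pos hp ((u : ℂ) * Complex.I)
          simpa using this
        rw [h3, mul_one]
        have := norm_nonneg (β b)
        have := norm_nonneg (sy h b)
        nlinarith
    _ = #𝓑 := by simp

lemma integrable_tws (H : SyFacts) {w B : ℝ} {𝓑 : Finset Eis} {β : Eis → ℂ}
    (hc : T411.Cls w B 𝓑 β) (h : Eis) :
    MeasureTheory.Integrable (fun u : ℝ => (1 + u ^ 2)⁻¹ * ‖T411.tws 𝓑 β h u‖ ^ 2) := by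
  have hcont : Continuous (fun u : ℝ => (1 + u ^ 2)⁻¹ * ‖T411.tws 𝓑 β h u‖ ^ 2) := by
    refine Continuous.mul ?_ ((continuous_tws 𝓑 (fun b hb => (hc.sq b hb).1.ne_zero) β h).norm.pow 2)
    refine Continuous.inv₀ (by fun_prop) fun u => ?_
    positivity
  refine MeasureTheory.Integrable.mono' (integrable_inv_one_add_sq'.mul_const ((#𝓑 : ℝ) ^ 2))
    hcont.aestronglyMeasurable (Filter.Eventually.of_forall fun u => ?_)
  have h1 := norm_tws_le H hc h u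
  have h0 := norm_nonneg (T411.tws 𝓑 β h u)
  rw [Real.norm_of_nonneg (by positivity)]
  gcongr

/-! ### the `(1,1,1)` data -/

lemma Tn_one {w B : ℝ} {𝓑 : Finset Eis} {β : Eis → ℂ} (hc : T411.Cls w B 𝓑 β) :
    Tn 𝓑 1 1 = 𝓑 := by
  classical
  ext n
  unfold Tn
  rw [mem_filter, mem_biUnion, one_mul, one_mul]
  constructor
  · exact fun h => h.2
  · exact fun h => ⟨⟨n, h, self_mem_dvs (hc.sq n h).1⟩, h⟩

lemma sum_bet_one (H : SyFacts) {w B : ℝ} {𝓑 : Finset Eis} {β : Eis → ℂ}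
    (hc : T411.Cls w B 𝓑 β) (u : ℝ) (h : Eis) :
    ∑ n ∈ Tn 𝓑 1 1, bet β 1 1 1 u n * sy h n = T411.tws 𝓑 β h u := by
  rw [Tn_one hc]
  unfold T411.tws bet
  refine sum_congr rfl fun n hn => ?_
  have h1 : sy (1 * 1) n = 1 := by
    rw [one_mul]
    exact CharSum852.sy_one_left H n (hc.sq n hn).1
  rw [h1, one_mul, one_mul, map_one, mul_one]

lemma ncs_eq (L : ℝ) (hL : 0 ≤ L) : ncs L = T411.NC L := by
  classical
  ext h
  unfold ncs T411.NC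
  rw [mem_filter, mem_filter, LS448.mem_nz, LS2.mem_bl hL]
  unfold T411.NCube
  constructor
  · rintro ⟨h1, h2⟩
    exact ⟨h1, h1.1, fun m hm => h2 ⟨m, hm⟩⟩
  · rintro ⟨h1, h2, h3⟩
    exact ⟨h1, fun ⟨m, hm⟩ => h3 m hm⟩

/-- coprimality defect -/
lemma cop_defect {w B : ℝ} {𝓑 : Finset Eis} {β : Eis → ℂ} (hc : T411.Cls w B 𝓑 β)
    (c : Eis → ℂ) (hc1 : ∀ b ∈ 𝓑, ‖c b‖ ≤ 1) (m : Eis) :
    ∑ b ∈ 𝓑, ‖c b * (1 - cop m b)‖ ≤
      (open Classical in ((𝓑.filter (fun b => ¬ IsCoprime m b)).card : ℝ)) := by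
  classical
  calc ∑ b ∈ 𝓑, ‖c b * (1 - cop m b)‖ ≤ ∑ b ∈ 𝓑, (if ¬ IsCoprime m b then (1 : ℝ) else 0) := by
        refine sum_le_sum fun b hb => ?_
        unfold cop
        rw [norm_mul]
        by_cases h1 : IsCoprime m b
        · simp [h1]
        · simpa [h1] using hc1 b hb
    _ = _ := by rw [← sum_filter]; simp

/-! ### sums over `e, f, g` -/

/-- weight sums (helper436) -/
def WSum : Prop := ∃ C : ℝ, 0 < C ∧ ∀ (D : Finset Eis), (∀ x ∈ D, IsPrim x) → ∀ Z : ℝ, 1 ≤ Z →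
  ∑ e ∈ D, ∑ f ∈ dvs e, ∑ g ∈ D.filter (fun g => Z ≤ (nm e : ℝ) * nm g),
    (nm e : ℝ) ^ (-(5 / 3) : ℝ) * (nm f : ℝ) ^ (-(1 / 3) : ℝ) * (nm g : ℝ) ^ (-(5 / 3) : ℝ)
      ≤ C * Z ^ (-(1 / 2) : ℝ)

open Classical in
/-- region 2 (helper470) -/
def Reg2 : Prop := ∀ ε : ℝ, 0 < ε → ∃ C : ℝ, 0 < C ∧ ∀ X A B Z : ℝ, 2 ≤ X →
  X ^ ((1 : ℝ) / 4) ≤ B → B ≤ X ^ 2 → B ≤ A ^ 2 → 1 ≤ A → A ≤ X → 1 ≤ Z →
  ∀ (𝓑 : Finset Eis) (β : Eis → ℂ), T411.Cls 1 B 𝓑 β →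
  ∑ e ∈ 𝓑.biUnion dvs, ∑ f ∈ dvs e, ∑ g ∈ (𝓑.biUnion dvs).filter (IsCoprime · e),
    (if Z ≤ (nm e : ℝ) * nm g then trm A B 𝓑 β e f g else 0)
    ≤ C * X ^ ε * (A ^ ((2 : ℝ) / 3) * B ^ ((5 : ℝ) / 3) * Z ^ (-(1 / 2) : ℝ) +
      A ^ ((1 : ℝ) / 3) * B ^ 2 * Z ^ (-(1 / 2) : ℝ) + B ^ 2)

/-! ### region 1 -/

lemma alg1 {A B x y z : ℝ} (hA : 0 < A) (hB : 0 < B) (hx : 0 < x) (hy : 0 < y) (hz : 0 < z) :
    A * x / (B * y) * ((y * B ^ 2 / (x ^ 2 * A)) ^ ((1 : ℝ) / 3) * (2 * B / (x * z)) *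
      (2 * B / (x * z))) = 4 * (A ^ ((2 : ℝ) / 3) * B ^ ((5 : ℝ) / 3)) *
      (x ^ (-(5 / 3) : ℝ) * y ^ (-(2 / 3) : ℝ) * z ^ (-(2 : ℝ))) := by
  obtain ⟨a, rfl⟩ : ∃ a, A = Real.exp a := ⟨Real.log A, (Real.exp_log hA).symm⟩
  obtain ⟨b, rfl⟩ : ∃ b, B = Real.exp b := ⟨Real.log B, (Real.exp_log hB).symm⟩
  obtain ⟨x', rfl⟩ : ∃ b, x = Real.exp b := ⟨Real.log x, (Real.exp_log hx).symm⟩
  obtain ⟨y', rfl⟩ : ∃ b, y = Real.exp b := ⟨Real.log y, (Real.exp_log hy).symm⟩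
  obtain ⟨z', rfl⟩ : ∃ b, z = Real.exp b := ⟨Real.log z, (Real.exp_log hz).symm⟩
  have e2 : ∀ t : ℝ, Real.exp t ^ 2 = Real.exp (2 * t) := fun t => by
    rw [← Real.exp_nat_mul]; norm_num
  simp only [e2, ← Real.exp_add, ← Real.exp_sub, ← Real.exp_mul]
  rw [show 2 * Real.exp b / Real.exp (x' + z') = 2 * Real.exp (b - (x' + z')) by
    rw [Real.exp_sub]; ring]
  have : Real.exp (a + x' - (b + y')) * (Real.exp ((y' + 2 * b - (2 * x' + a)) * (1 / 3)) *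
      (2 * Real.exp (b - (x' + z'))) * (2 * Real.exp (b - (x' + z'))))
      = 4 * (Real.exp (a + x' - (b + y')) * Real.exp ((y' + 2 * b - (2 * x' + a)) * (1 / 3)) *
      Real.exp (b - (x' + z')) * Real.exp (b - (x' + z'))) := by ring
  rw [this]
  have h4 : 4 * Real.exp (a * (2 / 3) + b * (5 / 3)) *
      Real.exp (x' * -(5 / 3) + y' * -(2 / 3) + z' * -2)
      = 4 * (Real.exp (a * (2 / 3) + b * (5 / 3)) *
      Real.exp (x' * -(5 / 3) + y' * -(2 / 3) + z' * -2)) := by ring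
  rw [h4, ← Real.exp_add, ← Real.exp_add, ← Real.exp_add, ← Real.exp_add]
  congr 2
  ring

lemma trm_nonneg {A B : ℝ} (hA : 0 < A) (hB : 0 < B) (𝓑 : Finset Eis) (β : Eis → ℂ)
    (e f g : Eis) : 0 ≤ trm A B 𝓑 β e f g := by
  unfold trm
  have : 0 ≤ ∫ u : ℝ, (1 + u ^ 2)⁻¹ * hsum A B 𝓑 β e f g u :=
    MeasureTheory.integral_nonneg fun u => by
      have := hsum_nonneg hA hB 𝓑 β e f g u
      show 0 ≤ (1 + u ^ 2)⁻¹ * hsum A B 𝓑 β e f g u
      positivity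
  positivity

/-- one term of region 1 -/
theorem reg1_term (H : SyFacts) (hL1 : L1Prop) (hHB : HBProp) {e1 : ℝ} (he1 : 0 < e1)
    (he1' : e1 ≤ 1) : ∃ C : ℝ, 0 < C ∧ ∀ A B w : ℝ, 1 ≤ B → B ^ (1 + e1) ≤ A →
      ∀ (𝓑 : Finset Eis) (β : Eis → ℂ), T411.Cls w B 𝓑 β → ∀ e f g : Eis, IsPrim e → f ∈ dvs e →
      IsPrim g → (nm e : ℝ) * nm g ≤ B ^ (e1 / 4) →
      trm A B 𝓑 β e f g ≤ C * (A ^ ((2 : ℝ) / 3) * B ^ ((5 : ℝ) / 3)) *
        ((nm e : ℝ) ^ (-(5 / 3) : ℝ) * (nm f : ℝ) ^ (-(1 / 3) : ℝ) *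
          (nm g : ℝ) ^ (-(5 / 3) : ℝ)) := by
  classical
  obtain ⟨C, hC, hall⟩ := all_om H hL1 hHB (δ := e1 / 4) (by positivity) (by linarith)
  refine ⟨64 * Real.pi * C, by positivity, ?_⟩
  intro A B w hB hAB 𝓑 β hc e f g he hf hg hZ
  have hB0 : (0 : ℝ) < B := by linarith
  have hA1 : 1 ≤ A := (Real.one_le_rpow hB (by linarith)).trans hAB
  have hA0 : 0 < A := by linarith
  have hx : (1 : ℝ) ≤ nm e := one_le_nm' he.ne_zero
  have hf' : IsPrim f := isPrim_of_mem_dvs hf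
  have hy : (1 : ℝ) ≤ nm f := one_le_nm' hf'.ne_zero
  have hz : (1 : ℝ) ≤ nm g := one_le_nm' hg.ne_zero
  have hyx : (nm f : ℝ) ≤ nm e := by
    exact_mod_cast LS448.nm_le_of_dvd (dvd_of_mem_dvs hf) he.ne_zero
  set x : ℝ := (nm e : ℝ) with hxd
  set y : ℝ := (nm f : ℝ) with hyd
  set z : ℝ := (nm g : ℝ) with hzd
  have hx0 : 0 < x := by linarith
  have hy0 : 0 < y := by linarith
  have hz0 : 0 < z := by linarith
  set K' : ℝ := y * B ^ 2 / (x ^ 2 * A) with hK'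
  have hK'0 : 0 < K' := by positivity
  set B' : ℝ := 2 * B / (x * z) with hB'
  have hB'0 : 0 < B' := by positivity
  have hfin : trm A B 𝓑 β e f g ≤ A * x / (B * y) * (Real.pi * (16 * C * (K' ^ ((1 : ℝ) / 3) *
      B' * B'))) := by
    refine trm_le hA0 hB0 𝓑 β e f g _ fun u S hS => ?_
    rcases lt_or_ge B' 1 with hlt | hge
    · -- empty
      have hem : Tn 𝓑 e g = ∅ := by
        rw [eq_empty_iff_forall_notMem]
        intro n hn
        obtain ⟨n1, n2, n3⟩ := Tn_spec hc he.ne_zero hg.ne_zero hn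
        have := one_le_nm' n1.ne_zero
        linarith
      rw [hem]
      simp only [sum_empty, norm_zero]
      have : ∑ h ∈ S, omx (K' / nm h) * (0 : ℝ) ^ 2 = 0 := by simp
      refine this.le.trans ?_
      positivity
    · have hB'B : B ^ (1 - e1 / 4) ≤ B' := by
        have h1 : B ^ (1 - e1 / 4) * B ^ (e1 / 4) = B := by
          rw [← Real.rpow_add hB0]; norm_num
        rw [hB', le_div_iff₀ (by positivity)]
        calc B ^ (1 - e1 / 4) * (x * z) ≤ B ^ (1 - e1 / 4) * B ^ (e1 / 4) := by gcongr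
          _ = B := h1
          _ ≤ 2 * B := by linarith
      have hKB : K' ≤ B' ^ (1 - 2 * (e1 / 4)) := by
        have h1 : K' ≤ B ^ (1 - e1) := by
          have h2 : K' ≤ B ^ 2 / A := by
            rw [hK', div_le_div_iff₀ (by positivity) hA0]
            have : y ≤ x ^ 2 := by nlinarith
            have h3 : 0 ≤ B ^ 2 * A := by positivity
            nlinarith
          refine h2.trans ?_
          rw [div_le_iff₀ hA0]
          calc B ^ 2 = B ^ (1 - e1) * B ^ (1 + e1) := by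
                rw [← Real.rpow_add hB0, ← Real.rpow_natCast]; congr 1; push_cast; ring
            _ ≤ B ^ (1 - e1) * A := by gcongr
        refine h1.trans ?_
        calc B ^ (1 - e1) ≤ B ^ ((1 - e1 / 4) * (1 - 2 * (e1 / 4))) :=
              Real.rpow_le_rpow_of_exponent_le hB (by nlinarith)
          _ = (B ^ (1 - e1 / 4)) ^ (1 - 2 * (e1 / 4)) := by rw [Real.rpow_mul hB0.le]
          _ ≤ B' ^ (1 - 2 * (e1 / 4)) :=
              Real.rpow_le_rpow (by positivity) hB'B (by linarith)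
      have h1 := hall B' K' hge hK'0 hKB (Tn 𝓑 e g)
        (fun n hn => Tn_spec hc he.ne_zero hg.ne_zero hn) (bet β e f g u) S
        (fun h hh => (hS h hh).1)
      refine h1.trans ?_
      have h2 := sum_bet_le H hc (f := f) he.ne_zero hg.ne_zero hB0.le u
      calc C * K' ^ ((1 : ℝ) / 3) * B' * ∑ n ∈ Tn 𝓑 e g, ‖bet β e f g u n‖ ^ 2
          ≤ C * K' ^ ((1 : ℝ) / 3) * B' * (16 * B') := by gcongr
        _ = _ := by ring
  refine hfin.trans ?_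
  have h1 := alg1 hA0 hB0 hx0 hy0 hz0
  calc A * x / (B * y) * (Real.pi * (16 * C * (K' ^ ((1 : ℝ) / 3) * B' * B')))
      = 16 * Real.pi * C * (A * x / (B * y) * (K' ^ ((1 : ℝ) / 3) * B' * B')) := by ring
    _ = 16 * Real.pi * C * (4 * (A ^ ((2 : ℝ) / 3) * B ^ ((5 : ℝ) / 3)) *
      (x ^ (-(5 / 3) : ℝ) * y ^ (-(2 / 3) : ℝ) * z ^ (-(2 : ℝ)))) := by rw [h1]
    _ ≤ 16 * Real.pi * C * (4 * (A ^ ((2 : ℝ) / 3) * B ^ ((5 : ℝ) / 3)) *
      (x ^ (-(5 / 3) : ℝ) * y ^ (-(1 / 3) : ℝ) * z ^ (-(5 / 3) : ℝ))) := by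
        have y1 : y ^ (-(2 / 3) : ℝ) ≤ y ^ (-(1 / 3) : ℝ) :=
          Real.rpow_le_rpow_of_exponent_le hy (by norm_num)
        have z1 : z ^ (-(2 : ℝ)) ≤ z ^ (-(5 / 3) : ℝ) :=
          Real.rpow_le_rpow_of_exponent_le hz (by norm_num)
        have q0 : 0 ≤ 16 * Real.pi * C := by positivity
        have q1 : 0 ≤ 4 * (A ^ ((2 : ℝ) / 3) * B ^ ((5 : ℝ) / 3)) := by positivity
        refine mul_le_mul_of_nonneg_left (mul_le_mul_of_nonneg_left ?_ q1) q0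
        refine mul_le_mul (mul_le_mul_of_nonneg_left y1 (by positivity)) z1 (by positivity)
          (by positivity)
    _ = _ := by ring

/-! ### logarithms -/

lemma log_rpow_le {K c : ℝ} (hK : 0 < K) (hc : 0 < c) : ∃ C : ℝ, 0 < C ∧ ∀ X : ℝ, 1 ≤ X →
    Real.log X ^ K ≤ C * X ^ c := by
  refine ⟨(K / c) ^ K, by positivity, fun X hX => ?_⟩
  have hX0 : 0 < X := by linarith
  have h1 : Real.log X ≤ X ^ (c / K) / (c / K) := Real.log_le_rpow_div hX0.le (by positivity)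
  calc Real.log X ^ K ≤ (X ^ (c / K) / (c / K)) ^ K :=
        Real.rpow_le_rpow (Real.log_nonneg hX) h1 hK.le
    _ = (K / c * X ^ (c / K)) ^ K := by congr 1; field_simp
    _ = (K / c) ^ K * X ^ c := by
        rw [Real.mul_rpow (by positivity) (by positivity), ← Real.rpow_mul hX0.le]
        congr 2; field_simp

/-- the term `(1,1,1)` -/
theorem term111 (H : SyFacts) (hL1 : L1Prop) (hHB : HBProp) {e1 K : ℝ} (he1 : 0 < e1)
    (he1' : e1 ≤ 1) (hK : 0 < K) : ∃ C : ℝ, 0 < C ∧ ∀ X A B : ℝ, Real.exp 1 ≤ X →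
      X ^ ((1 : ℝ) / 4) ≤ B → B ^ (1 + e1) ≤ A → A ≤ X →
      ∀ (𝓑 : Finset Eis) (β : Eis → ℂ), T411.Cls (T411.ww X) B 𝓑 β →
      trm A B 𝓑 β 1 1 1 ≤ C * (A ^ ((2 : ℝ) / 3) * B ^ ((5 : ℝ) / 3) * Real.log X ^ (-K) +
        A ^ ((2 : ℝ) / 3) * B ^ (-(1 : ℝ) / 3) * ∑ h ∈ T411.NC (Real.log X ^ (3 * K)),
          ∫ u : ℝ, (1 + u ^ 2)⁻¹ * ‖T411.tws 𝓑 β h u‖ ^ 2) := by
  classical
  obtain ⟨C0, hC0, hN⟩ := noncube_omN H hL1 hHB (δ := e1 / 2) (by positivity) (by linarith)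
  obtain ⟨C1, hC1, hw1⟩ := Rough298.log_rpow_le_ww (4 * K + 2)
  obtain ⟨C2, hC2, hlog⟩ := log_rpow_le (K := K) (c := e1 / 96) hK (by positivity)
  refine ⟨C0 * (1 + Real.pi * (2400 ^ 2 * C1 + 64 * (1 + C2))), by positivity, ?_⟩
  intro X A B hX hB4 hAB hAX 𝓑 β hc
  have hX2 : 2 ≤ X := by
    have := Real.add_one_le_exp (1 : ℝ); linarith
  have hX0 : 0 < X := by linarith
  have hL1' : 1 ≤ Real.log X := by
    rw [← Real.log_exp 1]; exact Real.log_le_log (Real.exp_pos _) hX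
  set L := Real.log X with hLd
  have hL0 : 0 < L := by linarith
  have hB : 1 ≤ B := (Real.one_le_rpow (by linarith) (by norm_num)).trans hB4
  have hB0 : (0 : ℝ) < B := by linarith
  have hA1 : 1 ≤ A := (Real.one_le_rpow hB (by linarith)).trans hAB
  have hA0 : 0 < A := by linarith
  have hBA : B ≤ A := by
    refine le_trans ?_ hAB
    calc B = B ^ (1 : ℝ) := (Real.rpow_one _).symm
      _ ≤ B ^ (1 + e1) := Real.rpow_le_rpow_of_exponent_le hB (by linarith)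
  have hBX : B ≤ X := hBA.trans hAX
  set w := T411.ww X with hw
  have hw1' : 1 < w := Rough298.one_lt_ww hX2
  have hw0 : 0 < w := by linarith
  set K0 : ℝ := B ^ 2 / A with hK0
  have hK00 : 0 < K0 := by positivity
  have hK0B : K0 ≤ (2 * B) ^ (1 - 2 * (e1 / 2)) := by
    have h1 : K0 ≤ B ^ (1 - e1) := by
      rw [hK0, div_le_iff₀ hA0]
      calc B ^ 2 = B ^ (1 - e1) * B ^ (1 + e1) := by
            rw [← Real.rpow_add hB0, ← Real.rpow_natCast]; congr 1; push_cast; ring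
        _ ≤ B ^ (1 - e1) * A := by gcongr
    refine h1.trans ?_
    rw [show 1 - 2 * (e1 / 2) = 1 - e1 by ring]
    exact Real.rpow_le_rpow hB0.le (by linarith) (by linarith)
  set R : ℝ := 2400 * L * B / w with hR
  have hR0 : 0 ≤ R := by positivity
  set Λ : ℝ := L ^ (3 * K) with hΛ
  have hΛ1 : 1 ≤ Λ := Real.one_le_rpow hL1' (by positivity)
  -- the coprimality hypothesis
  have hRm : ∀ u : ℝ, ∀ m : Eis, m ≠ 0 → (nm m : ℝ) ≤ (2 * B) ^ 4 →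
      ∑ b ∈ 𝓑, ‖bet β 1 1 1 u b * (1 - cop m b)‖ ≤ R := by
    intro u m hm hmB
    refine (cop_defect hc _ (fun b hb => norm_bet_le H hc u (hc.sq b hb).1) m).trans ?_
    have h1 := Rough298.card_not_coprime_le hw1' hB0.le hc hm
    have h2 := Rough298.card_bigP_mul_log_le (X := 2 * X) hw1' (by linarith) hm
      (hmB.trans (by gcongr))
    have h3 := Rough298.log_ww_ge hX2
    have h4 : Real.log (2 * X) ≤ 2 * L := by
      rw [Real.log_mul (by norm_num) hX0.ne']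
      have : Real.log 2 ≤ L := Real.log_le_log (by norm_num) hX2
      linarith
    have h5 : ((Rough298.bigP w m).card : ℝ) ≤ 12 * L := by
      have h6 : (0 : ℝ) ≤ ((Rough298.bigP w m).card : ℝ) := by positivity
      nlinarith
    refine h1.trans ?_
    calc ((Rough298.bigP w m).card : ℝ) * (200 * B / w) ≤ 12 * L * (200 * B / w) := by gcongr
      _ = R := by rw [hR]; ring
  have hTspec : ∀ b ∈ 𝓑, IsPrim b ∧ Squarefree b ∧ (nm b : ℝ) ≤ 2 * B :=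
    fun b hb => ⟨(hc.sq b hb).1, (hc.sq b hb).2, hc.hi b hb⟩
  set M : ℝ := Λ * R ^ 2 + (Λ ^ (-(1 : ℝ) / 3) + (2 * B) ^ (-(e1 / 2 / 12))) * (2 * B) * (32 * B)
    with hM
  have hM0 : 0 ≤ M := by positivity
  set c : ℝ → ℝ := fun u => C0 * K0 ^ ((1 : ℝ) / 3) *
    (∑ v ∈ T411.NC Λ, ‖T411.tws 𝓑 β v u‖ ^ 2 + M) with hcd
  have hint : MeasureTheory.Integrable
      (fun u : ℝ => (1 + u ^ 2)⁻¹ * ∑ v ∈ T411.NC Λ, ‖T411.tws 𝓑 β v u‖ ^ 2) := by
    simp_rw [mul_sum]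
    exact MeasureTheory.integrable_finsetSum _ fun v _ => integrable_tws H hc v
  have hceq : (fun u : ℝ => (1 + u ^ 2)⁻¹ * c u) = fun u : ℝ =>
      C0 * K0 ^ ((1 : ℝ) / 3) * ((1 + u ^ 2)⁻¹ * ∑ v ∈ T411.NC Λ, ‖T411.tws 𝓑 β v u‖ ^ 2 +
        (1 + u ^ 2)⁻¹ * M) := by
    funext u; rw [hcd]; ring
  have hcint : MeasureTheory.Integrable (fun u : ℝ => (1 + u ^ 2)⁻¹ * c u) := by
    rw [hceq]
    exact (hint.add (integrable_inv_one_add_sq'.mul_const M)).const_mul _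
  have hmain : trm A B 𝓑 β 1 1 1 ≤ A * nm (1 : Eis) / (B * nm (1 : Eis)) *
      ∫ u : ℝ, (1 + u ^ 2)⁻¹ * c u := by
    refine trm_le' hA0 hB0 𝓑 β 1 1 1 c hcint fun u S hS => ?_
    have h1 := hN (2 * B) K0 Λ R (by linarith) hK00 hK0B hΛ1 hR0 𝓑 hTspec (bet β 1 1 1 u)
      (hRm u) S (fun h hh => by
        obtain ⟨h0, h1⟩ := hS h hh
        refine ⟨h0, ?_⟩
        rintro ⟨t, ht⟩
        refine h1 ⟨t, ?_, by rw [ht]; ring⟩
        rintro rfl
        exact h0 (by rw [ht]; ring))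
    have hs1 : ∀ h : Eis, ∑ n ∈ 𝓑, bet β 1 1 1 u n * sy h n = T411.tws 𝓑 β h u := by
      intro h
      have := sum_bet_one H hc u h
      rwa [Tn_one hc] at this
    simp only [hs1] at h1
    rw [Tn_one hc]
    have hnm1 : (nm (1 : Eis) : ℝ) = 1 := by simp
    have e1' : (nm (1 : Eis) : ℝ) * B ^ 2 / ((nm (1 : Eis) : ℝ) ^ 2 * A) = K0 := by
      rw [hnm1, hK0]; ring
    simp only [hs1]
    rw [e1']
    refine h1.trans ?_
    rw [hcd, ← ncs_eq Λ (by linarith)]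
    have h2 := sum_bet_le H hc (e := 1) (f := 1) (g := 1) one_ne_zero one_ne_zero hB0.le u
    rw [Tn_one hc, hnm1] at h2
    have h3 : ∑ n ∈ 𝓑, ‖bet β 1 1 1 u n‖ ^ 2 ≤ 32 * B := by
      refine h2.trans (le_of_eq ?_); ring
    simp only
    rw [hM, add_assoc]
    gcongr
  have hint2 : ∫ u : ℝ, (1 + u ^ 2)⁻¹ * c u = C0 * K0 ^ ((1 : ℝ) / 3) *
      ((∑ v ∈ T411.NC Λ, ∫ u : ℝ, (1 + u ^ 2)⁻¹ * ‖T411.tws 𝓑 β v u‖ ^ 2) + Real.pi * M) := by
    have e5 : ∫ u : ℝ, (1 + u ^ 2)⁻¹ * ∑ v ∈ T411.NC Λ, ‖T411.tws 𝓑 β v u‖ ^ 2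
        = ∑ v ∈ T411.NC Λ, ∫ u : ℝ, (1 + u ^ 2)⁻¹ * ‖T411.tws 𝓑 β v u‖ ^ 2 := by
      rw [← MeasureTheory.integral_finsetSum _ fun v _ => integrable_tws H hc v]
      simp_rw [mul_sum]
    rw [hceq, MeasureTheory.integral_const_mul, MeasureTheory.integral_add hint
      (integrable_inv_one_add_sq'.mul_const M), MeasureTheory.integral_mul_const,
      integral_univ_inv_one_add_sq, e5]
  rw [hint2] at hmain
  have hnm1 : (nm (1 : Eis) : ℝ) = 1 := by simp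
  rw [hnm1, mul_one, mul_one] at hmain
  set Sg := ∑ v ∈ T411.NC Λ, ∫ u : ℝ, (1 + u ^ 2)⁻¹ * ‖T411.tws 𝓑 β v u‖ ^ 2 with hSg
  have hSg0 : 0 ≤ Sg := sum_nonneg fun v _ => MeasureTheory.integral_nonneg fun u => by
    show 0 ≤ (1 + u ^ 2)⁻¹ * ‖T411.tws 𝓑 β v u‖ ^ 2
    positivity
  have hpre : A / B * K0 ^ ((1 : ℝ) / 3) = A ^ ((2 : ℝ) / 3) * B ^ (-(1 : ℝ) / 3) := by
    rw [hK0, Real.div_rpow (by positivity) hA0.le, ← Real.rpow_natCast B 2,
      ← Real.rpow_mul hB0.le]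
    have h1 : A = A ^ ((2 : ℝ) / 3) * A ^ ((1 : ℝ) / 3) := by
      rw [← Real.rpow_add hA0]; norm_num
    have h2 : B ^ (((2 : ℕ) : ℝ) * (1 / 3)) = B ^ (-(1 : ℝ) / 3) * B := by
      nth_rewrite 3 [← Real.rpow_one B]
      rw [← Real.rpow_add hB0]; norm_num
    rw [h2]
    nth_rewrite 1 [h1]
    have h3 : A ^ ((1 : ℝ) / 3) ≠ 0 := by positivity
    field_simp
  -- size of `M`
  have hLK : 0 < L ^ (-K) := by positivity
  have hMle : M ≤ (2400 ^ 2 * C1 + 64 * (1 + C2)) * (B ^ 2 * L ^ (-K)) := by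
    have m1 : Λ * R ^ 2 ≤ 2400 ^ 2 * C1 * (B ^ 2 * L ^ (-K)) := by
      have h1 := hw1 X hX2
      rw [← hLd, ← hw] at h1
      have h2 : w ^ ((1 : ℝ) / 8) ≤ w ^ 2 := by
        rw [← Real.rpow_natCast]
        exact Real.rpow_le_rpow_of_exponent_le hw1'.le (by norm_num)
      have h3 : L ^ (3 * K) * L ^ 2 = L ^ (4 * K + 2) * L ^ (-K) := by
        rw [← Real.rpow_natCast L 2, ← Real.rpow_add hL0, ← Real.rpow_add hL0]
        congr 1; push_cast; ring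
      have h4 : Λ * R ^ 2 = 2400 ^ 2 * B ^ 2 * (L ^ (4 * K + 2) * L ^ (-K)) / w ^ 2 := by
        rw [hR, hΛ, ← h3]; field_simp
      rw [h4, div_le_iff₀ (by positivity)]
      have h5 : L ^ (4 * K + 2) ≤ C1 * w ^ 2 := h1.trans (by gcongr)
      calc 2400 ^ 2 * B ^ 2 * (L ^ (4 * K + 2) * L ^ (-K))
          ≤ 2400 ^ 2 * B ^ 2 * ((C1 * w ^ 2) * L ^ (-K)) := by gcongr
        _ = _ := by ring
    have m2 : Λ ^ (-(1 : ℝ) / 3) = L ^ (-K) := by
      rw [hΛ, ← Real.rpow_mul hL0.le]; congr 1; ring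
    have m3 : (2 * B) ^ (-(e1 / 2 / 12)) ≤ C2 * L ^ (-K) := by
      have h1 := hlog X (by linarith)
      rw [← hLd] at h1
      have h2 : X ^ (e1 / 96) ≤ (2 * B) ^ (e1 / 2 / 12) := by
        calc X ^ (e1 / 96) = (X ^ ((1 : ℝ) / 4)) ^ (e1 / 2 / 12) := by
              rw [← Real.rpow_mul hX0.le]; congr 1; ring
          _ ≤ (2 * B) ^ (e1 / 2 / 12) :=
              Real.rpow_le_rpow (by positivity) (by linarith) (by positivity)
      have h3 : L ^ K ≤ C2 * (2 * B) ^ (e1 / 2 / 12) := h1.trans (by gcongr)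
      rw [Real.rpow_neg (by positivity), Real.rpow_neg hL0.le]
      rw [inv_eq_one_div, div_le_iff₀ (by positivity)]
      have h4 : 0 < L ^ K := by positivity
      calc (1 : ℝ) = (L ^ K)⁻¹ * L ^ K := by field_simp
        _ ≤ (L ^ K)⁻¹ * (C2 * (2 * B) ^ (e1 / 2 / 12)) := by gcongr
        _ = _ := by ring
    rw [hM, m2]
    calc Λ * R ^ 2 + (L ^ (-K) + (2 * B) ^ (-(e1 / 2 / 12))) * (2 * B) * (32 * B)
        ≤ 2400 ^ 2 * C1 * (B ^ 2 * L ^ (-K)) + (L ^ (-K) + C2 * L ^ (-K)) * (2 * B) * (32 * B) := by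
          gcongr
      _ = _ := by ring
  calc trm A B 𝓑 β 1 1 1 ≤ A / B * (C0 * K0 ^ ((1 : ℝ) / 3) * (Sg + Real.pi * M)) := hmain
    _ = C0 * (A / B * K0 ^ ((1 : ℝ) / 3)) * (Sg + Real.pi * M) := by ring
    _ = C0 * (A ^ ((2 : ℝ) / 3) * B ^ (-(1 : ℝ) / 3)) * (Sg + Real.pi * M) := by rw [hpre]
    _ ≤ C0 * (A ^ ((2 : ℝ) / 3) * B ^ (-(1 : ℝ) / 3)) * (Sg + Real.pi *
        ((2400 ^ 2 * C1 + 64 * (1 + C2)) * (B ^ 2 * L ^ (-K)))) := by gcongr
    _ = C0 * (A ^ ((2 : ℝ) / 3) * B ^ (-(1 : ℝ) / 3)) * Sg +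
        C0 * (Real.pi * (2400 ^ 2 * C1 + 64 * (1 + C2))) *
          (A ^ ((2 : ℝ) / 3) * (B ^ (-(1 : ℝ) / 3) * B ^ 2) * L ^ (-K)) := by ring
    _ = C0 * (A ^ ((2 : ℝ) / 3) * B ^ (-(1 : ℝ) / 3)) * Sg +
        C0 * (Real.pi * (2400 ^ 2 * C1 + 64 * (1 + C2))) *
          (A ^ ((2 : ℝ) / 3) * B ^ ((5 : ℝ) / 3) * L ^ (-K)) := by
        have : B ^ (-(1 : ℝ) / 3) * B ^ 2 = B ^ ((5 : ℝ) / 3) := by
          rw [← Real.rpow_natCast B 2, ← Real.rpow_add hB0]; norm_num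
        rw [this]
    _ ≤ C0 * (1 + Real.pi * (2400 ^ 2 * C1 + 64 * (1 + C2))) *
        (A ^ ((2 : ℝ) / 3) * B ^ (-(1 : ℝ) / 3) * Sg) +
        C0 * (1 + Real.pi * (2400 ^ 2 * C1 + 64 * (1 + C2))) *
          (A ^ ((2 : ℝ) / 3) * B ^ ((5 : ℝ) / 3) * L ^ (-K)) := by
        have q1 : 0 ≤ Real.pi * (2400 ^ 2 * C1 + 64 * (1 + C2)) := by positivity
        have q2 : 0 ≤ A ^ ((2 : ℝ) / 3) * B ^ (-(1 : ℝ) / 3) * Sg := by positivity
        have q3 : 0 ≤ A ^ ((2 : ℝ) / 3) * B ^ ((5 : ℝ) / 3) * L ^ (-K) := by positivity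
        have q4 : C0 * (A ^ ((2 : ℝ) / 3) * B ^ (-(1 : ℝ) / 3)) * Sg
            = C0 * 1 * (A ^ ((2 : ℝ) / 3) * B ^ (-(1 : ℝ) / 3) * Sg) := by ring
        rw [q4]
        gcongr
        · linarith
        · linarith
    _ = _ := by ring

/-! ### assembly -/

lemma cls_one {w B : ℝ} {𝓑 : Finset Eis} {β : Eis → ℂ} (hc : T411.Cls w B 𝓑 β) :
    T411.Cls 1 B 𝓑 β :=
  ⟨hc.sq, hc.lo, hc.hi, fun b hb p hp _ => by exact_mod_cast hp.one_lt_nm.le, hc.le⟩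

lemma dvs_one : dvs (1 : Eis) = {1} := by
  ext x
  rw [mem_dvs one_ne_zero, mem_singleton]
  constructor
  · rintro ⟨h1, h2⟩
    exact Mob705.isPrim_eq_one_of_isUnit h1 (isUnit_of_dvd_one h2)
  · rintro rfl
    exact ⟨isPrim_one, dvd_rfl⟩

/-- the diagonal `(1,1,1)` is counted once -/
lemma sum_diag_le (D : Finset Eis) (Gs : Eis → Finset Eis) {c : ℝ} (hc : 0 ≤ c) :
    ∑ e ∈ D, ∑ f ∈ dvs e, ∑ g ∈ Gs e,
      (open Classical in if e = 1 ∧ g = 1 then c else 0) ≤ c := by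
  classical
  have h1 : ∀ e ∈ D, ∑ f ∈ dvs e, ∑ g ∈ Gs e, (if e = 1 ∧ g = 1 then c else 0)
      ≤ if e = 1 then c else 0 := by
    intro e _
    by_cases he : e = 1
    · subst he
      rw [dvs_one, sum_singleton]
      simp only [true_and, if_true]
      rw [sum_ite_eq']
      split_ifs
      · exact le_rfl
      · exact hc
    · simp [he]
  refine (sum_le_sum h1).trans ?_
  rw [sum_ite_eq']
  split_ifs
  · exact le_rfl
  · exact hc

/-- **TNXN** from the weight sums and region 2. -/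
theorem tnxN_of (H : SyFacts) (hL1 : L1Prop) (hHB : HBProp) (hW : WSum) (h2 : Reg2) :
    T411.TNXN := by
  classical
  intro e0 K he0 hK
  set e1 : ℝ := min e0 1 with he1d
  have he1 : 0 < e1 := lt_min he0 one_pos
  have he1' : e1 ≤ 1 := min_le_right _ _
  obtain ⟨C1, hC1, hR1⟩ := reg1_term H hL1 hHB he1 he1'
  obtain ⟨C2, hC2, hT⟩ := term111 H hL1 hHB he1 he1' hK
  obtain ⟨Cw, hCw, hws⟩ := hW
  obtain ⟨Cr, hCr, hr⟩ := h2 (e1 / 64) (by positivity)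
  obtain ⟨C3, hC3, hw3⟩ := Rough298.log_rpow_le_ww K
  obtain ⟨C4, hC4, hlog⟩ := log_rpow_le (K := K) (c := e1 / 64) hK (by positivity)
  set Ct : ℝ := C2 + C1 * Cw * C3 + Cr * (2 * C4 + C4) + 9 * Cr + 3 * K with hCt
  have hCt0 : 0 < Ct := by positivity
  refine ⟨Ct, hCt0, ?_⟩
  intro X A B hX hB4 hAB0 hAX 𝓑 β hc
  have hX0 : 0 < X := by linarith
  have hB : 1 ≤ B := (Real.one_le_rpow (by linarith) (by norm_num)).trans hB4
  have hB0 : (0 : ℝ) < B := by linarith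
  have hAB : B ^ (1 + e1) ≤ A := by
    refine le_trans ?_ hAB0
    exact Real.rpow_le_rpow_of_exponent_le hB (by have := min_le_left e0 1; linarith)
  have hA1 : 1 ≤ A := (Real.one_le_rpow hB (by linarith)).trans hAB
  have hA0 : 0 < A := by linarith
  have hBA : B ≤ A := by
    refine le_trans ?_ hAB
    calc B = B ^ (1 : ℝ) := (Real.rpow_one _).symm
      _ ≤ B ^ (1 + e1) := Real.rpow_le_rpow_of_exponent_le hB (by linarith)
  have hBX : B ≤ X := hBA.trans hAX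
  have hBX2 : B ≤ X ^ 2 := by nlinarith
  have hBA2 : B ≤ A ^ 2 := by nlinarith
  have hc1 := cls_one hc
  set L := Real.log X with hLd
  have hL69 := Rough298.log_two_le hX
  rw [← hLd] at hL69
  have hL0 : 0 < L := by linarith
  set Y : ℝ := A ^ ((2 : ℝ) / 3) * B ^ ((5 : ℝ) / 3) with hY
  have hY0 : 0 < Y := by positivity
  have hY1 : A ^ ((1 : ℝ) / 3) * B ^ 2 ≤ Y := by
    have h1 : B ^ 2 = B ^ ((5 : ℝ) / 3) * B ^ ((1 : ℝ) / 3) := by
      rw [← Real.rpow_add hB0, ← Real.rpow_natCast]; norm_num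
    have h3 : A ^ ((2 : ℝ) / 3) = A ^ ((1 : ℝ) / 3) * A ^ ((1 : ℝ) / 3) := by
      rw [← Real.rpow_add hA0]; norm_num
    have h4 : B ^ ((1 : ℝ) / 3) ≤ A ^ ((1 : ℝ) / 3) :=
      Real.rpow_le_rpow hB0.le hBA (by norm_num)
    rw [hY, h1, h3]
    calc A ^ ((1 : ℝ) / 3) * (B ^ ((5 : ℝ) / 3) * B ^ ((1 : ℝ) / 3))
        ≤ A ^ ((1 : ℝ) / 3) * (B ^ ((5 : ℝ) / 3) * A ^ ((1 : ℝ) / 3)) := by gcongr
      _ = _ := by ring
  have hY2 : B ^ 2 ≤ Y * B ^ (-(1 / 3) : ℝ) := by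
    have h1 : B ^ 2 = B ^ ((5 : ℝ) / 3) * (B ^ ((2 : ℝ) / 3) * B ^ (-(1 / 3) : ℝ)) := by
      rw [← Real.rpow_add hB0, ← Real.rpow_add hB0, ← Real.rpow_natCast]; norm_num
    have h4 : B ^ ((2 : ℝ) / 3) ≤ A ^ ((2 : ℝ) / 3) :=
      Real.rpow_le_rpow hB0.le hBA (by norm_num)
    rw [h1, hY]
    calc B ^ ((5 : ℝ) / 3) * (B ^ ((2 : ℝ) / 3) * B ^ (-(1 / 3) : ℝ))
        ≤ B ^ ((5 : ℝ) / 3) * (A ^ ((2 : ℝ) / 3) * B ^ (-(1 / 3) : ℝ)) := by gcongr
      _ = _ := by ring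
  have hint0 : ∀ H' : ℝ, 0 ≤ ∑ h ∈ T411.NC H', ∫ u : ℝ, (1 + u ^ 2)⁻¹ * ‖T411.tws 𝓑 β h u‖ ^ 2 :=
    fun H' => sum_nonneg fun v _ => MeasureTheory.integral_nonneg fun u => by
      show 0 ≤ (1 + u ^ 2)⁻¹ * ‖T411.tws 𝓑 β v u‖ ^ 2
      positivity
  rw [RHSd_eq]
  rcases lt_or_ge X (Real.exp 1) with hXe | hXe
  · -- small `X`
    have hL1' : L ≤ 1 := by
      rw [← Real.log_exp 1]; exact Real.log_le_log hX0 hXe.le
    have h1 := hr X A B 1 hX hB4 hBX2 hBA2 hA1 hAX le_rfl 𝓑 β hc1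
    have h3 : ∑ e ∈ 𝓑.biUnion dvs, ∑ f ∈ dvs e, ∑ g ∈ (𝓑.biUnion dvs).filter (IsCoprime · e),
        trm A B 𝓑 β e f g = ∑ e ∈ 𝓑.biUnion dvs, ∑ f ∈ dvs e,
        ∑ g ∈ (𝓑.biUnion dvs).filter (IsCoprime · e),
        (if 1 ≤ (nm e : ℝ) * nm g then trm A B 𝓑 β e f g else 0) := by
      refine sum_congr rfl fun e he => sum_congr rfl fun f _ => sum_congr rfl fun g hg => ?_
      rw [if_pos]
      have e1 := one_le_nm' (Dv_prim hc he).ne_zero
      have e2 := one_le_nm' (Dv_prim hc (mem_filter.mp hg).1).ne_zero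
      nlinarith
    rw [h3]
    refine h1.trans ?_
    rw [Real.one_rpow, mul_one, mul_one]
    have hXε : X ^ (e1 / 64) ≤ 3 := by
      calc X ^ (e1 / 64) ≤ X ^ (1 : ℝ) :=
            Real.rpow_le_rpow_of_exponent_le (by linarith) (by linarith)
        _ = X := Real.rpow_one _
        _ ≤ 3 := by have := Real.exp_one_lt_d9; linarith
    have hB3 : B ^ (-(1 / 3) : ℝ) ≤ 1 := Real.rpow_le_one_of_one_le_of_nonpos hB (by norm_num)
    have hLK : 1 ≤ L ^ (-K) := Real.one_le_rpow_of_pos_of_le_one_of_nonpos hL0 hL1' (by linarith)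
    have hB2Y : B ^ 2 ≤ Y := hY2.trans (by nlinarith)
    calc Cr * X ^ (e1 / 64) * (Y + A ^ ((1 : ℝ) / 3) * B ^ 2 + B ^ 2)
        ≤ Cr * 3 * (Y + Y + Y) := by gcongr
      _ = 9 * Cr * (Y * 1) := by ring
      _ ≤ Ct * (Y * L ^ (-K)) := by
          gcongr
          rw [hCt]
          have : 0 ≤ C2 + C1 * Cw * C3 + Cr * (2 * C4 + C4) + 3 * K := by positivity
          linarith
      _ ≤ Ct * (A * B * L ^ Ct + Y * L ^ (-K) + A ^ ((2 : ℝ) / 3) * B ^ (-(1 : ℝ) / 3) * L ^ Ct *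
          ∑ h ∈ T411.NC (L ^ Ct), ∫ u : ℝ, (1 + u ^ 2)⁻¹ * ‖T411.tws 𝓑 β h u‖ ^ 2) := by
          have q1 : 0 ≤ A * B * L ^ Ct := by positivity
          have q2 := hint0 (L ^ Ct)
          have q3 : 0 ≤ A ^ ((2 : ℝ) / 3) * B ^ (-(1 : ℝ) / 3) * L ^ Ct *
            ∑ h ∈ T411.NC (L ^ Ct), ∫ u : ℝ, (1 + u ^ 2)⁻¹ * ‖T411.tws 𝓑 β h u‖ ^ 2 := by
            positivity
          gcongr
          linarith
  · -- main case
    have hL1' : 1 ≤ L := by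
      rw [← Real.log_exp 1]; exact Real.log_le_log (Real.exp_pos _) hXe
    set w := T411.ww X with hw
    have hw1' : 1 < w := Rough298.one_lt_ww hX
    have hw0 : 0 < w := by linarith
    set Z : ℝ := B ^ (e1 / 4) with hZ
    have hZ1 : 1 ≤ Z := Real.one_le_rpow hB (by positivity)
    have hZ0 : 0 < Z := by linarith
    set D := 𝓑.biUnion dvs with hD
    set wt : Eis → Eis → Eis → ℝ := fun e f g => (nm e : ℝ) ^ (-(5 / 3) : ℝ) *
      (nm f : ℝ) ^ (-(1 / 3) : ℝ) * (nm g : ℝ) ^ (-(5 / 3) : ℝ) with hwt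
    have hwt0 : ∀ e f g, 0 ≤ wt e f g := fun e f g => by rw [hwt]; positivity
    set T1 := trm A B 𝓑 β 1 1 1 with hT1
    have hT10 : 0 ≤ T1 := trm_nonneg hA0 hB0 𝓑 β 1 1 1
    have hpt : ∀ e ∈ D, ∀ f ∈ dvs e, ∀ g ∈ D.filter (IsCoprime · e),
        trm A B 𝓑 β e f g ≤ (if e = 1 ∧ g = 1 then T1 else 0) +
          (if w ≤ (nm e : ℝ) * nm g then C1 * Y * wt e f g else 0) +
          (if Z ≤ (nm e : ℝ) * nm g then trm A B 𝓑 β e f g else 0) := by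
      intro e he f hf g hg
      have heP : IsPrim e := Dv_prim hc he
      have hgD := (mem_filter.mp hg).1
      have hgP : IsPrim g := Dv_prim hc hgD
      have n1 := one_le_nm' heP.ne_zero
      have n2 := one_le_nm' hgP.ne_zero
      have h0 := trm_nonneg hA0 hB0 𝓑 β e f g
      have hw1 : 0 ≤ C1 * Y * wt e f g := by have := hwt0 e f g; positivity
      by_cases h11 : e = 1 ∧ g = 1
      · obtain ⟨rfl, rfl⟩ := h11
        rw [dvs_one, mem_singleton] at hf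
        subst hf
        rw [if_pos ⟨rfl, rfl⟩]
        have q1 : 0 ≤ (if w ≤ ((nm (1 : Eis) : ℕ) : ℝ) * nm (1 : Eis) then
          C1 * Y * wt 1 1 1 else 0) := by split_ifs <;> simp [hw1]
        have q2 : 0 ≤ (if Z ≤ ((nm (1 : Eis) : ℕ) : ℝ) * nm (1 : Eis) then
          trm A B 𝓑 β 1 1 1 else 0) := by split_ifs <;> simp [h0]
        linarith
      · rw [if_neg h11]
        by_cases hZc : Z ≤ (nm e : ℝ) * nm g
        · rw [if_pos hZc]
          have q1 : 0 ≤ (if w ≤ (nm e : ℝ) * nm g then C1 * Y * wt e f g else 0) := by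
            split_ifs
            · exact hw1
            · exact le_rfl
          linarith
        · rw [if_neg hZc]
          rw [not_le] at hZc
          have hwle : w ≤ (nm e : ℝ) * nm g := by
            by_cases he1 : e = 1
            · have hg1 : g ≠ 1 := fun h => h11 ⟨he1, h⟩
              have := Dv_rough hc hgD hg1
              nlinarith
            · have := Dv_rough hc he he1
              nlinarith
          rw [if_pos hwle]
          have := hR1 A B w hB hAB 𝓑 β hc e f g heP hf hgP hZc.le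
          rw [hwt]
          linarith
    have hsum : ∑ e ∈ D, ∑ f ∈ dvs e, ∑ g ∈ D.filter (IsCoprime · e), trm A B 𝓑 β e f g
        ≤ ∑ e ∈ D, ∑ f ∈ dvs e, ∑ g ∈ D.filter (IsCoprime · e),
            (if e = 1 ∧ g = 1 then T1 else 0) +
          ∑ e ∈ D, ∑ f ∈ dvs e, ∑ g ∈ D.filter (IsCoprime · e),
            (if w ≤ (nm e : ℝ) * nm g then C1 * Y * wt e f g else 0) +
          ∑ e ∈ D, ∑ f ∈ dvs e, ∑ g ∈ D.filter (IsCoprime · e),
            (if Z ≤ (nm e : ℝ) * nm g then trm A B 𝓑 β e f g else 0) := by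
      rw [← sum_add_distrib, ← sum_add_distrib]
      refine sum_le_sum fun e he => ?_
      rw [← sum_add_distrib, ← sum_add_distrib]
      refine sum_le_sum fun f hf => ?_
      rw [← sum_add_distrib, ← sum_add_distrib]
      exact sum_le_sum fun g hg => hpt e he f hf g hg
    have hs1 : ∑ e ∈ D, ∑ f ∈ dvs e, ∑ g ∈ D.filter (IsCoprime · e),
            (if e = 1 ∧ g = 1 then T1 else 0) ≤ T1 := by
      have := sum_diag_le D (fun e => D.filter (IsCoprime · e)) hT10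
      convert this using 6
    have hs2 : ∑ e ∈ D, ∑ f ∈ dvs e, ∑ g ∈ D.filter (IsCoprime · e),
            (if w ≤ (nm e : ℝ) * nm g then C1 * Y * wt e f g else 0)
          ≤ C1 * Y * (Cw * w ^ (-(1 / 2) : ℝ)) := by
      have h5 := hws D (fun x hx => Dv_prim hc hx) w hw1'.le
      calc ∑ e ∈ D, ∑ f ∈ dvs e, ∑ g ∈ D.filter (IsCoprime · e),
            (if w ≤ (nm e : ℝ) * nm g then C1 * Y * wt e f g else 0)
          ≤ ∑ e ∈ D, ∑ f ∈ dvs e, ∑ g ∈ D.filter (fun g => w ≤ (nm e : ℝ) * nm g),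
              C1 * Y * wt e f g := by
            refine sum_le_sum fun e _ => sum_le_sum fun f _ => ?_
            rw [← sum_filter, filter_filter]
            refine sum_le_sum_of_subset_of_nonneg ?_ fun g _ _ => ?_
            · intro g hg
              rw [mem_filter] at hg ⊢
              exact ⟨hg.1, hg.2.2⟩
            · have := hwt0 e f g; positivity
        _ = C1 * Y * ∑ e ∈ D, ∑ f ∈ dvs e, ∑ g ∈ D.filter (fun g => w ≤ (nm e : ℝ) * nm g),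
              wt e f g := by
            simp_rw [mul_sum]
        _ ≤ C1 * Y * (Cw * w ^ (-(1 / 2) : ℝ)) := by
            refine mul_le_mul_of_nonneg_left ?_ (by positivity)
            convert h5 using 6
    have hs3 := hr X A B Z hX hB4 hBX2 hBA2 hA1 hAX hZ1 𝓑 β hc1
    have hT1' := hT X A B hXe hB4 hAB hAX 𝓑 β hc
    rw [← hLd] at hT1'
    -- arithmetic
    have hLKp : 0 < L ^ K := by positivity
    have hLK : 0 < L ^ (-K) := by positivity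
    have hLK1 : L ^ K * L ^ (-K) = 1 := by rw [← Real.rpow_add hL0]; norm_num
    have a1 : w ^ (-(1 / 2) : ℝ) ≤ C3 * L ^ (-K) := by
      have h1 := hw3 X hX
      rw [← hLd, ← hw] at h1
      have h3 : w ^ ((1 : ℝ) / 8) ≤ w ^ ((1 : ℝ) / 2) :=
        Real.rpow_le_rpow_of_exponent_le hw1'.le (by norm_num)
      have h4 : L ^ K ≤ C3 * w ^ ((1 : ℝ) / 2) := h1.trans (by gcongr)
      have h5 : w ^ (-(1 / 2) : ℝ) * w ^ ((1 : ℝ) / 2) = 1 := by
        rw [← Real.rpow_add hw0]; norm_num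
      have h6 : 0 < w ^ (-(1 / 2) : ℝ) := by positivity
      calc w ^ (-(1 / 2) : ℝ) = w ^ (-(1 / 2) : ℝ) * (L ^ K * L ^ (-K)) := by rw [hLK1, mul_one]
        _ ≤ w ^ (-(1 / 2) : ℝ) * ((C3 * w ^ ((1 : ℝ) / 2)) * L ^ (-K)) := by gcongr
        _ = C3 * L ^ (-K) * (w ^ (-(1 / 2) : ℝ) * w ^ ((1 : ℝ) / 2)) := by ring
        _ = _ := by rw [h5, mul_one]
    have a2 : X ^ (-(e1 / 64)) ≤ C4 * L ^ (-K) := by
      have h1 := hlog X (by linarith)
      rw [← hLd] at h1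
      have h5 : X ^ (-(e1 / 64)) * X ^ (e1 / 64) = 1 := by
        rw [← Real.rpow_add hX0]; norm_num
      have h6 : 0 < X ^ (-(e1 / 64)) := by positivity
      calc X ^ (-(e1 / 64)) = X ^ (-(e1 / 64)) * (L ^ K * L ^ (-K)) := by rw [hLK1, mul_one]
        _ ≤ X ^ (-(e1 / 64)) * ((C4 * X ^ (e1 / 64)) * L ^ (-K)) := by gcongr
        _ = C4 * L ^ (-K) * (X ^ (-(e1 / 64)) * X ^ (e1 / 64)) := by ring
        _ = _ := by rw [h5, mul_one]
    have a3 : X ^ (e1 / 64) * Z ^ (-(1 / 2) : ℝ) ≤ X ^ (-(e1 / 64)) := by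
      have h1 : Z ^ (-(1 / 2) : ℝ) ≤ X ^ (-(e1 / 32)) := by
        have h2 : X ^ (e1 / 16) ≤ Z := by
          rw [hZ]
          calc X ^ (e1 / 16) = (X ^ ((1 : ℝ) / 4)) ^ (e1 / 4) := by
                rw [← Real.rpow_mul hX0.le]; congr 1; ring
            _ ≤ B ^ (e1 / 4) := Real.rpow_le_rpow (by positivity) hB4 (by positivity)
        calc Z ^ (-(1 / 2) : ℝ) ≤ (X ^ (e1 / 16)) ^ (-(1 / 2) : ℝ) :=
              Real.rpow_le_rpow_of_nonpos (by positivity) h2 (by norm_num)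
          _ = X ^ (-(e1 / 32)) := by rw [← Real.rpow_mul hX0.le]; congr 1; ring
      calc X ^ (e1 / 64) * Z ^ (-(1 / 2) : ℝ) ≤ X ^ (e1 / 64) * X ^ (-(e1 / 32)) := by gcongr
        _ = X ^ (-(e1 / 64)) := by rw [← Real.rpow_add hX0]; congr 1; ring
    have a4 : X ^ (e1 / 64) * B ^ 2 ≤ Y * X ^ (-(e1 / 64)) := by
      have h1 : B ^ (-(1 / 3) : ℝ) ≤ X ^ (-(1 / 12) : ℝ) := by
        calc B ^ (-(1 / 3) : ℝ) ≤ (X ^ ((1 : ℝ) / 4)) ^ (-(1 / 3) : ℝ) :=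
              Real.rpow_le_rpow_of_nonpos (by positivity) hB4 (by norm_num)
          _ = X ^ (-(1 / 12) : ℝ) := by rw [← Real.rpow_mul hX0.le]; norm_num
      calc X ^ (e1 / 64) * B ^ 2 ≤ X ^ (e1 / 64) * (Y * X ^ (-(1 / 12) : ℝ)) := by
            gcongr
            exact hY2.trans (by gcongr)
        _ = Y * (X ^ (e1 / 64) * X ^ (-(1 / 12) : ℝ)) := by ring
        _ = Y * X ^ (e1 / 64 + -(1 / 12)) := by rw [← Real.rpow_add hX0]
        _ ≤ Y * X ^ (-(e1 / 64)) := by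
            gcongr
            · linarith
            · linarith
    set T2 := ∑ h ∈ T411.NC (L ^ (3 * K)), ∫ u : ℝ, (1 + u ^ 2)⁻¹ * ‖T411.tws 𝓑 β h u‖ ^ 2
      with hT2
    set T3 := ∑ h ∈ T411.NC (L ^ Ct), ∫ u : ℝ, (1 + u ^ 2)⁻¹ * ‖T411.tws 𝓑 β h u‖ ^ 2
      with hT3
    have hT20 : 0 ≤ T2 := hint0 _
    have hT30 : 0 ≤ T3 := hint0 _
    have h3K : 3 * K ≤ Ct := by
      rw [hCt]
      have : 0 ≤ C2 + C1 * Cw * C3 + Cr * (2 * C4 + C4) + 9 * Cr := by positivity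
      linarith
    have hT23 : T2 ≤ T3 := by
      refine sum_le_sum_of_subset_of_nonneg ?_ fun v _ _ => MeasureTheory.integral_nonneg fun u => by
        show 0 ≤ (1 + u ^ 2)⁻¹ * ‖T411.tws 𝓑 β v u‖ ^ 2
        positivity
      rw [← ncs_eq _ (by positivity), ← ncs_eq _ (by positivity)]
      unfold ncs
      exact filter_subset_filter _ (LS448.nz_mono (Real.rpow_le_rpow_of_exponent_le hL1' h3K))
    have hLC : 1 ≤ L ^ Ct := Real.one_le_rpow hL1' hCt0.le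
    set Q : ℝ := A ^ ((2 : ℝ) / 3) * B ^ (-(1 : ℝ) / 3) with hQ
    have hQ0 : 0 < Q := by positivity
    have hQT : Q * T2 ≤ Q * L ^ Ct * T3 := by
      calc Q * T2 ≤ Q * T3 := by gcongr
        _ = Q * 1 * T3 := by ring
        _ ≤ Q * L ^ Ct * T3 := by gcongr
    have hYL : 0 < Y * L ^ (-K) := by positivity
    have b2 : C1 * Y * (Cw * w ^ (-(1 / 2) : ℝ)) ≤ C1 * Cw * C3 * (Y * L ^ (-K)) := by
      calc C1 * Y * (Cw * w ^ (-(1 / 2) : ℝ)) ≤ C1 * Y * (Cw * (C3 * L ^ (-K))) := by gcongr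
        _ = _ := by ring
    have b3 : Cr * X ^ (e1 / 64) * (Y * Z ^ (-(1 / 2) : ℝ) +
        A ^ ((1 : ℝ) / 3) * B ^ 2 * Z ^ (-(1 / 2) : ℝ) + B ^ 2)
        ≤ Cr * (2 * C4 + C4) * (Y * L ^ (-K)) := by
      calc Cr * X ^ (e1 / 64) * (Y * Z ^ (-(1 / 2) : ℝ) +
            A ^ ((1 : ℝ) / 3) * B ^ 2 * Z ^ (-(1 / 2) : ℝ) + B ^ 2)
          = Cr * (Y * (X ^ (e1 / 64) * Z ^ (-(1 / 2) : ℝ)) + (A ^ ((1 : ℝ) / 3) * B ^ 2) *
            (X ^ (e1 / 64) * Z ^ (-(1 / 2) : ℝ)) + X ^ (e1 / 64) * B ^ 2) := by ring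
        _ ≤ Cr * (Y * X ^ (-(e1 / 64)) + Y * X ^ (-(e1 / 64)) + Y * X ^ (-(e1 / 64))) := by
            gcongr
        _ = 3 * Cr * Y * X ^ (-(e1 / 64)) := by ring
        _ ≤ 3 * Cr * Y * (C4 * L ^ (-K)) := by gcongr
        _ = _ := by ring
    calc ∑ e ∈ D, ∑ f ∈ dvs e, ∑ g ∈ D.filter (IsCoprime · e), trm A B 𝓑 β e f g
        ≤ T1 + C1 * Y * (Cw * w ^ (-(1 / 2) : ℝ)) + Cr * X ^ (e1 / 64) *
          (Y * Z ^ (-(1 / 2) : ℝ) + A ^ ((1 : ℝ) / 3) * B ^ 2 * Z ^ (-(1 / 2) : ℝ) + B ^ 2) :=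
          hsum.trans (add_le_add (add_le_add hs1 hs2) hs3)
      _ ≤ C2 * (Y * L ^ (-K) + Q * T2) + C1 * Cw * C3 * (Y * L ^ (-K)) +
          Cr * (2 * C4 + C4) * (Y * L ^ (-K)) := add_le_add (add_le_add hT1' b2) b3
      _ ≤ Ct * (Y * L ^ (-K)) + C2 * (Q * L ^ Ct * T3) := by
          have h7 : C2 * (Q * T2) ≤ C2 * (Q * L ^ Ct * T3) := by gcongr
          have h8 : (C2 + C1 * Cw * C3 + Cr * (2 * C4 + C4)) * (Y * L ^ (-K))
              ≤ Ct * (Y * L ^ (-K)) := by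
            gcongr
            rw [hCt]
            have : 0 ≤ 9 * Cr + 3 * K := by positivity
            linarith
          nlinarith
      _ ≤ Ct * (A * B * L ^ Ct + Y * L ^ (-K) + Q * L ^ Ct * T3) := by
          have h9 : C2 * (Q * L ^ Ct * T3) ≤ Ct * (Q * L ^ Ct * T3) := by
            gcongr
            rw [hCt]
            have : 0 ≤ C1 * Cw * C3 + Cr * (2 * C4 + C4) + 9 * Cr + 3 * K := by positivity
            linarith
          have h10 : 0 ≤ Ct * (A * B * L ^ Ct) := by positivity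
          nlinarith

end Crest.Agent.R012.NonCube52
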