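import Crest.Agent.R012.OmB_52
import Crest.Agent.R012.Spec_T_411

/-!
# Row 12, item TNX: the `(e,f,g)` terms of `RHSd`

* `trm A B 𝓑 β e f g`  : the summand of `T411.RHSd`
* `Tn 𝓑 e g`           : the index set of `n`;  `bet e f g β u n` its coefficients
* `trm_le`             : reduction to a uniform bound over finite sets of `h`
-/

set_option autoImplicit false
set_option linter.unusedVariables false
set_option linter.unusedSectionVars false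

noncomputable section

namespace Crest.Agent.R012.NonCube52

open Finset Eis LS448 CharSum852 Char766 Div277

/-- the set `BB*` of divisors -/
def Dv (𝓑 : Finset Eis) : Finset Eis := open Classical in 𝓑.biUnion dvs

open Classical in
/-- index set of `n` -/
def Tn (𝓑 : Finset Eis) (e g : Eis) : Finset Eis :=
  (𝓑.biUnion dvs).filter (fun n => e * g * n ∈ 𝓑)

/-- coefficients of `n` (without `sy h n`) -/
def bet (β : Eis → ℂ) (e f g : Eis) (u : ℝ) (n : Eis) : ℂ :=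
  β (e * g * n) * (starRingEnd ℂ) (sy (f * e) n) * (nm n : ℂ) ^ ((u : ℂ) * Complex.I)

open Classical in
/-- the inner sum over `h` -/
def hsum (A B : ℝ) (𝓑 : Finset Eis) (β : Eis → ℂ) (e f g : Eis) (u : ℝ) : ℝ :=
  ∑' h : Eis, if T411.isNonCubeE e f h then
    T411.om (nm f * B ^ 2 / ((nm e : ℝ) ^ 2 * A)) h *
      ‖∑ n ∈ (𝓑.biUnion dvs).filter (fun n => e * g * n ∈ 𝓑),
        β (e * g * n) * (starRingEnd ℂ) (sy (f * e) n) * sy h n *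
          (nm n : ℂ) ^ ((u : ℂ) * Complex.I)‖ ^ 2 else 0

/-- the summand of `RHSd` -/
def trm (A B : ℝ) (𝓑 : Finset Eis) (β : Eis → ℂ) (e f g : Eis) : ℝ :=
  A * nm e / (B * nm f) * ∫ u : ℝ, (1 + u ^ 2)⁻¹ * hsum A B 𝓑 β e f g u

open Classical in
lemma RHSd_eq (A B : ℝ) (𝓑 : Finset Eis) (β : Eis → ℂ) :
    T411.RHSd A B 𝓑 β = ∑ e ∈ 𝓑.biUnion dvs, ∑ f ∈ dvs e,
      ∑ g ∈ (𝓑.biUnion dvs).filter (IsCoprime · e), trm A B 𝓑 β e f g := rfl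

lemma om_eq (K : ℝ) (h : Eis) : T411.om K h = omx (K / nm h) := rfl

lemma inner_eq (𝓑 : Finset Eis) (β : Eis → ℂ) (e f g h : Eis) (u : ℝ) :
    ∑ n ∈ Tn 𝓑 e g, β (e * g * n) * (starRingEnd ℂ) (sy (f * e) n) * sy h n *
          (nm n : ℂ) ^ ((u : ℂ) * Complex.I) = ∑ n ∈ Tn 𝓑 e g, bet β e f g u n * sy h n := by
  refine sum_congr rfl fun n _ => ?_
  unfold bet; ring

lemma hsum_nonneg {A B : ℝ} (hA : 0 < A) (hB : 0 < B) (𝓑 : Finset Eis) (β : Eis → ℂ)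
    (e f g : Eis) (u : ℝ) : 0 ≤ hsum A B 𝓑 β e f g u := by
  classical
  unfold hsum
  refine tsum_nonneg fun h => ?_
  split_ifs
  · rw [om_eq]
    have : 0 ≤ omx (nm f * B ^ 2 / ((nm e : ℝ) ^ 2 * A) / nm h) := omx_nonneg (by positivity)
    positivity
  · exact le_rfl

/-- **reduction**: a bound for all finite sets of `h`, integrable in `u`. -/
theorem hsum_le {A B : ℝ} (hA : 0 < A) (hB : 0 < B) (𝓑 : Finset Eis) (β : Eis → ℂ)
    (e f g : Eis) (u : ℝ) (c : ℝ)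
    (hc : ∀ S : Finset Eis, (∀ h ∈ S, T411.isNonCubeE e f h) →
      ∑ h ∈ S, omx (nm f * B ^ 2 / ((nm e : ℝ) ^ 2 * A) / nm h) *
        ‖∑ n ∈ Tn 𝓑 e g, bet β e f g u n * sy h n‖ ^ 2 ≤ c) : hsum A B 𝓑 β e f g u ≤ c := by
  classical
  unfold hsum
  refine Real.tsum_le_of_sum_le (fun h => ?_) fun s => ?_
  · split_ifs
    · rw [om_eq]
      have : 0 ≤ omx (nm f * B ^ 2 / ((nm e : ℝ) ^ 2 * A) / nm h) := omx_nonneg (by positivity)
      positivity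
    · exact le_rfl
  · rw [← sum_filter]
    have h1 := hc (s.filter (T411.isNonCubeE e f)) (fun h hh => (mem_filter.mp hh).2)
    refine le_trans (le_of_eq ?_) h1
    refine sum_congr rfl fun h _ => ?_
    rw [om_eq, ← inner_eq]
    rfl

lemma integrable_inv_one_add_sq' : MeasureTheory.Integrable (fun u : ℝ => (1 + u ^ 2)⁻¹) :=
  integrable_inv_one_add_sq

/-- **reduction**, constant bound -/
theorem trm_le {A B : ℝ} (hA : 0 < A) (hB : 0 < B) (𝓑 : Finset Eis) (β : Eis → ℂ)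
    (e f g : Eis) (c : ℝ)
    (hc : ∀ u : ℝ, ∀ S : Finset Eis, (∀ h ∈ S, T411.isNonCubeE e f h) →
      ∑ h ∈ S, omx (nm f * B ^ 2 / ((nm e : ℝ) ^ 2 * A) / nm h) *
        ‖∑ n ∈ Tn 𝓑 e g, bet β e f g u n * sy h n‖ ^ 2 ≤ c) :
    trm A B 𝓑 β e f g ≤ A * nm e / (B * nm f) * (Real.pi * c) := by
  unfold trm
  have h1 : ∫ u : ℝ, (1 + u ^ 2)⁻¹ * hsum A B 𝓑 β e f g u ≤ Real.pi * c := by
    calc ∫ u : ℝ, (1 + u ^ 2)⁻¹ * hsum A B 𝓑 β e f g u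
        ≤ ∫ u : ℝ, (1 + u ^ 2)⁻¹ * c := by
          refine MeasureTheory.integral_mono_of_nonneg ?_ (integrable_inv_one_add_sq'.mul_const c) ?_
          · refine Filter.Eventually.of_forall fun u => ?_
            have := hsum_nonneg hA hB 𝓑 β e f g u
            show 0 ≤ (1 + u ^ 2)⁻¹ * hsum A B 𝓑 β e f g u
            positivity
          · refine Filter.Eventually.of_forall fun u => ?_
            have := hsum_le hA hB 𝓑 β e f g u c (hc u)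
            show (1 + u ^ 2)⁻¹ * hsum A B 𝓑 β e f g u ≤ (1 + u ^ 2)⁻¹ * c
            gcongr
      _ = Real.pi * c := by
          rw [MeasureTheory.integral_mul_const, integral_univ_inv_one_add_sq]
  gcongr

/-- **reduction**, general bound: `c u` with `(1+u²)⁻¹ c u` integrable. -/
theorem trm_le' {A B : ℝ} (hA : 0 < A) (hB : 0 < B) (𝓑 : Finset Eis) (β : Eis → ℂ)
    (e f g : Eis) (c : ℝ → ℝ)
    (hci : MeasureTheory.Integrable (fun u : ℝ => (1 + u ^ 2)⁻¹ * c u))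
    (hc : ∀ u : ℝ, ∀ S : Finset Eis, (∀ h ∈ S, T411.isNonCubeE e f h) →
      ∑ h ∈ S, omx (nm f * B ^ 2 / ((nm e : ℝ) ^ 2 * A) / nm h) *
        ‖∑ n ∈ Tn 𝓑 e g, bet β e f g u n * sy h n‖ ^ 2 ≤ c u) :
    trm A B 𝓑 β e f g ≤ A * nm e / (B * nm f) * ∫ u : ℝ, (1 + u ^ 2)⁻¹ * c u := by
  unfold trm
  have h1 : ∫ u : ℝ, (1 + u ^ 2)⁻¹ * hsum A B 𝓑 β e f g u ≤ ∫ u : ℝ, (1 + u ^ 2)⁻¹ * c u := by
    refine MeasureTheory.integral_mono_of_nonneg ?_ hci ?_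
    · refine Filter.Eventually.of_forall fun u => ?_
      have := hsum_nonneg hA hB 𝓑 β e f g u
      show 0 ≤ (1 + u ^ 2)⁻¹ * hsum A B 𝓑 β e f g u
      positivity
    · refine Filter.Eventually.of_forall fun u => ?_
      have := hsum_le hA hB 𝓑 β e f g u (c u) (hc u)
      show (1 + u ^ 2)⁻¹ * hsum A B 𝓑 β e f g u ≤ (1 + u ^ 2)⁻¹ * c u
      gcongr
  gcongr

/-! ### facts on the index sets -/

section
variable {w B : ℝ} {𝓑 : Finset Eis} {β : Eis → ℂ}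

lemma mem_Dv {x : Eis} : x ∈ Dv 𝓑 ↔ ∃ b ∈ 𝓑, x ∈ dvs b := by
  classical
  unfold Dv
  exact mem_biUnion

lemma Dv_prim (h : T411.Cls w B 𝓑 β) {x : Eis} (hx : x ∈ Dv 𝓑) : IsPrim x := by
  obtain ⟨b, hb, hxb⟩ := mem_Dv.mp hx
  exact isPrim_of_mem_dvs hxb

lemma Dv_dvd {x : Eis} (hx : x ∈ Dv 𝓑) : ∃ b ∈ 𝓑, x ∣ b := by
  obtain ⟨b, hb, hxb⟩ := mem_Dv.mp hx
  exact ⟨b, hb, dvd_of_mem_dvs hxb⟩

lemma Dv_sqf (h : T411.Cls w B 𝓑 β) {x : Eis} (hx : x ∈ Dv 𝓑) : Squarefree x := by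
  obtain ⟨b, hb, hxb⟩ := Dv_dvd hx
  exact (h.sq b hb).2.squarefree_of_dvd hxb

lemma Dv_nm_le (h : T411.Cls w B 𝓑 β) {x : Eis} (hx : x ∈ Dv 𝓑) : (nm x : ℝ) ≤ 2 * B := by
  obtain ⟨b, hb, hxb⟩ := Dv_dvd hx
  have h1 := LS448.nm_le_of_dvd hxb (h.sq b hb).1.ne_zero
  exact le_trans (by exact_mod_cast h1) (h.hi b hb)

lemma Dv_rough (h : T411.Cls w B 𝓑 β) {x : Eis} (hx : x ∈ Dv 𝓑) (hx1 : x ≠ 1) :
    w ≤ nm x := by
  obtain ⟨b, hb, hxb⟩ := Dv_dvd hx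
  obtain ⟨p, hp, hpx⟩ := Mob705.exists_pp_dvd_of_isPrim (Dv_prim h hx) hx1
  have h1 := h.rough b hb p hp (hpx.trans hxb)
  have h2 := LS448.nm_le_of_dvd hpx (Dv_prim h hx).ne_zero
  exact h1.trans (by exact_mod_cast h2)

lemma Tn_spec (h : T411.Cls w B 𝓑 β) {e g n : Eis} (he : e ≠ 0) (hg : g ≠ 0)
    (hn : n ∈ Tn 𝓑 e g) :
    IsPrim n ∧ Squarefree n ∧ (nm n : ℝ) ≤ 2 * B / (nm e * nm g) := by
  classical
  unfold Tn at hn
  rw [mem_filter] at hn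
  obtain ⟨h1, h2⟩ := hn
  have h1' : n ∈ Dv 𝓑 := h1
  refine ⟨Dv_prim h h1', Dv_sqf h h1', ?_⟩
  have h3 := h.hi _ h2
  rw [nm_mul, nm_mul] at h3
  push_cast at h3
  have h4 : (0 : ℝ) < nm e := by exact_mod_cast nm_pos.mpr he
  have h5 : (0 : ℝ) < nm g := by exact_mod_cast nm_pos.mpr hg
  rw [le_div_iff₀ (by positivity)]
  linarith

lemma norm_bet_le (H : SyFacts) (h : T411.Cls w B 𝓑 β) {e f g n : Eis} (u : ℝ) (hn : IsPrim n) :
    ‖bet β e f g u n‖ ≤ 1 := by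
  unfold bet
  rw [norm_mul, norm_mul, RCLike.norm_conj]
  have h1 := h.le (e * g * n)
  have h2 := norm_sy_le H (f * e) n hn
  have h3 : ‖((nm n : ℂ)) ^ ((u : ℂ) * Complex.I)‖ = 1 := by
    have hp : (0 : ℝ) < nm n := by exact_mod_cast nm_pos.mpr hn.ne_zero
    have := Complex.norm_cpow_eq_rpow_re_of_pos hp ((u : ℂ) * Complex.I)
    simpa using this
  rw [h3, mul_one]
  have := norm_nonneg (β (e * g * n))
  have := norm_nonneg (sy (f * e) n)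
  nlinarith

/-- number of `n` -/
lemma card_Tn_le (h : T411.Cls w B 𝓑 β) {e g : Eis} (he : e ≠ 0) (hg : g ≠ 0) (hB : 0 ≤ B) :
    (#(Tn 𝓑 e g) : ℝ) ≤ 16 * (2 * B / (nm e * nm g)) := by
  have h1 : Tn 𝓑 e g ⊆ LS448.nz (2 * B / (nm e * nm g)) := fun n hn => by
    obtain ⟨a, b, c⟩ := Tn_spec h he hg hn
    exact LS448.mem_nz.mpr ⟨a.ne_zero, c⟩
  exact le_trans (by exact_mod_cast card_le_card h1) (card_nz_le16 (by positivity))

lemma sum_bet_le (H : SyFacts) (h : T411.Cls w B 𝓑 β) {e f g : Eis} (he : e ≠ 0) (hg : g ≠ 0)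
    (hB : 0 ≤ B) (u : ℝ) :
    ∑ n ∈ Tn 𝓑 e g, ‖bet β e f g u n‖ ^ 2 ≤ 16 * (2 * B / (nm e * nm g)) := by
  calc ∑ n ∈ Tn 𝓑 e g, ‖bet β e f g u n‖ ^ 2 ≤ ∑ n ∈ Tn 𝓑 e g, (1 : ℝ) := by
        refine sum_le_sum fun n hn => ?_
        have h1 := norm_bet_le H h (e := e) (f := f) (g := g) u (Tn_spec h he hg hn).1
        exact pow_le_one₀ (norm_nonneg _) h1
    _ = #(Tn 𝓑 e g) := by simp
    _ ≤ _ := card_Tn_le h he hg hB

end

end Crest.Agent.R012.NonCube52
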