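import Crest.Agent.R012.TNXk_766

/-!
# Row 12, item TNX: 52's critical bound `noncube_omC` in the language of `Spec_T_411`, uniform in
`B ≥ 1`, with the exponents of `TNXC`
-/

set_option autoImplicit false

noncomputable section

namespace Crest.Agent.R012.TNXk766

open Finset Eis Crest.Agent.R012.NonCube52 LS448

/-- small `B`: everything is a constant. -/
lemma small_B {K B M : ℝ} (hB : 1 ≤ B) (hBM : B ≤ M) (hK : 0 < K) (hKM : K ≤ M) :
    ((1 + K) * (2 * B)) ^ (2 * (1 / 12 : ℝ)) *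
      (K + 2 * B * K ^ ((1 : ℝ) / 3) + (K * (2 * B)) ^ ((2 : ℝ) / 3)) ≤
      ((1 + M) * (2 * M)) ^ (2 * (1 / 12 : ℝ)) * (5 * M ^ 2) * K ^ ((1 : ℝ) / 3) := by
  have hM : 1 ≤ M := hB.trans hBM
  have hM0 : 0 < M := by linarith
  have hB0 : 0 < B := by linarith
  have a1 : ((1 + K) * (2 * B)) ^ (2 * (1 / 12 : ℝ)) ≤ ((1 + M) * (2 * M)) ^ (2 * (1 / 12 : ℝ)) := by
    refine Real.rpow_le_rpow (by positivity) ?_ (by norm_num)
    have : (1 + K) ≤ 1 + M := by linarith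
    have : 2 * B ≤ 2 * M := by linarith
    gcongr
  have hk0 : 0 ≤ K ^ ((1 : ℝ) / 3) := by positivity
  have a2 : K ≤ M ^ 2 * K ^ ((1 : ℝ) / 3) := by
    have e : K = K ^ ((2 : ℝ) / 3) * K ^ ((1 : ℝ) / 3) := by
      rw [← Real.rpow_add hK]; norm_num
    have h2 : K ^ ((2 : ℝ) / 3) ≤ M ^ 2 := by
      calc K ^ ((2 : ℝ) / 3) ≤ M ^ ((2 : ℝ) / 3) := Real.rpow_le_rpow hK.le hKM (by norm_num)
        _ ≤ M ^ (2 : ℝ) := Real.rpow_le_rpow_of_exponent_le hM (by norm_num)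
        _ = M ^ 2 := Real.rpow_two M
    calc K = K ^ ((2 : ℝ) / 3) * K ^ ((1 : ℝ) / 3) := e
      _ ≤ M ^ 2 * K ^ ((1 : ℝ) / 3) := mul_le_mul_of_nonneg_right h2 hk0
  have a3 : 2 * B * K ^ ((1 : ℝ) / 3) ≤ 2 * M ^ 2 * K ^ ((1 : ℝ) / 3) := by
    refine mul_le_mul_of_nonneg_right ?_ hk0
    nlinarith
  have a4 : (K * (2 * B)) ^ ((2 : ℝ) / 3) ≤ 2 * M ^ 2 * K ^ ((1 : ℝ) / 3) := by
    have e : (K * (2 * B)) ^ ((2 : ℝ) / 3) =
        (K ^ ((1 : ℝ) / 3) * (2 * B) ^ ((2 : ℝ) / 3)) * K ^ ((1 : ℝ) / 3) := by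
      rw [Real.mul_rpow hK.le (by positivity)]
      have : K ^ ((2 : ℝ) / 3) = K ^ ((1 : ℝ) / 3) * K ^ ((1 : ℝ) / 3) := by
        rw [← Real.rpow_add hK]; norm_num
      rw [this]; ring
    rw [e]
    refine mul_le_mul_of_nonneg_right ?_ hk0
    have h1 : K ^ ((1 : ℝ) / 3) ≤ M := by
      calc K ^ ((1 : ℝ) / 3) ≤ M ^ ((1 : ℝ) / 3) := Real.rpow_le_rpow hK.le hKM (by norm_num)
        _ ≤ M ^ (1 : ℝ) := Real.rpow_le_rpow_of_exponent_le hM (by norm_num)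
        _ = M := Real.rpow_one M
    have h2 : (2 * B) ^ ((2 : ℝ) / 3) ≤ 2 * M := by
      calc (2 * B) ^ ((2 : ℝ) / 3) ≤ (2 * B) ^ (1 : ℝ) :=
            Real.rpow_le_rpow_of_exponent_le (by linarith) (by norm_num)
        _ = 2 * B := Real.rpow_one _
        _ ≤ 2 * M := by linarith
    calc K ^ ((1 : ℝ) / 3) * (2 * B) ^ ((2 : ℝ) / 3) ≤ M * (2 * M) :=
          mul_le_mul h1 h2 (by positivity) hM0.le
      _ = 2 * M ^ 2 := by ring
  have a5 : K + 2 * B * K ^ ((1 : ℝ) / 3) + (K * (2 * B)) ^ ((2 : ℝ) / 3) ≤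
      5 * M ^ 2 * K ^ ((1 : ℝ) / 3) := by linarith
  calc _ ≤ ((1 + M) * (2 * M)) ^ (2 * (1 / 12 : ℝ)) * (5 * M ^ 2 * K ^ ((1 : ℝ) / 3)) :=
        mul_le_mul a1 a5 (by positivity) (by positivity)
    _ = _ := by ring

/-- **critical range, final form** (uniform in `B ≥ 1`). -/
theorem omC_tws {e0 : ℝ} (h0 : 0 < e0) (h1 : e0 ≤ 1 / 10) :
    ∃ C : ℝ, 0 < C ∧ ∀ B K L R R2 : ℝ, 1 ≤ B → 0 < K → K ≤ B ^ (1 + e0 / 2) → 1 ≤ L → 0 ≤ R →
      0 ≤ R2 →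
      ∀ BB : Finset Eis, (∀ b ∈ BB, T411.SqP b ∧ (nm b : ℝ) ≤ 2 * B) → ∀ (β : Eis → ℂ) (u : ℝ),
      (∀ m : Eis, m ≠ 0 → (nm m : ℝ) ≤ (2 * B) ^ 4 → ∑ b ∈ BB, ‖β b * (1 - cop m b)‖ ≤ R) →
      (∀ m : Eis, m ≠ 0 → (nm m : ℝ) ≤ (2 * B) ^ 4 →
        ∑ b ∈ BB, ‖β b * (1 - cop m b)‖ ^ 2 ≤ R2) →
      ∀ S : Finset Eis, (∀ h ∈ S, T411.NCube h) →
      ∑ h ∈ S, T411.om K h * ‖T411.tws BB β h u‖ ^ 2
        ≤ C * K ^ ((1 : ℝ) / 3) * (∑ v ∈ T411.NC L, ‖T411.tws BB β v u‖ ^ 2 + L * R ^ 2 +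
          (L ^ (-(1 : ℝ) / 3) + B ^ (-(e0 / 20))) * B * ∑ b ∈ BB, ‖β b‖ ^ 2 +
          B ^ (-(1 - 2 * e0) / 3) *
            ∑ q ∈ T411.Ker (B ^ (1 + e0)), ‖T411.tws BB β (T411.kv q) u‖ ^ 2
          + B ^ (1 + e0 / 2) * R2) := by
  set η : ℝ := 9 / 10 * e0 with hη
  obtain ⟨C1, hC1, H1⟩ := noncube_omC syH l1Prop hbProp (η := η) (by positivity) (by linarith)
  obtain ⟨C2, hC2, H2⟩ := all_om_eps_tws (ε := 1 / 12) (by norm_num) le_rfl
  set B0 : ℝ := (4 : ℝ) ^ (10 / e0) with hB0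
  have hB01 : 1 ≤ B0 := Real.one_le_rpow (by norm_num) (by positivity)
  set M : ℝ := B0 ^ 2 with hM
  have hM1 : 1 ≤ M := one_le_pow₀ hB01
  set C3 : ℝ := C2 * (((1 + M) * (2 * M)) ^ (2 * (1 / 12 : ℝ)) * (5 * M ^ 2)) with hC3
  have hC3p : 0 < C3 := by positivity
  refine ⟨4 * C1 + C3, by positivity, ?_⟩
  intro B K L R R2 hB hK hKB hL hR hR2 BB hBB β u hRm hR2m S hS
  have hBp : 0 < B := by linarith
  set SN : ℝ := ∑ v ∈ T411.NC L, ‖T411.tws BB β v u‖ ^ 2 with hSN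
  set E : ℝ := ∑ b ∈ BB, ‖β b‖ ^ 2 with hE
  set SK : ℝ := ∑ q ∈ T411.Ker (B ^ (1 + e0)), ‖T411.tws BB β (T411.kv q) u‖ ^ 2 with hSK
  have hSN0 : 0 ≤ SN := sum_nonneg fun _ _ => by positivity
  have hE0 : 0 ≤ E := sum_nonneg fun _ _ => by positivity
  have hSK0 : 0 ≤ SK := sum_nonneg fun _ _ => by positivity
  set Kp : ℝ := K ^ ((1 : ℝ) / 3) with hKp
  have hKp0 : 0 ≤ Kp := by positivity
  set Lp : ℝ := L ^ (-(1 : ℝ) / 3) with hLp
  have hLp0 : 0 ≤ Lp := by positivity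
  have hBe0 : 0 ≤ B ^ (-(e0 / 20)) := by positivity
  have hBk0 : 0 ≤ B ^ (-(1 - 2 * e0) / 3) := by positivity
  have hBr0 : 0 ≤ B ^ (1 + e0 / 2) := by positivity
  rcases le_total B0 B with hc | hc
  · -- large `B`
    have h2B : 1 ≤ 2 * B := by linarith
    have h2B0 : 0 < 2 * B := by linarith
    have hKB' : K ≤ (2 * B) ^ (1 + 3 * η / 5) := by
      calc K ≤ B ^ (1 + e0 / 2) := hKB
        _ ≤ B ^ (1 + 3 * η / 5) := Real.rpow_le_rpow_of_exponent_le hB (by rw [hη]; linarith)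
        _ ≤ (2 * B) ^ (1 + 3 * η / 5) :=
          Real.rpow_le_rpow hBp.le (by linarith) (by positivity)
    have hH : (2 * B) ^ (1 + η) ≤ B ^ (1 + e0) := by
      have e1 : (4 : ℝ) ≤ B ^ (e0 / 10) := by
        have : B0 ^ (e0 / 10) = 4 := by
          rw [hB0, ← Real.rpow_mul (by norm_num)]
          have : 10 / e0 * (e0 / 10) = 1 := by field_simp
          rw [this, Real.rpow_one]
        rw [← this]
        exact Real.rpow_le_rpow (by linarith) hc (by positivity)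
      have e2 : (2 : ℝ) ^ (1 + η) ≤ 4 := by
        calc (2 : ℝ) ^ (1 + η) ≤ 2 ^ (2 : ℝ) :=
              Real.rpow_le_rpow_of_exponent_le (by norm_num) (by rw [hη]; linarith)
          _ = 4 := by norm_num
      have e3 : B ^ (1 + e0) = B ^ (e0 / 10) * B ^ (1 + η) := by
        rw [← Real.rpow_add hBp]; congr 1; rw [hη]; ring
      rw [Real.mul_rpow (by norm_num) hBp.le, e3]
      exact mul_le_mul_of_nonneg_right (e2.trans e1) (by positivity)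
    have key := noncube_crit_tws (B := 2 * B) (K := K) (L := L) (R := R) (R2 := R2)
      (H := B ^ (1 + e0)) (by positivity) BB hBB β u S (H' := (2 * B) ^ (1 + η)) hH
      (fun x y z => C1 * K ^ ((1 : ℝ) / 3) * (x + L * R ^ 2 +
          (L ^ (-(1 : ℝ) / 3) + (2 * B) ^ (-(η / 12))) * (2 * B) * y +
          ((2 * B) ^ (-(1 - η) / 3) * z + (2 * B) ^ (1 + η / 2) * R2)))
      (fun β' hm1 hm2 𝒞 h𝒞 => H1 (2 * B) K L R R2 h2B hK hKB' hL hR hR2 BB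
        (fun b hb => ⟨(hBB b hb).1.1, (hBB b hb).1.2, (hBB b hb).2⟩) β' hm1 hm2 𝒞 h𝒞 S
        (fun h hh => ncube_iff.mp (hS h hh))) hRm hR2m
    refine key.trans ?_
    rw [← hSN, ← hE, ← hSK, ← hKp, ← hLp]
    have b1 : (2 * B) ^ (-(η / 12)) ≤ B ^ (-(e0 / 20)) := by
      calc (2 * B) ^ (-(η / 12)) ≤ B ^ (-(η / 12)) :=
            Real.rpow_le_rpow_of_nonpos hBp (by linarith) (by
              have : 0 < η := by positivity
              linarith)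
        _ ≤ B ^ (-(e0 / 20)) := Real.rpow_le_rpow_of_exponent_le hB (by rw [hη]; linarith)
    have b2 : (2 * B) ^ (-(1 - η) / 3) ≤ B ^ (-(1 - 2 * e0) / 3) := by
      calc (2 * B) ^ (-(1 - η) / 3) ≤ B ^ (-(1 - η) / 3) :=
            Real.rpow_le_rpow_of_nonpos hBp (by linarith) (by rw [hη]; linarith)
        _ ≤ B ^ (-(1 - 2 * e0) / 3) := Real.rpow_le_rpow_of_exponent_le hB (by rw [hη]; linarith)
    have b3 : (2 * B) ^ (1 + η / 2) ≤ 4 * B ^ (1 + e0 / 2) := by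
      rw [Real.mul_rpow (by norm_num) hBp.le]
      have e2 : (2 : ℝ) ^ (1 + η / 2) ≤ 4 := by
        calc (2 : ℝ) ^ (1 + η / 2) ≤ 2 ^ (2 : ℝ) :=
              Real.rpow_le_rpow_of_exponent_le (by norm_num) (by rw [hη]; linarith)
          _ = 4 := by norm_num
      have e3 : B ^ (1 + η / 2) ≤ B ^ (1 + e0 / 2) :=
        Real.rpow_le_rpow_of_exponent_le hB (by rw [hη]; linarith)
      exact mul_le_mul e2 e3 (by positivity) (by norm_num)
    have c1 : SN + L * R ^ 2 + (Lp + (2 * B) ^ (-(η / 12))) * (2 * B) * E +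
        ((2 * B) ^ (-(1 - η) / 3) * SK + (2 * B) ^ (1 + η / 2) * R2) ≤
        4 * (SN + L * R ^ 2 + (Lp + B ^ (-(e0 / 20))) * B * E + B ^ (-(1 - 2 * e0) / 3) * SK
          + B ^ (1 + e0 / 2) * R2) := by
      have d1 : (Lp + (2 * B) ^ (-(η / 12))) * (2 * B) * E ≤
          2 * ((Lp + B ^ (-(e0 / 20))) * B * E) := by
        have : (Lp + (2 * B) ^ (-(η / 12))) * (2 * B) * E ≤
            (Lp + B ^ (-(e0 / 20))) * (2 * B) * E := by gcongr
        linarith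
      have d2 : (2 * B) ^ (-(1 - η) / 3) * SK ≤ B ^ (-(1 - 2 * e0) / 3) * SK :=
        mul_le_mul_of_nonneg_right b2 hSK0
      have d3 : (2 * B) ^ (1 + η / 2) * R2 ≤ 4 * B ^ (1 + e0 / 2) * R2 :=
        mul_le_mul_of_nonneg_right b3 hR2
      have d4 : 0 ≤ L * R ^ 2 := by positivity
      have d5 : 0 ≤ (Lp + B ^ (-(e0 / 20))) * B * E := by positivity
      have d6 : 0 ≤ B ^ (-(1 - 2 * e0) / 3) * SK := by positivity
      linarith
    have c2 : 0 ≤ SN + L * R ^ 2 + (Lp + B ^ (-(e0 / 20))) * B * E +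
        B ^ (-(1 - 2 * e0) / 3) * SK + B ^ (1 + e0 / 2) * R2 := by positivity
    calc C1 * Kp * (SN + L * R ^ 2 + (Lp + (2 * B) ^ (-(η / 12))) * (2 * B) * E +
        ((2 * B) ^ (-(1 - η) / 3) * SK + (2 * B) ^ (1 + η / 2) * R2))
        ≤ C1 * Kp * (4 * (SN + L * R ^ 2 + (Lp + B ^ (-(e0 / 20))) * B * E +
          B ^ (-(1 - 2 * e0) / 3) * SK + B ^ (1 + e0 / 2) * R2)) := by gcongr
      _ ≤ (4 * C1 + C3) * Kp * (SN + L * R ^ 2 + (Lp + B ^ (-(e0 / 20))) * B * E +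
          B ^ (-(1 - 2 * e0) / 3) * SK + B ^ (1 + e0 / 2) * R2) := by
        have : 0 ≤ C3 * Kp * (SN + L * R ^ 2 + (Lp + B ^ (-(e0 / 20))) * B * E +
          B ^ (-(1 - 2 * e0) / 3) * SK + B ^ (1 + e0 / 2) * R2) := by positivity
        linarith
  · -- small `B`
    have h2 := H2 (2 * B) K (by linarith) hK BB hBB β u S (fun h hh => (hS h hh).1)
    refine h2.trans ?_
    have hBM : B ≤ M := by rw [hM]; nlinarith
    have hKM : K ≤ M := by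
      calc K ≤ B ^ (1 + e0 / 2) := hKB
        _ ≤ B ^ (2 : ℝ) := Real.rpow_le_rpow_of_exponent_le hB (by linarith)
        _ = B ^ 2 := Real.rpow_two B
        _ ≤ M := by rw [hM]; gcongr
    have h3 := small_B hB hBM hK hKM
    rw [← hE, ← hKp]
    rw [← hKp] at h3
    have h4 : E ≤ B ^ (-(e0 / 20)) * B * E := by
      have : (1 : ℝ) ≤ B ^ (-(e0 / 20)) * B := by
        have e : B ^ (-(e0 / 20)) * B = B ^ (1 - e0 / 20) := by
          nth_rewrite 2 [← Real.rpow_one B]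
          rw [← Real.rpow_add hBp]; congr 1; ring
        rw [e]
        exact Real.one_le_rpow hB (by linarith)
      nlinarith
    calc C2 * (((1 + K) * (2 * B)) ^ (2 * (1 / 12 : ℝ)) *
          (K + 2 * B * Kp + (K * (2 * B)) ^ ((2 : ℝ) / 3))) * E
        ≤ C2 * (((1 + M) * (2 * M)) ^ (2 * (1 / 12 : ℝ)) * (5 * M ^ 2) * Kp) * E := by gcongr
      _ = C3 * Kp * E := by rw [hC3]; ring
      _ ≤ C3 * Kp * (B ^ (-(e0 / 20)) * B * E) := by gcongr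
      _ ≤ (4 * C1 + C3) * Kp * (SN + L * R ^ 2 + (Lp + B ^ (-(e0 / 20))) * B * E +
          B ^ (-(1 - 2 * e0) / 3) * SK + B ^ (1 + e0 / 2) * R2) := by
        have d4 : 0 ≤ L * R ^ 2 := by positivity
        have d5 : 0 ≤ Lp * B * E := by positivity
        have d6 : 0 ≤ B ^ (-(1 - 2 * e0) / 3) * SK := by positivity
        have d7 : 0 ≤ B ^ (1 + e0 / 2) * R2 := by positivity
        have d8 : 0 ≤ B ^ (-(e0 / 20)) * B * E := by positivity
        have d9 : B ^ (-(e0 / 20)) * B * E ≤ SN + L * R ^ 2 + (Lp + B ^ (-(e0 / 20))) * B * E +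
          B ^ (-(1 - 2 * e0) / 3) * SK + B ^ (1 + e0 / 2) * R2 := by
          have e : (Lp + B ^ (-(e0 / 20))) * B * E = Lp * B * E + B ^ (-(e0 / 20)) * B * E := by
            ring
          rw [e]; linarith
        have d10 : C3 * Kp ≤ (4 * C1 + C3) * Kp :=
          mul_le_mul_of_nonneg_right (by linarith) hKp0
        exact mul_le_mul d10 d9 d8 (by positivity)

end Crest.Agent.R012.TNXk766
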