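import Crest.Agent.R012.Rough_298
import Crest.Agent.R012.OmB_52

/-!
# Row 12, item TNX: the hypotheses `R`, `R2` of `noncube_omN`, `noncube_omC` (helper298)

For `T ⊆ 𝓑`, `‖γ b‖ ≤ 1` on `T`, `m ≠ 0`, `nm m ≤ (2B)^4`, `2 B ≤ X^3`:
* `R_ww`   : `∑_{b ∈ T} ‖γ b (1 - cop m b)‖ ≤ C log X B / ww X`, same for the squares
* `R_rpow` : `∑_{b ∈ T} ‖γ b (1 - cop m b)‖ ≤ C B X^(-d1)`, same for the squares
-/

set_option autoImplicit false

noncomputable section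

open Finset

namespace Crest.Agent.R012.TNXr298

open Crest.Agent.R012 Crest.Agent.R012.Eis Crest.Agent.R012.Div277 Crest.Agent.R012.Mob705
open Crest.Agent.R012.T411 Crest.Agent.R012.Rough298

/-- number of primes `≥ z` of `m`, `nm m ≤ X^k`. -/
lemma card_bigP_mul_log_le' {z X : ℝ} (hz : 1 < z) {m : Eis} (hm : m ≠ 0) {k : ℕ}
    (hmX : (nm m : ℝ) ≤ X ^ k) : ((bigP z m).card : ℝ) * Real.log z ≤ k * Real.log X := by
  have hz0 : 0 < z := by linarith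
  have h1 := (pow_card_bigP_le hz0.le hm).trans hmX
  have h2 := Real.log_le_log (by positivity) h1
  rw [Real.log_pow, Real.log_pow] at h2
  exact h2

open Classical in
/-- the masked sum is a count -/
lemma mask_le {𝓑 T : Finset Eis} (hT : T ⊆ 𝓑) {γ : Eis → ℂ} (hγ : ∀ b ∈ T, ‖γ b‖ ≤ 1) (m : Eis)
    {c : ℝ} (hc : ((𝓑.filter (fun b => ¬ IsCoprime m b)).card : ℝ) ≤ c) :
    ∑ b ∈ T, ‖γ b * (1 - NonCube52.cop m b)‖ ≤ c ∧
    ∑ b ∈ T, ‖γ b * (1 - NonCube52.cop m b)‖ ^ 2 ≤ c := by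
  have hle : ∀ b ∈ T, ‖γ b * (1 - NonCube52.cop m b)‖ ≤ if ¬ IsCoprime m b then 1 else 0 := by
    intro b hb
    unfold NonCube52.cop
    by_cases h : IsCoprime m b
    · simp [h]
    · simp only [h, if_false, sub_zero, mul_one, not_false_eq_true, if_true]
      exact hγ b hb
  have hle2 : ∀ b ∈ T, ‖γ b * (1 - NonCube52.cop m b)‖ ^ 2 ≤
      if ¬ IsCoprime m b then 1 else 0 := by
    intro b hb
    have h1 := hle b hb
    have h0 := norm_nonneg (γ b * (1 - NonCube52.cop m b))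
    split_ifs at h1 ⊢
    · have : ‖γ b * (1 - NonCube52.cop m b)‖ = 0 := le_antisymm h1 h0
      rw [this]; norm_num
    · exact pow_le_one₀ h0 h1
  have hs : ∑ b ∈ T, (if ¬ IsCoprime m b then (1 : ℝ) else 0) ≤ c := by
    refine le_trans ?_ hc
    rw [← sum_filter, sum_const, nsmul_eq_mul, mul_one]
    exact_mod_cast card_le_card (filter_subset_filter _ hT)
  exact ⟨(sum_le_sum hle).trans hs, (sum_le_sum hle2).trans hs⟩

/-- **R, R2**, non-critical (`w = ww X`). -/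
theorem R_ww : ∃ C : ℝ, 0 < C ∧ ∀ X B : ℝ, 2 ≤ X → 0 ≤ B → 2 * B ≤ X ^ 3 →
    ∀ (𝓑 : Finset Eis) (β : Eis → ℂ), Cls (ww X) B 𝓑 β →
    ∀ T ⊆ 𝓑, ∀ γ : Eis → ℂ, (∀ b ∈ T, ‖γ b‖ ≤ 1) →
    ∀ m : Eis, m ≠ 0 → (nm m : ℝ) ≤ (2 * B) ^ 4 →
    ∑ b ∈ T, ‖γ b * (1 - NonCube52.cop m b)‖ ≤ C * Real.log X * B / ww X ∧
    ∑ b ∈ T, ‖γ b * (1 - NonCube52.cop m b)‖ ^ 2 ≤ C * Real.log X * B / ww X := by
  classical
  refine ⟨3600, by norm_num, ?_⟩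
  intro X B hX hB hBX 𝓑 β h T hT γ hγ m hm hmB
  refine mask_le hT hγ m ?_
  have hw := one_lt_ww hX
  have hw0 : 0 < ww X := by linarith
  have hL := log_two_le hX
  have hmX : (nm m : ℝ) ≤ X ^ 12 := by
    calc (nm m : ℝ) ≤ (2 * B) ^ 4 := hmB
      _ ≤ (X ^ 3) ^ 4 := by gcongr
      _ = X ^ 12 := by ring
  have h1 := card_not_coprime_le hw hB h hm
  have h2 := card_bigP_mul_log_le' hw hm hmX
  have h3 := log_ww_ge hX
  have h4 : ((bigP (ww X) m).card : ℝ) ≤ 18 * Real.log X := by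
    have h5 : ((bigP (ww X) m).card : ℝ) * 0.69 ≤ ((bigP (ww X) m).card : ℝ) * Real.log (ww X) := by
      gcongr
    push_cast at h2
    nlinarith
  calc _ ≤ _ := h1
    _ ≤ 18 * Real.log X * (200 * B / ww X) := by gcongr
    _ = _ := by ring

/-- **R, R2**, critical (`w = X^d1`). -/
theorem R_rpow {d1 : ℝ} (hd : 0 < d1) : ∃ C : ℝ, 0 < C ∧ ∀ X B : ℝ, 2 ≤ X → 0 ≤ B →
    2 * B ≤ X ^ 3 → ∀ (𝓑 : Finset Eis) (β : Eis → ℂ), Cls (X ^ d1) B 𝓑 β →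
    ∀ T ⊆ 𝓑, ∀ γ : Eis → ℂ, (∀ b ∈ T, ‖γ b‖ ≤ 1) →
    ∀ m : Eis, m ≠ 0 → (nm m : ℝ) ≤ (2 * B) ^ 4 →
    ∑ b ∈ T, ‖γ b * (1 - NonCube52.cop m b)‖ ≤ C * B * X ^ (-d1) ∧
    ∑ b ∈ T, ‖γ b * (1 - NonCube52.cop m b)‖ ^ 2 ≤ C * B * X ^ (-d1) := by
  classical
  refine ⟨12 / d1 * 200, by positivity, ?_⟩
  intro X B hX hB hBX 𝓑 β h T hT γ hγ m hm hmB
  refine mask_le hT hγ m ?_
  have hX0 : 0 < X := by linarith
  have hz : 1 < X ^ d1 := Real.one_lt_rpow (by linarith) hd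
  have hL := log_two_le hX
  have hmX : (nm m : ℝ) ≤ X ^ 12 := by
    calc (nm m : ℝ) ≤ (2 * B) ^ 4 := hmB
      _ ≤ (X ^ 3) ^ 4 := by gcongr
      _ = X ^ 12 := by ring
  have h1 := card_not_coprime_le hz hB h hm
  have h2 := card_bigP_mul_log_le' hz hm hmX
  rw [Real.log_rpow hX0] at h2
  have h4 : ((bigP (X ^ d1) m).card : ℝ) ≤ 12 / d1 := by
    rw [le_div_iff₀ hd]
    have h5 : (((bigP (X ^ d1) m).card : ℝ) * d1) * Real.log X ≤ 12 * Real.log X := by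
      push_cast at h2
      linarith
    exact le_of_mul_le_mul_right h5 (by linarith)
  calc _ ≤ _ := h1
    _ ≤ 12 / d1 * (200 * B / X ^ d1) := by gcongr
    _ = _ := by rw [Real.rpow_neg hX0.le]; field_simp

/-- **R, R2**, non-critical, arbitrary power of `log X`. -/
theorem R_log (K : ℝ) : ∃ C : ℝ, 0 < C ∧ ∀ X B : ℝ, 2 ≤ X → 0 ≤ B → 2 * B ≤ X ^ 3 →
    ∀ (𝓑 : Finset Eis) (β : Eis → ℂ), Cls (ww X) B 𝓑 β →
    ∀ T ⊆ 𝓑, ∀ γ : Eis → ℂ, (∀ b ∈ T, ‖γ b‖ ≤ 1) →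
    ∀ m : Eis, m ≠ 0 → (nm m : ℝ) ≤ (2 * B) ^ 4 →
    ∑ b ∈ T, ‖γ b * (1 - NonCube52.cop m b)‖ ≤ C * B * Real.log X ^ (-K) ∧
    ∑ b ∈ T, ‖γ b * (1 - NonCube52.cop m b)‖ ^ 2 ≤ C * B * Real.log X ^ (-K) := by
  obtain ⟨C1, hC1, h1⟩ := R_ww
  obtain ⟨C2, hC2, h2⟩ := log_rpow_le_ww (1 + K)
  refine ⟨C1 * C2, by positivity, ?_⟩
  intro X B hX hB hBX 𝓑 β h T hT γ hγ m hm hmB
  have hL := log_two_le hX
  have hL0 : 0 < Real.log X := by linarith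
  have hw := one_lt_ww hX
  have hw0 : 0 < ww X := by linarith
  have h3 := h2 X hX
  have h4 : ww X ^ ((1 : ℝ) / 8) ≤ ww X := by
    calc ww X ^ ((1 : ℝ) / 8) ≤ ww X ^ (1 : ℝ) :=
          Real.rpow_le_rpow_of_exponent_le hw.le (by norm_num)
      _ = ww X := Real.rpow_one _
  have h5 : Real.log X ≤ C2 * ww X * Real.log X ^ (-K) := by
    have h6 : Real.log X = Real.log X ^ (1 + K) * Real.log X ^ (-K) := by
      rw [← Real.rpow_add hL0]; norm_num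
    calc Real.log X = Real.log X ^ (1 + K) * Real.log X ^ (-K) := h6
      _ ≤ (C2 * ww X) * Real.log X ^ (-K) := by
          gcongr
          exact h3.trans (by gcongr)
  have key : C1 * Real.log X * B / ww X ≤ C1 * C2 * B * Real.log X ^ (-K) := by
    rw [div_le_iff₀ hw0]
    calc C1 * Real.log X * B ≤ C1 * (C2 * ww X * Real.log X ^ (-K)) * B := by gcongr
      _ = _ := by ring
  obtain ⟨k1, k2⟩ := h1 X B hX hB hBX 𝓑 β h T hT γ hγ m hm hmB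
  exact ⟨k1.trans key, k2.trans key⟩

end Crest.Agent.R012.TNXr298
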