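import Crest.Agent.R012.LatW_413
import Crest.Agent.R012.Div_277

/-!
# Row 12, item TNX (c): weight sums over `(e, f, g)` (helper436)

* `sum_nm_le` : `∑_{z ∈ D} nm z ^ (-s) ≤ C_s`, `s > 1`, any finset `D`.
* `wsum_tail` : `∑_e ∑_{f ∣ e} ∑_g nm e^(-5/3) nm f^(-1/3) nm g^(-5/3) ≤ C Z^(-1/2)` over
  `Z ≤ nm e * nm g`.
* `wsum_log`  : `∑_e ∑_{f ∣ e} ∑_g nm e^(-2) nm g^(-1) ≤ C (1 + log N)` over `nm g ≤ N`.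
-/

set_option autoImplicit false

noncomputable section

open Finset

namespace Crest.Agent.R012.TNXw436

open Eis Div277

lemma sum_nm_le {s : ℝ} (hs : 1 < s) : ∃ C : ℝ, 0 < C ∧ ∀ D : Finset Eis,
    ∑ z ∈ D, (nm z : ℝ) ^ (-s) ≤ C := by
  have h := LatSum413.summable_nm_rpow hs
  refine ⟨(∑' z : Eis, (nm z : ℝ) ^ (-s)) + 1, ?_, fun D => ?_⟩
  · have : 0 ≤ ∑' z : Eis, (nm z : ℝ) ^ (-s) := tsum_nonneg fun z => by positivity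
    linarith
  · have := h.sum_le_tsum D (fun z _ => by positivity)
    linarith

lemma one_le_nm {n : Eis} (h : IsPrim n) : (1 : ℝ) ≤ nm n := by
  have := nm_pos.mpr h.ne_zero
  exact_mod_cast this

/-- tail weight sum, general form (`g` runs over any finset depending on `e`). -/
theorem wsum_tail' : ∃ C : ℝ, 0 < C ∧ ∀ (D : Finset Eis) (Dg : Eis → Finset Eis) (Z : ℝ),
    0 < Z → (∀ e ∈ D, IsPrim e) → (∀ e ∈ D, ∀ g ∈ Dg e, IsPrim g ∧ Z ≤ (nm e : ℝ) * nm g) →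
    ∑ e ∈ D, ∑ f ∈ dvs e, ∑ g ∈ Dg e, (nm e : ℝ) ^ (-(5 : ℝ) / 3) * (nm f : ℝ) ^ (-(1 : ℝ) / 3) *
      (nm g : ℝ) ^ (-(5 : ℝ) / 3) ≤ C * Z ^ (-(1 : ℝ) / 2) := by
  obtain ⟨C1, hC1, h1⟩ := sum_nm_le (s := 13 / 12) (by norm_num)
  obtain ⟨C2, hC2, h2⟩ := sum_nm_le (s := 7 / 6) (by norm_num)
  obtain ⟨C3, hC3, h3⟩ := tau_le_rpow (ε := 1 / 12) (by norm_num)
  refine ⟨C3 * C1 * C2, by positivity, fun D Dg Z hZ hD hg => ?_⟩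
  have hterm : ∀ e ∈ D, ∀ f ∈ dvs e, ∀ g ∈ Dg e,
      (nm e : ℝ) ^ (-(5 : ℝ) / 3) * (nm f : ℝ) ^ (-(1 : ℝ) / 3) * (nm g : ℝ) ^ (-(5 : ℝ) / 3) ≤
        Z ^ (-(1 : ℝ) / 2) * (nm e : ℝ) ^ (-(7 / 6 : ℝ)) * (nm g : ℝ) ^ (-(7 / 6 : ℝ)) := by
    intro e he f hf g hg'
    obtain ⟨hgp, hgZ⟩ := hg e he g hg'
    have he1 := one_le_nm (hD e he)
    have hf1 := one_le_nm (isPrim_of_mem_dvs hf)
    have hg1 := one_le_nm hgp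
    have he0 : (0 : ℝ) < nm e := by linarith
    have hg0 : (0 : ℝ) < nm g := by linarith
    have e1 : (nm f : ℝ) ^ (-(1 : ℝ) / 3) ≤ 1 :=
      Real.rpow_le_one_of_one_le_of_nonpos hf1 (by norm_num)
    have e2 : (nm e : ℝ) ^ (-(5 : ℝ) / 3) = (nm e : ℝ) ^ (-(1 : ℝ) / 2) * (nm e : ℝ) ^ (-(7 / 6 : ℝ)) := by
      rw [← Real.rpow_add he0]; norm_num
    have e3 : (nm g : ℝ) ^ (-(5 : ℝ) / 3) = (nm g : ℝ) ^ (-(1 : ℝ) / 2) * (nm g : ℝ) ^ (-(7 / 6 : ℝ)) := by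
      rw [← Real.rpow_add hg0]; norm_num
    have e4 : (nm e : ℝ) ^ (-(1 : ℝ) / 2) * (nm g : ℝ) ^ (-(1 : ℝ) / 2) ≤ Z ^ (-(1 : ℝ) / 2) := by
      rw [← Real.mul_rpow he0.le hg0.le]
      exact Real.rpow_le_rpow_of_nonpos hZ hgZ (by norm_num)
    calc (nm e : ℝ) ^ (-(5 : ℝ) / 3) * (nm f : ℝ) ^ (-(1 : ℝ) / 3) * (nm g : ℝ) ^ (-(5 : ℝ) / 3)
        ≤ (nm e : ℝ) ^ (-(5 : ℝ) / 3) * 1 * (nm g : ℝ) ^ (-(5 : ℝ) / 3) := by gcongr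
      _ = ((nm e : ℝ) ^ (-(1 : ℝ) / 2) * (nm g : ℝ) ^ (-(1 : ℝ) / 2)) *
            ((nm e : ℝ) ^ (-(7 / 6 : ℝ)) * (nm g : ℝ) ^ (-(7 / 6 : ℝ))) := by rw [e2, e3]; ring
      _ ≤ Z ^ (-(1 : ℝ) / 2) * ((nm e : ℝ) ^ (-(7 / 6 : ℝ)) * (nm g : ℝ) ^ (-(7 / 6 : ℝ))) := by
          gcongr
      _ = _ := by ring
  have hstep : ∀ e ∈ D, ∑ f ∈ dvs e, ∑ g ∈ Dg e,
      (nm e : ℝ) ^ (-(5 : ℝ) / 3) * (nm f : ℝ) ^ (-(1 : ℝ) / 3) * (nm g : ℝ) ^ (-(5 : ℝ) / 3) ≤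
        C3 * C2 * Z ^ (-(1 : ℝ) / 2) * (nm e : ℝ) ^ (-(13 / 12 : ℝ)) := by
    intro e he
    have he1 := one_le_nm (hD e he)
    have he0 : (0 : ℝ) < nm e := by linarith
    have e5 : (nm e : ℝ) ^ (1 / 12 : ℝ) * (nm e : ℝ) ^ (-(7 / 6 : ℝ)) = (nm e : ℝ) ^ (-(13 / 12 : ℝ)) := by
      rw [← Real.rpow_add he0]; norm_num
    calc ∑ f ∈ dvs e, ∑ g ∈ Dg e,
          (nm e : ℝ) ^ (-(5 : ℝ) / 3) * (nm f : ℝ) ^ (-(1 : ℝ) / 3) * (nm g : ℝ) ^ (-(5 : ℝ) / 3)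
        ≤ ∑ f ∈ dvs e, ∑ g ∈ Dg e,
          Z ^ (-(1 : ℝ) / 2) * (nm e : ℝ) ^ (-(7 / 6 : ℝ)) * (nm g : ℝ) ^ (-(7 / 6 : ℝ)) :=
          sum_le_sum fun f hf => sum_le_sum fun g hg' => hterm e he f hf g hg'
      _ = (tau e : ℝ) * (Z ^ (-(1 : ℝ) / 2) * (nm e : ℝ) ^ (-(7 / 6 : ℝ)) *
            ∑ g ∈ Dg e, (nm g : ℝ) ^ (-(7 / 6 : ℝ))) := by
          rw [sum_const, nsmul_eq_mul, ← mul_sum, tau]
      _ ≤ (C3 * (nm e : ℝ) ^ (1 / 12 : ℝ)) * (Z ^ (-(1 : ℝ) / 2) * (nm e : ℝ) ^ (-(7 / 6 : ℝ)) * C2) := by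
          refine mul_le_mul (h3 e (hD e he).ne_zero) ?_ ?_ (by positivity)
          · exact mul_le_mul_of_nonneg_left (h2 (Dg e)) (by positivity)
          · exact mul_nonneg (by positivity) (sum_nonneg fun _ _ => by positivity)
      _ = C3 * C2 * Z ^ (-(1 : ℝ) / 2) * ((nm e : ℝ) ^ (1 / 12 : ℝ) * (nm e : ℝ) ^ (-(7 / 6 : ℝ))) := by
          ring
      _ = _ := by rw [e5]
  calc _ ≤ ∑ e ∈ D, C3 * C2 * Z ^ (-(1 : ℝ) / 2) * (nm e : ℝ) ^ (-(13 / 12 : ℝ)) :=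
        sum_le_sum hstep
    _ = C3 * C2 * Z ^ (-(1 : ℝ) / 2) * ∑ e ∈ D, (nm e : ℝ) ^ (-(13 / 12 : ℝ)) := by rw [mul_sum]
    _ ≤ C3 * C2 * Z ^ (-(1 : ℝ) / 2) * C1 := by
        have := h1 D
        gcongr
    _ = _ := by ring

/-- logarithmic weight sum, general form. -/
theorem wsum_log' : ∃ C : ℝ, 0 < C ∧ ∀ (D : Finset Eis) (Dg : Eis → Finset Eis) (N : ℝ),
    1 ≤ N → (∀ e ∈ D, IsPrim e) → (∀ e ∈ D, ∀ g ∈ Dg e, IsPrim g ∧ (nm g : ℝ) ≤ N) →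
    ∑ e ∈ D, ∑ _f ∈ dvs e, ∑ g ∈ Dg e, (nm e : ℝ) ^ (-(2 : ℝ)) * (nm g : ℝ) ^ (-(1 : ℝ)) ≤
      C * (1 + Real.log N) := by
  obtain ⟨C1, hC1, h1⟩ := sum_nm_le (s := 23 / 12) (by norm_num)
  obtain ⟨C3, hC3, h3⟩ := tau_le_rpow (ε := 1 / 12) (by norm_num)
  refine ⟨C3 * C1 * 100, by positivity, fun D Dg N hN hD hg => ?_⟩
  have hlog : 0 ≤ 1 + Real.log N := by
    have := Real.log_nonneg hN
    linarith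
  have hG : ∀ e ∈ D, ∑ g ∈ Dg e, (nm g : ℝ) ^ (-(1 : ℝ)) ≤ 100 * (1 + Real.log N) := by
    intro e he
    have hsub : Dg e ⊆ primBall ⌊N⌋₊ := fun g hg' => by
      rw [mem_primBall]
      exact ⟨Nat.le_floor (hg e he g hg').2, (hg e he g hg').1⟩
    have hfl : (1 : ℝ) ≤ ⌊N⌋₊ := by
      have : 1 ≤ ⌊N⌋₊ := Nat.le_floor (by simpa using hN)
      exact_mod_cast this
    calc ∑ g ∈ Dg e, (nm g : ℝ) ^ (-(1 : ℝ)) = ∑ g ∈ Dg e, 1 / (nm g : ℝ) := by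
          refine sum_congr rfl fun g _ => ?_
          rw [Real.rpow_neg_one, one_div]
      _ ≤ ∑ g ∈ primBall ⌊N⌋₊, 1 / (nm g : ℝ) :=
          sum_le_sum_of_subset_of_nonneg hsub fun _ _ _ => by positivity
      _ ≤ 100 * (1 + Real.log ⌊N⌋₊) := sum_inv_primBall_le _
      _ ≤ 100 * (1 + Real.log N) := by
          have := Real.log_le_log (by linarith) (Nat.floor_le (by linarith : (0 : ℝ) ≤ N))
          linarith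
  have hstep : ∀ e ∈ D, ∑ _f ∈ dvs e, ∑ g ∈ Dg e, (nm e : ℝ) ^ (-(2 : ℝ)) * (nm g : ℝ) ^ (-(1 : ℝ)) ≤
      C3 * (100 * (1 + Real.log N)) * (nm e : ℝ) ^ (-(23 / 12 : ℝ)) := by
    intro e he
    have he1 := one_le_nm (hD e he)
    have he0 : (0 : ℝ) < nm e := by linarith
    have e5 : (nm e : ℝ) ^ (1 / 12 : ℝ) * (nm e : ℝ) ^ (-(2 : ℝ)) = (nm e : ℝ) ^ (-(23 / 12 : ℝ)) := by
      rw [← Real.rpow_add he0]; norm_num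
    calc ∑ _f ∈ dvs e, ∑ g ∈ Dg e, (nm e : ℝ) ^ (-(2 : ℝ)) * (nm g : ℝ) ^ (-(1 : ℝ))
        = (tau e : ℝ) * ((nm e : ℝ) ^ (-(2 : ℝ)) * ∑ g ∈ Dg e, (nm g : ℝ) ^ (-(1 : ℝ))) := by
          rw [sum_const, nsmul_eq_mul, ← mul_sum, tau]
      _ ≤ (C3 * (nm e : ℝ) ^ (1 / 12 : ℝ)) * ((nm e : ℝ) ^ (-(2 : ℝ)) * (100 * (1 + Real.log N))) := by
          refine mul_le_mul (h3 e (hD e he).ne_zero) ?_ ?_ (by positivity)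
          · exact mul_le_mul_of_nonneg_left (hG e he) (by positivity)
          · exact mul_nonneg (by positivity) (sum_nonneg fun _ _ => by positivity)
      _ = C3 * (100 * (1 + Real.log N)) * ((nm e : ℝ) ^ (1 / 12 : ℝ) * (nm e : ℝ) ^ (-(2 : ℝ))) := by
          ring
      _ = _ := by rw [e5]
  calc _ ≤ ∑ e ∈ D, C3 * (100 * (1 + Real.log N)) * (nm e : ℝ) ^ (-(23 / 12 : ℝ)) :=
        sum_le_sum hstep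
    _ = C3 * (100 * (1 + Real.log N)) * ∑ e ∈ D, (nm e : ℝ) ^ (-(23 / 12 : ℝ)) := by rw [mul_sum]
    _ ≤ C3 * (100 * (1 + Real.log N)) * C1 := by
        have := h1 D
        gcongr
    _ = _ := by ring

/-- tail weight sum, filter form. -/
theorem wsum_tail : ∃ C : ℝ, 0 < C ∧ ∀ (D : Finset Eis) (Z : ℝ), 0 < Z → (∀ e ∈ D, IsPrim e) →
    ∑ e ∈ D, ∑ f ∈ dvs e, ∑ g ∈ D with Z ≤ (nm e : ℝ) * nm g,
      (nm e : ℝ) ^ (-(5 : ℝ) / 3) * (nm f : ℝ) ^ (-(1 : ℝ) / 3) * (nm g : ℝ) ^ (-(5 : ℝ) / 3) ≤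
        C * Z ^ (-(1 : ℝ) / 2) := by
  obtain ⟨C, hC, h⟩ := wsum_tail'
  refine ⟨C, hC, fun D Z hZ hD => ?_⟩
  exact h D (fun e => D.filter (fun g => Z ≤ (nm e : ℝ) * nm g)) Z hZ hD
    (fun e _ g hg => ⟨hD g (mem_filter.mp hg).1, (mem_filter.mp hg).2⟩)

/-- logarithmic weight sum, filter form. -/
theorem wsum_log : ∃ C : ℝ, 0 < C ∧ ∀ (D : Finset Eis) (N : ℝ), 1 ≤ N → (∀ e ∈ D, IsPrim e) →
    ∑ e ∈ D, ∑ _f ∈ dvs e, ∑ g ∈ D with (nm g : ℝ) ≤ N,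
      (nm e : ℝ) ^ (-(2 : ℝ)) * (nm g : ℝ) ^ (-(1 : ℝ)) ≤ C * (1 + Real.log N) := by
  obtain ⟨C, hC, h⟩ := wsum_log'
  refine ⟨C, hC, fun D N hN hD => ?_⟩
  exact h D (fun _ => D.filter (fun g => (nm g : ℝ) ≤ N)) N hN hD
    (fun e _ g hg => ⟨hD g (mem_filter.mp hg).1, (mem_filter.mp hg).2⟩)

end Crest.Agent.R012.TNXw436
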