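import Crest.Agent.R012.TNX_52
import Crest.Agent.R012.TNXw_436

/-!
# Row 12, item TNX: `NonCube52.WSum` (helper436)
-/

set_option autoImplicit false

noncomputable section

open Finset

namespace Crest.Agent.R012.TNXw436

open Eis Div277

theorem wsum : NonCube52.WSum := by
  obtain ⟨C, hC, h⟩ := wsum_tail'
  refine ⟨C, hC, fun D hD Z hZ => ?_⟩
  have e1 : (-(5 / 3) : ℝ) = -(5 : ℝ) / 3 := by ring
  have e2 : (-(1 / 3) : ℝ) = -(1 : ℝ) / 3 := by ring
  have e3 : (-(1 / 2) : ℝ) = -(1 : ℝ) / 2 := by ring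
  rw [e1, e2, e3]
  exact h D (fun e => D.filter (fun g => Z ≤ (nm e : ℝ) * nm g)) Z (by linarith) hD
    (fun e _ g hg => ⟨hD g (mem_filter.mp hg).1, (mem_filter.mp hg).2⟩)

end Crest.Agent.R012.TNXw436
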