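import Crest.Agent.R012.Defs

/-!
# Row 12 (MK12): Gamma factors on `ℂ`

* `gauss_ft` : `∫_ℂ exp(-s|u|²) e(z u) du = (π/s) exp(-4π²|z|²/s)`.
* `integral_radial` : `∫_ℂ f(|z|) dz = 2π ∫_0^∞ y f(y) dy`.
* `tate` : for `F(u) = ∫ f(z) e(z u) dz`, `0 < σ < 1`:
  `∫_ℂ |u|^(-2σ) F(u) du = π Γ(1-σ)/Γ(σ) (4π²)^(σ-1) ∫_ℂ |z|^(-2(1-σ)) f(z) dz`.
-/

set_option autoImplicit false

noncomputable section

open MeasureTheory Set Complex Real

namespace Crest.Agent.R012.TateC413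

open Crest.Agent.R012

lemma eC_eq (z : ℂ) : eC z = cexp ((4 * Real.pi * z.re : ℝ) * Complex.I) := by
  unfold eC
  congr 1
  apply Complex.ext
  · simp
  · simp; ring

lemma norm_eC (z : ℂ) : ‖eC z‖ = 1 := by
  rw [eC_eq, Complex.norm_exp_ofReal_mul_I]

lemma continuous_eC : Continuous eC := by
  have : eC = fun z => cexp ((4 * Real.pi * z.re : ℝ) * Complex.I) := funext eC_eq
  rw [this]
  fun_prop

/-- Gaussian Fourier transform with respect to `e`. -/
lemma gauss_ft {s : ℝ} (hs : 0 < s) (z : ℂ) :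
    ∫ u : ℂ, (Real.exp (-(s * ‖u‖ ^ 2)) : ℂ) * eC (z * u) =
      ((Real.pi / s * Real.exp (-(4 * Real.pi ^ 2 * ‖z‖ ^ 2 / s)) : ℝ) : ℂ) := by
  have h := GaussianFourier.integral_cexp_neg_mul_sq_norm_add (V := ℂ) (b := (s : ℂ))
    (by simpa using hs) (4 * Real.pi * Complex.I) ((starRingEnd ℂ) z)
  have e1 : ∀ u : ℂ, (Real.exp (-(s * ‖u‖ ^ 2)) : ℂ) * eC (z * u) =
      cexp (-(s : ℂ) * ‖u‖ ^ 2 + 4 * Real.pi * Complex.I * (inner ℝ ((starRingEnd ℂ) z) u : ℝ)) := by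
    intro u
    rw [eC_eq, Complex.ofReal_exp, ← Complex.exp_add]
    congr 1
    rw [Complex.inner, Complex.conj_conj]
    push_cast
    ring_nf
  simp_rw [e1]
  rw [h, Complex.finrank_real_complex, RCLike.norm_conj]
  have hs' : (s : ℂ) ≠ 0 := by exact_mod_cast hs.ne'
  push_cast
  rw [show ((2 : ℂ) / 2) = 1 by norm_num, Complex.cpow_one]
  congr 2
  field_simp
  ring_nf
  rw [Complex.I_sq]
  ring

/-- Polar coordinates for radial functions. -/
lemma integral_radial {F : Type*} [NormedAddCommGroup F] [NormedSpace ℝ F] (f : ℝ → F) :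
    ∫ z : ℂ, f ‖z‖ = (2 * Real.pi) • ∫ y in Ioi (0 : ℝ), y • f y := by
  have h := integral_fun_norm_addHaar (μ := (volume : Measure ℂ)) f
  rw [h, Complex.finrank_real_complex]
  have hv : (volume : Measure ℂ).real (Metric.ball 0 1) = Real.pi := by
    rw [Measure.real, Complex.volume_ball]; simp
  rw [hv, ← Nat.cast_smul_eq_nsmul ℝ 2, smul_smul]
  norm_num

lemma integrable_radial {F : Type*} [NormedAddCommGroup F] [NormedSpace ℝ F] {f : ℝ → F} :
    Integrable (fun z : ℂ => f ‖z‖) ↔ IntegrableOn (fun y : ℝ => y • f y) (Ioi 0) := by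
  have h := integrable_fun_norm_addHaar (μ := (volume : Measure ℂ)) (f := f)
  rw [h, Complex.finrank_real_complex]
  norm_num

/-- `∫_0^∞ s^(σ-1) e^(-s r) ds = Γ(σ) r^(-σ)`. -/
lemma int_gamma {σ r : ℝ} (hσ : 0 < σ) (hr : 0 < r) :
    ∫ s in Ioi (0 : ℝ), s ^ (σ - 1) * Real.exp (-(s * r)) = Real.Gamma σ * r ^ (-σ) := by
  have h := Real.integral_rpow_mul_exp_neg_mul_Ioi hσ hr
  have e : ∀ s : ℝ, s ^ (σ - 1) * Real.exp (-(s * r)) = s ^ (σ - 1) * Real.exp (-(r * s)) := by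
    intro s; rw [mul_comm s r]
  simp_rw [e]
  rw [h, one_div, Real.inv_rpow hr.le, Real.rpow_neg hr.le, mul_comm]

lemma integrableOn_gamma {σ r : ℝ} (hσ : 0 < σ) (hr : 0 < r) :
    IntegrableOn (fun s : ℝ => s ^ (σ - 1) * Real.exp (-(s * r))) (Ioi 0) := by
  have h := integrableOn_rpow_mul_exp_neg_mul_rpow (p := 1) (s := σ - 1) (b := r) (by linarith)
    (by norm_num) hr
  refine h.congr_fun (fun s _ => ?_) measurableSet_Ioi
  simp only [Real.rpow_one]
  ring_nf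

/-- `∫_0^∞ s^(σ-2) e^(-r/s) ds = Γ(1-σ) r^(σ-1)`. -/
lemma int_gamma_inv {σ r : ℝ} (hσ : σ < 1) (hr : 0 < r) :
    ∫ s in Ioi (0 : ℝ), s ^ (σ - 2) * Real.exp (-(r / s)) = Real.Gamma (1 - σ) * r ^ (σ - 1) := by
  have h := int_gamma (σ := 1 - σ) (r := r) (by linarith) hr
  rw [neg_sub] at h
  rw [← h]
  have h2 := integral_comp_rpow_Ioi (fun s : ℝ => s ^ (1 - σ - 1) * Real.exp (-(s * r)))
    (p := -1) (by norm_num)
  rw [← h2]
  apply setIntegral_congr_fun measurableSet_Ioi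
  intro s hs
  have hs' : (0 : ℝ) < s := hs
  simp only [abs_neg, abs_one, one_mul, smul_eq_mul]
  rw [← Real.rpow_mul hs'.le, ← mul_assoc, ← Real.rpow_add hs', Real.rpow_neg_one]
  congr 2
  · ring
  · rw [div_eq_mul_inv]; ring

lemma integrableOn_gamma_inv {σ r : ℝ} (hσ : σ < 1) (hr : 0 < r) :
    IntegrableOn (fun s : ℝ => s ^ (σ - 2) * Real.exp (-(r / s))) (Ioi 0) := by
  have h := integrableOn_gamma (σ := 1 - σ) (r := r) (by linarith) hr
  have h2 := (integrableOn_Ioi_comp_rpow_iff (fun s : ℝ => s ^ (1 - σ - 1) * Real.exp (-(s * r)))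
    (p := -1) (by norm_num)).mpr h
  refine h2.congr_fun (fun s hs => ?_) measurableSet_Ioi
  have hs' : (0 : ℝ) < s := hs
  simp only [abs_neg, abs_one, one_mul, smul_eq_mul]
  rw [← Real.rpow_mul hs'.le, ← mul_assoc, ← Real.rpow_add hs', Real.rpow_neg_one]
  congr 2
  · ring
  · rw [div_eq_mul_inv]; ring

/-- The transform of an integrable function is continuous. -/
lemma continuous_ft {f : ℂ → ℂ} (hf : Integrable f) :
    Continuous (fun u : ℂ => ∫ z, f z * eC (z * u)) := by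
  apply continuous_of_dominated (bound := fun z => ‖f z‖)
  · intro u
    exact hf.aestronglyMeasurable.mul
      (continuous_eC.comp (continuous_id.mul continuous_const)).aestronglyMeasurable
  · intro u
    refine Filter.Eventually.of_forall fun z => ?_
    rw [norm_mul, norm_eC, mul_one]
  · exact hf.norm
  · refine Filter.Eventually.of_forall fun z => ?_
    exact continuous_const.mul (continuous_eC.comp (continuous_const.mul continuous_id))

lemma integrable_gauss {s : ℝ} (hs : 0 < s) :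
    Integrable (fun u : ℂ => Real.exp (-(s * ‖u‖ ^ 2))) := by
  rw [integrable_radial (f := fun y => Real.exp (-(s * y ^ 2)))]
  have h := integrableOn_rpow_mul_exp_neg_mul_sq hs (s := 1) (by norm_num)
  refine h.congr_fun (fun y _ => ?_) measurableSet_Ioi
  simp

/-- Multiplication formula against a Gaussian. -/
lemma mult_gauss {f : ℂ → ℂ} (hf : Integrable f) {s : ℝ} (hs : 0 < s) :
    ∫ u : ℂ, (Real.exp (-(s * ‖u‖ ^ 2)) : ℂ) * (∫ z, f z * eC (z * u)) =
      ∫ z : ℂ, ((Real.pi / s * Real.exp (-(4 * Real.pi ^ 2 * ‖z‖ ^ 2 / s)) : ℝ) : ℂ) * f z := by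
  have h1 : ∀ u : ℂ, (Real.exp (-(s * ‖u‖ ^ 2)) : ℂ) * (∫ z, f z * eC (z * u)) =
      ∫ z, (Real.exp (-(s * ‖u‖ ^ 2)) : ℂ) * (f z * eC (z * u)) := by
    intro u; rw [integral_const_mul]
  simp_rw [h1]
  rw [integral_integral_swap]
  · congr 1
    funext z
    rw [← gauss_ft hs z, ← integral_mul_const]
    congr 1
    funext u
    ring
  · have hg : Integrable (fun u : ℂ => (Real.exp (-(s * ‖u‖ ^ 2)) : ℂ)) :=
      (integrable_gauss hs).ofReal
    have h2 := hg.mul_prod hf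
    have h3 : Integrable (fun p : ℂ × ℂ => eC (p.2 * p.1) *
        ((Real.exp (-(s * ‖p.1‖ ^ 2)) : ℂ) * f p.2)) := by
      refine h2.bdd_mul (c := 1) ?_ ?_
      · exact (continuous_eC.comp (continuous_snd.mul continuous_fst)).aestronglyMeasurable
      · refine Filter.Eventually.of_forall fun p => ?_
        rw [norm_eC]
    refine h3.congr (Filter.Eventually.of_forall fun p => ?_)
    simp only [Function.uncurry]
    ring

lemma rpow_split (z : ℂ) (σ : ℝ) : (4 * Real.pi ^ 2 * ‖z‖ ^ 2) ^ (σ - 1) =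
    (4 * Real.pi ^ 2) ^ (σ - 1) * ‖z‖ ^ (-(2 * (1 - σ))) := by
  rw [Real.mul_rpow (x := 4 * Real.pi ^ 2) (y := ‖z‖ ^ 2) (by positivity) (by positivity)]
  congr 1
  rw [← Real.rpow_natCast, ← Real.rpow_mul (norm_nonneg _)]
  congr 1; push_cast; ring

/-- **Tate / Riesz identity on `ℂ`.** -/
theorem tate {f : ℂ → ℂ} {σ : ℝ} (hσ0 : 0 < σ) (hσ1 : σ < 1) (hf : Integrable f)
    (hfm : Integrable (fun z => ((‖z‖ ^ (-(2 * (1 - σ))) : ℝ) : ℂ) * f z))
    (hFm : Integrable (fun u => ((‖u‖ ^ (-(2 * σ)) : ℝ) : ℂ) * ∫ z, f z * eC (z * u))) :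
    ∫ u, ((‖u‖ ^ (-(2 * σ)) : ℝ) : ℂ) * ∫ z, f z * eC (z * u) =
      ((Real.pi * Real.Gamma (1 - σ) / Real.Gamma σ * (4 * Real.pi ^ 2) ^ (σ - 1) : ℝ) : ℂ) *
        ∫ z, ((‖z‖ ^ (-(2 * (1 - σ))) : ℝ) : ℂ) * f z := by
  set F : ℂ → ℂ := fun u => ∫ z, f z * eC (z * u) with hFdef
  have hFc : Continuous F := continuous_ft hf
  have hΓ : Real.Gamma σ ≠ 0 := (Real.Gamma_pos_of_pos hσ0).ne'
  have hne : ∀ᵐ u : ℂ, u ≠ 0 := by
    rw [ae_iff]
    have : {a : ℂ | ¬ a ≠ 0} = {0} := by ext; simp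
    rw [this]; exact measure_singleton 0
  have hmeasIoi : MeasurableSet (Ioi (0 : ℝ)) := measurableSet_Ioi
  -- first double integral
  have hA1 : ∀ᵐ u : ℂ, ∫ s in Ioi (0 : ℝ), ((s ^ (σ - 1) * Real.exp (-(s * ‖u‖ ^ 2)) : ℝ) : ℂ) * F u
      = (Real.Gamma σ : ℂ) * (((‖u‖ ^ (-(2 * σ)) : ℝ) : ℂ) * F u) := by
    filter_upwards [hne] with u hu
    have hu' : 0 < ‖u‖ ^ 2 := by have := norm_pos_iff.mpr hu; positivity
    rw [integral_mul_const, integral_complex_ofReal, int_gamma hσ0 hu', Complex.ofReal_mul,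
      mul_assoc]
    congr 3
    rw [← Real.rpow_natCast, ← Real.rpow_mul (norm_nonneg _)]
    congr 1; push_cast; ring
  have hint1 : Integrable (Function.uncurry (fun (u : ℂ) (s : ℝ) =>
      ((s ^ (σ - 1) * Real.exp (-(s * ‖u‖ ^ 2)) : ℝ) : ℂ) * F u))
      (volume.prod (volume.restrict (Ioi 0))) := by
    have hmeas : AEStronglyMeasurable (Function.uncurry (fun (u : ℂ) (s : ℝ) =>
      ((s ^ (σ - 1) * Real.exp (-(s * ‖u‖ ^ 2)) : ℝ) : ℂ) * F u))
      (volume.prod (volume.restrict (Ioi 0))) := by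
      apply Measurable.aestronglyMeasurable
      have m1 : Measurable (fun p : ℂ × ℝ => p.2 ^ (σ - 1)) :=
        (measurable_snd.pow_const _)
      have m2 : Measurable (fun p : ℂ × ℝ => Real.exp (-(p.2 * ‖p.1‖ ^ 2))) := by
        apply Continuous.measurable; fun_prop
      have m3 : Measurable (fun p : ℂ × ℝ => F p.1) := hFc.measurable.comp measurable_fst
      exact (Complex.measurable_ofReal.comp (m1.mul m2)).mul m3
    rw [integrable_prod_iff hmeas]
    constructor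
    · filter_upwards [hne] with u hu
      have hu' : 0 < ‖u‖ ^ 2 := by have := norm_pos_iff.mpr hu; positivity
      exact ((integrableOn_gamma hσ0 hu').integrable.ofReal (𝕜 := ℂ)).mul_const (F u)
    · have : ∀ᵐ u : ℂ, Real.Gamma σ * ‖((‖u‖ ^ (-(2 * σ)) : ℝ) : ℂ) * F u‖ =
          ∫ s in Ioi (0 : ℝ), ‖Function.uncurry (fun (u : ℂ) (s : ℝ) =>
      ((s ^ (σ - 1) * Real.exp (-(s * ‖u‖ ^ 2)) : ℝ) : ℂ) * F u) (u, s)‖ := by
        filter_upwards [hne] with u hu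
        have hu' : 0 < ‖u‖ ^ 2 := by have := norm_pos_iff.mpr hu; positivity
        have e1 : ∀ s ∈ Ioi (0 : ℝ), ‖Function.uncurry (fun (u : ℂ) (s : ℝ) =>
            ((s ^ (σ - 1) * Real.exp (-(s * ‖u‖ ^ 2)) : ℝ) : ℂ) * F u) (u, s)‖ =
            (s ^ (σ - 1) * Real.exp (-(s * ‖u‖ ^ 2))) * ‖F u‖ := by
          intro s hs
          have hs' : (0 : ℝ) < s := hs
          simp only [Function.uncurry]
          rw [norm_mul, Complex.norm_real, Real.norm_of_nonneg (by positivity)]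
        rw [setIntegral_congr_fun measurableSet_Ioi e1, integral_mul_const, int_gamma hσ0 hu',
          norm_mul, Complex.norm_real, Real.norm_of_nonneg (by positivity), ← mul_assoc]
        congr 2
        rw [← Real.rpow_natCast, ← Real.rpow_mul (norm_nonneg _)]
        congr 1; push_cast; ring
      exact (hFm.norm.const_mul _).congr this
  -- second double integral
  have hB1 : ∀ᵐ z : ℂ, ∫ s in Ioi (0 : ℝ),
      ((s ^ (σ - 2) * Real.exp (-(4 * Real.pi ^ 2 * ‖z‖ ^ 2 / s)) : ℝ) : ℂ) * f z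
      = ((Real.Gamma (1 - σ) * (4 * Real.pi ^ 2) ^ (σ - 1) : ℝ) : ℂ) *
        (((‖z‖ ^ (-(2 * (1 - σ))) : ℝ) : ℂ) * f z) := by
    filter_upwards [hne] with z hz
    have hz' : 0 < 4 * Real.pi ^ 2 * ‖z‖ ^ 2 := by
      have := norm_pos_iff.mpr hz; positivity
    rw [integral_mul_const, integral_complex_ofReal, int_gamma_inv hσ1 hz', ← mul_assoc]
    congr 1
    rw [← Complex.ofReal_mul, rpow_split]
    congr 1
    ring
  have hint2 : Integrable (Function.uncurry (fun (z : ℂ) (s : ℝ) =>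
      ((s ^ (σ - 2) * Real.exp (-(4 * Real.pi ^ 2 * ‖z‖ ^ 2 / s)) : ℝ) : ℂ) * f z))
      (volume.prod (volume.restrict (Ioi 0))) := by
    have hmeas : AEStronglyMeasurable (Function.uncurry (fun (z : ℂ) (s : ℝ) =>
      ((s ^ (σ - 2) * Real.exp (-(4 * Real.pi ^ 2 * ‖z‖ ^ 2 / s)) : ℝ) : ℂ) * f z))
      (volume.prod (volume.restrict (Ioi 0))) := by
      have m1 : Measurable (fun p : ℂ × ℝ => p.2 ^ (σ - 2)) :=
        (measurable_snd.pow_const _)
      have m2 : Measurable (fun p : ℂ × ℝ =>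
          Real.exp (-(4 * Real.pi ^ 2 * ‖p.1‖ ^ 2 / p.2))) := by
        apply Real.measurable_exp.comp
        apply Measurable.neg
        apply Measurable.div _ measurable_snd
        apply Continuous.measurable; fun_prop
      have m3 : AEStronglyMeasurable (fun p : ℂ × ℝ => f p.1)
          (volume.prod (volume.restrict (Ioi 0))) := hf.aestronglyMeasurable.comp_fst
      exact (Complex.measurable_ofReal.comp (m1.mul m2)).aestronglyMeasurable.mul m3
    rw [integrable_prod_iff hmeas]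
    constructor
    · filter_upwards [hne] with z hz
      have hz' : 0 < 4 * Real.pi ^ 2 * ‖z‖ ^ 2 := by
        have := norm_pos_iff.mpr hz; positivity
      exact ((integrableOn_gamma_inv hσ1 hz').integrable.ofReal (𝕜 := ℂ)).mul_const (f z)
    · have : ∀ᵐ z : ℂ, (Real.Gamma (1 - σ) * (4 * Real.pi ^ 2) ^ (σ - 1)) *
            ‖((‖z‖ ^ (-(2 * (1 - σ))) : ℝ) : ℂ) * f z‖ =
          ∫ s in Ioi (0 : ℝ), ‖Function.uncurry (fun (z : ℂ) (s : ℝ) =>
      ((s ^ (σ - 2) * Real.exp (-(4 * Real.pi ^ 2 * ‖z‖ ^ 2 / s)) : ℝ) : ℂ) * f z) (z, s)‖ := by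
        filter_upwards [hne] with z hz
        have hz' : 0 < 4 * Real.pi ^ 2 * ‖z‖ ^ 2 := by
          have := norm_pos_iff.mpr hz; positivity
        have e1 : ∀ s ∈ Ioi (0 : ℝ), ‖Function.uncurry (fun (z : ℂ) (s : ℝ) =>
            ((s ^ (σ - 2) * Real.exp (-(4 * Real.pi ^ 2 * ‖z‖ ^ 2 / s)) : ℝ) : ℂ) * f z) (z, s)‖ =
            (s ^ (σ - 2) * Real.exp (-(4 * Real.pi ^ 2 * ‖z‖ ^ 2 / s))) * ‖f z‖ := by
          intro s hs
          have hs' : (0 : ℝ) < s := hs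
          simp only [Function.uncurry]
          rw [norm_mul, Complex.norm_real, Real.norm_of_nonneg (by positivity)]
        rw [setIntegral_congr_fun measurableSet_Ioi e1, integral_mul_const, int_gamma_inv hσ1 hz',
          norm_mul, Complex.norm_real, Real.norm_of_nonneg (by positivity), rpow_split]
        ring
      exact (hfm.norm.const_mul _).congr this
  -- the middle
  have hmid : ∀ s ∈ Ioi (0 : ℝ),
      ∫ u : ℂ, ((s ^ (σ - 1) * Real.exp (-(s * ‖u‖ ^ 2)) : ℝ) : ℂ) * F u =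
      (Real.pi : ℂ) * ∫ z : ℂ,
        ((s ^ (σ - 2) * Real.exp (-(4 * Real.pi ^ 2 * ‖z‖ ^ 2 / s)) : ℝ) : ℂ) * f z := by
    intro s hs
    have hs' : (0 : ℝ) < s := hs
    have h := mult_gauss hf hs'
    have e1 : ∀ u : ℂ, ((s ^ (σ - 1) * Real.exp (-(s * ‖u‖ ^ 2)) : ℝ) : ℂ) * F u =
        ((s ^ (σ - 1) : ℝ) : ℂ) * ((Real.exp (-(s * ‖u‖ ^ 2)) : ℂ) * F u) := by
      intro u; push_cast; ring
    simp_rw [e1]
    rw [integral_const_mul, h, ← integral_const_mul, ← integral_const_mul]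
    congr 1
    funext z
    rw [← mul_assoc, ← mul_assoc, ← Complex.ofReal_mul, ← Complex.ofReal_mul]
    congr 2
    have e2 : s ^ (σ - 2) = s ^ (σ - 1) / s := by
      rw [← Real.rpow_sub_one hs'.ne']; congr 1; ring
    rw [e2]; ring
  have step1 : (Real.Gamma σ : ℂ) * ∫ u, ((‖u‖ ^ (-(2 * σ)) : ℝ) : ℂ) * F u =
      ∫ u : ℂ, ∫ s in Ioi (0 : ℝ), ((s ^ (σ - 1) * Real.exp (-(s * ‖u‖ ^ 2)) : ℝ) : ℂ) * F u := by
    rw [integral_congr_ae hA1, integral_const_mul]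
  have step2 := integral_integral_swap hint1
  have step3 : ∫ s in Ioi (0 : ℝ), ∫ u : ℂ,
      ((s ^ (σ - 1) * Real.exp (-(s * ‖u‖ ^ 2)) : ℝ) : ℂ) * F u =
      (Real.pi : ℂ) * ∫ s in Ioi (0 : ℝ), ∫ z : ℂ,
        ((s ^ (σ - 2) * Real.exp (-(4 * Real.pi ^ 2 * ‖z‖ ^ 2 / s)) : ℝ) : ℂ) * f z := by
    rw [setIntegral_congr_fun measurableSet_Ioi hmid, integral_const_mul]
  have step4 := integral_integral_swap hint2
  have step5 : ∫ z : ℂ, ∫ s in Ioi (0 : ℝ),
      ((s ^ (σ - 2) * Real.exp (-(4 * Real.pi ^ 2 * ‖z‖ ^ 2 / s)) : ℝ) : ℂ) * f z =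
      ((Real.Gamma (1 - σ) * (4 * Real.pi ^ 2) ^ (σ - 1) : ℝ) : ℂ) *
        ∫ z, ((‖z‖ ^ (-(2 * (1 - σ))) : ℝ) : ℂ) * f z := by
    rw [integral_congr_ae hB1, integral_const_mul]
  have hΓ' : (Real.Gamma σ : ℂ) ≠ 0 := by exact_mod_cast hΓ
  apply mul_left_cancel₀ hΓ'
  rw [step1, step2, step3, ← step4, step5]
  push_cast
  field_simp

end Crest.Agent.R012.TateC413
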