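import Crest.Agent.R012.ThetaSym_131
import Crest.Agent.R012.Dens_705
import Crest.Agent.R012.Cusp_852
import Crest.Agent.R012.LatW_413
import Crest.Agent.R012.Sym6_645

/-!
# Row 12, item MTH (part 3): the term `k = 0` of the dual sum

`D^(-1/3) T_0(C,D) → kap 1 * ∫_0^∞ 3 y³ exp(-y³) dy`.
-/

set_option autoImplicit false

noncomputable section

open MeasureTheory Complex Set Filter Topology

namespace Crest.Agent.R012.Theta131

open Crest.Agent.R012 Crest.Agent.R012.Eis Crest.Agent.R012.Poisson381 Crest.Agent.R012.Mob705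
  Crest.Agent.R012.Div277

/-- `∑_{N(n) ≤ Y} ∏_{p | n} (1 - 1/N p)` over primary `n`. -/
def AP (Y : ℝ) : ℝ := ∑ n ∈ pb Y, PE n

lemma AP_eq (Y : ℝ) : AP Y = ∑ e ∈ pb Y, (muE e : ℝ) * (1 / (nm e : ℝ)) * ((pb (Y / nm e)).card : ℝ) := by
  classical
  unfold AP
  have h2 : ∀ n ∈ pb Y, PE n =
      ∑ e ∈ pb Y, (if e ∣ n then (muE e : ℝ) * (1 / (nm e : ℝ)) else 0) := by
    intro n hn
    have hn' := mem_pb.mp hn
    rw [PE_eq_sum hn'.2.ne_zero, ← Finset.sum_filter]
    refine Finset.sum_congr ?_ fun _ _ => rfl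
    ext d
    rw [mem_dvs hn'.2.ne_zero, Finset.mem_filter, mem_pb]
    constructor
    · rintro ⟨h3, h4⟩
      refine ⟨⟨?_, h3⟩, h4⟩
      have h5 : (nm d : ℝ) ≤ nm n := by exact_mod_cast Div277.nm_le_of_dvd hn'.2.ne_zero h4
      exact h5.trans hn'.1
    · rintro ⟨⟨_, h3⟩, h4⟩
      exact ⟨h3, h4⟩
  rw [Finset.sum_congr rfl h2, Finset.sum_comm]
  refine Finset.sum_congr rfl fun d hd => ?_
  rw [← Finset.sum_filter, Finset.sum_const, pb_filter_dvd Y (mem_pb.mp hd).2,
    Finset.card_map, nsmul_eq_mul, mul_comm]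

/-- constant -/
def KA : ℝ := 61 * LatSum413.Zs (3 / 2) + 300

lemma KA_nonneg : 0 ≤ KA := by
  unfold KA
  have := LatSum413.Zs_nonneg (3 / 2)
  positivity

theorem AP_asymp {Y : ℝ} (hY : 0 ≤ Y) : |AP Y - kap 1 * Y| ≤ KA * Real.sqrt Y := by
  classical
  have hs := Real.sqrt_nonneg Y
  have hk0 := kap0_pos
  have hk1 := kap0_le_one
  have hkap : kap 1 = kap0 * Z 1 := kap_one
  have e1 : AP Y - kap 1 * Y =
      (∑ e ∈ pb Y, (muE e : ℝ) * (1 / (nm e : ℝ)) *
        (((pb (Y / nm e)).card : ℝ) - kap0 * (Y / nm e)))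
      - kap0 * Y * (Z 1 - ∑ e ∈ pb Y, zt 1 e) := by
    rw [AP_eq, hkap]
    have e2 : ∑ d ∈ pb Y, zt 1 d = ∑ d ∈ pb Y, (muE d : ℝ) / (nm d : ℝ) ^ 2 := by
      refine Finset.sum_congr rfl fun d hd => ?_
      unfold zt
      rw [if_pos ⟨(mem_pb.mp hd).2, isCoprime_one_right⟩]
    rw [e2]
    simp only [mul_sub, Finset.sum_sub_distrib, Finset.mul_sum]
    have e3 : ∑ x ∈ pb Y, (muE x : ℝ) * (1 / (nm x : ℝ)) * (kap0 * (Y / nm x)) =
        ∑ x ∈ pb Y, kap0 * Y * ((muE x : ℝ) / (nm x : ℝ) ^ 2) := by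
      refine Finset.sum_congr rfl fun d hd => ?_
      have : (nm d : ℝ) ≠ 0 := by
        exact_mod_cast fun h => (mem_pb.mp hd).2.ne_zero (nm_eq_zero.mp h)
      field_simp
    rw [e3]; ring
  rw [e1]
  refine (abs_sub _ _).trans ?_
  have b1 : |∑ e ∈ pb Y, (muE e : ℝ) * (1 / (nm e : ℝ)) *
        (((pb (Y / nm e)).card : ℝ) - kap0 * (Y / nm e))| ≤ 61 * LatSum413.Zs (3 / 2) * Real.sqrt Y := by
    refine (Finset.abs_sum_le_sum_abs _ _).trans ?_
    have h1 : ∀ e ∈ pb Y, |(muE e : ℝ) * (1 / (nm e : ℝ)) *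
        (((pb (Y / nm e)).card : ℝ) - kap0 * (Y / nm e))| ≤
        61 * Real.sqrt Y * (nm e : ℝ) ^ (-(3 / 2) : ℝ) := by
      intro e he
      have hpos : (0 : ℝ) < nm e := by
        exact_mod_cast nm_pos.mpr (mem_pb.mp he).2.ne_zero
      have h2 := card_pb (Y := Y / nm e) (by positivity)
      rw [abs_mul, abs_mul, abs_of_pos (by positivity : 0 < 1 / (nm e : ℝ))]
      have h3 := abs_muE_le_real e
      have h4 : (nm e : ℝ) ^ (-(3 / 2) : ℝ) = 1 / (nm e : ℝ) * (1 / Real.sqrt (nm e)) := by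
        rw [Real.rpow_neg hpos.le, show (3 / 2 : ℝ) = 1 + 1 / 2 by norm_num,
          Real.rpow_add hpos, Real.rpow_one, ← Real.sqrt_eq_rpow]
        field_simp
      calc |(muE e : ℝ)| * (1 / (nm e : ℝ)) * |((pb (Y / nm e)).card : ℝ) - kap0 * (Y / nm e)|
          ≤ 1 * (1 / (nm e : ℝ)) * (61 * Real.sqrt (Y / nm e)) := by
            gcongr
        _ = 61 * Real.sqrt Y * (nm e : ℝ) ^ (-(3 / 2) : ℝ) := by
            rw [h4, Real.sqrt_div hY]; ring
    refine (Finset.sum_le_sum h1).trans ?_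
    rw [← Finset.mul_sum]
    have h5 : ∑ e ∈ pb Y, (nm e : ℝ) ^ (-(3 / 2) : ℝ) ≤ LatSum413.Zs (3 / 2) :=
      (LatSum413.summable_nm_rpow (s := 3 / 2) (by norm_num)).sum_le_tsum _
        (fun _ _ => by positivity)
    calc 61 * Real.sqrt Y * ∑ e ∈ pb Y, (nm e : ℝ) ^ (-(3 / 2) : ℝ)
        ≤ 61 * Real.sqrt Y * LatSum413.Zs (3 / 2) := mul_le_mul_of_nonneg_left h5 (by positivity)
      _ = _ := by ring
  have b2 : |kap0 * Y * (Z 1 - ∑ e ∈ pb Y, zt 1 e)| ≤ 300 * Real.sqrt Y := by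
    rw [abs_mul, abs_of_nonneg (by positivity)]
    have h1 := abs_Z_sub_le 1 (pb Y) ⌊Y⌋₊ (fun d hd hp _ => by
      by_contra hc
      push Not at hc
      exact hd (mem_primBall.mpr ⟨hc, hp⟩))
    have h2 : Y < ⌊Y⌋₊ + 1 := Nat.lt_floor_add_one Y
    rcases lt_or_ge Y 1 with h | h
    · have h3 : Y ≤ Real.sqrt Y := by
        rw [Real.le_sqrt hY hY]; nlinarith
      have h4 : |Z 1 - ∑ e ∈ pb Y, zt 1 e| ≤ 300 := by
        refine h1.trans ?_
        rw [div_le_iff₀ (by positivity)]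
        have : (0 : ℝ) ≤ ⌊Y⌋₊ := by positivity
        nlinarith
      calc kap0 * Y * |Z 1 - ∑ e ∈ pb Y, zt 1 e| ≤ 1 * Real.sqrt Y * 300 := by
            gcongr
        _ = _ := by ring
    · have h3 : 1 ≤ Real.sqrt Y := by
        rw [show (1 : ℝ) = Real.sqrt 1 by simp]
        exact Real.sqrt_le_sqrt h
      calc kap0 * Y * |Z 1 - ∑ e ∈ pb Y, zt 1 e| ≤ 1 * Y * (300 / (⌊Y⌋₊ + 1)) := by
            gcongr
        _ ≤ 300 := by
            rw [one_mul, mul_div_assoc', div_le_iff₀ (by positivity)]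
            nlinarith
        _ ≤ 300 * Real.sqrt Y := by nlinarith
  unfold KA
  linarith

/-! ### Layer cake -/

/-- `3 y² exp(-y³)` -/
def gy (y : ℝ) : ℝ := 3 * y ^ 2 * Real.exp (-(y ^ 3))

lemma gy_nonneg (y : ℝ) : 0 ≤ gy y := by unfold gy; positivity

lemma continuous_gy : Continuous gy := by unfold gy; fun_prop

lemma hasDerivAt_exp3 (y : ℝ) : HasDerivAt (fun y : ℝ => -Real.exp (-(y ^ 3))) (gy y) y := by
  have h1 : HasDerivAt (fun y : ℝ => y ^ 3) (3 * y ^ 2) y := by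
    simpa using hasDerivAt_pow 3 y
  have h2 := h1.neg.exp.neg
  refine h2.congr_deriv ?_
  unfold gy
  simp only [Pi.neg_apply]
  ring

lemma tendsto_exp3 : Tendsto (fun y : ℝ => -Real.exp (-(y ^ 3))) atTop (𝓝 0) := by
  have h : Tendsto (fun y : ℝ => y ^ 3) atTop atTop := tendsto_pow_atTop (by norm_num)
  have := (Real.tendsto_exp_neg_atTop_nhds_zero.comp h).neg
  simpa using this

lemma integrableOn_gy {a : ℝ} : IntegrableOn gy (Ioi a) :=
  integrableOn_Ioi_deriv_of_nonneg (by fun_prop) (fun y _ => hasDerivAt_exp3 y)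
    (fun y _ => gy_nonneg y) tendsto_exp3

lemma integral_gy {a : ℝ} : ∫ y in Ioi a, gy y = Real.exp (-(a ^ 3)) := by
  rw [integral_Ioi_of_hasDerivAt_of_nonneg (by fun_prop) (fun y _ => hasDerivAt_exp3 y)
    (fun y _ => gy_nonneg y) tendsto_exp3]
  ring

/-- `F_n(y) = PE(n) 1[N(n) ≤ T y] g(y)` -/
def Fn (T : ℝ) (n : Eis) (y : ℝ) : ℝ :=
  open Classical in if IsPrim n ∧ (nm n : ℝ) ≤ T * y then PE n * gy y else 0

lemma Fn_nonneg (T : ℝ) (n : Eis) (y : ℝ) : 0 ≤ Fn T n y := by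
  unfold Fn
  have h1 := (PE_pos n).le
  have h2 := gy_nonneg y
  split_ifs <;> positivity

lemma measurable_Fn (T : ℝ) (n : Eis) : Measurable (Fn T n) := by
  classical
  unfold Fn
  by_cases hn : IsPrim n
  · simp only [hn, true_and]
    refine Measurable.ite ?_ (continuous_gy.measurable.const_mul _) measurable_const
    exact measurableSet_le measurable_const (measurable_id.const_mul T)
  · simp only [hn, false_and, if_false]
    exact measurable_const

open Classical in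
lemma integral_Fn {T : ℝ} (hT : 0 < T) (n : Eis) :
    IntegrableOn (Fn T n) (Ioi 0) ∧
    ∫ y in Ioi (0 : ℝ), Fn T n y = if IsPrim n then PE n * Real.exp (-((nm n / T) ^ 3)) else 0 := by
  by_cases hn : IsPrim n
  · have hpos : (0 : ℝ) < nm n := by exact_mod_cast nm_pos.mpr hn.ne_zero
    rw [if_pos hn]
    have e1 : ∀ y, Fn T n y = (Ici ((nm n : ℝ) / T)).indicator (fun y => PE n * gy y) y := by
      intro y
      unfold Fn
      by_cases hy : (nm n : ℝ) ≤ T * y
      · rw [if_pos ⟨hn, hy⟩, indicator_of_mem]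
        rw [mem_Ici, div_le_iff₀ hT]; linarith
      · rw [if_neg (fun h => hy h.2), indicator_of_notMem]
        rw [mem_Ici, div_le_iff₀ hT]
        intro h; exact hy (by linarith)
    have hi : IntegrableOn (fun y => PE n * gy y) (Ioi ((nm n : ℝ) / T)) :=
      (integrableOn_gy).const_mul _
    have hi' : IntegrableOn (fun y => PE n * gy y) (Ici ((nm n : ℝ) / T)) :=
      Iff.mpr integrableOn_Ici_iff_integrableOn_Ioi hi
    have hinter : Ioi (0 : ℝ) ∩ Ici ((nm n : ℝ) / T) = Ici ((nm n : ℝ) / T) := by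
      apply inter_eq_right.mpr
      intro y hy
      have : 0 < (nm n : ℝ) / T := by positivity
      exact lt_of_lt_of_le this hy
    constructor
    · have : Integrable (fun y => Fn T n y) (volume) := by
        simp_rw [e1]
        rw [integrable_indicator_iff measurableSet_Ici]
        exact hi'
      exact this.integrableOn
    · simp_rw [e1]
      rw [setIntegral_indicator measurableSet_Ici, hinter, integral_Ici_eq_integral_Ioi,
        integral_const_mul, integral_gy]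
  · rw [if_neg hn]
    have e1 : ∀ y, Fn T n y = 0 := by
      intro y
      unfold Fn
      rw [if_neg (fun h => hn h.1)]
    have e2 : Fn T n = fun _ => 0 := funext e1
    rw [e2]
    exact ⟨integrableOn_zero, by simp⟩

lemma exp_cube_le {x : ℝ} (hx : 0 ≤ x) : Real.exp (-(x ^ 3)) ≤ 3 * Real.exp (-x) := by
  rw [show (3 : ℝ) * Real.exp (-x) = Real.exp (Real.log 3) * Real.exp (-x) by
    rw [Real.exp_log (by norm_num)], ← Real.exp_add]
  apply Real.exp_le_exp.mpr
  have h1 : (1 : ℝ) ≤ Real.log 3 := by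
    rw [Real.le_log_iff_exp_le (by norm_num)]
    have := Real.exp_one_lt_d9
    linarith
  have h2 : x ≤ x ^ 3 + 1 := by
    by_cases h : x ≤ 1
    · have : 0 ≤ x ^ 3 := by positivity
      linarith
    · push Not at h
      nlinarith [sq_nonneg (x - 1), sq_nonneg x, mul_pos (by linarith : 0 < x) (by linarith : 0 < x - 1)]
  linarith

open Classical in
/-- `∑ PE(n) exp(-(N(n)/T)³)` -/
def QT (T : ℝ) : ℝ := ∑' n : Eis, if IsPrim n then PE n * Real.exp (-((nm n / T) ^ 3)) else 0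

open Classical in
lemma summable_QT {T : ℝ} (hT : 0 < T) :
    Summable fun n : Eis => if IsPrim n then PE n * Real.exp (-((nm n / T) ^ 3)) else 0 := by
  refine Summable.of_nonneg_of_le (fun n => ?_) (fun n => ?_) ((summable_ex hT).mul_left 3)
  · have := (PE_pos n).le
    split_ifs <;> positivity
  · have h0 := ex_pos T n
    split_ifs with h
    · have h1 := PE_le_one n
      have h2 := (PE_pos n).le
      have h3 := exp_cube_le (x := (nm n : ℝ) / T) (by positivity)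
      have h4 : 0 < Real.exp (-((nm n / T : ℝ) ^ 3)) := Real.exp_pos _
      unfold ex
      nlinarith
    · positivity

lemma tsum_Fn {T : ℝ} {y : ℝ} : ∑' n, Fn T n y = AP (T * y) * gy y := by
  classical
  rw [tsum_eq_sum (s := pb (T * y))]
  · unfold AP
    rw [Finset.sum_mul]
    refine Finset.sum_congr rfl fun n hn => ?_
    have := mem_pb.mp hn
    unfold Fn
    rw [if_pos ⟨this.2, this.1⟩]
  · intro n hn
    unfold Fn
    rw [if_neg]
    rintro ⟨h1, h2⟩
    exact hn (mem_pb.mpr ⟨h2, h1⟩)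

lemma AP_mono : Monotone AP := by
  intro a b hab
  unfold AP
  exact Finset.sum_le_sum_of_subset_of_nonneg (pb_mono hab) (fun n _ _ => (PE_pos n).le)

lemma AP_nonneg (Y : ℝ) : 0 ≤ AP Y := Finset.sum_nonneg fun n _ => (PE_pos n).le

lemma integrableOn_pow_gy {s : ℝ} (hs : 0 ≤ s) : IntegrableOn (fun y => y ^ s * gy y) (Ioi 0) := by
  have h : IntegrableOn (fun y : ℝ => 3 * (y ^ (s + 2) * Real.exp (-y ^ (3 : ℝ)))) (Ioi 0) :=
    (integrableOn_rpow_mul_exp_neg_rpow (p := 3) (s := s + 2) (by linarith)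
      (by norm_num)).const_mul 3
  refine IntegrableOn.congr_fun h ?_ measurableSet_Ioi
  intro y hy
  have hy0 : (0 : ℝ) < y := hy
  unfold gy
  beta_reduce
  have e3 : y ^ (3 : ℝ) = y ^ 3 := by
    rw [show (3 : ℝ) = ((3 : ℕ) : ℝ) by norm_num, Real.rpow_natCast]
  have e2 : y ^ (s + 2) = y ^ s * y ^ 2 := by
    rw [Real.rpow_add hy0, show (2 : ℝ) = ((2 : ℕ) : ℝ) by norm_num, Real.rpow_natCast]
  rw [e3, e2]
  ring

theorem QT_eq {T : ℝ} (hT : 0 < T) : QT T = ∫ y in Ioi (0 : ℝ), AP (T * y) * gy y := by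
  classical
  have h1 : ∀ n : Eis, Integrable (Fn T n) (volume.restrict (Ioi 0)) := fun n => (integral_Fn hT n).1
  have h2 : Summable fun n : Eis => ∫ y in Ioi (0 : ℝ), ‖Fn T n y‖ := by
    have e : ∀ n : Eis, ∫ y in Ioi (0 : ℝ), ‖Fn T n y‖ =
        if IsPrim n then PE n * Real.exp (-((nm n / T) ^ 3)) else 0 := by
      intro n
      rw [← (integral_Fn hT n).2]
      congr 1
      ext y
      rw [Real.norm_of_nonneg (Fn_nonneg T n y)]
    simp_rw [e]
    exact summable_QT hT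
  have h3 := hasSum_integral_of_summable_integral_norm h1 h2
  have e2 : ∀ y, ∑' n, Fn T n y = AP (T * y) * gy y := fun y => tsum_Fn
  simp_rw [e2] at h3
  rw [← h3.tsum_eq]
  unfold QT
  refine tsum_congr fun n => ?_
  rw [(integral_Fn hT n).2]

/-- the constant `∫ y g(y) dy` -/
def I1 : ℝ := ∫ y in Ioi (0 : ℝ), y ^ (1 : ℝ) * gy y

def I2 : ℝ := ∫ y in Ioi (0 : ℝ), y ^ (1 / 2 : ℝ) * gy y

lemma I2_nonneg : 0 ≤ I2 := by
  unfold I2
  refine setIntegral_nonneg measurableSet_Ioi fun y hy => ?_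
  have hy0 : (0 : ℝ) < y := hy
  have := gy_nonneg y
  positivity

lemma I1_pos : 0 < I1 := by
  unfold I1
  rw [setIntegral_pos_iff_support_of_nonneg_ae]
  · have : Ioi (0 : ℝ) ⊆ Function.support fun y : ℝ => y ^ (1 : ℝ) * gy y := by
      intro y hy
      have hy0 : (0 : ℝ) < y := hy
      rw [Function.mem_support]
      unfold gy
      positivity
    rw [inter_eq_right.mpr this]
    simp
  · filter_upwards [ae_restrict_mem measurableSet_Ioi] with y hy
    have hy0 : (0 : ℝ) < y := hy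
    have := gy_nonneg y
    simp only [Pi.zero_apply]
    positivity
  · exact integrableOn_pow_gy (by norm_num)

theorem QT_bound {T : ℝ} (hT : 0 < T) : |QT T - kap 1 * T * I1| ≤ KA * Real.sqrt T * I2 := by
  have i1 := integrableOn_pow_gy (s := 1) (by norm_num)
  have i2 := integrableOn_pow_gy (s := 1 / 2) (by norm_num)
  have hb : ∀ y ∈ Ioi (0 : ℝ), |AP (T * y) * gy y - kap 1 * T * (y ^ (1 : ℝ) * gy y)| ≤
      KA * Real.sqrt T * (y ^ (1 / 2 : ℝ) * gy y) := by
    intro y hy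
    have hy0 : (0 : ℝ) < y := hy
    have h := AP_asymp (Y := T * y) (by positivity)
    have hg := gy_nonneg y
    have e1 : AP (T * y) * gy y - kap 1 * T * (y ^ (1 : ℝ) * gy y) =
        (AP (T * y) - kap 1 * (T * y)) * gy y := by
      rw [Real.rpow_one]; ring
    rw [e1, abs_mul, abs_of_nonneg hg]
    calc |AP (T * y) - kap 1 * (T * y)| * gy y ≤ KA * Real.sqrt (T * y) * gy y :=
          mul_le_mul_of_nonneg_right h hg
      _ = _ := by
          rw [Real.sqrt_mul hT.le, ← Real.sqrt_eq_rpow]; ring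
  have hmeas : AEStronglyMeasurable (fun y => AP (T * y) * gy y) (volume.restrict (Ioi 0)) := by
    refine (Measurable.mul ?_ continuous_gy.measurable).aestronglyMeasurable
    exact AP_mono.measurable.comp (measurable_id.const_mul T)
  have i3 : IntegrableOn (fun y => AP (T * y) * gy y - kap 1 * T * (y ^ (1 : ℝ) * gy y))
      (Ioi 0) := by
    refine Integrable.mono' (i2.const_mul (KA * Real.sqrt T)) ?_ ?_
    · exact hmeas.sub (Integrable.const_mul i1 (kap 1 * T)).aestronglyMeasurable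
    · filter_upwards [ae_restrict_mem measurableSet_Ioi] with y hy
      rw [Real.norm_eq_abs]
      exact hb y hy
  have i4 : IntegrableOn (fun y => AP (T * y) * gy y) (Ioi 0) := by
    have := i3.add (i1.const_mul (kap 1 * T))
    refine this.congr ?_
    filter_upwards with y
    simp only [Pi.add_apply]
    ring
  have e1 : QT T - kap 1 * T * I1 =
      ∫ y in Ioi (0 : ℝ), (AP (T * y) * gy y - kap 1 * T * (y ^ (1 : ℝ) * gy y)) := by
    rw [integral_sub i4 (Integrable.const_mul i1 (kap 1 * T)), integral_const_mul, ← QT_eq hT]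
    rfl
  rw [e1, ← Real.norm_eq_abs]
  refine (norm_integral_le_integral_norm _).trans ?_
  unfold I2
  rw [← integral_const_mul]
  refine setIntegral_mono_on i3.norm (i2.const_mul _) measurableSet_Ioi ?_
  intro y hy
  rw [Real.norm_eq_abs]
  exact hb y hy

theorem QT_tendsto : Tendsto (fun T : ℝ => QT T / T) atTop (𝓝 (kap 1 * I1)) := by
  have h1 : Tendsto (fun T : ℝ => KA * I2 * (Real.sqrt T)⁻¹) atTop (𝓝 (KA * I2 * 0)) :=
    (tendsto_inv_atTop_zero.comp Real.tendsto_sqrt_atTop).const_mul _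
  rw [mul_zero] at h1
  rw [tendsto_iff_norm_sub_tendsto_zero]
  refine squeeze_zero' (Eventually.of_forall fun _ => norm_nonneg _) ?_ h1
  filter_upwards [eventually_gt_atTop 0] with T hT
  have h := QT_bound hT
  have hs : 0 < Real.sqrt T := Real.sqrt_pos.mpr hT
  have e1 : QT T / T - kap 1 * I1 = (QT T - kap 1 * T * I1) / T := by field_simp
  rw [e1, norm_div, Real.norm_eq_abs, Real.norm_of_nonneg hT.le, div_le_iff₀ hT]
  refine h.trans (le_of_eq ?_)
  have h2 : (Real.sqrt T)⁻¹ * T = Real.sqrt T := by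
    rw [inv_mul_eq_iff_eq_mul₀ hs.ne', Real.mul_self_sqrt hT.le]
  rw [mul_assoc _ _ T, h2]
  ring

/-- `C₀` -/
def C00 : ℝ := kap 1 * I1

lemma C00_pos : 0 < C00 := mul_pos kap_one_pos I1_pos

/-! ### `g(0, d)` -/

lemma gs_zero_eq (d : Eis) : gs 0 d = Cusp852.T d := by
  unfold gs Cusp852.T
  refine sumMod_congr fun x => ?_
  rw [map_zero, zero_mul, zero_div, Poisson381.eC_zero, mul_one]

lemma psi_cube {n : Eis} (hn : IsPrim n) : Count852.psi (n ^ 3) = PE n := by
  classical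
  unfold Count852.psi PE
  refine Finset.prod_congr ?_ fun _ _ => rfl
  ext p
  have hn0 := hn.ne_zero
  rw [Count852.mem_pdiv (pow_ne_zero 3 hn0), mem_pp hn0]
  unfold IsPP
  constructor
  · rintro ⟨h1, h2, h3⟩
    exact ⟨⟨h1, h2⟩, h2.dvd_of_dvd_pow h3⟩
  · rintro ⟨⟨h1, h2⟩, h3⟩
    exact ⟨h1, h2, h3.trans (dvd_pow_self n (by norm_num))⟩

lemma isPrim_cube {n : Eis} (hn : IsPrim n) : IsPrim (n ^ 3) := hn.pow 3

lemma cube_inj {m n : Eis} (hm : IsPrim m) (hn : IsPrim n) (h : m ^ 3 = n ^ 3) : m = n := by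
  apply hm.eq_of_associated hn
  exact associated_of_dvd_dvd
    ((UniqueFactorizationMonoid.pow_dvd_pow_iff_dvd (n := 3) (by norm_num)).mp (h ▸ dvd_rfl))
    ((UniqueFactorizationMonoid.pow_dvd_pow_iff_dvd (n := 3) (by norm_num)).mp (h ▸ dvd_rfl))

/-- the term `k = 0`. -/
theorem Tk_zero {C D : ℝ} (_hD : 0 < D) : Tk C (D ^ 3) 0 = ((QT D : ℝ) : ℂ) := by
  classical
  have hval : ∀ d : Eis, tt C (D ^ 3) 0 d =
      if IsPrim d then Cusp852.T d / (nm d : ℂ) * ((Real.exp (-(nm d / D ^ 3)) : ℝ) : ℂ) else 0 := by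
    intro d
    unfold tt
    rw [gs_zero_eq]
    simp
  have hc : ∀ n : Eis, IsPrim n → tt C (D ^ 3) 0 (n ^ 3) =
      ((PE n * Real.exp (-((nm n / D) ^ 3)) : ℝ) : ℂ) := by
    intro n hn
    have h3 := isPrim_cube hn
    rw [hval, if_pos h3, Cusp852.T_cube Sym645.syFacts hn, psi_cube hn]
    have hp : (nm (n ^ 3) : ℂ) ≠ 0 := by
      exact_mod_cast fun h => h3.ne_zero (nm_eq_zero.mp h)
    have e1 : ((nm n : ℝ) / D) ^ 3 = nm (n ^ 3) / D ^ 3 := by
      rw [nm_pow]; push_cast; rw [div_pow]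
    rw [e1]
    push_cast
    field_simp
  have hz : ∀ d : Eis, tt C (D ^ 3) 0 d ≠ 0 → ∃ n, IsPrim n ∧ d = n ^ 3 := by
    intro d hd
    rw [hval] at hd
    by_cases hp : IsPrim d
    · rw [if_pos hp] at hd
      by_contra hne
      apply hd
      rw [Cusp852.T_eq_zero Sym645.syFacts hp, zero_div, zero_mul]
      rintro ⟨e, he⟩
      obtain ⟨n, hn, hen⟩ := Cusp852.prim_cube (e := e) (by rwa [← he])
      exact hne ⟨n, hn, by rw [he, hen]⟩
    · rw [if_neg hp] at hd
      exact absurd rfl hd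
  have h1 : Tk C (D ^ 3) 0 = ∑' n : {n : Eis // IsPrim n}, tt C (D ^ 3) 0 ((n : Eis) ^ 3) := by
    unfold Tk
    have hinj : Function.Injective (fun n : {n : Eis // IsPrim n} => (n : Eis) ^ 3) := by
      intro a b h
      exact Subtype.ext (cube_inj a.2 b.2 h)
    rw [← hinj.tsum_eq]
    intro d hd
    obtain ⟨n, hn, rfl⟩ := hz d hd
    exact ⟨⟨n, hn⟩, rfl⟩
  rw [h1]
  unfold QT
  rw [Complex.ofReal_tsum]
  have h2 : ∀ n : {n : Eis // IsPrim n}, tt C (D ^ 3) 0 ((n : Eis) ^ 3) =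
      (fun n : Eis => (((if IsPrim n then PE n * Real.exp (-((nm n / D) ^ 3)) else 0 : ℝ)) : ℂ)) n := by
    intro n
    rw [hc n n.2]
    simp only
    rw [if_pos n.2]
  simp_rw [h2]
  refine tsum_subtype_eq_of_support_subset (s := {n : Eis | IsPrim n})
    (f := fun n : Eis => (((if IsPrim n then PE n * Real.exp (-((nm n / D) ^ 3)) else 0 : ℝ)) : ℂ)) ?_
  intro n hn
  by_contra hne
  apply hn
  have hne' : ¬ IsPrim n := hne
  simp only
  rw [if_neg hne']
  simp

/-- **Limit of the term `k = 0`.** -/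
theorem Tk_zero_tendsto (C : ℝ → ℝ) :
    Tendsto (fun D : ℝ => Tk (C D) D 0 / ((D ^ (1 / 3 : ℝ) : ℝ) : ℂ)) atTop (𝓝 ((C00 : ℝ) : ℂ)) := by
  have h1 : Tendsto (fun D : ℝ => D ^ (1 / 3 : ℝ)) atTop atTop :=
    tendsto_rpow_atTop (by norm_num)
  have h2 := (Complex.continuous_ofReal.tendsto _).comp (QT_tendsto.comp h1)
  refine h2.congr' ?_
  filter_upwards [eventually_gt_atTop 0] with D hD
  have h3 : 0 < D ^ (1 / 3 : ℝ) := Real.rpow_pos_of_pos hD _
  have h4 := Tk_zero (C := C D) h3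
  have h5 : (D ^ (1 / 3 : ℝ)) ^ 3 = D := by
    rw [← Real.rpow_natCast, ← Real.rpow_mul hD.le]; norm_num
  rw [h5] at h4
  rw [h4]
  simp only [Function.comp]
  push_cast
  rfl

end Crest.Agent.R012.Theta131
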