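import Crest.Agent.R012.ThetaCube_131
import Crest.Agent.R012.Sign_51

/-!
# Row 12, item MTH (part 4): the functional equation

Input: `ThAs ρ` (asymptotics of `T_k`, `k ≠ 0`).  Output: helper51's inversion identity for
`ρ' k = ε_k ρ_k`.
-/

set_option autoImplicit false

noncomputable section

open MeasureTheory Complex Set Filter Topology

namespace Crest.Agent.R012.Theta131

open Crest.Agent.R012 Crest.Agent.R012.Eis Crest.Agent.R012.Poisson381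

/-- `J(t) = ∫_0^∞ x^(-2/3) exp(-x - β₀ t / x) dx` -/
def Jt (t : ℝ) : ℝ := ∫ x in Ioi (0 : ℝ), x ^ (-(2 / 3) : ℝ) * Real.exp (-x - be0 * t / x)

/-- the asymptotics of `T_k`, `k ≠ 0`. -/
structure ThAs (ρ : Eis → ℂ) : Prop where
  lim : ∀ Y : ℝ, 0 < Y → ∀ k : Eis, k ≠ 0 →
    Tendsto (fun D : ℝ => Tk (Y * D) D k / ((D ^ (1 / 3 : ℝ) : ℝ) : ℂ)) atTop
      (𝓝 (ρ k * ((Jt (Y * nm k) : ℝ) : ℂ)))
  dom : ∀ Y : ℝ, 0 < Y → ∃ b : Eis → ℝ, Summable b ∧ ∀ D : ℝ, 1 ≤ D → ∀ k : Eis, k ≠ 0 →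
    ‖Tk (Y * D) D k / ((D ^ (1 / 3 : ℝ) : ℝ) : ℂ)‖ ≤ b k

/-- limit of the `k`-th term -/
def Gk (ρ : Eis → ℂ) (Y : ℝ) (k : Eis) : ℂ :=
  if k = 0 then ((C00 : ℝ) : ℂ) else eps k * (ρ k * ((Jt (Y * nm k) : ℝ) : ℂ))

/-- normalised dual sum -/
def FF (Y D : ℝ) : ℂ := ∑' k : Eis, eps k * (Tk (Y * D) D k / ((D ^ (1 / 3 : ℝ) : ℝ) : ℂ))

lemma eps_zero : eps 0 = 1 := by
  unfold eps
  rw [map_zero, zero_div, Poisson381.eC_zero]

theorem FF_tendsto {ρ : Eis → ℂ} (h : ThAs ρ) {Y : ℝ} (hY : 0 < Y) :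
    Tendsto (fun D : ℝ => FF Y D) atTop (𝓝 (∑' k : Eis, Gk ρ Y k)) := by
  classical
  obtain ⟨b, hb, hd⟩ := h.dom Y hY
  have h0 := Tk_zero_tendsto (fun D => Y * D)
  set b' : Eis → ℝ := fun k => b k + (if k = 0 then |b 0| + (‖((C00 : ℝ) : ℂ)‖ + 1) else 0) with hb'
  have hs : Summable b' := by
    refine hb.add ?_
    refine summable_of_ne_finset_zero (s := {0}) (fun k hk => ?_)
    rw [Finset.mem_singleton] at hk
    rw [if_neg hk]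
  unfold FF
  refine tendsto_tsum_of_dominated_convergence hs ?_ ?_
  · intro k
    unfold Gk
    by_cases hk : k = 0
    · subst hk
      rw [if_pos rfl, eps_zero]
      simpa only [one_mul] using h0
    · rw [if_neg hk]
      exact (h.lim Y hY k hk).const_mul _
  · have h1 : ∀ᶠ D : ℝ in atTop, ‖Tk (Y * D) D 0 / ((D ^ (1 / 3 : ℝ) : ℝ) : ℂ)‖ <
        ‖((C00 : ℝ) : ℂ)‖ + 1 :=
      (tendsto_norm.comp h0).eventually (gt_mem_nhds (by linarith))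
    filter_upwards [h1, eventually_ge_atTop 1] with D h1 h2 k
    rw [norm_mul, norm_eps, one_mul, hb']
    by_cases hk : k = 0
    · subst hk
      simp only [if_true]
      have := neg_abs_le (b 0)
      linarith
    · simp only [if_neg hk, add_zero]
      exact hd D h2 k hk

lemma FF_rel {Y D : ℝ} (hY : 0 < Y) (hD : 0 < D) :
    ((Y : ℝ) : ℂ) * FF Y D = ((Y ^ (1 / 3 : ℝ) : ℝ) : ℂ) * FF Y⁻¹ (Y * D) := by
  have hYD : 0 < Y * D := by positivity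
  have h1 := Ssum_eq hYD hD
  have h2 := Ssum_eq hD hYD
  rw [Ssum_comm, h2] at h1
  have hp := Real.pi_pos
  have h3 : 0 < Real.sqrt 3 := Real.sqrt_pos.mpr (by norm_num)
  have hD3 : 0 < D ^ (1 / 3 : ℝ) := Real.rpow_pos_of_pos hD _
  have hY3 : 0 < Y ^ (1 / 3 : ℝ) := Real.rpow_pos_of_pos hY _
  have e1 : FF Y D = (∑' k : Eis, eps k * Tk (Y * D) D k) / ((D ^ (1 / 3 : ℝ) : ℝ) : ℂ) := by
    unfold FF
    rw [← tsum_div_const]
    exact tsum_congr fun k => by ring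
  have e2 : FF Y⁻¹ (Y * D) = (∑' k : Eis, eps k * Tk D (Y * D) k) /
      (((Y * D) ^ (1 / 3 : ℝ) : ℝ) : ℂ) := by
    unfold FF
    rw [← tsum_div_const]
    refine tsum_congr fun k => ?_
    have : Y⁻¹ * (Y * D) = D := by field_simp
    rw [this]
    ring
  rw [e1, e2, Real.mul_rpow hY.le hD.le]
  have h4 : ((2 * Real.pi * D / (9 * Real.sqrt 3) : ℝ) : ℂ) ≠ 0 := by
    have : (2 * Real.pi * D / (9 * Real.sqrt 3) : ℝ) ≠ 0 := by positivity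
    exact_mod_cast this
  have h5 : ((2 * Real.pi * (Y * D) / (9 * Real.sqrt 3) : ℝ) : ℂ) =
      ((2 * Real.pi * D / (9 * Real.sqrt 3) : ℝ) : ℂ) * ((Y : ℝ) : ℂ) := by
    rw [← Complex.ofReal_mul]
    congr 1
    ring
  rw [h5, mul_assoc (((2 * Real.pi * D / (9 * Real.sqrt 3) : ℝ) : ℂ))] at h1
  have h6 := mul_left_cancel₀ h4 h1
  have hD3' : ((D ^ (1 / 3 : ℝ) : ℝ) : ℂ) ≠ 0 := by exact_mod_cast hD3.ne'
  have hY3' : ((Y ^ (1 / 3 : ℝ) : ℝ) : ℂ) ≠ 0 := by exact_mod_cast hY3.ne'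
  rw [h6]
  push_cast
  field_simp

/-- **The functional equation.** -/
theorem fe_main {ρ : Eis → ℂ} (h : ThAs ρ) {Y : ℝ} (hY : 0 < Y) :
    ((Y : ℝ) : ℂ) * ∑' k : Eis, Gk ρ Y k =
      ((Y ^ (1 / 3 : ℝ) : ℝ) : ℂ) * ∑' k : Eis, Gk ρ Y⁻¹ k := by
  have h1 := (FF_tendsto h hY).const_mul ((Y : ℝ) : ℂ)
  have h2 : Tendsto (fun D : ℝ => Y * D) atTop atTop := tendsto_id.const_mul_atTop hY
  have h3 := ((FF_tendsto h (inv_pos.mpr hY)).comp h2).const_mul ((Y ^ (1 / 3 : ℝ) : ℝ) : ℂ)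
  refine tendsto_nhds_unique h1 (h3.congr' ?_)
  filter_upwards [eventually_gt_atTop 0] with D hD
  exact (FF_rel hY hD).symm

lemma summable_Gk {ρ : Eis → ℂ} (h : ThAs ρ) {Y : ℝ} (hY : 0 < Y) :
    Summable fun k : Eis => Gk ρ Y k := by
  classical
  obtain ⟨b, hb, hd⟩ := h.dom Y hY
  set b' : Eis → ℝ := fun k => b k + (if k = 0 then |b 0| + ‖((C00 : ℝ) : ℂ)‖ else 0) with hb'
  have hs : Summable b' := by
    refine hb.add ?_
    refine summable_of_ne_finset_zero (s := {0}) (fun k hk => ?_)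
    rw [Finset.mem_singleton] at hk
    rw [if_neg hk]
  refine Summable.of_norm_bounded hs (fun k => ?_)
  unfold Gk
  by_cases hk : k = 0
  · subst hk
    rw [if_pos rfl, hb']
    simp only [if_true]
    have := neg_abs_le (b 0)
    linarith
  · rw [if_neg hk, norm_mul, norm_eps, one_mul, hb']
    simp only [if_neg hk, add_zero]
    refine le_of_tendsto (tendsto_norm.comp (h.lim Y hY k hk)) ?_
    filter_upwards [eventually_ge_atTop 1] with D hD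
    exact hd D hD k hk

/-- change of variables: `y^(2/3) J(N y²) = Kf (√N/(3√3)) y` -/
lemma Kf_eq {N y : ℝ} (hN : 0 < N) (hy : 0 < y) :
    Sg51.Kf (Real.sqrt N / (3 * Real.sqrt 3)) y = y ^ (2 / 3 : ℝ) * Jt (y ^ 2 * N) := by
  have hs3 : 0 < Real.sqrt 3 := Real.sqrt_pos.mpr (by norm_num)
  have hsN : 0 < Real.sqrt N := Real.sqrt_pos.mpr hN
  set a : ℝ := Real.sqrt N / (3 * Real.sqrt 3) with ha
  have hap : 0 < a := by positivity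
  have ha2 : a ^ 2 * 27 = N := by
    rw [ha, div_pow, mul_pow, Real.sq_sqrt hN.le, Real.sq_sqrt (by norm_num)]
    norm_num
  unfold Sg51.Kf Jt
  have hc := MeasureTheory.integral_comp_mul_left_Ioi
    (fun x : ℝ => x ^ (-(2 / 3) : ℝ) * Real.exp (-x - be0 * (y ^ 2 * N) / x)) 0
    (b := a * y) (by positivity)
  rw [mul_zero] at hc
  have hay : 0 < a * y := by positivity
  have e1 : ∫ x in Ioi (0 : ℝ), x ^ (-(2 / 3) : ℝ) * Real.exp (-x - be0 * (y ^ 2 * N) / x) =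
      (a * y) * ∫ w in Ioi (0 : ℝ), (a * y * w) ^ (-(2 / 3) : ℝ) *
        Real.exp (-(a * y * w) - be0 * (y ^ 2 * N) / (a * y * w)) := by
    rw [hc, smul_eq_mul, mul_inv_cancel_left₀ hay.ne']
  rw [e1, ← integral_const_mul, ← integral_const_mul, ← integral_const_mul]
  refine setIntegral_congr_fun measurableSet_Ioi fun w hw => ?_
  have hw' : 0 < w := hw
  rw [Real.mul_rpow hay.le hw'.le, Real.mul_rpow hap.le hy.le]
  have e2 : -(a * y * w) - be0 * (y ^ 2 * N) / (a * y * w) =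
      -(a * (w + 4 * Real.pi ^ 2 / w) * y) := by
    unfold be0
    rw [← ha2]
    field_simp
    ring
  rw [e2]
  have e3 : a ^ (1 / 3 : ℝ) = a * a ^ (-(2 / 3) : ℝ) := by
    nth_rewrite 2 [← Real.rpow_one a]
    rw [← Real.rpow_add hap]
    norm_num
  have e4 : y = y ^ (2 / 3 : ℝ) * (y * y ^ (-(2 / 3) : ℝ)) := by
    have : y * y ^ (-(2 / 3) : ℝ) = y ^ (1 / 3 : ℝ) := by
      nth_rewrite 1 [← Real.rpow_one y]
      rw [← Real.rpow_add hy]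
      norm_num
    rw [this, ← Real.rpow_add hy]
    norm_num
  have e5 : (-(2 : ℝ) / 3) = (-(2 / 3) : ℝ) := by norm_num
  rw [e3, e5]
  nth_rewrite 1 [e4]
  ring

lemma Kf_inv_eq {N y : ℝ} (hN : 0 < N) (hy : 0 < y) :
    Sg51.Kf (Real.sqrt N / (3 * Real.sqrt 3)) y⁻¹ = y ^ (-(2 / 3) : ℝ) * Jt ((y ^ 2)⁻¹ * N) := by
  rw [Kf_eq hN (inv_pos.mpr hy), inv_pow, Real.inv_rpow hy.le, Real.rpow_neg hy.le]

/-- **helper51's inversion identity** for `ρ' k = ε_k ρ_k`, `c1 = 1`, `C0 = C00`. -/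
theorem hid_of {ρ : Eis → ℂ} (h : ThAs ρ) {y : ℝ} (hy : 0 < y) :
    ((C00 * (y ^ ((2 : ℝ) / 3) - y ^ (-(2 : ℝ) / 3)) : ℝ) : ℂ) =
      ∑' r : Eis, (eps r * ρ r) * ((1 * Sg51.Bf y (‖toC r‖ / (3 * Real.sqrt 3)) : ℝ) : ℂ) := by
  classical
  have hy2 : 0 < y ^ 2 := by positivity
  have hm := fe_main h hy2
  have s1 := summable_Gk h hy2
  have s2 := summable_Gk h (inv_pos.mpr hy2)
  have e43 : (y ^ 2) ^ (1 / 3 : ℝ) = y ^ (2 / 3 : ℝ) := by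
    rw [← Real.rpow_natCast, ← Real.rpow_mul hy.le]; norm_num
  rw [e43] at hm
  have p1 : 0 < y ^ (2 / 3 : ℝ) := Real.rpow_pos_of_pos hy _
  have p2 : 0 < y ^ (-(2 / 3) : ℝ) := Real.rpow_pos_of_pos hy _
  have e6 : y ^ 2 = y ^ (2 / 3 : ℝ) * (y ^ (2 / 3 : ℝ) * y ^ (2 / 3 : ℝ)) := by
    rw [← Real.rpow_add hy, ← Real.rpow_add hy, ← Real.rpow_natCast]; norm_num
  have e7 : y ^ (2 / 3 : ℝ) * y ^ (-(2 / 3) : ℝ) = 1 := by
    rw [← Real.rpow_add hy]; norm_num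
  -- `y^(2/3) Σ G(y²) = y^(-2/3) Σ G(y⁻²)`
  have hm2 : ((y ^ (2 / 3 : ℝ) : ℝ) : ℂ) * ∑' k : Eis, Gk ρ (y ^ 2) k =
      ((y ^ (-(2 / 3) : ℝ) : ℝ) : ℂ) * ∑' k : Eis, Gk ρ (y ^ 2)⁻¹ k := by
    have q1 : ((y ^ (2 / 3 : ℝ) : ℝ) : ℂ) ≠ 0 := by exact_mod_cast p1.ne'
    apply mul_left_cancel₀ (mul_ne_zero q1 q1)
    have l1 : (((y ^ (2 / 3 : ℝ) : ℝ) : ℂ) * ((y ^ (2 / 3 : ℝ) : ℝ) : ℂ)) *
        (((y ^ (2 / 3 : ℝ) : ℝ) : ℂ) * ∑' k : Eis, Gk ρ (y ^ 2) k) =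
        ((y ^ 2 : ℝ) : ℂ) * ∑' k : Eis, Gk ρ (y ^ 2) k := by
      rw [e6]; push_cast; ring
    have l2 : (((y ^ (2 / 3 : ℝ) : ℝ) : ℂ) * ((y ^ (2 / 3 : ℝ) : ℝ) : ℂ)) *
        (((y ^ (-(2 / 3) : ℝ) : ℝ) : ℂ) * ∑' k : Eis, Gk ρ (y ^ 2)⁻¹ k) =
        ((y ^ (2 / 3 : ℝ) : ℝ) : ℂ) * ∑' k : Eis, Gk ρ (y ^ 2)⁻¹ k := by
      have : ((y ^ (2 / 3 : ℝ) : ℝ) : ℂ) * ((y ^ (-(2 / 3) : ℝ) : ℝ) : ℂ) = 1 := by
        rw [← Complex.ofReal_mul, e7, Complex.ofReal_one]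
      calc _ = ((y ^ (2 / 3 : ℝ) : ℝ) : ℂ) * (((y ^ (2 / 3 : ℝ) : ℝ) : ℂ) *
            ((y ^ (-(2 / 3) : ℝ) : ℝ) : ℂ)) * ∑' k : Eis, Gk ρ (y ^ 2)⁻¹ k := by ring
        _ = _ := by rw [this, mul_one]
    rw [l1, l2]
    exact hm
  -- termwise
  have hterm : ∀ r : Eis, (eps r * ρ r) * ((1 * Sg51.Bf y (‖toC r‖ / (3 * Real.sqrt 3)) : ℝ) : ℂ) =
      (((y ^ (-(2 / 3) : ℝ) : ℝ) : ℂ) * Gk ρ (y ^ 2)⁻¹ r -
        ((y ^ (2 / 3 : ℝ) : ℝ) : ℂ) * Gk ρ (y ^ 2) r) +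
      (if r = 0 then ((C00 * (y ^ ((2 : ℝ) / 3) - y ^ (-(2 : ℝ) / 3)) : ℝ) : ℂ) else 0) := by
    intro r
    by_cases hr : r = 0
    · subst hr
      have e5 : (-(2 : ℝ) / 3) = (-(2 / 3) : ℝ) := by norm_num
      rw [map_zero, norm_zero, zero_div, Sg51.Bf_zero, if_pos rfl, e5]
      unfold Gk
      rw [if_pos rfl, if_pos rfl]
      push_cast
      ring
    · rw [if_neg hr, add_zero]
      have hn : (0 : ℝ) < nm r := by exact_mod_cast nm_pos.2 hr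
      have hsq : ‖toC r‖ = Real.sqrt (nm r) := by
        rw [← norm_toC_sq, Real.sqrt_sq (norm_nonneg _)]
      unfold Sg51.Bf
      rw [hsq, Kf_eq hn hy, Kf_inv_eq hn hy]
      unfold Gk
      rw [if_neg hr, if_neg hr]
      push_cast
      ring
  simp_rw [hterm]
  have s3 : Summable fun r : Eis => ((y ^ (-(2 / 3) : ℝ) : ℝ) : ℂ) * Gk ρ (y ^ 2)⁻¹ r -
        ((y ^ (2 / 3 : ℝ) : ℝ) : ℂ) * Gk ρ (y ^ 2) r := (s2.mul_left _).sub (s1.mul_left _)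
  have s4 : Summable fun r : Eis => (if r = 0 then
      ((C00 * (y ^ ((2 : ℝ) / 3) - y ^ (-(2 : ℝ) / 3)) : ℝ) : ℂ) else 0) := by
    refine summable_of_ne_finset_zero (s := {0}) (fun k hk => ?_)
    rw [Finset.mem_singleton] at hk
    rw [if_neg hk]
  rw [s3.tsum_add s4, tsum_ite_eq, (s2.mul_left _).tsum_sub (s1.mul_left _), tsum_mul_left,
    tsum_mul_left, ← hm2, sub_self, zero_add]

end Crest.Agent.R012.Theta131
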