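import Crest.Agent.R012.PoissonG_381
import Crest.Agent.R012.GaussInst_880

/-!
# Row 12, item MTH (part 1): exact Poisson identity

For `d` primary and `t > 0`

`Σ_{c ≡ 1 (3)} sy c d exp(-π t N(c)) = (2/√3)(9 t N(d))⁻¹ Σ_k ε_k g(k,d) exp(-4π N(k)/(27 t N(d)))`,

`ε_k = e(k/(3√-3))`.
-/

set_option autoImplicit false

noncomputable section

open MeasureTheory Complex Set Filter Topology

namespace Crest.Agent.R012.Theta131

open Crest.Agent.R012 Crest.Agent.R012.Eis Crest.Agent.R012.Poisson381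

/-- `ε_k = e(k/(3√-3))`. -/
def eps (k : Eis) : ℂ := eC (toC k / (3 * s3))

lemma norm_eps (k : Eis) : ‖eps k‖ = 1 := Poisson381.norm_eC _

lemma three_ne_zero' : (3 : Eis) ≠ 0 := by
  have h : (3 : Eis) = ((3 : ℕ) : Eis) := by norm_cast
  rw [h]
  exact Nat.cast_ne_zero.mpr (by norm_num)

lemma toC_three : toC (3 : Eis) = 3 := by
  have h : (3 : Eis) = ((3 : ℕ) : Eis) := by norm_cast
  rw [h, map_natCast]; norm_cast

open Classical in
/-- The primary cubic symbol in the numerator variable. -/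
def ps (d c : Eis) : ℂ := if IsPrim c then sy c d else 0

lemma isPrim_congr {x y : Eis} (h : (3 : Eis) ∣ x - y) : IsPrim x ↔ IsPrim y := by
  unfold IsPrim
  have e : x - 1 = (x - y) + (y - 1) := by ring
  rw [e]
  exact ⟨fun h1 => (dvd_add_right h).mp h1, fun h1 => dvd_add h h1⟩

lemma pmod_ps {d : Eis} (hd : IsPrim d) : PMod (3 * d) (ps d) := by
  intro x t
  unfold ps
  have h1 : IsPrim (x + 3 * d * t) ↔ IsPrim x :=
    isPrim_congr ⟨d * t, by ring⟩
  have h2 : sy (x + 3 * d * t) d = sy x d :=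
    Gauss880.syG.congr _ _ _ hd ⟨3 * t, by ring⟩
  by_cases hx : IsPrim x
  · rw [if_pos (h1.mpr hx), if_pos hx, h2]
  · rw [if_neg (fun h => hx (h1.mp h)), if_neg hx]

lemma norm_ps_le {d : Eis} (hd : IsPrim d) (c : Eis) : ‖ps d c‖ ≤ 1 := by
  unfold ps
  split_ifs with h
  · exact Gauss880.norm_sy_le Gauss880.syG hd
  · simp

lemma sy_sq3_cube {d : Eis} (hd : IsPrim d) (z : Eis) :
    sy (3 * (sq3 * z)) d = sy z d := by
  have hG := Gauss880.syG
  have e : (3 : Eis) * (sq3 * z) = (-1) * (sq3 ^ 3 * z) := by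
    have := sq3_sq
    have h3 : sq3 ^ 3 = -3 * sq3 := by rw [pow_succ, this]
    rw [h3]; ring
  rw [e, hG.mul_left _ _ _ hd, hG.mul_left _ _ _ hd, Gauss880.sy_neg_one hG hd]
  have hcop : IsCoprime sq3 d := by
    have h1 : IsCoprime (3 : Eis) d := hd.isCoprime_three.symm
    have h2 : (3 : Eis) = sq3 * (-sq3) := by
      have := sq3_sq
      linear_combination this
    rw [h2] at h1
    exact h1.of_mul_left_left
  have h3 : sy (sq3 ^ 3) d = 1 := by
    have := (Gauss880.isCh_sy hG hd).pow sq3 3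
    beta_reduce at this
    rw [this]
    exact hG.cube _ _ hd hcop
  rw [h3]; ring

lemma toC_sq3 : toC sq3 = s3 := by
  rw [s3_eq_toC]
  congr 1

/-- inner sum modulo `d`. -/
lemma inner_sum {d : Eis} (hd : IsPrim d) (k : Eis) :
    sumMod d (fun y => sy (3 * y) d * eC (toC y * toC k / (toC d * s3))) = gs k d := by
  have hd0 : d ≠ 0 := hd.ne_zero
  have hG := Gauss880.syG
  have hper : PMod d (fun y => sy (3 * y) d * eC (toC y * toC k / (toC d * s3))) := by
    refine PMod.mul ?_ (Poisson381.pmod_eC hd0 k)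
    intro x t
    exact hG.congr _ _ _ hd ⟨3 * t, by ring⟩
  have hcop : IsCoprime sq3 d := by
    have h1 : IsCoprime (3 : Eis) d := hd.isCoprime_three.symm
    have h2 : (3 : Eis) = sq3 * (-sq3) := by
      have := sq3_sq
      linear_combination this
    rw [h2] at h1
    exact h1.of_mul_left_left
  rw [← sumMod_mul_coprime hd0 hper hcop]
  unfold gs
  refine sumMod_congr fun x => ?_
  rw [sy_sq3_cube hd]
  congr 2
  have h3 := s3_ne_zero
  have hdC : toC d ≠ 0 := by rwa [Ne, toC_eq_zero]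
  rw [map_mul, toC_sq3]
  field_simp

/-- the complete sum modulo `3 d`. -/
lemma full_sum {d : Eis} (hd : IsPrim d) (k : Eis) :
    sumMod (3 * d) (fun a => ps d a * eC (toC a * toC k / (toC (3 * d) * s3))) =
      eps k * gs k d := by
  have hd0 : d ≠ 0 := hd.ne_zero
  have h30 : (3 : Eis) ≠ 0 := three_ne_zero'
  have hG := Gauss880.syG
  have hper : PMod (3 * d) (fun a => ps d a * eC (toC a * toC k / (toC (3 * d) * s3))) :=
    (pmod_ps hd).mul (Poisson381.pmod_eC (mul_ne_zero h30 hd0) k)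
  have h3 := s3_ne_zero
  have hdC : toC d ≠ 0 := by rwa [Ne, toC_eq_zero]
  have h3C : toC (3 : Eis) = 3 := toC_three
  have hprim : ∀ x y : Eis, IsPrim (d * x + 3 * y) ↔ IsPrim x := by
    intro x y
    have h1 : IsPrim (d * x + 3 * y) ↔ IsPrim (d * x) := isPrim_congr ⟨y, by ring⟩
    rw [h1]
    refine isPrim_congr ?_
    have : d * x - x = (d - 1) * x := by ring
    rw [this]
    exact (hd : (3 : Eis) ∣ d - 1).mul_right x
  rw [sumMod_crt h30 hd0 hd.isCoprime_three.symm hper]
  -- value at `x`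
  have hval : ∀ x y : Eis, ps d (d * x + 3 * y) *
      eC (toC (d * x + 3 * y) * toC k / (toC (3 * d) * s3)) =
      ps 1 x * eC (toC x * toC k / (3 * s3)) *
        (sy (3 * y) d * eC (toC y * toC k / (toC d * s3))) := by
    intro x y
    have e1 : toC (d * x + 3 * y) * toC k / (toC (3 * d) * s3) =
        toC x * toC k / (3 * s3) + toC y * toC k / (toC d * s3) := by
      rw [map_add, map_mul, map_mul, map_mul, h3C]
      field_simp
    rw [e1, Poisson381.eC_add]
    have e2 : ps d (d * x + 3 * y) = ps 1 x * sy (3 * y) d := by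
      unfold ps
      have h1 : sy (d * x + 3 * y) d = sy (3 * y) d :=
        hG.congr _ _ _ hd ⟨x, by ring⟩
      have h2 : sy x 1 = 1 := Sym645.sy_unit_right x isUnit_one
      by_cases hx : IsPrim x
      · rw [if_pos ((hprim x y).mpr hx), if_pos hx, h1, h2, one_mul]
      · rw [if_neg (fun h => hx ((hprim x y).mp h)), if_neg hx, zero_mul]
    rw [e2]; ring
  have hin : ∀ x : Eis, sumMod d (fun y => ps d (d * x + 3 * y) *
      eC (toC (d * x + 3 * y) * toC k / (toC (3 * d) * s3))) =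
      ps 1 x * eC (toC x * toC k / (3 * s3)) * gs k d := by
    intro x
    rw [sumMod_congr (fun y => hval x y), sumMod_mul_left hd0, inner_sum hd]
  rw [sumMod_congr hin, sumMod_mul_right h30]
  congr 1
  -- sum modulo 3
  have hp3 : PMod ((3 : ℕ) : Eis) (fun x => ps 1 x * eC (toC x * toC k / (3 * s3))) := by
    have h31 : IsPrim (1 : Eis) := by simp [IsPrim]
    have a1 := pmod_ps h31
    have a2 := Poisson381.pmod_eC h30 k
    rw [mul_one] at a1
    rw [h3C] at a2
    exact_mod_cast a1.mul a2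
  have e3 : (3 : Eis) = ((3 : ℕ) : Eis) := by norm_cast
  rw [e3, sumMod_natCast (by norm_num) hp3]
  have hpz : ∀ a b : ℕ, a < 3 → b < 3 → (IsPrim (⟨(a : ℤ), (b : ℤ)⟩ : Eis) ↔ (a = 1 ∧ b = 0)) := by
    intro a b ha hb
    rw [Sym645.isPrim_iff]
    simp only
    omega
  rw [Finset.sum_eq_single 1]
  · rw [Finset.sum_eq_single 0]
    · unfold ps eps
      have h1 : (⟨((1 : ℕ) : ℤ), ((0 : ℕ) : ℤ)⟩ : Eis) = 1 := by
        apply ext' <;> simp
      rw [h1, if_pos (by simp [IsPrim]), Sym645.sy_unit_right 1 isUnit_one, map_one, one_mul,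
        one_mul]
    · intro b hb hb0
      unfold ps
      rw [if_neg, zero_mul]
      rw [hpz 1 b (by norm_num) (by simpa using hb)]
      tauto
    · intro h; simp at h
  · intro a ha ha1
    refine Finset.sum_eq_zero fun b hb => ?_
    unfold ps
    rw [if_neg, zero_mul]
    rw [hpz a b (by simpa using ha) (by simpa using hb)]
    tauto
  · intro h; simp at h

/-- **Poisson identity.** -/
theorem poisson_sy {d : Eis} (hd : IsPrim d) {t : ℝ} (ht : 0 < t) :
    HasSum (fun k : Eis => ((2 / Real.sqrt 3 * (t * (9 * nm d))⁻¹ : ℝ) : ℂ) *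
        (gau (4 / (3 * (t * (9 * nm d)))) (toC k) * (eps k * gs k d)))
      (∑' c : Eis, ps d c * gau t (toC c)) := by
  have hd0 : d ≠ 0 := hd.ne_zero
  have h30 : (3 : Eis) ≠ 0 := three_ne_zero'
  have h := poisson_gau_periodic ht (mul_ne_zero h30 hd0) (pmod_ps hd)
  have hn : (nm (3 * d) : ℝ) = 9 * nm d := by
    rw [nm_mul]
    have : nm (3 : Eis) = 9 := by
      have := nm_natCast 3
      simpa using this
    rw [this]; push_cast; ring
  simp_rw [full_sum hd, hn] at h
  exact h

end Crest.Agent.R012.Theta131
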