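import Crest.Agent.R012.ThetaPoi_131

/-!
# Row 12, item MTH (part 2): the symmetric sum

`S(C,D) = Σ_{c,d ≡ 1 (3)} sy c d exp(-N(c)/C - N(d)/D)`, `S(C,D) = S(D,C)` and

`S(C,D) = (2πC/(9√3)) Σ_k ε_k T_k(C,D)`,
`T_k(C,D) = Σ_{d ≡ 1 (3)} g(k,d)/N(d) exp(-N(d)/D - β₀ C N(k)/N(d))`, `β₀ = 4π²/27`.
-/

set_option autoImplicit false

noncomputable section

open MeasureTheory Complex Set Filter Topology

namespace Crest.Agent.R012.Theta131

open Crest.Agent.R012 Crest.Agent.R012.Eis Crest.Agent.R012.Poisson381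

/-- `exp(-N(c)/C)` -/
def ex (C : ℝ) (c : Eis) : ℝ := Real.exp (-(nm c / C))

lemma ex_pos (C : ℝ) (c : Eis) : 0 < ex C c := Real.exp_pos _

lemma ex_eq_gau {C : ℝ} (hC : 0 < C) (c : Eis) :
    ((ex C c : ℝ) : ℂ) = gau (1 / (Real.pi * C)) (toC c) := by
  unfold ex gau
  congr 3
  rw [norm_toC_sq]
  have := Real.pi_pos
  field_simp

lemma summable_ex {C : ℝ} (hC : 0 < C) : Summable (ex C) := by
  have h := summable_gau_one (t := 1 / (Real.pi * C)) (by have := Real.pi_pos; positivity)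
  have h2 : Summable fun c : Eis => ((ex C c : ℝ) : ℂ) := by
    simp_rw [ex_eq_gau hC]
    exact h
  exact Complex.summable_ofReal.mp h2

open Classical in
/-- symmetric kernel -/
def sk (c d : Eis) : ℂ := if IsPrim c ∧ IsPrim d then sy c d else 0

lemma sk_comm (c d : Eis) : sk c d = sk d c := by
  unfold sk
  by_cases h : IsPrim c ∧ IsPrim d
  · rw [if_pos h, if_pos h.symm, Sym645.sy_reciprocity h.1 h.2]
  · rw [if_neg h, if_neg (fun h' => h h'.symm)]

open Classical in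
lemma sk_eq (c d : Eis) : sk c d = if IsPrim d then ps d c else 0 := by
  classical
  unfold sk ps
  by_cases h1 : IsPrim c <;> by_cases h2 : IsPrim d <;> simp [h1, h2]

lemma norm_sk_le (c d : Eis) : ‖sk c d‖ ≤ 1 := by
  classical
  rw [sk_eq]
  split_ifs with h
  · exact norm_ps_le h c
  · simp

/-- `S(C,D)` -/
def Ssum (C D : ℝ) : ℂ := ∑' p : Eis × Eis, sk p.1 p.2 * ((ex C p.1 * ex D p.2 : ℝ) : ℂ)

lemma summable_S {C D : ℝ} (hC : 0 < C) (hD : 0 < D) :
    Summable fun p : Eis × Eis => sk p.1 p.2 * ((ex C p.1 * ex D p.2 : ℝ) : ℂ) := by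
  have h : Summable fun p : Eis × Eis => ex C p.1 * ex D p.2 :=
    (summable_ex hC).mul_of_nonneg (summable_ex hD) (fun c => (ex_pos C c).le)
      (fun c => (ex_pos D c).le)
  refine Summable.of_norm_bounded h (fun p => ?_)
  rw [norm_mul, Complex.norm_real, Real.norm_of_nonneg (by have := ex_pos C p.1; have := ex_pos D p.2; positivity)]
  have h1 := norm_sk_le p.1 p.2
  have h2 : 0 ≤ ex C p.1 * ex D p.2 := by have := ex_pos C p.1; have := ex_pos D p.2; positivity
  nlinarith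

theorem Ssum_comm (C D : ℝ) : Ssum C D = Ssum D C := by
  unfold Ssum
  rw [← (Equiv.prodComm Eis Eis).tsum_eq]
  refine tsum_congr fun p => ?_
  simp only [Equiv.prodComm_apply, Prod.fst_swap, Prod.snd_swap]
  rw [sk_comm, mul_comm (ex C p.2)]

/-- `4π²/27` -/
def be0 : ℝ := 4 * Real.pi ^ 2 / 27

lemma be0_pos : 0 < be0 := by unfold be0; have := Real.pi_pos; positivity

open Classical in
/-- the general term -/
def tt (C D : ℝ) (k d : Eis) : ℂ :=
  if IsPrim d then gs k d / (nm d : ℂ) *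
    ((Real.exp (-(nm d / D) - be0 * C * nm k / nm d) : ℝ) : ℂ) else 0

/-- `T_k(C,D)` -/
def Tk (C D : ℝ) (k : Eis) : ℂ := ∑' d : Eis, tt C D k d

lemma norm_gs_le {d : Eis} (hd : IsPrim d) (k : Eis) : ‖gs k d‖ ≤ nm d := by
  rw [Gauss880.gs_eq_gsum]
  exact Gauss880.norm_gsum_le hd.ne_zero (Gauss880.isCh_sy Gauss880.syG hd) k

lemma amgm {a b : ℝ} (ha : 0 ≤ a) (hb : 0 ≤ b) : 2 * Real.sqrt (a * b) ≤ a + b := by
  rw [Real.sqrt_mul ha]
  nlinarith [sq_nonneg (Real.sqrt a - Real.sqrt b), Real.sq_sqrt ha, Real.sq_sqrt hb]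

/-- the majorant in `k` -/
def mk (r : ℝ) (k : Eis) : ℝ := Real.exp (-(2 * Real.sqrt (r * nm k)))

lemma norm_tt_le {C D : ℝ} (hC : 0 < C) (hD : 0 < D) (k d : Eis) :
    ‖tt C D k d‖ ≤ ex (2 * D) d * mk (be0 * C / (2 * D)) k := by
  unfold tt
  split_ifs with hd
  · have hn : (0 : ℝ) < nm d := by exact_mod_cast nm_pos.2 hd.ne_zero
    rw [norm_mul, norm_div, Complex.norm_real, Real.norm_of_nonneg (Real.exp_pos _).le]
    have h1 : ‖gs k d‖ / ‖(nm d : ℂ)‖ ≤ 1 := by
      rw [Complex.norm_natCast, div_le_one hn]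
      exact norm_gs_le hd k
    have hb := be0_pos
    have h2 : 2 * Real.sqrt (be0 * C / (2 * D) * nm k) ≤ nm d / (2 * D) + be0 * C * nm k / nm d := by
      have h3 := amgm (a := nm d / (2 * D)) (b := be0 * C * nm k / nm d) (by positivity)
        (by positivity)
      have h4 : (nm d / (2 * D) : ℝ) * (be0 * C * nm k / nm d) = be0 * C / (2 * D) * nm k := by
        field_simp
      rwa [h4] at h3
    have h5 : Real.exp (-(nm d / D) - be0 * C * nm k / nm d) ≤
        ex (2 * D) d * mk (be0 * C / (2 * D)) k := by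
      unfold ex mk
      rw [← Real.exp_add]
      apply Real.exp_le_exp.mpr
      have h6 : (nm d / D : ℝ) = nm d / (2 * D) + nm d / (2 * D) := by field_simp; ring
      linarith
    calc ‖gs k d‖ / ‖(nm d : ℂ)‖ * Real.exp (-(nm d / D) - be0 * C * nm k / nm d)
        ≤ 1 * Real.exp (-(nm d / D) - be0 * C * nm k / nm d) :=
          mul_le_mul_of_nonneg_right h1 (Real.exp_pos _).le
      _ ≤ _ := by rw [one_mul]; exact h5
  · rw [norm_zero]
    unfold mk
    have := ex_pos (2 * D) d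
    positivity

lemma exp_neg_two_sqrt_le {x : ℝ} (hx : 0 ≤ x) : Real.exp (-(2 * Real.sqrt x)) ≤ 120 / (1 + x) ^ 2 := by
  have h1 : (2 * Real.sqrt x) ^ 4 / 24 ≤ Real.exp (2 * Real.sqrt x) := by
    have := Real.pow_div_factorial_le_exp (2 * Real.sqrt x) (by positivity) 4
    simpa [Nat.factorial] using this
  have h2 : 1 ≤ Real.exp (2 * Real.sqrt x) := by
    rw [Real.one_le_exp_iff]; positivity
  have h3 : (2 * Real.sqrt x) ^ 4 = 16 * x ^ 2 := by
    have := Real.sq_sqrt hx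
    have h4 : Real.sqrt x ^ 4 = x ^ 2 := by
      rw [show Real.sqrt x ^ 4 = (Real.sqrt x ^ 2) ^ 2 by ring, this]
    rw [mul_pow, h4]; norm_num
  rw [Real.exp_neg, le_div_iff₀ (by positivity), inv_mul_le_iff₀ (Real.exp_pos _)]
  rw [h3] at h1
  nlinarith [sq_nonneg (x - 1)]

lemma mk_le {r : ℝ} (hr : 0 < r) (k : Eis) : mk r k ≤ 120 / (1 + r * nm k) ^ 2 :=
  exp_neg_two_sqrt_le (by positivity)

lemma summable_mk {r : ℝ} (hr : 0 < r) : Summable (mk r) := by
  have h0 := (summable_eis (b := 4) (by norm_num)).mul_left (120 * 4 * (1 + 1 / r ^ 2))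
  refine Summable.of_nonneg_of_le (fun k => (Real.exp_pos _).le) (fun k => ?_) h0
  refine (mk_le hr k).trans ?_
  have hn : (0 : ℝ) ≤ nm k := by positivity
  have h1 : (0 : ℝ) < 1 + ‖toC k‖ := by positivity
  rw [Real.rpow_neg h1.le, ← div_eq_mul_inv, div_le_div_iff₀ (by positivity)
    (Real.rpow_pos_of_pos h1 4)]
  have h4 : (1 + ‖toC k‖) ^ (4 : ℝ) = (1 + ‖toC k‖) ^ 4 := by
    rw [← Real.rpow_natCast]; norm_num
  rw [h4]
  have h5 : ‖toC k‖ ^ 2 = nm k := norm_toC_sq k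
  have h6 : (1 + ‖toC k‖) ^ 2 ≤ 2 * (1 + nm k) := by nlinarith [sq_nonneg (‖toC k‖ - 1)]
  have h7 : (1 + ‖toC k‖) ^ 4 ≤ 4 * (1 + nm k) ^ 2 := by
    have : (1 + ‖toC k‖) ^ 4 = ((1 + ‖toC k‖) ^ 2) ^ 2 := by ring
    rw [this]
    have h8 := pow_le_pow_left₀ (by positivity) h6 2
    nlinarith
  have h9 : ((1 : ℝ) + nm k) ^ 2 ≤ (1 + 1 / r ^ 2) * (1 + r * nm k) ^ 2 := by
    have hr2 : 0 < r ^ 2 := by positivity
    have h10 : (2 : ℝ) * nm k ≤ 2 * r * nm k + 1 / r ^ 2 * (2 * r * nm k) := by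
      have e1 : 2 * r * nm k + 1 / r ^ 2 * (2 * r * nm k) - 2 * nm k =
          2 * nm k * ((r + 1 / r) - 1) := by
        field_simp
      have h11 : 1 ≤ r + 1 / r := by
        rw [← sub_nonneg]
        have : r + 1 / r - 1 = ((r - 1) ^ 2 + r) / r := by field_simp; ring
        rw [this]; positivity
      nlinarith
    have h12 : (1 + 1 / r ^ 2) * (1 + r * (nm k : ℝ)) ^ 2 =
        1 + (2 * r * nm k + 1 / r ^ 2 * (2 * r * nm k)) + r ^ 2 * nm k ^ 2 + 1 / r ^ 2 +
          nm k ^ 2 := by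
      field_simp
      ring
    rw [h12]
    have h13 : 0 ≤ r ^ 2 * (nm k : ℝ) ^ 2 := by positivity
    have h14 : 0 ≤ 1 / r ^ 2 := by positivity
    nlinarith
  nlinarith

lemma summable_tt {C D : ℝ} (hC : 0 < C) (hD : 0 < D) :
    Summable fun p : Eis × Eis => tt C D p.2 p.1 := by
  have hb := be0_pos
  have h : Summable fun p : Eis × Eis => ex (2 * D) p.1 * mk (be0 * C / (2 * D)) p.2 :=
    (summable_ex (by positivity)).mul_of_nonneg (summable_mk (by positivity))
      (fun c => (ex_pos _ c).le) (fun c => (Real.exp_pos _).le)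
  exact Summable.of_norm_bounded h (fun p => norm_tt_le hC hD p.2 p.1)

/-- inner Poisson step -/
lemma inner_poisson {C D : ℝ} (hC : 0 < C) (d : Eis) :
    HasSum (fun k => ((2 * Real.pi * C / (9 * Real.sqrt 3) : ℝ) : ℂ) * (eps k * tt C D k d))
      (∑' c : Eis, sk c d * ((ex C c * ex D d : ℝ) : ℂ)) := by
  classical
  by_cases hd : IsPrim d
  · have hn : (0 : ℝ) < nm d := by exact_mod_cast nm_pos.2 hd.ne_zero
    have hp := Real.pi_pos
    have h := (poisson_sy hd (t := 1 / (Real.pi * C)) (by positivity)).mul_right ((ex D d : ℝ) : ℂ)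
    have e1 : (∑' c : Eis, ps d c * gau (1 / (Real.pi * C)) (toC c)) * ((ex D d : ℝ) : ℂ) =
        ∑' c : Eis, sk c d * ((ex C c * ex D d : ℝ) : ℂ) := by
      rw [← tsum_mul_right]
      refine tsum_congr fun c => ?_
      rw [sk_eq, if_pos hd, ← ex_eq_gau hC]
      push_cast; ring
    rw [e1] at h
    refine h.congr_fun ?_ |> fun h => h
    intro k
    unfold tt
    rw [if_pos hd]
    have e2 : Real.exp (-(nm d / D) - be0 * C * nm k / nm d) =
        ex D d * Real.exp (-(Real.pi * (4 / (3 * (1 / (Real.pi * C) * (9 * nm d)))) * ‖toC k‖ ^ 2)) := by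
      unfold ex be0
      rw [← Real.exp_add, norm_toC_sq]
      congr 1
      field_simp
      ring
    rw [e2]
    unfold gau
    push_cast
    have hs : (Real.sqrt 3 : ℂ) ≠ 0 := by
      exact_mod_cast (Real.sqrt_pos.mpr (by norm_num : (0:ℝ) < 3)).ne'
    have hn' : (nm d : ℂ) ≠ 0 := by exact_mod_cast hn.ne'
    have hp' : (Real.pi : ℂ) ≠ 0 := by exact_mod_cast hp.ne'
    have hC' : (C : ℂ) ≠ 0 := by exact_mod_cast hC.ne'
    field_simp
  · have e1 : ∀ c, sk c d = 0 := fun c => by rw [sk_eq, if_neg hd]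
    have e2 : ∀ k, tt C D k d = 0 := fun k => by unfold tt; rw [if_neg hd]
    simp only [e1, e2, zero_mul, mul_zero, tsum_zero]
    exact hasSum_zero

/-- **The symmetric sum as a dual sum.** -/
theorem Ssum_eq {C D : ℝ} (hC : 0 < C) (hD : 0 < D) :
    Ssum C D = ((2 * Real.pi * C / (9 * Real.sqrt 3) : ℝ) : ℂ) * ∑' k : Eis, eps k * Tk C D k := by
  have h1 : Summable fun p : Eis × Eis => eps p.2 * tt C D p.2 p.1 := by
    refine Summable.of_norm_bounded (summable_tt hC hD).norm (fun p => ?_)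
    rw [norm_mul, norm_eps, one_mul]
  have h2 : Summable fun p : Eis × Eis => sk p.2 p.1 * ((ex C p.2 * ex D p.1 : ℝ) : ℂ) :=
    ((Equiv.prodComm Eis Eis).summable_iff
      (f := fun p : Eis × Eis => sk p.1 p.2 * ((ex C p.1 * ex D p.2 : ℝ) : ℂ))).mpr
      (summable_S hC hD)
  have e1 : Ssum C D = ∑' p : Eis × Eis, sk p.2 p.1 * ((ex C p.2 * ex D p.1 : ℝ) : ℂ) := by
    unfold Ssum
    rw [← (Equiv.prodComm Eis Eis).tsum_eq]
    rfl
  rw [e1, h2.tsum_prod]
  have e2 : ∀ d : Eis, ∑' c : Eis, sk c d * ((ex C c * ex D d : ℝ) : ℂ) =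
      ((2 * Real.pi * C / (9 * Real.sqrt 3) : ℝ) : ℂ) * ∑' k : Eis, eps k * tt C D k d := by
    intro d
    rw [← (inner_poisson hC d).tsum_eq, tsum_mul_left]
  simp only [e2]
  rw [tsum_mul_left]
  congr 1
  have h3 : Summable (Function.uncurry fun d k : Eis => eps k * tt C D k d) := h1
  rw [← h3.tsum_comm]
  refine tsum_congr fun k => ?_
  unfold Tk
  rw [tsum_mul_left]

end Crest.Agent.R012.Theta131
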