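import Crest.Agent.R012.Series_695

/-!
# Row 12 (M-U), part 6: tiling by the slab and complex scaling
-/

set_option autoImplicit false

noncomputable section

open MeasureTheory Complex
open scoped ENNReal

namespace Crest.Agent.R012.K695

open Eis

/-! ### Tiling -/

lemma ae_snd_ne : ∀ᵐ M : Frm ∂volume, M.2 ≠ 0 := by
  filter_upwards [ae_det_ne] with M hM
  exact snd_ne_zero_of_det hM

lemma act_nU_snd (b : Eis) (M : Frm) : (act (nU b) M).2 = M.2 := by
  rw [act_nU]

open Classical in
lemma tsum_slab_nU {q : Eis} (hq : q ≠ 0) {M : Frm} (h : M.2 ≠ 0) :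
    ∑' k : Eis, (Slab q).indicator (1 : Frm → ℝ≥0∞) (act (nU (q * k)) M) = 1 := by
  set b : Eis := ⟨-⌊cx (zc M / (3 * toC q))⌋, -⌊cy (zc M / (3 * toC q))⌋⟩ with hb
  rw [tsum_eq_single b]
  · rw [Set.indicator_of_mem ((slab_iff hq h b).mpr hb)]; rfl
  · intro k hk
    rw [Set.indicator_of_notMem]
    intro hmem
    exact hk ((slab_iff hq h k).mp hmem)

/-- The translates of the slab tile the space. -/
theorem lintegral_tile {q : Eis} (hq : q ≠ 0) {f : Frm → ℝ≥0∞} (hf : Measurable f) :
    ∑' k : Eis, ∫⁻ M in Slab q, f (act (nU (q * k)) M) = ∫⁻ M, f M := by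
  have h1 : ∀ k : Eis, ∫⁻ M in Slab q, f (act (nU (q * k)) M) =
      ∫⁻ M, (Slab q).indicator (1 : Frm → ℝ≥0∞) (act (nU (q * (-k))) M) * f M := by
    intro k
    rw [← lintegral_indicator (measurableSet_Slab q)]
    have h2 : (fun M => (Slab q).indicator (fun M => f (act (nU (q * k)) M)) M) =
        fun M => (fun M' => (Slab q).indicator (1 : Frm → ℝ≥0∞) (act (nU (q * (-k))) M') * f M')
          (act (nU (q * k)) M) := by
      funext M
      simp only
      have h3 : act (nU (q * (-k))) (act (nU (q * k)) M) = M := by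
        rw [← act_mul, nU_mul]
        have : q * -k + q * k = 0 := by ring
        rw [this, nU_zero, act_one]
      rw [h3]
      by_cases hM : M ∈ Slab q
      · rw [Set.indicator_of_mem hM, Set.indicator_of_mem hM]; simp
      · rw [Set.indicator_of_notMem hM, Set.indicator_of_notMem hM]; simp
    rw [h2]
    exact (mp_act (nU (q * k))).lintegral_comp
      (((measurable_one.indicator (measurableSet_Slab q)).comp (measurable_act _)).mul hf)
  have h4 : ∀ k : Eis, AEMeasurable (fun M =>
      (Slab q).indicator (1 : Frm → ℝ≥0∞) (act (nU (q * (-k))) M) * f M) volume := fun k =>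
    (((measurable_one.indicator (measurableSet_Slab q)).comp (measurable_act _)).mul
      hf).aemeasurable
  rw [tsum_congr h1, ← lintegral_tsum h4]
  apply lintegral_congr_ae
  filter_upwards [ae_snd_ne] with M hM
  rw [ENNReal.tsum_mul_right]
  have h5 : ∑' k : Eis, (Slab q).indicator (1 : Frm → ℝ≥0∞) (act (nU (q * (-k))) M) = 1 := by
    rw [← tsum_slab_nU hq hM, ← (Equiv.neg Eis).tsum_eq
      (fun k : Eis => (Slab q).indicator (1 : Frm → ℝ≥0∞) (act (nU (q * k)) M))]
    rfl
  rw [h5, one_mul]

theorem hasSum_tile {q : Eis} (hq : q ≠ 0) {f : Frm → ℂ} (hf : Integrable f) :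
    HasSum (fun k : Eis => ∫ M in Slab q, f (act (nU (q * k)) M)) (∫ M, f M) :=
  hasSum_of_lintegral (fun k : Eis => measurable_act (nU (q * k)))
    (fun _ hf => lintegral_tile hq hf) hf

/-! ### Complex scaling -/

lemma map_mul_volume {c : ℂ} (hc : c ≠ 0) :
    Measure.map (fun z : ℂ => c * z) (volume : Measure ℂ) =
      ENNReal.ofReal ((‖c‖ ^ 2)⁻¹) • (volume : Measure ℂ) := by
  have hdet : LinearMap.det (Algebra.lmul ℝ ℂ c) = ‖c‖ ^ 2 := by
    rw [← Algebra.norm_apply, Algebra.norm_complex_apply, Complex.normSq_eq_norm_sq]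
  have hn : ‖c‖ ^ 2 ≠ 0 := by positivity
  have h := Measure.map_linearMap_addHaar_eq_smul_addHaar (volume : Measure ℂ)
    (f := Algebra.lmul ℝ ℂ c) (by rw [hdet]; exact hn)
  rw [hdet, abs_of_nonneg (by positivity)] at h
  exact h

lemma map_smul_volume {c : ℂ} (hc : c ≠ 0) :
    Measure.map (fun u : Vec => c • u) (volume : Measure Vec) =
      ENNReal.ofReal ((‖c‖ ^ 4)⁻¹) • (volume : Measure Vec) := by
  have h1 : (fun u : Vec => c • u) = Prod.map (fun z : ℂ => c * z) (fun z : ℂ => c * z) := by
    funext u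
    simp [Prod.map, Prod.smul_def]
  have hm : Measurable (fun z : ℂ => c * z) := measurable_const_mul c
  have h2 : (volume : Measure Vec) = (volume : Measure ℂ).prod (volume : Measure ℂ) := rfl
  rw [h1, h2, ← Measure.map_prod_map _ _ hm hm, map_mul_volume hc, Measure.prod_smul_left,
    Measure.prod_smul_right, smul_smul, ← ENNReal.ofReal_mul (by positivity)]
  congr 2
  rw [← mul_inv, ← pow_add]

lemma map_scale_volume {c : ℂ} (hc : c ≠ 0) :
    Measure.map (fun M : Frm => (c • M.1, M.2)) (volume : Measure Frm) =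
      ENNReal.ofReal ((‖c‖ ^ 4)⁻¹) • (volume : Measure Frm) := by
  have h1 : (fun M : Frm => (c • M.1, M.2)) = Prod.map (fun u : Vec => c • u) id := by
    funext u
    simp [Prod.map]
  have hm : Measurable (fun u : Vec => c • u) := (continuous_const_smul c).measurable
  have h2 : (volume : Measure Frm) = (volume : Measure Vec).prod (volume : Measure Vec) := rfl
  rw [h1, h2, ← Measure.map_prod_map _ _ hm measurable_id, map_smul_volume hc, Measure.map_id,
    Measure.prod_smul_left]

/-- The substitution `(η, ζ) ↦ (c η + d ζ, ζ)`. -/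
theorem map_shear_scale {c : ℂ} (hc : c ≠ 0) (d : ℂ) :
    Measure.map (fun M : Frm => (c • M.1 + d • M.2, M.2)) (volume : Measure Frm) =
      ENNReal.ofReal ((‖c‖ ^ 4)⁻¹) • (volume : Measure Frm) := by
  have h1 : (fun M : Frm => (c • M.1 + d • M.2, M.2)) =
      (mact (E := Vec) 1 d 0 1) ∘ (fun M : Frm => (c • M.1, M.2)) := by
    funext M
    simp [mact]
  have hm : Measurable (fun M : Frm => (c • M.1, M.2)) := by
    have : Continuous (fun M : Frm => (c • M.1, M.2)) := by fun_prop
    exact this.measurable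
  have h2 : MeasurePreserving (mact (E := Vec) 1 d 0 1) (volume : Measure Frm) volume :=
    mp_upper (volume : Measure Vec) d
  rw [h1, ← Measure.map_map h2.measurable hm, map_scale_volume hc, Measure.map_smul, h2.map_eq]

lemma measurable_shear_scale (c d : ℂ) :
    Measurable (fun M : Frm => (c • M.1 + d • M.2, M.2)) := by
  have : Continuous (fun M : Frm => (c • M.1 + d • M.2, M.2)) := by fun_prop
  exact this.measurable

lemma lintegral_shear_scale {c : ℂ} (hc : c ≠ 0) (d : ℂ) {f : Frm → ℝ≥0∞} (hf : Measurable f) :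
    ∫⁻ M : Frm, f (c • M.1 + d • M.2, M.2) = ENNReal.ofReal ((‖c‖ ^ 4)⁻¹) * ∫⁻ M, f M := by
  rw [← lintegral_map (f := f) hf (measurable_shear_scale c d), map_shear_scale hc,
    lintegral_smul_measure, smul_eq_mul]

lemma integral_shear_scale {c : ℂ} (hc : c ≠ 0) (d : ℂ) {f : Frm → ℂ} (hf : Measurable f) :
    ∫ M : Frm, f (c • M.1 + d • M.2, M.2) = (((‖c‖ ^ 4)⁻¹ : ℝ) : ℂ) * ∫ M, f M := by
  have h := integral_map (μ := (volume : Measure Frm)) (measurable_shear_scale c d).aemeasurable
    (f := f) hf.aestronglyMeasurable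
  rw [← h, map_shear_scale hc, integral_smul_measure, ENNReal.toReal_ofReal (by positivity)]
  rfl

end Crest.Agent.R012.K695
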