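import Crest.Agent.R012.TypeI_941

/-!
# Row 12, item TI (part 2): inversion of the local recursion, pointwise bounds

If `E r P Y` satisfies the two local relations (`rel1`, `rel2`) then `E (∏P₁) (P₁ ∪ P₂) Y` is
bounded by a sum of `E h ∅ Y'` over squarefree `h`.
-/

set_option autoImplicit false
set_option linter.unusedSimpArgs false

noncomputable section

open Complex
open scoped ENNReal

namespace Crest.Agent.R012.TypeI941

open Crest.Agent.R012 Eis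

/-- One-prime iteration. -/
lemma iterate_bound {V F : ℝ → ℂ} {q : ℝ} (hq : 1 < q) {γ : ℂ} (hγ : ‖γ‖ ≤ q ^ ((1 : ℝ) / 2))
    (h : ∀ Y, 0 < Y → V Y = F Y + γ * V (Y / q ^ 3))
    {C : ℝ} (hC : ∀ Y, 0 < Y → Y ≤ 1 → ‖V Y‖ ≤ C * Y ^ ((5 : ℝ) / 6)) {Y : ℝ} (hY : 0 < Y) :
    ‖V Y‖ₑ ≤ ∑' j : ℕ, ENNReal.ofReal ((q ^ j) ^ ((1 : ℝ) / 2)) * ‖F (Y / (q ^ j) ^ 3)‖ₑ := by
  have hq0 : 0 < q := by linarith
  have key : ∀ n : ℕ, V Y = (∑ j ∈ Finset.range n, γ ^ j * F (Y / (q ^ j) ^ 3)) +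
      γ ^ n * V (Y / (q ^ n) ^ 3) := by
    intro n
    induction n with
    | zero => simp
    | succ n ih =>
      rw [ih, Finset.sum_range_succ, h (Y / (q ^ n) ^ 3) (by positivity)]
      have e : Y / (q ^ n) ^ 3 / q ^ 3 = Y / (q ^ (n + 1)) ^ 3 := by
        rw [div_div]; congr 1; ring
      rw [e]; ring
  have hγj : ∀ j : ℕ, ‖γ ^ j‖ ≤ (q ^ j) ^ ((1 : ℝ) / 2) := by
    intro j
    rw [norm_pow]
    calc ‖γ‖ ^ j ≤ (q ^ ((1 : ℝ) / 2)) ^ j := by gcongr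
      _ = (q ^ j) ^ ((1 : ℝ) / 2) := by
        rw [← Real.rpow_natCast, ← Real.rpow_mul hq0.le, ← Real.rpow_natCast q j,
          ← Real.rpow_mul hq0.le, mul_comm]
  -- the tail tends to zero
  have hn0 : ∃ n0 : ℕ, ∀ n, n0 ≤ n → Y / (q ^ n) ^ 3 ≤ 1 := by
    obtain ⟨n0, hn0⟩ := pow_unbounded_of_one_lt Y hq
    refine ⟨n0, fun n hn => ?_⟩
    rw [div_le_one (by positivity)]
    have h1 : 1 ≤ q ^ n := one_le_pow₀ hq.le
    calc Y ≤ q ^ n0 := hn0.le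
      _ ≤ q ^ n := pow_le_pow_right₀ hq.le hn
      _ = (q ^ n) ^ 1 := (pow_one _).symm
      _ ≤ (q ^ n) ^ 3 := pow_le_pow_right₀ h1 (by norm_num)
  obtain ⟨n0, hn0⟩ := hn0
  have hbound : ∀ n, n0 ≤ n → ‖γ ^ n * V (Y / (q ^ n) ^ 3)‖ ≤ (|C| * Y ^ ((5 : ℝ) / 6)) * (q⁻¹) ^ n := by
    intro n hn
    have hqn : 0 < q ^ n := by positivity
    rw [norm_mul]
    have h1 := hC (Y / (q ^ n) ^ 3) (by positivity) (hn0 n hn)
    have h2 : (Y / (q ^ n) ^ 3) ^ ((5 : ℝ) / 6) = Y ^ ((5 : ℝ) / 6) / (q ^ n) ^ ((5 : ℝ) / 2) := by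
      rw [Real.div_rpow hY.le (by positivity), ← Real.rpow_natCast (q ^ n) 3,
        ← Real.rpow_mul hqn.le]
      norm_num
    have h3 : (q ^ n) ^ ((1 : ℝ) / 2) / (q ^ n) ^ ((5 : ℝ) / 2) ≤ (q⁻¹) ^ n := by
      rw [← Real.rpow_sub hqn, inv_pow, ← Real.rpow_neg_one (q ^ n)]
      apply Real.rpow_le_rpow_of_exponent_le (one_le_pow₀ hq.le)
      norm_num
    calc ‖γ ^ n‖ * ‖V (Y / (q ^ n) ^ 3)‖
        ≤ (q ^ n) ^ ((1 : ℝ) / 2) * (|C| * (Y / (q ^ n) ^ 3) ^ ((5 : ℝ) / 6)) := by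
          apply mul_le_mul (hγj n) _ (norm_nonneg _) (by positivity)
          refine h1.trans ?_
          gcongr
          exact le_abs_self C
      _ = |C| * Y ^ ((5 : ℝ) / 6) * ((q ^ n) ^ ((1 : ℝ) / 2) / (q ^ n) ^ ((5 : ℝ) / 2)) := by
          rw [h2]; ring
      _ ≤ (|C| * Y ^ ((5 : ℝ) / 6)) * (q⁻¹) ^ n := by gcongr
  have htend : Filter.Tendsto (fun n => (|C| * Y ^ ((5 : ℝ) / 6)) * (q⁻¹) ^ n) Filter.atTop (nhds 0) := by
    have := tendsto_pow_atTop_nhds_zero_of_lt_one (inv_nonneg.mpr hq0.le) (inv_lt_one_of_one_lt₀ hq)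
    simpa using this.const_mul (|C| * Y ^ ((5 : ℝ) / 6))
  have htend2 : Filter.Tendsto (fun n => ENNReal.ofReal ((|C| * Y ^ ((5 : ℝ) / 6)) * (q⁻¹) ^ n))
      Filter.atTop (nhds 0) := by
    have := ENNReal.tendsto_ofReal htend
    simpa using this
  set S := ∑' j : ℕ, ENNReal.ofReal ((q ^ j) ^ ((1 : ℝ) / 2)) * ‖F (Y / (q ^ j) ^ 3)‖ₑ with hS
  have hle : ∀ n, n0 ≤ n → ‖V Y‖ₑ ≤ S + ENNReal.ofReal ((|C| * Y ^ ((5 : ℝ) / 6)) * (q⁻¹) ^ n) := by
    intro n hn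
    rw [key n]
    refine (enorm_add_le _ _).trans (add_le_add ?_ ?_)
    · refine (enorm_sum_le _ _).trans ?_
      refine le_trans (Finset.sum_le_sum fun j _ => ?_)
        (ENNReal.sum_le_tsum (Finset.range n))
      rw [enorm_mul]
      gcongr
      rw [← ofReal_norm]
      exact ENNReal.ofReal_le_ofReal (hγj j)
    · rw [← ofReal_norm]
      exact ENNReal.ofReal_le_ofReal (hbound n hn)
  have : Filter.Tendsto (fun n => S + ENNReal.ofReal ((|C| * Y ^ ((5 : ℝ) / 6)) * (q⁻¹) ^ n))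
      Filter.atTop (nhds (S + 0)) := htend2.const_add S
  rw [add_zero] at this
  exact ge_of_tendsto this (Filter.eventually_atTop.mpr ⟨n0, hle⟩)

/-- Primary elements all of whose primary prime divisors are in `P`. -/
def Gen (P : Finset Eis) : Set Eis := {m | IsPrim m ∧ ∀ q, PP q → q ∣ m → q ∈ P}

/-- `J P F Y = Σ_{m ∈ ⟨P⟩} N(m)^{1/2} F(Y/N(m)³)`. -/
def J (P : Finset Eis) (F : ℝ → ℝ≥0∞) (Y : ℝ) : ℝ≥0∞ :=
  ∑' m : Gen P, ENNReal.ofReal ((nm m.1 : ℝ) ^ ((1 : ℝ) / 2)) * F (Y / (nm m.1 : ℝ) ^ 3)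

lemma J_mono {P : Finset Eis} {F F' : ℝ → ℝ≥0∞} {Y : ℝ} (hY : 0 < Y)
    (h : ∀ Y, 0 < Y → F Y ≤ F' Y) : J P F Y ≤ J P F' Y := by
  refine ENNReal.tsum_le_tsum fun m => ?_
  have : (0 : ℝ) < nm m.1 := by exact_mod_cast nm_pos.mpr m.2.1.ne_zero
  gcongr
  exact h _ (by positivity)

lemma J_empty {F : ℝ → ℝ≥0∞} {Y : ℝ} : F Y ≤ J ∅ F Y := by
  have h1 : (1 : Eis) ∈ Gen ∅ := ⟨isPrim_one, fun q hq hd => absurd (isUnit_of_dvd_one hd) hq.prime.not_isUnit⟩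
  have := ENNReal.le_tsum (f := fun m : Gen ∅ =>
    ENNReal.ofReal ((nm m.1 : ℝ) ^ ((1 : ℝ) / 2)) * F (Y / (nm m.1 : ℝ) ^ 3)) ⟨1, h1⟩
  unfold J
  simpa using this

lemma J_sum {ι : Type*} {P : Finset Eis} (s : Finset ι) (F : ι → ℝ → ℝ≥0∞) (Y : ℝ) :
    J P (fun Y => ∑ i ∈ s, F i Y) Y = ∑ i ∈ s, J P (F i) Y := by
  unfold J
  simp only [Finset.mul_sum]
  exact Summable.tsum_finsetSum (fun i _ => ENNReal.summable)

lemma J_const_mul {P : Finset Eis} (c : ℝ≥0∞) (F : ℝ → ℝ≥0∞) (Y : ℝ) :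
    J P (fun Y => c * F Y) Y = c * J P F Y := by
  unfold J
  rw [← ENNReal.tsum_mul_left]
  exact tsum_congr fun m => by ring

lemma nm_pow_cast (p : Eis) (j : ℕ) : ((nm (p ^ j) : ℕ) : ℝ) = (nm p : ℝ) ^ j := by
  rw [nm_pow]; push_cast; rfl

/-- One-prime step for `J`. -/
lemma J_step {P : Finset Eis} [DecidableEq Eis] {p : Eis} (hp : PP p) (hpP : p ∉ P)
    (F : ℝ → ℝ≥0∞) (Y : ℝ) :
    ∑' j : ℕ, ENNReal.ofReal (((nm p : ℝ) ^ j) ^ ((1 : ℝ) / 2)) * J P F (Y / ((nm p : ℝ) ^ j) ^ 3)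
      ≤ J (insert p P) F Y := by
  have hmem : ∀ (j : ℕ) (m : Gen P), p ^ j * m.1 ∈ Gen (insert p P) := by
    intro j m
    refine ⟨(hp.isPrim.pow j).mul m.2.1, fun q hq hd => ?_⟩
    rcases hq.prime.dvd_or_dvd hd with h | h
    · have := hq.prime.dvd_of_dvd_pow h
      have e : q = p := hq.isPrim.eq_of_associated hp.isPrim (hq.prime.associated_of_dvd hp.prime this)
      simp [e]
    · exact Finset.mem_insert_of_mem (m.2.2 q hq h)
  have hnd : ∀ m : Gen P, ¬ p ∣ m.1 := fun m h => hpP (m.2.2 p hp h)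
  have hinj : Function.Injective (fun x : ℕ × Gen P =>
      (⟨p ^ x.1 * x.2.1, hmem x.1 x.2⟩ : Gen (insert p P))) := by
    have aux : ∀ (j k : ℕ) (m m' : Gen P), j < k → p ^ j * m.1 = p ^ k * m'.1 → False := by
      intro j k m m' hjk h
      obtain ⟨d, rfl⟩ := Nat.exists_eq_add_of_lt hjk
      have h2 : p ^ j * m.1 = p ^ j * (p * (p ^ d * m'.1)) := by rw [h]; ring
      have h3 := mul_left_cancel₀ (pow_ne_zero j hp.prime.ne_zero) h2
      exact hnd m ⟨_, h3⟩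
    rintro ⟨j, m⟩ ⟨k, m'⟩ h
    simp only [Subtype.mk.injEq] at h
    have hjk : j = k := by
      rcases lt_trichotomy j k with h' | h' | h'
      · exact (aux j k m m' h' h).elim
      · exact h'
      · exact (aux k j m' m h' h.symm).elim
    subst hjk
    have := mul_left_cancel₀ (pow_ne_zero j hp.prime.ne_zero) h
    exact Prod.ext rfl (Subtype.ext this)
  have h1 : (∑' j : ℕ, ENNReal.ofReal (((nm p : ℝ) ^ j) ^ ((1 : ℝ) / 2)) *
      J P F (Y / ((nm p : ℝ) ^ j) ^ 3)) =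
      ∑' x : ℕ × Gen P, ENNReal.ofReal ((nm (p ^ x.1 * x.2.1) : ℝ) ^ ((1 : ℝ) / 2)) *
        F (Y / (nm (p ^ x.1 * x.2.1) : ℝ) ^ 3) := by
    rw [ENNReal.tsum_prod (f := fun (j : ℕ) (m : Gen P) =>
      ENNReal.ofReal ((nm (p ^ j * m.1) : ℝ) ^ ((1 : ℝ) / 2)) *
        F (Y / (nm (p ^ j * m.1) : ℝ) ^ 3))]
    refine tsum_congr fun j => ?_
    unfold J
    rw [← ENNReal.tsum_mul_left]
    refine tsum_congr fun m => ?_
    have e : ((nm (p ^ j * m.1) : ℕ) : ℝ) = (nm p : ℝ) ^ j * nm m.1 := by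
      rw [nm_mul, nm_pow]; push_cast; rfl
    rw [e, Real.mul_rpow (by positivity) (by positivity), ENNReal.ofReal_mul (by positivity),
      mul_assoc, mul_pow, div_div]
  rw [h1]
  unfold J
  exact ENNReal.tsum_comp_le_tsum_of_injective hinj
    (fun m : Gen (insert p P) => ENNReal.ofReal ((nm m.1 : ℝ) ^ ((1 : ℝ) / 2)) *
      F (Y / (nm m.1 : ℝ) ^ 3))

/-- A family satisfying the two local relations. -/
structure Rec (E : Eis → Finset Eis → ℝ → ℂ) [DecidableEq Eis] : Prop where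
  A : ∃ A B : Eis → Eis → ℂ, (∀ r p, PP p → ¬ p ∣ r → ‖A r p‖ ≤ 1) ∧
    (∀ r p, PP p → ¬ p ∣ r → ‖B r p‖ ≤ (nm p : ℝ) ^ ((1 : ℝ) / 2)) ∧
    (∀ (P : Finset Eis) (r p : Eis), (∀ q ∈ P, PP q) → PP p → p ∉ P → ¬ p ∣ r → ∀ Y : ℝ, 0 < Y →
      E r P Y = E r (insert p P) Y + A r p * E (r * p) (insert p P) (Y / nm p)) ∧
    (∀ (P : Finset Eis) (r p : Eis), (∀ q ∈ P, PP q) → PP p → p ∉ P → ¬ p ∣ r → ∀ Y : ℝ, 0 < Y →
      E (r * p) P Y = E (r * p) (insert p P) Y + B r p * E r (insert p P) (Y / (nm p : ℝ) ^ 2))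
  C : ∃ Γ : Eis → ℂ, (∀ p, PP p → ‖Γ p‖ ≤ (nm p : ℝ) ^ ((1 : ℝ) / 2)) ∧
    (∀ (P : Finset Eis) (r p : Eis), (∀ q ∈ P, PP q) → PP p → p ∉ P → ¬ p ∣ r → ∀ Y : ℝ, 0 < Y →
      E (r * p ^ 2) P Y = E (r * p ^ 2) (insert p P) Y +
        Γ p * E (r * p ^ 2) (insert p P) (Y / (nm p : ℝ) ^ 3))
  growth : ∀ (r : Eis) (P : Finset Eis), ∃ C : ℝ, ∀ Y, 0 < Y → Y ≤ 1 → ‖E r P Y‖ ≤ C * Y ^ ((5 : ℝ) / 6)

lemma PP.one_lt_nmR {p : Eis} (hp : PP p) : (1 : ℝ) < nm p := by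
  have h1 : nm p ≠ 1 := fun h => hp.prime.not_isUnit (isUnit_iff.mpr h)
  have h2 : 0 < nm p := nm_pos.mpr hp.prime.ne_zero
  exact_mod_cast (by omega : 1 < nm p)

variable [DecidableEq Eis] {E : Eis → Finset Eis → ℝ → ℂ}

/-- One prime, prime to `r`. -/
lemma Rec.step1 (hE : Rec E) {P : Finset Eis} (hP : ∀ q ∈ P, PP q) {p r : Eis} (hp : PP p)
    (hpP : p ∉ P) (hr : ¬ p ∣ r) {Y : ℝ} (hY : 0 < Y) :
    ‖E r (insert p P) Y‖ₑ ≤ ∑' j : ℕ, ENNReal.ofReal (((nm p : ℝ) ^ j) ^ ((1 : ℝ) / 2)) *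
      (‖E r P (Y / ((nm p : ℝ) ^ j) ^ 3)‖ₑ + ‖E (r * p) P (Y / ((nm p : ℝ) ^ j) ^ 3 / nm p)‖ₑ) := by
  obtain ⟨A, B, hA, hB, h1, h2⟩ := hE.A
  obtain ⟨C, hC⟩ := hE.growth r (insert p P)
  have hq := hp.one_lt_nmR
  have hq0 : (0 : ℝ) < nm p := by linarith
  have hγ : ‖A r p * B r p‖ ≤ (nm p : ℝ) ^ ((1 : ℝ) / 2) := by
    rw [norm_mul]
    calc ‖A r p‖ * ‖B r p‖ ≤ 1 * (nm p : ℝ) ^ ((1 : ℝ) / 2) := by
          gcongr
          · exact hA r p hp hr
          · exact hB r p hp hr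
      _ = _ := one_mul _
  have hrec : ∀ Y, 0 < Y → E r (insert p P) Y =
      (E r P Y - A r p * E (r * p) P (Y / nm p)) + (A r p * B r p) *
        E r (insert p P) (Y / (nm p : ℝ) ^ 3) := by
    intro Y hY
    have e1 := h1 P r p hP hp hpP hr Y hY
    have e2 := h2 P r p hP hp hpP hr (Y / nm p) (by positivity)
    have e3 : Y / (nm p : ℝ) / (nm p : ℝ) ^ 2 = Y / (nm p : ℝ) ^ 3 := by rw [div_div]; congr 1; ring
    rw [e3] at e2
    rw [e1, e2]; ring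
  refine (iterate_bound hq hγ hrec hC hY).trans ?_
  refine ENNReal.tsum_le_tsum fun j => ?_
  gcongr
  refine (enorm_sub_le).trans ?_
  gcongr
  rw [enorm_mul]
  calc ‖A r p‖ₑ * _ ≤ 1 * _ := by
        gcongr
        rw [← ofReal_norm, ← ENNReal.ofReal_one]
        exact ENNReal.ofReal_le_ofReal (hA r p hp hr)
    _ = _ := one_mul _

/-- One prime, dividing the numerator once. -/
lemma Rec.step2 (hE : Rec E) {P : Finset Eis} (hP : ∀ q ∈ P, PP q) {p r : Eis} (hp : PP p)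
    (hpP : p ∉ P) (hr : ¬ p ∣ r) {Y : ℝ} (hY : 0 < Y) :
    ‖E (r * p) (insert p P) Y‖ₑ ≤ ∑' j : ℕ, ENNReal.ofReal (((nm p : ℝ) ^ j) ^ ((1 : ℝ) / 2)) *
      (‖E (r * p) P (Y / ((nm p : ℝ) ^ j) ^ 3)‖ₑ + ENNReal.ofReal ((nm p : ℝ) ^ ((1 : ℝ) / 2)) *
        ‖E r P (Y / ((nm p : ℝ) ^ j) ^ 3 / (nm p : ℝ) ^ 2)‖ₑ) := by
  obtain ⟨A, B, hA, hB, h1, h2⟩ := hE.A
  obtain ⟨C, hC⟩ := hE.growth (r * p) (insert p P)
  have hq := hp.one_lt_nmR
  have hq0 : (0 : ℝ) < nm p := by linarith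
  have hγ : ‖A r p * B r p‖ ≤ (nm p : ℝ) ^ ((1 : ℝ) / 2) := by
    rw [norm_mul]
    calc ‖A r p‖ * ‖B r p‖ ≤ 1 * (nm p : ℝ) ^ ((1 : ℝ) / 2) := by
          gcongr
          · exact hA r p hp hr
          · exact hB r p hp hr
      _ = _ := one_mul _
  have hrec : ∀ Y, 0 < Y → E (r * p) (insert p P) Y =
      (E (r * p) P Y - B r p * E r P (Y / (nm p : ℝ) ^ 2)) + (A r p * B r p) *
        E (r * p) (insert p P) (Y / (nm p : ℝ) ^ 3) := by
    intro Y hY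
    have e1 := h2 P r p hP hp hpP hr Y hY
    have e2 := h1 P r p hP hp hpP hr (Y / (nm p : ℝ) ^ 2) (by positivity)
    have e3 : Y / (nm p : ℝ) ^ 2 / (nm p : ℝ) = Y / (nm p : ℝ) ^ 3 := by rw [div_div]; congr 1
    rw [e3] at e2
    rw [e1, e2]; ring
  refine (iterate_bound hq hγ hrec hC hY).trans ?_
  refine ENNReal.tsum_le_tsum fun j => ?_
  gcongr
  refine (enorm_sub_le).trans ?_
  gcongr
  rw [enorm_mul]
  gcongr
  rw [← ofReal_norm]
  exact ENNReal.ofReal_le_ofReal (hB r p hp hr)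

/-- One prime, dividing the numerator exactly twice. -/
lemma Rec.step3 (hE : Rec E) {P : Finset Eis} (hP : ∀ q ∈ P, PP q) {p r : Eis} (hp : PP p)
    (hpP : p ∉ P) (hr : ¬ p ∣ r) {Y : ℝ} (hY : 0 < Y) :
    ‖E (r * p ^ 2) (insert p P) Y‖ₑ ≤ ∑' j : ℕ, ENNReal.ofReal (((nm p : ℝ) ^ j) ^ ((1 : ℝ) / 2)) *
      ‖E (r * p ^ 2) P (Y / ((nm p : ℝ) ^ j) ^ 3)‖ₑ := by
  obtain ⟨Γ, hΓ, h3⟩ := hE.C
  obtain ⟨C, hC⟩ := hE.growth (r * p ^ 2) (insert p P)
  have hrec : ∀ Y, 0 < Y → E (r * p ^ 2) (insert p P) Y =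
      E (r * p ^ 2) P Y + (-Γ p) * E (r * p ^ 2) (insert p P) (Y / (nm p : ℝ) ^ 3) := by
    intro Y hY
    rw [h3 P r p hP hp hpP hr Y hY]; ring
  exact iterate_bound hp.one_lt_nmR (by rw [norm_neg]; exact hΓ p hp) hrec hC hY

omit [DecidableEq Eis] in
lemma PP.not_dvd_mul_prod {p r : Eis} (hp : PP p) (hr : ¬ p ∣ r) {T : Finset Eis}
    (hT : ∀ q ∈ T, PP q) (hpT : p ∉ T) : ¬ p ∣ r * ∏ q ∈ T, q := by
  intro h
  rcases hp.prime.dvd_or_dvd h with h | h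
  · exact hr h
  · obtain ⟨q, hq, hd⟩ := (Prime.dvd_finsetProd_iff hp.prime _).mp h
    have : p = q := hp.isPrim.eq_of_associated (hT q hq).isPrim (hp.prime.associated_of_dvd (hT q hq).prime hd)
    exact hpT (this ▸ hq)

omit [DecidableEq Eis] in
lemma nm_prod_pos {T : Finset Eis} (hT : ∀ q ∈ T, PP q) : (0 : ℝ) < nm (∏ q ∈ T, q) := by
  have : (∏ q ∈ T, q) ≠ 0 := Finset.prod_ne_zero_iff.mpr fun q hq => (hT q hq).prime.ne_zero
  exact_mod_cast nm_pos.mpr this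

/-- Removing a set of primes, all prime to the numerator. -/
lemma Rec.A1 (hE : Rec E) (P0 : Finset Eis) (hP0 : ∀ q ∈ P0, PP q) (P : Finset Eis) :
    (∀ q ∈ P, PP q) → Disjoint P P0 → ∀ r : Eis, (∀ q ∈ P, ¬ q ∣ r) → ∀ Y : ℝ, 0 < Y →
    ‖E r (P ∪ P0) Y‖ₑ ≤ ∑ T ∈ P.powerset,
      J P (fun Y' => ‖E (r * ∏ q ∈ T, q) P0 Y'‖ₑ) (Y / nm (∏ q ∈ T, q)) := by
  induction P using Finset.induction_on with
  | empty =>
    intro _ _ r _ Y hY
    have := J_empty (F := fun Y' => ‖E r P0 Y'‖ₑ) (Y := Y)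
    simpa using this
  | insert p P hpP ih =>
    intro hPP hdis r hr Y hY
    have hp : PP p := hPP p (Finset.mem_insert_self p P)
    have hP : ∀ q ∈ P, PP q := fun q hq => hPP q (Finset.mem_insert_of_mem hq)
    have hpP0 : p ∉ P0 := Finset.disjoint_left.mp hdis (Finset.mem_insert_self p P)
    have hdis' : Disjoint P P0 := Finset.disjoint_of_subset_left (Finset.subset_insert p P) hdis
    have hrP : ∀ q ∈ P, ¬ q ∣ r := fun q hq => hr q (Finset.mem_insert_of_mem hq)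
    have hrp : ¬ p ∣ r := hr p (Finset.mem_insert_self p P)
    have hrpP : ∀ q ∈ P, ¬ q ∣ r * p := by
      intro q hq h
      rcases (hP q hq).prime.dvd_or_dvd h with h | h
      · exact hrP q hq h
      · have : q = p := (hP q hq).isPrim.eq_of_associated hp.isPrim ((hP q hq).prime.associated_of_dvd hp.prime h)
        exact hpP (this ▸ hq)
    have hPu : ∀ q ∈ P ∪ P0, PP q := fun q hq => by
      rcases Finset.mem_union.mp hq with h | h
      · exact hP q h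
      · exact hP0 q h
    have hpu : p ∉ P ∪ P0 := by simp [hpP, hpP0]
    have hq0 : (0 : ℝ) < nm p := by linarith [hp.one_lt_nmR]
    rw [Finset.insert_union]
    refine (hE.step1 hPu hp hpu hrp hY).trans ?_
    have hb : ∀ j : ℕ, ENNReal.ofReal (((nm p : ℝ) ^ j) ^ ((1 : ℝ) / 2)) *
        (‖E r (P ∪ P0) (Y / ((nm p : ℝ) ^ j) ^ 3)‖ₑ +
          ‖E (r * p) (P ∪ P0) (Y / ((nm p : ℝ) ^ j) ^ 3 / nm p)‖ₑ) ≤
        ∑ T ∈ P.powerset, ((ENNReal.ofReal (((nm p : ℝ) ^ j) ^ ((1 : ℝ) / 2)) *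
          J P (fun Y' => ‖E (r * ∏ q ∈ T, q) P0 Y'‖ₑ)
            ((Y / nm (∏ q ∈ T, q)) / ((nm p : ℝ) ^ j) ^ 3)) +
          (ENNReal.ofReal (((nm p : ℝ) ^ j) ^ ((1 : ℝ) / 2)) *
          J P (fun Y' => ‖E (r * ∏ q ∈ insert p T, q) P0 Y'‖ₑ)
            ((Y / nm (∏ q ∈ insert p T, q)) / ((nm p : ℝ) ^ j) ^ 3))) := by
      intro j
      rw [Finset.sum_add_distrib, ← Finset.mul_sum, ← Finset.mul_sum, ← mul_add]
      gcongr
      · refine (ih hP hdis' r hrP _ (by positivity)).trans (le_of_eq ?_)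
        refine Finset.sum_congr rfl fun T _ => ?_
        congr 1
        rw [div_right_comm]
      · refine (ih hP hdis' (r * p) hrpP _ (by positivity)).trans (le_of_eq ?_)
        refine Finset.sum_congr rfl fun T hT => ?_
        have hpT : p ∉ T := fun h => hpP (Finset.mem_powerset.mp hT h)
        rw [Finset.prod_insert hpT, nm_mul]
        push_cast
        have e1 : r * p * ∏ q ∈ T, q = r * (p * ∏ q ∈ T, q) := by ring
        rw [e1]
        congr 1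
        field_simp
    refine (ENNReal.tsum_le_tsum hb).trans ?_
    rw [Summable.tsum_finsetSum (fun i _ => ENNReal.summable), Finset.sum_powerset_insert hpP,
      ← Finset.sum_add_distrib]
    refine Finset.sum_le_sum fun T _ => ?_
    rw [ENNReal.tsum_add]
    exact add_le_add (J_step hp hpP _ _) (J_step hp hpP _ _)

/-- Removing a set of primes, all dividing the numerator exactly once. -/
lemma Rec.A2 (hE : Rec E) (P0 : Finset Eis) (hP0 : ∀ q ∈ P0, PP q) (P : Finset Eis) :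
    (∀ q ∈ P, PP q) → Disjoint P P0 → ∀ r : Eis, (∀ q ∈ P, ¬ q ∣ r) → ∀ Y : ℝ, 0 < Y →
    ‖E (r * ∏ q ∈ P, q) (P ∪ P0) Y‖ₑ ≤ ∑ T ∈ P.powerset,
      ENNReal.ofReal ((nm (∏ q ∈ T, q) : ℝ) ^ ((1 : ℝ) / 2)) *
      J P (fun Y' => ‖E (r * ∏ q ∈ P \ T, q) P0 Y'‖ₑ) (Y / (nm (∏ q ∈ T, q) : ℝ) ^ 2) := by
  induction P using Finset.induction_on with
  | empty =>
    intro _ _ r _ Y hY
    have := J_empty (F := fun Y' => ‖E r P0 Y'‖ₑ) (Y := Y)
    simpa using this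
  | insert p P hpP ih =>
    intro hPP hdis r hr Y hY
    have hp : PP p := hPP p (Finset.mem_insert_self p P)
    have hP : ∀ q ∈ P, PP q := fun q hq => hPP q (Finset.mem_insert_of_mem hq)
    have hpP0 : p ∉ P0 := Finset.disjoint_left.mp hdis (Finset.mem_insert_self p P)
    have hdis' : Disjoint P P0 := Finset.disjoint_of_subset_left (Finset.subset_insert p P) hdis
    have hrP : ∀ q ∈ P, ¬ q ∣ r := fun q hq => hr q (Finset.mem_insert_of_mem hq)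
    have hrp : ¬ p ∣ r := hr p (Finset.mem_insert_self p P)
    have hrpP : ∀ q ∈ P, ¬ q ∣ r * p := by
      intro q hq h
      rcases (hP q hq).prime.dvd_or_dvd h with h | h
      · exact hrP q hq h
      · have : q = p := (hP q hq).isPrim.eq_of_associated hp.isPrim ((hP q hq).prime.associated_of_dvd hp.prime h)
        exact hpP (this ▸ hq)
    have hPu : ∀ q ∈ P ∪ P0, PP q := fun q hq => by
      rcases Finset.mem_union.mp hq with h | h
      · exact hP q h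
      · exact hP0 q h
    have hpu : p ∉ P ∪ P0 := by simp [hpP, hpP0]
    have hq0 : (0 : ℝ) < nm p := by linarith [hp.one_lt_nmR]
    have hrprod : ¬ p ∣ r * ∏ q ∈ P, q := hp.not_dvd_mul_prod hrp hP hpP
    rw [Finset.insert_union, Finset.prod_insert hpP]
    have e0 : r * (p * ∏ q ∈ P, q) = (r * ∏ q ∈ P, q) * p := by ring
    rw [e0]
    refine (hE.step2 hPu hp hpu hrprod hY).trans ?_
    have hb : ∀ j : ℕ, ENNReal.ofReal (((nm p : ℝ) ^ j) ^ ((1 : ℝ) / 2)) *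
        (‖E (r * (∏ q ∈ P, q) * p) (P ∪ P0) (Y / ((nm p : ℝ) ^ j) ^ 3)‖ₑ +
          ENNReal.ofReal ((nm p : ℝ) ^ ((1 : ℝ) / 2)) *
          ‖E (r * ∏ q ∈ P, q) (P ∪ P0) (Y / ((nm p : ℝ) ^ j) ^ 3 / (nm p : ℝ) ^ 2)‖ₑ) ≤
        ∑ T ∈ P.powerset, ((ENNReal.ofReal (((nm p : ℝ) ^ j) ^ ((1 : ℝ) / 2)) *
          J P (fun Y' => ENNReal.ofReal ((nm (∏ q ∈ T, q) : ℝ) ^ ((1 : ℝ) / 2)) *
            ‖E (r * ∏ q ∈ insert p P \ T, q) P0 Y'‖ₑ)
            ((Y / (nm (∏ q ∈ T, q) : ℝ) ^ 2) / ((nm p : ℝ) ^ j) ^ 3)) +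
          (ENNReal.ofReal (((nm p : ℝ) ^ j) ^ ((1 : ℝ) / 2)) *
          J P (fun Y' => ENNReal.ofReal ((nm (∏ q ∈ insert p T, q) : ℝ) ^ ((1 : ℝ) / 2)) *
            ‖E (r * ∏ q ∈ insert p P \ insert p T, q) P0 Y'‖ₑ)
            ((Y / (nm (∏ q ∈ insert p T, q) : ℝ) ^ 2) / ((nm p : ℝ) ^ j) ^ 3))) := by
      intro j
      rw [Finset.sum_add_distrib, ← Finset.mul_sum, ← Finset.mul_sum, ← mul_add]
      gcongr
      · have := ih hP hdis' (r * p) hrpP (Y / ((nm p : ℝ) ^ j) ^ 3) (by positivity)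
        have e1 : r * (∏ q ∈ P, q) * p = r * p * ∏ q ∈ P, q := by ring
        rw [e1]
        refine this.trans (le_of_eq ?_)
        refine Finset.sum_congr rfl fun T hT => ?_
        have hpT : p ∉ T := fun h => hpP (Finset.mem_powerset.mp hT h)
        rw [J_const_mul, Finset.insert_sdiff_of_notMem _ hpT,
          Finset.prod_insert (fun h => hpP (Finset.mem_sdiff.mp h).1), div_right_comm]
        have e2 : r * p * ∏ q ∈ P \ T, q = r * (p * ∏ q ∈ P \ T, q) := by ring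
        rw [e2]
      · have := ih hP hdis' r hrP (Y / ((nm p : ℝ) ^ j) ^ 3 / (nm p : ℝ) ^ 2) (by positivity)
        refine (mul_le_mul_right this _).trans (le_of_eq ?_)
        rw [Finset.mul_sum]
        refine Finset.sum_congr rfl fun T hT => ?_
        have hpT : p ∉ T := fun h => hpP (Finset.mem_powerset.mp hT h)
        rw [J_const_mul, Finset.prod_insert hpT, nm_mul]
        have e3 : insert p P \ insert p T = P \ T := by
          ext x; simp only [Finset.mem_sdiff, Finset.mem_insert]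
          constructor
          · rintro ⟨h1 | h1, h2⟩
            · exact absurd (Or.inl h1) h2
            · exact ⟨h1, fun h => h2 (Or.inr h)⟩
          · rintro ⟨h1, h2⟩
            refine ⟨Or.inr h1, ?_⟩
            rintro (h | h)
            · exact hpP (h ▸ h1)
            · exact h2 h
        rw [e3]
        push_cast
        rw [Real.mul_rpow (by positivity) (by positivity), ENNReal.ofReal_mul (by positivity),
          mul_assoc]
        congr 3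
        field_simp
    refine (ENNReal.tsum_le_tsum hb).trans ?_
    rw [Summable.tsum_finsetSum (fun i _ => ENNReal.summable), Finset.sum_powerset_insert hpP,
      ← Finset.sum_add_distrib]
    refine Finset.sum_le_sum fun T _ => ?_
    rw [ENNReal.tsum_add, ← J_const_mul, ← J_const_mul]
    exact add_le_add (J_step hp hpP _ _) (J_step hp hpP _ _)

/-- Removing a set of primes, all dividing the numerator exactly twice. -/
lemma Rec.A3 (hE : Rec E) (P0 : Finset Eis) (hP0 : ∀ q ∈ P0, PP q) (P : Finset Eis) :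
    (∀ q ∈ P, PP q) → Disjoint P P0 → ∀ r : Eis, (∀ q ∈ P, ¬ q ∣ r) → ∀ Y : ℝ, 0 < Y →
    ‖E (r * (∏ q ∈ P, q) ^ 2) (P ∪ P0) Y‖ₑ ≤
      J P (fun Y' => ‖E (r * (∏ q ∈ P, q) ^ 2) P0 Y'‖ₑ) Y := by
  induction P using Finset.induction_on with
  | empty =>
    intro _ _ r _ Y hY
    have := J_empty (F := fun Y' => ‖E r P0 Y'‖ₑ) (Y := Y)
    simpa using this
  | insert p P hpP ih =>
    intro hPP hdis r hr Y hY
    have hp : PP p := hPP p (Finset.mem_insert_self p P)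
    have hP : ∀ q ∈ P, PP q := fun q hq => hPP q (Finset.mem_insert_of_mem hq)
    have hpP0 : p ∉ P0 := Finset.disjoint_left.mp hdis (Finset.mem_insert_self p P)
    have hdis' : Disjoint P P0 := Finset.disjoint_of_subset_left (Finset.subset_insert p P) hdis
    have hrP : ∀ q ∈ P, ¬ q ∣ r := fun q hq => hr q (Finset.mem_insert_of_mem hq)
    have hrp : ¬ p ∣ r := hr p (Finset.mem_insert_self p P)
    have hrpP : ∀ q ∈ P, ¬ q ∣ r * p ^ 2 := by
      intro q hq h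
      rcases (hP q hq).prime.dvd_or_dvd h with h | h
      · exact hrP q hq h
      · have h' := (hP q hq).prime.dvd_of_dvd_pow h
        have : q = p := (hP q hq).isPrim.eq_of_associated hp.isPrim
          ((hP q hq).prime.associated_of_dvd hp.prime h')
        exact hpP (this ▸ hq)
    have hPu : ∀ q ∈ P ∪ P0, PP q := fun q hq => by
      rcases Finset.mem_union.mp hq with h | h
      · exact hP q h
      · exact hP0 q h
    have hpu : p ∉ P ∪ P0 := by simp [hpP, hpP0]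
    have hq0 : (0 : ℝ) < nm p := by linarith [hp.one_lt_nmR]
    have hrprod : ¬ p ∣ r * (∏ q ∈ P, q) ^ 2 := by
      intro h
      rcases hp.prime.dvd_or_dvd h with h | h
      · exact hrp h
      · have h' := hp.prime.dvd_of_dvd_pow h
        obtain ⟨q, hq, hd⟩ := (Prime.dvd_finsetProd_iff hp.prime _).mp h'
        have : p = q := hp.isPrim.eq_of_associated (hP q hq).isPrim
          (hp.prime.associated_of_dvd (hP q hq).prime hd)
        exact hpP (this ▸ hq)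
    rw [Finset.insert_union, Finset.prod_insert hpP]
    have e0 : r * (p * ∏ q ∈ P, q) ^ 2 = (r * (∏ q ∈ P, q) ^ 2) * p ^ 2 := by ring
    rw [e0]
    refine (hE.step3 hPu hp hpu hrprod hY).trans ?_
    have e1 : (r * (∏ q ∈ P, q) ^ 2) * p ^ 2 = (r * p ^ 2) * (∏ q ∈ P, q) ^ 2 := by ring
    rw [e1]
    refine (ENNReal.tsum_le_tsum fun j => mul_le_mul_right
      (ih hP hdis' (r * p ^ 2) hrpP _ (by positivity)) _).trans ?_
    exact J_step hp hpP _ _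

end Crest.Agent.R012.TypeI941
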