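import Crest.Agent.R012.TypeI2_941
import Crest.Agent.R012.PoissonG_381
import Crest.Agent.R012.LS2Spec_381

/-!
# Row 12, item TI (part 3): the mean square over squarefree moduli

Main result: `Rec.meanSq`.
-/

set_option autoImplicit false

noncomputable section

open Complex
open scoped ENNReal

namespace Crest.Agent.R012.TypeI941

open Crest.Agent.R012 Eis LS2 Mob705

/-- Primary elements as a type. -/
abbrev Prm : Type := {m : Eis // IsPrim m}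

/-- `Z ε = Σ_m N(m)^{-(1+ε)}` over primary `m`. -/
def Z (ε : ℝ) : ℝ≥0∞ := ∑' m : Prm, ENNReal.ofReal ((nm m.1 : ℝ) ^ (-(1 + ε)))

lemma Prm.one_le (m : Prm) : (1 : ℝ) ≤ nm m.1 := by
  exact_mod_cast nm_pos.mpr m.2.ne_zero

lemma Prm.pos (m : Prm) : (0 : ℝ) < nm m.1 := by linarith [m.one_le]

lemma Z_lt_top {ε : ℝ} (hε : 0 < ε) : Z ε < ⊤ := by
  have h1 : Summable fun h : Eis => (1 + ‖toC h‖) ^ (-(2 + 2 * ε)) :=
    Poisson381.summable_eis (by linarith)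
  have h2 : Summable fun m : Prm => (2 : ℝ) ^ (2 + 2 * ε) * (1 + ‖toC m.1‖) ^ (-(2 + 2 * ε)) :=
    (h1.subtype _).mul_left _
  have h3 : ∀ m : Prm, (nm m.1 : ℝ) ^ (-(1 + ε)) ≤
      (2 : ℝ) ^ (2 + 2 * ε) * (1 + ‖toC m.1‖) ^ (-(2 + 2 * ε)) := by
    intro m
    have hm := m.one_le
    have hs : ‖toC m.1‖ = Real.sqrt (nm m.1) := norm_toC _
    have h1s : 1 ≤ ‖toC m.1‖ := by rw [hs]; exact Real.one_le_sqrt.mpr hm
    have e1 : (nm m.1 : ℝ) ^ (-(1 + ε)) = ‖toC m.1‖ ^ (-(2 + 2 * ε)) := by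
      rw [← norm_toC_sq, ← Real.rpow_natCast, ← Real.rpow_mul (norm_nonneg _)]
      congr 1; push_cast; ring
    rw [e1]
    have h0 : 0 < ‖toC m.1‖ := by linarith
    rw [Real.rpow_neg h0.le, Real.rpow_neg (by positivity), ← div_eq_mul_inv,
      le_div_iff₀ (by positivity), inv_mul_le_iff₀ (by positivity), mul_comm,
      ← Real.mul_rpow (by norm_num) (by positivity)]
    apply Real.rpow_le_rpow (by positivity) _ (by linarith)
    linarith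
  have h4 : Summable fun m : Prm => (nm m.1 : ℝ) ^ (-(1 + ε)) :=
    Summable.of_nonneg_of_le (fun m => by positivity) h3 h2
  unfold Z
  rw [← ENNReal.ofReal_tsum_of_nonneg (fun m => by positivity) h4]
  exact ENNReal.ofReal_lt_top

/-- Sum over all primary `m`. -/
def Ja (F : ℝ → ℝ≥0∞) (Y : ℝ) : ℝ≥0∞ :=
  ∑' m : Prm, ENNReal.ofReal ((nm m.1 : ℝ) ^ ((1 : ℝ) / 2)) * F (Y / (nm m.1 : ℝ) ^ 3)

lemma J_le_Ja (P : Finset Eis) (F : ℝ → ℝ≥0∞) (Y : ℝ) : J P F Y ≤ Ja F Y := by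
  have hinj : Function.Injective (fun m : Gen P => (⟨m.1, m.2.1⟩ : Prm)) := by
    intro a b h
    simp only [Subtype.mk.injEq] at h
    exact Subtype.ext h
  exact ENNReal.tsum_comp_le_tsum_of_injective hinj
    (fun m : Prm => ENNReal.ofReal ((nm m.1 : ℝ) ^ ((1 : ℝ) / 2)) * F (Y / (nm m.1 : ℝ) ^ 3))

lemma Ja_mono {F F' : ℝ → ℝ≥0∞} {Y : ℝ} (hY : 0 < Y)
    (h : ∀ Y, 0 < Y → F Y ≤ F' Y) : Ja F Y ≤ Ja F' Y := by
  refine ENNReal.tsum_le_tsum fun m => ?_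
  have := m.pos
  gcongr
  exact h _ (by positivity)

lemma Ja_sum {ι : Type*} (s : Finset ι) (F : ι → ℝ → ℝ≥0∞) (Y : ℝ) :
    Ja (fun Y => ∑ i ∈ s, F i Y) Y = ∑ i ∈ s, Ja (F i) Y := by
  unfold Ja
  simp only [Finset.mul_sum]
  exact Summable.tsum_finsetSum (fun i _ => ENNReal.summable)

lemma Ja_scale (c : ℝ) (F : ℝ → ℝ≥0∞) (Y : ℝ) :
    Ja (fun Y => F (Y / c)) Y = Ja F (Y / c) := by
  unfold Ja
  refine tsum_congr fun m => ?_
  congr 2
  rw [div_right_comm]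

/-- Cauchy–Schwarz for `tsum` in `ℝ≥0∞`. -/
lemma tsum_mul_sq_le {α : Type*} (f g : α → ℝ≥0∞) :
    (∑' a, f a * g a) ^ 2 ≤ (∑' a, f a ^ 2) * ∑' a, g a ^ 2 := by
  let _ : MeasurableSpace α := ⊤
  have h := ENNReal.lintegral_mul_le_Lp_mul_Lq (MeasureTheory.Measure.count (α := α))
    (p := 2) (q := 2) (by norm_num [Real.holderConjugate_iff]) (f := f) (g := g)
    (measurable_from_top.aemeasurable) (measurable_from_top.aemeasurable)
  simp only [MeasureTheory.lintegral_count, Pi.mul_apply] at h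
  have h2 := pow_le_pow_left' h 2
  rw [mul_pow, ← ENNReal.rpow_natCast (_ ^ ((1 : ℝ) / 2)), ← ENNReal.rpow_natCast (_ ^ ((1 : ℝ) / 2)),
    ← ENNReal.rpow_mul, ← ENNReal.rpow_mul] at h2
  norm_num at h2
  exact h2

/-- mean squares of `Ja`. -/
lemma meanSq_Ja {ι : Type*} (s : Finset ι) (F : ι → ℝ → ℝ≥0∞) {ε : ℝ} (hε : 0 < ε) (B : ℝ≥0∞)
    (h : ∀ Y, 0 < Y → ∑ i ∈ s, F i Y ^ 2 ≤ B * ENNReal.ofReal (Y ^ (1 + ε))) {Y : ℝ} (hY : 0 < Y) :
    ∑ i ∈ s, Ja (F i) Y ^ 2 ≤ (Z ε ^ 2 * B) * ENNReal.ofReal (Y ^ (1 + ε)) := by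
  have h1 : ∀ i, Ja (F i) Y ^ 2 ≤ Z ε * ∑' m : Prm, ENNReal.ofReal ((nm m.1 : ℝ) ^ (2 + ε)) *
      F i (Y / (nm m.1 : ℝ) ^ 3) ^ 2 := by
    intro i
    have := tsum_mul_sq_le (fun m : Prm => ENNReal.ofReal ((nm m.1 : ℝ) ^ (-(1 + ε) / 2)))
      (fun m : Prm => ENNReal.ofReal ((nm m.1 : ℝ) ^ ((2 + ε) / 2)) * F i (Y / (nm m.1 : ℝ) ^ 3))
    convert this using 1
    · congr 1
      unfold Ja
      refine tsum_congr fun m => ?_
      have := m.pos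
      rw [← mul_assoc, ← ENNReal.ofReal_mul (by positivity), ← Real.rpow_add this]
      congr 3
      ring
    · congr 1
      · unfold Z
        refine tsum_congr fun m => ?_
        have := m.pos
        rw [← ENNReal.ofReal_pow (by positivity), ← Real.rpow_natCast, ← Real.rpow_mul this.le]
        congr 2
        push_cast; ring
      · refine tsum_congr fun m => ?_
        have := m.pos
        have e : ((nm m.1 : ℝ) ^ ((2 + ε) / 2)) ^ 2 = (nm m.1 : ℝ) ^ (2 + ε) := by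
          rw [← Real.rpow_natCast, ← Real.rpow_mul this.le]
          congr 1
          push_cast; ring
        rw [mul_pow, ← ENNReal.ofReal_pow (by positivity), e]
  calc ∑ i ∈ s, Ja (F i) Y ^ 2
      ≤ ∑ i ∈ s, Z ε * ∑' m : Prm, ENNReal.ofReal ((nm m.1 : ℝ) ^ (2 + ε)) *
      F i (Y / (nm m.1 : ℝ) ^ 3) ^ 2 := Finset.sum_le_sum fun i _ => h1 i
    _ = Z ε * ∑' m : Prm, ENNReal.ofReal ((nm m.1 : ℝ) ^ (2 + ε)) *
        ∑ i ∈ s, F i (Y / (nm m.1 : ℝ) ^ 3) ^ 2 := by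
        rw [← Finset.mul_sum, ← Summable.tsum_finsetSum (fun i _ => ENNReal.summable)]
        congr 1
        refine tsum_congr fun m => ?_
        rw [Finset.mul_sum]
    _ ≤ Z ε * ∑' m : Prm, (B * ENNReal.ofReal (Y ^ (1 + ε))) *
        ENNReal.ofReal ((nm m.1 : ℝ) ^ (-(1 + ε))) := by
        refine mul_le_mul_right (ENNReal.tsum_le_tsum fun m => ?_) _
        have hm := m.pos
        have hm1 := m.one_le
        refine (mul_le_mul_right (h (Y / (nm m.1 : ℝ) ^ 3) (by positivity)) _).trans ?_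
        rw [mul_left_comm, mul_assoc, ← ENNReal.ofReal_mul (by positivity),
          ← ENNReal.ofReal_mul (by positivity)]
        refine mul_le_mul_right (ENNReal.ofReal_le_ofReal ?_) _
        rw [Real.div_rpow hY.le (by positivity), ← Real.rpow_natCast (nm m.1 : ℝ) 3,
          ← Real.rpow_mul hm.le, mul_div_assoc', mul_comm ((nm m.1 : ℝ) ^ (2 + ε)), mul_div_assoc,
          ← Real.rpow_sub hm]
        gcongr
        push_cast; linarith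
    _ = _ := by
        rw [ENNReal.tsum_mul_left]
        change Z ε * (B * ENNReal.ofReal (Y ^ (1 + ε)) * Z ε) = _
        ring

variable [DecidableEq Eis] {E : Eis → Finset Eis → ℝ → ℂ}

omit [DecidableEq Eis] in
lemma not_dvd_of_mul_prod {p : Eis} (hp : PP p) {r : Eis} (hr : ¬ p ∣ r) {T : Finset Eis}
    (hT : PPSet T) (hpT : p ∉ T) : ¬ p ∣ r * ∏ q ∈ T, q :=
  PP.not_dvd_mul_prod hp hr hT hpT

omit [DecidableEq Eis] in
lemma not_dvd_mul_prod_sq {p : Eis} (hp : PP p) {r : Eis} (hr : ¬ p ∣ r) {T : Finset Eis}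
    (hT : PPSet T) (hpT : p ∉ T) : ¬ p ∣ r * (∏ q ∈ T, q) ^ 2 := by
  intro h
  rcases hp.prime.dvd_or_dvd h with h | h
  · exact hr h
  · have h' : p ∣ 1 * ∏ q ∈ T, q := by rw [one_mul]; exact hp.prime.dvd_of_dvd_pow h
    exact not_dvd_of_mul_prod hp (fun h1 => hp.prime.not_isUnit (isUnit_of_dvd_one h1)) hT hpT h'

/-- The combined pointwise bound. -/
theorem Rec.pointwise (hE : Rec E) {P1 P2 P3 : Finset Eis} (h1 : PPSet P1) (h2 : PPSet P2)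
    (h3 : PPSet P3) (h12 : Disjoint P1 P2) (h13 : Disjoint P1 P3) (h23 : Disjoint P2 P3)
    {r0 : Eis} (hr1 : ∀ p ∈ P1, ¬ p ∣ r0) (hr2 : ∀ p ∈ P2, ¬ p ∣ r0) (hr3 : ∀ p ∈ P3, ¬ p ∣ r0)
    {Y : ℝ} (hY : 0 < Y) :
    ‖E (r0 * (∏ q ∈ P3, q) ^ 2 * ∏ q ∈ P1, q) (P1 ∪ (P2 ∪ P3)) Y‖ₑ ≤
      ∑ T1 ∈ P1.powerset, ∑ T2 ∈ P2.powerset,
        ENNReal.ofReal ((nm (∏ q ∈ T1, q) : ℝ) ^ ((1 : ℝ) / 2)) *
        Ja (Ja (Ja fun Y' =>
          ‖E (r0 * (∏ q ∈ P3, q) ^ 2 * (∏ q ∈ P1 \ T1, q) * ∏ q ∈ T2, q) ∅ Y'‖ₑ))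
          (Y / ((nm (∏ q ∈ T1, q) : ℝ) ^ 2 * nm (∏ q ∈ T2, q))) := by
  have h23P : ∀ q ∈ P2 ∪ P3, PP q := fun q hq => by
    rcases Finset.mem_union.mp hq with h | h
    · exact h2 q h
    · exact h3 q h
  have hd1 : Disjoint P1 (P2 ∪ P3) := Finset.disjoint_union_right.mpr ⟨h12, h13⟩
  refine (hE.A2 (P2 ∪ P3) h23P P1 h1 hd1 (r0 * (∏ q ∈ P3, q) ^ 2)
    (fun p hp => not_dvd_mul_prod_sq (h1 p hp) (hr1 p hp) h3
      (Finset.disjoint_left.mp h13 hp)) Y hY).trans ?_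
  refine Finset.sum_le_sum fun T1 hT1 => ?_
  have hT1' := Finset.mem_powerset.mp hT1
  have hT1P : PPSet T1 := h1.subset hT1'
  have hn1 : (0 : ℝ) < nm (∏ q ∈ T1, q) := nm_prod_pos hT1P
  rw [← Finset.mul_sum]
  gcongr
  refine (J_le_Ja _ _ _).trans ?_
  -- bound the inner function
  have key : ∀ Y', 0 < Y' → ‖E (r0 * (∏ q ∈ P3, q) ^ 2 * ∏ q ∈ P1 \ T1, q) (P2 ∪ P3) Y'‖ₑ ≤
      ∑ T2 ∈ P2.powerset, Ja (Ja fun Y'' =>
        ‖E (r0 * (∏ q ∈ P3, q) ^ 2 * (∏ q ∈ P1 \ T1, q) * ∏ q ∈ T2, q) ∅ Y''‖ₑ)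
          (Y' / nm (∏ q ∈ T2, q)) := by
    intro Y' hY'
    refine (hE.A1 P3 h3 P2 h2 h23 (r0 * (∏ q ∈ P3, q) ^ 2 * ∏ q ∈ P1 \ T1, q) ?_ Y' hY').trans ?_
    · intro p hp
      refine not_dvd_of_mul_prod (h2 p hp) ?_ (h1.subset Finset.sdiff_subset) ?_
      · exact not_dvd_mul_prod_sq (h2 p hp) (hr2 p hp) h3 (Finset.disjoint_left.mp h23 hp)
      · intro h
        exact Finset.disjoint_left.mp h12 (Finset.mem_sdiff.mp h).1 hp
    · refine Finset.sum_le_sum fun T2 hT2 => ?_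
      have hT2' := Finset.mem_powerset.mp hT2
      have hT2P : PPSet T2 := h2.subset hT2'
      have hn2 : (0 : ℝ) < nm (∏ q ∈ T2, q) := nm_prod_pos hT2P
      refine (J_le_Ja _ _ _).trans ?_
      refine Ja_mono (by positivity) fun Y3 hY3 => ?_
      have e1 : r0 * (∏ q ∈ P3, q) ^ 2 * (∏ q ∈ P1 \ T1, q) * ∏ q ∈ T2, q =
          (r0 * (∏ q ∈ P1 \ T1, q) * ∏ q ∈ T2, q) * (∏ q ∈ P3, q) ^ 2 := by ring
      rw [e1]
      have := hE.A3 ∅ (by simp) P3 h3 (Finset.disjoint_empty_right _)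
        (r0 * (∏ q ∈ P1 \ T1, q) * ∏ q ∈ T2, q) ?_ Y3 hY3
      · rw [Finset.union_empty] at this
        exact this.trans (J_le_Ja _ _ _)
      · intro p hp
        refine not_dvd_of_mul_prod (h3 p hp) ?_ hT2P ?_
        · refine not_dvd_of_mul_prod (h3 p hp) (hr3 p hp) (h1.subset Finset.sdiff_subset) ?_
          intro h
          exact Finset.disjoint_left.mp h13 (Finset.mem_sdiff.mp h).1 hp
        · intro h
          exact Finset.disjoint_left.mp h23 (hT2' h) hp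
  refine (Ja_mono (by positivity) key).trans (le_of_eq ?_)
  rw [Ja_sum]
  refine Finset.sum_congr rfl fun T2 hT2 => ?_
  rw [Ja_scale, div_div]

end Crest.Agent.R012.TypeI941
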