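import Crest.Agent.R012.TypeI3_941

/-!
# Row 12, item TI (part 4): the mean square theorem `Rec.meanSq`
-/

set_option autoImplicit false

noncomputable section

open Complex
open scoped ENNReal

namespace Crest.Agent.R012.TypeI941

open Crest.Agent.R012 Eis LS2 Mob705

lemma sq_sum_le_card {ι : Type*} (s : Finset ι) (f : ι → ℝ≥0∞) :
    (∑ i ∈ s, f i) ^ 2 ≤ (s.card : ℝ≥0∞) * ∑ i ∈ s, f i ^ 2 := by
  have := ENNReal.inner_le_Lp_mul_Lq s (fun _ => 1) f (p := 2) (q := 2)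
    (by norm_num [Real.holderConjugate_iff])
  have h2 := pow_le_pow_left' this 2
  rw [mul_pow, ← ENNReal.rpow_natCast (_ ^ ((1 : ℝ) / 2)), ← ENNReal.rpow_natCast (_ ^ ((1 : ℝ) / 2)),
    ← ENNReal.rpow_mul, ← ENNReal.rpow_mul] at h2
  norm_num at h2
  exact h2

/-- real inequality used for the sum over `T₁`, `T₂`. -/
lemma real_bound {N1 N2 DQ τ ε K Y : ℝ} (h1 : 1 ≤ N1) (h2 : 1 ≤ N2) (hD : 0 < DQ) (hτ : 0 ≤ τ)
    (hε : 0 < ε) (hK : 0 ≤ K) (hY : 0 < Y) :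
    N1 * (K * (DQ * N2 / N1 + τ) * (DQ * N2 / N1) ^ ε * (Y / (N1 ^ 2 * N2)) ^ (1 + ε)) ≤
      (K * DQ ^ ε * (DQ + τ) * Y ^ (1 + ε)) * N1 ^ (-(1 + ε)) := by
  have hN1 : 0 < N1 := by linarith
  have hN2 : 0 < N2 := by linarith
  have a1 : DQ * N2 / N1 + τ ≤ (DQ + τ) * N2 := by
    have : DQ * N2 / N1 ≤ DQ * N2 := div_le_self (by positivity) h1
    nlinarith
  have e1 : (DQ * N2 / N1) ^ ε = DQ ^ ε * N2 ^ ε * N1 ^ (-ε) := by
    rw [Real.div_rpow (by positivity) hN1.le, Real.mul_rpow hD.le hN2.le, Real.rpow_neg hN1.le,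
      div_eq_mul_inv]
  have e2 : (Y / (N1 ^ 2 * N2)) ^ (1 + ε) = Y ^ (1 + ε) * N1 ^ (-(2 + 2 * ε)) * N2 ^ (-(1 + ε)) := by
    rw [Real.div_rpow hY.le (by positivity), Real.mul_rpow (by positivity) hN2.le,
      ← Real.rpow_natCast N1 2, ← Real.rpow_mul hN1.le, Real.rpow_neg hN1.le, Real.rpow_neg hN2.le,
      div_eq_mul_inv, mul_inv, mul_assoc]
    congr 3
    push_cast; ring_nf
  rw [e1, e2]
  calc N1 * (K * (DQ * N2 / N1 + τ) * (DQ ^ ε * N2 ^ ε * N1 ^ (-ε)) *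
        (Y ^ (1 + ε) * N1 ^ (-(2 + 2 * ε)) * N2 ^ (-(1 + ε))))
      ≤ N1 * (K * ((DQ + τ) * N2) * (DQ ^ ε * N2 ^ ε * N1 ^ (-ε)) *
        (Y ^ (1 + ε) * N1 ^ (-(2 + 2 * ε)) * N2 ^ (-(1 + ε)))) := by gcongr
    _ = (K * DQ ^ ε * (DQ + τ) * Y ^ (1 + ε)) * (N1 ^ (1 : ℝ) * N1 ^ (-ε) * N1 ^ (-(2 + 2 * ε))) *
        (N2 ^ (1 : ℝ) * N2 ^ ε * N2 ^ (-(1 + ε))) := by
        rw [Real.rpow_one, Real.rpow_one]; ring
    _ = (K * DQ ^ ε * (DQ + τ) * Y ^ (1 + ε)) * N1 ^ (1 + -ε + -(2 + 2 * ε)) * 1 := by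
        rw [← Real.rpow_add hN1, ← Real.rpow_add hN1, ← Real.rpow_add hN2, ← Real.rpow_add hN2]
        congr 1
        have : (1 : ℝ) + ε + -(1 + ε) = 0 := by ring
        rw [this, Real.rpow_zero]
    _ ≤ _ := by
        rw [mul_one]
        gcongr
        linarith

/-- The sum over finite sets of primary primes is bounded by the sum over primary elements. -/
lemma sum_sets_le (s : Finset (Finset Eis)) (hs : ∀ T ∈ s, PPSet T) (ε : ℝ) :
    ∑ T ∈ s, ENNReal.ofReal ((nm (∏ q ∈ T, q) : ℝ) ^ (-(1 + ε))) ≤ Z ε := by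
  classical
  have hinj : Function.Injective (fun T : s => (⟨∏ q ∈ T.1, q, (hs T.1 T.2).isPrim_prod⟩ : Prm)) := by
    intro a b h
    simp only [Subtype.mk.injEq] at h
    have h' := congrArg pp h
    rw [(hs a.1 a.2).pp_prod, (hs b.1 b.2).pp_prod] at h'
    exact Subtype.ext h'
  have := ENNReal.tsum_comp_le_tsum_of_injective hinj
    (fun m : Prm => ENNReal.ofReal ((nm m.1 : ℝ) ^ (-(1 + ε))))
  refine le_trans (le_of_eq ?_) this
  rw [tsum_fintype, ← Finset.sum_coe_sort s]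

variable [DecidableEq Eis] {E : Eis → Finset Eis → ℝ → ℂ}

omit [DecidableEq Eis] in
lemma one_le_nm_prod {T : Finset Eis} (hT : PPSet T) : (1 : ℝ) ≤ nm (∏ q ∈ T, q) := by
  exact_mod_cast nm_pos.mpr hT.prod_ne_zero

open Classical in
/-- **Mean square over squarefree moduli.** -/
theorem Rec.meanSq (hE : Rec E) {P1 P2 P3 : Finset Eis} (h1 : PPSet P1) (h2 : PPSet P2)
    (h3 : PPSet P3) (h12 : Disjoint P1 P2) (h13 : Disjoint P1 P3) (h23 : Disjoint P2 P3)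
    {r0 : Eis} (hr0 : ∀ p, IsPP p → ¬ p ∣ r0) {ε K τ Λ D : ℝ} (hε : 0 < ε) (hK : 0 ≤ K)
    (hτ : 0 ≤ τ) (hD : 1 ≤ D) (hΛ : ∀ d ∈ S D, (2 : ℝ) ^ (pp d).card ≤ Λ)
    (hM : ∀ H : ℝ, 1 ≤ H → ∀ Y : ℝ, 0 < Y →
      ∑ h ∈ (S H).filter (fun h => ∀ p ∈ P3, ¬ p ∣ h),
        ‖E (r0 * (∏ q ∈ P3, q) ^ 2 * h) ∅ Y‖ₑ ^ 2 ≤
        ENNReal.ofReal (K * (H + τ) * H ^ ε) * ENNReal.ofReal (Y ^ (1 + ε)))
    {Y : ℝ} (hY : 0 < Y) :
    ∑ d ∈ (S D).filter (fun d => ∀ p ∈ P1 ∪ (P2 ∪ P3), ¬ p ∣ d),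
      ‖E (r0 * (∏ q ∈ P3, q) ^ 2 * ∏ q ∈ pp d ∪ P1, q) ((pp d ∪ P1) ∪ (P2 ∪ P3)) Y‖ₑ ^ 2 ≤
      (Z ε) ^ 7 * ENNReal.ofReal (Λ * 2 ^ P1.card * 4 ^ P2.card *
        (K * (D * nm (∏ q ∈ P1, q)) ^ ε * (D * nm (∏ q ∈ P1, q) + τ) * Y ^ (1 + ε))) := by
  classical
  set s0 := r0 * (∏ q ∈ P3, q) ^ 2 with hs0
  set Q1 : ℝ := ((nm (∏ q ∈ P1, q) : ℕ) : ℝ) with hQ1
  have hQ1' : 1 ≤ Q1 := one_le_nm_prod h1
  set I := (S D).filter (fun d => ∀ p ∈ P1 ∪ (P2 ∪ P3), ¬ p ∣ d) with hI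
  have hDp : 0 < D := by linarith
  -- facts about members of `I`
  have hId : ∀ d ∈ I, (nm d : ℝ) ≤ D ∧ IsPrim d ∧ Squarefree d ∧ Disjoint (pp d) P1 ∧
      Disjoint (pp d) P2 ∧ Disjoint (pp d) P3 := by
    intro d hd
    rw [hI, Finset.mem_filter, mem_S hDp.le] at hd
    obtain ⟨⟨ha, hb, hc⟩, hd'⟩ := hd
    refine ⟨ha, hb, hc, ?_, ?_, ?_⟩
    · exact Finset.disjoint_left.mpr fun q hq hq' =>
        hd' q (Finset.mem_union_left _ hq') (dvd_of_mem_pp hq)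
    · exact Finset.disjoint_left.mpr fun q hq hq' =>
        hd' q (Finset.mem_union_right _ (Finset.mem_union_left _ hq')) (dvd_of_mem_pp hq)
    · exact Finset.disjoint_left.mpr fun q hq hq' =>
        hd' q (Finset.mem_union_right _ (Finset.mem_union_right _ hq')) (dvd_of_mem_pp hq)
  have hPd : ∀ d, PPSet (pp d ∪ P1) := fun d p hp => by
    rcases Finset.mem_union.mp hp with h | h
    · exact isPP_of_mem_pp h
    · exact h1 p h
  -- the inner functions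
  set F : Finset Eis → Finset Eis → Eis → ℝ → ℝ≥0∞ := fun T1 T2 d Y' =>
    ‖E (s0 * (∏ q ∈ (pp d ∪ P1) \ T1, q) * ∏ q ∈ T2, q) ∅ Y'‖ₑ with hF
  set B : ℝ := K * (D * Q1) ^ ε * (D * Q1 + τ) * Y ^ (1 + ε) with hB
  have hBnn : 0 ≤ B := by positivity
  set YT : Finset Eis → Finset Eis → ℝ := fun T1 T2 =>
    Y / ((nm (∏ q ∈ T1, q) : ℝ) ^ 2 * nm (∏ q ∈ T2, q)) with hYT
  -- pointwise, squared
  have hpt : ∀ d ∈ I, ‖E (s0 * ∏ q ∈ pp d ∪ P1, q) ((pp d ∪ P1) ∪ (P2 ∪ P3)) Y‖ₑ ^ 2 ≤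
      ENNReal.ofReal (Λ * 2 ^ P1.card * 2 ^ P2.card) *
      ∑ T1 ∈ (pp d ∪ P1).powerset, ∑ T2 ∈ P2.powerset,
        ENNReal.ofReal (nm (∏ q ∈ T1, q) : ℝ) * (Ja (Ja (Ja (F T1 T2 d))) (YT T1 T2)) ^ 2 := by
    intro d hd
    obtain ⟨hd1, hd2, hd3, hd4, hd5, hd6⟩ := hId d hd
    have hpw := hE.pointwise (hPd d) h2 h3
      (Finset.disjoint_union_left.mpr ⟨hd5, h12⟩) (Finset.disjoint_union_left.mpr ⟨hd6, h13⟩) h23
      (r0 := r0) (fun p hp => hr0 p (hPd d p hp)) (fun p hp => hr0 p (h2 p hp))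
      (fun p hp => hr0 p (h3 p hp)) hY
    rw [← Finset.sum_product'] at hpw
    refine (pow_le_pow_left' hpw 2).trans ((sq_sum_le_card _ _).trans ?_)
    rw [← Finset.sum_product']
    refine mul_le_mul' ?_ (Finset.sum_le_sum fun T hT => ?_)
    · rw [Finset.card_product, Finset.card_powerset, Finset.card_powerset,
        Finset.card_union_of_disjoint hd4]
      rw [← ENNReal.ofReal_natCast]
      apply ENNReal.ofReal_le_ofReal
      push_cast
      rw [pow_add]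
      have := hΛ d (Finset.mem_filter.mp hd).1
      gcongr
    · have e : (((nm (∏ q ∈ T.1, q) : ℕ) : ℝ) ^ ((1 : ℝ) / 2)) ^ 2 =
          ((nm (∏ q ∈ T.1, q) : ℕ) : ℝ) := by
        rw [← Real.rpow_natCast, ← Real.rpow_mul (by positivity)]
        norm_num
      rw [mul_pow, ← ENNReal.ofReal_pow (by positivity), e]
  -- the exchange of summation
  set TT : Finset (Finset Eis) := ((S D).biUnion pp ∪ P1).powerset with hTT
  have hTTP : ∀ T ∈ TT, PPSet T := by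
    intro T hT p hp
    rcases Finset.mem_union.mp (Finset.mem_powerset.mp hT hp) with h | h
    · obtain ⟨d, _, hd⟩ := Finset.mem_biUnion.mp h
      exact isPP_of_mem_pp hd
    · exact h1 p h
  have hsub : ∀ d ∈ I, (pp d ∪ P1).powerset ⊆ TT := by
    intro d hd
    apply Finset.powerset_mono.mpr
    apply Finset.union_subset_union_left
    exact Finset.subset_biUnion_of_mem pp (Finset.mem_filter.mp hd).1
  -- bound for fixed T1, T2
  have hfix : ∀ T1 ∈ TT, ∀ T2 ∈ P2.powerset,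
      ∑ d ∈ I.filter (fun d => T1 ⊆ pp d ∪ P1),
        ENNReal.ofReal (nm (∏ q ∈ T1, q) : ℝ) * (Ja (Ja (Ja (F T1 T2 d))) (YT T1 T2)) ^ 2 ≤
      (Z ε) ^ 6 * (ENNReal.ofReal B * ENNReal.ofReal ((nm (∏ q ∈ T1, q) : ℝ) ^ (-(1 + ε)))) := by
    intro T1 hT1 T2 hT2
    have hT1P := hTTP T1 hT1
    have hT2' := Finset.mem_powerset.mp hT2
    have hT2P : PPSet T2 := h2.subset hT2'
    have hN1 := one_le_nm_prod hT1P
    have hN2 := one_le_nm_prod hT2P
    set N1 : ℝ := ((nm (∏ q ∈ T1, q) : ℕ) : ℝ) with hN1d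
    set N2 : ℝ := ((nm (∏ q ∈ T2, q) : ℕ) : ℝ) with hN2d
    rcases (I.filter (fun d => T1 ⊆ pp d ∪ P1)).eq_empty_or_nonempty with hemp | hne
    · rw [hemp]; simp
    set I' := I.filter (fun d => T1 ⊆ pp d ∪ P1) with hI'
    set H : ℝ := D * Q1 * N2 / N1 with hH
    -- the map
    set hh : Eis → Eis := fun d => (∏ q ∈ (pp d ∪ P1) \ T1, q) * ∏ q ∈ T2, q with hhh
    have hset : ∀ d ∈ I', PPSet (((pp d ∪ P1) \ T1) ∪ T2) ∧ Disjoint ((pp d ∪ P1) \ T1) T2 ∧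
        hh d = ∏ q ∈ ((pp d ∪ P1) \ T1) ∪ T2, q := by
      intro d hd
      obtain ⟨hdI, hdT⟩ := Finset.mem_filter.mp hd
      obtain ⟨hd1, hd2, hd3, hd4, hd5, hd6⟩ := hId d hdI
      have hdis : Disjoint ((pp d ∪ P1) \ T1) T2 := by
        refine Finset.disjoint_of_subset_left Finset.sdiff_subset ?_
        exact Finset.disjoint_of_subset_right hT2' (Finset.disjoint_union_left.mpr ⟨hd5, h12⟩)
      refine ⟨?_, hdis, ?_⟩
      · intro p hp
        rcases Finset.mem_union.mp hp with h | h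
        · exact hPd d p (Finset.mem_sdiff.mp h).1
        · exact hT2P p h
      · rw [hhh, Finset.prod_union hdis]
    have hnmh : ∀ d ∈ I', (nm (hh d) : ℝ) = nm d * Q1 * N2 / N1 := by
      intro d hd
      obtain ⟨hdI, hdT⟩ := Finset.mem_filter.mp hd
      obtain ⟨hd1, hd2, hd3, hd4, hd5, hd6⟩ := hId d hdI
      have e1 : (∏ q ∈ (pp d ∪ P1) \ T1, q) * ∏ q ∈ T1, q = d * ∏ q ∈ P1, q := by
        rw [Finset.prod_sdiff hdT, Finset.prod_union hd4, prod_pp hd2 hd3]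
      have e2 := congrArg nm e1
      rw [nm_mul, nm_mul] at e2
      have e3 : (nm (∏ q ∈ (pp d ∪ P1) \ T1, q) : ℝ) * N1 = nm d * Q1 := by
        rw [hN1d, hQ1]; exact_mod_cast e2
      rw [hhh]
      simp only
      rw [nm_mul]
      push_cast
      rw [← hN2d, eq_div_iff (by positivity), ← e3]; ring
    have hHle : ∀ d ∈ I', (nm (hh d) : ℝ) ≤ H := by
      intro d hd
      rw [hnmh d hd, hH]
      have := (hId d (Finset.mem_filter.mp hd).1).1
      gcongr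
    have hH1 : 1 ≤ H := by
      obtain ⟨d, hd⟩ := hne
      refine le_trans ?_ (hHle d hd)
      rw [(hset d hd).2.2]
      exact one_le_nm_prod (hset d hd).1
    have hmem : ∀ d ∈ I', hh d ∈ (S H).filter (fun h => ∀ p ∈ P3, ¬ p ∣ h) := by
      intro d hd
      obtain ⟨hdI, hdT⟩ := Finset.mem_filter.mp hd
      obtain ⟨hd1, hd2, hd3, hd4, hd5, hd6⟩ := hId d hdI
      rw [Finset.mem_filter, mem_S (by linarith)]
      have hs := hset d hd
      refine ⟨⟨hHle d hd, ?_, ?_⟩, ?_⟩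
      · rw [hs.2.2]; exact hs.1.isPrim_prod
      · rw [hs.2.2]; exact hs.1.squarefree_prod
      · intro p hp hdvd
        rw [hs.2.2, hs.1.dvd_prod (h3 p hp)] at hdvd
        rcases Finset.mem_union.mp hdvd with h | h
        · rcases Finset.mem_union.mp (Finset.mem_sdiff.mp h).1 with h | h
          · exact Finset.disjoint_left.mp hd6 h hp
          · exact Finset.disjoint_left.mp h13 h hp
        · exact Finset.disjoint_left.mp h23 (hT2' h) hp
    have hinj : Set.InjOn hh I' := by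
      intro d hd d' hd' he
      have hd := Finset.mem_coe.mp hd
      have hd' := Finset.mem_coe.mp hd'
      obtain ⟨hdI, hdT⟩ := Finset.mem_filter.mp hd
      obtain ⟨hdI', hdT'⟩ := Finset.mem_filter.mp hd'
      obtain ⟨hd1, hd2, hd3, hd4, hd5, hd6⟩ := hId d hdI
      obtain ⟨hd1', hd2', hd3', hd4', hd5', hd6'⟩ := hId d' hdI'
      rw [(hset d hd).2.2, (hset d' hd').2.2] at he
      have he2 := congrArg pp he
      rw [(hset d hd).1.pp_prod, (hset d' hd').1.pp_prod] at he2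
      have key : ∀ x : Eis, x ∈ P1 → x ∉ pp d := fun x hx hx' => Finset.disjoint_left.mp hd4 hx' hx
      have key' : ∀ x : Eis, x ∈ P1 → x ∉ pp d' := fun x hx hx' =>
        Finset.disjoint_left.mp hd4' hx' hx
      have kT2 : ∀ x ∈ T2, x ∉ pp d := fun x hx hx' =>
        Finset.disjoint_left.mp hd5 hx' (hT2' hx)
      have kT2' : ∀ x ∈ T2, x ∉ pp d' := fun x hx hx' =>
        Finset.disjoint_left.mp hd5' hx' (hT2' hx)
      have hpp : pp d = pp d' := by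
        ext x
        have hx := Finset.ext_iff.mp he2 x
        simp only [Finset.mem_union, Finset.mem_sdiff] at hx
        constructor
        · intro hxd
          by_cases hxT : x ∈ T1
          · have := hdT' hxT
            rcases Finset.mem_union.mp this with h | h
            · exact h
            · exact absurd hxd (key x h)
          · rcases hx.mp (Or.inl ⟨Or.inl hxd, hxT⟩) with ⟨h | h, _⟩ | h
            · exact h
            · exact absurd hxd (key x h)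
            · exact absurd hxd (kT2 x h)
        · intro hxd
          by_cases hxT : x ∈ T1
          · have := hdT hxT
            rcases Finset.mem_union.mp this with h | h
            · exact h
            · exact absurd hxd (key' x h)
          · rcases hx.mpr (Or.inl ⟨Or.inl hxd, hxT⟩) with ⟨h | h, _⟩ | h
            · exact h
            · exact absurd hxd (key' x h)
            · exact absurd hxd (kT2' x h)
      rw [← prod_pp hd2 hd3, ← prod_pp hd2' hd3', hpp]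
    -- base mean square
    have hbase : ∀ Y', 0 < Y' → ∑ d ∈ I', F T1 T2 d Y' ^ 2 ≤
        ENNReal.ofReal (K * (H + τ) * H ^ ε) * ENNReal.ofReal (Y' ^ (1 + ε)) := by
      intro Y' hY'
      refine le_trans ?_ (hM H hH1 Y' hY')
      have e1 : ∑ d ∈ I', F T1 T2 d Y' ^ 2 = ∑ h ∈ I'.image hh, ‖E (s0 * h) ∅ Y'‖ₑ ^ 2 := by
        rw [Finset.sum_image hinj]
        refine Finset.sum_congr rfl fun d _ => ?_
        rw [hF, hhh]
        simp only
        rw [mul_assoc]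
      rw [e1]
      apply Finset.sum_le_sum_of_subset
      intro x hx
      obtain ⟨d, hd, rfl⟩ := Finset.mem_image.mp hx
      exact hmem d hd
    have hb1 := fun Y' (hY' : 0 < Y') => meanSq_Ja I' (F T1 T2) hε _ hbase hY'
    have hb2 := fun Y' (hY' : 0 < Y') => meanSq_Ja I' (fun d => Ja (F T1 T2 d)) hε _ hb1 hY'
    have hYTp : 0 < YT T1 T2 := by
      rw [hYT]; simp only; rw [← hN1d, ← hN2d]; positivity
    have hb3 := meanSq_Ja I' (fun d => Ja (Ja (F T1 T2 d))) hε _ hb2 hYTp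
    rw [← Finset.mul_sum]
    refine (mul_le_mul_right hb3 _).trans ?_
    have hre := real_bound (N1 := N1) (N2 := N2) (DQ := D * Q1) (τ := τ) (ε := ε) (K := K) (Y := Y)
      hN1 hN2 (by positivity) hτ hε hK hY
    calc ENNReal.ofReal N1 * ((Z ε ^ 2 * (Z ε ^ 2 * (Z ε ^ 2 *
          ENNReal.ofReal (K * (H + τ) * H ^ ε)))) * ENNReal.ofReal (YT T1 T2 ^ (1 + ε)))
        = Z ε ^ 6 * ENNReal.ofReal (N1 * (K * (H + τ) * H ^ ε * (YT T1 T2) ^ (1 + ε))) := by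
          rw [ENNReal.ofReal_mul (p := N1) (by positivity),
            ENNReal.ofReal_mul (p := K * (H + τ) * H ^ ε) (by positivity)]
          ring
      _ ≤ Z ε ^ 6 * ENNReal.ofReal (B * N1 ^ (-(1 + ε))) := by
          gcongr
      _ = _ := by rw [ENNReal.ofReal_mul hBnn]
  calc ∑ d ∈ I, ‖E (s0 * ∏ q ∈ pp d ∪ P1, q) ((pp d ∪ P1) ∪ (P2 ∪ P3)) Y‖ₑ ^ 2
      ≤ ∑ d ∈ I, ENNReal.ofReal (Λ * 2 ^ P1.card * 2 ^ P2.card) *
      ∑ T1 ∈ (pp d ∪ P1).powerset, ∑ T2 ∈ P2.powerset,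
        ENNReal.ofReal (nm (∏ q ∈ T1, q) : ℝ) * (Ja (Ja (Ja (F T1 T2 d))) (YT T1 T2)) ^ 2 :=
        Finset.sum_le_sum hpt
    _ = ENNReal.ofReal (Λ * 2 ^ P1.card * 2 ^ P2.card) * ∑ T1 ∈ TT, ∑ T2 ∈ P2.powerset,
        ∑ d ∈ I.filter (fun d => T1 ⊆ pp d ∪ P1),
        ENNReal.ofReal (nm (∏ q ∈ T1, q) : ℝ) * (Ja (Ja (Ja (F T1 T2 d))) (YT T1 T2)) ^ 2 := by
        rw [← Finset.mul_sum]
        congr 1
        have e1 : ∀ d ∈ I, ∑ T1 ∈ (pp d ∪ P1).powerset, ∑ T2 ∈ P2.powerset,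
            ENNReal.ofReal (nm (∏ q ∈ T1, q) : ℝ) * (Ja (Ja (Ja (F T1 T2 d))) (YT T1 T2)) ^ 2 =
            ∑ T1 ∈ TT, if T1 ⊆ pp d ∪ P1 then ∑ T2 ∈ P2.powerset,
            ENNReal.ofReal (nm (∏ q ∈ T1, q) : ℝ) * (Ja (Ja (Ja (F T1 T2 d))) (YT T1 T2)) ^ 2
            else 0 := by
          intro d hd
          rw [← Finset.sum_filter]
          apply Finset.sum_congr _ (fun _ _ => rfl)
          ext T
          simp only [Finset.mem_powerset, Finset.mem_filter]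
          exact ⟨fun h => ⟨hsub d hd (Finset.mem_powerset.mpr h), h⟩, fun h => h.2⟩
        rw [Finset.sum_congr rfl e1, Finset.sum_comm]
        refine Finset.sum_congr rfl fun T1 _ => ?_
        rw [← Finset.sum_filter, Finset.sum_comm]
    _ ≤ ENNReal.ofReal (Λ * 2 ^ P1.card * 2 ^ P2.card) * ∑ T1 ∈ TT, ∑ T2 ∈ P2.powerset,
        (Z ε) ^ 6 * (ENNReal.ofReal B *
          ENNReal.ofReal ((nm (∏ q ∈ T1, q) : ℝ) ^ (-(1 + ε)))) := by
        refine mul_le_mul_right (Finset.sum_le_sum fun T1 hT1 => Finset.sum_le_sum fun T2 hT2 => ?_) _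
        exact hfix T1 hT1 T2 hT2
    _ = ENNReal.ofReal (Λ * 2 ^ P1.card * 2 ^ P2.card) * (ENNReal.ofReal (2 ^ P2.card) *
        ((Z ε) ^ 6 * (ENNReal.ofReal B *
          ∑ T1 ∈ TT, ENNReal.ofReal ((nm (∏ q ∈ T1, q) : ℝ) ^ (-(1 + ε)))))) := by
        congr 1
        simp only [Finset.sum_const, Finset.card_powerset, ← Finset.mul_sum, ← Finset.smul_sum]
        rw [nsmul_eq_mul]
        congr 1
        rw [← ENNReal.ofReal_natCast]
        push_cast; rfl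
    _ ≤ ENNReal.ofReal (Λ * 2 ^ P1.card * 2 ^ P2.card) * (ENNReal.ofReal (2 ^ P2.card) *
        ((Z ε) ^ 6 * (ENNReal.ofReal B * Z ε))) := by
        gcongr
        exact sum_sets_le TT hTTP ε
    _ = _ := by
        have hΛ0 : 0 ≤ Λ := by
          have h1S : (1 : Eis) ∈ S D := by
            rw [mem_S hDp.le]
            exact ⟨by simpa using hD, isPrim_one, squarefree_one⟩
          exact le_trans (by positivity) (hΛ 1 h1S)
        have e4 : (4 : ℝ) ^ P2.card = 2 ^ P2.card * 2 ^ P2.card := by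
          rw [← mul_pow]; norm_num
        rw [e4, ENNReal.ofReal_mul (p := Λ * 2 ^ P1.card * (2 ^ P2.card * 2 ^ P2.card)) (by positivity),
          ← mul_assoc (Λ * 2 ^ P1.card), ENNReal.ofReal_mul (p := Λ * 2 ^ P1.card * 2 ^ P2.card)
            (by positivity)]
        ring

end Crest.Agent.R012.TypeI941
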