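import Crest.Agent.R012.TypeI4_941
import Crest.Agent.R012.GaussInst_880
import Crest.Agent.R012.GaussLoc_283
import Crest.Agent.R012.PsiRel_283
import Crest.Agent.R012.SpecM_49

/-!
# Row 12, item TI (part 5): the instance given by the cubic Gauss sums

* `gt r b = gs r b / √N(b)`, `localGauss : LocalGauss gt`
* `ch l τ b = ang l b * N(b)^{iτ}`
* `Ef` : the sum `U` minus its main term; `rec_Ef : Rec (Ef ...)` from `RhoRel`.
-/

set_option autoImplicit false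

noncomputable section

open Complex
open scoped ENNReal

namespace Crest.Agent.R012.TypeI941

open Crest.Agent.R012 Eis LS2 Mob705 GaussLoc283

/-- normalised Gauss sum -/
def gt (r b : Eis) : ℂ := gs r b / ((Real.sqrt (nm b) : ℝ) : ℂ)

lemma exists_pow_mul {p b : Eis} (hp : PP p) (hb : IsPrim b) :
    ∃ (k : ℕ) (c : Eis), b = p ^ k * c ∧ ¬ p ∣ c ∧ IsPrim c := by
  have hfin : FiniteMultiplicity p b := FiniteMultiplicity.of_prime_left hp.prime hb.ne_zero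
  obtain ⟨c, hc, hnd⟩ := hfin.exists_eq_pow_mul_and_not_dvd
  refine ⟨_, c, hc, hnd, ?_⟩
  rw [hc] at hb
  exact hb.of_mul_left (hp.isPrim.pow _)

lemma le_of_pow_dvd {p c : Eis} (hp : PP p) (hc : ¬ p ∣ c) {j k : ℕ} (h : p ^ j ∣ p ^ k * c) :
    j ≤ k := by
  by_contra hlt
  push Not at hlt
  apply hc
  have h1 : p ^ (k + 1) ∣ p ^ k * c := (pow_dvd_pow p hlt).trans h
  rw [pow_succ, mul_dvd_mul_iff_left (pow_ne_zero _ hp.prime.ne_zero)] at h1
  exact h1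

lemma isCoprime_pow_left {p c : Eis} (hp : PP p) (hc : ¬ p ∣ c) (k : ℕ) :
    IsCoprime (p ^ k) c := ((hp.isCoprime_iff).mpr hc).pow_left

lemma gt_zero_of {r b : Eis} (h : gs r b = 0) : gt r b = 0 := by unfold gt; rw [h, zero_div]

lemma sqrt_nm_ne {b : Eis} (hb : b ≠ 0) : ((Real.sqrt (nm b) : ℝ) : ℂ) ≠ 0 := by
  have : (0 : ℝ) < nm b := by exact_mod_cast nm_pos.mpr hb
  exact_mod_cast (Real.sqrt_pos.mpr this).ne'

lemma sqrt_nm_mul (a b : Eis) : ((Real.sqrt (nm (a * b)) : ℝ) : ℂ) =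
    ((Real.sqrt (nm a) : ℝ) : ℂ) * ((Real.sqrt (nm b) : ℝ) : ℂ) := by
  rw [nm_mul]; push_cast
  rw [Real.sqrt_mul (by positivity)]; push_cast; rfl

/-- product formula for `gt`. -/
lemma gt_mul {r c d : Eis} (hc : IsPrim c) (hd : IsPrim d) (hcd : IsCoprime c d) :
    gt r (c * d) = gt r c * gt (r * c) d := by
  unfold gt
  rw [gs_mul' syAx r hc hd hcd, sqrt_nm_mul, mul_div_mul_comm]

lemma gt_pow_mul {r p c : Eis} (hp : PP p) (hc : IsPrim c) (h : ¬ p ∣ c) (k : ℕ) :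
    gt r (p ^ k * c) = gt r (p ^ k) * gt (r * p ^ k) c :=
  gt_mul (hp.isPrim.pow k) hc (isCoprime_pow_left hp h k)

lemma gt_cube {r p c : Eis} (hp : PP p) (hc : IsPrim c) (h : ¬ p ∣ c) :
    gt (r * p ^ 3) c = gt r c := by
  unfold gt
  rw [gs_cube_left syAx r hc ((hp.isCoprime_iff).mpr h)]

lemma sqrt_sq_nm (p : Eis) : ((Real.sqrt (nm p) : ℝ) : ℂ) * ((Real.sqrt (nm p) : ℝ) : ℂ) = nm p := by
  rw [← Complex.ofReal_mul, Real.mul_self_sqrt (by positivity)]; push_cast; rfl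

theorem localGauss : LocalGauss gt where
  vanish0 := by
    intro r b p hp hr hb h
    obtain ⟨k, c, rfl, hc, hcp⟩ := exists_pow_mul hp hb
    have hk := le_of_pow_dvd hp hc h
    rw [gt_pow_mul hp hcp hc, gt_zero_of (gs_pow_ge_two syAx hp.isPrim hp.prime hr hk), zero_mul]
  mul1 := by
    intro r b p hp hr hb h
    have := gt_pow_mul (r := r) hp hb h 1
    simpa using this
  vanish1 := by
    intro r b p hp hr hb h
    have := gt_pow_mul (r := r * p) hp hb h 1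
    rw [pow_one] at this
    rw [this, gt_zero_of (gs_mul_p_prime syAx hp.isPrim hp.prime), zero_mul]
  vanish3 := by
    intro r b p hp hr hb h
    obtain ⟨k, c, rfl, hc, hcp⟩ := exists_pow_mul hp hb
    have hk := le_of_pow_dvd hp hc h
    rw [gt_pow_mul hp hcp hc, gt_zero_of (gs_p_pow_ge_three syAx hp.isPrim hp.prime hr hk), zero_mul]
  mul2 := by
    intro r b p hp hr hb h
    rw [gt_pow_mul hp hb h 2]
    have e : r * p * p ^ 2 = r * p ^ 3 := by ring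
    rw [e, gt_cube hp hb h]
  norm1 := by
    intro r p hp hr
    unfold gt
    have h1 := norm_gs_prime_sq syAx hp.isPrim hp.prime hr
    rw [norm_div, Complex.norm_real, Real.norm_of_nonneg (Real.sqrt_nonneg _), ← h1,
      Real.sqrt_sq (norm_nonneg _)]
    apply div_self
    intro h0
    rw [h0] at h1
    have : (0 : ℝ) < nm p := by exact_mod_cast nm_pos.mpr hp.prime.ne_zero
    rw [← h1] at this
    norm_num at this
  sq := by
    intro r p hp hr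
    unfold gt
    have h0 := sqrt_nm_ne hp.prime.ne_zero
    rw [gs_p_sq syAx hp.isPrim, pow_two, sqrt_nm_mul, sqrt_sq_nm, map_div₀, Complex.conj_ofReal]
    have h2 : (nm p : ℂ) ≠ 0 := by exact_mod_cast (nm_pos.mpr hp.prime.ne_zero).ne'
    field_simp
  sqv := by
    intro r b p hp hr hb h
    have := gt_pow_mul (r := r * p ^ 2) hp hb h 1
    rw [pow_one] at this
    rw [this, gt_zero_of (gs_sq_p syAx hp.isPrim hp.prime), zero_mul]
  sqv2 := by
    intro r b p hp hr hb h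
    rw [gt_pow_mul hp hb h 2, gt_zero_of (gs_sq_sq syAx hp.isPrim hp.prime), zero_mul]
  sqv4 := by
    intro r b p hp hr hb h
    obtain ⟨k, c, rfl, hc, hcp⟩ := exists_pow_mul hp hb
    have hk := le_of_pow_dvd hp hc h
    rw [gt_pow_mul hp hcp hc, gt_zero_of (gs_sq_pow_ge_four syAx hp.isPrim hp.prime hr hk), zero_mul]
  mul3 := by
    intro r b p hp hr hb h
    rw [gt_pow_mul hp hb h 3, gt_cube hp hb h]
    congr 1
    unfold gt
    have h0 := sqrt_nm_ne hp.prime.ne_zero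
    have e : p ^ 3 = p * (p * p) := by ring
    rw [gs_sq_cube syAx hp.isPrim hp.prime hr, e, sqrt_nm_mul, sqrt_nm_mul, ← sqrt_sq_nm p]
    field_simp

/-- the twist `(b/|b|)^l N(b)^{iτ}`. -/
def ch (l : ℤ) (τ : ℝ) (b : Eis) : ℂ := ang l b * (nm b : ℂ) ^ ((τ : ℂ) * Complex.I)

lemma ch_mul (l : ℤ) (τ : ℝ) (a b : Eis) : ch l τ (a * b) = ch l τ a * ch l τ b := by
  unfold ch
  have h1 : ang l (a * b) = ang l a * ang l b := by
    unfold ang
    rw [map_mul, norm_mul, Complex.ofReal_mul, mul_div_mul_comm, mul_zpow]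
  have h2 : ((nm (a * b) : ℕ) : ℂ) ^ ((τ : ℂ) * Complex.I) =
      (nm a : ℂ) ^ ((τ : ℂ) * Complex.I) * (nm b : ℂ) ^ ((τ : ℂ) * Complex.I) := by
    rw [nm_mul]
    have := Complex.mul_cpow_ofReal_nonneg (a := (nm a : ℝ)) (b := (nm b : ℝ)) (by positivity)
      (by positivity) ((τ : ℂ) * Complex.I)
    push_cast at this ⊢
    exact this
  rw [h1, h2]; ring

lemma norm_ch {l : ℤ} {τ : ℝ} {b : Eis} (hb : b ≠ 0) : ‖ch l τ b‖ = 1 := by
  unfold ch
  have h1 : ‖ang l b‖ = 1 := by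
    unfold ang
    have : toC b ≠ 0 := by rwa [Ne, toC_eq_zero]
    rw [norm_zpow, norm_div, Complex.norm_real, norm_norm, div_self (norm_ne_zero_iff.mpr this),
      one_zpow]
  rw [norm_mul, h1, one_mul, Complex.norm_natCast_cpow_of_pos (nm_pos.mpr hb)]
  simp

/-- the exponent `5/6 + iτ`. -/
def se (τ : ℝ) : ℂ := (5 : ℂ) / 6 + τ * Complex.I

/-- local density factor -/
def dens (P : Finset Eis) : ℂ := ∏ p ∈ P, ((1 : ℂ) + 1 / (nm p : ℂ))⁻¹

/-- the main term. -/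
def Mt (l : ℤ) (τ : ℝ) (v : ℝ → ℂ) (ρ : Eis → ℂ) (r : Eis) (P : Finset Eis) (Y : ℝ) : ℂ :=
  if l = 0 then ρ r * dens P * mellin v (se τ) * (Y : ℂ) ^ (se τ) else 0

/-- sum minus main term. -/
def Ef (l : ℤ) (τ : ℝ) (v : ℝ → ℂ) (ρ : Eis → ℂ) (r : Eis) (P : Finset Eis) (Y : ℝ) : ℂ :=
  U gt (ch l τ) v r P Y - Mt l τ v ρ r P Y

lemma cpow_scale {Y c : ℝ} (hY : 0 < Y) (hc : 0 < c) (s : ℂ) :
    ((Y / c : ℝ) : ℂ) ^ s = (Y : ℂ) ^ s * (c : ℂ) ^ (-s) := by
  rw [Complex.ofReal_div, Complex.div_cpow_ofReal_nonneg hY.le hc.le, Complex.cpow_neg,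
    div_eq_mul_inv]

lemma ch_zero_cpow {τ : ℝ} {p : Eis} (hp : p ≠ 0) (k : ℕ) :
    ch 0 τ p ^ k * (((nm p : ℝ) ^ k : ℝ) : ℂ) ^ (-se τ) =
      (((nm p : ℝ) ^ (-((5 : ℝ) * k / 6)) : ℝ) : ℂ) := by
  have hn : (0 : ℝ) < nm p := by exact_mod_cast nm_pos.mpr hp
  have hne : ((nm p : ℝ) : ℂ) ≠ 0 := by exact_mod_cast hn.ne'
  unfold ch
  have h1 : ang 0 p = 1 := by unfold ang; simp
  rw [h1, one_mul, Complex.ofReal_pow, ← Complex.cpow_natCast ((nm p : ℝ) : ℂ) k,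
    ← Complex.cpow_natCast ((nm p : ℂ) ^ _) k]
  have e1 : ((nm p : ℕ) : ℂ) = ((nm p : ℝ) : ℂ) := by push_cast; rfl
  rw [e1]
  have hlog : ∀ x : ℂ, (((nm p : ℝ) : ℂ) ^ x) = Complex.exp (((Real.log (nm p) : ℝ) : ℂ) * x) := by
    intro x
    rw [Complex.cpow_def_of_ne_zero hne, Complex.ofReal_log hn.le]
  have hlogexp : ∀ (x : ℂ) (n : ℕ), (Complex.exp x) ^ (n : ℂ) = Complex.exp (x * n) := by
    intro x n
    rw [Complex.cpow_natCast, ← Complex.exp_nat_mul]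
    congr 1; ring
  have e2 : ∀ n : ℕ, (((nm p : ℝ) : ℂ) ^ (n : ℂ)) ^ (-se τ) =
      Complex.exp (((Real.log (nm p) : ℝ) : ℂ) * (n * (-se τ))) := by
    intro n
    have h3 : ((nm p : ℝ) : ℂ) ^ (n : ℂ) = (((nm p : ℝ) ^ n : ℝ) : ℂ) := by
      rw [Complex.cpow_natCast]; push_cast; rfl
    rw [h3]
    have hpos : (0 : ℝ) < (nm p : ℝ) ^ n := by positivity
    rw [Complex.cpow_def_of_ne_zero (by exact_mod_cast hpos.ne'), ← Complex.ofReal_log hpos.le,
      Real.log_pow]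
    congr 1
    push_cast; ring
  rw [e2, hlog, hlogexp, ← Complex.exp_add, Complex.ofReal_cpow hn.le, hlog]
  congr 1
  unfold se
  push_cast
  ring

lemma dens_insert [DecidableEq Eis] {p : Eis} {P : Finset Eis} (h : p ∉ P) :
    dens (insert p P) = ((1 : ℂ) + 1 / (nm p : ℂ))⁻¹ * dens P := by
  unfold dens; rw [Finset.prod_insert h]

lemma one_add_inv_ne {p : Eis} : ((1 : ℂ) + 1 / (nm p : ℂ)) ≠ 0 := by
  have : (0 : ℝ) < 1 + 1 / (nm p : ℝ) := by positivity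
  have h2 : ((1 + 1 / (nm p : ℝ) : ℝ) : ℂ) ≠ 0 := by exact_mod_cast this.ne'
  push_cast at h2
  exact h2

variable {ρ : Eis → ℂ}

/-- relation 1 for the main term. -/
lemma Mt_rel1 [DecidableEq Eis] (hρ : M49.RhoRel ρ) (l : ℤ) (τ : ℝ) (v : ℝ → ℂ) {P : Finset Eis}
    {p r : Eis} (hp : PP p) (hpP : p ∉ P) (hr : ¬ p ∣ r) {Y : ℝ} (hY : 0 < Y) :
    Mt l τ v ρ r P Y = Mt l τ v ρ r (insert p P) Y +
      gt r p * ch l τ p * Mt l τ v ρ (r * p) (insert p P) (Y / nm p) := by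
  unfold Mt
  by_cases hl : l = 0
  swap
  · simp [hl]
  subst hl
  simp only [if_true]
  have hn : (0 : ℝ) < nm p := by exact_mod_cast nm_pos.mpr hp.prime.ne_zero
  rw [cpow_scale hY hn, dens_insert hpP, hρ.one_p p r hp.prime hp.isPrim hr]
  have h1 := ch_zero_cpow (τ := τ) hp.prime.ne_zero 1
  rw [pow_one, pow_one] at h1
  have h2 : gt r p * (starRingEnd ℂ) (gt r p) = 1 := by
    rw [Complex.mul_conj, Complex.normSq_eq_norm_sq, localGauss.norm1 hp hr]; simp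
  have h3 : (starRingEnd ℂ) (gs r p / ((Real.sqrt (nm p) : ℝ) : ℂ)) = (starRingEnd ℂ) (gt r p) := rfl
  have h4 : (((nm p : ℝ) ^ (-(1 : ℝ) / 6) : ℝ) : ℂ) *
      (((nm p : ℝ) ^ (-((5 : ℝ) * ((1 : ℕ) : ℝ) / 6)) : ℝ) : ℂ) = 1 / (nm p : ℂ) := by
    rw [← Complex.ofReal_mul, ← Real.rpow_add hn]
    have : (-(1 : ℝ) / 6 + -((5 : ℝ) * ((1 : ℕ) : ℝ) / 6)) = -1 := by push_cast; norm_num
    rw [this, Real.rpow_neg_one]; push_cast; rw [one_div]
  rw [h3]
  have h5 : gt r p * ch 0 τ p * ((starRingEnd ℂ) (gt r p) * (((nm p : ℝ) ^ (-(1 : ℝ) / 6) : ℝ) : ℂ) *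
      ρ r * (((1 : ℂ) + 1 / (nm p : ℂ))⁻¹ * dens P) * mellin v (se τ) *
      ((Y : ℂ) ^ se τ * ((nm p : ℝ) : ℂ) ^ (-se τ))) =
      (gt r p * (starRingEnd ℂ) (gt r p)) * ((ch 0 τ p * ((nm p : ℝ) : ℂ) ^ (-se τ)) *
      (((nm p : ℝ) ^ (-(1 : ℝ) / 6) : ℝ) : ℂ)) * (ρ r * (((1 : ℂ) + 1 / (nm p : ℂ))⁻¹ * dens P) *
      mellin v (se τ) * (Y : ℂ) ^ se τ) := by ring
  rw [h5, h2, h1, mul_comm (((nm p : ℝ) ^ (-((5 : ℝ) * ((1 : ℕ) : ℝ) / 6)) : ℝ) : ℂ), h4]
  have h6 := one_add_inv_ne (p := p)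
  field_simp

/-- relation 2 for the main term. -/
lemma Mt_rel2 [DecidableEq Eis] (hρ : M49.RhoRel ρ) (l : ℤ) (τ : ℝ) (v : ℝ → ℂ) {P : Finset Eis}
    {p r : Eis} (hp : PP p) (hpP : p ∉ P) (hr : ¬ p ∣ r) {Y : ℝ} (hY : 0 < Y) :
    Mt l τ v ρ (r * p) P Y = Mt l τ v ρ (r * p) (insert p P) Y +
      gt (r * p) (p ^ 2) * ch l τ p ^ 2 * Mt l τ v ρ r (insert p P) (Y / (nm p : ℝ) ^ 2) := by
  unfold Mt
  by_cases hl : l = 0
  swap
  · simp [hl]
  subst hl
  simp only [if_true]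
  have hn : (0 : ℝ) < nm p := by exact_mod_cast nm_pos.mpr hp.prime.ne_zero
  rw [cpow_scale hY (by positivity), dens_insert hpP, hρ.one_p p r hp.prime hp.isPrim hr,
    localGauss.sq hp hr]
  have h1 := ch_zero_cpow (τ := τ) hp.prime.ne_zero 2
  have h3 : (starRingEnd ℂ) (gs r p / ((Real.sqrt (nm p) : ℝ) : ℂ)) = (starRingEnd ℂ) (gt r p) := rfl
  have h4 : (((nm p : ℝ) ^ (-((5 : ℝ) * ((2 : ℕ) : ℝ) / 6)) : ℝ) : ℂ) * ((Real.sqrt (nm p) : ℝ) : ℂ)
      = 1 / (nm p : ℂ) * (((nm p : ℝ) ^ (-(1 : ℝ) / 6) : ℝ) : ℂ) := by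
    have e : (1 : ℂ) / (nm p : ℂ) = (((nm p : ℝ) ^ (-1 : ℝ) : ℝ) : ℂ) := by
      rw [Real.rpow_neg_one]; push_cast; rw [one_div]
    rw [e, Real.sqrt_eq_rpow, ← Complex.ofReal_mul, ← Complex.ofReal_mul, ← Real.rpow_add hn,
      ← Real.rpow_add hn]
    congr 2
    push_cast; norm_num
  rw [h3]
  have h5 : ((Real.sqrt (nm p) : ℝ) : ℂ) * (starRingEnd ℂ) (gt r p) * ch 0 τ p ^ 2 * (
      ρ r * (((1 : ℂ) + 1 / (nm p : ℂ))⁻¹ * dens P) * mellin v (se τ) *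
      ((Y : ℂ) ^ se τ * (((nm p : ℝ) ^ 2 : ℝ) : ℂ) ^ (-se τ))) =
      (starRingEnd ℂ) (gt r p) * ((ch 0 τ p ^ 2 * (((nm p : ℝ) ^ 2 : ℝ) : ℂ) ^ (-se τ)) *
      ((Real.sqrt (nm p) : ℝ) : ℂ)) * (ρ r * (((1 : ℂ) + 1 / (nm p : ℂ))⁻¹ * dens P) *
      mellin v (se τ) * (Y : ℂ) ^ se τ) := by ring
  rw [h5, h1, h4]
  have h6 := one_add_inv_ne (p := p)
  field_simp

/-- relation 3 for the main term. -/
lemma Mt_rel3 [DecidableEq Eis] (hρ : M49.RhoRel ρ) (l : ℤ) (τ : ℝ) (v : ℝ → ℂ) {P : Finset Eis}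
    {p r : Eis} (hp : PP p) (hr : ¬ p ∣ r) {Y : ℝ} :
    Mt l τ v ρ (r * p ^ 2) P Y = Mt l τ v ρ (r * p ^ 2) (insert p P) Y +
      -(Real.sqrt (nm p) : ℂ) * ch l τ p ^ 3 *
        Mt l τ v ρ (r * p ^ 2) (insert p P) (Y / (nm p : ℝ) ^ 3) := by
  unfold Mt
  rw [hρ.two_p p r hp.prime hp.isPrim hr]
  simp

/-- growth near zero. -/
lemma growth_Ef {v : ℝ → ℂ} (hv : M49.Wt v) (l : ℤ) (τ : ℝ) (r : Eis) (P : Finset Eis) :
    ∃ C : ℝ, ∀ Y, 0 < Y → Y ≤ 1 → ‖Ef l τ v ρ r P Y‖ ≤ C * Y ^ ((5 : ℝ) / 6) := by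
  classical
  obtain ⟨a, b, ha, hab, hsup⟩ := hv.supp
  have hb : 0 < b := ha.trans hab
  obtain ⟨Cv, hCv⟩ : ∃ Cv : ℝ, ∀ x, ‖v x‖ ≤ Cv := by
    have hcont : Continuous v := hv.smooth.continuous
    have hcs : HasCompactSupport v := by
      refine HasCompactSupport.of_support_subset_isCompact (isCompact_Icc (a := a) (b := b)) ?_
      intro x hx
      by_contra h
      apply hx
      apply hsup
      rw [Set.mem_Icc, not_and_or] at h
      rcases h with h | h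
      · left; exact not_le.mp h
      · right; exact not_le.mp h
    exact hcont.bounded_above_of_compact_support hcs
  have hCv0 : 0 ≤ Cv := (norm_nonneg _).trans (hCv 0)
  -- the finite sum
  set T : Finset Eis := ball ⌈b⌉₊ with hT
  set C1 : ℝ := ∑ x ∈ T, ‖gt r x‖ * Cv with hC1
  have hC10 : 0 ≤ C1 := Finset.sum_nonneg fun x _ => by positivity
  have hU : ∀ Y, 0 < Y → Y ≤ 1 → ‖U gt (ch l τ) v r P Y‖ ≤ C1 * b ^ ((5 : ℝ) / 6) * Y ^ ((5 : ℝ) / 6) := by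
    intro Y hY hY1
    by_cases hYb : Y * b < 1
    · have : U gt (ch l τ) v r P Y = 0 := by
        unfold U
        have h0 : ∀ x : Eis, (if IsPrim x ∧ cop P x then
            gt r x * ch l τ x * v ((nm x : ℝ) / Y) else 0) = 0 := by
          intro x
          split_ifs with hx
          · have h1 : (1 : ℝ) ≤ nm x := by exact_mod_cast nm_pos.mpr hx.1.ne_zero
            have : v ((nm x : ℝ) / Y) = 0 := by
              apply hsup; right
              rw [lt_div_iff₀ hY]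
              nlinarith
            rw [this, mul_zero]
          · rfl
        simp only [h0, tsum_zero]
      rw [this, norm_zero]; positivity
    · push Not at hYb
      have h1 : U gt (ch l τ) v r P Y = ∑ x ∈ T, if IsPrim x ∧ cop P x then
          gt r x * ch l τ x * v ((nm x : ℝ) / Y) else 0 := by
        unfold U
        rw [tsum_eq_sum]
        intro x hx
        split_ifs with hxp
        · have : v ((nm x : ℝ) / Y) = 0 := by
            apply hsup; right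
            rw [hT, mem_ball] at hx
            push Not at hx
            have h2 : b < nm x := lt_of_le_of_lt (Nat.le_ceil b) (by exact_mod_cast hx)
            rw [lt_div_iff₀ hY]
            nlinarith
          rw [this, mul_zero]
        · rfl
      rw [h1]
      have h2 : ‖∑ x ∈ T, if IsPrim x ∧ cop P x then
          gt r x * ch l τ x * v ((nm x : ℝ) / Y) else 0‖ ≤ C1 := by
        refine (norm_sum_le _ _).trans (Finset.sum_le_sum fun x _ => ?_)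
        split_ifs with hxp
        · rw [norm_mul, norm_mul, norm_ch hxp.1.ne_zero, mul_one]
          gcongr
          exact hCv _
        · rw [norm_zero]; positivity
      refine h2.trans ?_
      rw [mul_assoc, ← Real.mul_rpow hb.le hY.le]
      have h3 : (1 : ℝ) ≤ (b * Y) ^ ((5 : ℝ) / 6) := by
        apply Real.one_le_rpow _ (by norm_num)
        rw [mul_comm]; exact hYb
      nlinarith
  refine ⟨C1 * b ^ ((5 : ℝ) / 6) + ‖ρ r * dens P * mellin v (se τ)‖, fun Y hY hY1 => ?_⟩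
  unfold Ef
  refine (norm_sub_le _ _).trans ?_
  rw [add_mul]
  refine add_le_add (hU Y hY hY1) ?_
  unfold Mt
  split_ifs
  · rw [norm_mul]
    gcongr
    rw [Complex.norm_cpow_eq_rpow_re_of_pos hY]
    apply le_of_eq
    congr 1
    unfold se; simp
  · rw [norm_zero]; positivity

/-- **The recursion holds for the Gauss sums.** -/
theorem rec_Ef [DecidableEq Eis] (hρ : M49.RhoRel ρ) {v : ℝ → ℂ} (hv : M49.Wt v) (l : ℤ) (τ : ℝ) :
    Rec (Ef l τ v ρ) := by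
  obtain ⟨a, b, ha, hab, hsup⟩ := hv.supp
  have hW : ∀ x, b < x → v x = 0 := fun x hx => hsup x (Or.inr hx)
  refine ⟨⟨fun r p => gt r p * ch l τ p, fun r p => gt (r * p) (p ^ 2) * ch l τ p ^ 2,
    ?_, ?_, ?_, ?_⟩, ⟨fun p => -(Real.sqrt (nm p) : ℂ) * ch l τ p ^ 3, ?_, ?_⟩, growth_Ef hv l τ⟩
  · intro r p hp hr
    rw [norm_mul, localGauss.norm1 hp hr, norm_ch hp.prime.ne_zero, one_mul]
  · intro r p hp hr
    rw [norm_mul, norm_pow, norm_ch hp.prime.ne_zero, one_pow, mul_one, localGauss.sq hp hr,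
      norm_mul, Complex.norm_real, Real.norm_of_nonneg (Real.sqrt_nonneg _), RCLike.norm_conj,
      localGauss.norm1 hp hr, mul_one, Real.sqrt_eq_rpow]
  · intro P r p hP hp hpP hr Y hY
    unfold Ef
    rw [rel1 localGauss (ch_mul l τ) hW hP hp hpP hr hY, Mt_rel1 hρ l τ v hp hpP hr hY]
    ring
  · intro P r p hP hp hpP hr Y hY
    unfold Ef
    rw [rel2 localGauss (ch_mul l τ) hW hP hp hpP hr hY, Mt_rel2 hρ l τ v hp hpP hr hY]
    ring
  · intro p hp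
    rw [norm_mul, norm_pow, norm_ch hp.prime.ne_zero, one_pow, mul_one, norm_neg,
      Complex.norm_real, Real.norm_of_nonneg (Real.sqrt_nonneg _), Real.sqrt_eq_rpow]
  · intro P r p hP hp hpP hr Y hY
    unfold Ef
    rw [rel3 localGauss (ch_mul l τ) hW hP hp hpP hr hY, Mt_rel3 hρ l τ v hp hr]
    ring

end Crest.Agent.R012.TypeI941
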