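import Crest.Agent.R012.TypeI5_941
import Crest.Agent.R012.ResOut_785

/-!
# Row 12, item TI (part 6): from `M49.MS` to the base mean square, and `M49.TypeI`
-/

set_option autoImplicit false

noncomputable section

open Complex
open scoped ENNReal

namespace Crest.Agent.R012.TypeI941

open Crest.Agent.R012 Eis LS2 Mob705 GaussLoc283

variable {ρ : Eis → ℂ}

/-- `Ef` at the empty set is the summand of `M49.MS`. -/
lemma Ef_empty (l : ℤ) (τ : ℝ) (v : ℝ → ℂ) (h : Eis) (Y : ℝ) :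
    Ef l τ v ρ h ∅ Y = M49.SS l τ v h Y - (if l = 0 then
        ρ h * mellin v ((5 : ℂ) / 6 + τ * Complex.I) * (Y : ℂ) ^ ((5 : ℂ) / 6 + τ * Complex.I)
        else 0) := by
  unfold Ef
  congr 1
  · unfold U M49.SS
    refine tsum_congr fun b => ?_
    have hc : cop ∅ b := fun p hp => absurd hp (Finset.notMem_empty p)
    by_cases hb : IsPrim b
    · simp only [hb, hc, and_self, if_true]
      unfold gt ch
      ring
    · simp [hb]
  · unfold Mt dens se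
    simp

lemma SS_zero {v : ℝ → ℂ} {b : ℝ} (hv : ∀ x, b < x → v x = 0) (l : ℤ) (τ : ℝ) (h : Eis) {Y : ℝ}
    (hY : 0 < Y) (hYb : Y * b < 1) : M49.SS l τ v h Y = 0 := by
  unfold M49.SS
  have h0 : ∀ d : Eis, (open Classical in if IsPrim d then
    gs h d / ((Real.sqrt (nm d) : ℝ) : ℂ) * ang l d * v (nm d / Y) *
      (nm d : ℂ) ^ ((τ : ℂ) * Complex.I) else 0) = 0 := by
    intro d
    split_ifs with hd
    · have h1 : (1 : ℝ) ≤ nm d := by exact_mod_cast nm_pos.mpr hd.ne_zero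
      have : v ((nm d : ℝ) / Y) = 0 := by
        apply hv
        rw [lt_div_iff₀ hY]
        nlinarith
      rw [this]; ring
    · rfl
  simp only [h0, tsum_zero]

/-- `M49.MS` with exponent `Y^{1+δ}` for all `Y > 0`. -/
theorem MS_strong (hMS : M49.MS ρ) (l : ℤ) {v : ℝ → ℂ} (hv : M49.Wt v) {δ : ℝ} (hδ : 0 < δ)
    (hδ1 : δ ≤ 2 / 3) : ∃ C : ℝ, 0 ≤ C ∧ ∀ (N : ℕ) (Y τ : ℝ), 1 ≤ N → 0 < Y →
      ∑ h ∈ ball N, ‖Ef l τ v ρ h ∅ Y‖ ^ 2 ≤
        C * ((1 + |τ|) * N) ^ δ * (N + τ ^ 2) * Y ^ (1 + δ) := by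
  obtain ⟨C, hC⟩ := hMS l v hv δ hδ
  obtain ⟨a, b, ha, hab, hsup⟩ := hv.supp
  set b1 : ℝ := max b 1 with hb1
  have hb1' : 1 ≤ b1 := le_max_right _ _
  have hbb1 : b ≤ b1 := le_max_left _ _
  have hC0 : 0 ≤ |C| := abs_nonneg C
  set X0 : ℝ := 1 / (2 * b1) with hX0
  have hX0p : 0 < X0 := by positivity
  have hX01 : X0 ≤ 1 := by rw [hX0, div_le_one (by positivity)]; linarith
  set A : ℝ := |C| * 2 ^ δ * (b1 ^ δ + X0 * X0⁻¹ ^ ((5 : ℝ) / 3)) with hA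
  have hA0 : 0 ≤ A := by positivity
  refine ⟨A, hA0, fun N Y τ hN hY => ?_⟩
  have hN' : (1 : ℝ) ≤ N := by exact_mod_cast hN
  have hT : 1 ≤ 1 + |τ| := by linarith [abs_nonneg τ]
  have hbase : 0 < (1 + |τ|) * N := by positivity
  have hms : ∀ Y, 0 < Y → ∑ h ∈ ball N, ‖Ef l τ v ρ h ∅ Y‖ ^ 2 ≤
      |C| * ((1 + |τ|) * (1 + Y) * N) ^ δ * ((N + τ ^ 2) * Y) := by
    intro Y hY
    simp only [Ef_empty]
    refine (hC N Y τ hN hY).trans ?_
    gcongr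
    exact le_abs_self C
  have hpow : ∀ Y, 0 < Y → Y ≤ 1 → ((1 + |τ|) * (1 + Y) * N) ^ δ ≤ 2 ^ δ * ((1 + |τ|) * N) ^ δ := by
    intro Y hY hY1
    rw [← Real.mul_rpow (by norm_num) hbase.le]
    apply Real.rpow_le_rpow (by positivity) _ hδ.le
    have : (1 + |τ|) * (1 + Y) * N = (1 + Y) * ((1 + |τ|) * N) := by ring
    rw [this]
    gcongr
    linarith
  by_cases hY1 : 1 ≤ Y
  · -- large Y
    refine (hms Y hY).trans ?_
    have h1 : ((1 + |τ|) * (1 + Y) * N) ^ δ ≤ 2 ^ δ * ((1 + |τ|) * N) ^ δ * Y ^ δ := by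
      rw [← Real.mul_rpow (by norm_num) hbase.le, ← Real.mul_rpow (by positivity) hY.le]
      apply Real.rpow_le_rpow (by positivity) _ hδ.le
      have : (1 + |τ|) * (1 + Y) * N = (1 + Y) * ((1 + |τ|) * N) := by ring
      rw [this]
      have : 2 * ((1 + |τ|) * N) * Y = (2 * Y) * ((1 + |τ|) * N) := by ring
      rw [this]
      gcongr
      linarith
    calc |C| * ((1 + |τ|) * (1 + Y) * N) ^ δ * ((N + τ ^ 2) * Y)
        ≤ |C| * (2 ^ δ * ((1 + |τ|) * N) ^ δ * Y ^ δ) * ((N + τ ^ 2) * Y) := by gcongr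
      _ = (|C| * 2 ^ δ) * ((1 + |τ|) * N) ^ δ * (N + τ ^ 2) * (Y ^ (1 : ℝ) * Y ^ δ) := by
          rw [Real.rpow_one]; ring
      _ = (|C| * 2 ^ δ) * ((1 + |τ|) * N) ^ δ * (N + τ ^ 2) * Y ^ (1 + δ) := by
          rw [← Real.rpow_add hY]
      _ ≤ _ := by
          gcongr
          rw [hA]
          have h2 : 1 ≤ b1 ^ δ := Real.one_le_rpow hb1' hδ.le
          have h3 : 0 ≤ X0 * X0⁻¹ ^ ((5 : ℝ) / 3) := by positivity
          have h4 : 0 ≤ |C| * 2 ^ δ := by positivity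
          nlinarith
  · push Not at hY1
    by_cases hYb : Y * b1 < 1
    · -- tiny Y : only the main term
      have hE : ∀ h, ∀ Z, 0 < Z → Z * b1 < 1 → ‖Ef l τ v ρ h ∅ Z‖ ^ 2 =
          (if l = 0 then ‖ρ h * mellin v (se τ)‖ ^ 2 else 0) * Z ^ ((5 : ℝ) / 3) := by
        intro h Z hZ hZb
        rw [Ef_empty, SS_zero (b := b1) (fun x hx => hsup x (Or.inr (lt_of_le_of_lt hbb1 hx)))
          l τ h hZ hZb, zero_sub, norm_neg]
        split_ifs with hl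
        · rw [norm_mul, mul_pow, Complex.norm_cpow_eq_rpow_re_of_pos hZ]
          have e : ((5 : ℂ) / 6 + τ * Complex.I).re = 5 / 6 := by simp
          rw [e]
          congr 1
          rw [← Real.rpow_natCast, ← Real.rpow_mul hZ.le]
          norm_num
        · simp
      have hX0b : X0 * b1 < 1 := by
        rw [hX0]; field_simp; norm_num
      have h5 := hms X0 hX0p
      rw [Finset.sum_congr rfl (fun h _ => hE h X0 hX0p hX0b), ← Finset.sum_mul] at h5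
      rw [Finset.sum_congr rfl (fun h _ => hE h Y hY hYb), ← Finset.sum_mul]
      set R : ℝ := ∑ h ∈ ball N, (if l = 0 then ‖ρ h * mellin v (se τ)‖ ^ 2 else 0) with hR
      have hR0 : 0 ≤ R := Finset.sum_nonneg fun h _ => by split_ifs <;> positivity
      have h6 : R ≤ |C| * 2 ^ δ * (X0 * X0⁻¹ ^ ((5 : ℝ) / 3)) * ((1 + |τ|) * N) ^ δ * (N + τ ^ 2) := by
        have h7 : R * X0 ^ ((5 : ℝ) / 3) * X0⁻¹ ^ ((5 : ℝ) / 3) = R := by
          rw [mul_assoc, ← Real.mul_rpow hX0p.le (by positivity), mul_inv_cancel₀ hX0p.ne',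
            Real.one_rpow, mul_one]
        rw [← h7]
        calc R * X0 ^ ((5 : ℝ) / 3) * X0⁻¹ ^ ((5 : ℝ) / 3)
            ≤ (|C| * ((1 + |τ|) * (1 + X0) * N) ^ δ * ((N + τ ^ 2) * X0)) *
              X0⁻¹ ^ ((5 : ℝ) / 3) := by gcongr
          _ ≤ (|C| * (2 ^ δ * ((1 + |τ|) * N) ^ δ) * ((N + τ ^ 2) * X0)) *
              X0⁻¹ ^ ((5 : ℝ) / 3) := by
              gcongr
              exact hpow X0 hX0p hX01
          _ = _ := by ring
      calc R * Y ^ ((5 : ℝ) / 3)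
          ≤ (|C| * 2 ^ δ * (X0 * X0⁻¹ ^ ((5 : ℝ) / 3)) * ((1 + |τ|) * N) ^ δ * (N + τ ^ 2)) *
            Y ^ (1 + δ) := by
            apply mul_le_mul h6 _ (by positivity) (by positivity)
            apply Real.rpow_le_rpow_of_exponent_ge hY hY1.le
            linarith
        _ ≤ _ := by
            gcongr
            rw [hA]
            have h2 : 0 ≤ b1 ^ δ := by positivity
            have h4 : 0 ≤ |C| * 2 ^ δ := by positivity
            nlinarith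
    · push Not at hYb
      refine (hms Y hY).trans ?_
      have h8 : (1 : ℝ) ≤ b1 ^ δ * Y ^ δ := by
        rw [← Real.mul_rpow (by positivity) hY.le, mul_comm b1]
        exact Real.one_le_rpow hYb hδ.le
      calc |C| * ((1 + |τ|) * (1 + Y) * N) ^ δ * ((N + τ ^ 2) * Y)
          ≤ |C| * (2 ^ δ * ((1 + |τ|) * N) ^ δ) * ((N + τ ^ 2) * Y) := by
            gcongr
            exact hpow Y hY hY1.le
        _ = (|C| * 2 ^ δ * ((1 + |τ|) * N) ^ δ * (N + τ ^ 2) * Y) * 1 := by ring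
        _ ≤ (|C| * 2 ^ δ * ((1 + |τ|) * N) ^ δ * (N + τ ^ 2) * Y) * (b1 ^ δ * Y ^ δ) := by
            gcongr
        _ = (|C| * 2 ^ δ * b1 ^ δ) * ((1 + |τ|) * N) ^ δ * (N + τ ^ 2) * (Y ^ (1 : ℝ) * Y ^ δ) := by
            rw [Real.rpow_one]; ring
        _ = (|C| * 2 ^ δ * b1 ^ δ) * ((1 + |τ|) * N) ^ δ * (N + τ ^ 2) * Y ^ (1 + δ) := by
            rw [← Real.rpow_add hY]
        _ ≤ _ := by
            gcongr
            rw [hA]
            have h3 : 0 ≤ X0 * X0⁻¹ ^ ((5 : ℝ) / 3) := by positivity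
            have h4 : 0 ≤ |C| * 2 ^ δ := by positivity
            nlinarith

/-- the hypothesis `hM` of `Rec.meanSq`. -/
theorem base_meanSq (hMS : M49.MS ρ) (l : ℤ) {v : ℝ → ℂ} (hv : M49.Wt v) {δ : ℝ} (hδ : 0 < δ)
    (hδ1 : δ ≤ 2 / 3) : ∃ C : ℝ, 0 ≤ C ∧ ∀ (s0 : Eis) (τ : ℝ), s0 ≠ 0 →
      ∀ H : ℝ, 1 ≤ H → ∀ Y : ℝ, 0 < Y →
      ∑ h ∈ S H, ‖Ef l τ v ρ (s0 * h) ∅ Y‖ₑ ^ 2 ≤
        ENNReal.ofReal ((C * (1 + |τ|) ^ δ * (nm s0 : ℝ) ^ (1 + δ)) * (H + τ ^ 2) * H ^ δ) *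
          ENNReal.ofReal (Y ^ (1 + δ)) := by
  classical
  obtain ⟨C, hC0, hC⟩ := MS_strong hMS l hv hδ hδ1
  refine ⟨C, hC0, fun s0 τ hs0 H hH Y hY => ?_⟩
  have hn0 : (1 : ℝ) ≤ nm s0 := by exact_mod_cast nm_pos.mpr hs0
  have hHp : 0 < H := by linarith
  set N : ℕ := ⌊(nm s0 : ℝ) * H⌋₊ with hN
  have hNle : (N : ℝ) ≤ nm s0 * H := Nat.floor_le (by positivity)
  have hN1 : 1 ≤ N := by
    rw [hN]
    apply Nat.le_floor
    push_cast
    nlinarith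
  have hN1' : (1 : ℝ) ≤ N := by exact_mod_cast hN1
  have hinj : Set.InjOn (fun h : Eis => s0 * h) (S H) := fun x _ y _ h => mul_left_cancel₀ hs0 h
  have h1 : ∑ h ∈ S H, ‖Ef l τ v ρ (s0 * h) ∅ Y‖ₑ ^ 2 ≤ ∑ h ∈ ball N, ‖Ef l τ v ρ h ∅ Y‖ₑ ^ 2 := by
    rw [← Finset.sum_image (f := fun h => ‖Ef l τ v ρ h ∅ Y‖ₑ ^ 2) hinj]
    apply Finset.sum_le_sum_of_subset
    intro x hx
    obtain ⟨h, hh, rfl⟩ := Finset.mem_image.mp hx
    rw [mem_S hHp.le] at hh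
    rw [mem_ball, nm_mul]
    apply Nat.le_floor
    push_cast
    gcongr
    exact hh.1
  have h2 : ∑ h ∈ ball N, ‖Ef l τ v ρ h ∅ Y‖ₑ ^ 2 =
      ENNReal.ofReal (∑ h ∈ ball N, ‖Ef l τ v ρ h ∅ Y‖ ^ 2) := by
    rw [ENNReal.ofReal_sum_of_nonneg (fun _ _ => by positivity)]
    refine Finset.sum_congr rfl fun h _ => ?_
    rw [ENNReal.ofReal_pow (norm_nonneg _), ofReal_norm]
  refine h1.trans ?_
  rw [h2, ← ENNReal.ofReal_mul (by positivity)]
  apply ENNReal.ofReal_le_ofReal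
  refine (hC N Y τ hN1 hY).trans ?_
  have h3 : ((1 + |τ|) * N) ^ δ ≤ (1 + |τ|) ^ δ * ((nm s0 : ℝ) ^ δ * H ^ δ) := by
    rw [← Real.mul_rpow (by positivity) hHp.le, ← Real.mul_rpow (by positivity) (by positivity)]
    gcongr
  have h4 : (N : ℝ) + τ ^ 2 ≤ nm s0 * (H + τ ^ 2) := by nlinarith [sq_nonneg τ]
  calc C * ((1 + |τ|) * N) ^ δ * (N + τ ^ 2) * Y ^ (1 + δ)
      ≤ C * ((1 + |τ|) ^ δ * ((nm s0 : ℝ) ^ δ * H ^ δ)) * (nm s0 * (H + τ ^ 2)) * Y ^ (1 + δ) := by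
        gcongr
    _ = _ := by
        rw [Real.rpow_add (by linarith : (0 : ℝ) < nm s0), Real.rpow_one]; ring

/-- divisor bound for `2 ^ #(pp d)`. -/
lemma two_pow_card_pp_le {d : Eis} (hd : d ≠ 0) : (2 : ℝ) ^ (pp d).card ≤ Div277.tau d := by
  classical
  unfold Div277.tau
  rw [← Nat.cast_ofNat, ← Nat.cast_pow, ← Finset.card_powerset]
  norm_cast
  refine Finset.card_le_card_of_injOn (fun T => ∏ q ∈ T, q) ?_ ?_
  · intro T hT
    have hT' : T ⊆ pp d := Finset.mem_powerset.mp hT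
    have hTP : PPSet T := (ppSet_pp d).subset hT'
    show (∏ q ∈ T, q) ∈ Div277.dvs d
    rw [Div277.mem_dvs hd]
    refine ⟨hTP.isPrim_prod, (hTP.prod_dvd).mpr fun q hq => dvd_of_mem_pp (hT' hq)⟩
  · intro T hT T' hT' h
    have h1 : PPSet T := (ppSet_pp d).subset (Finset.mem_powerset.mp hT)
    have h2 : PPSet T' := (ppSet_pp d).subset (Finset.mem_powerset.mp hT')
    have := congrArg pp h
    simp only at this
    rwa [h1.pp_prod, h2.pp_prod] at this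

end Crest.Agent.R012.TypeI941
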