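import Crest.Agent.R012.TypeI8_941
import Crest.Agent.R012.CR2Spec_180
import Crest.Agent.R012.Char_766

/-!
# Row 12, item TI (part 8): the natural Type I sums `NatS V (n r) X t` for arbitrary `r ≠ 0`
-/

set_option autoImplicit false

noncomputable section

open Complex
open scoped ENNReal

namespace Crest.Agent.R012.TypeI941

open Crest.Agent.R012 Eis LS2 Mob705 GaussLoc283 Char766

variable {ρ : Eis → ℂ}

lemma not_dvd_unit_lam {p : Eis} (hp : IsPP p) (i j : ℕ) : ¬ p ∣ w ^ i * lam ^ j := by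
  intro h
  rcases hp.prime.dvd_or_dvd h with h | h
  · exact hp.prime.not_isUnit (isUnit_of_dvd_unit (hp.prime.dvd_of_dvd_pow h) isUnit_w)
  · have h1 := hp.prime.dvd_of_dvd_pow h
    have h2 : Associated p lam := (hp.prime.dvd_prime_iff_associated prime_lam).mp h1
    exact hp.isPrim.not_lam_dvd h2.symm.dvd

lemma cop_iff {a b : Eis} (ha : a ≠ 0) (hb : IsPrim b) : cop (pp a) b ↔ IsCoprime a b := by
  rw [isCoprime_comm, isCoprime_iff_pp hb]
  unfold cop
  constructor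
  · intro h p hp hpb hpa
    exact h p ((mem_pp ha).mpr ⟨hp, hpa⟩) hpb
  · intro h p hp hpb
    exact h p (isPP_of_mem_pp hp) hpb (dvd_of_mem_pp hp)

section
variable {r : Eis} {i j : ℕ} {k1 k2 m : Eis}

lemma dvd_dec_iff (hd : IsCubDec r i j k1 k2 m) {p : Eis} (hp : IsPP p) :
    p ∣ r ↔ p ∣ k1 ∨ p ∣ k2 ∨ p ∣ m := by
  rw [hd.eq]
  constructor
  · intro h
    rcases hp.prime.dvd_or_dvd h with h | h
    · rcases hp.prime.dvd_or_dvd h with h | h
      · rcases hp.prime.dvd_or_dvd h with h | h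
        · exact absurd h (not_dvd_unit_lam hp i j)
        · exact Or.inl h
      · exact Or.inr (Or.inl (hp.prime.dvd_of_dvd_pow h))
    · exact Or.inr (Or.inr (hp.prime.dvd_of_dvd_pow h))
  · rintro (h | h | h)
    · exact ((h.mul_left _).mul_right _).mul_right _
    · exact ((h.trans (dvd_pow_self _ two_ne_zero)).mul_left _).mul_right _
    · exact (h.trans (dvd_pow_self _ three_ne_zero)).mul_left _

/-- primes dividing `r` -/
lemma pp_dec [DecidableEq Eis] (hd : IsCubDec r i j k1 k2 m) :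
    pp r = pp k1 ∪ ((pp m \ (pp k1 ∪ pp k2)) ∪ pp k2) := by
  ext p
  simp only [Finset.mem_union, Finset.mem_sdiff, mem_pp hd.ne_zero, mem_pp hd.prim1.ne_zero,
    mem_pp hd.prim2.ne_zero, mem_pp hd.ne]
  by_cases hp : IsPP p
  · simp only [hp, true_and, dvd_dec_iff hd hp]
    tauto
  · simp [hp]

/-- the reduced modulus times the cube. -/
lemma red_mul (hd : IsCubDec r i j k1 k2 m) (n : Eis) :
    w ^ i * lam ^ j * k2 ^ 2 * (n * k1) * m ^ 3 = n * r := by
  rw [hd.eq]; ring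

lemma coprime_red (hd : IsCubDec r i j k1 k2 m) {n k : Eis} (h : IsCoprime (n * r) k) :
    IsCoprime (w ^ i * lam ^ j * k2 ^ 2 * (n * k1)) k ∧ IsCoprime m k := by
  rw [← red_mul hd n] at h
  exact ⟨h.of_mul_left_left, (h.of_mul_left_right).of_isCoprime_of_dvd_left
    (dvd_pow_self m three_ne_zero)⟩

/-- **Natural sums as `U`.** -/
theorem NatS_eq (hd : IsCubDec r i j k1 k2 m) (V : ℝ → ℝ) (t : ℝ) {n : Eis} (hn : IsPrim n)
    (X : ℝ) :
    CR2.NatS V (n * r) X t = U gt (ch 0 t) (fun x => (V x : ℂ))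
      (w ^ i * lam ^ j * k2 ^ 2 * (n * k1)) (pp (n * r)) X := by
  have hnr0 : n * r ≠ 0 := mul_ne_zero hn.ne_zero hd.ne_zero
  unfold CR2.NatS U
  refine tsum_congr fun k => ?_
  by_cases hk : IsPrim k
  swap
  · simp [hk]
  by_cases hc : cop (pp (n * r)) k
  · simp only [hk, hc, and_self, if_true]
    obtain ⟨h1, h2⟩ := coprime_red hd ((cop_iff hnr0 hk).mp hc)
    have h3 : sy (n * r) k = sy (w ^ i * lam ^ j * k2 ^ 2 * (n * k1)) k := by
      rw [← red_mul hd n, sy_mul_left hk, sy_cube_left hk h2, mul_one]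
    have h4 : gt (w ^ i * lam ^ j * k2 ^ 2 * (n * k1)) k =
        (starRingEnd ℂ) (sy (w ^ i * lam ^ j * k2 ^ 2 * (n * k1)) k) * G k := by
      unfold gt
      rw [Gauss880.gs_of_coprime Gauss880.syG hk h1, mul_div_assoc]
      rfl
    have h5 : ch 0 t k = (nm k : ℂ) ^ ((t : ℂ) * Complex.I) := by
      unfold ch ang; simp
    rw [h3, h4, h5]
    ring
  · have h1 : ¬ IsCoprime (n * r) k := fun h => hc ((cop_iff hnr0 hk).mpr h)
    have h2 : sy (n * r) k = 0 := Char766.sy_eq_zero hk h1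
    simp [hk, hc, h2]

lemma dens_union [DecidableEq Eis] {P Q : Finset Eis} (h : Disjoint P Q) :
    dens (P ∪ Q) = dens P * dens Q := by
  unfold dens; rw [Finset.prod_union h]

lemma dens_pp_eq_phi (n : Eis) : dens (pp n) = ((CR2.phi n : ℝ) : ℂ) := by
  unfold dens CR2.phi; push_cast; rfl

/-- the constant `c` of `CR2.TypeI`. -/
def cN (ρ : Eis → ℂ) (V : ℝ → ℝ) (r h : Eis) (X t : ℝ) : ℂ :=
  ρ h * dens (pp r) * mellin (fun x => (V x : ℂ)) (se t) * (X : ℂ) ^ (se t)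

/-- **Main term.** -/
theorem Mt_natS (hR : M49.RhoRel ρ) (hd : IsCubDec r i j k1 k2 m) (V : ℝ → ℝ) (t : ℝ) {n : Eis}
    (hn : IsPrim n) (hs : Squarefree n) (hnr : IsCoprime n r) (X : ℝ) :
    Mt 0 t (fun x => (V x : ℂ)) ρ (w ^ i * lam ^ j * k2 ^ 2 * (n * k1)) (pp (n * r)) X =
      cN ρ V r (w ^ i * lam ^ j * k2 ^ 2 * k1) X t * (sy r n * (starRingEnd ℂ) (G n) *
        ((nm n : ℝ) ^ (-(1 : ℝ) / 6) * CR2.phi n : ℝ)) := by
  classical
  have hcop : IsCoprime (w ^ i * lam ^ j * k2 ^ 2 * (1 * k1)) n ∧ IsCoprime m n :=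
    coprime_red hd (by rw [one_mul]; exact hnr.symm)
  rw [one_mul] at hcop
  obtain ⟨h1, h2⟩ := hcop
  unfold Mt cN
  simp only [if_true]
  have e : w ^ i * lam ^ j * k2 ^ 2 * (n * k1) = (w ^ i * lam ^ j * k2 ^ 2 * k1) * n := by ring
  have h3 : sy r n = sy (w ^ i * lam ^ j * k2 ^ 2 * k1) n := by
    have := red_mul hd 1
    rw [one_mul, one_mul] at this
    rw [← this, sy_mul_left hn, sy_cube_left hn h2, mul_one]
  rw [e, hR.sqfree hn _ hs h1, Gauss880.gs_of_coprime Gauss880.syG hn h1,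
    pp_mul hn.ne_zero hd.ne_zero, dens_union (pp_disjoint hnr), dens_pp_eq_phi, h3,
    mul_div_assoc, map_mul, Complex.conj_conj]
  have h6 : gs 1 n / ((Real.sqrt (nm n) : ℝ) : ℂ) = G n := rfl
  rw [h6]
  push_cast
  ring

end

end Crest.Agent.R012.TypeI941
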