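import Crest.Agent.R012.Mob_705

/-!
# Row 12, item TI (part 1): the local recursion for sums of Gauss sums with coprimality

`U g χ W r P Y = Σ_{b primary, (b, ∏P) = 1} g r b · χ b · W (N(b) / Y)`.

* `rel1`, `rel2` : adding a prime `p` to the coprimality condition `P`.
-/

set_option autoImplicit false
set_option linter.unusedSimpArgs false

noncomputable section

open Complex
open scoped ENNReal

namespace Crest.Agent.R012.TypeI941

open Crest.Agent.R012 Eis

/-- Primary primes. -/
abbrev PP (p : Eis) : Prop := Mob705.IsPP p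

/-- `b` is prime to all elements of `P`. -/
def cop (P : Finset Eis) (b : Eis) : Prop := ∀ p ∈ P, ¬ p ∣ b

/-- The local facts on normalised Gauss sums `g r b = gs r b / √N(b)` used in the recursion. -/
structure LocalGauss (g : Eis → Eis → ℂ) : Prop where
  vanish0 : ∀ {r b p : Eis}, PP p → ¬ p ∣ r → IsPrim b → p ^ 2 ∣ b → g r b = 0
  mul1 : ∀ {r b p : Eis}, PP p → ¬ p ∣ r → IsPrim b → ¬ p ∣ b →
    g r (p * b) = g r p * g (r * p) b
  vanish1 : ∀ {r b p : Eis}, PP p → ¬ p ∣ r → IsPrim b → ¬ p ∣ b → g (r * p) (p * b) = 0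
  vanish3 : ∀ {r b p : Eis}, PP p → ¬ p ∣ r → IsPrim b → p ^ 3 ∣ b → g (r * p) b = 0
  mul2 : ∀ {r b p : Eis}, PP p → ¬ p ∣ r → IsPrim b → ¬ p ∣ b →
    g (r * p) (p ^ 2 * b) = g (r * p) (p ^ 2) * g r b
  norm1 : ∀ {r p : Eis}, PP p → ¬ p ∣ r → ‖g r p‖ = 1
  sq : ∀ {r p : Eis}, PP p → ¬ p ∣ r →
    g (r * p) (p ^ 2) = (Real.sqrt (nm p) : ℂ) * (starRingEnd ℂ) (g r p)
  sqv : ∀ {r b p : Eis}, PP p → ¬ p ∣ r → IsPrim b → ¬ p ∣ b → g (r * p ^ 2) (p * b) = 0
  sqv2 : ∀ {r b p : Eis}, PP p → ¬ p ∣ r → IsPrim b → ¬ p ∣ b → g (r * p ^ 2) (p ^ 2 * b) = 0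
  sqv4 : ∀ {r b p : Eis}, PP p → ¬ p ∣ r → IsPrim b → p ^ 4 ∣ b → g (r * p ^ 2) b = 0
  mul3 : ∀ {r b p : Eis}, PP p → ¬ p ∣ r → IsPrim b → ¬ p ∣ b →
    g (r * p ^ 2) (p ^ 3 * b) = -(Real.sqrt (nm p) : ℂ) * g (r * p ^ 2) b

open Classical in
/-- `U g χ W r P Y = Σ_{b primary, (b, P) = 1} g r b χ b W(N(b)/Y)`. -/
def U (g : Eis → Eis → ℂ) (χ : Eis → ℂ) (W : ℝ → ℂ) (r : Eis) (P : Finset Eis) (Y : ℝ) : ℂ :=
  ∑' b : Eis, if IsPrim b ∧ cop P b then g r b * χ b * W ((nm b : ℝ) / Y) else 0

/-! ### Splitting off a prime -/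

lemma finite_support_of_bdd {F : Eis → ℂ} (X : ℝ) (hF : ∀ b : Eis, X < nm b → F b = 0) :
    (Function.support F).Finite := by
  refine (ball ⌈max X 0⌉₊).finite_toSet.subset fun b hb => ?_
  rw [Finset.mem_coe, mem_ball]
  by_contra h
  push Not at h
  apply hb
  apply hF
  calc X ≤ max X 0 := le_max_left _ _
    _ ≤ (⌈max X 0⌉₊ : ℝ) := Nat.le_ceil _
    _ < nm b := by exact_mod_cast h

lemma tsum_split_prime {F : Eis → ℂ} (hF : (Function.support F).Finite) {p : Eis} (hp : p ≠ 0) :
    ∑' b, F b = (∑' b, open Classical in if p ∣ b then 0 else F b) + ∑' b, F (p * b) := by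
  classical
  have hs : Summable F := summable_of_hasFiniteSupport hF
  have hinj : Function.Injective (fun b : Eis => p * b) := mul_right_injective₀ hp
  have h1 : ∑' b, F (p * b) = ∑' b, if p ∣ b then F b else 0 := by
    have hsup : Function.support (fun b => if p ∣ b then F b else 0) ⊆
        Set.range (fun b : Eis => p * b) := by
      intro b hb
      by_cases h : p ∣ b
      · obtain ⟨c, rfl⟩ := h; exact ⟨c, rfl⟩
      · simp [h] at hb
    have := hinj.tsum_eq hsup
    rw [← this]
    refine tsum_congr fun b => ?_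
    simp
  rw [h1, ← Summable.tsum_add]
  · refine tsum_congr fun b => ?_
    by_cases h : p ∣ b <;> simp [h]
  · apply summable_of_hasFiniteSupport
    refine hF.subset fun b hb => ?_
    by_cases h : p ∣ b
    · simp [h] at hb
    · simpa [h] using hb
  · apply summable_of_hasFiniteSupport
    refine hF.subset fun b hb => ?_
    by_cases h : p ∣ b
    · simpa [h] using hb
    · simp [h] at hb

lemma PP.isPrim_mul_iff {p b : Eis} (hp : PP p) : IsPrim (p * b) ↔ IsPrim b :=
  ⟨fun h => h.of_mul_left hp.isPrim, fun h => hp.isPrim.mul h⟩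

lemma PP.dvd_mul_iff {p q b : Eis} (hp : PP p) (hq : PP q) (hne : p ≠ q) :
    p ∣ q * b ↔ p ∣ b := by
  constructor
  · intro h
    rcases hp.prime.dvd_or_dvd h with h | h
    · exfalso; apply hne
      exact hp.isPrim.eq_of_associated hq.isPrim (hp.prime.associated_of_dvd hq.prime h)
    · exact h
  · intro h; exact h.mul_left _

lemma cop_mul_iff {P : Finset Eis} (hP : ∀ q ∈ P, PP q) {p b : Eis} (hp : PP p) (hpP : p ∉ P) :
    cop P (p * b) ↔ cop P b := by
  unfold cop
  refine forall₂_congr fun q hq => ?_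
  rw [(hP q hq).dvd_mul_iff hp (fun h => hpP (h ▸ hq))]

lemma cop_insert {P : Finset Eis} [DecidableEq Eis] {p b : Eis} :
    cop (insert p P) b ↔ ¬ p ∣ b ∧ cop P b := by
  unfold cop; simp [Finset.forall_mem_insert]

variable {g : Eis → Eis → ℂ} {χ : Eis → ℂ} {W : ℝ → ℂ} {β : ℝ}

open Classical in
lemma support_term_finite (hW : ∀ x, β < x → W x = 0) (r : Eis) (P : Finset Eis) {Y : ℝ}
    (hY : 0 < Y) :
    (Function.support fun b : Eis =>
      if IsPrim b ∧ cop P b then g r b * χ b * W ((nm b : ℝ) / Y) else 0).Finite := by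
  apply finite_support_of_bdd (β * Y)
  intro b hb
  have : W ((nm b : ℝ) / Y) = 0 := hW _ (by rwa [lt_div_iff₀ hY])
  simp [this]

/-- Adding the prime `p` (prime to `r`) to the coprimality condition. -/
lemma rel1 [DecidableEq Eis] (hg : LocalGauss g) (hχ : ∀ a b, χ (a * b) = χ a * χ b)
    (hW : ∀ x, β < x → W x = 0) {P : Finset Eis} (hP : ∀ q ∈ P, PP q)
    {p r : Eis} (hp : PP p) (hpP : p ∉ P) (hr : ¬ p ∣ r) {Y : ℝ} (hY : 0 < Y) :
    U g χ W r P Y = U g χ W r (insert p P) Y +
      g r p * χ p * U g χ W (r * p) (insert p P) (Y / nm p) := by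
  classical
  have hn : (0 : ℝ) < nm p := by exact_mod_cast nm_pos.mpr hp.prime.ne_zero
  unfold U
  rw [tsum_split_prime (support_term_finite hW r P hY) hp.prime.ne_zero, ← tsum_mul_left]
  congr 1
  · refine tsum_congr fun b => ?_
    simp only [cop_insert]
    by_cases h : p ∣ b <;> simp [h]
  · refine tsum_congr fun b => ?_
    simp only [cop_insert, cop_mul_iff hP hp hpP, hp.isPrim_mul_iff]
    by_cases hb : IsPrim b
    · by_cases h : p ∣ b
      · have : g r (p * b) = 0 := by
          refine hg.vanish0 hp hr (hp.isPrim.mul hb) ?_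
          rw [pow_two]; exact mul_dvd_mul_left p h
        simp [h, this]
      · by_cases hc : cop P b
        · have e : ((nm (p * b) : ℕ) : ℝ) / Y = (nm b : ℝ) / (Y / nm p) := by
            rw [nm_mul]; push_cast; field_simp
          simp only [hb, hc, h, not_false_eq_true, and_self, if_true, and_true, true_and]
          rw [hg.mul1 hp hr hb h, hχ, e]
          ring
        · simp [hc]
    · simp [hb]

/-- Adding the prime `p` (dividing the numerator exactly once) to the coprimality condition. -/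
lemma rel2 [DecidableEq Eis] (hg : LocalGauss g) (hχ : ∀ a b, χ (a * b) = χ a * χ b)
    (hW : ∀ x, β < x → W x = 0) {P : Finset Eis} (hP : ∀ q ∈ P, PP q)
    {p r : Eis} (hp : PP p) (hpP : p ∉ P) (hr : ¬ p ∣ r) {Y : ℝ} (hY : 0 < Y) :
    U g χ W (r * p) P Y = U g χ W (r * p) (insert p P) Y +
      g (r * p) (p ^ 2) * χ p ^ 2 * U g χ W r (insert p P) (Y / (nm p : ℝ) ^ 2) := by
  classical
  have hn : (0 : ℝ) < nm p := by exact_mod_cast nm_pos.mpr hp.prime.ne_zero
  unfold U
  have hfin := support_term_finite (g := g) (χ := χ) hW (r * p) P hY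
  rw [tsum_split_prime hfin hp.prime.ne_zero, ← tsum_mul_left]
  congr 1
  · refine tsum_congr fun b => ?_
    simp only [cop_insert]
    by_cases h : p ∣ b <;> simp [h]
  · have hfin2 : (Function.support fun b : Eis =>
        (fun b : Eis => if IsPrim b ∧ cop P b then g (r * p) b * χ b * W ((nm b : ℝ) / Y) else 0)
          (p * b)).Finite := by
      exact Set.Finite.preimage (mul_right_injective₀ hp.prime.ne_zero).injOn hfin
    rw [tsum_split_prime hfin2 hp.prime.ne_zero]
    have hzero : (∑' b : Eis, if p ∣ b then 0 else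
        (fun b : Eis => (fun b : Eis => if IsPrim b ∧ cop P b then
          g (r * p) b * χ b * W ((nm b : ℝ) / Y) else 0) (p * b)) b) = 0 := by
      rw [← tsum_zero (β := Eis)]
      refine tsum_congr fun b => ?_
      by_cases h : p ∣ b
      · simp [h]
      · simp only [h, if_false]
        by_cases hb : IsPrim b
        · simp [hg.vanish1 hp hr hb h]
        · simp [hp.isPrim_mul_iff, hb]
    rw [hzero, zero_add]
    refine tsum_congr fun b => ?_
    simp only [cop_insert, cop_mul_iff hP hp hpP, hp.isPrim_mul_iff]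
    by_cases hb : IsPrim b
    · by_cases h : p ∣ b
      · have : g (r * p) (p * (p * b)) = 0 := by
          refine hg.vanish3 hp hr (hp.isPrim.mul (hp.isPrim.mul hb)) ?_
          obtain ⟨c, rfl⟩ := h
          exact ⟨c, by ring⟩
        simp [h, this]
      · by_cases hc : cop P b
        · have e : ((nm (p * (p * b)) : ℕ) : ℝ) / Y = (nm b : ℝ) / (Y / (nm p : ℝ) ^ 2) := by
            rw [nm_mul, nm_mul]; push_cast; field_simp
          simp only [hb, hc, h, not_false_eq_true, and_self, if_true, and_true, true_and]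
          have e2 : p * (p * b) = p ^ 2 * b := by ring
          rw [e, e2, hg.mul2 hp hr hb h, hχ, pow_two p, hχ]
          ring
        · simp [hc]
    · simp [hb]

/-- Adding the prime `p` (dividing the numerator exactly twice) to the coprimality condition. -/
lemma rel3 [DecidableEq Eis] (hg : LocalGauss g) (hχ : ∀ a b, χ (a * b) = χ a * χ b)
    (hW : ∀ x, β < x → W x = 0) {P : Finset Eis} (hP : ∀ q ∈ P, PP q)
    {p r : Eis} (hp : PP p) (hpP : p ∉ P) (hr : ¬ p ∣ r) {Y : ℝ} (hY : 0 < Y) :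
    U g χ W (r * p ^ 2) P Y = U g χ W (r * p ^ 2) (insert p P) Y +
      -(Real.sqrt (nm p) : ℂ) * χ p ^ 3 * U g χ W (r * p ^ 2) (insert p P) (Y / (nm p : ℝ) ^ 3) := by
  classical
  have hn : (0 : ℝ) < nm p := by exact_mod_cast nm_pos.mpr hp.prime.ne_zero
  have hp0 := hp.prime.ne_zero
  unfold U
  set F : Eis → ℂ := fun b => if IsPrim b ∧ cop P b then
    g (r * p ^ 2) b * χ b * W ((nm b : ℝ) / Y) else 0 with hF
  have hfin : (Function.support F).Finite :=
    support_term_finite (g := g) (χ := χ) hW (r * p ^ 2) P hY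
  have hfin1 : (Function.support fun b => F (p * b)).Finite :=
    Set.Finite.preimage (mul_right_injective₀ hp0).injOn hfin
  have hfin2 : (Function.support fun b => F (p * (p * b))).Finite :=
    Set.Finite.preimage (mul_right_injective₀ hp0).injOn hfin1
  have hz1 : ∀ b, ¬ p ∣ b → F (p * b) = 0 := by
    intro b h
    simp only [hF]
    by_cases hb : IsPrim b
    · simp [hg.sqv hp hr hb h]
    · simp [hp.isPrim_mul_iff, hb]
  have hz2 : ∀ b, ¬ p ∣ b → F (p * (p * b)) = 0 := by
    intro b h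
    simp only [hF]
    by_cases hb : IsPrim b
    · have e : p * (p * b) = p ^ 2 * b := by ring
      simp [e, hg.sqv2 hp hr hb h]
    · simp [hp.isPrim_mul_iff, hb]
  rw [tsum_split_prime hfin hp0, tsum_split_prime hfin1 hp0, tsum_split_prime hfin2 hp0]
  have hzero1 : (∑' b : Eis, if p ∣ b then 0 else F (p * b)) = 0 := by
    rw [← tsum_zero (β := Eis)]
    refine tsum_congr fun b => ?_
    by_cases h : p ∣ b
    · simp [h]
    · simp [h, hz1 b h]
  have hzero2 : (∑' b : Eis, if p ∣ b then 0 else F (p * (p * b))) = 0 := by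
    rw [← tsum_zero (β := Eis)]
    refine tsum_congr fun b => ?_
    by_cases h : p ∣ b
    · simp [h]
    · simp [h, hz2 b h]
  rw [hzero1, zero_add, hzero2, zero_add, ← tsum_mul_left]
  congr 1
  · refine tsum_congr fun b => ?_
    simp only [cop_insert, hF]
    by_cases h : p ∣ b <;> simp [h]
  · refine tsum_congr fun b => ?_
    simp only [cop_insert, cop_mul_iff hP hp hpP, hp.isPrim_mul_iff, hF]
    by_cases hb : IsPrim b
    · by_cases h : p ∣ b
      · have : g (r * p ^ 2) (p * (p * (p * b))) = 0 := by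
          refine hg.sqv4 hp hr (hp.isPrim.mul (hp.isPrim.mul (hp.isPrim.mul hb))) ?_
          obtain ⟨c, rfl⟩ := h
          exact ⟨c, by ring⟩
        simp [h, this]
      · by_cases hc : cop P b
        · have e : ((nm (p * (p * (p * b))) : ℕ) : ℝ) / Y = (nm b : ℝ) / (Y / (nm p : ℝ) ^ 3) := by
            rw [nm_mul, nm_mul, nm_mul]; push_cast; field_simp
          simp only [hb, hc, h, not_false_eq_true, and_self, if_true, and_true, true_and]
          have e2 : p * (p * (p * b)) = p ^ 3 * b := by ring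
          rw [e, e2, hg.mul3 hp hr hb h, hχ, show p ^ 3 = p * (p * p) by ring, hχ, hχ]
          ring
        · simp [hc]
    · simp [hb]

end Crest.Agent.R012.TypeI941
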