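import Crest.Agent.R012.Frame_695

/-!
# Row 12 (M-U), part 2: the slab, the weight and the invariant measure

For a subgroup `Δ ≤ Γ(3)` whose upper unipotent elements are the `(1, 3 q b; 0, 1)`:
`Slab q`, `rowsOf Δ`, the weight `rho Δ q` with `Σ_{γ ∈ Δ} rho (γ M) = 1`, and the measure
`nu Δ q = rho Δ q • volume` on frames.
-/

set_option autoImplicit false

noncomputable section

open MeasureTheory Complex
open scoped ENNReal

namespace Crest.Agent.R012.K695

open Eis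

/-! ### Coordinates of `ℂ` with respect to `1, ω` -/

/-- First coordinate. -/
def cx (z : ℂ) : ℝ := z.re + z.im / Real.sqrt 3
/-- Second coordinate. -/
def cy (z : ℂ) : ℝ := 2 * z.im / Real.sqrt 3

lemma sqrt3_pos : 0 < Real.sqrt 3 := Real.sqrt_pos.mpr (by norm_num)

@[simp] lemma cx_toC (b : Eis) : cx (toC b) = b.re := by
  have h := sqrt3_pos.ne'
  rw [cx, toC_re, toC_im]; field_simp; ring

@[simp] lemma cy_toC (b : Eis) : cy (toC b) = b.im := by
  have h := sqrt3_pos.ne'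
  rw [cy, toC_im]; field_simp

lemma cx_add (z z' : ℂ) : cx (z + z') = cx z + cx z' := by simp [cx]; ring
lemma cy_add (z z' : ℂ) : cy (z + z') = cy z + cy z' := by simp [cy]; ring

lemma measurable_cx : Measurable cx := by unfold cx; fun_prop
lemma measurable_cy : Measurable cy := by unfold cy; fun_prop

/-- The fundamental parallelogram of `ℤ[ω]`. -/
def P0 : Set ℂ := {z | (0 ≤ cx z ∧ cx z < 1) ∧ (0 ≤ cy z ∧ cy z < 1)}

lemma measurableSet_P0 : MeasurableSet P0 := by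
  unfold P0
  refine MeasurableSet.inter (MeasurableSet.inter ?_ ?_) (MeasurableSet.inter ?_ ?_)
  · exact measurableSet_le measurable_const measurable_cx
  · exact measurableSet_lt measurable_cx measurable_const
  · exact measurableSet_le measurable_const measurable_cy
  · exact measurableSet_lt measurable_cy measurable_const

lemma P0_iff (z : ℂ) (b : Eis) : z + toC b ∈ P0 ↔ b = ⟨-⌊cx z⌋, -⌊cy z⌋⟩ := by
  unfold P0
  simp only [Set.mem_ofPred_eq, cx_add, cy_add, cx_toC, cy_toC]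
  have key : ∀ (x : ℝ) (n : ℤ), (0 ≤ x + n ∧ x + n < 1) ↔ n = -⌊x⌋ := by
    intro x n
    constructor
    · rintro ⟨h1, h2⟩
      have : ⌊x⌋ = -n := by
        rw [Int.floor_eq_iff]; push_cast; constructor <;> linarith
      omega
    · rintro rfl
      push_cast
      constructor
      · linarith [Int.floor_le x]
      · linarith [Int.lt_floor_add_one x]
  rw [key, key]
  constructor
  · rintro ⟨h1, h2⟩; exact ext' h1 h2
  · rintro rfl; exact ⟨rfl, rfl⟩

/-! ### The slab -/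

/-- The coordinate `z` of `η = z ζ + η^⊥`. -/
def zc (M : Frm) : ℂ :=
  (M.1.1 * (starRingEnd ℂ) M.2.1 + M.1.2 * (starRingEnd ℂ) M.2.2) / (n2 M.2 : ℂ)

lemma continuous_n2 : Continuous n2 := by unfold n2; fun_prop

lemma n2_nonneg (u : Vec) : 0 ≤ n2 u := by unfold n2; positivity

lemma n2_eq_zero {u : Vec} : n2 u = 0 ↔ u = 0 := by
  unfold n2
  constructor
  · intro h
    have h1 : ‖u.1‖ ^ 2 = 0 := by nlinarith [sq_nonneg ‖u.1‖, sq_nonneg ‖u.2‖]
    have h2 : ‖u.2‖ ^ 2 = 0 := by nlinarith [sq_nonneg ‖u.1‖, sq_nonneg ‖u.2‖]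
    ext1
    · simpa using h1
    · simpa using h2
  · rintro rfl; simp

lemma n2_cast (u : Vec) :
    (n2 u : ℂ) = u.1 * (starRingEnd ℂ) u.1 + u.2 * (starRingEnd ℂ) u.2 := by
  unfold n2
  rw [Complex.mul_conj, Complex.mul_conj, Complex.normSq_eq_norm_sq, Complex.normSq_eq_norm_sq]
  push_cast; ring

lemma measurable_zc : Measurable zc := by
  unfold zc
  have h1 : Measurable (fun M : Frm => (n2 M.2 : ℂ)) :=
    Complex.measurable_ofReal.comp (continuous_n2.measurable.comp measurable_snd)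
  have h2 : Continuous (fun M : Frm =>
      M.1.1 * (starRingEnd ℂ) M.2.1 + M.1.2 * (starRingEnd ℂ) M.2.2) := by fun_prop
  exact h2.measurable.div h1

/-- The slab: `z(M) / (3 q) ∈ P0`. -/
def Slab (q : Eis) : Set Frm := {M | zc M / (3 * toC q) ∈ P0}

lemma measurableSet_Slab (q : Eis) : MeasurableSet (Slab q) :=
  (measurable_zc.div_const _) measurableSet_P0

/-- The unipotent element `(1, 3b; 0, 1)`. -/
def nU (b : Eis) : Gam :=
  mkGam 1 (3 * b) 0 1 (by ring) isPrim_one (Dvd.intro _ rfl) (dvd_zero _) isPrim_one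

lemma act_nU (b : Eis) (M : Frm) : act (nU b) M = (M.1 + (3 * toC b) • M.2, M.2) := by
  have h3 : toC 3 = 3 := map_ofNat toC 3
  rw [act_def]
  simp [nU, h3]

lemma nU_mul (b c : Eis) : nU b * nU c = nU (b + c) := by
  apply gam_ext <;> simp [nU, ga_mul, gb_mul, gc_mul, gd_mul] <;> ring

lemma nU_zero : nU 0 = 1 := by
  apply gam_ext <;> simp [nU]

lemma nU_inv (b : Eis) : (nU b)⁻¹ = nU (-b) := by
  rw [inv_eq_iff_mul_eq_one, nU_mul, add_neg_cancel, nU_zero]

/-- An element with bottom row `(0, 1)` is unipotent. -/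
lemma eq_nU {g : Gam} (hc : gc g = 0) (hd : gd g = 1) : ∃ b, g = nU b := by
  obtain ⟨b, hb⟩ := gb_dvd g
  refine ⟨b, gam_ext ?_ ?_ ?_ ?_⟩
  · have := det_eq g
    rw [hc, hd] at this
    simpa [nU] using this
  · simpa [nU] using hb
  · simpa [nU] using hc
  · simpa [nU] using hd

lemma zc_add_smul (M : Frm) (t : ℂ) (h : M.2 ≠ 0) : zc (M.1 + t • M.2, M.2) = zc M + t := by
  have hn : (n2 M.2 : ℂ) ≠ 0 := by
    rw [Ne, Complex.ofReal_eq_zero, n2_eq_zero]; exact h
  unfold zc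
  simp only [Prod.fst_add, Prod.snd_add, Prod.smul_fst, Prod.smul_snd, smul_eq_mul]
  field_simp
  rw [n2_cast]
  ring

lemma slab_iff {q : Eis} (hq : q ≠ 0) {M : Frm} (h : M.2 ≠ 0) (b : Eis) :
    act (nU (q * b)) M ∈ Slab q ↔
      b = ⟨-⌊cx (zc M / (3 * toC q))⌋, -⌊cy (zc M / (3 * toC q))⌋⟩ := by
  rw [← P0_iff, act_nU]
  unfold Slab
  simp only [Set.mem_ofPred_eq]
  rw [zc_add_smul M _ h]
  have hq' : toC q ≠ 0 := by simpa using hq
  have : (zc M + 3 * toC (q * b)) / (3 * toC q) = zc M / (3 * toC q) + toC b := by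
    rw [map_mul]; field_simp
  rw [this]

lemma snd_ne_zero_of_det {M : Frm} (h : det2 M ≠ 0) : M.2 ≠ 0 := by
  rintro h0
  apply h
  simp [det2, h0]

/-! ### Subgroups -/

/-- `Δ ≤ Γ(3)` with upper unipotents `(1, 3 q b; 0, 1)`. -/
structure IsLev (Δ : Subgroup Gam) (q : Eis) : Prop where
  q_ne : q ≠ 0
  nU_mem : ∀ b, nU b ∈ Δ ↔ q ∣ b

lemma isLev_top : IsLev ⊤ 1 := ⟨one_ne_zero, fun b => by simp⟩

/-- The bottom row. -/
def row (g : Gam) : Eis × Eis := (gc g, gd g)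

lemma row_mul (g h : Gam) : row (g * h) = rmul (row g) h := by
  simp [row, rmul, gc_mul, gd_mul]

lemma act_snd' (g : Gam) (M : Frm) : (act g M).2 = rowv (row g) M := rfl

/-- The bottom rows of the elements of `Δ`. -/
def rowsOf (Δ : Subgroup Gam) : Set (Eis × Eis) := {r | ∃ g ∈ Δ, row g = r}

lemma rowsOf_isRow {Δ : Subgroup Gam} {r : Eis × Eis} (h : r ∈ rowsOf Δ) : IsRow r := by
  obtain ⟨g, -, rfl⟩ := h
  exact isRow_gam g

lemma rowsOf_top : rowsOf ⊤ = {r | IsRow r} := by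
  ext r
  constructor
  · exact rowsOf_isRow
  · intro h
    obtain ⟨g, h1, h2⟩ := exists_gam h
    exact ⟨g, trivial, Prod.ext h1 h2⟩

lemma rmul_mem_rowsOf {Δ : Subgroup Gam} {r : Eis × Eis} (h : r ∈ rowsOf Δ) {g : Gam}
    (hg : g ∈ Δ) : rmul r g ∈ rowsOf Δ := by
  obtain ⟨h', hh, rfl⟩ := h
  exact ⟨h' * g, Δ.mul_mem hh hg, row_mul _ _⟩

lemma rmul_mem_rowsOf_iff {Δ : Subgroup Gam} {r : Eis × Eis} {g : Gam}
    (hg : g ∈ Δ) : rmul r g ∈ rowsOf Δ ↔ r ∈ rowsOf Δ := by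
  refine ⟨fun h => ?_, fun h => rmul_mem_rowsOf h hg⟩
  have := rmul_mem_rowsOf h (Δ.inv_mem hg)
  rwa [← rmul_mul, mul_inv_cancel, rmul_one] at this

/-- Elements of `Δ` with the same row differ by a unipotent. -/
lemma eq_of_row {Δ : Subgroup Gam} {q : Eis} (hL : IsLev Δ q) {g h : Gam} (hg : g ∈ Δ)
    (hh : h ∈ Δ) (e : row g = row h) : ∃ b, g = nU (q * b) * h := by
  have h1 : row (g * h⁻¹) = (0, 1) := by
    rw [row_mul, e, ← row_mul, mul_inv_cancel]; simp [row]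
  obtain ⟨b, hb⟩ := eq_nU (g := g * h⁻¹) (congrArg Prod.fst h1) (congrArg Prod.snd h1)
  have h2 : nU b ∈ Δ := hb ▸ Δ.mul_mem hg (Δ.inv_mem hh)
  obtain ⟨b', rfl⟩ := (hL.nU_mem b).mp h2
  exact ⟨b', by rw [← hb]; simp⟩

/-- The unique element of `Δ` with a given row which moves `M` to the slab. -/
lemma exists_unique_slab {Δ : Subgroup Gam} {q : Eis} (hL : IsLev Δ q) {M : Frm}
    (hM : det2 M ≠ 0) {r : Eis × Eis} (hr : r ∈ rowsOf Δ) :
    ∃! g : Gam, (g ∈ Δ ∧ row g = r) ∧ act g M ∈ Slab q := by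
  obtain ⟨h, hh, rfl⟩ := hr
  have hdet : det2 (act h M) ≠ 0 := by rwa [det2_act]
  have h2 := snd_ne_zero_of_det hdet
  set b : Eis := ⟨-⌊cx (zc (act h M) / (3 * toC q))⌋, -⌊cy (zc (act h M) / (3 * toC q))⌋⟩ with hb
  have hrow : ∀ c, row (nU c * h) = row h := by
    intro c
    simp [row, gc_mul, gd_mul, nU]
  refine ⟨nU (q * b) * h, ⟨⟨Δ.mul_mem ((hL.nU_mem _).mpr (Dvd.intro _ rfl)) hh, hrow _⟩, ?_⟩, ?_⟩
  · rw [act_mul, slab_iff hL.q_ne h2]
  · rintro g ⟨⟨hg, e⟩, hs⟩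
    obtain ⟨b', rfl⟩ := eq_of_row hL hg hh e
    rw [act_mul, slab_iff hL.q_ne h2] at hs
    rw [hs]

/-- Choice of the element of `exists_unique_slab`. -/
def sec {Δ : Subgroup Gam} {q : Eis} (hL : IsLev Δ q) {M : Frm}
    (hM : det2 M ≠ 0) (r : rowsOf Δ) : Δ :=
  ⟨(exists_unique_slab hL hM r.2).choose, (exists_unique_slab hL hM r.2).choose_spec.1.1.1⟩

lemma row_sec {Δ : Subgroup Gam} {q : Eis} (hL : IsLev Δ q) {M : Frm}
    (hM : det2 M ≠ 0) (r : rowsOf Δ) : row (sec hL hM r).1 = r.1 :=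
  (exists_unique_slab hL hM r.2).choose_spec.1.1.2

lemma sec_mem {Δ : Subgroup Gam} {q : Eis} (hL : IsLev Δ q) {M : Frm}
    (hM : det2 M ≠ 0) (r : rowsOf Δ) : act (sec hL hM r).1 M ∈ Slab q :=
  (exists_unique_slab hL hM r.2).choose_spec.1.2

lemma eq_sec {Δ : Subgroup Gam} {q : Eis} (hL : IsLev Δ q) {M : Frm}
    (hM : det2 M ≠ 0) (g : Δ) (h : act g.1 M ∈ Slab q) :
    g = sec hL hM ⟨row g.1, ⟨g.1, g.2, rfl⟩⟩ := by
  apply Subtype.ext
  have hr : row g.1 ∈ rowsOf Δ := ⟨g.1, g.2, rfl⟩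
  exact (exists_unique_slab hL hM hr).choose_spec.2 g.1 ⟨⟨g.2, rfl⟩, h⟩

open Classical in
/-- Sum over `Δ` restricted to the slab = sum over rows. -/
theorem tsum_slab {X : Type*} [AddCommMonoid X] [TopologicalSpace X] {Δ : Subgroup Gam} {q : Eis}
    (hL : IsLev Δ q) {M : Frm} (hM : det2 M ≠ 0) (u : Eis × Eis → X) :
    ∑' g : Δ, (if act g.1 M ∈ Slab q then u (row g.1) else 0) = ∑' r : rowsOf Δ, u r.1 := by
  have hinj : Function.Injective (sec hL hM) := by
    intro r r' e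
    apply Subtype.ext
    rw [← row_sec hL hM r, e, row_sec hL hM r']
  have hsupp : Function.support
      (fun g : Δ => (if act g.1 M ∈ Slab q then u (row g.1) else 0)) ⊆ Set.range (sec hL hM) := by
    intro g hg
    rw [Function.mem_support] at hg
    by_cases h : act g.1 M ∈ Slab q
    · exact ⟨_, (eq_sec hL hM g h).symm⟩
    · simp [h] at hg
  rw [← hinj.tsum_eq hsupp]
  apply tsum_congr
  intro r
  rw [if_pos (sec_mem hL hM r), row_sec]

open Classical in
lemma summable_slab {X : Type*} [AddCommMonoid X] [TopologicalSpace X] {Δ : Subgroup Gam} {q : Eis}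
    (hL : IsLev Δ q) {M : Frm} (hM : det2 M ≠ 0) (u : Eis × Eis → X) :
    Summable (fun g : Δ => (if act g.1 M ∈ Slab q then u (row g.1) else 0)) ↔
      Summable (fun r : rowsOf Δ => u r.1) := by
  have hinj : Function.Injective (sec hL hM) := by
    intro r r' e
    apply Subtype.ext
    rw [← row_sec hL hM r, e, row_sec hL hM r']
  have hsupp : ∀ g : Δ, g ∉ Set.range (sec hL hM) →
      (if act g.1 M ∈ Slab q then u (row g.1) else 0) = 0 := by
    intro g hg
    by_contra hne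
    by_cases h : act g.1 M ∈ Slab q
    · exact hg ⟨_, (eq_sec hL hM g h).symm⟩
    · simp [h] at hne
  rw [← hinj.summable_iff hsupp]
  apply Iff.of_eq
  congr 1
  funext r
  simp only [Function.comp_apply]
  rw [if_pos (sec_mem hL hM r), row_sec]

end Crest.Agent.R012.K695
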