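import Crest.Agent.R012.Unfold_695

/-!
# Row 12 (M-U), part 3: the weight `rho` and the measure `nu`
-/

set_option autoImplicit false

noncomputable section

open MeasureTheory Complex
open scoped ENNReal

namespace Crest.Agent.R012.K695

open Eis

/-! ### Summability -/

lemma summable_gauss_int {e : ℝ} (he : 0 < e) : Summable (fun n : ℤ => Real.exp (-e * (n : ℝ) ^ 2)) := by
  have h1 : Summable (fun n : ℤ => e⁻¹ * (1 / (n : ℝ) ^ 2)) :=
    (Real.summable_one_div_int_pow.mpr (by norm_num)).mul_left _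
  refine Summable.of_norm_bounded_eventually h1 ?_
  have hfin : {x : ℤ | x = 0}.Finite := Set.finite_singleton 0
  filter_upwards [hfin.compl_mem_cofinite] with n hn
  have hn0 : (n : ℝ) ≠ 0 := by
    simpa using hn
  rw [Real.norm_eq_abs, abs_of_pos (Real.exp_pos _)]
  have hpos : 0 < e * (n : ℝ) ^ 2 := by positivity
  have h2 : e * (n : ℝ) ^ 2 ≤ Real.exp (e * (n : ℝ) ^ 2) := by
    linarith [Real.add_one_le_exp (e * (n : ℝ) ^ 2)]
  have h3 : -e * (n : ℝ) ^ 2 = -(e * (n : ℝ) ^ 2) := by ring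
  rw [h3, Real.exp_neg]
  have : e⁻¹ * (1 / (n : ℝ) ^ 2) = (e * (n : ℝ) ^ 2)⁻¹ := by field_simp
  rw [this]
  exact inv_anti₀ hpos h2

lemma nm_ge (x : Eis) : ((x.re : ℝ) ^ 2 + (x.im : ℝ) ^ 2) / 2 ≤ (nm x : ℝ) := by
  have h : ((nm x : ℕ) : ℝ) = ((nm x : ℤ) : ℝ) := by norm_cast
  rw [h, nm_cast]
  push_cast
  nlinarith [sq_nonneg ((x.re : ℝ) - x.im)]

lemma summable_gauss_Eis {e : ℝ} (he : 0 < e) :
    Summable (fun x : Eis => Real.exp (-e * (nm x : ℝ))) := by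
  have h1 : Summable (fun p : ℤ × ℤ => Real.exp (-(e / 2) * (p.1 : ℝ) ^ 2) *
      Real.exp (-(e / 2) * (p.2 : ℝ) ^ 2)) :=
    (summable_gauss_int (half_pos he)).mul_of_nonneg (summable_gauss_int (half_pos he))
      (fun _ => (Real.exp_pos _).le) (fun _ => (Real.exp_pos _).le)
  have hinj : Function.Injective (fun z : Eis => (z.re, z.im)) := by
    intro x y h
    simp only [Prod.mk.injEq] at h
    exact ext' h.1 h.2
  have h2 := h1.comp_injective hinj
  refine Summable.of_nonneg_of_le (fun _ => (Real.exp_pos _).le) (fun x => ?_) h2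
  simp only [Function.comp_apply]
  rw [← Real.exp_add]
  apply Real.exp_le_exp.mpr
  have := nm_ge x
  nlinarith

/-- Lagrange / Cauchy-Schwarz: `|det(u, v)|² ≤ |u|² |v|²`. -/
lemma normSq_det_le (u v : Vec) : ‖u.1 * v.2 - u.2 * v.1‖ ^ 2 ≤ n2 u * n2 v := by
  have h1 : ‖u.1 * v.2 - u.2 * v.1‖ ≤ ‖u.1‖ * ‖v.2‖ + ‖u.2‖ * ‖v.1‖ := by
    calc ‖u.1 * v.2 - u.2 * v.1‖ ≤ ‖u.1 * v.2‖ + ‖u.2 * v.1‖ := norm_sub_le _ _
      _ = _ := by rw [norm_mul, norm_mul]
  have h0 : 0 ≤ ‖u.1 * v.2 - u.2 * v.1‖ := norm_nonneg _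
  unfold n2
  have h2 : ‖u.1 * v.2 - u.2 * v.1‖ ^ 2 ≤ (‖u.1‖ * ‖v.2‖ + ‖u.2‖ * ‖v.1‖) ^ 2 := by
    apply pow_le_pow_left₀ h0 h1
  nlinarith [sq_nonneg (‖u.1‖ * ‖v.1‖ - ‖u.2‖ * ‖v.2‖)]

lemma det_rowv_left (r : Eis × Eis) (M : Frm) :
    (rowv r M).1 * M.2.2 - (rowv r M).2 * M.2.1 = toC r.1 * det2 M := by
  simp only [rowv, det2, Prod.fst_add, Prod.snd_add, Prod.smul_fst, Prod.smul_snd, smul_eq_mul]
  ring

lemma det_rowv_right (r : Eis × Eis) (M : Frm) :
    M.1.1 * (rowv r M).2 - M.1.2 * (rowv r M).1 = toC r.2 * det2 M := by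
  simp only [rowv, det2, Prod.fst_add, Prod.snd_add, Prod.smul_fst, Prod.smul_snd, smul_eq_mul]
  ring

lemma nm1_le (r : Eis × Eis) (M : Frm) :
    (nm r.1 : ℝ) * ‖det2 M‖ ^ 2 ≤ n2 (rowv r M) * n2 M.2 := by
  have h := normSq_det_le (rowv r M) M.2
  rwa [det_rowv_left, norm_mul, mul_pow, norm_toC_sq] at h

lemma nm2_le (r : Eis × Eis) (M : Frm) :
    (nm r.2 : ℝ) * ‖det2 M‖ ^ 2 ≤ n2 M.1 * n2 (rowv r M) := by
  have h := normSq_det_le M.1 (rowv r M)
  rwa [det_rowv_right, norm_mul, mul_pow, norm_toC_sq] at h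

/-- The lower bound of `|c η + d ζ|²`. -/
lemma row_bound (r : Eis × Eis) (M : Frm) :
    ((nm r.1 : ℝ) + nm r.2) * ‖det2 M‖ ^ 2 ≤ n2 (rowv r M) * (n2 M.1 + n2 M.2) := by
  have h1 := nm1_le r M
  have h2 := nm2_le r M
  nlinarith

lemma summable_gauss_rowv {M : Frm} (hM : det2 M ≠ 0) :
    Summable (fun r : Eis × Eis => Real.exp (-n2 (rowv r M))) := by
  have hd : 0 < ‖det2 M‖ ^ 2 := by positivity
  have hS : 0 < n2 M.1 + n2 M.2 := by
    have h2 := snd_ne_zero_of_det hM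
    have h3 : n2 M.2 ≠ 0 := fun h => h2 (n2_eq_zero.mp h)
    have h4 := n2_nonneg M.1
    have h5 := n2_nonneg M.2
    positivity
  set e : ℝ := ‖det2 M‖ ^ 2 / (n2 M.1 + n2 M.2) with he
  have hepos : 0 < e := div_pos hd hS
  have h1 := (summable_gauss_Eis hepos).mul_of_nonneg (summable_gauss_Eis hepos)
    (fun _ => (Real.exp_pos _).le) (fun _ => (Real.exp_pos _).le)
  refine Summable.of_nonneg_of_le (fun _ => (Real.exp_pos _).le) (fun r => ?_) h1
  rw [← Real.exp_add]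
  apply Real.exp_le_exp.mpr
  have h2 := row_bound r M
  have h3 : ((nm r.1 : ℝ) + nm r.2) * e ≤ n2 (rowv r M) := by
    rw [he, mul_div_assoc', div_le_iff₀ hS]
    exact h2
  linarith

/-- There are finitely many rows with `|c η + d ζ|² ≤ R`. -/
lemma finite_rowv {M : Frm} (hM : det2 M ≠ 0) (R : ℝ) :
    {r : Eis × Eis | n2 (rowv r M) ≤ R}.Finite := by
  have h := (summable_gauss_rowv hM).tendsto_cofinite_zero
  have h2 : ∀ᶠ r in Filter.cofinite, Real.exp (-n2 (rowv r M)) < Real.exp (-R) :=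
    h.eventually (gt_mem_nhds (Real.exp_pos _))
  rw [Filter.eventually_cofinite] at h2
  refine h2.subset ?_
  intro r hr
  simp only [Set.mem_ofPred_eq, not_lt, Real.exp_le_exp] at *
  linarith

/-! ### The weight -/

/-- The Gaussian `exp(-|u|²)`. -/
def gw (u : Vec) : ℝ≥0∞ := ENNReal.ofReal (Real.exp (-n2 u))

lemma measurable_gw : Measurable gw := by
  unfold gw
  exact ENNReal.measurable_ofReal.comp
    (Real.measurable_exp.comp continuous_n2.measurable.neg)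

/-- The sum of `gw` over the rows. -/
def hsum (Δ : Subgroup Gam) (M : Frm) : ℝ≥0∞ := ∑' r : rowsOf Δ, gw (rowv r.1 M)

instance (Δ : Subgroup Gam) : Countable (rowsOf Δ) := inferInstance
instance (Δ : Subgroup Gam) : Countable Δ := inferInstance

lemma measurable_hsum (Δ : Subgroup Gam) : Measurable (hsum Δ) := by
  unfold hsum
  exact Measurable.tsum fun r => measurable_gw.comp (measurable_rowv r.1)

lemma hsum_ne_top {Δ : Subgroup Gam} {M : Frm} (hM : det2 M ≠ 0) : hsum Δ M ≠ ∞ := by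
  unfold hsum gw
  have h := (summable_gauss_rowv hM).subtype (rowsOf Δ)
  have h2 := ENNReal.ofReal_tsum_of_nonneg
    (f := fun r : rowsOf Δ => Real.exp (-n2 (rowv r.1 M))) (fun _ => (Real.exp_pos _).le) h
  rw [← h2]
  exact ENNReal.ofReal_ne_top

lemma one_mem_rowsOf (Δ : Subgroup Gam) : ((0, 1) : Eis × Eis) ∈ rowsOf Δ :=
  ⟨1, Δ.one_mem, by simp [row]⟩

lemma hsum_ne_zero (Δ : Subgroup Gam) (M : Frm) : hsum Δ M ≠ 0 := by
  unfold hsum
  intro h
  rw [ENNReal.tsum_eq_zero] at h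
  have := h ⟨(0, 1), one_mem_rowsOf Δ⟩
  unfold gw at this
  rw [ENNReal.ofReal_eq_zero] at this
  exact absurd this (not_le.mpr (Real.exp_pos _))

/-- Right multiplication on `rowsOf Δ`. -/
def rowsOfEquiv {Δ : Subgroup Gam} {g : Gam} (hg : g ∈ Δ) : rowsOf Δ ≃ rowsOf Δ where
  toFun r := ⟨rmul r.1 g, rmul_mem_rowsOf r.2 hg⟩
  invFun r := ⟨rmul r.1 g⁻¹, rmul_mem_rowsOf r.2 (Δ.inv_mem hg)⟩
  left_inv r := by
    apply Subtype.ext
    simp only
    rw [← rmul_mul, mul_inv_cancel, rmul_one]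
  right_inv r := by
    apply Subtype.ext
    simp only
    rw [← rmul_mul, inv_mul_cancel, rmul_one]

lemma hsum_act {Δ : Subgroup Gam} {g : Gam} (hg : g ∈ Δ) (M : Frm) :
    hsum Δ (act g M) = hsum Δ M := by
  unfold hsum
  rw [← (rowsOfEquiv hg).tsum_eq (fun r : rowsOf Δ => gw (rowv r.1 M))]
  apply tsum_congr
  intro r
  rw [rowv_act]
  rfl

open Classical in
/-- The weight: `Σ_{γ ∈ Δ} rho (γ M) = 1`. -/
def rho (Δ : Subgroup Gam) (q : Eis) (M : Frm) : ℝ≥0∞ :=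
  if M ∈ Slab q then gw M.2 / hsum Δ M else 0

open Classical in
lemma measurable_rho (Δ : Subgroup Gam) (q : Eis) : Measurable (rho Δ q) := by
  unfold rho
  refine Measurable.ite (measurableSet_Slab q) ?_ measurable_const
  exact (measurable_gw.comp measurable_snd).div (measurable_hsum Δ)

theorem tsum_rho {Δ : Subgroup Gam} {q : Eis} (hL : IsLev Δ q) {M : Frm} (hM : det2 M ≠ 0) :
    ∑' g : Δ, rho Δ q (act g.1 M) = 1 := by
  classical
  unfold rho
  have h1 : ∀ g : Δ, (if act g.1 M ∈ Slab q then gw (act g.1 M).2 / hsum Δ (act g.1 M) else 0) =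
      (if act g.1 M ∈ Slab q then (fun r => gw (rowv r M) / hsum Δ M) (row g.1) else 0) := by
    intro g
    rw [hsum_act g.2, act_snd']
  rw [tsum_congr h1, tsum_slab hL hM (fun r => gw (rowv r M) / hsum Δ M)]
  simp only [div_eq_mul_inv]
  rw [ENNReal.tsum_mul_right]
  exact ENNReal.mul_inv_cancel (hsum_ne_zero Δ M) (hsum_ne_top hM)

/-- The same for the inverses. -/
theorem tsum_rho_inv {Δ : Subgroup Gam} {q : Eis} (hL : IsLev Δ q) {M : Frm} (hM : det2 M ≠ 0) :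
    ∑' g : Δ, rho Δ q (act (g.1)⁻¹ M) = 1 := by
  rw [← tsum_rho hL hM, ← (Equiv.inv Δ).tsum_eq (fun g : Δ => rho Δ q (act g.1 M))]
  rfl

/-- The invariant measure. -/
def nu (Δ : Subgroup Gam) (q : Eis) : Measure Frm := volume.withDensity (rho Δ q)

lemma rho_le_one {Δ : Subgroup Gam} {q : Eis} (hL : IsLev Δ q) {M : Frm} (hM : det2 M ≠ 0) :
    rho Δ q M ≤ 1 := by
  rw [← tsum_rho hL hM]
  have := ENNReal.le_tsum (f := fun g : Δ => rho Δ q (act g.1 M)) 1
  simpa using this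

/-- Unfolding for nonnegative functions. -/
theorem lintegral_nu_tsum {Δ : Subgroup Gam} {q : Eis} (hL : IsLev Δ q) {f : Frm → ℝ≥0∞}
    (hf : Measurable f) (h0 : ∀ M, det2 M = 0 → f M = 0) :
    ∫⁻ M, ∑' g : Δ, f (act g.1 M) ∂(nu Δ q) = ∫⁻ M, f M := by
  unfold nu
  have hmeas : ∀ g : Δ, Measurable (fun M => f (act g.1 M)) :=
    fun g => hf.comp (measurable_act g.1)
  rw [lintegral_tsum (fun g => (hmeas g).aemeasurable)]
  have h1 : ∀ g : Δ, ∫⁻ M, f (act g.1 M) ∂(volume.withDensity (rho Δ q)) =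
      ∫⁻ M, rho Δ q (act (g.1)⁻¹ M) * f M := by
    intro g
    rw [lintegral_withDensity_eq_lintegral_mul _ (measurable_rho Δ q) (hmeas g)]
    have h2 : (fun M => (rho Δ q * fun M => f (act g.1 M)) M) =
        fun M => (fun M' => rho Δ q (act (g.1)⁻¹ M') * f M') (act g.1 M) := by
      funext M
      simp only [Pi.mul_apply]
      rw [act_inv_act]
    rw [h2]
    exact (mp_act g.1).lintegral_comp
      (((measurable_rho Δ q).comp (measurable_act _)).mul hf)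
  have h3 : ∀ g : Δ, AEMeasurable (fun M => rho Δ q (act (g.1)⁻¹ M) * f M) volume := fun g =>
    (((measurable_rho Δ q).comp (measurable_act _)).mul hf).aemeasurable
  rw [tsum_congr h1, ← lintegral_tsum h3]
  apply lintegral_congr
  intro M
  rw [ENNReal.tsum_mul_right]
  by_cases hM : det2 M = 0
  · rw [h0 M hM, mul_zero]
  · rw [tsum_rho_inv hL hM, one_mul]

end Crest.Agent.R012.K695
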